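import Vale.Agent.P119.FL.Mass

/-!
# P119, block PROB: flux inequalities for pairs of lines (`helper347`)

`outT` is the exit time of a pair of free lines, so that `sepT q = outT (sc2 q)`.  The main results
are `flux_out1`, `flux_out2`, `flux_old`: for a Gaussian pair of lines that meet, the law of
(separation time, outgoing line) and of (hitting time, old line of the partner).
-/

open MeasureTheory Set Filter Topology Metric ProbabilityTheory
open scoped ENNReal

namespace Vale.Agent.P119.PB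

open KU FL

variable {Φ : E3 → ℝ} {ε : ℝ}

/-- Exit time of a pair of free lines. -/
noncomputable def outT (ε : ℝ) (q : Ph × Ph) : ℝ := ε * (-crd (rel ε q) + half (rel ε q))

theorem measurable_outT : Measurable (outT ε) := by
  have h1 : Measurable (fun q : Ph × Ph => crd (rel ε q)) :=
    measurable_crd.comp continuous_rel.measurable
  have h2 : Measurable (fun q : Ph × Ph => half (rel ε q)) :=
    measurable_half.comp continuous_rel.measurable
  exact (h1.neg.add h2).const_mul ε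

theorem sepT_eq_outT (hΦ : IsPotential Φ) (hε : ε ≠ 0) (q : Ph × Ph) :
    sepT Φ ε q = outT ε (sc2 Φ ε q) := by
  unfold sepT tout outT
  rw [rel_sc2 hε, half_scat hΦ]

theorem outT_swap (q : Ph × Ph) : outT ε q.swap = outT ε q := by
  unfold outT half
  rw [rel_swap, crd_act, perp_act, LinearIsometryEquiv.norm_map]
  unfold act
  rw [LinearIsometryEquiv.norm_map]

theorem outT_partner (hε : ε ≠ 0) (l : Ph) {u : E3} (hu : l.2 - u ≠ 0) (s : ℝ) {ρ : E3}
    (hρ : (inner ℝ ρ (l.2 - u) : ℝ) = 0) :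
    outT ε (l, partner ε l u s ρ) = s + ε * half (ρ, l.2 - u) := by
  unfold outT
  rw [crd_rel_partner hε l hu s hρ, rel_partner hε, half_free, neg_neg, mul_add,
    mul_div_cancel₀ _ hε]

/-- `T` is a time attached to pairs of lines which meet, for which the flux formula holds. -/
structure FluxTime (ε : ℝ) (T : Ph × Ph → ℝ) : Prop where
  meas : Measurable T
  swap : ∀ q, T q.swap = T q
  flux : ∀ (l : Ph) (G : ℝ → E3 → ℝ≥0∞), (Measurable fun q : ℝ × E3 => G q.1 q.2) →
    ∫⁻ l' in {l' : Ph | Meets ε (l, l')}, G (T (l, l')) l'.2 =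
      ENNReal.ofReal (ε ^ 2) * (ENNReal.ofReal Real.pi * ∫⁻ u : E3, ‖l.2 - u‖ₑ * ∫⁻ τ, G τ u)

theorem fluxTime_hitT (hε : 0 < ε) : FluxTime ε (hitT ε) :=
  ⟨measurable_hitT, hitT_swap, fun l _ hG => lintegral_hit hε l hG⟩

theorem fluxTime_outT (hε : 0 < ε) : FluxTime ε (outT ε) := by
  refine ⟨measurable_outT, outT_swap, fun l G hG => ?_⟩
  have hm : Measurable fun l' : Ph => G (outT ε (l, l')) l'.2 :=
    hG.comp ((measurable_outT.comp (measurable_const.prodMk measurable_id)).prodMk measurable_snd)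
  rw [lintegral_partner hε l hm]
  congr 1
  have hGm : Measurable fun u : E3 => ∫⁻ τ, G τ u := by
    have h : Measurable fun q : E3 × ℝ => G q.2 q.1 := hG.comp measurable_swap
    exact h.lintegral_prod_right'
  have hGm3 : Measurable fun u : E3 => ‖l.2 - u‖ₑ * ∫⁻ τ, G τ u :=
    (by fun_prop : Measurable fun u : E3 => ‖l.2 - u‖ₑ).mul hGm
  rw [← lintegral_const_mul _ hGm3]
  refine lintegral_congr fun u => ?_
  rcases eq_or_ne (l.2 - u) 0 with h0 | h0
  · rw [h0]; simp
  have h1 : ∀ s : ℝ, ∫⁻ ρ, G (outT ε (l, partner ε l u s ρ)) (partner ε l u s ρ).2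
      ∂(kappa (l.2 - u)) = ∫⁻ ρ, G (s + ε * half (ρ, l.2 - u)) u ∂(kappa (l.2 - u)) := by
    intro s
    refine lintegral_congr_ae ?_
    filter_upwards [ae_kappa h0] with ρ hρ
    rw [outT_partner hε.ne' l h0 s hρ.2]
    rfl
  simp_rw [h1]
  have hGm2 : Measurable fun q : ℝ × E3 => G (q.1 + ε * half (q.2, l.2 - u)) u := by
    refine hG.comp (Measurable.prodMk ?_ measurable_const)
    exact measurable_fst.add ((measurable_half.comp
      (measurable_snd.prodMk measurable_const)).const_mul ε)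
  rw [lintegral_lintegral_swap hGm2.aemeasurable]
  have h2 : ∀ ρ : E3, ∫⁻ s : ℝ, G (s + ε * half (ρ, l.2 - u)) u = ∫⁻ τ, G τ u := by
    intro ρ
    exact lintegral_add_right_eq_self (fun τ => G τ u) _
  simp_rw [h2]
  rw [lintegral_const, kappa_univ h0]
  ring

theorem I0_anti {a b : ℝ} (h : a ≤ b) : I0 b ≤ I0 a := by
  unfold I0
  refine lintegral_mono fun u => ENNReal.ofReal_le_ofReal ?_
  have h1 : Real.exp (-(b / 2) * ‖u‖ ^ 2) ≤ Real.exp (-(a / 2) * ‖u‖ ^ 2) := by
    apply Real.exp_le_exp.2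
    have := sq_nonneg ‖u‖
    nlinarith
  gcongr

/-- The flux of Gaussian partners. -/
theorem lintegral_vel_le' {β b : ℝ} (hb : 0 < b) (hβ : b ≤ β) (v : E3) :
    ∫⁻ u : E3, ‖v - u‖ₑ * ENNReal.ofReal (Real.exp (-β * ‖u‖ ^ 2)) ≤
      ENNReal.ofReal (1 + ‖v‖) * I0 b := by
  have h := lintegral_vel_le (b := β) v (κ := 0) (by linarith)
  simp only [zero_mul, Real.exp_zero, mul_one] at h
  exact h.trans (mul_le_mul_right (I0_anti hβ) _)

/-- The Gaussian weight. -/
noncomputable def gw (β : ℝ) (v : E3) : ℝ≥0∞ := ENNReal.ofReal (Real.exp (-β * ‖v‖ ^ 2))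

theorem measurable_gw (β : ℝ) : Measurable (gw β) := by
  unfold gw; fun_prop

theorem measurable_tind {s t : ℝ} {θ : ℝ × Ph → ℝ≥0∞} (hθ : Measurable θ) :
    Measurable fun q : ℝ × Ph => (Ioc s t).indicator (fun τ => θ (τ, q.2)) q.1 := by
  have : (fun q : ℝ × Ph => (Ioc s t).indicator (fun τ => θ (τ, q.2)) q.1) =
      (Prod.fst ⁻¹' (Ioc s t)).indicator θ := by
    funext q
    by_cases h : q.1 ∈ Ioc s t
    · rw [indicator_of_mem h, indicator_of_mem (show q ∈ Prod.fst ⁻¹' (Ioc s t) from h)]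
    · rw [indicator_of_notMem h, indicator_of_notMem (show q ∉ Prod.fst ⁻¹' (Ioc s t) from h)]
  rw [this]
  exact hθ.indicator (measurable_fst measurableSet_Ioc)

/-- The inner integral of `flux_pair`. -/
theorem flux_inner {T : Ph × Ph → ℝ} (hT : FluxTime ε T) {b β : ℝ} (hb : 0 < b) (hβ : b ≤ β)
    (l : Ph) {g : ℝ → ℝ≥0∞} (hg : Measurable g) :
    ∫⁻ l' in {l' : Ph | Meets ε (l, l')}, gw β l'.2 * g (T (l, l')) ≤
      ENNReal.ofReal (ε ^ 2) * (ENNReal.ofReal Real.pi * I0 b) *
        (ENNReal.ofReal (1 + ‖l.2‖) * ∫⁻ τ, g τ) := by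
  have hGm : Measurable fun q : ℝ × E3 => gw β q.2 * g q.1 :=
    ((measurable_gw β).comp measurable_snd).mul (hg.comp measurable_fst)
  have hfl := hT.flux l (fun τ u => gw β u * g τ) hGm
  rw [hfl]
  have h3 : ∀ u : E3, ‖l.2 - u‖ₑ * ∫⁻ τ, gw β u * g τ = (∫⁻ τ, g τ) * (‖l.2 - u‖ₑ * gw β u) := by
    intro u
    rw [lintegral_const_mul _ hg]
    ring
  simp_rw [h3]
  have hgm : Measurable fun u : E3 => ‖l.2 - u‖ₑ * gw β u :=
    (by fun_prop : Measurable fun u : E3 => ‖l.2 - u‖ₑ).mul (measurable_gw β)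
  rw [lintegral_const_mul _ hgm]
  calc ENNReal.ofReal (ε ^ 2) * (ENNReal.ofReal Real.pi *
        ((∫⁻ τ, g τ) * ∫⁻ u : E3, ‖l.2 - u‖ₑ * gw β u))
      ≤ ENNReal.ofReal (ε ^ 2) * (ENNReal.ofReal Real.pi *
        ((∫⁻ τ, g τ) * (ENNReal.ofReal (1 + ‖l.2‖) * I0 b))) := by
        gcongr
        exact lintegral_vel_le' hb hβ l.2
    _ = _ := by ring

/-- **Basic flux inequality**: `w` is the weight of the first line, the second is Gaussian. -/
theorem flux_pair {T : Ph × Ph → ℝ} (hT : FluxTime ε T) {b β s t : ℝ} (hb : 0 < b) (hβ : b ≤ β)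
    {w : Ph → ℝ≥0∞} (hw : Measurable w) {θ : ℝ × Ph → ℝ≥0∞} (hθ : Measurable θ) :
    ∫⁻ q in {q : Ph × Ph | Meets ε q}, w q.1 * gw β q.2.2 *
        (Ioc s t).indicator (fun τ => θ (τ, q.1)) (T q) ≤
      ENNReal.ofReal (ε ^ 2) * (ENNReal.ofReal Real.pi * I0 b) *
        ∫⁻ τ in Ioc s t, ∫⁻ z : Ph, w z * ENNReal.ofReal (1 + ‖z.2‖) * θ (τ, z) := by
  have hI := measurable_tind (s := s) (t := t) hθ
  have hF : Measurable fun q : Ph × Ph => w q.1 * gw β q.2.2 *
      (Ioc s t).indicator (fun τ => θ (τ, q.1)) (T q) :=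
    ((hw.comp measurable_fst).mul ((measurable_gw β).comp measurable_snd.snd)).mul
      (hI.comp (hT.meas.prodMk measurable_fst))
  have hMs : MeasurableSet {q : Ph × Ph | Meets ε q} := measurableSet_meets
  rw [← lintegral_indicator hMs, Measure.volume_eq_prod,
    lintegral_prod _ (hF.indicator hMs).aemeasurable]
  have hθs : ∀ l : Ph, Measurable fun τ => θ (τ, l) := fun l => hθ.comp measurable_prodMk_right
  -- the inner integral
  have h1 : ∀ l : Ph, ∫⁻ l' : Ph, ({q : Ph × Ph | Meets ε q}).indicator (fun q : Ph × Ph =>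
      w q.1 * gw β q.2.2 * (Ioc s t).indicator (fun τ => θ (τ, q.1)) (T q)) (l, l') ≤
      (ENNReal.ofReal (ε ^ 2) * (ENNReal.ofReal Real.pi * I0 b)) *
        ∫⁻ τ in Ioc s t, w l * ENNReal.ofReal (1 + ‖l.2‖) * θ (τ, l) := by
    intro l
    set g : ℝ → ℝ≥0∞ := (Ioc s t).indicator (fun τ => θ (τ, l)) with hg
    have hgm : Measurable g := (hθs l).indicator measurableSet_Ioc
    have hm : MeasurableSet {l' : Ph | Meets ε (l, l')} := measurable_prodMk_left measurableSet_meets
    have hm2 : Measurable fun l' : Ph => gw β l'.2 * g (T (l, l')) :=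
      ((measurable_gw β).comp measurable_snd).mul
        (hgm.comp (hT.meas.comp (measurable_const.prodMk measurable_id)))
    have h2 : ∀ l' : Ph, ({q : Ph × Ph | Meets ε q}).indicator (fun q : Ph × Ph =>
        w q.1 * gw β q.2.2 * (Ioc s t).indicator (fun τ => θ (τ, q.1)) (T q)) (l, l') =
        w l * ({l' : Ph | Meets ε (l, l')}).indicator (fun l' => gw β l'.2 * g (T (l, l'))) l' := by
      intro l'
      by_cases h : Meets ε (l, l')
      · rw [indicator_of_mem (show (l, l') ∈ {q : Ph × Ph | Meets ε q} from h),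
          indicator_of_mem (show l' ∈ {l' : Ph | Meets ε (l, l')} from h), ← mul_assoc]
      · rw [indicator_of_notMem (show (l, l') ∉ {q : Ph × Ph | Meets ε q} from h),
          indicator_of_notMem (show l' ∉ {l' : Ph | Meets ε (l, l')} from h), mul_zero]
    rw [lintegral_congr h2, lintegral_const_mul _ (hm2.indicator hm), lintegral_indicator hm]
    have h3 : ∫⁻ τ, g τ = ∫⁻ τ in Ioc s t, θ (τ, l) := lintegral_indicator measurableSet_Ioc _
    refine (mul_le_mul_right (flux_inner hT hb hβ l hgm) _).trans ?_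
    rw [h3, lintegral_const_mul _ (hθs l)]
    exact le_of_eq (by ring)
  refine (lintegral_mono h1).trans ?_
  have h4 : Measurable fun q : Ph × ℝ => w q.1 * ENNReal.ofReal (1 + ‖q.1.2‖) * θ (q.2, q.1) :=
    ((hw.comp measurable_fst).mul (by fun_prop)).mul (hθ.comp measurable_swap)
  rw [lintegral_const_mul _ h4.lintegral_prod_right', lintegral_lintegral_swap h4.aemeasurable]

/-- The exchange of the two lines. -/
theorem lintegral_meets_swap {F : Ph × Ph → ℝ≥0∞} (hF : Measurable F) :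
    ∫⁻ q in {q : Ph × Ph | Meets ε q}, F q.swap = ∫⁻ q in {q : Ph × Ph | Meets ε q}, F q := by
  have hMs : MeasurableSet {q : Ph × Ph | Meets ε q} := measurableSet_meets
  have h1 : MeasurePreserving (Prod.swap : Ph × Ph → Ph × Ph) volume volume := by
    rw [Measure.volume_eq_prod]; exact Measure.measurePreserving_swap
  rw [← h1.setLIntegral_comp_preimage hMs hF]
  have e : Prod.swap ⁻¹' {q : Ph × Ph | Meets ε q} = {q : Ph × Ph | Meets ε q} := by
    ext q; exact meets_swap q
  rw [e]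

/-- The law of (separation time, outgoing line of the hitter). -/
theorem flux_out1 (hΦ : IsPotential Φ) (hε : 0 < ε) {b β b' s t : ℝ} (hb : 0 < b) (hβ : b ≤ β)
    (hβ' : β ≤ b') {θ : ℝ × Ph → ℝ≥0∞} (hθ : Measurable θ) :
    ∫⁻ q in {q : Ph × Ph | Meets ε q ∧ s < hitT ε q}, gw β q.1.2 * gw b' q.2.2 *
        (Iic t).indicator (fun τ => θ (τ, (sc2 Φ ε q).1)) (sepT Φ ε q) ≤
      ENNReal.ofReal (ε ^ 2) * (ENNReal.ofReal Real.pi * I0 b) *
        ∫⁻ τ in Ioc s t, ∫⁻ z : Ph, gw β z.2 * ENNReal.ofReal (1 + ‖z.2‖) * θ (τ, z) := by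
  refine le_trans ?_ (flux_pair (fluxTime_outT hε) hb hβ
    (w := fun z => gw β z.2) ((measurable_gw β).comp measurable_snd) hθ)
  have hMs : MeasurableSet {q : Ph × Ph | Meets ε q} := measurableSet_meets
  set H : Ph × Ph → ℝ≥0∞ := fun q => gw β q.1.2 * gw β q.2.2 *
    (Ioc s t).indicator (fun τ => θ (τ, q.1)) (outT ε q) with hH
  have hI := measurable_tind (s := s) (t := t) hθ
  have hHm : Measurable H :=
    (((measurable_gw β).comp measurable_fst.snd).mul
      ((measurable_gw β).comp measurable_snd.snd)).mul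
      (hI.comp (measurable_outT.prodMk measurable_fst))
  rw [← (measurePreserving_sc2 hΦ hε.ne').setLIntegral_comp_preimage hMs hHm]
  have e : sc2 Φ ε ⁻¹' {q : Ph × Ph | Meets ε q} = {q : Ph × Ph | Meets ε q} := by
    ext q; exact meets_sc2 hΦ hε.ne' q
  rw [e]
  have hS : MeasurableSet {q : Ph × Ph | Meets ε q ∧ s < hitT ε q} :=
    hMs.inter (measurableSet_lt measurable_const measurable_hitT)
  rw [← lintegral_indicator hS, ← lintegral_indicator hMs]
  refine lintegral_mono_ae ?_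
  filter_upwards [ae_exits_pair hΦ hε.ne'] with q hq
  by_cases h : Meets ε q ∧ s < hitT ε q
  · rw [indicator_of_mem (show q ∈ {q : Ph × Ph | Meets ε q ∧ s < hitT ε q} from h),
      indicator_of_mem (show q ∈ {q : Ph × Ph | Meets ε q} from h.1)]
    have h1 : s < sepT Φ ε q := h.2.trans (hitT_lt_sepT hΦ hε hq h.1.2)
    have h2 : gw β q.1.2 * gw b' q.2.2 ≤ gw β (sc2 Φ ε q).1.2 * gw β (sc2 Φ ε q).2.2 := by
      unfold gw
      rw [← ENNReal.ofReal_mul (Real.exp_nonneg _), ← ENNReal.ofReal_mul (Real.exp_nonneg _),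
        ← Real.exp_add, ← Real.exp_add]
      apply ENNReal.ofReal_le_ofReal
      apply Real.exp_le_exp.2
      have h3 := energy_sc2 hΦ hε.ne' q
      have h4 : 0 ≤ (b' - β) * ‖q.2.2‖ ^ 2 := mul_nonneg (by linarith) (sq_nonneg _)
      nlinarith
    rw [hH]
    simp only
    rw [← sepT_eq_outT hΦ hε.ne']
    by_cases h5 : sepT Φ ε q ≤ t
    · rw [indicator_of_mem (show sepT Φ ε q ∈ Iic t from h5),
        indicator_of_mem (show sepT Φ ε q ∈ Ioc s t from ⟨h1, h5⟩)]
      gcongr
    · rw [indicator_of_notMem (show sepT Φ ε q ∉ Iic t from h5), mul_zero]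
      exact zero_le
  · rw [indicator_of_notMem (show q ∉ {q : Ph × Ph | Meets ε q ∧ s < hitT ε q} from h)]
    exact zero_le

/-- The law of (separation time, outgoing line of the partner). -/
theorem flux_out2 (hΦ : IsPotential Φ) (hε : 0 < ε) {b β b' s t : ℝ} (hb : 0 < b) (hβ : b ≤ β)
    (hβ' : β ≤ b') {θ : ℝ × Ph → ℝ≥0∞} (hθ : Measurable θ) :
    ∫⁻ q in {q : Ph × Ph | Meets ε q ∧ s < hitT ε q}, gw β q.1.2 * gw b' q.2.2 *
        (Iic t).indicator (fun τ => θ (τ, (sc2 Φ ε q).2)) (sepT Φ ε q) ≤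
      ENNReal.ofReal (ε ^ 2) * (ENNReal.ofReal Real.pi * I0 b) *
        ∫⁻ τ in Ioc s t, ∫⁻ z : Ph, gw β z.2 * ENNReal.ofReal (1 + ‖z.2‖) * θ (τ, z) := by
  refine le_trans ?_ (flux_pair (fluxTime_outT hε) hb hβ
    (w := fun z => gw β z.2) ((measurable_gw β).comp measurable_snd) hθ)
  have hMs : MeasurableSet {q : Ph × Ph | Meets ε q} := measurableSet_meets
  set H : Ph × Ph → ℝ≥0∞ := fun q => gw β q.1.2 * gw β q.2.2 *
    (Ioc s t).indicator (fun τ => θ (τ, q.1)) (outT ε q) with hH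
  have hI := measurable_tind (s := s) (t := t) hθ
  have hHm : Measurable H :=
    (((measurable_gw β).comp measurable_fst.snd).mul
      ((measurable_gw β).comp measurable_snd.snd)).mul
      (hI.comp (measurable_outT.prodMk measurable_fst))
  rw [← lintegral_meets_swap hHm]
  have hHs : Measurable fun q : Ph × Ph => H q.swap := hHm.comp measurable_swap
  rw [← (measurePreserving_sc2 hΦ hε.ne').setLIntegral_comp_preimage hMs hHs]
  have e : sc2 Φ ε ⁻¹' {q : Ph × Ph | Meets ε q} = {q : Ph × Ph | Meets ε q} := by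
    ext q; exact meets_sc2 hΦ hε.ne' q
  rw [e]
  have hS : MeasurableSet {q : Ph × Ph | Meets ε q ∧ s < hitT ε q} :=
    hMs.inter (measurableSet_lt measurable_const measurable_hitT)
  rw [← lintegral_indicator hS, ← lintegral_indicator hMs]
  refine lintegral_mono_ae ?_
  filter_upwards [ae_exits_pair hΦ hε.ne'] with q hq
  by_cases h : Meets ε q ∧ s < hitT ε q
  · rw [indicator_of_mem (show q ∈ {q : Ph × Ph | Meets ε q ∧ s < hitT ε q} from h),
      indicator_of_mem (show q ∈ {q : Ph × Ph | Meets ε q} from h.1)]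
    have h1 : s < sepT Φ ε q := h.2.trans (hitT_lt_sepT hΦ hε hq h.1.2)
    have h2 : gw β q.1.2 * gw b' q.2.2 ≤ gw β (sc2 Φ ε q).2.2 * gw β (sc2 Φ ε q).1.2 := by
      unfold gw
      rw [← ENNReal.ofReal_mul (Real.exp_nonneg _), ← ENNReal.ofReal_mul (Real.exp_nonneg _),
        ← Real.exp_add, ← Real.exp_add]
      apply ENNReal.ofReal_le_ofReal
      apply Real.exp_le_exp.2
      have h3 := energy_sc2 hΦ hε.ne' q
      have h4 : 0 ≤ (b' - β) * ‖q.2.2‖ ^ 2 := mul_nonneg (by linarith) (sq_nonneg _)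
      nlinarith
    rw [hH]
    simp only [Prod.fst_swap, Prod.snd_swap]
    rw [outT_swap, ← sepT_eq_outT hΦ hε.ne']
    by_cases h5 : sepT Φ ε q ≤ t
    · rw [indicator_of_mem (show sepT Φ ε q ∈ Iic t from h5),
        indicator_of_mem (show sepT Φ ε q ∈ Ioc s t from ⟨h1, h5⟩)]
      gcongr
    · rw [indicator_of_notMem (show sepT Φ ε q ∉ Iic t from h5), mul_zero]
      exact zero_le
  · rw [indicator_of_notMem (show q ∉ {q : Ph × Ph | Meets ε q ∧ s < hitT ε q} from h)]
    exact zero_le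

/-- The law of (hitting time, line of the partner before the hit). -/
theorem flux_old (hε : 0 < ε) {b β b' s t : ℝ} (hb : 0 < b) (hβ : b ≤ β)
    {θ : ℝ × Ph → ℝ≥0∞} (hθ : Measurable θ) :
    ∫⁻ q in {q : Ph × Ph | Meets ε q ∧ s < hitT ε q}, gw β q.1.2 * gw b' q.2.2 *
        (Iic t).indicator (fun τ => θ (τ, q.2)) (hitT ε q) ≤
      ENNReal.ofReal (ε ^ 2) * (ENNReal.ofReal Real.pi * I0 b) *
        ∫⁻ τ in Ioc s t, ∫⁻ z : Ph, gw b' z.2 * ENNReal.ofReal (1 + ‖z.2‖) * θ (τ, z) := by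
  refine le_trans ?_ (flux_pair (fluxTime_hitT hε) hb hβ
    (w := fun z => gw b' z.2) ((measurable_gw b').comp measurable_snd) hθ)
  have hMs : MeasurableSet {q : Ph × Ph | Meets ε q} := measurableSet_meets
  have hI := measurable_tind (s := s) (t := t) hθ
  have hHm : Measurable fun q : Ph × Ph => gw b' q.1.2 * gw β q.2.2 *
      (Ioc s t).indicator (fun τ => θ (τ, q.1)) (hitT ε q) :=
    (((measurable_gw b').comp measurable_fst.snd).mul
      ((measurable_gw β).comp measurable_snd.snd)).mul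
      (hI.comp (measurable_hitT.prodMk measurable_fst))
  rw [← lintegral_meets_swap hHm]
  have hS : MeasurableSet {q : Ph × Ph | Meets ε q ∧ s < hitT ε q} :=
    hMs.inter (measurableSet_lt measurable_const measurable_hitT)
  rw [← lintegral_indicator hS, ← lintegral_indicator hMs]
  refine lintegral_mono fun q => ?_
  by_cases h : Meets ε q ∧ s < hitT ε q
  · rw [indicator_of_mem (show q ∈ {q : Ph × Ph | Meets ε q ∧ s < hitT ε q} from h),
      indicator_of_mem (show q ∈ {q : Ph × Ph | Meets ε q} from h.1)]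
    simp only [Prod.fst_swap, Prod.snd_swap]
    rw [hitT_swap]
    by_cases h5 : hitT ε q ≤ t
    · rw [indicator_of_mem (show hitT ε q ∈ Iic t from h5),
        indicator_of_mem (show hitT ε q ∈ Ioc s t from ⟨h.2, h5⟩), mul_comm (gw b' q.2.2)]
    · rw [indicator_of_notMem (show hitT ε q ∉ Iic t from h5), mul_zero]
      exact zero_le
  · rw [indicator_of_notMem (show q ∉ {q : Ph × Ph | Meets ε q ∧ s < hitT ε q} from h)]
    exact zero_le

end Vale.Agent.P119.PB
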