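import Vale.Agent.P119.PB.Marks

/-!
# P119, block PROB: two marked nodes (`helper298`)

* `spM Θ m`: the measure on the spines of length `m`, `SpI_eq`; `mkM Θ m`: the measure on the marked
  nodes `(a, b, r)`, `lintegral_marks_param_le`;
* `marksA T F`: the sum over the pairs of a node and of a node in its past, `marksC T F`: the sum over
  the pairs of nodes in different branches; `tsum_pairs_le`: every sum over pairs of different
  exhausts is bounded by these two;
* `lintegral_marksA_le`, `lintegral_marksC_le`: their integrals.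
-/

open MeasureTheory Filter Topology Set
open scoped ENNReal NNReal

noncomputable section

namespace Vale.Agent.P119.M

open KU CTree

section Measures

variable {β : Type} [MeasurableSpace β]

/-- The law of one vertex of a spine. -/
def stM (Θ : Measure β) : Measure (Bool × β) := (Measure.count : Measure Bool).prod Θ

instance (Θ : Measure β) [SigmaFinite Θ] : SigmaFinite (stM Θ) := by
  unfold stM; infer_instance

theorem lintegral_stM (Θ : Measure β) [SigmaFinite Θ] {F : Bool × β → ℝ≥0∞} (hF : Measurable F) :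
    ∫⁻ q, F q ∂(stM Θ) = ∑ o : Bool, ∫⁻ S, F (o, S) ∂Θ := by
  unfold stM
  rw [lintegral_prod _ hF.aemeasurable, lintegral_count, tsum_fintype]

/-- The measure on the spines of length `m`. -/
def spM (Θ : Measure β) (m : ℕ) : Measure (Fin m → Bool × β) := Measure.pi fun _ => stM Θ

instance (Θ : Measure β) [SigmaFinite Θ] (m : ℕ) : SigmaFinite (spM Θ m) := by
  unfold spM; infer_instance

theorem lintegral_spM_zero (Θ : Measure β) {G : (Fin 0 → Bool × β) → ℝ≥0∞} :
    ∫⁻ r, G r ∂(spM Θ 0) = G Fin.elim0 := by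
  unfold spM
  rw [Measure.pi_of_empty, lintegral_dirac]
  congr 1

theorem lintegral_spM_succ (Θ : Measure β) [SigmaFinite Θ] (m : ℕ)
    {G : (Fin (m + 1) → Bool × β) → ℝ≥0∞} (hG : Measurable G) :
    ∫⁻ r, G r ∂(spM Θ (m + 1)) = ∑ o : Bool, ∫⁻ S, ∫⁻ r, G (Fin.cons (o, S) r) ∂(spM Θ m) ∂Θ := by
  have h1 := (measurePreserving_piFinSuccAbove (fun _ : Fin (m + 1) => stM Θ) 0).symm
  have h2 := h1.lintegral_comp_emb (MeasurableEquiv.measurableEmbedding _) G
  have hc : Measurable fun p : (Bool × β) × (Fin m → Bool × β) =>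
      G (Fin.cons p.1 p.2 : Fin (m + 1) → Bool × β) := hG.comp measurable_fcons
  have hm : Measurable fun p : (Bool × β) × (Fin m → Bool × β) => G ((MeasurableEquiv.piFinSuccAbove
      (fun _ : Fin (m + 1) => Bool × β) 0).symm p) := hG.comp (MeasurableEquiv.measurable _)
  unfold spM
  rw [← h2, lintegral_prod _ hm.aemeasurable]
  have e : ∀ q : Bool × β, (∫⁻ r : Fin m → Bool × β, G ((MeasurableEquiv.piFinSuccAbove
      (fun _ : Fin (m + 1) => Bool × β) 0).symm (q, r)) ∂(Measure.pi fun _ => stM Θ)) =
      ∫⁻ r, G (Fin.cons q r) ∂(Measure.pi fun _ => stM Θ) := fun q => by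
    refine lintegral_congr fun r => ?_
    congr 1
    exact Fin.insertNth_zero' q r
  change ∫⁻ q, (∫⁻ r : Fin m → Bool × β, G ((MeasurableEquiv.piFinSuccAbove
      (fun _ : Fin (m + 1) => Bool × β) 0).symm (q, r)) ∂(Measure.pi fun _ => stM Θ)) ∂(stM Θ) = _
  simp only [e]
  exact lintegral_stM Θ (hc.lintegral_prod_right' (ν := Measure.pi fun _ => stM Θ))

/-- The spine integral is an integral. -/
theorem SpI_eq (Θ : Measure β) [SigmaFinite Θ] (m : ℕ) :
    ∀ {G : (Fin m → Bool × β) → ℝ≥0∞}, Measurable G → SpI Θ m G = ∫⁻ r, G r ∂(spM Θ m) := by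
  induction m with
  | zero => intro G _; rw [lintegral_spM_zero]; rfl
  | succ m ih =>
    intro G hG
    rw [lintegral_spM_succ Θ m hG]
    refine Finset.sum_congr rfl fun o _ => lintegral_congr fun S => ?_
    exact ih (hG.comp (measurable_fcons.comp (measurable_const.prodMk measurable_id)))

/-- A marked node: its two subtrees and the spine to the root. -/
abbrev Mk (β : Type) (m : ℕ) : Type := β × β × (Fin m → Bool × β)

/-- The measure on the marked nodes. -/
def mkM (Θ : Measure β) (m : ℕ) : Measure (Mk β m) := Θ.prod (Θ.prod (spM Θ m))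

instance (Θ : Measure β) [SigmaFinite Θ] (m : ℕ) : SigmaFinite (mkM Θ m) := by
  unfold mkM; infer_instance

theorem lintegral_mkM (Θ : Measure β) [SigmaFinite Θ] (m : ℕ) {F : Mk β m → ℝ≥0∞}
    (hF : Measurable F) :
    ∫⁻ q, F q ∂(mkM Θ m) = ∫⁻ a, ∫⁻ b, ∫⁻ r, F (a, b, r) ∂(spM Θ m) ∂Θ ∂Θ := by
  unfold mkM
  rw [lintegral_prod _ hF.aemeasurable]
  refine lintegral_congr fun a => ?_
  have hm : Measurable fun q : β × (Fin m → Bool × β) => F (a, q) :=
    hF.comp (measurable_const.prodMk measurable_id)
  rw [lintegral_prod _ hm.aemeasurable]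

end Measures

/-! ### One marked node -/

variable {ν : Measure Ph}

theorem lintegral_marks_le' [IsFiniteMeasure ν] (L : ℕ)
    {F : (m : ℕ) → CTree → CTree → (Fin m → Bool × CTree) → ℝ≥0∞}
    (hF : ∀ m, Measurable fun p : Mk CTree m => F m p.1 p.2.1 p.2.2) :
    ∫⁻ T, marks T F ∂(tree ν L) ≤
      ∑' m, ∫⁻ q : Mk CTree m, F m q.1 q.2.1 q.2.2 ∂(mkM (tree ν L) m) := by
  refine (lintegral_marks_le L hF).trans (le_of_eq (tsum_congr fun m => ?_))
  rw [lintegral_mkM _ _ (hF m)]
  refine lintegral_congr fun A => lintegral_congr fun B => ?_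
  exact SpI_eq _ _ ((hF m).comp (measurable_const.prodMk (measurable_const.prodMk measurable_id)))

/-- Sums over nodes commute with integrals. -/
theorem lintegral_marks_comm {X : Type} [MeasurableSpace X] {κ : Measure X} (T : CTree) :
    ∀ {F : (m : ℕ) → CTree → CTree → (Fin m → Bool × CTree) → X → ℝ≥0∞},
    (∀ m, Measurable fun p : Mk CTree m × X => F m p.1.1 p.1.2.1 p.1.2.2 p.2) →
    ∫⁻ x, marks T (fun m a b r => F m a b r x) ∂κ =
      marks T fun m a b r => ∫⁻ x, F m a b r x ∂κ := by
  induction T with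
  | leaf σ =>
    intro F _
    exact lintegral_zero
  | node a b iha ihb =>
    intro F hF
    have hS : ∀ (o : Bool) (S : CTree) (m : ℕ), Measurable fun p : Mk CTree m × X =>
        F (m + 1) p.1.1 p.1.2.1 (snoc p.1.2.2 (o, S)) p.2 := fun o S m =>
      (hF (m + 1)).comp (Measurable.prodMk (Measurable.prodMk (measurable_fst.comp measurable_fst)
        (Measurable.prodMk (measurable_fst.comp (measurable_snd.comp measurable_fst))
        (measurable_snoc.comp ((measurable_snd.comp (measurable_snd.comp
          measurable_fst)).prodMk measurable_const)))) measurable_snd)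
    have h0 : Measurable fun x => F 0 a b Fin.elim0 x :=
      (hF 0).comp (f := fun x => ((a, b, Fin.elim0), x)) (measurable_const.prodMk measurable_id)
    have h1 : Measurable fun x => marks a (fun m c d r => F (m + 1) c d (snoc r (true, b)) x) :=
      (measurable_marks (F := fun m c d r x => F (m + 1) c d (snoc r (true, b)) x)
        (hS true b)).comp (f := fun x => (a, x)) (measurable_const.prodMk measurable_id)
    change ∫⁻ x, F 0 a b Fin.elim0 x + (marks a (fun m c d r => F (m + 1) c d (snoc r (true, b)) x) +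
        marks b (fun m c d r => F (m + 1) c d (snoc r (false, a)) x)) ∂κ =
      ∫⁻ x, F 0 a b Fin.elim0 x ∂κ +
        (marks a (fun m c d r => ∫⁻ x, F (m + 1) c d (snoc r (true, b)) x ∂κ) +
        marks b (fun m c d r => ∫⁻ x, F (m + 1) c d (snoc r (false, a)) x ∂κ))
    rw [lintegral_add_left h0, lintegral_add_left h1]
    congr 2
    · exact iha (F := fun m c d r x => F (m + 1) c d (snoc r (true, b)) x) (hS true b)
    · exact ihb (F := fun m c d r x => F (m + 1) c d (snoc r (false, a)) x) (hS false a)

/-- One marked node, with a parameter. -/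
theorem lintegral_marks_param_le [IsFiniteMeasure ν] (L : ℕ) {X : Type} [MeasurableSpace X]
    {κ : Measure X} [SFinite κ]
    {F : (m : ℕ) → CTree → CTree → (Fin m → Bool × CTree) → X → ℝ≥0∞}
    (hF : ∀ m, Measurable fun p : Mk CTree m × X => F m p.1.1 p.1.2.1 p.1.2.2 p.2) :
    ∫⁻ T, ∫⁻ x, marks T (fun m a b r => F m a b r x) ∂κ ∂(tree ν L) ≤
      ∑' m, ∫⁻ q : Mk CTree m, ∫⁻ x, F m q.1 q.2.1 q.2.2 x ∂κ ∂(mkM (tree ν L) m) := by
  simp only [lintegral_marks_comm _ hF]
  exact lintegral_marks_le' L fun m => (hF m).lintegral_prod_right'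

/-! ### Two marked nodes -/

/-- The sum over the pairs (node `c` in the past of a node `c'`): the subtree of `c` is `node a b`, the
spine from `c` to a child of `c'` is `r₁`, the vertex `c'` is `(o, S)` and the spine from `c'` to the
root is `r`. -/
def marksA (T : CTree) (F : (k i : ℕ) → Mk CTree i → Bool → CTree → (Fin k → Bool × CTree) → ℝ≥0∞) :
    ℝ≥0∞ :=
  marks T fun k A B r => marks A (fun i a b r₁ => F k i (a, b, r₁) true B r) +
    marks B (fun i a b r₁ => F k i (a, b, r₁) false A r)

/-- The sum over the pairs of nodes in different branches: `κ = node A B`, `c` is in `A` and `c'` is in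
`B`. -/
def marksC (T : CTree) (F : (k i i' : ℕ) → Mk CTree i → Mk CTree i' → (Fin k → Bool × CTree) → ℝ≥0∞) :
    ℝ≥0∞ :=
  marks T fun k A B r => marks A fun i a b r₁ => marks B fun i' a' b' r₂ =>
    F k i i' (a, b, r₁) (a', b', r₂) r

open Classical in
/-- The sum over the exhausts. -/
def exsum (T : CTree) (φ : CTree → ℝ≥0∞) : ℝ≥0∞ := ∑' x : CTree, if x ∈ TL.exs T then φ x else 0

theorem exsum_mono {T : CTree} {φ ψ : CTree → ℝ≥0∞} (h : ∀ x ∈ TL.exs T, φ x ≤ ψ x) :
    exsum T φ ≤ exsum T ψ := by
  classical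
  refine ENNReal.tsum_le_tsum fun x => ?_
  by_cases hx : x ∈ TL.exs T
  · rw [if_pos hx, if_pos hx]; exact h x hx
  · rw [if_neg hx, if_neg hx]

theorem exsum_add {T : CTree} {φ ψ : CTree → ℝ≥0∞} :
    exsum T (fun x => φ x + ψ x) = exsum T φ + exsum T ψ := by
  classical
  unfold exsum
  rw [← ENNReal.tsum_add]
  refine tsum_congr fun x => ?_
  by_cases hx : x ∈ TL.exs T
  · rw [if_pos hx, if_pos hx, if_pos hx]
  · rw [if_neg hx, if_neg hx, if_neg hx, add_zero]

theorem exsum_le {T : CTree} (φ : CTree → ℝ≥0∞) :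
    exsum T φ ≤ marks T fun _ a b _ => φ (node b a) := tsum_exs_le φ

theorem exsum_leaf {σ : Src} (φ : CTree → ℝ≥0∞) : exsum (leaf σ) φ = 0 := by
  classical
  exact ENNReal.tsum_eq_zero.2 fun x => if_neg (notMem_empty x)

theorem exsum_node_le {a b : CTree} (φ : CTree → ℝ≥0∞) :
    exsum (node a b) φ ≤ φ (node b a) + (exsum a φ + exsum b φ) := by
  classical
  have h1 : ∀ x : CTree, (if x ∈ TL.exs (node a b) then φ x else 0) ≤
      (if x = node b a then φ x else 0) +
        ((if x ∈ TL.exs a then φ x else 0) + (if x ∈ TL.exs b then φ x else 0)) := by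
    intro x
    by_cases h : x ∈ TL.exs (node a b)
    · rw [if_pos h]
      rcases TL.mem_exs_node.1 h with h' | h' | h'
      · rw [if_pos h']
        exact le_add_left le_self_add
      · rw [if_pos h']
        exact le_add_left le_add_self
      · rw [if_pos h']
        exact le_self_add
    · rw [if_neg h]; exact zero_le
  refine (ENNReal.tsum_le_tsum h1).trans ?_
  rw [ENNReal.tsum_add, ENNReal.tsum_add]
  refine add_le_add (le_of_eq ?_) le_rfl
  rw [tsum_eq_single (node b a)]
  · exact if_pos rfl
  · intro x hx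
    exact if_neg hx

theorem le_exsum {T x : CTree} (hx : x ∈ TL.exs T) (φ : CTree → ℝ≥0∞) : φ x ≤ exsum T φ := by
  classical
  refine le_trans (le_of_eq ?_) (ENNReal.le_tsum x)
  rw [if_pos hx]

open Classical in
/-- **Sums over pairs of exhausts.** -/
theorem exsum_pairs_le {T : CTree} (Ψ : CTree → CTree → ℝ≥0∞) :
    exsum T (fun x => exsum T fun y => if x = y then 0 else Ψ x y) ≤
      marksA T (fun _ i q o S _ =>
        Ψ (node q.2.1 q.1) (stepT (plug i (node q.1 q.2.1) q.2.2) (!o, S)) +
        Ψ (stepT (plug i (node q.1 q.2.1) q.2.2) (!o, S)) (node q.2.1 q.1)) +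
      marksC T (fun _ _ _ q q' _ => Ψ (node q.2.1 q.1) (node q'.2.1 q'.1) +
        Ψ (node q'.2.1 q'.1) (node q.2.1 q.1)) := by
  -- the sums without the spines
  have key : ∀ T : CTree, exsum T (fun x => exsum T fun y => if x = y then 0 else Ψ x y) ≤
      marks T fun _ A B _ => (exsum A (fun x => Ψ x (node B A) + Ψ (node B A) x) +
        exsum B (fun x => Ψ x (node B A) + Ψ (node B A) x)) +
        exsum A (fun x => exsum B fun y => Ψ x y + Ψ y x) := by
    intro T
    induction T with
    | leaf σ => rw [exsum_leaf]; exact zero_le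
    | node A B ihA ihB =>
      set f : CTree → CTree → ℝ≥0∞ := fun x y => if x = y then 0 else Ψ x y with hf
      have hfΨ : ∀ x y, f x y ≤ Ψ x y := fun x y => by
        by_cases h : x = y
        · simp only [hf, if_pos h]; exact zero_le
        · simp only [hf, if_neg h]; exact le_rfl
      have hff : f (node B A) (node B A) = 0 := if_pos rfl
      have h1 : exsum (node A B) (fun x => exsum (node A B) fun y => f x y) ≤
          (f (node B A) (node B A) + (exsum A (f (node B A)) + exsum B (f (node B A)))) +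
          ((exsum A (fun x => f x (node B A)) + (exsum A (fun x => exsum A (f x)) +
            exsum A (fun x => exsum B (f x)))) +
          (exsum B (fun x => f x (node B A)) + (exsum B (fun x => exsum A (f x)) +
            exsum B (fun x => exsum B (f x))))) := by
        refine (exsum_node_le _).trans (add_le_add (exsum_node_le _) (add_le_add ?_ ?_))
        · refine (exsum_mono fun x _ => exsum_node_le (f x)).trans (le_of_eq ?_)
          rw [exsum_add, exsum_add]
        · refine (exsum_mono fun x _ => exsum_node_le (f x)).trans (le_of_eq ?_)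
          rw [exsum_add, exsum_add]
      refine h1.trans ?_
      rw [hff, zero_add]
      change _ ≤ ((exsum A (fun x => Ψ x (node B A) + Ψ (node B A) x) +
        exsum B (fun x => Ψ x (node B A) + Ψ (node B A) x)) +
        exsum A (fun x => exsum B fun y => Ψ x y + Ψ y x)) +
        (marks A (fun _ A B _ => (exsum A (fun x => Ψ x (node B A) + Ψ (node B A) x) +
        exsum B (fun x => Ψ x (node B A) + Ψ (node B A) x)) +
        exsum A (fun x => exsum B fun y => Ψ x y + Ψ y x)) +
        marks B (fun _ A B _ => (exsum A (fun x => Ψ x (node B A) + Ψ (node B A) x) +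
        exsum B (fun x => Ψ x (node B A) + Ψ (node B A) x)) +
        exsum A (fun x => exsum B fun y => Ψ x y + Ψ y x)))
      simp only [exsum_add]
      have hAB : exsum B (fun x => exsum A (f x)) ≤ exsum A (fun x => exsum B fun y => Ψ y x) := by
        unfold exsum
        have e1 : ∀ x, (if x ∈ TL.exs B then ∑' y, (if y ∈ TL.exs A then f x y else 0) else 0) =
            ∑' y, (if x ∈ TL.exs B then (if y ∈ TL.exs A then f x y else 0) else 0) := fun x => by
          by_cases h : x ∈ TL.exs B
          · simp only [if_pos h]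
          · simp only [if_neg h, tsum_zero]
        have e2 : ∀ y, (if y ∈ TL.exs A then ∑' x, (if x ∈ TL.exs B then Ψ x y else 0) else 0) =
            ∑' x, (if y ∈ TL.exs A then (if x ∈ TL.exs B then Ψ x y else 0) else 0) := fun x => by
          by_cases h : x ∈ TL.exs A
          · simp only [if_pos h]
          · simp only [if_neg h, tsum_zero]
        simp only [e1, e2]
        rw [ENNReal.tsum_comm]
        refine ENNReal.tsum_le_tsum fun y => ENNReal.tsum_le_tsum fun x => ?_
        by_cases h : x ∈ TL.exs B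
        · by_cases h' : y ∈ TL.exs A
          · simp only [if_pos h, if_pos h']; exact hfΨ x y
          · simp only [if_pos h, if_neg h', le_refl]
        · by_cases h' : y ∈ TL.exs A
          · simp only [if_neg h, if_pos h', le_refl]
          · simp only [if_neg h, if_neg h', le_refl]
      have hBA : exsum A (fun x => exsum B (f x)) ≤ exsum A (fun x => exsum B fun y => Ψ x y) :=
        exsum_mono fun x _ => exsum_mono fun y _ => hfΨ x y
      have g1 : exsum A (f (node B A)) ≤ exsum A (fun x => Ψ (node B A) x) :=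
        exsum_mono fun x _ => hfΨ _ x
      have g2 : exsum B (f (node B A)) ≤ exsum B (fun x => Ψ (node B A) x) :=
        exsum_mono fun x _ => hfΨ _ x
      have g3 : exsum A (fun x => f x (node B A)) ≤ exsum A (fun x => Ψ x (node B A)) :=
        exsum_mono fun x _ => hfΨ x _
      have g4 : exsum B (fun x => f x (node B A)) ≤ exsum B (fun x => Ψ x (node B A)) :=
        exsum_mono fun x _ => hfΨ x _
      calc _ ≤ (exsum A (fun x => Ψ (node B A) x) + exsum B (fun x => Ψ (node B A) x)) +
          ((exsum A (fun x => Ψ x (node B A)) + (exsum A (fun x => exsum A (f x)) +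
            exsum A (fun x => exsum B fun y => Ψ x y))) +
          (exsum B (fun x => Ψ x (node B A)) + (exsum A (fun x => exsum B fun y => Ψ y x) +
            exsum B (fun x => exsum B (f x))))) := by gcongr
        _ = (((exsum A (fun x => Ψ x (node B A)) + exsum A (fun x => Ψ (node B A) x)) +
            (exsum B (fun x => Ψ x (node B A)) + exsum B (fun x => Ψ (node B A) x))) +
            (exsum A (fun x => exsum B fun y => Ψ x y) + exsum A (fun x => exsum B fun y => Ψ y x))) +
            (exsum A (fun x => exsum A (f x)) + exsum B (fun x => exsum B (f x))) := by ring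
        _ ≤ _ := by
          refine add_le_add le_rfl (add_le_add ?_ ?_)
          · refine ihA.trans (le_of_eq ?_)
            simp only [exsum_add]
          · refine ihB.trans (le_of_eq ?_)
            simp only [exsum_add]
  refine (key T).trans ?_
  unfold marksA marksC
  rw [← marks_add]
  refine marks_mono fun m A B r _ => ?_
  refine add_le_add (add_le_add ?_ ?_) ?_
  · refine (exsum_le _).trans (marks_mono fun i a b r₁ h => ?_)
    simp only [h]
    exact le_rfl
  · refine (exsum_le _).trans (marks_mono fun i a b r₁ h => ?_)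
    simp only [h]
    exact le_rfl
  · refine (exsum_le _).trans (marks_mono fun i a b r₁ _ => ?_)
    exact exsum_le _

/-- **The integral over the pairs (node, node in its past).** -/
theorem lintegral_marksA_le [IsFiniteMeasure ν] (L : ℕ)
    {F : (k i : ℕ) → Mk CTree i → Bool → CTree → (Fin k → Bool × CTree) → ℝ≥0∞}
    (hF : ∀ k i, Measurable fun p : Mk CTree i × (Bool × CTree) × (Fin k → Bool × CTree) =>
      F k i p.1 p.2.1.1 p.2.1.2 p.2.2) :
    ∫⁻ T, marksA T F ∂(tree ν L) ≤ ∑' k, ∑' i, ∫⁻ q : Mk CTree i, ∫⁻ s : Bool × CTree, ∫⁻ r,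
      F k i q s.1 s.2 r ∂(spM (tree ν L) k) ∂(stM (tree ν L)) ∂(mkM (tree ν L) i) := by
  set Θ := tree ν L with hΘ
  -- measurability for a given bit
  have hb : ∀ (o : Bool) (k i : ℕ), Measurable fun p : Mk CTree i × CTree × (Fin k → Bool × CTree) =>
      F k i p.1 o p.2.1 p.2.2 := fun o k i =>
    (hF k i).comp (measurable_fst.prodMk ((measurable_const.prodMk
      (measurable_fst.comp measurable_snd)).prodMk (measurable_snd.comp measurable_snd)))
  have hm : ∀ (o : Bool) (k : ℕ), Measurable fun p : CTree × CTree × (Fin k → Bool × CTree) =>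
      marks p.1 (fun i a b r₁ => F k i (a, b, r₁) o p.2.1 p.2.2) := fun o k =>
    measurable_marks (F := fun i a b r₁ (x : CTree × (Fin k → Bool × CTree)) =>
      F k i (a, b, r₁) o x.1 x.2) fun i => hb o k i
  have h1 : ∫⁻ T, marksA T F ∂Θ ≤ ∑' k, ∫⁻ q : Mk CTree k,
      (marks q.1 (fun i a b r₁ => F k i (a, b, r₁) true q.2.1 q.2.2) +
      marks q.2.1 (fun i a b r₁ => F k i (a, b, r₁) false q.1 q.2.2)) ∂(mkM Θ k) := by
    refine lintegral_marks_le' L fun k => Measurable.add ?_ ?_
    · exact hm true k
    · exact (hm false k).comp ((measurable_fst.comp measurable_snd).prodMk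
        (measurable_fst.prodMk (measurable_snd.comp measurable_snd)))
  refine h1.trans (ENNReal.tsum_le_tsum fun k => ?_)
  have hmk : ∀ o : Bool, ∫⁻ A, ∫⁻ x : CTree × (Fin k → Bool × CTree),
      marks A (fun i a b r₁ => F k i (a, b, r₁) o x.1 x.2) ∂(Θ.prod (spM Θ k)) ∂Θ ≤
      ∑' i, ∫⁻ q : Mk CTree i, ∫⁻ x : CTree × (Fin k → Bool × CTree),
        F k i q o x.1 x.2 ∂(Θ.prod (spM Θ k)) ∂(mkM Θ i) := fun o =>
    lintegral_marks_param_le L (F := fun i a b r₁ (x : CTree × (Fin k → Bool × CTree)) =>
      F k i (a, b, r₁) o x.1 x.2) fun i => hb o k i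
  have hsum : ∀ i, ∫⁻ q : Mk CTree i, ∫⁻ s : Bool × CTree, ∫⁻ r,
      F k i q s.1 s.2 r ∂(spM Θ k) ∂(stM Θ) ∂(mkM Θ i) =
      ∫⁻ q : Mk CTree i, ∫⁻ x : CTree × (Fin k → Bool × CTree),
        F k i q true x.1 x.2 ∂(Θ.prod (spM Θ k)) ∂(mkM Θ i) +
      ∫⁻ q : Mk CTree i, ∫⁻ x : CTree × (Fin k → Bool × CTree),
        F k i q false x.1 x.2 ∂(Θ.prod (spM Θ k)) ∂(mkM Θ i) := fun i => by
    rw [← lintegral_add_left (hb true k i).lintegral_prod_right']
    refine lintegral_congr fun q => ?_
    have hr : Measurable fun s : Bool × CTree => ∫⁻ r, F k i q s.1 s.2 r ∂(spM Θ k) := by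
      have h : Measurable fun p : (Bool × CTree) × (Fin k → Bool × CTree) =>
          F k i q p.1.1 p.1.2 p.2 := (hF k i).comp (measurable_const.prodMk measurable_id)
      exact h.lintegral_prod_right'
    have hx : ∀ o, Measurable fun x : CTree × (Fin k → Bool × CTree) => F k i q o x.1 x.2 :=
      fun o => (hb o k i).comp (measurable_const.prodMk measurable_id)
    rw [lintegral_stM Θ hr, Fintype.sum_bool, lintegral_prod _ (hx true).aemeasurable,
      lintegral_prod _ (hx false).aemeasurable]
  simp only [hsum]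
  rw [ENNReal.tsum_add]
  have e1 : ∀ f : CTree × (Fin k → Bool × CTree) → ℝ≥0∞, Measurable f →
      ∫⁻ x, f x ∂(Θ.prod (spM Θ k)) = ∫⁻ S, ∫⁻ r, f (S, r) ∂(spM Θ k) ∂Θ := fun f hf =>
    lintegral_prod _ hf.aemeasurable
  have hA : Measurable fun q : Mk CTree k =>
      marks q.1 (fun i a b r₁ => F k i (a, b, r₁) true q.2.1 q.2.2) := hm true k
  have hB : Measurable fun q : Mk CTree k =>
      marks q.2.1 (fun i a b r₁ => F k i (a, b, r₁) false q.1 q.2.2) :=
    (hm false k).comp ((measurable_fst.comp measurable_snd).prodMk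
        (measurable_fst.prodMk (measurable_snd.comp measurable_snd)))
  rw [lintegral_add_left hA]
  refine add_le_add ?_ ?_
  · refine le_trans (le_of_eq ?_) (hmk true)
    unfold mkM
    rw [lintegral_prod _ hA.aemeasurable]
  · refine le_trans (le_of_eq ?_) (hmk false)
    rw [lintegral_mkM _ _ hB]
    have h2 : ∀ A, ∫⁻ x : CTree × (Fin k → Bool × CTree),
        marks A (fun i a b r₁ => F k i (a, b, r₁) false x.1 x.2) ∂(Θ.prod (spM Θ k)) =
        ∫⁻ B, ∫⁻ r, marks A (fun i a b r₁ => F k i (a, b, r₁) false B r) ∂(spM Θ k) ∂Θ := fun A =>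
      e1 _ ((hm false k).comp (measurable_const.prodMk measurable_id))
    simp only [h2]
    have h3 : Measurable fun p : CTree × CTree =>
        ∫⁻ r, marks p.2 (fun i a b r₁ => F k i (a, b, r₁) false p.1 r) ∂(spM Θ k) := by
      have h : Measurable fun p : (CTree × CTree) × (Fin k → Bool × CTree) =>
          marks p.1.2 (fun i a b r₁ => F k i (a, b, r₁) false p.1.1 p.2) :=
        (hm false k).comp ((measurable_snd.comp measurable_fst).prodMk
          ((measurable_fst.comp measurable_fst).prodMk measurable_snd))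
      exact h.lintegral_prod_right'
    exact lintegral_lintegral_swap h3.aemeasurable

/-- **The integral over the pairs of nodes in different branches.** -/
theorem lintegral_marksC_le [IsFiniteMeasure ν] (L : ℕ)
    {F : (k i i' : ℕ) → Mk CTree i → Mk CTree i' → (Fin k → Bool × CTree) → ℝ≥0∞}
    (hF : ∀ k i i', Measurable fun p : Mk CTree i × Mk CTree i' × (Fin k → Bool × CTree) =>
      F k i i' p.1 p.2.1 p.2.2) :
    ∫⁻ T, marksC T F ∂(tree ν L) ≤ ∑' k, ∑' i, ∑' i', ∫⁻ q : Mk CTree i, ∫⁻ q' : Mk CTree i',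
      ∫⁻ r, F k i i' q q' r ∂(spM (tree ν L) k) ∂(mkM (tree ν L) i') ∂(mkM (tree ν L) i) := by
  set Θ := tree ν L with hΘ
  have hB : ∀ k i, Measurable fun p : CTree × Mk CTree i × (Fin k → Bool × CTree) =>
      marks p.1 (fun i' a' b' r₂ => F k i i' p.2.1 (a', b', r₂) p.2.2) := fun k i =>
    measurable_marks (F := fun i' a' b' r₂ (x : Mk CTree i × (Fin k → Bool × CTree)) =>
      F k i i' x.1 (a', b', r₂) x.2) fun i' => (hF k i i').comp
        ((measurable_fst.comp measurable_snd).prodMk (measurable_fst.prodMk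
          (measurable_snd.comp measurable_snd)))
  have hA : ∀ k, Measurable fun p : CTree × CTree × (Fin k → Bool × CTree) =>
      marks p.1 (fun i a b r₁ => marks p.2.1 fun i' a' b' r₂ =>
        F k i i' (a, b, r₁) (a', b', r₂) p.2.2) := fun k =>
    measurable_marks (F := fun i a b r₁ (x : CTree × (Fin k → Bool × CTree)) =>
      marks x.1 fun i' a' b' r₂ => F k i i' (a, b, r₁) (a', b', r₂) x.2) fun i =>
        (hB k i).comp ((measurable_fst.comp measurable_snd).prodMk (measurable_fst.prodMk
          (measurable_snd.comp measurable_snd)))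
  refine (lintegral_marks_le' L fun k => hA k).trans (ENNReal.tsum_le_tsum fun k => ?_)
  -- the first mark
  have h1 : ∫⁻ q : Mk CTree k, marks q.1 (fun i a b r₁ => marks q.2.1 fun i' a' b' r₂ =>
      F k i i' (a, b, r₁) (a', b', r₂) q.2.2) ∂(mkM Θ k) ≤
      ∑' i, ∫⁻ q : Mk CTree i, ∫⁻ x : CTree × (Fin k → Bool × CTree),
        marks x.1 (fun i' a' b' r₂ => F k i i' q (a', b', r₂) x.2) ∂(Θ.prod (spM Θ k))
          ∂(mkM Θ i) := by
    have h := lintegral_marks_param_le (ν := ν) L (κ := Θ.prod (spM Θ k))
      (F := fun i a b r₁ (x : CTree × (Fin k → Bool × CTree)) =>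
        marks x.1 fun i' a' b' r₂ => F k i i' (a, b, r₁) (a', b', r₂) x.2) fun i =>
          (hB k i).comp ((measurable_fst.comp measurable_snd).prodMk (measurable_fst.prodMk
            (measurable_snd.comp measurable_snd)))
    refine le_trans (le_of_eq ?_) h
    unfold mkM
    rw [lintegral_prod _ (hA k).aemeasurable]
  refine h1.trans (ENNReal.tsum_le_tsum fun i => ?_)
  -- the second mark
  have h2 : ∀ q : Mk CTree i, ∫⁻ x : CTree × (Fin k → Bool × CTree),
        marks x.1 (fun i' a' b' r₂ => F k i i' q (a', b', r₂) x.2) ∂(Θ.prod (spM Θ k)) ≤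
      ∑' i', ∫⁻ q' : Mk CTree i', ∫⁻ r, F k i i' q q' r ∂(spM Θ k) ∂(mkM Θ i') := fun q => by
    have hq : ∀ i', Measurable fun p : Mk CTree i' × (Fin k → Bool × CTree) =>
        F k i i' q p.1 p.2 := fun i' => (hF k i i').comp (measurable_const.prodMk measurable_id)
    have h := lintegral_marks_param_le (ν := ν) L (κ := spM Θ k)
      (F := fun i' a' b' r₂ (r : Fin k → Bool × CTree) => F k i i' q (a', b', r₂) r)
      fun i' => hq i'
    refine le_trans (le_of_eq ?_) h
    rw [lintegral_prod]
    exact ((hB k i).comp (f := fun x : CTree × (Fin k → Bool × CTree) => (x.1, q, x.2))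
      (measurable_fst.prodMk (measurable_const.prodMk measurable_snd))).aemeasurable
  refine (lintegral_mono h2).trans (le_of_eq ?_)
  rw [lintegral_tsum]
  intro i'
  have h3 : Measurable fun p : (Mk CTree i × Mk CTree i') × (Fin k → Bool × CTree) =>
      F k i i' p.1.1 p.1.2 p.2 := (hF k i i').comp ((measurable_fst.comp measurable_fst).prodMk
        ((measurable_snd.comp measurable_fst).prodMk measurable_snd))
  have h4 : Measurable fun p : Mk CTree i × Mk CTree i' =>
      ∫⁻ r, F k i i' p.1 p.2 r ∂(spM Θ k) := h3.lintegral_prod_right'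
  exact h4.lintegral_prod_right'.aemeasurable

end Vale.Agent.P119.M
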