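import Vale.Agent.P119.PB.Def
import Vale.Agent.P119.RM.Count
import Vale.Agent.P119.TL.Setup

/-!
# P119, block PROB: integrals over a tree inserted in the gas (`helper423`)

* `addT U T`: the world `U` with the leaves of `T`; `alT t U T`: the tree `T` is alive at its end in
  the world `addT U T`, and its end is not after `t`;
* `XX f₀ t H = E_U ∫ tree(dT) 1{alT t U T} H U T`;
* `gibbs`: `E ∑_{T ⊂ w} 1{alive} H (w ∖ T) T ≤ XX f₀ t H`.
-/

open MeasureTheory Filter Topology Set
open scoped ENNReal NNReal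

noncomputable section

namespace Vale.Agent.P119.PB

open M CTree KU FB RB AU

variable {Φ : E3 → ℝ} {ε : ℝ} {L : ℕ}

/-- The world `U` with the leaves of `T`. -/
def addT (U : Finset Src) (T : CTree) : Finset Src := by
  classical
  exact U ∪ T.leaves_finite.toFinset

theorem mem_addT {U : Finset Src} {T : CTree} {a : Src} : a ∈ addT U T ↔ a ∈ U ∨ a ∈ T.leaves := by
  classical
  unfold addT
  rw [Finset.mem_union, Set.Finite.mem_toFinset]

theorem coe_addT (U : Finset Src) (T : CTree) : (addT U T : Set Src) = (U : Set Src) ∪ T.leaves := by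
  ext a
  rw [Finset.mem_coe, mem_addT]
  rfl

theorem rm_addT {U : Finset Src} {T : CTree} (h : Disjoint (U : Set Src) T.leaves) :
    rm (addT U T) T = U := by
  ext a
  rw [mem_rm, mem_addT]
  constructor
  · rintro ⟨h1 | h1, h2⟩
    · exact h1
    · exact absurd h1 h2
  · intro h1
    exact ⟨Or.inl h1, fun h2 => Set.disjoint_left.1 h (Finset.mem_coe.2 h1) h2⟩

theorem wS_rem (w : Finset Ph) (T : CTree) : wS (rem w T) = rm (wS w) T := by
  ext a
  rw [mem_wS, mem_rm, mem_wS]
  constructor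
  · rintro ⟨z, hz, rfl⟩
    have h := mem_rem.1 hz
    exact ⟨⟨z, h.1, rfl⟩, h.2⟩
  · rintro ⟨⟨z, hz, rfl⟩, h⟩
    exact ⟨z, mem_rem.2 ⟨hz, h⟩, rfl⟩

theorem addT_rm {W : Finset Src} {T : CTree} (h : T.leaves ⊆ (W : Set Src)) :
    addT (rm W T) T = W := by
  ext a
  rw [mem_addT, mem_rm]
  constructor
  · rintro (h1 | h1)
    · exact h1.1
    · exact Finset.mem_coe.1 (h h1)
  · intro h1
    by_cases h2 : a ∈ T.leaves
    · exact Or.inr h2
    · exact Or.inl ⟨h1, h2⟩

theorem disjoint_rm (W : Finset Src) (T : CTree) : Disjoint (rm W T : Set Src) T.leaves := by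
  rw [Set.disjoint_left]
  intro a ha hT
  exact (mem_rm.1 (Finset.mem_coe.1 ha)).2 hT

/-- The births of the inserted tree. -/
theorem addT_nonneg {U : Finset Src} {T : CTree} (hU : ∀ a ∈ U, 0 ≤ a.1)
    (hT : ∀ a ∈ T.leaves, 0 ≤ a.1) : ∀ a ∈ addT U T, 0 ≤ a.1 := by
  intro a ha
  rcases mem_addT.1 ha with h | h
  · exact hU a h
  · exact hT a h

/-- `T` is a tree that is alive at its end in the world `U + T`, and its end is not after `t`. -/
structure alT (Φ : E3 → ℝ) (ε : ℝ) (L : ℕ) (t : ℝ) (U : Finset Src) (T : CTree) : Prop where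
  ok : ok Φ ε T
  depth : T.depth ≤ L
  ext_le : ext Φ ε T ≤ t
  alive : alive Φ ε L (addT U T : Set Src) T (ext Φ ε T)

theorem rs_addT {X : Type*} [MeasurableSpace X] {W : X → Finset Src} {T : X → CTree}
    (hW : MM.RS fun x => (W x : Set Src)) (hT : Measurable T) :
    MM.RS fun x => ((addT (W x) (T x) : Finset Src) : Set Src) :=
  (MM.RS.union_leaves hW hT).congr fun _ => coe_addT _ _

theorem rs_rm {X : Type*} [MeasurableSpace X] {W : X → Finset Src} {T : X → CTree}
    (hW : MM.RS fun x => (W x : Set Src)) (hT : Measurable T) :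
    MM.RS fun x => ((rm (W x) (T x) : Finset Src) : Set Src) :=
  (MM.RS.sdiff_leaves hW hT).congr fun x => by
    ext a
    rw [Finset.mem_coe, mem_rm, Set.mem_sdiff, Finset.mem_coe]

theorem measurableSet_alT (hΦ : IsPotential Φ) (hε : 0 < ε) {X : Type*} [MeasurableSpace X]
    {W : X → Finset Src} {T : X → CTree} {t : X → ℝ} (hW : MM.RS fun x => (W x : Set Src))
    (hT : Measurable T) (ht : Measurable t) :
    MeasurableSet {x | alT Φ ε L (t x) (W x) (T x)} := by
  have h1 : MeasurableSet {x | M.CTree.ok Φ ε (T x)} := hT (measurableSet_ok hΦ hε.ne')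
  have h2 : MeasurableSet {x | (T x).depth ≤ L} :=
    (measurable_depth.comp hT) (measurableSet_Iic (a := L))
  have h3 : MeasurableSet {x | ext Φ ε (T x) ≤ t x} :=
    measurableSet_le ((measurable_ext hΦ hε.ne').comp hT) ht
  have h4 : MeasurableSet {x | M.alive Φ ε L (addT (W x) (T x) : Set Src) (T x)
      (ext Φ ε (T x))} :=
    MM.measurableSet_tree_alive hΦ hε (rs_addT hW hT) hT ((measurable_ext hΦ hε.ne').comp hT)
  have e : {x | alT Φ ε L (t x) (W x) (T x)} = {x | M.CTree.ok Φ ε (T x)} ∩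
      ({x | (T x).depth ≤ L} ∩ ({x | ext Φ ε (T x) ≤ t x} ∩
        {x | M.alive Φ ε L (addT (W x) (T x) : Set Src) (T x) (ext Φ ε (T x))})) := by
    ext x
    exact ⟨fun h => ⟨h.ok, h.depth, h.ext_le, h.alive⟩,
      fun h => ⟨h.1, h.2.1, h.2.2.1, h.2.2.2⟩⟩
  rw [e]
  exact h1.inter (h2.inter (h3.inter h4))

/-! ### Indicators -/

theorem ind_of {p : Prop} (h : p) : ind p = 1 := if_pos h

theorem ind_of_not {p : Prop} (h : ¬p) : ind p = 0 := if_neg h

theorem ind_le_one (p : Prop) : ind p ≤ 1 := by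
  by_cases h : p
  · rw [ind_of h]
  · rw [ind_of_not h]; exact zero_le

theorem ind_mono {p q : Prop} (h : p → q) : ind p ≤ ind q := by
  by_cases hp : p
  · rw [ind_of hp, ind_of (h hp)]
  · rw [ind_of_not hp]; exact zero_le

theorem ind_or_le (p q : Prop) : ind (p ∨ q) ≤ ind p + ind q := by
  by_cases hp : p
  · rw [ind_of hp, ind_of (Or.inl hp)]
    exact le_self_add
  · by_cases hq : q
    · rw [ind_of hq, ind_of (Or.inr hq)]
      exact le_add_self
    · rw [ind_of_not (p := p ∨ q) (fun h => h.elim hp hq)]; exact zero_le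

theorem ind_mul_ind (p q : Prop) : ind p * ind q = ind (p ∧ q) := by
  by_cases hp : p
  · by_cases hq : q
    · rw [ind_of hp, ind_of hq, ind_of ⟨hp, hq⟩, one_mul]
    · rw [ind_of_not hq, ind_of_not (p := p ∧ q) (fun h => hq h.2), mul_zero]
  · rw [ind_of_not hp, ind_of_not (p := p ∧ q) (fun h => hp h.1), zero_mul]

theorem measurable_ind {X : Type*} [MeasurableSpace X] {p : X → Prop}
    (h : MeasurableSet {x | p x}) : Measurable fun x => ind (p x) := by
  classical
  have : (fun x => ind (p x)) = {x | p x}.indicator fun _ => (1 : ℝ≥0∞) := by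
    funext x
    by_cases hx : p x
    · rw [ind_of hx, indicator_of_mem (show x ∈ {x | p x} from hx)]
    · rw [ind_of_not hx, indicator_of_notMem (show x ∉ {x | p x} from hx)]
  rw [this]
  exact measurable_const.indicator h

theorem meas_left {X Y : Type*} [MeasurableSpace X] [MeasurableSpace Y] {F : X → Y → ℝ≥0∞}
    (h : Measurable fun p : X × Y => F p.1 p.2) (y : Y) : Measurable fun x => F x y :=
  h.comp (measurable_id.prodMk measurable_const)

theorem meas_swap {X Y : Type*} [MeasurableSpace X] [MeasurableSpace Y] {F : X → Y → ℝ≥0∞}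
    (h : Measurable fun p : X × Y => F p.1 p.2) : Measurable fun p : Y × X => F p.2 p.1 :=
  h.comp (measurable_snd.prodMk measurable_fst)

/-! ### One inserted tree -/

variable (Φ ε L)

/-- The integral of `H U T` over the gas `U` and an inserted tree `T` which is alive at its end. -/
def XX (f₀ : Ph → ℝ) (t : ℝ) (H : Finset Src → CTree → ℝ≥0∞) : ℝ≥0∞ :=
  ∫⁻ c, ∫⁻ T, ind (alT Φ ε L t (wS (GC.pts c)) T) * H (wS (GC.pts c)) T
    ∂(tree (GC.inten f₀ ε) L) ∂(GC.PP f₀ ε)

variable {Φ ε L} {f₀ : Ph → ℝ} {κ t : ℝ}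

theorem XX_mono {H H' : Finset Src → CTree → ℝ≥0∞}
    (h : ∀ U T, alT Φ ε L t U T → H U T ≤ H' U T) : XX Φ ε L f₀ t H ≤ XX Φ ε L f₀ t H' := by
  unfold XX
  refine lintegral_mono fun c => lintegral_mono fun T => ?_
  by_cases hT : alT Φ ε L t (wS (GC.pts c)) T
  · exact mul_le_mul_right (h _ _ hT) _
  · rw [ind_of_not hT, zero_mul]
    exact zero_le

/-- The random worlds of the configurations, with a tree. -/
theorem rs_wS_tree : MM.RS fun p : CTree × GC.Conf Ph => ((wS (GC.pts p.2) : Finset Src) : Set Src) :=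
  RM.rs_wS measurable_snd

theorem measurableSet_alT' (hΦ : IsPotential Φ) (hε : 0 < ε) (t : ℝ) :
    MeasurableSet {p : CTree × GC.Conf Ph | alT Φ ε L t (wS (GC.pts p.2)) p.1} :=
  measurableSet_alT hΦ hε rs_wS_tree measurable_fst measurable_const

theorem XX_add (hΦ : IsPotential Φ) (hε : 0 < ε) {H H' : Finset Src → CTree → ℝ≥0∞}
    (hH : Measurable fun p : CTree × GC.Conf Ph => H (wS (GC.pts p.2)) p.1) (h : GoodDatum f₀ κ) :
    XX Φ ε L f₀ t (fun U T => H U T + H' U T) = XX Φ ε L f₀ t H + XX Φ ε L f₀ t H' := by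
  have := GC.isFiniteMeasure_inten (ε := ε) h
  have hm : Measurable fun p : CTree × GC.Conf Ph =>
      ind (alT Φ ε L t (wS (GC.pts p.2)) p.1) * H (wS (GC.pts p.2)) p.1 :=
    (measurable_ind (measurableSet_alT' hΦ hε t)).mul hH
  have hm' : Measurable fun p : GC.Conf Ph × CTree =>
      ind (alT Φ ε L t (wS (GC.pts p.1)) p.2) * H (wS (GC.pts p.1)) p.2 :=
    meas_swap (F := fun (T : CTree) (c : GC.Conf Ph) =>
      ind (alT Φ ε L t (wS (GC.pts c)) T) * H (wS (GC.pts c)) T) hm
  have hA : Measurable fun c : GC.Conf Ph => ∫⁻ T, ind (alT Φ ε L t (wS (GC.pts c)) T) *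
      H (wS (GC.pts c)) T ∂(tree (GC.inten f₀ ε) L) := hm'.lintegral_prod_right'
  have h1 : ∀ c : GC.Conf Ph, Measurable fun T : CTree =>
      ind (alT Φ ε L t (wS (GC.pts c)) T) * H (wS (GC.pts c)) T := fun c =>
    meas_left (F := fun (T : CTree) (c : GC.Conf Ph) =>
      ind (alT Φ ε L t (wS (GC.pts c)) T) * H (wS (GC.pts c)) T) hm c
  have h2 : ∀ c : GC.Conf Ph, ∫⁻ T, ind (alT Φ ε L t (wS (GC.pts c)) T) *
      (H (wS (GC.pts c)) T + H' (wS (GC.pts c)) T) ∂(tree (GC.inten f₀ ε) L) =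
      ∫⁻ T, ind (alT Φ ε L t (wS (GC.pts c)) T) * H (wS (GC.pts c)) T
        ∂(tree (GC.inten f₀ ε) L) + ∫⁻ T, ind (alT Φ ε L t (wS (GC.pts c)) T) *
          H' (wS (GC.pts c)) T ∂(tree (GC.inten f₀ ε) L) := by
    intro c
    rw [← lintegral_add_left (h1 c)]
    refine lintegral_congr fun T => ?_
    rw [mul_add]
  unfold XX
  rw [lintegral_congr h2, lintegral_add_left hA]

open Classical in
/-- **Extraction of a tree from the gas.** -/
theorem gibbs (hΦ : IsPotential Φ) (h : GoodDatum f₀ κ) (hε : 0 < ε)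
    {H : Finset Src → CTree → ℝ≥0∞}
    (hH : Measurable fun p : CTree × GC.Conf Ph => H (wS (GC.pts p.2)) p.1) :
    ∫⁻ c, ∑' T : CTree, (if T.leaves ⊆ (wS (GC.pts c) : Set Src) then
      ind (alT Φ ε L t (rm (wS (GC.pts c)) T) T) * H (rm (wS (GC.pts c)) T) T else 0)
        ∂(GC.PP f₀ ε) ≤ XX Φ ε L f₀ t H := by
  have hfin := GC.isFiniteMeasure_inten (ε := ε) h
  have hprob := GC.isProbability_PP (ε := ε) h
  have hm : Measurable fun p : CTree × GC.Conf Ph =>
      ind (alT Φ ε L t (wS (GC.pts p.2)) p.1) * H (wS (GC.pts p.2)) p.1 :=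
    (measurable_ind (measurableSet_alT' hΦ hε t)).mul hH
  have h1 := extract_le (Φ := Φ) (ε := ε) (L := L) (ν := GC.inten f₀ ε) (C := GC.Cx ε)
    (GC.measurableSet_Cx ε) (GC.Cx_symm ε) (GC.Cx_irrefl hε.le)
    (F := fun T w => ind (alT Φ ε L t (wS w) T) * H (wS w) T) (fun T w hne => by
      by_cases hT : alT Φ ε L t (wS w) T
      · exact ⟨hT.ok, hT.depth⟩
      · rw [ind_of_not hT, zero_mul] at hne
        exact absurd rfl hne) hm
  refine le_trans (le_of_eq ?_) (h1.trans (le_of_eq ?_))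
  · refine lintegral_congr fun c => tsum_congr fun T => ?_
    rw [coe_wS]
    by_cases hT : T.leaves ⊆ world (GC.pts c : Set Ph)
    · rw [if_pos hT, if_pos hT, wS_rem]
    · rw [if_neg hT, if_neg hT]
  · rw [lintegral_lintegral_swap hm.aemeasurable]
    rfl

end Vale.Agent.P119.PB
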