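import Vale.Agent.P119.RM.Src
import Vale.Agent.P119.PB.X
import Vale.Agent.P119.PB.Marks2
import Vale.Agent.P119.ML.CapDef

/-!
# P119, block PROB: ONE STEP, integrated (`helper336`)

* `typI`: integrals with respect to the typical part of the law of the partners;
* `hitI`, `mainN`, `secN`: the alternatives for the first touch of the line `σ`, which hits the tree
  `T`, over the world `V` without `T`;
* `theta_le`: the integrated ONE STEP inequality for `theta`.
-/

open MeasureTheory Filter Topology Set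
open scoped ENNReal NNReal

noncomputable section

namespace Vale.Agent.P119.PB

open M CTree KU FB RB AU FL

variable {Φ : E3 → ℝ} {ε : ℝ}

/-! ### The typical law of the partners -/

/-- Integrals with respect to the typical part of the law of the partners, with births in
`[0, Tm]`. -/
def typI (b Tm : ℝ) (α : ℕ → ℝ≥0∞) (F : Src → ℝ≥0∞) : ℝ≥0∞ :=
  ∑' d, α d * ((∫⁻ z : Ph, gw b z.2 * F (0, z, d)) +
    ∫⁻ s in Icc 0 Tm, ∫⁻ z : Ph, gw b z.2 * F (s, z, d))

/-- The birth is integrated out. -/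
theorem typI_le {b Tm : ℝ} (hTm : 0 ≤ Tm) {α : ℕ → ℝ≥0∞} {F : Src → ℝ≥0∞} {G : Ph → ℕ → ℝ≥0∞}
    (hFG : ∀ s z d, F (s, z, d) ≤ G z d) :
    typI b Tm α F ≤ ∑' d, (α d * ENNReal.ofReal (1 + Tm)) * ∫⁻ z : Ph, gw b z.2 * G z d := by
  refine ENNReal.tsum_le_tsum fun d => ?_
  rw [mul_assoc]
  refine mul_le_mul_right ?_ _
  have h1 : ∀ s, ∫⁻ z : Ph, gw b z.2 * F (s, z, d) ≤ ∫⁻ z : Ph, gw b z.2 * G z d := fun s =>
    lintegral_mono fun z => mul_le_mul_right (hFG s z d) _
  calc (∫⁻ z : Ph, gw b z.2 * F (0, z, d)) + ∫⁻ s in Icc 0 Tm, ∫⁻ z : Ph, gw b z.2 * F (s, z, d)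
      ≤ (∫⁻ z : Ph, gw b z.2 * G z d) + ∫⁻ s in Icc 0 Tm, ∫⁻ z : Ph, gw b z.2 * G z d :=
        add_le_add (h1 0) (lintegral_mono fun s => h1 s)
    _ = ENNReal.ofReal (1 + Tm) * ∫⁻ z : Ph, gw b z.2 * G z d := by
        rw [lintegral_const, Measure.restrict_apply_univ, Real.volume_Icc, sub_zero,
          ENNReal.ofReal_add zero_le_one hTm, ENNReal.ofReal_one, add_mul, one_mul, mul_comm]

/-! ### The alternatives -/

/-- The line `σ` hits the line `z'` up to the time `t`. -/
def hitI (ε t : ℝ) (σ : Src) (z' : Ph) : Prop :=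
  Meets ε (σ.2.1, z') ∧ σ.1 < hitT ε (σ.2.1, z') ∧ hitT ε (σ.2.1, z') ≤ t

theorem measurableSet_hitI {X : Type*} [MeasurableSpace X] {t : ℝ} {σ : X → Src} {z' : X → Ph}
    (hσ : Measurable σ) (hz : Measurable z') : MeasurableSet {x | hitI ε t (σ x) (z' x)} := by
  have hq : Measurable fun x => ((σ x).2.1, z' x) :=
    (measurable_fst.comp (measurable_snd.comp hσ)).prodMk hz
  have hh : Measurable fun x => hitT ε ((σ x).2.1, z' x) := measurable_hitT.comp hq
  exact (measurableSet_meets.preimage hq).inter ((measurableSet_lt hσ.fst hh).inter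
    (measurableSet_le hh measurable_const))

variable (L : ℕ) (hΦ : IsPotential Φ) (hε : 0 < ε)

open Classical in
/-- The indicator of a touch of a source of depth at most `L`. -/
def tchL (η t w : ℝ) (V : Finset Src) (m : Src) : ℝ≥0∞ :=
  if m.2.2 ≤ L then ind (TT L hΦ hε η t w V m) else 0

open Classical in
/-- The main alternatives: contact of the pair, touch of a fresh line. They depend on the partner
through its line and its depth only. -/
def mainN (η t w : ℝ) (V : Finset Src) (σ : Src) (z' : Ph) (n : ℕ) : ℝ≥0∞ :=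
  ind (PairC L hΦ hε η t w V σ z') + fresh Φ ε t (tchL L hΦ hε η t w V) σ z' n

open Classical in
/-- The indicator of a second event, for sources `m` of depth at most `L`. -/
def gI (η t : ℝ) (V : Finset Src) (e m : Src) : ℝ≥0∞ :=
  if m.2.2 ≤ L then ind (GG L hΦ hε η t V e m) else 0

open Classical in
/-- The indicator of: `e` touches `V`, and the pair of `σ` and `z'` is in contact with an exposed
label of `V + e`. -/
def pI (η t w : ℝ) (V : Finset Src) (e σ : Src) (z' : Ph) : ℝ≥0∞ :=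
  ind ((RB.Y Φ ε L hΦ hε).Touch V (insert e V) (hz L hΦ hε η t (insert e V)) ∧
    PairC L hΦ hε η t w (insert e V) σ z')

open Classical in
/-- The second events: an exhaust of `T` and another line touch. -/
def secN (η t w : ℝ) (V : Finset Src) (σ : Src) (T : CTree) : ℝ≥0∞ :=
  exsum T fun x =>
    (gI L hΦ hε η t V (rsrc Φ ε x)
        (sepT Φ ε (σ.2.1, ln Φ ε T), (sc2 Φ ε (σ.2.1, ln Φ ε T)).1, max σ.2.2 T.depth + 1) +
      gI L hΦ hε η t V (rsrc Φ ε x)
        (sepT Φ ε (σ.2.1, ln Φ ε T), (sc2 Φ ε (σ.2.1, ln Φ ε T)).2, max σ.2.2 T.depth + 1) +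
      gI L hΦ hε η t V (rsrc Φ ε x) (hitT ε (σ.2.1, ln Φ ε T), ln Φ ε T, T.depth) +
      pI L hΦ hε η t w V (rsrc Φ ε x) σ (ln Φ ε T)) +
    exsum T fun y => if x = y then 0 else gI L hΦ hε η t V (rsrc Φ ε x) (rsrc Φ ε y)

/-- The integral over the trees `T`, alive in `V + T`, which are hit by the line `σ` up to the time
`t`. -/
def XI (f₀ : Ph → ℝ) (Φ : E3 → ℝ) (ε : ℝ) (L : ℕ) (t : ℝ) (σ : Src)
    (G : Finset Src → CTree → ℝ≥0∞) : ℝ≥0∞ :=
  XX Φ ε L f₀ t fun V T => ind (hitI ε t σ (ln Φ ε T)) * G V T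

/-- The second events after a hit within the time `w`, not before the exit of `T`. -/
def secW (η t w : ℝ) (V : Finset Src) (σ : Src) (T : CTree) : ℝ≥0∞ :=
  ind (hitT ε (σ.2.1, ln Φ ε T) ≤ σ.1 + w ∧ ext Φ ε T ≤ hitT ε (σ.2.1, ln Φ ε T)) *
    secN L hΦ hε η t w V σ T

/-- Second events after a hit of the line `σ`, within the time `w`. -/
def secS (f₀ : Ph → ℝ) (η t w : ℝ) (σ : Src) : ℝ≥0∞ :=
  XI f₀ Φ ε L t σ fun V T => secW L hΦ hε η t w V σ T

open Classical in
/-- The indicator of the creation of a too deep tree. -/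
def ovr (L : ℕ) (σ : Src) (T : CTree) : ℝ≥0∞ := if L < max σ.2.2 T.depth + 1 then 1 else 0

/-- Creation of a tree of depth greater than `L`. -/
def overX (f₀ : Ph → ℝ) (Φ : E3 → ℝ) (ε : ℝ) (L : ℕ) (t : ℝ) (σ : Src) : ℝ≥0∞ :=
  XI f₀ Φ ε L t σ fun _ T => ovr L σ T

variable {L hΦ hε} {f₀ : Ph → ℝ} {κ : ℝ} {t η w b : ℝ} {σ : Src}

theorem ind_and {p q : Prop} : ind (p ∧ q) = ind p * ind q := (ind_mul_ind p q).symm

theorem HitC_iff {U : Finset Src} {T : CTree} (hT : T.leaves ⊆ (U : Set Src)) (hd : T.depth ≤ L) :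
    HitC Φ ε L t U σ T ↔ alT Φ ε L t (rm U T) T ∧ hitI ε t σ (ln Φ ε T) := by
  constructor
  · rintro ⟨h1, h2, h3, h4, h5⟩
    refine ⟨⟨(alive_pre h5).ok, hd, h4, ?_⟩, h1, h2, h3⟩
    rw [addT_rm hT]
    exact h5
  · rintro ⟨h1, h2, h3, h4⟩
    refine ⟨h2, h3, h4, h1.ext_le, ?_⟩
    have h5 := h1.alive
    rwa [addT_rm hT] at h5

theorem measurable_hit {G : Finset Src → CTree → ℝ≥0∞} (hΦ : IsPotential Φ) (hε : 0 < ε)
    (hG : Measurable fun p : CTree × GC.Conf Ph => G (wS (GC.pts p.2)) p.1) :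
    Measurable fun p : CTree × GC.Conf Ph =>
      ind (hitI ε t σ (ln Φ ε p.1)) * G (wS (GC.pts p.2)) p.1 :=
  (measurable_ind (measurableSet_hitI measurable_const
    ((M.measurable_ln hΦ hε.ne').comp measurable_fst))).mul hG

/-- Extraction of the trees which are hit by the line `σ`. -/
theorem sum_hit_le (h₀ : GoodDatum f₀ κ) (hΦ : IsPotential Φ) (hε : 0 < ε)
    {G : Finset Src → CTree → ℝ≥0∞}
    (hG : Measurable fun p : CTree × GC.Conf Ph => G (wS (GC.pts p.2)) p.1) :
    ∫⁻ c, ∑ T ∈ trs L (wS (GC.pts c)), ind (HitC Φ ε L t (wS (GC.pts c)) σ T) *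
      G (rm (wS (GC.pts c)) T) T ∂(GC.PP f₀ ε) ≤ XI f₀ Φ ε L t σ G := by
  classical
  refine le_trans (lintegral_mono fun c => ?_)
    (gibbs (L := L) (t := t) hΦ h₀ hε (measurable_hit (σ := σ) (t := t) hΦ hε hG))
  refine le_trans (Finset.sum_le_sum fun T hT => ?_) (ENNReal.sum_le_tsum (trs L (wS (GC.pts c))))
  obtain ⟨h1, h2⟩ := mem_trs.1 hT
  rw [if_pos h1]
  have h3 := HitC_iff (Φ := Φ) (ε := ε) (t := t) (σ := σ) h1 h2
  rw [← mul_assoc, ← ind_and]
  simp only [h3, le_refl]

/-! ### The main alternatives -/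

theorem measurable_tchL {X : Type} [MeasurableSpace X] {V : X → Finset Src} {m : X → Src}
    (hV : MM.RS fun x => (V x : Set Src)) (hm : Measurable m) :
    Measurable fun x => tchL L hΦ hε η t w (V x) (m x) := by
  unfold tchL
  exact Measurable.ite ((measurable_snd.comp (measurable_snd.comp hm)) (measurableSet_Iic (a := L)))
    (measurable_ind (RM.measurableSet_TT hV measurable_const measurable_const measurable_const
      hm)) measurable_const

theorem fresh_le_three {θ : Src → ℝ≥0∞} (hθ : ∀ m, θ m ≤ 1) (z' : Ph) (n : ℕ) :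
    fresh Φ ε t θ σ z' n ≤ 3 := by
  have key : ∀ (f : ℝ → ℝ≥0∞) (x : ℝ), (∀ y, f y ≤ 1) → (Iic t).indicator f x ≤ 1 := by
    intro f x hf
    by_cases h : x ∈ Iic t
    · rw [indicator_of_mem h]; exact hf x
    · rw [indicator_of_notMem h]; exact zero_le
  unfold fresh
  calc _ ≤ (1 : ℝ≥0∞) + 1 + 1 :=
        add_le_add (add_le_add (key _ _ fun _ => hθ _) (key _ _ fun _ => hθ _))
          (key _ _ fun _ => hθ _)
    _ = 3 := by norm_num

theorem tchL_le_one {V : Finset Src} (m : Src) : tchL L hΦ hε η t w V m ≤ 1 := by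
  unfold tchL
  split_ifs
  · exact ind_le_one _
  · exact zero_le

theorem mainN_le {V : Finset Src} (z' : Ph) (n : ℕ) : mainN L hΦ hε η t w V σ z' n ≤ 4 := by
  unfold mainN
  calc _ ≤ (1 : ℝ≥0∞) + 3 :=
        add_le_add (ind_le_one _) (fresh_le_three (fun m => tchL_le_one m) z' n)
    _ = 4 := by norm_num

/-- The expectation of the touches of the fresh lines. -/
theorem lintegral_fresh (z' : Ph) (n : ℕ) :
    ∫⁻ c, fresh Φ ε t (tchL L hΦ hε η t w (wS (GC.pts c))) σ z' n ∂(GC.PP f₀ ε) =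
      fresh Φ ε t (thL L hΦ hε f₀ η t w) σ z' n := by
  have key : ∀ (τ : ℝ) (z : Ph) (k : ℕ), (Measurable fun c => (Iic t).indicator
      (fun τ => tchL L hΦ hε η t w (wS (GC.pts c)) (τ, z, k)) τ) ∧
      ∫⁻ c, (Iic t).indicator (fun τ => tchL L hΦ hε η t w (wS (GC.pts c)) (τ, z, k)) τ
        ∂(GC.PP f₀ ε) = (Iic t).indicator (fun τ => thL L hΦ hε f₀ η t w (τ, z, k)) τ := by
    intro τ z k
    by_cases h : τ ∈ Iic t
    · simp only [indicator_of_mem h]
      refine ⟨measurable_tchL RM.rs_conf measurable_const, ?_⟩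
      unfold tchL thL theta
      by_cases hk : k ≤ L
      · simp only [if_pos hk]
      · simp only [if_neg hk, lintegral_zero]
    · simp only [indicator_of_notMem h, lintegral_zero, and_true]
      exact measurable_const
  unfold fresh
  rw [lintegral_add_left, lintegral_add_left, (key _ _ _).2, (key _ _ _).2, (key _ _ _).2]
  · exact (key _ _ _).1
  · exact (key _ _ _).1.add (key _ _ _).1

theorem measurable_mainN {X : Type} [MeasurableSpace X] {V : X → Finset Src} {f : X → Src}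
    {z' : X → Ph} {n : X → ℕ} (hV : MM.RS fun x => (V x : Set Src)) (hf : Measurable f)
    (hz : Measurable z') (hn : Measurable n) :
    Measurable fun x => mainN L hΦ hε η t w (V x) (f x) (z' x) (n x) := by
  have hq : Measurable fun x => ((f x).2.1, z' x) :=
    (measurable_fst.comp (measurable_snd.comp hf)).prodMk hz
  have hh : Measurable fun x => hitT ε ((f x).2.1, z' x) := measurable_hitT.comp hq
  have hs : Measurable fun x => sepT Φ ε ((f x).2.1, z' x) := (measurable_sepT hΦ).comp hq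
  have hd : Measurable fun x => max (f x).2.2 (n x) + 1 :=
    ((measurable_snd.comp (measurable_snd.comp hf)).max hn).add_const 1
  have hsc := (measurable_sc2 hΦ hε.ne').comp hq
  have key : ∀ (τ : X → ℝ) (z : X → Ph) (k : X → ℕ), Measurable τ → Measurable z → Measurable k →
      Measurable fun x => (Iic t).indicator
        (fun τ => tchL L hΦ hε η t w (V x) (τ, z x, k x)) (τ x) := by
    intro τ z k h1 h2 h3
    classical
    have e : (fun x => (Iic t).indicator
        (fun τ => tchL L hΦ hε η t w (V x) (τ, z x, k x)) (τ x)) =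
        fun x => if τ x ∈ Iic t then tchL L hΦ hε η t w (V x) (τ x, z x, k x) else 0 := by
      funext x
      rw [indicator_apply]
    rw [e]
    exact Measurable.ite (h1 measurableSet_Iic) (measurable_tchL hV (h1.prodMk (h2.prodMk h3)))
      measurable_const
  unfold mainN fresh
  exact (measurable_ind (RM.measurableSet_PairC hV measurable_const
      measurable_const measurable_const hf hz)).add
    (((key _ _ _ hs hsc.fst hd).add (key _ _ _ hs hsc.snd hd)).add (key _ _ _ hh hz hn))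

theorem alT_iff {c : GC.Conf Ph} {T : CTree} :
    alT Φ ε L t (wS (GC.pts c)) T ↔ T ∈ Cap.AL Φ ε L t (GC.pts c : Set Ph) := by
  have e : (addT (wS (GC.pts c)) T : Set Src) = world (GC.pts c : Set Ph) ∪ T.leaves := by
    rw [coe_addT, coe_wS]
  constructor
  · intro h
    exact ⟨by rw [← e]; exact h.alive, h.ext_le⟩
  · rintro ⟨h1, h2⟩
    have h3 := alive_pre h1
    exact ⟨h3.ok, h3.depth, h2, by rw [e]; exact h1⟩

/-- One configuration: the law of the partners. -/
theorem inner_main_le {Tm : ℝ} (htT : t ≤ Tm) {α : ℕ → ℝ≥0∞} (hTm : 0 ≤ Tm)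
    {c : GC.Conf Ph} {ν : Measure Src}
    (hcap : ∀ F : Src → ℝ≥0∞, Measurable F →
      ∫⁻ T in Cap.AL Φ ε L Tm (GC.pts c : Set Ph), F (rsrc Φ ε T) ∂(tree (GC.inten f₀ ε) L) ≤
        muE ε * (typI b Tm α F + ∫⁻ p, F p ∂ν)) :
    ∫⁻ T, ind (alT Φ ε L t (wS (GC.pts c)) T) * (ind (hitI ε t σ (ln Φ ε T)) *
        mainN L hΦ hε η t w (wS (GC.pts c)) σ (ln Φ ε T) T.depth) ∂(tree (GC.inten f₀ ε) L) ≤
      muE ε * ((∑' d, (α d * ENNReal.ofReal (1 + Tm)) * ∫⁻ z : Ph, gw b z.2 *
        (ind (hitI ε t σ z) * mainN L hΦ hε η t w (wS (GC.pts c)) σ z d)) +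
        4 * ν {p : Src | hitI ε t σ p.2.1}) := by
  set F : Src → ℝ≥0∞ := fun p => ind (hitI ε t σ p.2.1) *
    mainN L hΦ hε η t w (wS (GC.pts c)) σ p.2.1 p.2.2 with hF
  have hp1 : Measurable fun p : Src => p.2.1 := measurable_fst.comp measurable_snd
  have hp2 : Measurable fun p : Src => p.2.2 := measurable_snd.comp measurable_snd
  have hS : MeasurableSet {p : Src | hitI ε t σ p.2.1} :=
    measurableSet_hitI (t := t) (ε := ε) (measurable_const (a := σ)) hp1
  have hrs : MM.RS fun _ : Src => (wS (GC.pts c) : Set Src) :=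
    MM.RS.comp (RM.rs_conf) (measurable_const (a := c))
  have hFm : Measurable F := (measurable_ind hS).mul
    (measurable_mainN (f := fun _ => σ) hrs measurable_const hp1 hp2)
  have hAL : MeasurableSet (Cap.AL Φ ε L Tm (GC.pts c : Set Ph)) := by
    have h1 := (measurableSet_alT' (L := L) hΦ hε Tm).preimage
      (measurable_id.prodMk (measurable_const (a := c)))
    have h2 : (fun T : CTree => (T, c)) ⁻¹'
        {p : CTree × GC.Conf Ph | alT Φ ε L Tm (wS (GC.pts p.2)) p.1} =
        Cap.AL Φ ε L Tm (GC.pts c : Set Ph) := by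
      ext T
      exact alT_iff
    rw [← h2]
    exact h1
  calc _ ≤ ∫⁻ T in Cap.AL Φ ε L Tm (GC.pts c : Set Ph), F (rsrc Φ ε T)
          ∂(tree (GC.inten f₀ ε) L) := by
        rw [← lintegral_indicator hAL]
        refine lintegral_mono fun T => ?_
        by_cases h : alT Φ ε L t (wS (GC.pts c)) T
        · have h1 := alT_iff.1 h
          have h' : T ∈ Cap.AL Φ ε L Tm (GC.pts c : Set Ph) := ⟨h1.1, h1.2.trans htT⟩
          rw [indicator_of_mem h', ind_of h, one_mul]
          exact le_of_eq rfl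
        · rw [ind_of_not h, zero_mul]
          exact zero_le
    _ ≤ _ := hcap F hFm
    _ ≤ _ := by
        refine mul_le_mul_right (add_le_add (typI_le hTm fun s z d => le_of_eq ?_) ?_) _
        · rfl
        · calc ∫⁻ p, F p ∂ν ≤ ∫⁻ p, 4 * {p : Src | hitI ε t σ p.2.1}.indicator 1 p ∂ν := by
                refine lintegral_mono fun p => ?_
                rw [hF]
                by_cases h : hitI ε t σ p.2.1
                · rw [indicator_of_mem (show p ∈ {p : Src | hitI ε t σ p.2.1} from h)]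
                  simp only [ind_of h, one_mul, Pi.one_apply, mul_one]
                  exact mainN_le _ _
                · simp only [ind_of_not h, zero_mul]
                  exact zero_le
            _ = 4 * ν {p : Src | hitI ε t σ p.2.1} := by
                rw [lintegral_const_mul _ (measurable_one.indicator hS), lintegral_indicator hS]
                simp

/-- The main alternatives, for one depth. -/
theorem inner_split_le (h₀ : GoodDatum f₀ κ) (d : ℕ) : ∫⁻ z : Ph, gw b z.2 *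
        (ind (hitI ε t σ z) * ∫⁻ c, mainN L hΦ hε η t w (wS (GC.pts c)) σ z d ∂(GC.PP f₀ ε)) ≤
      (∫⁻ z' : Ph, gw b z'.2 *
          ∫⁻ c, ind (PairC L hΦ hε η t w (wS (GC.pts c)) σ z') ∂(GC.PP f₀ ε)) +
        ∫⁻ z' in {z' : Ph | Meets ε (σ.2.1, z') ∧ σ.1 < hitT ε (σ.2.1, z')},
          gw b z'.2 * fresh Φ ε t (thL L hΦ hε f₀ η t w) σ z' d := by
  have := GC.isProbability_PP (ε := ε) h₀
  have hq : Measurable fun z : Ph => (σ.2.1, z) := measurable_const.prodMk measurable_id
  have hh : Measurable fun z : Ph => hitT ε (σ.2.1, z) := measurable_hitT.comp hq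
  have hM : MeasurableSet {z' : Ph | Meets ε (σ.2.1, z') ∧ σ.1 < hitT ε (σ.2.1, z')} :=
    (measurableSet_meets.preimage hq).inter (measurableSet_lt measurable_const hh)
  have hP : Measurable fun z' : Ph =>
      ∫⁻ c, ind (PairC L hΦ hε η t w (wS (GC.pts c)) σ z') ∂(GC.PP f₀ ε) := by
    have h1 := RM.measurable_PairC (L := L) (hΦ := hΦ) (hε := hε) η t w
    have h2 : Measurable fun p : Ph × GC.Conf Ph =>
        ind (PairC L hΦ hε η t w (wS (GC.pts p.2)) σ p.1) :=
      h1.comp ((measurable_const.prodMk measurable_fst).prodMk measurable_snd)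
    exact h2.lintegral_prod_right'
  have e : ∀ z : Ph, ∫⁻ c, mainN L hΦ hε η t w (wS (GC.pts c)) σ z d ∂(GC.PP f₀ ε) =
      ∫⁻ c, ind (PairC L hΦ hε η t w (wS (GC.pts c)) σ z) ∂(GC.PP f₀ ε) +
        fresh Φ ε t (thL L hΦ hε f₀ η t w) σ z d := by
    intro z
    have hPc : Measurable fun c : GC.Conf Ph =>
        ind (PairC L hΦ hε η t w (wS (GC.pts c)) σ z) :=
      measurable_ind (RM.measurableSet_PairC RM.rs_conf measurable_const measurable_const
        measurable_const measurable_const measurable_const)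
    unfold mainN
    rw [lintegral_add_left hPc, lintegral_fresh]
  set P : Ph → ℝ≥0∞ := fun z' =>
    ∫⁻ c, ind (PairC L hΦ hε η t w (wS (GC.pts c)) σ z') ∂(GC.PP f₀ ε) with hPd
  set F : Ph → ℝ≥0∞ := fun z => fresh Φ ε t (thL L hΦ hε f₀ η t w) σ z d with hFd
  have hgw : Measurable fun z : Ph => gw b z.2 := (measurable_gw b).comp measurable_snd
  calc ∫⁻ z : Ph, gw b z.2 *
        (ind (hitI ε t σ z) * ∫⁻ c, mainN L hΦ hε η t w (wS (GC.pts c)) σ z d ∂(GC.PP f₀ ε))
      ≤ ∫⁻ z : Ph, (gw b z.2 * P z +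
          {z' : Ph | Meets ε (σ.2.1, z') ∧ σ.1 < hitT ε (σ.2.1, z')}.indicator
            (fun z => gw b z.2 * F z) z) := by
        refine lintegral_mono fun z => ?_
        rw [e z]
        by_cases h : hitI ε t σ z
        · rw [indicator_of_mem (show z ∈ {z' : Ph | Meets ε (σ.2.1, z') ∧
              σ.1 < hitT ε (σ.2.1, z')} from ⟨h.1, h.2.1⟩), ind_of h, one_mul]
          exact (mul_add _ _ _).le
        · rw [ind_of_not h, zero_mul, mul_zero]
          exact zero_le
    _ = (∫⁻ z, gw b z.2 * P z) +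
        ∫⁻ z in {z' : Ph | Meets ε (σ.2.1, z') ∧ σ.1 < hitT ε (σ.2.1, z')},
          gw b z.2 * F z := by
        have m1 : Measurable fun z : Ph => gw b z.2 * P z := hgw.mul hP
        rw [lintegral_add_left m1, lintegral_indicator hM]

/-- **The main alternatives, integrated**, from the law of the partners (CAP0). -/
theorem XI_main_le (h₀ : GoodDatum f₀ κ) {Tm : ℝ} (htT : t ≤ Tm) (hTm : 0 ≤ Tm) {α : ℕ → ℝ≥0∞}
    {ν : GC.Conf Ph → Measure Src}
    (hcap : ∀ c, ∀ F : Src → ℝ≥0∞, Measurable F →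
      ∫⁻ T in Cap.AL Φ ε L Tm (GC.pts c : Set Ph), F (rsrc Φ ε T) ∂(tree (GC.inten f₀ ε) L) ≤
        muE ε * (typI b Tm α F + ∫⁻ p, F p ∂(ν c))) :
    XI f₀ Φ ε L t σ (fun V T => mainN L hΦ hε η t w V σ (ln Φ ε T) T.depth) ≤
      pairS L hΦ hε f₀ b (fun n => α n * ENNReal.ofReal (1 + Tm)) η t w σ +
      KOp Φ ε b t (fun n => α n * ENNReal.ofReal (1 + Tm)) (thL L hΦ hε f₀ η t w) σ +
      4 * atyS (GC.PP f₀ ε) ν ε t σ := by
  have := GC.isFiniteMeasure_inten (ε := ε) h₀
  have := GC.isProbability_PP (ε := ε) h₀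
  set a : ℕ → ℝ≥0∞ := fun n => α n * ENNReal.ofReal (1 + Tm) with ha
  have hz : ∀ {X : Type} [MeasurableSpace X] {z : X → Ph}, Measurable z →
      MeasurableSet {x | hitI ε t σ (z x)} := fun hz =>
    measurableSet_hitI (t := t) (ε := ε) (measurable_const (a := σ)) hz
  have hjm : ∀ d : ℕ, Measurable fun p : GC.Conf Ph × Ph => gw b p.2.2 *
      (ind (hitI ε t σ p.2) * mainN L hΦ hε η t w (wS (GC.pts p.1)) σ p.2 d) := fun d =>
    ((measurable_gw b).comp (measurable_snd.comp measurable_snd)).mul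
      ((measurable_ind (hz measurable_snd)).mul
        (measurable_mainN (f := fun _ => σ) (n := fun _ => d)
          (MM.RS.comp RM.rs_conf measurable_fst) measurable_const measurable_snd
          measurable_const))
  have hcm : ∀ d : ℕ, Measurable fun c : GC.Conf Ph => ∫⁻ z : Ph, gw b z.2 *
      (ind (hitI ε t σ z) * mainN L hΦ hε η t w (wS (GC.pts c)) σ z d) := fun d =>
    (hjm d).lintegral_prod_right'
  unfold XI XX
  calc _ ≤ ∫⁻ c, muE ε * ((∑' d, a d * ∫⁻ z : Ph, gw b z.2 *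
        (ind (hitI ε t σ z) * mainN L hΦ hε η t w (wS (GC.pts c)) σ z d)) +
        4 * (ν c) {p : Src | hitI ε t σ p.2.1}) ∂(GC.PP f₀ ε) :=
        lintegral_mono fun c => inner_main_le htT hTm (hcap c)
    _ = muE ε * ((∑' d, a d * ∫⁻ z : Ph, gw b z.2 *
        (ind (hitI ε t σ z) * ∫⁻ c, mainN L hΦ hε η t w (wS (GC.pts c)) σ z d ∂(GC.PP f₀ ε))) +
        4 * ∫⁻ c, (ν c) {p : Src | hitI ε t σ p.2.1} ∂(GC.PP f₀ ε)) := by
        rw [lintegral_const_mul' _ _ (by unfold muE; exact ENNReal.ofReal_ne_top)]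
        congr 1
        rw [lintegral_add_left (Measurable.tsum fun d => (hcm d).const_mul _),
          lintegral_const_mul' _ _ (by norm_num)]
        congr 1
        rw [lintegral_tsum fun d => ((hcm d).const_mul _).aemeasurable]
        refine tsum_congr fun d => ?_
        rw [lintegral_const_mul _ (hcm d), lintegral_lintegral_swap (hjm d).aemeasurable]
        congr 1
        refine lintegral_congr fun z => ?_
        have hm : Measurable fun c : GC.Conf Ph => mainN L hΦ hε η t w (wS (GC.pts c)) σ z d :=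
          measurable_mainN (f := fun _ => σ) (z' := fun _ => z) (n := fun _ => d)
            RM.rs_conf measurable_const measurable_const measurable_const
        rw [lintegral_const_mul _ (hm.const_mul _), lintegral_const_mul _ hm]
    _ ≤ muE ε * (((∑' d, a d * ∫⁻ z' : Ph, gw b z'.2 *
          ∫⁻ c, ind (PairC L hΦ hε η t w (wS (GC.pts c)) σ z') ∂(GC.PP f₀ ε)) +
        ∑' d, a d * ∫⁻ z' in {z' : Ph | Meets ε (σ.2.1, z') ∧ σ.1 < hitT ε (σ.2.1, z')},
          gw b z'.2 * fresh Φ ε t (thL L hΦ hε f₀ η t w) σ z' d) +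
        4 * ∫⁻ c, (ν c) {p : Src | hitI ε t σ p.2.1} ∂(GC.PP f₀ ε)) := by
        refine mul_le_mul_right (add_le_add ?_ le_rfl) _
        rw [← ENNReal.tsum_add]
        refine ENNReal.tsum_le_tsum fun d => ?_
        rw [← mul_add]
        refine mul_le_mul_right ?_ _
        exact inner_split_le h₀ d
    _ = _ := by
        unfold pairS KOp atyS hitI
        ring

/-! ### The integrated inequality -/

/-- The sum of `G (U ∖ T) T` over the trees `T` of `U` which are hit by the line `σ`. -/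
def sumHit (Φ : E3 → ℝ) (ε : ℝ) (L : ℕ) (t : ℝ) (σ : Src) (G : Finset Src → CTree → ℝ≥0∞)
    (U : Finset Src) : ℝ≥0∞ :=
  ∑ T ∈ trs L U, ind (HitC Φ ε L t U σ T) * G (rm U T) T

variable (L hΦ hε) in
/-- **The pointwise ONE STEP inequality** for the world `U`: first order terms with `mainN`,
second events `secW`, and exceptional terms: `Ir` (the first contact of the line is irregular) and
`B V T` (over the world `V` without the tree `T` which is hit). -/
def Pt5 (η η' t w : ℝ) (U : Finset Src) (σ : Src) (Ir : ℝ≥0∞)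
    (B : Finset Src → CTree → ℝ≥0∞) : Prop :=
  ind (TT L hΦ hε η t w U σ) ≤ ind (DirC L hΦ hε η t w U σ) +
    (∑ T ∈ trs L U, ind (FeltC L hΦ hε η t w U σ T)) +
    sumHit Φ ε L t σ (fun V T => mainN L hΦ hε η' t w V σ (ln Φ ε T) T.depth) U +
    sumHit Φ ε L t σ (fun _ T => ovr L σ T) U +
    sumHit Φ ε L t σ (fun V T => secW L hΦ hε η' t w V σ T) U +
    (Ir + sumHit Φ ε L t σ B U)

theorem measurable_sumHit (hΦ : IsPotential Φ) (hε : 0 < ε) {G : Finset Src → CTree → ℝ≥0∞}
    (hG : Measurable fun p : GC.Conf Ph × CTree => G (rm (wS (GC.pts p.1)) p.2) p.2) :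
    Measurable fun c : GC.Conf Ph => sumHit Φ ε L t σ G (wS (GC.pts c)) := by
  have h1 : Measurable fun p : GC.Conf Ph × CTree =>
      ind (HitC Φ ε L t (wS (GC.pts p.1)) σ p.2) * G (rm (wS (GC.pts p.1)) p.2) p.2 :=
    (measurable_ind (RM.measurableSet_HitC hΦ hε (RM.rs_conf.comp measurable_fst)
      measurable_const measurable_const measurable_snd)).mul hG
  exact RM.measurable_sum_trs RM.rs_conf h1

theorem lintegral_add6 {Ω : Type*} [MeasurableSpace Ω] {P : Measure Ω}
    {f₁ f₂ f₃ f₄ f₅ f₆ : Ω → ℝ≥0∞} (h₁ : Measurable f₁) (h₂ : Measurable f₂)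
    (h₃ : Measurable f₃) (h₄ : Measurable f₄) (h₅ : Measurable f₅) :
    ∫⁻ c, (f₁ c + f₂ c + f₃ c + f₄ c + f₅ c + f₆ c) ∂P =
      (∫⁻ c, f₁ c ∂P) + (∫⁻ c, f₂ c ∂P) + (∫⁻ c, f₃ c ∂P) + (∫⁻ c, f₄ c ∂P) +
        (∫⁻ c, f₅ c ∂P) + ∫⁻ c, f₆ c ∂P := by
  have a2 : Measurable fun c => f₁ c + f₂ c := h₁.add h₂
  have a3 : Measurable fun c => f₁ c + f₂ c + f₃ c := a2.add h₃
  have a4 : Measurable fun c => f₁ c + f₂ c + f₃ c + f₄ c := a3.add h₄
  have a5 : Measurable fun c => f₁ c + f₂ c + f₃ c + f₄ c + f₅ c := a4.add h₅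
  rw [lintegral_add_left a5, lintegral_add_left a4, lintegral_add_left a3, lintegral_add_left a2,
    lintegral_add_left h₁]

/-- **ONE STEP, integrated.** -/
theorem theta_le (h₀ : GoodDatum f₀ κ) {Tm : ℝ} (htT : t ≤ Tm) (hTm : 0 ≤ Tm) {α : ℕ → ℝ≥0∞}
    {ν : GC.Conf Ph → Measure Src} {η' : ℝ} {Ir : GC.Conf Ph → ℝ≥0∞}
    {B : Finset Src → CTree → ℝ≥0∞}
    (hcap : ∀ c, ∀ F : Src → ℝ≥0∞, Measurable F →
      ∫⁻ T in Cap.AL Φ ε L Tm (GC.pts c : Set Ph), F (rsrc Φ ε T) ∂(tree (GC.inten f₀ ε) L) ≤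
        muE ε * (typI b Tm α F + ∫⁻ p, F p ∂(ν c)))
    (hsec : ∀ (X : Type) [MeasurableSpace X] (V : X → Finset Src) (T : X → CTree),
      (MM.RS fun x => (V x : Set Src)) → Measurable T →
      Measurable fun x => secW L hΦ hε η' t w (V x) σ (T x))
    (hpt : ∀ c, Pt5 L hΦ hε η η' t w (wS (GC.pts c)) σ (Ir c) B) :
    theta L hΦ hε f₀ η t w σ ≤ dirS L hΦ hε f₀ η t w σ + feltS L hΦ hε f₀ η t w σ +
      (pairS L hΦ hε f₀ b (fun n => α n * ENNReal.ofReal (1 + Tm)) η' t w σ +
        KOp Φ ε b t (fun n => α n * ENNReal.ofReal (1 + Tm)) (thL L hΦ hε f₀ η' t w) σ +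
        4 * atyS (GC.PP f₀ ε) ν ε t σ) +
      overX f₀ Φ ε L t σ + secS L hΦ hε f₀ η' t w σ +
      ∫⁻ c, (Ir c + sumHit Φ ε L t σ B (wS (GC.pts c))) ∂(GC.PP f₀ ε) := by
  have hrm : MM.RS fun p : GC.Conf Ph × CTree => (rm (wS (GC.pts p.1)) p.2 : Set Src) :=
    rs_rm (RM.rs_conf.comp measurable_fst) measurable_snd
  have hln : Measurable fun p : GC.Conf Ph × CTree => ln Φ ε p.2 :=
    (M.measurable_ln hΦ hε.ne').comp measurable_snd
  have hdp : Measurable fun p : GC.Conf Ph × CTree => p.2.depth :=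
    M.measurable_depth.comp measurable_snd
  have hover : ∀ {X : Type} [MeasurableSpace X] {T : X → CTree}, Measurable T →
      Measurable fun x => ovr L σ (T x) := by
    intro X _ T hT
    have h1 : Measurable fun x => max σ.2.2 (T x).depth + 1 :=
      (measurable_const.max (M.measurable_depth.comp hT)).add_const 1
    exact Measurable.ite (h1 (measurableSet_Ioi (a := L))) measurable_const measurable_const
  -- measurability of the terms
  have m1 : Measurable fun c : GC.Conf Ph => ind (DirC L hΦ hε η t w (wS (GC.pts c)) σ) :=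
    measurable_ind (RM.measurableSet_DirC RM.rs_conf measurable_const measurable_const
      measurable_const measurable_const)
  have m2 : Measurable fun c : GC.Conf Ph => ∑ T ∈ trs L (wS (GC.pts c)),
      ind (FeltC L hΦ hε η t w (wS (GC.pts c)) σ T) :=
    RM.measurable_sum_FeltC RM.rs_conf measurable_const measurable_const measurable_const
      measurable_const
  have m3 : Measurable fun c : GC.Conf Ph => sumHit Φ ε L t σ
      (fun V T => mainN L hΦ hε η' t w V σ (ln Φ ε T) T.depth) (wS (GC.pts c)) :=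
    measurable_sumHit hΦ hε (measurable_mainN (f := fun _ => σ) hrm measurable_const hln hdp)
  have m4 : Measurable fun c : GC.Conf Ph => sumHit Φ ε L t σ
      (fun _ T => ovr L σ T) (wS (GC.pts c)) :=
    measurable_sumHit hΦ hε (hover measurable_snd)
  have m5 : Measurable fun c : GC.Conf Ph => sumHit Φ ε L t σ
      (fun V T => secW L hΦ hε η' t w V σ T) (wS (GC.pts c)) :=
    measurable_sumHit hΦ hε (hsec _ _ _ hrm measurable_snd)
  calc theta L hΦ hε f₀ η t w σ
      ≤ ∫⁻ c, (ind (DirC L hΦ hε η t w (wS (GC.pts c)) σ) +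
        (∑ T ∈ trs L (wS (GC.pts c)), ind (FeltC L hΦ hε η t w (wS (GC.pts c)) σ T)) +
        sumHit Φ ε L t σ (fun V T => mainN L hΦ hε η' t w V σ (ln Φ ε T) T.depth)
          (wS (GC.pts c)) +
        sumHit Φ ε L t σ (fun _ T => ovr L σ T) (wS (GC.pts c)) +
        sumHit Φ ε L t σ (fun V T => secW L hΦ hε η' t w V σ T) (wS (GC.pts c)) +
        (Ir c + sumHit Φ ε L t σ B (wS (GC.pts c)))) ∂(GC.PP f₀ ε) := lintegral_mono fun c => hpt c
    _ = dirS L hΦ hε f₀ η t w σ + feltS L hΦ hε f₀ η t w σ +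
        (∫⁻ c, sumHit Φ ε L t σ (fun V T => mainN L hΦ hε η' t w V σ (ln Φ ε T) T.depth)
          (wS (GC.pts c)) ∂(GC.PP f₀ ε)) +
        (∫⁻ c, sumHit Φ ε L t σ (fun _ T => ovr L σ T) (wS (GC.pts c)) ∂(GC.PP f₀ ε)) +
        (∫⁻ c, sumHit Φ ε L t σ (fun V T => secW L hΦ hε η' t w V σ T) (wS (GC.pts c))
          ∂(GC.PP f₀ ε)) +
        ∫⁻ c, (Ir c + sumHit Φ ε L t σ B (wS (GC.pts c))) ∂(GC.PP f₀ ε) := by
        rw [lintegral_add6 m1 m2 m3 m4 m5]
        rfl
    _ ≤ _ := by
        refine add_le_add (add_le_add (add_le_add (add_le_add le_rfl ?_) ?_) ?_) le_rfl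
        · refine le_trans (sum_hit_le h₀ hΦ hε
            (G := fun V T => mainN L hΦ hε η' t w V σ (ln Φ ε T) T.depth) ?_)
            (XI_main_le h₀ htT hTm hcap)
          exact measurable_mainN (f := fun _ => σ) (RM.rs_conf.comp measurable_snd)
            measurable_const ((M.measurable_ln hΦ hε.ne').comp measurable_fst)
            (M.measurable_depth.comp measurable_fst)
        · exact sum_hit_le h₀ hΦ hε (G := fun _ T => ovr L σ T) (hover measurable_fst)
        · exact sum_hit_le h₀ hΦ hε (G := fun V T => secW L hΦ hε η' t w V σ T)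
            (hsec _ _ _ (RM.rs_conf.comp measurable_snd) measurable_fst)

end Vale.Agent.P119.PB
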