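import Vale.Agent.P119.PB.Op7

/-!
# P119, block PROB: flux of a Gaussian pair into the exposed labels, hits of felt trees, for a fixed
world (`helper347`)
-/

open MeasureTheory Set Filter Topology Metric ProbabilityTheory
open scoped ENNReal

namespace Vale.Agent.P119.PB

open M CTree KU FB RB AU FL EN

variable {Φ : E3 → ℝ} {ε : ℝ} {L : ℕ}

/-- The constant of the flux of a Gaussian pair. -/
noncomputable def Cp (b c₁ T : ℝ) : ℝ≥0∞ := 8 * bv * cF b c₁ * ENNReal.ofReal (D2 b * (Kc (b / 2) * T))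

theorem Cp_ne_top (b c₁ T : ℝ) : Cp b c₁ T ≠ ∞ := by
  unfold Cp
  have h1 : bv ≠ ∞ := by
    unfold bv
    exact measure_ball_lt_top.ne
  exact ENNReal.mul_ne_top (ENNReal.mul_ne_top (ENNReal.mul_ne_top (by norm_num) h1) cF_ne_top)
    ENNReal.ofReal_ne_top

/-- Hits exactly at a fixed time are negligible. -/
theorem hit_null (hε : 0 < ε) {b : ℝ} (hb : 0 < b) (z : Ph) (t : ℝ) :
    ∫⁻ z' : Ph, gw b z'.2 * ind (Meets ε (z, z') ∧ hitT ε (z, z') = t) = 0 := by
  have hg : Measurable (({t} : Set ℝ).indicator (1 : ℝ → ℝ≥0∞)) :=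
    measurable_one.indicator (measurableSet_singleton t)
  have h1 := flux_inner (fluxTime_hitT hε) hb le_rfl z hg
  have h2 : ∫⁻ τ, ({t} : Set ℝ).indicator (1 : ℝ → ℝ≥0∞) τ = 0 := by
    rw [lintegral_indicator_one (measurableSet_singleton t)]
    simp
  rw [h2, mul_zero, mul_zero] at h1
  have hm : MeasurableSet {l' : Ph | Meets ε (z, l')} := measurable_prodMk_left measurableSet_meets
  rw [← lintegral_indicator hm] at h1
  refine le_antisymm (le_trans (lintegral_mono fun z' => ?_) h1) zero_le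
  unfold ind
  split_ifs with h
  · rw [indicator_of_mem (show z' ∈ {l' : Ph | Meets ε (z, l')} from h.1), h.2]
    simp
  · simp

theorem lintegral_fin_one (F : Ph → ℝ≥0∞) : ∫⁻ p : Fin 1 → Ph, F (p 0) = ∫⁻ z' : Ph, F z' := by
  have h3 := volume_preserving_funUnique (Fin 1) Ph
  have h4 := h3.lintegral_comp_emb (MeasurableEquiv.measurableEmbedding _) F
  rw [← h4]
  rfl

theorem ew_one (b : ℝ) (q : Ph × (Fin 1 → Ph)) :
    ENNReal.ofReal (Real.exp (-b * ‖q.1.2‖ ^ 2)) * FL.wt b ε 1 q.2 =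
      gw b q.1.2 * (muE ε * gw b (q.2 0).2) := by
  unfold FL.wt gw
  simp

/-- **Flux of a Gaussian pair into a family of targets**, one of the two paths of the pair. -/
theorem pctc_family (hε : 0 < ε) {b s t T₀ c₁ : ℝ} (hb : 0 < b) (hc₁ : 0 ≤ c₁) (hst : s ≤ t)
    (hT₀ : t - s ≤ T₀) {P : ChainPath ε t (fun _ => Step.keep) 1 c₁} (hP : P.Good)
    (T : Target t) :
    ∫⁻ l, ∫⁻ p, (ctc P s ((T.cut s t le_rfl).a) (T.cut s t le_rfl).Y).indicator (fun q =>
      ENNReal.ofReal (Real.exp (-b * ‖q.1.2‖ ^ 2)) * FL.wt b ε 1 q.2) (l, p) ≤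
      ENNReal.ofReal (ε ^ 2) * Cp b c₁ T₀ * (T.cut s t le_rfl).w ε := by
  refine (first_flux_set hε hb hc₁ hst hP (T.cut s t le_rfl)).trans ?_
  unfold Cp
  have h5 : ENNReal.ofReal (D2 b * ((Kc (b / 2) * (t - s)) ^ 1 / √(Nat.factorial 1 : ℝ))) ≤
      ENNReal.ofReal (D2 b * (Kc (b / 2) * T₀)) := by
    apply ENNReal.ofReal_le_ofReal
    simp only [pow_one, Nat.factorial_one, Nat.cast_one, Real.sqrt_one, div_one]
    have := D2_nonneg b
    have := Kc_nonneg (b / 2)
    gcongr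
  calc _ ≤ ENNReal.ofReal (ε ^ 2) * (8 * bv * cF b c₁) *
        ENNReal.ofReal (D2 b * (Kc (b / 2) * T₀)) * (T.cut s t le_rfl).w ε := by
        gcongr
    _ = _ := by ring

/-- **Flux of a Gaussian pair into the exposed labels of a fixed world.** -/
theorem pc_flux (hΦ : IsPotential Φ) {B : ℝ} (hB : RW.StableWith Φ B) (hε : 0 < ε)
    {W : Finset Src} (hW : ∀ a ∈ W, 0 ≤ a.1) (hexcl : ∀ a ∈ W, ∀ a' ∈ W, a ≠ a' → a.1 = 0 →
      a'.1 = 0 → ε ≤ ‖a.2.1.1 - a'.2.1.1‖) {k : ℕ} (hk : (W.filter fun a => a.1 ≠ 0).card ≤ k)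
    {b : ℝ} (hb : 0 < b) {s h T₀ : ℝ} (hT₀ : h - s ≤ T₀) :
    ∫⁻ z : Ph, ∫⁻ z' : Ph, gw b z.2 * (muE ε * gw b z'.2) * ind (Meets ε (z, z') ∧
      s < hitT ε (z, z') ∧ ∃ r, hitT ε (z, z') ≤ r ∧ r ≤ h ∧
        (CC L hΦ hε W r (pairLine Φ ε (z, z') r).1.1 ∨
          CC L hΦ hε W r (pairLine Φ ε (z, z') r).2.1)) ≤
      ENNReal.ofReal (ε ^ 2) * (2 * Cp b (cS hΦ) T₀ * (2 * ENNReal.ofReal (cDD B k))) *
        (ENNReal.ofReal ε * eW L hΦ hε W h + ∫⁻ r in Icc s h, eW L hΦ hε W r) := by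
  set E : Ph → Ph → Prop := fun z z' => Meets ε (z, z') ∧ s < hitT ε (z, z') ∧
    ∃ r, hitT ε (z, z') ≤ r ∧ r ≤ h ∧ (CC L hΦ hε W r (pairLine Φ ε (z, z') r).1.1 ∨
      CC L hΦ hε W r (pairLine Φ ε (z, z') r).2.1) with hE
  change ∫⁻ z : Ph, ∫⁻ z' : Ph, gw b z.2 * (muE ε * gw b z'.2) * ind (E z z') ≤ _
  rcases lt_or_ge h s with hts | hst
  · have h0 : ∀ z z' : Ph, gw b z.2 * (muE ε * gw b z'.2) * ind (E z z') = 0 := by
      intro z z'
      unfold ind
      rw [if_neg, mul_zero]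
      rintro ⟨-, h1, r, h2, h3, -⟩
      linarith
    simp only [h0, lintegral_zero]
    exact zero_le
  set I := expI Φ ε L hΦ hε W h with hI
  set Tg := expT Φ ε L hΦ hε W h with hTg
  have h2 := sum_exp_cut (L := L) hΦ hB hε hW hexcl hk s h
  set P1 := pairPath1 hΦ hε.ne' h (fun _ => Step.keep) 0 with hP1
  set P2 := pairPath2 hΦ hε.ne' h (fun _ => Step.keep) 0 with hP2
  have g1 : P1.Good := good_pairPath1 hΦ hε.ne' h (fun _ => Step.keep) 0
  have g2 : P2.Good := good_pairPath2 hΦ hε.ne' h (fun _ => Step.keep) 0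
  -- the events
  set A : Option (Bool × (Bool × Src)) → Set (Ph × (Fin 1 → Ph)) := fun o =>
    match o with
    | none => {q | Meets ε (q.1, q.2 0) ∧ hitT ε (q.1, q.2 0) = h}
    | some (true, i) => ctc P1 s ((Tg i).cut s h le_rfl).a ((Tg i).cut s h le_rfl).Y
    | some (false, i) => ctc P2 s ((Tg i).cut s h le_rfl).a ((Tg i).cut s h le_rfl).Y with hA
  set J : Finset (Option (Bool × (Bool × Src))) := Finset.insertNone (Finset.univ ×ˢ I) with hJ
  have hq0 : Measurable fun q : Ph × (Fin 1 → Ph) => ((q.1, q.2 0) : Ph × Ph) :=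
    measurable_fst.prodMk ((measurable_pi_apply 0).comp measurable_snd)
  have hN : MeasurableSet {q : Ph × (Fin 1 → Ph) | Meets ε (q.1, q.2 0) ∧
      hitT ε (q.1, q.2 0) = h} :=
    (hq0 measurableSet_meets).inter ((measurable_hitT.comp hq0) (measurableSet_singleton h))
  have hAm : ∀ o ∈ J, MeasurableSet (A o) := by
    rintro (_ | ⟨_ | _, i⟩) _
    · exact hN
    · exact measurableSet_ctc g2 ((Tg i).cut s h le_rfl).cont
    · exact measurableSet_ctc g1 ((Tg i).cut s h le_rfl).cont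
  have key := lintegral_family_le J hAm (measurable_ew b ε 1)
    (Ψ := fun l p => gw b l.2 * (muE ε * gw b (p 0).2) * ind (E l (p 0))) (by
      intro l p hne
      have hp : p = fun _ => p 0 := by
        funext i
        rw [Subsingleton.elim i 0]
      by_cases hl : E l (p 0)
      · refine ⟨?_, ?_⟩
        · obtain ⟨a1, a2, r, a3, a4, a5⟩ := hl
          rcases (a3.trans a4).lt_or_eq with hlt | heq
          · rcases a5 with a5 | a5
            · obtain ⟨i, hi, a6, a7⟩ := a5.target hW a4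
              refine ⟨some (true, i), ?_, ⟨a1, a2, hlt, trivial⟩, r, ⟨?_, a4⟩, a7⟩
              · exact Finset.some_mem_insertNone.2
                  (Finset.mem_product.2 ⟨Finset.mem_univ _, hi⟩)
              · exact max_le (max_le a6 (a2.le.trans a3)) a3
            · obtain ⟨i, hi, a6, a7⟩ := a5.target hW a4
              refine ⟨some (false, i), ?_, ⟨a1, a2, hlt, trivial⟩, r, ⟨?_, a4⟩, a7⟩
              · exact Finset.some_mem_insertNone.2
                  (Finset.mem_product.2 ⟨Finset.mem_univ _, hi⟩)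
              · exact max_le (max_le a6 (a2.le.trans a3)) a3
          · exact ⟨none, Finset.none_mem_insertNone, a1, heq⟩
        · refine le_of_eq ?_
          have h9 := ew_one (ε := ε) b (l, p)
          simp only at h9
          rw [h9]
          unfold ind
          rw [if_pos hl, mul_one]
      · refine absurd ?_ hne
        unfold ind
        simp only [if_neg hl, mul_zero])
  have h3 : ∀ l : Ph, ∫⁻ p : Fin 1 → Ph, gw b l.2 * (muE ε * gw b (p 0).2) * ind (E l (p 0)) =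
      ∫⁻ z' : Ph, gw b l.2 * (muE ε * gw b z'.2) * ind (E l z') := fun l =>
    lintegral_fin_one fun z' => gw b l.2 * (muE ε * gw b z'.2) * ind (E l z')
  simp only [h3] at key
  refine key.trans ?_
  rw [hJ, Finset.sum_insertNone, Finset.sum_product, Fintype.sum_bool]
  have e0 : ∫⁻ l, ∫⁻ p, (A none).indicator (fun q => ENNReal.ofReal (Real.exp (-b * ‖q.1.2‖ ^ 2)) *
      FL.wt b ε 1 q.2) (l, p) = 0 := by
    have : ∀ l : Ph, ∫⁻ p : Fin 1 → Ph, (A none).indicator (fun q =>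
        ENNReal.ofReal (Real.exp (-b * ‖q.1.2‖ ^ 2)) * FL.wt b ε 1 q.2) (l, p) = 0 := by
      intro l
      have h4 : ∀ p : Fin 1 → Ph, (A none).indicator (fun q =>
          ENNReal.ofReal (Real.exp (-b * ‖q.1.2‖ ^ 2)) * FL.wt b ε 1 q.2) (l, p) =
          (fun z' : Ph => (gw b l.2 * muE ε) * (gw b z'.2 *
            ind (Meets ε (l, z') ∧ hitT ε (l, z') = h))) (p 0) := by
        intro p
        simp only
        unfold ind
        by_cases hp : Meets ε (l, p 0) ∧ hitT ε (l, p 0) = h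
        · rw [if_pos hp, indicator_of_mem (show (l, p) ∈ A none from hp), ew_one]
          ring
        · rw [if_neg hp, indicator_of_notMem (show (l, p) ∉ A none from hp)]
          ring
      rw [lintegral_congr h4, lintegral_fin_one (fun z' : Ph => (gw b l.2 * muE ε) * (gw b z'.2 *
            ind (Meets ε (l, z') ∧ hitT ε (l, z') = h))), lintegral_const_mul', hit_null hε hb,
        mul_zero]
      exact ENNReal.mul_ne_top ENNReal.ofReal_ne_top muE_ne_top
    simp only [this, lintegral_zero]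
  rw [e0, zero_add]
  have e1 : ∑ i ∈ I, ∫⁻ l, ∫⁻ p, (A (some (true, i))).indicator (fun q =>
      ENNReal.ofReal (Real.exp (-b * ‖q.1.2‖ ^ 2)) * FL.wt b ε 1 q.2) (l, p) ≤
      ENNReal.ofReal (ε ^ 2) * Cp b (cS hΦ) T₀ * ∑ i ∈ I, ((Tg i).cut s h le_rfl).w ε := by
    rw [Finset.mul_sum]
    exact Finset.sum_le_sum fun i _ => pctc_family hε hb (cS_nonneg hΦ) hst hT₀ g1 (Tg i)
  have e2 : ∑ i ∈ I, ∫⁻ l, ∫⁻ p, (A (some (false, i))).indicator (fun q =>
      ENNReal.ofReal (Real.exp (-b * ‖q.1.2‖ ^ 2)) * FL.wt b ε 1 q.2) (l, p) ≤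
      ENNReal.ofReal (ε ^ 2) * Cp b (cS hΦ) T₀ * ∑ i ∈ I, ((Tg i).cut s h le_rfl).w ε := by
    rw [Finset.mul_sum]
    exact Finset.sum_le_sum fun i _ => pctc_family hε hb (cS_nonneg hΦ) hst hT₀ g2 (Tg i)
  calc _ ≤ ENNReal.ofReal (ε ^ 2) * Cp b (cS hΦ) T₀ * ∑ i ∈ I, ((Tg i).cut s h le_rfl).w ε +
        ENNReal.ofReal (ε ^ 2) * Cp b (cS hΦ) T₀ * ∑ i ∈ I, ((Tg i).cut s h le_rfl).w ε :=
        add_le_add e1 e2
    _ ≤ ENNReal.ofReal (ε ^ 2) * Cp b (cS hΦ) T₀ * (2 * ENNReal.ofReal (cDD B k) *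
          (ENNReal.ofReal ε * eW L hΦ hε W h + ∫⁻ r in Icc s h, eW L hΦ hε W r)) +
        ENNReal.ofReal (ε ^ 2) * Cp b (cS hΦ) T₀ * (2 * ENNReal.ofReal (cDD B k) *
          (ENNReal.ofReal ε * eW L hΦ hε W h + ∫⁻ r in Icc s h, eW L hΦ hε W r)) := by gcongr
    _ = _ := by ring

/-! ### Hits of lines -/

theorem measurableSet_fl_time {hΦ : IsPotential Φ} {hε : 0 < ε} (W : Finset Src) (T : CTree) :
    MeasurableSet {r | fl L hΦ hε W r T} := by
  refine Set.OrdConnected.measurableSet ?_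
  have : IsUpperSet {r | fl L hΦ hε W r T} := fun _ _ hst h => fl.mono h hst
  exact this.ordConnected

/-- Flux of a Gaussian line through a fixed line, with a set of times. -/
theorem line_flux (hε : 0 < ε) {b : ℝ} (hb : 0 < b) (l : Ph) {A : Set ℝ} (hA : MeasurableSet A) :
    Measurable (fun z : Ph => ind (Meets ε (z, l) ∧ hitT ε (z, l) ∈ A)) ∧
    ∫⁻ z : Ph, gw b z.2 * ind (Meets ε (z, l) ∧ hitT ε (z, l) ∈ A) ≤
      ENNReal.ofReal (ε ^ 2) * (ENNReal.ofReal Real.pi * I0 b) *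
        (ENNReal.ofReal (1 + ‖l.2‖) * volume A) := by
  have hl : Measurable fun z : Ph => ((z, l) : Ph × Ph) := measurable_id.prodMk measurable_const
  have hS : MeasurableSet {z : Ph | Meets ε (z, l) ∧ hitT ε (z, l) ∈ A} :=
    (hl measurableSet_meets).inter ((measurable_hitT.comp hl) hA)
  have hind : (fun z : Ph => ind (Meets ε (z, l) ∧ hitT ε (z, l) ∈ A)) =
      {z : Ph | Meets ε (z, l) ∧ hitT ε (z, l) ∈ A}.indicator 1 := by
    funext z
    unfold ind
    by_cases h : Meets ε (z, l) ∧ hitT ε (z, l) ∈ A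
    · rw [if_pos h, indicator_of_mem (show z ∈ {z : Ph | Meets ε (z, l) ∧ hitT ε (z, l) ∈ A}
        from h), Pi.one_apply]
    · rw [if_neg h, indicator_of_notMem (show z ∉ {z : Ph | Meets ε (z, l) ∧ hitT ε (z, l) ∈ A}
        from h)]
  refine ⟨by rw [hind]; exact measurable_one.indicator hS, ?_⟩
  have hg : Measurable (A.indicator (1 : ℝ → ℝ≥0∞)) := measurable_one.indicator hA
  have h1 := flux_inner (fluxTime_hitT hε) hb le_rfl l hg
  rw [lintegral_indicator_one hA] at h1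
  refine le_trans ?_ h1
  have hm : MeasurableSet {l' : Ph | Meets ε (l, l')} := measurable_prodMk_left measurableSet_meets
  rw [← lintegral_indicator hm]
  refine lintegral_mono fun z => ?_
  unfold ind
  split_ifs with h
  · have hz' : Meets ε (l, z) := (meets_swap (l, z)).1 h.1
    have hT' : hitT ε (l, z) = hitT ε (z, l) := (hitT_swap (l, z)).symm
    rw [indicator_of_mem (show z ∈ {l' : Ph | Meets ε (l, l')} from hz'), hT',
      indicator_of_mem h.2, Pi.one_apply]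
  · rw [mul_zero]
    exact zero_le

/-- **Hits of felt trees**, for a fixed world. -/
theorem felt_flux {hΦ : IsPotential Φ} {hε : 0 < ε} {W : Finset Src} {b : ℝ} (hb : 0 < b)
    (s h : ℝ) :
    ∫⁻ z : Ph, gw b z.2 * ∑ T ∈ trs L W, ind (Meets ε (z, ln Φ ε T) ∧
      s < hitT ε (z, ln Φ ε T) ∧ hitT ε (z, ln Φ ε T) ≤ h ∧
      fl L hΦ hε W (hitT ε (z, ln Φ ε T)) T) ≤
      ENNReal.ofReal (ε ^ 2) * (ENNReal.ofReal Real.pi * I0 b) *
        ∫⁻ r in Ioc s h, fW L hΦ hε W r := by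
  have hA : ∀ T : CTree, MeasurableSet (Ioc s h ∩ {r | fl L hΦ hε W r T}) := fun T =>
    measurableSet_Ioc.inter (measurableSet_fl_time W T)
  have h0 : ∀ (z : Ph) (T : CTree), ind (Meets ε (z, ln Φ ε T) ∧
      s < hitT ε (z, ln Φ ε T) ∧ hitT ε (z, ln Φ ε T) ≤ h ∧
      fl L hΦ hε W (hitT ε (z, ln Φ ε T)) T) = ind (Meets ε (z, ln Φ ε T) ∧
      hitT ε (z, ln Φ ε T) ∈ Ioc s h ∩ {r | fl L hΦ hε W r T}) := by
    intro z T
    congr 1
    simp only [mem_inter_iff, mem_Ioc, mem_setOf_eq, and_assoc]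
  simp only [h0]
  have hgz : Measurable fun z : Ph => gw b z.2 := (measurable_gw _).comp measurable_snd
  have h1 : ∫⁻ z : Ph, gw b z.2 * ∑ T ∈ trs L W, ind (Meets ε (z, ln Φ ε T) ∧
      hitT ε (z, ln Φ ε T) ∈ Ioc s h ∩ {r | fl L hΦ hε W r T}) =
      ∑ T ∈ trs L W, ∫⁻ z : Ph, gw b z.2 * ind (Meets ε (z, ln Φ ε T) ∧
      hitT ε (z, ln Φ ε T) ∈ Ioc s h ∩ {r | fl L hΦ hε W r T}) := by
    have hmT : ∀ T ∈ trs L W, Measurable fun z : Ph => gw b z.2 * ind (Meets ε (z, ln Φ ε T) ∧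
        hitT ε (z, ln Φ ε T) ∈ Ioc s h ∩ {r | fl L hΦ hε W r T}) := fun T _ =>
      hgz.mul (line_flux hε hb _ (hA T)).1
    rw [← lintegral_finsetSum _ hmT]
    refine lintegral_congr fun z => ?_
    rw [Finset.mul_sum]
  rw [h1]
  have h2 : ∑ T ∈ trs L W, (ENNReal.ofReal (1 + ‖(ln Φ ε T).2‖) *
      volume (Ioc s h ∩ {r | fl L hΦ hε W r T})) = ∫⁻ r in Ioc s h, fW L hΦ hε W r := by
    classical
    simp only [fW_eq]
    rw [lintegral_finsetSum]
    · refine Finset.sum_congr rfl fun T _ => ?_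
      have h3 : (fun r => if fl L hΦ hε W r T then ENNReal.ofReal (1 + ‖(ln Φ ε T).2‖) else 0) =
          {r | fl L hΦ hε W r T}.indicator fun _ => ENNReal.ofReal (1 + ‖(ln Φ ε T).2‖) := by
        funext r
        rw [indicator_apply]
        rfl
      rw [h3, lintegral_indicator_const (measurableSet_fl_time W T),
        Measure.restrict_apply (measurableSet_fl_time W T), inter_comm]
    · intro T _
      exact Measurable.ite (measurableSet_fl_time W T) measurable_const measurable_const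
  rw [← h2, Finset.mul_sum]
  exact Finset.sum_le_sum fun T _ => (line_flux hε hb _ (hA T)).2

end Vale.Agent.P119.PB
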