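import Vale.Agent.P119.PB.Op2

/-!
# P119, block PROB: the contraction property of the collision operator (`helper347`)
-/

open MeasureTheory Set Filter Topology Metric ProbabilityTheory
open scoped ENNReal

namespace Vale.Agent.P119.PB

open KU FL M

variable {Φ : E3 → ℝ} {ε : ℝ}

/-! ### The integral of the singular kernel -/

theorem lintegral_gamma {a Λ : ℝ} (ha : 0 < a) (hΛ : 0 < Λ) :
    ∫⁻ r in Ioi (0 : ℝ), ENNReal.ofReal (r ^ (a - 1) * Real.exp (-(Λ * r))) =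
      ENNReal.ofReal ((1 / Λ) ^ a * Real.Gamma a) := by
  have h := Real.integral_rpow_mul_exp_neg_mul_Ioi ha hΛ
  have hpos : 0 < (1 / Λ) ^ a * Real.Gamma a :=
    mul_pos (Real.rpow_pos_of_pos (by positivity) _) (Real.Gamma_pos_of_pos ha)
  have hi : IntegrableOn (fun r : ℝ => r ^ (a - 1) * Real.exp (-(Λ * r))) (Ioi 0) := by
    by_contra hcon
    rw [integral_undef hcon] at h
    exact hpos.ne h
  rw [← h, ofReal_integral_eq_lintegral_ofReal hi]
  filter_upwards [ae_restrict_mem measurableSet_Ioi] with r hr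
  have : (0 : ℝ) < r := hr
  positivity

theorem lintegral_ker {c Λ s t : ℝ} (hc : 0 < c) (hΛ : 1 ≤ Λ) :
    ∫⁻ τ in Ioc s t, ENNReal.ofReal (ker c (τ - s) * Real.exp (-(Λ * (τ - s)))) ≤
      ENNReal.ofReal ((1 + √(Real.pi / c)) / √Λ) := by
  have hΛ0 : 0 < Λ := by linarith
  have hm : Measurable fun r : ℝ => ENNReal.ofReal (ker c r * Real.exp (-(Λ * r))) := by
    unfold ker
    fun_prop
  have h1 : ∫⁻ τ in Ioc s t, ENNReal.ofReal (ker c (τ - s) * Real.exp (-(Λ * (τ - s)))) ≤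
      ∫⁻ r in Ioi (0 : ℝ), ENNReal.ofReal (ker c r * Real.exp (-(Λ * r))) := by
    rw [← lintegral_indicator measurableSet_Ioc, ← lintegral_indicator measurableSet_Ioi]
    rw [← lintegral_sub_right_eq_self ((Ioi (0 : ℝ)).indicator fun r =>
      ENNReal.ofReal (ker c r * Real.exp (-(Λ * r)))) s]
    refine lintegral_mono fun τ => ?_
    by_cases h : τ ∈ Ioc s t
    · have h2 : τ - s ∈ Ioi (0 : ℝ) := sub_pos.2 h.1
      rw [indicator_of_mem h, indicator_of_mem h2]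
    · rw [indicator_of_notMem h]
      exact zero_le
  refine h1.trans ?_
  have h2 : ∀ r ∈ Ioi (0 : ℝ), ENNReal.ofReal (ker c r * Real.exp (-(Λ * r))) =
      ENNReal.ofReal (r ^ ((1 : ℝ) - 1) * Real.exp (-(Λ * r))) +
      ENNReal.ofReal (1 / √c) * ENNReal.ofReal (r ^ ((1 / 2 : ℝ) - 1) * Real.exp (-(Λ * r))) := by
    intro r hr
    have hr0 : (0 : ℝ) < r := hr
    rw [← ENNReal.ofReal_mul (by positivity), ← ENNReal.ofReal_add (by positivity) (by positivity)]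
    congr 1
    have h3 : r ^ ((1 / 2 : ℝ) - 1) = 1 / √r := by
      rw [Real.sqrt_eq_rpow, show (1 / 2 : ℝ) - 1 = -(1 / 2) by norm_num, Real.rpow_neg hr0.le]
      exact (one_div _).symm
    have h4 : √(c * r) = √c * √r := Real.sqrt_mul hc.le r
    rw [h3, sub_self, Real.rpow_zero, one_mul]
    unfold ker
    rw [h4]
    field_simp
  rw [setLIntegral_congr_fun measurableSet_Ioi h2]
  have hm1 : Measurable fun r : ℝ => ENNReal.ofReal (r ^ ((1 : ℝ) - 1) * Real.exp (-(Λ * r))) := by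
    fun_prop
  rw [lintegral_add_left hm1, lintegral_const_mul' _ _ ENNReal.ofReal_ne_top,
    lintegral_gamma one_pos hΛ0, lintegral_gamma (by norm_num : (0 : ℝ) < 1 / 2) hΛ0,
    ← ENNReal.ofReal_mul (by positivity), ← ENNReal.ofReal_add (by positivity) (by positivity)]
  apply ENNReal.ofReal_le_ofReal
  rw [Real.Gamma_one, Real.rpow_one, mul_one, Real.Gamma_one_half_eq, ← Real.sqrt_eq_rpow]
  have hs : 1 ≤ √Λ := by rw [Real.one_le_sqrt]; exact hΛ
  have h5 : 1 / Λ ≤ 1 / √Λ := by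
    apply one_div_le_one_div_of_le (by linarith)
    calc √Λ ≤ √Λ * √Λ := by nlinarith
      _ = Λ := Real.mul_self_sqrt hΛ0.le
  have h6 : 1 / √c * (√(1 / Λ) * √Real.pi) = √(Real.pi / c) / √Λ := by
    rw [Real.sqrt_div Real.pi_pos.le, Real.sqrt_div zero_le_one, Real.sqrt_one]
    field_simp
  rw [h6, add_div]
  linarith

/-! ### The depth weights and the norm -/

/-- Conditions on the depth weights `α` of the partners and `a` of the majorant. -/
structure Wts (α a : ℕ → ℝ) (Q : ℝ) : Prop where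
  apos : ∀ n, 0 < a n
  α0 : ∀ n, 0 ≤ α n
  Q0 : 0 ≤ Q
  w1 : ∀ n, ∑' m : ℕ, ENNReal.ofReal (α m * (a n / a (max n m + 1)) /
    √((max n m + 1 : ℕ) : ℝ)) ≤ ENNReal.ofReal Q
  w2 : ∑' m : ℕ, ENNReal.ofReal (α m / a m) ≤ ENNReal.ofReal Q
  w3 : ∀ K : ℝ, ∃ B : ℝ, ∀ n, a n * Real.exp (K * n) ≤ B

/-- The weight at time `s` and depth `n`. -/
noncomputable def wgt (l₁ l₂ : ℝ) (a : ℕ → ℝ) (s : ℝ) (n : ℕ) : ℝ :=
  a n * Real.exp ((l₁ * n + l₂) * s)

/-- The norm: supremum over the birth times `s ≤ t` and the depths. -/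
noncomputable def Nm (b T l₁ l₂ : ℝ) (a : ℕ → ℝ) (t : ℝ) (θ : Src → ℝ≥0∞) : ℝ≥0∞ :=
  ⨆ s ∈ Icc 0 t, ⨆ n : ℕ, ENNReal.ofReal (wgt l₁ l₂ a s n) * Y b T θ s n

theorem le_Nm {b T l₁ l₂ : ℝ} {a : ℕ → ℝ} {t s : ℝ} (hs : s ∈ Icc 0 t) (n : ℕ)
    (θ : Src → ℝ≥0∞) :
    ENNReal.ofReal (wgt l₁ l₂ a s n) * Y b T θ s n ≤ Nm b T l₁ l₂ a t θ :=
  le_iSup₂_of_le s hs (le_iSup (fun n => ENNReal.ofReal (wgt l₁ l₂ a s n) * Y b T θ s n) n)

theorem Nm_le {b T l₁ l₂ : ℝ} {a : ℕ → ℝ} {t : ℝ} {θ : Src → ℝ≥0∞} {x : ℝ≥0∞}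
    (h : ∀ s ∈ Icc 0 t, ∀ n : ℕ, ENNReal.ofReal (wgt l₁ l₂ a s n) * Y b T θ s n ≤ x) :
    Nm b T l₁ l₂ a t θ ≤ x := iSup₂_le fun s hs => iSup_le fun n => h s hs n

theorem Y_le_Nm {b T l₁ l₂ : ℝ} {a : ℕ → ℝ} (ha : ∀ n, 0 < a n) {t s : ℝ} (hs : s ∈ Icc 0 t)
    (n : ℕ) (θ : Src → ℝ≥0∞) :
    Y b T θ s n ≤ ENNReal.ofReal (1 / wgt l₁ l₂ a s n) * Nm b T l₁ l₂ a t θ := by
  have hw : 0 < wgt l₁ l₂ a s n := mul_pos (ha n) (Real.exp_pos _)
  have h := le_Nm (b := b) (T := T) (l₁ := l₁) (l₂ := l₂) (a := a) hs n θ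
  calc Y b T θ s n = ENNReal.ofReal (1 / wgt l₁ l₂ a s n) *
        (ENNReal.ofReal (wgt l₁ l₂ a s n) * Y b T θ s n) := by
        rw [← mul_assoc, ← ENNReal.ofReal_mul (by positivity), one_div,
          inv_mul_cancel₀ hw.ne', ENNReal.ofReal_one, one_mul]
    _ ≤ _ := by gcongr

/-- The two time integrals, weighted. -/
theorem term_le {b T l₁ l₂ : ℝ} {a : ℕ → ℝ} (ha : ∀ n, 0 < a n) {t s c : ℝ}
    (hs : 0 ≤ s) (n D : ℕ) (θ : Src → ℝ≥0∞) {W Λ : ℝ} (hc : 0 < c) (hΛ : 1 ≤ Λ) (hW : 0 ≤ W)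
    (h : ∀ τ ∈ Ioc s t, wgt l₁ l₂ a s n / wgt l₁ l₂ a τ D ≤ W * Real.exp (-(Λ * (τ - s)))) :
    ENNReal.ofReal (wgt l₁ l₂ a s n) *
      ∫⁻ τ in Ioc s t, ENNReal.ofReal (ker c (τ - s)) * Y b T θ τ D ≤
    ENNReal.ofReal (W * ((1 + √(Real.pi / c)) / √Λ)) * Nm b T l₁ l₂ a t θ := by
  have hws : 0 < wgt l₁ l₂ a s n := mul_pos (ha n) (Real.exp_pos _)
  rw [← lintegral_const_mul' _ _ ENNReal.ofReal_ne_top]
  have h1 : ∀ τ ∈ Ioc s t, ENNReal.ofReal (wgt l₁ l₂ a s n) *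
      (ENNReal.ofReal (ker c (τ - s)) * Y b T θ τ D) ≤
      ENNReal.ofReal (ker c (τ - s) * Real.exp (-(Λ * (τ - s)))) *
        (ENNReal.ofReal W * Nm b T l₁ l₂ a t θ) := by
    intro τ hτ
    have hwτ : 0 < wgt l₁ l₂ a τ D := mul_pos (ha D) (Real.exp_pos _)
    have hk := ker_nonneg c (τ - s)
    calc ENNReal.ofReal (wgt l₁ l₂ a s n) * (ENNReal.ofReal (ker c (τ - s)) * Y b T θ τ D)
        ≤ ENNReal.ofReal (wgt l₁ l₂ a s n) * (ENNReal.ofReal (ker c (τ - s)) *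
          (ENNReal.ofReal (1 / wgt l₁ l₂ a τ D) * Nm b T l₁ l₂ a t θ)) := by
          gcongr
          exact Y_le_Nm ha ⟨hs.trans hτ.1.le, hτ.2⟩ D θ
      _ = ENNReal.ofReal (ker c (τ - s) * (wgt l₁ l₂ a s n / wgt l₁ l₂ a τ D)) *
          Nm b T l₁ l₂ a t θ := by
          rw [← mul_assoc, ← mul_assoc, ← ENNReal.ofReal_mul hws.le,
            ← ENNReal.ofReal_mul (by positivity)]
          congr 2
          ring
      _ ≤ ENNReal.ofReal (ker c (τ - s) * (W * Real.exp (-(Λ * (τ - s))))) *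
          Nm b T l₁ l₂ a t θ := by
          gcongr
          exact h τ hτ
      _ = _ := by
          rw [← mul_assoc _ (ENNReal.ofReal W), ← ENNReal.ofReal_mul (by positivity)]
          congr 2
          ring
  refine (setLIntegral_mono' measurableSet_Ioc h1).trans ?_
  have hm : Measurable fun τ : ℝ =>
      ENNReal.ofReal (ker c (τ - s) * Real.exp (-(Λ * (τ - s)))) := by
    unfold ker
    fun_prop
  rw [lintegral_mul_const _ hm]
  calc (∫⁻ τ in Ioc s t, ENNReal.ofReal (ker c (τ - s) * Real.exp (-(Λ * (τ - s))))) *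
        (ENNReal.ofReal W * Nm b T l₁ l₂ a t θ)
      ≤ ENNReal.ofReal ((1 + √(Real.pi / c)) / √Λ) *
        (ENNReal.ofReal W * Nm b T l₁ l₂ a t θ) := by
        gcongr
        exact lintegral_ker hc hΛ
    _ = _ := by
        rw [← mul_assoc, ← ENNReal.ofReal_mul (by positivity), mul_comm W]

/-- The contraction estimate with explicit constants. -/
theorem KOp_contr (hΦ : IsPotential Φ) (hε : 0 < ε) {b T l₁ l₂ Q B : ℝ} {α a : ℕ → ℝ}
    (hb : 0 < b) (hT : 0 < T) (hw : Wts α a Q) (hl₁ : 1 ≤ l₁) (hl₂ : 1 ≤ l₂)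
    (hB : ∀ n, a n * Real.exp (l₁ * T * n) ≤ B) {t : ℝ} (ht : t ≤ T)
    {θ : Src → ℝ≥0∞} (hθ : Measurable θ) :
    Nm b T l₁ l₂ a t (KOp Φ ε b t (fun n => ENNReal.ofReal (α n)) θ) ≤
      ENNReal.ofReal Real.pi * I0 (b / 2) *
        ENNReal.ofReal ((1 + √(Real.pi / (b / (2 * T)))) * Q * (2 / √l₁ + B / √l₂)) *
        Nm b T l₁ l₂ a t θ := by
  refine Nm_le fun s hs n => ?_
  have hB0 : 0 ≤ B := le_trans (mul_pos (hw.apos 0) (Real.exp_pos _)).le (hB 0)
  set c : ℝ := b / (2 * T) with hc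
  have hc0 : 0 < c := by positivity
  set C₁ : ℝ := 1 + √(Real.pi / c) with hC₁
  have hC₁0 : 0 ≤ C₁ := by positivity
  set N := Nm b T l₁ l₂ a t θ with hN
  set C₀ : ℝ≥0∞ := ENNReal.ofReal Real.pi * I0 (b / 2) with hC₀
  have hsT : s ≤ T := hs.2.trans ht
  have h := Y_KOp_le (t := t) hΦ hε hb hT hs.1 hsT (fun n => ENNReal.ofReal (α n)) hθ n
  have hsq1 : 0 < √l₁ := Real.sqrt_pos.2 (by linarith)
  have hsq2 : 0 < √l₂ := Real.sqrt_pos.2 (by linarith)
  -- the terms of the deep lines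
  have t1 : ∀ m, ENNReal.ofReal (wgt l₁ l₂ a s n) *
      ∫⁻ τ in Ioc s t, ENNReal.ofReal (ker c (τ - s)) * Y b T θ τ (max n m + 1) ≤
      ENNReal.ofReal (a n / a (max n m + 1) * (C₁ / √(l₁ * (max n m + 1 : ℕ)))) * N := by
    intro m
    set D := max n m + 1 with hD
    have hnD : (n : ℝ) ≤ D := by
      have : n ≤ max n m + 1 := (le_max_left n m).trans (Nat.le_succ _)
      exact_mod_cast this
    have hD1 : (1 : ℝ) ≤ D := by
      have : 1 ≤ max n m + 1 := Nat.le_add_left _ _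
      exact_mod_cast this
    have haD := hw.apos D
    refine term_le hw.apos hs.1 n D θ hc0 (by nlinarith) (div_nonneg (hw.apos n).le haD.le) ?_
    intro τ hτ
    unfold wgt
    rw [mul_div_mul_comm, ← Real.exp_sub]
    refine mul_le_mul_of_nonneg_left (Real.exp_le_exp.2 ?_) (div_nonneg (hw.apos n).le haD.le)
    have h1 := hτ.1
    have h2 := hs.1
    have h3 : l₁ * n * s ≤ l₁ * D * s := by gcongr
    have h4 : 0 ≤ l₂ * (τ - s) := mul_nonneg (by linarith) (by linarith)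
    nlinarith
  -- the term of the old line
  have t2 : ∀ m, ENNReal.ofReal (wgt l₁ l₂ a s n) *
      ∫⁻ τ in Ioc s t, ENNReal.ofReal (ker c (τ - s)) * Y b T θ τ m ≤
      ENNReal.ofReal (B / a m * (C₁ / √l₂)) * N := by
    intro m
    have ham := hw.apos m
    refine term_le hw.apos hs.1 n m θ hc0 hl₂ (div_nonneg hB0 ham.le) ?_
    intro τ hτ
    unfold wgt
    have h1 := hτ.1
    have h2 := hs.1
    have h3 : a n * Real.exp ((l₁ * n + l₂) * s) ≤ B * Real.exp (l₂ * s) := by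
      have h4 : Real.exp ((l₁ * n + l₂) * s) = Real.exp (l₁ * n * s) * Real.exp (l₂ * s) := by
        rw [← Real.exp_add]; congr 1; ring
      rw [h4, ← mul_assoc]
      refine mul_le_mul_of_nonneg_right ?_ (Real.exp_nonneg _)
      refine le_trans ?_ (hB n)
      refine mul_le_mul_of_nonneg_left (Real.exp_le_exp.2 ?_) (hw.apos n).le
      have h5 : l₁ * n * s ≤ l₁ * n * T := by gcongr
      linarith
    have h6 : Real.exp (l₂ * s) / Real.exp ((l₁ * m + l₂) * τ) ≤ Real.exp (-(l₂ * (τ - s))) := by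
      rw [← Real.exp_sub]
      apply Real.exp_le_exp.2
      have h7 : 0 ≤ l₁ * m * τ := by
        have : 0 ≤ τ := by linarith
        positivity
      nlinarith
    calc a n * Real.exp ((l₁ * n + l₂) * s) / (a m * Real.exp ((l₁ * m + l₂) * τ))
        ≤ B * Real.exp (l₂ * s) / (a m * Real.exp ((l₁ * m + l₂) * τ)) := by gcongr
      _ = B / a m * (Real.exp (l₂ * s) / Real.exp ((l₁ * m + l₂) * τ)) := by
          rw [mul_div_mul_comm]
      _ ≤ _ := mul_le_mul_of_nonneg_left h6 (div_nonneg hB0 ham.le)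
  calc ENNReal.ofReal (wgt l₁ l₂ a s n) * Y b T (KOp Φ ε b t (fun n => ENNReal.ofReal (α n)) θ) s n
      ≤ ENNReal.ofReal (wgt l₁ l₂ a s n) * ∑' m, ENNReal.ofReal (α m) * (C₀ *
        (2 * (∫⁻ τ in Ioc s t, ENNReal.ofReal (ker c (τ - s)) * Y b T θ τ (max n m + 1)) +
          ∫⁻ τ in Ioc s t, ENNReal.ofReal (ker c (τ - s)) * Y b T θ τ m)) := by
        gcongr
    _ = ∑' m, ENNReal.ofReal (α m) * (C₀ *
        (2 * (ENNReal.ofReal (wgt l₁ l₂ a s n) *
          ∫⁻ τ in Ioc s t, ENNReal.ofReal (ker c (τ - s)) * Y b T θ τ (max n m + 1)) +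
          ENNReal.ofReal (wgt l₁ l₂ a s n) *
          ∫⁻ τ in Ioc s t, ENNReal.ofReal (ker c (τ - s)) * Y b T θ τ m)) := by
        rw [← ENNReal.tsum_mul_left]
        refine tsum_congr fun m => ?_
        ring
    _ ≤ ∑' m, ENNReal.ofReal (α m) * (C₀ *
        (2 * (ENNReal.ofReal (a n / a (max n m + 1) * (C₁ / √(l₁ * (max n m + 1 : ℕ)))) * N) +
          ENNReal.ofReal (B / a m * (C₁ / √l₂)) * N)) := by
        refine ENNReal.tsum_le_tsum fun m => ?_
        exact mul_le_mul_right (mul_le_mul_right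
          (add_le_add (mul_le_mul_right (t1 m) _) (t2 m)) _) _
    _ = ∑' m, (C₀ * N * (ENNReal.ofReal (2 * (C₁ / √l₁)) *
          ENNReal.ofReal (α m * (a n / a (max n m + 1)) / √((max n m + 1 : ℕ) : ℝ)) +
          ENNReal.ofReal (B * (C₁ / √l₂)) * ENNReal.ofReal (α m / a m))) := by
        refine tsum_congr fun m => ?_
        have hα := hw.α0 m
        have haD := hw.apos (max n m + 1)
        have ham := hw.apos m
        have han := hw.apos n
        have e1 : ENNReal.ofReal (α m) * (2 * ENNReal.ofReal (a n / a (max n m + 1) *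
            (C₁ / √(l₁ * (max n m + 1 : ℕ))))) = ENNReal.ofReal (2 * (C₁ / √l₁)) *
            ENNReal.ofReal (α m * (a n / a (max n m + 1)) / √((max n m + 1 : ℕ) : ℝ)) := by
          rw [show (2 : ℝ≥0∞) = ENNReal.ofReal 2 by simp, ← ENNReal.ofReal_mul (by norm_num),
            ← ENNReal.ofReal_mul hα, ← ENNReal.ofReal_mul (by positivity)]
          congr 1
          rw [Real.sqrt_mul (by linarith : (0 : ℝ) ≤ l₁)]
          field_simp
        have e2 : ENNReal.ofReal (α m) * ENNReal.ofReal (B / a m * (C₁ / √l₂)) =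
            ENNReal.ofReal (B * (C₁ / √l₂)) * ENNReal.ofReal (α m / a m) := by
          rw [← ENNReal.ofReal_mul hα, ← ENNReal.ofReal_mul (by positivity)]
          congr 1
          field_simp
        calc ENNReal.ofReal (α m) * (C₀ *
            (2 * (ENNReal.ofReal (a n / a (max n m + 1) * (C₁ / √(l₁ * (max n m + 1 : ℕ)))) * N) +
            ENNReal.ofReal (B / a m * (C₁ / √l₂)) * N))
            = C₀ * N * ((ENNReal.ofReal (α m) * (2 * ENNReal.ofReal (a n / a (max n m + 1) *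
            (C₁ / √(l₁ * (max n m + 1 : ℕ)))))) +
            ENNReal.ofReal (α m) * ENNReal.ofReal (B / a m * (C₁ / √l₂))) := by ring
          _ = _ := by rw [e1, e2]
    _ = C₀ * N * (ENNReal.ofReal (2 * (C₁ / √l₁)) * (∑' m : ℕ,
          ENNReal.ofReal (α m * (a n / a (max n m + 1)) / √((max n m + 1 : ℕ) : ℝ))) +
          ENNReal.ofReal (B * (C₁ / √l₂)) * ∑' m, ENNReal.ofReal (α m / a m)) := by
        rw [ENNReal.tsum_mul_left, ENNReal.tsum_add, ENNReal.tsum_mul_left, ENNReal.tsum_mul_left]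
    _ ≤ C₀ * N * (ENNReal.ofReal (2 * (C₁ / √l₁)) * ENNReal.ofReal Q +
          ENNReal.ofReal (B * (C₁ / √l₂)) * ENNReal.ofReal Q) := by
        gcongr
        · exact hw.w1 n
        · exact hw.w2
    _ = C₀ * ENNReal.ofReal (C₁ * Q * (2 / √l₁ + B / √l₂)) * N := by
        have hQ := hw.Q0
        have e3 : ENNReal.ofReal (2 * (C₁ / √l₁)) * ENNReal.ofReal Q +
            ENNReal.ofReal (B * (C₁ / √l₂)) * ENNReal.ofReal Q =
            ENNReal.ofReal (C₁ * Q * (2 / √l₁ + B / √l₂)) := by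
          rw [← ENNReal.ofReal_mul (by positivity), ← ENNReal.ofReal_mul (by positivity),
            ← ENNReal.ofReal_add (by positivity) (by positivity)]
          congr 1
          ring
        rw [e3]
        ring

/-- **The operator is a contraction** in the norm `Nm` for suitable parameters, which depend only on
the Gaussian exponent, the time horizon and the depth weights. -/
theorem exists_contraction {b T Q : ℝ} {α a : ℕ → ℝ} (hb : 0 < b) (hT : 0 < T)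
    (hw : Wts α a Q) {κ : ℝ} (hκ : 0 < κ) :
    ∃ l₁ l₂ : ℝ, 1 ≤ l₁ ∧ 1 ≤ l₂ ∧ ∀ (Φ : E3 → ℝ), IsPotential Φ → ∀ (ε : ℝ), 0 < ε →
      ∀ t ≤ T, ∀ θ : Src → ℝ≥0∞, Measurable θ →
        Nm b T l₁ l₂ a t (KOp Φ ε b t (fun n => ENNReal.ofReal (α n)) θ) ≤
          ENNReal.ofReal κ * Nm b T l₁ l₂ a t θ := by
  set c : ℝ := b / (2 * T) with hc
  set C₁ : ℝ := 1 + √(Real.pi / c) with hC₁
  set I : ℝ := (I0 (b / 2)).toReal with hI
  have hIe : I0 (b / 2) = ENNReal.ofReal I := (ENNReal.ofReal_toReal (I0_ne_top (by positivity))).symm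
  have hI0 : 0 ≤ I := ENNReal.toReal_nonneg
  set C : ℝ := Real.pi * I * (C₁ * Q) with hC
  have hC₁0 : 0 ≤ C₁ := by positivity
  have hQ := hw.Q0
  have hC0 : 0 ≤ C := by positivity
  -- choice of `l₁`, then of `l₂`
  have hex : ∀ R : ℝ, 0 ≤ R → ∃ l : ℝ, 1 ≤ l ∧ R / √l ≤ κ / 2 := by
    intro R hR
    refine ⟨1 + (2 * R / κ) ^ 2, by have := sq_nonneg (2 * R / κ); linarith, ?_⟩
    have h1 : 2 * R / κ ≤ √(1 + (2 * R / κ) ^ 2) := by
      apply Real.le_sqrt_of_sq_le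
      linarith
    have h2 : 0 < √(1 + (2 * R / κ) ^ 2) := Real.sqrt_pos.2 (by positivity)
    rw [div_le_iff₀ h2]
    calc R = κ / 2 * (2 * R / κ) := by field_simp
      _ ≤ _ := by gcongr
  obtain ⟨l₁, hl₁, h1⟩ := hex (2 * C) (by positivity)
  obtain ⟨B, hB⟩ := hw.w3 (l₁ * T)
  have hB0 : 0 ≤ B := le_trans (mul_pos (hw.apos 0) (Real.exp_pos _)).le (hB 0)
  obtain ⟨l₂, hl₂, h2⟩ := hex (B * C) (by positivity)
  refine ⟨l₁, l₂, hl₁, hl₂, fun Φ hΦ ε hε t ht θ hθ => ?_⟩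
  refine (KOp_contr hΦ hε hb hT hw hl₁ hl₂ hB ht hθ).trans ?_
  gcongr
  rw [hIe, ← ENNReal.ofReal_mul Real.pi_pos.le, ← ENNReal.ofReal_mul (by positivity)]
  apply ENNReal.ofReal_le_ofReal
  calc Real.pi * I * (C₁ * Q * (2 / √l₁ + B / √l₂)) = 2 * C / √l₁ + B * C / √l₂ := by
        rw [hC]; ring
    _ ≤ κ / 2 + κ / 2 := add_le_add h1 h2
    _ = κ := by ring

end Vale.Agent.P119.PB
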