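import Vale.Agent.P119.PB.Op1
import Vale.Agent.P119.M.Tree

/-!
# P119, block PROB: the collision operator on source functions and its contraction (`helper347`)

`KOp` is the operator `θ ↦ (σ ↦ μ ∫ (law of partners) [θ(l') + θ(k') + θ(k^c)])`.  In the norm with
moving Gaussian and depth weights it is a contraction, with constants that depend on the Gaussian
exponent, the time horizon and the depth weights only.
-/

open MeasureTheory Set Filter Topology Metric ProbabilityTheory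
open scoped ENNReal

namespace Vale.Agent.P119.PB

open KU FL M

variable {Φ : E3 → ℝ} {ε : ℝ}

/-- The sum of the three fresh lines produced when the source `σ` hits the line `z'` of depth `n`. -/
noncomputable def fresh (Φ : E3 → ℝ) (ε t : ℝ) (θ : Src → ℝ≥0∞) (σ : Src) (z' : Ph) (n : ℕ) :
    ℝ≥0∞ :=
  (Iic t).indicator (fun τ => θ (τ, (sc2 Φ ε (σ.2.1, z')).1, max σ.2.2 n + 1))
      (sepT Φ ε (σ.2.1, z')) +
    (Iic t).indicator (fun τ => θ (τ, (sc2 Φ ε (σ.2.1, z')).2, max σ.2.2 n + 1))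
      (sepT Φ ε (σ.2.1, z')) +
    (Iic t).indicator (fun τ => θ (τ, z', n)) (hitT ε (σ.2.1, z'))

/-- The collision operator on functions of sources. -/
noncomputable def KOp (Φ : E3 → ℝ) (ε b t : ℝ) (α : ℕ → ℝ≥0∞) (θ : Src → ℝ≥0∞) (σ : Src) :
    ℝ≥0∞ :=
  muE ε * ∑' n, α n * ∫⁻ z' in {z' : Ph | Meets ε (σ.2.1, z') ∧ σ.1 < hitT ε (σ.2.1, z')},
    gw b z'.2 * fresh Φ ε t θ σ z' n

/-- The moving Gaussian exponent. -/
noncomputable def bt (b T s : ℝ) : ℝ := b - b / (2 * T) * s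

theorem bt_le {b T s : ℝ} (hb : 0 < b) (hT : 0 < T) (hs : 0 ≤ s) : bt b T s ≤ b := by
  unfold bt
  have : 0 ≤ b / (2 * T) * s := by positivity
  linarith

theorem le_bt {b T s : ℝ} (hb : 0 < b) (hT : 0 < T) (hs : s ≤ T) : b / 2 ≤ bt b T s := by
  unfold bt
  have : b / (2 * T) * s ≤ b / (2 * T) * T := by gcongr
  have h2 : b / (2 * T) * T = b / 2 := by field_simp
  linarith

/-- The singular kernel. -/
noncomputable def ker (c r : ℝ) : ℝ := 1 + 1 / √(c * r)

theorem ker_nonneg (c r : ℝ) : 0 ≤ ker c r := by unfold ker; positivity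

theorem one_add_mul_exp_le {c r x : ℝ} (hc : 0 < c) (hr : 0 < r) :
    (1 + x) * Real.exp (-(c * r) * x ^ 2) ≤ ker c r := by
  unfold ker
  have hcr : 0 < c * r := mul_pos hc hr
  have hs : 0 < √(c * r) := Real.sqrt_pos.2 hcr
  have h1 : Real.exp (-(c * r) * x ^ 2) ≤ 1 := by
    rw [Real.exp_le_one_iff]
    have := sq_nonneg x
    nlinarith
  have h2 : x * Real.exp (-(c * r) * x ^ 2) ≤ 1 / √(c * r) := by
    rw [le_div_iff₀ hs]
    have h3 : (√(c * r) * x) ^ 2 = c * r * x ^ 2 := by rw [mul_pow, Real.sq_sqrt hcr.le]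
    have h4 := Real.add_one_le_exp ((√(c * r) * x) ^ 2)
    have h5 : √(c * r) * x ≤ Real.exp ((√(c * r) * x) ^ 2) := by
      nlinarith [sq_nonneg (√(c * r) * x - 1)]
    have h6 : Real.exp (-(c * r) * x ^ 2) = (Real.exp ((√(c * r) * x) ^ 2))⁻¹ := by
      rw [h3, ← Real.exp_neg]; congr 1; ring
    rw [h6]
    have h7 : 0 < Real.exp ((√(c * r) * x) ^ 2) := Real.exp_pos _
    calc x * (Real.exp ((√(c * r) * x) ^ 2))⁻¹ * √(c * r)
        = (√(c * r) * x) / Real.exp ((√(c * r) * x) ^ 2) := by field_simp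
      _ ≤ 1 := by rw [div_le_one h7]; exact h5
  calc (1 + x) * Real.exp (-(c * r) * x ^ 2)
      = Real.exp (-(c * r) * x ^ 2) + x * Real.exp (-(c * r) * x ^ 2) := by ring
    _ ≤ 1 + 1 / √(c * r) := add_le_add h1 h2

/-- The weights at two times. -/
theorem gw_bt_le {b T s τ : ℝ} (hb : 0 < b) (hT : 0 < T) (hs : s < τ) (v : E3) :
    gw (bt b T s) v * ENNReal.ofReal (1 + ‖v‖) ≤
      ENNReal.ofReal (ker (b / (2 * T)) (τ - s)) * gw (bt b T τ) v := by
  have hc : 0 < b / (2 * T) := by positivity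
  have hr : 0 < τ - s := by linarith
  have h := one_add_mul_exp_le (x := ‖v‖) hc hr
  unfold gw
  rw [← ENNReal.ofReal_mul (Real.exp_nonneg _), ← ENNReal.ofReal_mul (ker_nonneg _ _)]
  apply ENNReal.ofReal_le_ofReal
  have h2 : Real.exp (-bt b T s * ‖v‖ ^ 2) =
      Real.exp (-(b / (2 * T) * (τ - s)) * ‖v‖ ^ 2) * Real.exp (-bt b T τ * ‖v‖ ^ 2) := by
    rw [← Real.exp_add]
    congr 1
    unfold bt
    ring
  rw [h2]
  calc Real.exp (-(b / (2 * T) * (τ - s)) * ‖v‖ ^ 2) * Real.exp (-bt b T τ * ‖v‖ ^ 2) * (1 + ‖v‖)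
      = ((1 + ‖v‖) * Real.exp (-(b / (2 * T) * (τ - s)) * ‖v‖ ^ 2)) *
        Real.exp (-bt b T τ * ‖v‖ ^ 2) := by ring
    _ ≤ _ := by gcongr

theorem gw_anti {β β' : ℝ} (h : β ≤ β') (v : E3) : gw β' v ≤ gw β v := by
  unfold gw
  apply ENNReal.ofReal_le_ofReal
  apply Real.exp_le_exp.2
  have := sq_nonneg ‖v‖
  nlinarith

/-- The weighted integral over the lines born at time `s`, of depth `n`. -/
noncomputable def Y (b T : ℝ) (θ : Src → ℝ≥0∞) (s : ℝ) (n : ℕ) : ℝ≥0∞ :=
  ∫⁻ z : Ph, gw (bt b T s) z.2 * θ (s, z, n)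

theorem measurable_fresh (hΦ : IsPotential Φ) (hε : ε ≠ 0) (t : ℝ) {θ : Src → ℝ≥0∞}
    (hθ : Measurable θ) (n : ℕ) : Measurable fun q : Src × Ph => fresh Φ ε t θ q.1 q.2 n := by
  have hd : Measurable fun q : Src × Ph => max q.1.2.2 n + 1 :=
    (measurable_from_top (f := fun m : ℕ => max m n + 1)).comp
      (measurable_snd.comp (measurable_snd.comp measurable_fst))
  have hq : Measurable fun q : Src × Ph => ((q.1.2.1, q.2) : Ph × Ph) :=
    (measurable_fst.comp (measurable_snd.comp measurable_fst)).prodMk measurable_snd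
  have hsc := (measurable_sc2 hΦ hε).comp hq
  have hsep := (measurable_sepT (ε := ε) hΦ).comp hq
  have hhit := (measurable_hitT (ε := ε)).comp hq
  have key : ∀ (g : Src × Ph → Src) (τ : Src × Ph → ℝ), Measurable g → Measurable τ →
      (∀ q, (g q).1 = τ q) →
      Measurable fun q => (Iic t).indicator (fun r => θ (r, (g q).2.1, (g q).2.2)) (τ q) := by
    intro g τ hg hτ hgt
    have : (fun q => (Iic t).indicator (fun r => θ (r, (g q).2.1, (g q).2.2)) (τ q)) =
        (τ ⁻¹' (Iic t)).indicator (fun q => θ (g q)) := by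
      funext q
      by_cases h : τ q ∈ Iic t
      · rw [indicator_of_mem h, indicator_of_mem (show q ∈ τ ⁻¹' (Iic t) from h), ← hgt q]
      · rw [indicator_of_notMem h, indicator_of_notMem (show q ∉ τ ⁻¹' (Iic t) from h)]
    rw [this]
    exact (hθ.comp hg).indicator (hτ measurableSet_Iic)
  refine ((key (fun q => (sepT Φ ε (q.1.2.1, q.2), (sc2 Φ ε (q.1.2.1, q.2)).1, max q.1.2.2 n + 1))
    _ ?_ hsep fun q => rfl).add (key (fun q => (sepT Φ ε (q.1.2.1, q.2),
      (sc2 Φ ε (q.1.2.1, q.2)).2, max q.1.2.2 n + 1)) _ ?_ hsep fun q => rfl)).add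
      (key (fun q => (hitT ε (q.1.2.1, q.2), q.2, n)) _ ?_ hhit fun q => rfl)
  · exact hsep.prodMk (hsc.fst.prodMk hd)
  · exact hsep.prodMk (hsc.snd.prodMk hd)
  · exact hhit.prodMk (measurable_snd.prodMk measurable_const)

theorem measurableSet_hit : MeasurableSet
    {q : Src × Ph | Meets ε (q.1.2.1, q.2) ∧ q.1.1 < hitT ε (q.1.2.1, q.2)} := by
  have hq : Measurable fun q : Src × Ph => ((q.1.2.1, q.2) : Ph × Ph) :=
    (measurable_fst.comp (measurable_snd.comp measurable_fst)).prodMk measurable_snd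
  exact (hq measurableSet_meets).inter
    (measurableSet_lt (measurable_fst.comp measurable_fst) (measurable_hitT.comp hq))

theorem measurable_KOp (hΦ : IsPotential Φ) (hε : ε ≠ 0) (b t : ℝ) (α : ℕ → ℝ≥0∞)
    {θ : Src → ℝ≥0∞} (hθ : Measurable θ) : Measurable (KOp Φ ε b t α θ) := by
  unfold KOp
  refine Measurable.const_mul (Measurable.tsum fun n => Measurable.const_mul ?_ _) _
  have h1 : Measurable (({q : Src × Ph | Meets ε (q.1.2.1, q.2) ∧
      q.1.1 < hitT ε (q.1.2.1, q.2)}).indicator fun q : Src × Ph =>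
        gw b q.2.2 * fresh Φ ε t θ q.1 q.2 n) :=
    (((measurable_gw b).comp measurable_snd.snd).mul
      (measurable_fresh hΦ hε t hθ n)).indicator measurableSet_hit
  have h2 := Measurable.lintegral_prod_right' (ν := (volume : Measure Ph)) h1
  have e : (fun σ : Src => ∫⁻ z' in {z' : Ph | Meets ε (σ.2.1, z') ∧ σ.1 < hitT ε (σ.2.1, z')},
      gw b z'.2 * fresh Φ ε t θ σ z' n) = fun σ : Src => ∫⁻ z' : Ph,
      (({q : Src × Ph | Meets ε (q.1.2.1, q.2) ∧ q.1.1 < hitT ε (q.1.2.1, q.2)}).indicator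
        fun q : Src × Ph => gw b q.2.2 * fresh Φ ε t θ q.1 q.2 n) (σ, z') := by
    funext σ
    have hSz : MeasurableSet {z' : Ph | Meets ε (σ.2.1, z') ∧ σ.1 < hitT ε (σ.2.1, z')} :=
      measurable_prodMk_left measurableSet_hit
    rw [← lintegral_indicator hSz]
    rfl
  rw [e]
  exact h2

theorem pair_eq {s : ℝ} {w : Ph → ℝ≥0∞} (hw : Measurable w) {F : Ph × Ph → ℝ≥0∞}
    (hF : Measurable F) :
    ∫⁻ z : Ph, w z * ∫⁻ z' in {z' : Ph | Meets ε (z, z') ∧ s < hitT ε (z, z')}, F (z, z') =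
      ∫⁻ q in {q : Ph × Ph | Meets ε q ∧ s < hitT ε q}, w q.1 * F q := by
  have hS : MeasurableSet {q : Ph × Ph | Meets ε q ∧ s < hitT ε q} :=
    measurableSet_meets.inter (measurableSet_lt measurable_const measurable_hitT)
  have hwF : Measurable fun q : Ph × Ph => w q.1 * F q := (hw.comp measurable_fst).mul hF
  rw [← lintegral_indicator hS, Measure.volume_eq_prod Ph Ph,
    lintegral_prod _ (hwF.indicator hS).aemeasurable]
  refine lintegral_congr fun z => ?_
  have hSz : MeasurableSet {z' : Ph | Meets ε (z, z') ∧ s < hitT ε (z, z')} :=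
    measurable_prodMk_left hS
  have hFz : Measurable fun z' : Ph => F (z, z') := hF.comp measurable_prodMk_left
  rw [← lintegral_indicator hSz, ← lintegral_const_mul _ (hFz.indicator hSz)]
  refine lintegral_congr fun z' => ?_
  by_cases h : Meets ε (z, z') ∧ s < hitT ε (z, z')
  · rw [indicator_of_mem (show z' ∈ {z' : Ph | Meets ε (z, z') ∧ s < hitT ε (z, z')} from h),
      indicator_of_mem (show (z, z') ∈ {q : Ph × Ph | Meets ε q ∧ s < hitT ε q} from h)]
  · rw [indicator_of_notMem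
      (show z' ∉ {z' : Ph | Meets ε (z, z') ∧ s < hitT ε (z, z')} from h),
      indicator_of_notMem (show (z, z') ∉ {q : Ph × Ph | Meets ε q ∧ s < hitT ε q} from h),
      mul_zero]

theorem measurable_slice {θ : Src → ℝ≥0∞} (hθ : Measurable θ) (m : ℕ) :
    Measurable fun p : ℝ × Ph => θ (p.1, p.2, m) := by
  refine hθ.comp ?_
  exact measurable_fst.prodMk (measurable_snd.prodMk measurable_const)

/-- The time integral of the weighted function, with the singular kernel. -/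
theorem slice_le {b T s t : ℝ} (hb : 0 < b) (hT : 0 < T) {θ : Src → ℝ≥0∞}
    (hθ : Measurable θ) (m : ℕ) :
    ∫⁻ τ in Ioc s t, ∫⁻ z : Ph, gw (bt b T s) z.2 * ENNReal.ofReal (1 + ‖z.2‖) * θ (τ, z, m) ≤
      ∫⁻ τ in Ioc s t, ENNReal.ofReal (ker (b / (2 * T)) (τ - s)) * Y b T θ τ m := by
  refine setLIntegral_mono' measurableSet_Ioc fun τ hτ => ?_
  unfold Y
  have hm : Measurable fun z : Ph => gw (bt b T τ) z.2 * θ (τ, z, m) :=
    ((measurable_gw _).comp measurable_snd).mul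
      ((measurable_slice hθ m).comp measurable_prodMk_left)
  rw [← lintegral_const_mul _ hm]
  refine lintegral_mono fun z => ?_
  calc gw (bt b T s) z.2 * ENNReal.ofReal (1 + ‖z.2‖) * θ (τ, z, m)
      ≤ ENNReal.ofReal (ker (b / (2 * T)) (τ - s)) * gw (bt b T τ) z.2 * θ (τ, z, m) :=
        mul_le_mul_left (gw_bt_le hb hT hτ.1 z.2) _
    _ = _ := by ring

/-- The integrand of the operator at birth time `s` and depth `n`. -/
noncomputable def intg (Φ : E3 → ℝ) (ε b t : ℝ) (θ : Src → ℝ≥0∞) (s : ℝ) (n n' : ℕ)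
    (q : Ph × Ph) : ℝ≥0∞ := gw b q.2.2 * fresh Φ ε t θ (s, q.1, n) q.2 n'

theorem measurable_src {f : Src × Ph → ℝ≥0∞} (hf : Measurable f) (s : ℝ) (n : ℕ) :
    Measurable fun q : Ph × Ph => f ((s, q.1, n), q.2) := by
  have h5 : Measurable fun q : Ph × Ph => ((q.1, n) : Ph × ℕ) :=
    measurable_fst.prodMk measurable_const
  have h6 : Measurable fun q : Ph × Ph => ((s, q.1, n) : Src) :=
    (measurable_const : Measurable fun _ : Ph × Ph => s).prodMk h5
  have h2 : Measurable fun q : Ph × Ph => (((s, q.1, n), q.2) : Src × Ph) :=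
    h6.prodMk measurable_snd
  exact hf.comp h2

theorem measurable_intg (hΦ : IsPotential Φ) (hε : ε ≠ 0) (b t : ℝ) {θ : Src → ℝ≥0∞}
    (hθ : Measurable θ) (s : ℝ) (n n' : ℕ) : Measurable (intg Φ ε b t θ s n n') := by
  have h3 := measurable_src (measurable_fresh hΦ hε t hθ n') s n
  have h4 : Measurable fun q : Ph × Ph => gw b q.2.2 := (measurable_gw b).comp measurable_snd.snd
  exact h4.mul h3

theorem KOp_eq (b t : ℝ) (α : ℕ → ℝ≥0∞) (θ : Src → ℝ≥0∞) (s : ℝ) (z : Ph) (n : ℕ) :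
    KOp Φ ε b t α θ (s, z, n) = muE ε * ∑' n', α n' * ∫⁻ z' in {z' : Ph |
      Meets ε (z, z') ∧ s < hitT ε (z, z')}, intg Φ ε b t θ s n n' (z, z') := rfl

theorem measurable_KOp_inner (hΦ : IsPotential Φ) (hε : ε ≠ 0) (b t : ℝ) {θ : Src → ℝ≥0∞}
    (hθ : Measurable θ) (s : ℝ) (n n' : ℕ) : Measurable fun z : Ph => ∫⁻ z' in {z' : Ph |
      Meets ε (z, z') ∧ s < hitT ε (z, z')}, intg Φ ε b t θ s n n' (z, z') := by
  have hS : MeasurableSet {q : Ph × Ph | Meets ε q ∧ s < hitT ε q} :=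
    measurableSet_meets.inter (measurableSet_lt measurable_const measurable_hitT)
  have h3 := Measurable.lintegral_prod_right' (ν := (volume : Measure Ph))
    ((measurable_intg hΦ hε b t hθ s n n').indicator hS)
  have e : (fun z : Ph => ∫⁻ z' in {z' : Ph | Meets ε (z, z') ∧ s < hitT ε (z, z')},
      intg Φ ε b t θ s n n' (z, z')) = fun z : Ph => ∫⁻ z' : Ph,
      ({q : Ph × Ph | Meets ε q ∧ s < hitT ε q}).indicator (intg Φ ε b t θ s n n') (z, z') := by
    funext z
    have hSz : MeasurableSet {z' : Ph | Meets ε (z, z') ∧ s < hitT ε (z, z')} :=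
      measurable_prodMk_left hS
    rw [← lintegral_indicator hSz]
    rfl
  rw [e]
  exact h3

theorem Y_KOp_eq (hΦ : IsPotential Φ) (hε : ε ≠ 0) {b T s t : ℝ} (α : ℕ → ℝ≥0∞)
    {θ : Src → ℝ≥0∞} (hθ : Measurable θ) (n : ℕ) :
    Y b T (KOp Φ ε b t α θ) s n = ∑' n', α n' * (muE ε *
      ∫⁻ q in {q : Ph × Ph | Meets ε q ∧ s < hitT ε q}, gw (bt b T s) q.1.2 *
        intg Φ ε b t θ s n n' q) := by
  unfold Y
  have hwm : Measurable fun z : Ph => gw (bt b T s) z.2 := (measurable_gw _).comp measurable_snd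
  have hin := fun n' => measurable_KOp_inner hΦ hε b t hθ s n n'
  have h1 : ∀ z : Ph, gw (bt b T s) z.2 * KOp Φ ε b t α θ (s, z, n) =
      ∑' n', (α n' * muE ε) * (gw (bt b T s) z.2 * ∫⁻ z' in {z' : Ph |
      Meets ε (z, z') ∧ s < hitT ε (z, z')}, intg Φ ε b t θ s n n' (z, z')) := by
    intro z
    rw [KOp_eq, ← ENNReal.tsum_mul_left, ← ENNReal.tsum_mul_left]
    refine tsum_congr fun n' => ?_
    ring
  have h2 : ∀ n', Measurable fun z : Ph => gw (bt b T s) z.2 * ∫⁻ z' in {z' : Ph |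
      Meets ε (z, z') ∧ s < hitT ε (z, z')}, intg Φ ε b t θ s n n' (z, z') :=
    fun n' => hwm.mul (hin n')
  have h3 : ∀ n', AEMeasurable (fun z : Ph => (α n' * muE ε) * (gw (bt b T s) z.2 *
      ∫⁻ z' in {z' : Ph | Meets ε (z, z') ∧ s < hitT ε (z, z')},
        intg Φ ε b t θ s n n' (z, z'))) :=
    fun n' => ((h2 n').const_mul _).aemeasurable
  rw [lintegral_congr h1, lintegral_tsum h3]
  refine tsum_congr fun n' => ?_
  rw [lintegral_const_mul _ (h2 n'), mul_assoc]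
  congr 2
  exact pair_eq hwm (measurable_intg hΦ hε b t hθ s n n')

/-- **The operator bound, before the choice of the weights.** -/
theorem Y_KOp_le (hΦ : IsPotential Φ) (hε : 0 < ε) {b T s t : ℝ} (hb : 0 < b) (hT : 0 < T)
    (hs : 0 ≤ s) (hsT : s ≤ T) (α : ℕ → ℝ≥0∞) {θ : Src → ℝ≥0∞}
    (hθ : Measurable θ) (n : ℕ) :
    Y b T (KOp Φ ε b t α θ) s n ≤ ∑' n', α n' * (ENNReal.ofReal Real.pi * I0 (b / 2) *
      (2 * (∫⁻ τ in Ioc s t, ENNReal.ofReal (ker (b / (2 * T)) (τ - s)) *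
          Y b T θ τ (max n n' + 1)) +
        ∫⁻ τ in Ioc s t, ENNReal.ofReal (ker (b / (2 * T)) (τ - s)) * Y b T θ τ n')) := by
  have hεne := hε.ne'
  have hb2 : 0 < b / 2 := by positivity
  have hβ1 := le_bt hb hT hsT
  have hβ2 := bt_le hb hT hs
  rw [Y_KOp_eq hΦ hεne α hθ n]
  refine ENNReal.tsum_le_tsum fun n' => mul_le_mul_right ?_ _
  -- the three terms
  set S : Set (Ph × Ph) := {q : Ph × Ph | Meets ε q ∧ s < hitT ε q} with hS
  set D := max n n' + 1 with hD
  have hsl := fun m => measurable_slice hθ m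
  have e1 := flux_out1 hΦ hε (t := t) (s := s) hb2 hβ1 hβ2 (hsl D)
  have e2 := flux_out2 hΦ hε (t := t) (s := s) hb2 hβ1 hβ2 (hsl D)
  have e3 := flux_old (b' := b) hε (t := t) (s := s) hb2 hβ1 (hsl n')
  have hsplit : ∫⁻ q in S, gw (bt b T s) q.1.2 * intg Φ ε b t θ s n n' q ≤
      (∫⁻ q in S, gw (bt b T s) q.1.2 * gw b q.2.2 *
        (Iic t).indicator (fun τ => θ (τ, (sc2 Φ ε q).1, D)) (sepT Φ ε q)) +
      (∫⁻ q in S, gw (bt b T s) q.1.2 * gw b q.2.2 *
        (Iic t).indicator (fun τ => θ (τ, (sc2 Φ ε q).2, D)) (sepT Φ ε q)) +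
      ∫⁻ q in S, gw (bt b T s) q.1.2 * gw b q.2.2 *
        (Iic t).indicator (fun τ => θ (τ, q.2, n')) (hitT ε q) := by
    have hg : Measurable fun q : Ph × Ph => gw (bt b T s) q.1.2 * gw b q.2.2 :=
      ((measurable_gw _).comp measurable_fst.snd).mul ((measurable_gw _).comp measurable_snd.snd)
    have key : ∀ (τ : Ph × Ph → ℝ) (l : Ph × Ph → Ph) (m : ℕ), Measurable τ → Measurable l →
        Measurable fun q => (Iic t).indicator (fun r => θ (r, l q, m)) (τ q) := by
      intro τ l m hτ hl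
      have : (fun q => (Iic t).indicator (fun r => θ (r, l q, m)) (τ q)) =
          (τ ⁻¹' (Iic t)).indicator (fun q => θ (τ q, l q, m)) := by
        funext q
        by_cases h : τ q ∈ Iic t
        · rw [indicator_of_mem h, indicator_of_mem (show q ∈ τ ⁻¹' (Iic t) from h)]
        · rw [indicator_of_notMem h, indicator_of_notMem (show q ∉ τ ⁻¹' (Iic t) from h)]
      rw [this]
      exact ((hsl m).comp (hτ.prodMk hl)).indicator (hτ measurableSet_Iic)
    have k1 := key (sepT Φ ε) (fun q => (sc2 Φ ε q).1) D (measurable_sepT hΦ)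
      (measurable_sc2 hΦ hεne).fst
    have k2 := key (sepT Φ ε) (fun q => (sc2 Φ ε q).2) D (measurable_sepT hΦ)
      (measurable_sc2 hΦ hεne).snd
    have m1 : Measurable fun q : Ph × Ph => gw (bt b T s) q.1.2 * gw b q.2.2 *
        (Iic t).indicator (fun τ => θ (τ, (sc2 Φ ε q).1, D)) (sepT Φ ε q) := hg.mul k1
    have m2 : Measurable fun q : Ph × Ph => gw (bt b T s) q.1.2 * gw b q.2.2 *
        (Iic t).indicator (fun τ => θ (τ, (sc2 Φ ε q).2, D)) (sepT Φ ε q) := hg.mul k2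
    have m12 : Measurable fun q : Ph × Ph => gw (bt b T s) q.1.2 * gw b q.2.2 *
        (Iic t).indicator (fun τ => θ (τ, (sc2 Φ ε q).1, D)) (sepT Φ ε q) +
        gw (bt b T s) q.1.2 * gw b q.2.2 *
        (Iic t).indicator (fun τ => θ (τ, (sc2 Φ ε q).2, D)) (sepT Φ ε q) := m1.add m2
    rw [← lintegral_add_left m1, ← lintegral_add_left m12]
    refine lintegral_mono fun q => ?_
    simp only [intg, fresh]
    rw [← mul_add, ← mul_add, ← mul_assoc]
  have hcancel : ∀ x : ℝ≥0∞, muE ε * (ENNReal.ofReal (ε ^ 2) *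
      (ENNReal.ofReal Real.pi * I0 (b / 2)) * x) = ENNReal.ofReal Real.pi * I0 (b / 2) * x := by
    intro x
    rw [← mul_assoc, ← mul_assoc, muE_mul hε, one_mul]
  have f1 := slice_le (s := s) (t := t) hb hT hθ D
  have f3 : ∫⁻ τ in Ioc s t, ∫⁻ z : Ph, gw b z.2 * ENNReal.ofReal (1 + ‖z.2‖) * θ (τ, z, n') ≤
      ∫⁻ τ in Ioc s t, ENNReal.ofReal (ker (b / (2 * T)) (τ - s)) * Y b T θ τ n' := by
    refine le_trans (lintegral_mono fun τ => lintegral_mono fun z => ?_)
      (slice_le (s := s) (t := t) hb hT hθ n')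
    gcongr
    exact gw_anti hβ2 z.2
  calc muE ε * ∫⁻ q in S, gw (bt b T s) q.1.2 * intg Φ ε b t θ s n n' q
      ≤ muE ε * (ENNReal.ofReal (ε ^ 2) * (ENNReal.ofReal Real.pi * I0 (b / 2)) *
          (2 * (∫⁻ τ in Ioc s t, ENNReal.ofReal (ker (b / (2 * T)) (τ - s)) * Y b T θ τ D) +
          ∫⁻ τ in Ioc s t, ENNReal.ofReal (ker (b / (2 * T)) (τ - s)) * Y b T θ τ n')) := by
        refine mul_le_mul_right (hsplit.trans ?_) _
        rw [mul_add, two_mul, mul_add]
        exact add_le_add (add_le_add (e1.trans (mul_le_mul_right f1 _))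
          (e2.trans (mul_le_mul_right f1 _))) (e3.trans (mul_le_mul_right f3 _))
    _ = _ := hcancel _

end Vale.Agent.P119.PB
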