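import Vale.Agent.P119.PB.Def
import Vale.Agent.P119.PB.Op2

/-!
# P119, block PROB: the source terms of the first-order recursion (`helper347`)

The terms of the pointwise ONE STEP inequality for `theta` (`helper336`, P5):
* `CC U r x`: the position `x` is in contact at the time `r` (with the real path or the M-path of)
  an exposed label of `U`;
* `dirS`: the free line `σ` is in contact with an exposed label;
* `pairS`: the pair of `σ` and its partner is in contact with an exposed label;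
* `feltS`: the line `σ` hits a felt tree;
* `overS`: creation of a tree of depth greater than `L`;
* `thL`: `theta` restricted to the depths `≤ L`;
* `hitS`: the line `σ` hits a tree of the world (crude bound).
-/

open MeasureTheory Filter Topology Set
open scoped ENNReal NNReal

noncomputable section

namespace Vale.Agent.P119.PB

open M CTree KU FB RB AU FL

variable {Φ : E3 → ℝ} {ε : ℝ} (L : ℕ) (hΦ : IsPotential Φ) (hε : 0 < ε)

/-- The position `x` is in contact at the time `r` with an exposed label of `U`. -/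
def CC (U : Finset Src) (r : ℝ) (x : E3) : Prop :=
  ∃ a ∈ ex L hΦ hε U r, ‖x - (XR Φ ε U r a).1‖ ≤ ε ∨
    ∃ T : CTree, T.root = a ∧ live Φ ε L (U : Set Src) T r ∧ ‖x - (st Φ ε T r).1‖ ≤ ε

/-- The free line `σ` is in contact with an exposed label of `U`, before the stopping time. -/
def DirC (η t w : ℝ) (U : Finset Src) (σ : Src) : Prop :=
  ∃ r, σ.1 ≤ r ∧ r ≤ min (hz L hΦ hε η t U) (σ.1 + w) ∧ CC L hΦ hε U r (σ.2.1.1 + r • σ.2.1.2)

/-- The pair of the line `σ` and of the line `z'` is in contact with an exposed label of `U`, after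
the hit and before the stopping time. -/
def PairC (η t w : ℝ) (U : Finset Src) (σ : Src) (z' : Ph) : Prop :=
  Meets ε (σ.2.1, z') ∧ σ.1 < hitT ε (σ.2.1, z') ∧
    ∃ r, hitT ε (σ.2.1, z') ≤ r ∧ r ≤ min (hz L hΦ hε η t U) (σ.1 + w) ∧
      (CC L hΦ hε U r (pairLine Φ ε (σ.2.1, z') r).1.1 ∨
        CC L hΦ hε U r (pairLine Φ ε (σ.2.1, z') r).2.1)

/-- The line `σ` hits the felt tree `T`, before the stopping time. -/
def FeltC (η t w : ℝ) (U : Finset Src) (σ : Src) (T : CTree) : Prop :=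
  Meets ε (σ.2.1, ln Φ ε T) ∧ σ.1 < hitT ε (σ.2.1, ln Φ ε T) ∧
    hitT ε (σ.2.1, ln Φ ε T) ≤ min (hz L hΦ hε η t U) (σ.1 + w) ∧
    fl L hΦ hε U (hitT ε (σ.2.1, ln Φ ε T)) T

/-- The line `σ` hits the tree `T` of the world `U` up to the time `t`. -/
def HitC (Φ : E3 → ℝ) (ε : ℝ) (L : ℕ) (t : ℝ) (U : Finset Src) (σ : Src) (T : CTree) : Prop :=
  Meets ε (σ.2.1, ln Φ ε T) ∧ σ.1 < hitT ε (σ.2.1, ln Φ ε T) ∧ hitT ε (σ.2.1, ln Φ ε T) ≤ t ∧
    ext Φ ε T ≤ t ∧ alive Φ ε L (U : Set Src) T (ext Φ ε T)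

/-- Direct contact. -/
def dirS (f₀ : Ph → ℝ) (η t w : ℝ) (σ : Src) : ℝ≥0∞ :=
  ∫⁻ c, ind (DirC L hΦ hε η t w (wS (GC.pts c)) σ) ∂(GC.PP f₀ ε)

/-- Contact of the pair. -/
def pairS (f₀ : Ph → ℝ) (b : ℝ) (α : ℕ → ℝ≥0∞) (η t w : ℝ) (σ : Src) : ℝ≥0∞ :=
  muE ε * ∑' n, α n * ∫⁻ z', gw b z'.2 *
    ∫⁻ c, ind (PairC L hΦ hε η t w (wS (GC.pts c)) σ z') ∂(GC.PP f₀ ε)

/-- Hits of felt trees. -/
def feltS (f₀ : Ph → ℝ) (η t w : ℝ) (σ : Src) : ℝ≥0∞ :=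
  ∫⁻ c, ∑ T ∈ trs L (wS (GC.pts c)), ind (FeltC L hΦ hε η t w (wS (GC.pts c)) σ T) ∂(GC.PP f₀ ε)

/-- Creation of a tree of depth greater than `L`. -/
def overS (ε b : ℝ) (α : ℕ → ℝ≥0∞) (L : ℕ) (t : ℝ) (σ : Src) : ℝ≥0∞ :=
  muE ε * ∑' n, α n * ((if L < max σ.2.2 n + 1 then 1 else 0) *
    ∫⁻ z' in {z' : Ph | Meets ε (σ.2.1, z') ∧ σ.1 < hitT ε (σ.2.1, z') ∧
      hitT ε (σ.2.1, z') ≤ t}, gw b z'.2)

/-- The atypical part of the law of the partners. -/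
def atyS {Ω : Type*} [MeasurableSpace Ω] (P : Measure Ω) (ν : Ω → Measure Src) (ε t : ℝ)
    (σ : Src) : ℝ≥0∞ :=
  muE ε * ∫⁻ c, (ν c) {p : Src | Meets ε (σ.2.1, p.2.1) ∧ σ.1 < hitT ε (σ.2.1, p.2.1) ∧
    hitT ε (σ.2.1, p.2.1) ≤ t} ∂P

/-- Hits of the trees of the world. -/
def hitS (Φ : E3 → ℝ) (ε : ℝ) (L : ℕ) (f₀ : Ph → ℝ) (t : ℝ) (σ : Src) : ℝ≥0∞ :=
  ∫⁻ c, ∑ T ∈ trs L (wS (GC.pts c)), ind (HitC Φ ε L t (wS (GC.pts c)) σ T) ∂(GC.PP f₀ ε)

/-- `theta`, restricted to the depths `≤ L`. -/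
def thL (f₀ : Ph → ℝ) (η t w : ℝ) (σ : Src) : ℝ≥0∞ :=
  if σ.2.2 ≤ L then theta L hΦ hε f₀ η t w σ else 0

end Vale.Agent.P119.PB
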