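import Vale.Agent.P119.MM.ShapeMeas

/-!
# P119, block PROB: collision trees as a measurable space (`helper298`)

* (the measurable space of the trees is that of `MM.CMeas`, `helper228`) a set (function) of trees is
  measurable iff it is for every shape (`measurableSet_ctree`, `measurable_ctree`,
  `measurable_prod_ctree`); `node`, `ln`, `sig`, `ext`,
  `depth`, `ok`, `rsrc` are measurable;
* `tree ν L : Measure CTree` is the sum over the shapes `τ ∈ shapes L` of the law of `τ.ord z`,
  `z ∼ ν^{card τ}`; `tree_succ`: `tree ν (L+1) = leaf_* ν + node_* (tree ν L × tree ν L)`.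
-/

open MeasureTheory Filter Topology Set
open scoped ENNReal NNReal

noncomputable section

namespace Vale.Agent.P119.M

open KU CTree

theorem measurableSet_ctree {S : Set CTree} :
    MeasurableSet S ↔ ∀ τ : Shape, MeasurableSet (Shape.mk τ ⁻¹' S) :=
  MM.measurableSet_ctree_iff_mk

theorem measurable_smk (τ : Shape) : Measurable (Shape.mk τ) := MM.measurable_mk τ

theorem measurable_ctree {β : Type*} [MeasurableSpace β] {f : CTree → β} :
    Measurable f ↔ ∀ τ : Shape, Measurable fun z => f (Shape.mk τ z) :=
  MM.measurable_ctree_iff_mk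

theorem measurableEmbedding_smk (τ : Shape) : MeasurableEmbedding (Shape.mk τ) :=
  MM.measurableEmbedding_mk τ

theorem iUnion_range_smk : ⋃ τ : Shape, range (Shape.mk τ) = univ := by
  refine eq_univ_of_forall fun T => ?_
  obtain ⟨τ, z, rfl⟩ := Shape.exists_mk T
  exact mem_iUnion.2 ⟨τ, z, rfl⟩

/-- A function on `X × CTree` is measurable iff it is for every shape. -/
theorem measurable_prod_ctree {X β : Type*} [MeasurableSpace X] [MeasurableSpace β]
    {f : X × CTree → β} :
    Measurable f ↔ ∀ τ : Shape, Measurable fun p : X × (Fin τ.card → Src) =>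
      f (p.1, Shape.mk τ p.2) :=
  MM.measurable_prod_ctree_iff

theorem measurable_ctree_prod {X β : Type*} [MeasurableSpace X] [MeasurableSpace β]
    {f : CTree × X → β} :
    Measurable f ↔ ∀ τ : Shape, Measurable fun p : (Fin τ.card → Src) × X =>
      f (Shape.mk τ p.1, p.2) := by
  constructor
  · intro h τ
    exact h.comp (((measurable_smk τ).comp measurable_fst).prodMk measurable_snd)
  · intro h
    have h1 : Measurable fun p : X × CTree => f (p.2, p.1) := by
      rw [measurable_prod_ctree]
      intro τ
      exact (h τ).comp measurable_swap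
    exact h1.comp measurable_swap

theorem measurable_leaf : Measurable CTree.leaf := by
  have h : Measurable fun σ : Src => Shape.mk Shape.leaf fun _ => σ :=
    (measurable_smk Shape.leaf).comp (measurable_pi_iff.2 fun _ => measurable_id)
  exact h

theorem measurable_fin_append {m n : ℕ} {β : Type*} [MeasurableSpace β] :
    Measurable fun p : (Fin m → β) × (Fin n → β) => Fin.append p.1 p.2 := by
  refine measurable_pi_iff.2 fun i => ?_
  induction i using Fin.addCases with
  | left i =>
    simp only [Fin.append_left]
    exact (measurable_pi_apply i).comp measurable_fst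
  | right i =>
    simp only [Fin.append_right]
    exact (measurable_pi_apply i).comp measurable_snd

theorem mk_node_append (τ τ' : Shape) (z : Fin τ.card → Src) (z' : Fin τ'.card → Src) :
    Shape.mk (Shape.node τ τ') (Fin.append z z') =
      CTree.node (Shape.mk τ z) (Shape.mk τ' z') := by
  change CTree.node (Shape.mk τ fun i => Fin.append z z' (Fin.castAdd _ i))
      (Shape.mk τ' fun i => Fin.append z z' (Fin.natAdd _ i)) = _
  simp only [Fin.append_left, Fin.append_right]

theorem measurable_node : Measurable fun p : CTree × CTree => CTree.node p.1 p.2 := by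
  rw [measurable_prod_ctree]
  intro τ'
  rw [measurable_ctree_prod (f := fun p : CTree × (Fin τ'.card → Src) =>
    CTree.node p.1 (Shape.mk τ' p.2))]
  intro τ
  have h : Measurable fun p : (Fin τ.card → Src) × (Fin τ'.card → Src) =>
      Shape.mk (Shape.node τ τ') (Fin.append p.1 p.2) :=
    (measurable_smk (Shape.node τ τ')).comp measurable_fin_append
  simp only [mk_node_append] at h
  exact h

/-- Measurability of functions defined by recursion on the tree. -/
theorem measurable_rec {β : Type*} [MeasurableSpace β] {f : CTree → β} {g : β × β → β}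
    {h : Src → β} (hg : Measurable g) (hh : Measurable h) (h0 : ∀ σ, f (CTree.leaf σ) = h σ)
    (h1 : ∀ a b, f (CTree.node a b) = g (f a, f b)) : Measurable f := by
  rw [measurable_ctree]
  intro τ
  induction τ with
  | leaf =>
    have : (fun z : Fin Shape.leaf.card → Src => f (Shape.mk Shape.leaf z)) =
        fun z => h (z ⟨0, one_pos⟩) := funext fun z => h0 _
    rw [this]
    exact hh.comp (measurable_pi_apply _)
  | node a b iha ihb =>
    have e : (fun z : Fin (Shape.node a b).card → Src => f (Shape.mk (Shape.node a b) z)) =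
        fun z => g (f (Shape.mk a fun i => z (Fin.castAdd b.card i)),
          f (Shape.mk b fun i => z (Fin.natAdd a.card i))) := funext fun z => h1 _ _
    rw [e]
    refine hg.comp (Measurable.prodMk ?_ ?_)
    · exact iha.comp (measurable_pi_iff.2 fun i => measurable_pi_apply _)
    · exact ihb.comp (measurable_pi_iff.2 fun i => measurable_pi_apply _)

variable {Φ : E3 → ℝ} {ε : ℝ}

theorem measurable_ln (hΦ : IsPotential Φ) (hε : ε ≠ 0) : Measurable (ln Φ ε) :=
  measurable_rec (f := ln Φ ε) (g := fun q => (sc2 Φ ε q).1) (h := fun σ => σ.2.1)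
    (measurable_sc2 hΦ hε).fst (measurable_fst.comp measurable_snd) (fun _ => rfl)
    (fun _ _ => rfl)

theorem measurable_depth : Measurable CTree.depth :=
  measurable_rec (f := CTree.depth) (g := fun q => max q.1 q.2 + 1) (h := fun σ => σ.2.2)
    ((measurable_fst.max measurable_snd).add_const 1) (measurable_snd.comp measurable_snd)
    (fun _ => rfl) (fun _ _ => rfl)

/-- Measurability of functions of the two subtrees of a node. -/
theorem measurable_cases {β : Type*} [MeasurableSpace β] {f : CTree → β} {g : CTree × CTree → β}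
    {h : Src → β} (hg : Measurable g) (hh : Measurable h) (h0 : ∀ σ, f (CTree.leaf σ) = h σ)
    (h1 : ∀ a b, f (CTree.node a b) = g (a, b)) : Measurable f := by
  rw [measurable_ctree]
  intro τ
  cases τ with
  | leaf =>
    have : (fun z : Fin Shape.leaf.card → Src => f (Shape.mk Shape.leaf z)) =
        fun z => h (z ⟨0, one_pos⟩) := funext fun z => h0 _
    rw [this]
    exact hh.comp (measurable_pi_apply _)
  | node a b =>
    have e : (fun z : Fin (Shape.node a b).card → Src => f (Shape.mk (Shape.node a b) z)) =
        fun z => g (Shape.mk a fun i => z (Fin.castAdd b.card i),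
          Shape.mk b fun i => z (Fin.natAdd a.card i)) := funext fun z => h1 _ _
    rw [e]
    refine hg.comp (Measurable.prodMk ?_ ?_)
    · exact (measurable_smk a).comp (measurable_pi_iff.2 fun i => measurable_pi_apply _)
    · exact (measurable_smk b).comp (measurable_pi_iff.2 fun i => measurable_pi_apply _)

theorem measurable_sig (hΦ : IsPotential Φ) (hε : ε ≠ 0) : Measurable (sig Φ ε) :=
  measurable_cases (f := sig Φ ε) (g := fun q => hitT ε (ln Φ ε q.1, ln Φ ε q.2))
    (h := fun σ => σ.1)
    (measurable_hitT.comp (((measurable_ln hΦ hε).comp measurable_fst).prodMk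
      ((measurable_ln hΦ hε).comp measurable_snd))) measurable_fst (fun _ => rfl)
    (fun _ _ => rfl)

theorem measurable_ext (hΦ : IsPotential Φ) (hε : ε ≠ 0) : Measurable (ext Φ ε) :=
  measurable_cases (f := ext Φ ε) (g := fun q => sepT Φ ε (ln Φ ε q.1, ln Φ ε q.2))
    (h := fun σ => σ.1)
    ((measurable_sepT hΦ).comp (((measurable_ln hΦ hε).comp measurable_fst).prodMk
      ((measurable_ln hΦ hε).comp measurable_snd))) measurable_fst (fun _ => rfl)
    (fun _ _ => rfl)

theorem measurableSet_src_eq : MeasurableSet {q : Src × Src | q.1 = q.2} := by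
  have e : {q : Src × Src | q.1 = q.2} = {q | q.1.1 = q.2.1} ∩ ({q | q.1.2.1 = q.2.2.1} ∩
      {q | q.1.2.2 = q.2.2.2}) := by
    ext q
    constructor
    · intro h
      have h' : q.1 = q.2 := h
      exact ⟨congrArg Prod.fst h', congrArg (fun s : Src => s.2.1) h',
        congrArg (fun s : Src => s.2.2) h'⟩
    · rintro ⟨h1, h2, h3⟩
      exact Prod.ext h1 (Prod.ext h2 h3)
  rw [e]
  refine MeasurableSet.inter ?_ (MeasurableSet.inter ?_ ?_)
  · exact measurableSet_eq_fun (measurable_fst.comp measurable_fst)
      (measurable_fst.comp measurable_snd)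
  · exact measurableSet_eq_fun (measurable_fst.comp (measurable_snd.comp measurable_fst))
      (measurable_fst.comp (measurable_snd.comp measurable_snd))
  · exact measurableSet_eq_fun (measurable_snd.comp (measurable_snd.comp measurable_fst))
      (measurable_snd.comp (measurable_snd.comp measurable_snd))

theorem measurableSet_disjoint_leaves :
    MeasurableSet {p : CTree × CTree | Disjoint p.1.leaves p.2.leaves} := by
  have h : Measurable fun p : CTree × CTree => Disjoint p.1.leaves p.2.leaves := by
    rw [measurable_prod_ctree]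
    intro τ'
    rw [measurable_ctree_prod (f := fun p : CTree × (Fin τ'.card → Src) =>
      Disjoint p.1.leaves (Shape.mk τ' p.2).leaves)]
    intro τ
    have e : (fun p : (Fin τ.card → Src) × (Fin τ'.card → Src) =>
        Disjoint (Shape.mk τ p.1).leaves (Shape.mk τ' p.2).leaves) =
        fun p => ∀ i j, ¬ p.1 i = p.2 j := by
      funext p
      rw [Shape.leaves_mk, Shape.leaves_mk]
      refine propext ⟨fun h i j hij => ?_, fun h => ?_⟩
      · exact disjoint_left.1 h ⟨i, rfl⟩ ⟨j, hij.symm⟩
      · rw [disjoint_left]
        rintro _ ⟨i, rfl⟩ ⟨j, hj⟩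
        exact h i j hj.symm
    rw [e]
    refine Measurable.forall fun i => Measurable.forall fun j => Measurable.not ?_
    have h2 : MeasurableSet {q : Src × Src | q.1 = q.2} := measurableSet_src_eq
    have h3 : Measurable fun p : (Fin τ.card → Src) × (Fin τ'.card → Src) => (p.1 i, p.2 j) :=
      ((measurable_pi_apply i).comp measurable_fst).prodMk
        ((measurable_pi_apply j).comp measurable_snd)
    exact (measurableSet_setOfPred.1 (h3 h2))
  exact measurableSet_setOfPred.2 h

theorem measurable_rel' (ε : ℝ) : Measurable (rel ε) := by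
  unfold rel
  fun_prop

theorem measurableSet_ok (hΦ : IsPotential Φ) (hε : ε ≠ 0) : MeasurableSet {T | ok Φ ε T} := by
  have hm : ∀ τ : Shape, Measurable fun z => ok Φ ε (Shape.mk τ z) := by
    intro τ
    induction τ with
    | leaf =>
      have : (fun z : Fin Shape.leaf.card → Src => ok Φ ε (Shape.mk Shape.leaf z)) =
          fun z => 0 ≤ (z ⟨0, one_pos⟩).1 := rfl
      rw [this]
      exact measurableSet_setOfPred.1 (measurableSet_le measurable_const
        (measurable_fst.comp (measurable_pi_apply _)))
    | node a b iha ihb =>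
      have e : (fun z : Fin (Shape.node a b).card → Src => ok Φ ε (Shape.mk (Shape.node a b) z)) =
        fun z => ok Φ ε (Shape.mk a fun i => z (Fin.castAdd b.card i)) ∧
          ok Φ ε (Shape.mk b fun i => z (Fin.natAdd a.card i)) ∧
          Disjoint (Shape.mk a fun i => z (Fin.castAdd b.card i)).leaves
            (Shape.mk b fun i => z (Fin.natAdd a.card i)).leaves ∧
          Meets ε (ln Φ ε (Shape.mk a fun i => z (Fin.castAdd b.card i)),
            ln Φ ε (Shape.mk b fun i => z (Fin.natAdd a.card i))) ∧
          Exits Φ (rel ε (ln Φ ε (Shape.mk a fun i => z (Fin.castAdd b.card i)),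
            ln Φ ε (Shape.mk b fun i => z (Fin.natAdd a.card i)))) ∧
          ext Φ ε (Shape.mk a fun i => z (Fin.castAdd b.card i)) <
            hitT ε (ln Φ ε (Shape.mk a fun i => z (Fin.castAdd b.card i)),
              ln Φ ε (Shape.mk b fun i => z (Fin.natAdd a.card i))) ∧
          ext Φ ε (Shape.mk b fun i => z (Fin.natAdd a.card i)) <
            hitT ε (ln Φ ε (Shape.mk a fun i => z (Fin.castAdd b.card i)),
              ln Φ ε (Shape.mk b fun i => z (Fin.natAdd a.card i))) := rfl
      rw [e]
      have ma : Measurable fun z : Fin (Shape.node a b).card → Src =>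
          fun i : Fin a.card => z (Fin.castAdd b.card i) :=
        measurable_pi_iff.2 fun i => measurable_pi_apply _
      have mb : Measurable fun z : Fin (Shape.node a b).card → Src =>
          fun i : Fin b.card => z (Fin.natAdd a.card i) :=
        measurable_pi_iff.2 fun i => measurable_pi_apply _
      have ta := (measurable_smk a).comp ma
      have tb := (measurable_smk b).comp mb
      have la := (measurable_ln hΦ hε).comp ta
      have lb := (measurable_ln hΦ hε).comp tb
      have ea := (measurable_ext hΦ hε).comp ta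
      have eb := (measurable_ext hΦ hε).comp tb
      have hh := measurable_hitT (ε := ε).comp (la.prodMk lb)
      have h3 := measurableSet_setOfPred.1 ((ta.prodMk tb) measurableSet_disjoint_leaves)
      have h4 := measurableSet_setOfPred.1 ((la.prodMk lb) (measurableSet_meets (ε := ε)))
      have h5 := measurableSet_setOfPred.1 (((measurable_rel' ε).comp (la.prodMk lb))
        (measurableSet_exits hΦ))
      have h6 := measurableSet_setOfPred.1 (measurableSet_lt ea hh)
      have h7 := measurableSet_setOfPred.1 (measurableSet_lt eb hh)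
      exact (iha.comp ma).and ((ihb.comp mb).and (h3.and (h4.and (h5.and (h6.and h7)))))
  rw [measurableSet_ctree]
  exact fun τ => measurableSet_setOfPred.2 (hm τ)

/-- The source of the root line: the particle is on the line `ln T` from the time `ext T` on. -/
def rsrc (Φ : E3 → ℝ) (ε : ℝ) (T : CTree) : Src := (ext Φ ε T, ln Φ ε T, T.depth)

theorem measurable_rsrc (hΦ : IsPotential Φ) (hε : ε ≠ 0) : Measurable (rsrc Φ ε) :=
  (measurable_ext hΦ hε).prodMk ((measurable_ln hΦ hε).prodMk measurable_depth)

/-! ### The measure on the trees -/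

theorem measurable_src : Measurable src :=
  measurable_const.prodMk (measurable_id.prodMk measurable_const)

theorem measurable_ord (τ : Shape) : Measurable τ.ord :=
  (measurable_smk τ).comp (measurable_pi_iff.2 fun i => measurable_src.comp (measurable_pi_apply i))

theorem sum_shapes_succ {M : Type*} [AddCommMonoid M] (L : ℕ) (f : Shape → M) :
    ∑ τ ∈ shapes (L + 1), f τ = f Shape.leaf + ∑ a ∈ shapes L, ∑ b ∈ shapes L, f (Shape.node a b) := by
  classical
  have h : shapes (L + 1) = insert Shape.leaf
      ((shapes L ×ˢ shapes L).image fun p : Shape × Shape => Shape.node p.1 p.2) := by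
    ext τ
    rw [mem_shapes, Finset.mem_insert, Finset.mem_image]
    constructor
    · intro h
      cases τ with
      | leaf => exact Or.inl rfl
      | node a b =>
        have h' : max a.depth b.depth + 1 ≤ L + 1 := h
        rw [Nat.add_le_add_iff_right, max_le_iff] at h'
        exact Or.inr ⟨(a, b), Finset.mem_product.2 ⟨mem_shapes.2 h'.1, mem_shapes.2 h'.2⟩, rfl⟩
    · rintro (rfl | ⟨⟨a, b⟩, h, rfl⟩)
      · exact Nat.zero_le _
      · rw [Finset.mem_product, mem_shapes, mem_shapes] at h
        exact Nat.succ_le_succ (max_le h.1 h.2)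
  rw [h, Finset.sum_insert, Finset.sum_image, Finset.sum_product]
  · rintro ⟨a, b⟩ - ⟨a', b'⟩ - hab
    obtain ⟨h1, h2⟩ := Shape.node.inj hab
    exact Prod.ext h1 h2
  · rw [Finset.mem_image]
    rintro ⟨⟨a, b⟩, -, h⟩
    exact Shape.noConfusion h

theorem shapes_zero : shapes 0 = {Shape.leaf} := by
  ext τ
  rw [mem_shapes, Finset.mem_singleton]
  cases τ with
  | leaf => simp [Shape.depth]
  | node a b => simp [Shape.depth]

theorem shapes_mono {L L' : ℕ} (h : L ≤ L') : shapes L ⊆ shapes L' := fun τ hτ => by
  rw [mem_shapes] at hτ ⊢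
  exact hτ.trans h

/-- The measure on the trees of depth `≤ L`: the leaves are independent with intensity `ν`. -/
def tree (ν : Measure Ph) (L : ℕ) : Measure CTree :=
  ∑ τ ∈ shapes L, (Measure.pi fun _ : Fin τ.card => ν).map τ.ord

variable {ν : Measure Ph}

theorem lintegral_tree (L : ℕ) {F : CTree → ℝ≥0∞} (hF : Measurable F) :
    ∫⁻ T, F T ∂(tree ν L) =
      ∑ τ ∈ shapes L, ∫⁻ z, F (τ.ord z) ∂(Measure.pi fun _ : Fin τ.card => ν) := by
  unfold tree
  rw [lintegral_finsetSum_measure]
  exact Finset.sum_congr rfl fun τ _ => lintegral_map hF (measurable_ord τ)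

theorem tree_mono {L L' : ℕ} (h : L ≤ L') : tree ν L ≤ tree ν L' := by
  unfold tree
  refine Measure.le_iff.2 fun s _ => ?_
  rw [Measure.coe_finsetSum, Measure.coe_finsetSum, Finset.sum_apply, Finset.sum_apply]
  exact Finset.sum_le_sum_of_subset (shapes_mono h)

/-- Splitting the coordinates. -/
theorem lintegral_pi_append [SigmaFinite ν] (m n : ℕ)
    {G : (Fin m → Ph) → (Fin n → Ph) → ℝ≥0∞}
    (hG : Measurable fun p : (Fin m → Ph) × (Fin n → Ph) => G p.1 p.2) :
    ∫⁻ z : Fin (m + n) → Ph, G (fun i => z (Fin.castAdd n i)) (fun i => z (Fin.natAdd m i))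
      ∂(Measure.pi fun _ => ν) =
    ∫⁻ z, ∫⁻ z', G z z' ∂(Measure.pi fun _ : Fin n => ν) ∂(Measure.pi fun _ : Fin m => ν) := by
  have h1 := (measurePreserving_piCongrLeft (α := fun _ : Fin (m + n) => Ph) (fun _ => ν)
    (finSumFinEquiv (m := m) (n := n))).lintegral_comp_emb (MeasurableEquiv.measurableEmbedding _)
    (fun z => G (fun i => z (Fin.castAdd n i)) (fun i => z (Fin.natAdd m i)))
  rw [← h1]
  have h2 := (measurePreserving_sumPiEquivProdPi_symm (X := fun _ : Fin m ⊕ Fin n => Ph)
    (fun _ => ν)).lintegral_comp_emb (MeasurableEquiv.measurableEmbedding _)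
    (fun Y => (fun z : Fin (m + n) → Ph =>
      G (fun i => z (Fin.castAdd n i)) (fun i => z (Fin.natAdd m i)))
      (MeasurableEquiv.piCongrLeft (fun _ : Fin (m + n) => Ph) (finSumFinEquiv (m := m) (n := n)) Y))
  rw [← h2, ← lintegral_prod _ hG.aemeasurable]
  refine lintegral_congr fun p => ?_
  set Y := (MeasurableEquiv.sumPiEquivProdPi (fun _ : Fin m ⊕ Fin n => Ph)).symm p with hY
  have e0 : ∀ x, MeasurableEquiv.piCongrLeft (fun _ : Fin (m + n) => Ph)
      (finSumFinEquiv (m := m) (n := n)) Y (finSumFinEquiv x) = Y x := fun x => by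
    rw [MeasurableEquiv.coe_piCongrLeft, Equiv.piCongrLeft_apply_apply]
  have e1 : ∀ i : Fin m, MeasurableEquiv.piCongrLeft (fun _ : Fin (m + n) => Ph)
      (finSumFinEquiv (m := m) (n := n)) Y (Fin.castAdd n i) = p.1 i := fun i => by
    rw [← finSumFinEquiv_apply_left, e0]
    rfl
  have e2 : ∀ i : Fin n, MeasurableEquiv.piCongrLeft (fun _ : Fin (m + n) => Ph)
      (finSumFinEquiv (m := m) (n := n)) Y (Fin.natAdd m i) = p.2 i := fun i => by
    rw [← finSumFinEquiv_apply_right, e0]
    rfl
  simp only [e1, e2]

instance instIsFiniteMeasureTree [IsFiniteMeasure ν] (L : ℕ) : IsFiniteMeasure (tree ν L) := by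
  refine ⟨?_⟩
  rw [← lintegral_one, lintegral_tree L measurable_const]
  refine ENNReal.sum_lt_top.2 fun τ _ => ?_
  rw [lintegral_one]
  exact measure_lt_top _ _

/-- The law of a leaf. -/
theorem lintegral_leaf [SigmaFinite ν] {F : CTree → ℝ≥0∞} (hF : Measurable F) :
    ∫⁻ z, F (Shape.leaf.ord z) ∂(Measure.pi fun _ : Fin Shape.leaf.card => ν) =
      ∫⁻ z, F (CTree.leaf (src z)) ∂ν := by
  have h1 := (measurePreserving_funUnique ν (Fin 1)).lintegral_comp
    (f := fun z : Ph => F (CTree.leaf (src z)))
    (hF.comp (measurable_leaf.comp measurable_src))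
  rw [← h1]
  rfl

theorem lintegral_tree_zero [SigmaFinite ν] {F : CTree → ℝ≥0∞} (hF : Measurable F) :
    ∫⁻ T, F T ∂(tree ν 0) = ∫⁻ z, F (CTree.leaf (src z)) ∂ν := by
  rw [lintegral_tree 0 hF, shapes_zero, Finset.sum_singleton, lintegral_leaf hF]

/-- **The recursion for the measure on the trees.** -/
theorem lintegral_tree_succ [IsFiniteMeasure ν] (L : ℕ) {F : CTree → ℝ≥0∞} (hF : Measurable F) :
    ∫⁻ T, F T ∂(tree ν (L + 1)) = ∫⁻ z, F (CTree.leaf (src z)) ∂ν +
      ∫⁻ A, ∫⁻ B, F (CTree.node A B) ∂(tree ν L) ∂(tree ν L) := by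
  have hN : Measurable fun p : CTree × CTree => F (CTree.node p.1 p.2) := hF.comp measurable_node
  rw [lintegral_tree (L + 1) hF, sum_shapes_succ, lintegral_leaf hF,
    lintegral_tree L (Measurable.lintegral_prod_right' hN)]
  congr 1
  refine Finset.sum_congr rfl fun a _ => ?_
  have h1 : ∀ z : Fin a.card → Ph, ∫⁻ B, F (CTree.node (a.ord z) B) ∂(tree ν L) =
      ∑ b ∈ shapes L, ∫⁻ z', F (CTree.node (a.ord z) (b.ord z'))
        ∂(Measure.pi fun _ : Fin b.card => ν) := fun z =>
    lintegral_tree L (hN.comp (measurable_const.prodMk measurable_id))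
  simp only [h1]
  rw [lintegral_finsetSum]
  · refine Finset.sum_congr rfl fun b _ => ?_
    have h2 := lintegral_pi_append (ν := ν) a.card b.card
      (G := fun z z' => F (CTree.node (a.ord z) (b.ord z')))
      (hN.comp (((measurable_ord a).comp measurable_fst).prodMk
        ((measurable_ord b).comp measurable_snd)))
    rw [← h2]
    rfl
  · intro b _
    have h3 : Measurable fun p : (Fin a.card → Ph) × (Fin b.card → Ph) =>
        F (CTree.node (a.ord p.1) (b.ord p.2)) :=
      hN.comp (((measurable_ord a).comp measurable_fst).prodMk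
        ((measurable_ord b).comp measurable_snd))
    exact h3.lintegral_prod_right'

end Vale.Agent.P119.M
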