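import Vale.Agent.P119.PB.Def

/-!
# P119, block PROB: threshold transfer (`helper185`)

`hz_transfer` (P2): if the worlds `W₁` and `W₂` do not touch each other before `σ ≤ hz η t W₁`, and
the weighted number `relW W₁ W₂ t` of the trees of `W₂` which are not independent of the difference
of the worlds is less than `(η' - η) μ`, then `σ ≤ hz η' t W₂`.
-/

open MeasureTheory Filter Topology Set
open scoped ENNReal NNReal

noncomputable section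

namespace Vale.Agent.P119.PB

open M CTree KU FB RB AU

variable {Φ : E3 → ℝ} {ε : ℝ} {L : ℕ} {hΦ : IsPotential Φ} {hε : 0 < ε}
  {W W₁ W₂ : Finset Src} {a c : Src} {T : CTree} {s t η η' : ℝ}

/-! ### Exposed labels -/

theorem ex_eq_of_not_touch (h₁ : ∀ a ∈ W₁, 0 ≤ a.1) (h₂ : ∀ a ∈ W₂, 0 ≤ a.1)
    (hn : ¬(Y Φ ε L hΦ hε).Touch W₁ W₂ t) (hst : s ≤ t) :
    ex L hΦ hε W₁ s = ex L hΦ hε W₂ s := by
  ext a
  rw [mem_ex, mem_ex]
  exact FB.Sys.exp_iff (Y_transfer hΦ hε h₁ h₂) hn hst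

/-- The first exposure times are the same. -/
theorem tau_eq_of_not_touch (h₁ : ∀ a ∈ W₁, 0 ≤ a.1) (h₂ : ∀ a ∈ W₂, 0 ≤ a.1)
    (hn : ¬(Y Φ ε L hΦ hε).Touch W₁ W₂ t) (hc : c ∈ ex L hΦ hε W₁ t) :
    EN.tau (ex L hΦ hε W₁) c = EN.tau (ex L hΦ hε W₂) c ∧ EN.tau (ex L hΦ hε W₁) c ≤ t ∧
      0 ≤ EN.tau (ex L hΦ hε W₁) c := by
  have hc' : c ∈ ex L hΦ hε W₂ t := ex_eq_of_not_touch h₁ h₂ hn le_rfl ▸ hc
  have hb : ∀ W : Finset Src, BddBelow {s | c ∈ ex L hΦ hε W s} := fun W =>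
    ⟨0, fun s hs => (mem_ex.1 hs).nonneg⟩
  have key : ∀ W W' : Finset Src, c ∈ ex L hΦ hε W t → c ∈ ex L hΦ hε W' t →
      (∀ s ≤ t, ex L hΦ hε W s = ex L hΦ hε W' s) →
      sInf {s | c ∈ ex L hΦ hε W s} ≤ sInf {s | c ∈ ex L hΦ hε W' s} := by
    intro W W' h1 h2 h3
    refine le_csInf ⟨t, h2⟩ fun s hs => ?_
    rcases le_total s t with h4 | h4
    · exact csInf_le (hb W) (show c ∈ ex L hΦ hε W s by rw [h3 s h4]; exact hs)
    · exact (csInf_le (hb W) h1).trans h4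
  refine ⟨le_antisymm (key _ _ hc hc' fun s hs => ex_eq_of_not_touch h₁ h₂ hn hs)
    (key _ _ hc' hc fun s hs => (ex_eq_of_not_touch h₁ h₂ hn hs).symm),
    csInf_le (hb W₁) hc, le_csInf ⟨t, hc⟩ fun s hs => (mem_ex.1 hs).nonneg⟩

/-- The trees just before the exposure are the same. -/
theorem ptree_eq_of_not_mem_D (hD : c ∉ (Y Φ ε L hΦ hε).D W₁ W₂ t) (hst : s ≤ t) :
    EN.ptree Φ ε L (W₁ : Set Src) c s = EN.ptree Φ ε L (W₂ : Set Src) c s := by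
  have hst' : ∀ r < s, stat Φ ε L (W₁ : Set Src) c r = stat Φ ε L (W₂ : Set Src) c r :=
    fun r hr => stat_of_sta (sta_eq_of_not_mem_D hD (hr.le.trans hst))
  have hm := mem_of_sta (sta_eq_of_not_mem_D hD hst)
  have key : ∀ V V' : Finset Src, (c ∈ (V : Set Src) → c ∈ (V' : Set Src)) →
      (∀ r < s, stat Φ ε L (V : Set Src) c r = stat Φ ε L (V' : Set Src) c r) → ∀ T,
      EN.PS Φ ε L (V : Set Src) c s T → EN.PS Φ ε L (V' : Set Src) c s T := by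
    rintro V V' h1 h2 T ⟨h3, h4, h5⟩
    refine ⟨h3, ?_, h5⟩
    refine live_congr hΦ hε V.finite_toSet V'.finite_toSet (h3 ▸ h1) (h3 ▸ h2) h4 ?_
    rcases h5 with h5 | h5
    · exact Or.inr (by rw [h5]; rfl)
    · exact Or.inl h5
  have e : ∀ T, EN.PS Φ ε L (W₁ : Set Src) c s T ↔ EN.PS Φ ε L (W₂ : Set Src) c s T := fun T =>
    ⟨key W₁ W₂ hm.1 hst' T, key W₂ W₁ hm.2 (fun r hr => (hst' r hr).symm) T⟩
  by_cases h : ∃ T, EN.PS Φ ε L (W₁ : Set Src) c s T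
  · obtain ⟨T, hT⟩ := h
    rw [EN.ptree_eq hΦ hε W₁.finite_toSet hT, EN.ptree_eq hΦ hε W₂.finite_toSet ((e T).1 hT)]
  · have h' : ¬∃ T, EN.PS Φ ε L (W₂ : Set Src) c s T := fun ⟨T, hT⟩ => h ⟨T, (e T).2 hT⟩
    unfold EN.ptree
    rw [dif_neg h, dif_neg h']

theorem wt_eq_of_not_touch (h₁ : ∀ a ∈ W₁, 0 ≤ a.1) (h₂ : ∀ a ∈ W₂, 0 ≤ a.1)
    (hn : ¬(Y Φ ε L hΦ hε).Touch W₁ W₂ t) (hc : c ∈ ex L hΦ hε W₁ t) :
    EN.wt Φ ε L W₁ (ex L hΦ hε W₁) c = EN.wt Φ ε L W₂ (ex L hΦ hε W₂) c := by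
  obtain ⟨h3, h4, -⟩ := tau_eq_of_not_touch h₁ h₂ hn hc
  have hD : c ∉ (Y Φ ε L hΦ hε).D W₁ W₂ t := fun hD => hn ⟨c, hD, Or.inl (mem_ex.1 hc)⟩
  unfold EN.wt
  rw [← h3, ptree_eq_of_not_mem_D hD h4]

/-- **The exposed energies are the same.** -/
theorem eW_eq_of_not_touch (h₁ : ∀ a ∈ W₁, 0 ≤ a.1) (h₂ : ∀ a ∈ W₂, 0 ≤ a.1)
    (hn : ¬(Y Φ ε L hΦ hε).Touch W₁ W₂ t) : eW L hΦ hε W₁ t = eW L hΦ hε W₂ t := by
  unfold eW
  rw [ex_eq_of_not_touch h₁ h₂ hn le_rfl]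
  refine Finset.sum_congr rfl fun c hc => ?_
  rw [wt_eq_of_not_touch h₁ h₂ hn (by rw [ex_eq_of_not_touch h₁ h₂ hn le_rfl]; exact hc)]

/-! ### Felt trees -/

/-- In a square, the labels which are altered by the second edge belong to the first world. -/
theorem mem_of_square (hsq : FB.Sys.Square (Y Φ ε L hΦ hε) (rm W₁ T) (rm W₂ T) W₁ W₂ t)
    (ha : a ∈ T.leaves) (haW : a ∈ W₂) :
    a ∈ W₁ ∧ a ∉ (Y Φ ε L hΦ hε).D W₁ W₂ t := by
  have h1 : a ∈ (Y Φ ε L hΦ hε).D (rm W₂ T) W₂ t := by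
    refine ⟨t, le_rfl, fun h => ?_⟩
    have h2 := mem_of_sta (W₁ := (rm W₂ T : Set Src)) (W₂ := (W₂ : Set Src)) h
    have h3 := Finset.mem_coe.1 (h2.2 (Finset.mem_coe.2 haW))
    exact (mem_rm.1 h3).2 ha
  rw [hsq.D_QV] at h1
  have h4 : a ∉ (Y Φ ε L hΦ hε).D (rm W₁ T) (rm W₂ T) t := fun h => hsq.disj a h h1
  have h5 : a ∉ (Y Φ ε L hΦ hε).D W₁ W₂ t := by
    rw [hsq.D_RV]; exact h4
  refine ⟨?_, h5⟩
  have h6 := mem_of_sta (sta_eq_of_not_mem_D h5 le_rfl)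
  exact Finset.mem_coe.1 (h6.2 (Finset.mem_coe.2 haW))

theorem rm_nonneg (h : ∀ a ∈ W, 0 ≤ a.1) : ∀ a ∈ rm W T, 0 ≤ a.1 := fun a ha =>
  h a (mem_rm.1 ha).1

/-- A tree which is felt in the second world, and independent of the difference, is felt in the
first world. -/
theorem fl_transfer (h₁ : ∀ a ∈ W₁, 0 ≤ a.1) (h₂ : ∀ a ∈ W₂, 0 ≤ a.1)
    (hn : ¬(Y Φ ε L hΦ hε).Touch W₁ W₂ t)
    (hsq : FB.Sys.Square (Y Φ ε L hΦ hε) (rm W₁ T) (rm W₂ T) W₁ W₂ t)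
    (h : fl L hΦ hε W₂ t T) : fl L hΦ hε W₁ t T := by
  have hmem : ∀ a ∈ T.leaves, a ∈ W₁ ∧ a ∉ (Y Φ ε L hΦ hε).D W₁ W₂ t := fun a ha =>
    mem_of_square hsq ha (Finset.mem_coe.1 (h.sub ha))
  have hroot := (hmem _ T.root_mem_leaves).2
  refine ⟨fun a ha => Finset.mem_coe.2 (hmem a ha).1, h.depth, h.ext_le, ?_, fun s hs he => ?_, ?_⟩
  · refine alive_congr hΦ hε W₂.finite_toSet W₁.finite_toSet (fun _ => ?_) (fun r hr => ?_) h.alive
    · exact Finset.mem_coe.2 (hmem _ T.root_mem_leaves).1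
    · exact (stat_of_sta (sta_eq_of_not_mem_D hroot (hr.le.trans h.ext_le))).symm
  · exact h.root s hs ((FB.Sys.exp_iff (Y_transfer hΦ hε h₁ h₂) hn (hs.le.trans h.ext_le)).1 he)
  · exact (hsq.touch_stable (Y_transfer hΦ hε (rm_nonneg h₁) (rm_nonneg h₂))
      (Y_transfer hΦ hε (rm_nonneg h₁) h₁) (Y_transfer hΦ hε (rm_nonneg h₂) h₂)
      (Y_transfer hΦ hε h₁ h₂) hn).2 h.touch

/-! ### Trees which are not independent of the difference -/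

variable (L hΦ hε) in
/-- The tree `T` of `W₂` is over at the time `t`, its root was not exposed before its end, and it is
not independent of the difference between `W₁` and `W₂`. -/
structure Rel (W₁ W₂ : Finset Src) (t : ℝ) (T : CTree) : Prop where
  sub : T.leaves ⊆ (W₂ : Set Src)
  depth : T.depth ≤ L
  ext_le : ext Φ ε T ≤ t
  alive : alive Φ ε L (W₂ : Set Src) T (ext Φ ε T)
  root : ∀ s < ext Φ ε T, ¬(Y Φ ε L hΦ hε).Exp W₂ T.root s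
  rel : ¬FB.Sys.Square (Y Φ ε L hΦ hε) (rm W₁ T) (rm W₂ T) W₁ W₂ t

variable (L hΦ hε) in
open Classical in
/-- The weighted number of the trees which are not independent of the difference. -/
def relW (W₁ W₂ : Finset Src) (t : ℝ) : ℝ≥0∞ :=
  ∑' T : CTree, if Rel L hΦ hε W₁ W₂ t T then ENNReal.ofReal (1 + ‖(ln Φ ε T).2‖) else 0

theorem Rel.mono (h : Rel L hΦ hε W₁ W₂ s T) (hst : s ≤ t) : Rel L hΦ hε W₁ W₂ t T :=
  ⟨h.sub, h.depth, h.ext_le.trans hst, h.alive, h.root, fun h' => h.rel (h'.mono hst)⟩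

theorem relW_mono (hst : s ≤ t) : relW L hΦ hε W₁ W₂ s ≤ relW L hΦ hε W₁ W₂ t := by
  refine ENNReal.tsum_le_tsum fun T => ?_
  by_cases h : Rel L hΦ hε W₁ W₂ s T
  · rw [if_pos h, if_pos (h.mono hst)]
  · rw [if_neg h]; exact zero_le

/-- **The felt numbers** differ by the related trees. -/
theorem fW_le_of_not_touch (h₁ : ∀ a ∈ W₁, 0 ≤ a.1) (h₂ : ∀ a ∈ W₂, 0 ≤ a.1)
    (hn : ¬(Y Φ ε L hΦ hε).Touch W₁ W₂ t) :
    fW L hΦ hε W₂ t ≤ fW L hΦ hε W₁ t + relW L hΦ hε W₁ W₂ t := by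
  unfold fW relW
  rw [← ENNReal.tsum_add]
  refine ENNReal.tsum_le_tsum fun T => ?_
  by_cases h : fl L hΦ hε W₂ t T
  · rw [if_pos h]
    by_cases hsq : FB.Sys.Square (Y Φ ε L hΦ hε) (rm W₁ T) (rm W₂ T) W₁ W₂ t
    · rw [if_pos (fl_transfer h₁ h₂ hn hsq h)]
      exact le_self_add
    · rw [if_pos (⟨h.sub, h.depth, h.ext_le, h.alive, h.root, hsq⟩ : Rel L hΦ hε W₁ W₂ t T)]
      exact le_add_self
  · rw [if_neg h]
    exact zero_le

theorem nW_le_of_not_touch (h₁ : ∀ a ∈ W₁, 0 ≤ a.1) (h₂ : ∀ a ∈ W₂, 0 ≤ a.1)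
    (hn : ¬(Y Φ ε L hΦ hε).Touch W₁ W₂ t) :
    nW L hΦ hε W₂ t ≤ nW L hΦ hε W₁ t + relW L hΦ hε W₁ W₂ t := by
  unfold nW
  rw [eW_eq_of_not_touch h₁ h₂ hn, add_assoc]
  exact add_le_add le_rfl (fW_le_of_not_touch h₁ h₂ hn)

/-- **P2, threshold transfer.** -/
theorem hz_transfer (h₁ : ∀ a ∈ W₁, 0 ≤ a.1) (h₂ : ∀ a ∈ W₂, 0 ≤ a.1) (hη : 0 < η) (ht : 0 ≤ t)
    {σ : ℝ} (hn : ∀ s < σ, ¬(Y Φ ε L hΦ hε).Touch W₁ W₂ s)
    (hR : relW L hΦ hε W₁ W₂ t ≤ ENNReal.ofReal ((η' - η) * mu ε)) (hηη : η ≤ η')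
    (hσ : σ ≤ hz L hΦ hε η t W₁) : σ ≤ hz L hΦ hε η' t W₂ := by
  have hσt : σ ≤ t := hσ.trans (hz_le hη ht)
  refine le_hz hσt fun r hr => ?_
  have h3 : nW L hΦ hε W₁ r < ENNReal.ofReal (η * mu ε) := nW_lt_of_lt_hz hη ht (hr.trans_le hσ)
  have h4 := nW_le_of_not_touch h₁ h₂ (hn r hr)
  have h5 : relW L hΦ hε W₁ W₂ r ≤ ENNReal.ofReal ((η' - η) * mu ε) :=
    (relW_mono (hr.le.trans hσt)).trans hR
  have hμ := (GC.mu_pos hε).le
  calc nW L hΦ hε W₂ r ≤ nW L hΦ hε W₁ r + ENNReal.ofReal ((η' - η) * mu ε) :=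
        h4.trans (add_le_add le_rfl h5)
    _ < ENNReal.ofReal (η * mu ε) + ENNReal.ofReal ((η' - η) * mu ε) :=
        ENNReal.add_lt_add_right ENNReal.ofReal_ne_top h3
    _ = ENNReal.ofReal (η' * mu ε) := by
        rw [← ENNReal.ofReal_add (mul_nonneg hη.le hμ) (mul_nonneg (by linarith) hμ)]
        congr 1
        ring

/-- Independence of the three parts `A`, `B`, `T` over the base world implies the square. -/
theorem square_of_cube {α S ι : Type*} {Y : FB.Sys α S} [DecidableEq ι] {W : Finset ι → Finset α}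
    {K : Finset ι} {t : ℝ} (h : FB.Sys.Cube Y W K t) {I J : Finset ι} {k : ι} (hI : I ⊆ K)
    (hJ : J ⊆ K) (hk : k ∈ K) (hkI : k ∉ I) (hkJ : k ∉ J) :
    FB.Sys.Square Y (W I) (W J) (W (insert k I)) (W (insert k J)) t := by
  have kI := Finset.insert_subset hk hI
  have kJ := Finset.insert_subset hk hJ
  have e1 : Y.D (W I) (W (insert k I)) t = Y.D (W ∅) (W {k}) t := h.D_insert hI hk hkI
  refine ⟨fun a h1 h2 => ?_, fun a h1 s hs => ?_, fun a h1 s hs => ?_⟩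
  · rw [e1] at h2
    refine (FB.Sys.not_mem_D.2 fun s hs => ?_) h1
    refine h.eq I J hI hJ a (fun i hi hia => ?_) s hs
    have : i = k := by
      by_contra hne
      exact h.disj i hi k hk hne a hia h2
    subst this
    exact iff_of_false hkI hkJ
  · by_cases h2 : a ∈ Y.D (W ∅) (W {k}) t
    · refine h.eq _ _ kI kJ a (fun i hi hia => ?_) s hs
      have : i = k := by
        by_contra hne
        exact h.disj i hi k hk hne a hia h2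
      subst this
      simp
    · have e2 : ∀ I', I' ⊆ K → ∀ s ≤ t, Y.st (W (insert k I')) a s = Y.st (W I') a s := by
        intro I' hI' s hs
        refine h.eq _ _ (Finset.insert_subset hk hI') hI' a (fun i hi hia => ?_) s hs
        have : i ≠ k := by rintro rfl; exact h2 hia
        simp [this]
      rw [e2 I hI s hs, e2 J hJ s hs]
      exact FB.Sys.not_mem_D.1 h1 s hs
  · rw [e1] at h1
    refine h.eq _ _ hJ kJ a (fun i hi hia => ?_) s hs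
    have : i ≠ k := by rintro rfl; exact h1 hia
    simp [this]

end Vale.Agent.P119.PB
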