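import Vale.Agent.P119.PB.X
import Vale.Agent.P119.PB.Thr
import Vale.Agent.P119.TL.Inst
import Vale.Agent.P119.TL.Glue
import Vale.Agent.P119.M.Good

/-!
# P119, block PROB: a felt tree has an exhaust which touches (`helper423`)

* `sgl`: packets with one source, `touch_sgl_iff`;
* `srcs Φ ε T`: the sources of the particles of `T`; `GoodT Φ ε L U T t`: no interaction of the lines
  of `T` over `U` (`M.Good` of `helper472`); `GoodT.lgood`: the hypotheses of TREE -> LINES;
* `touch_tree_iff`: the tree `T` touches `U` iff one of its lines does;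
* `touch_of_felt`: if `T` is felt by the stopping time then one of its lines touches `U` before the
  stopping time of `U` (at a higher level).
-/

open MeasureTheory Filter Topology Set
open scoped ENNReal NNReal

noncomputable section

namespace Vale.Agent.P119.PB

open M CTree KU FB RB AU TL

variable {Φ : E3 → ℝ} {ε : ℝ} {L : ℕ} {hΦ : IsPotential Φ} {hε : 0 < ε}
  {U V W K : Finset Src} {T x : CTree} {s t η η' : ℝ}

/-! ### The worlds with some more sources -/

/-- The packets with one source. -/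
def sgl (a : Src) : Finset Src := {a}

theorem mem_wF_sgl {J : Finset Src} {a : Src} : a ∈ wF U sgl J ↔ a ∈ U ∨ a ∈ J := by
  rw [mem_wF]
  refine or_congr_right ⟨?_, fun h => ⟨a, h, Finset.mem_singleton_self a⟩⟩
  rintro ⟨b, hb, h⟩
  rw [Finset.mem_singleton.1 h]
  exact hb

theorem coe_wF_sgl {J : Finset Src} : (wF U sgl J : Set Src) = (U : Set Src) ∪ (J : Set Src) := by
  ext a
  rw [Finset.mem_coe, mem_wF_sgl]
  rfl

theorem wF_sgl_singleton {a : Src} : wF U sgl {a} = insert a U := by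
  ext b
  rw [mem_wF_sgl, Finset.mem_insert, Finset.mem_singleton, or_comm]

/-- **The sources of `J` touch `U` iff one of them does.** -/
theorem touch_sgl_iff (h : Good Φ ε L U sgl K t) {J : Finset Src} (hJ : J ⊆ K) (hs : s ≤ t) :
    (Y Φ ε L hΦ hε).Touch U (wF U sgl J) s ↔ ∃ a ∈ J, (Y Φ ε L hΦ hε).Touch U (insert a U) s := by
  have h1 := (h.mono hs).cube hΦ hε
  have h2 := h1.touch_iff (fun I J hI hJ => h.transfer hΦ hε hI hJ) hJ
  rw [wF_empty] at h2
  rw [h2]
  refine exists_congr fun a => and_congr_right fun _ => ?_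
  rw [wF_sgl_singleton]

/-! ### The lines of a tree -/

/-- The sources of the particles of `T`. -/
def srcs (Φ : E3 → ℝ) (ε : ℝ) (T : CTree) : Finset Src :=
  ((outs_finite T).image (rsrc Φ ε)).toFinset

theorem coe_srcs : (srcs Φ ε T : Set Src) = rsrc Φ ε '' outs T := by
  unfold srcs
  rw [Finite.coe_toFinset]

theorem mem_srcs {a : Src} : a ∈ srcs Φ ε T ↔ ∃ x ∈ outs T, rsrc Φ ε x = a := by
  rw [← Finset.mem_coe, coe_srcs]
  rfl

/-- The lines of `T` do not interact over `U` up to the time `t`. -/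
structure GoodT (Φ : E3 → ℝ) (ε : ℝ) (L : ℕ) (U : Finset Src) (T : CTree) (t : ℝ) : Prop where
  /-- the particles of `T` are new -/
  disj : Disjoint (U : Set Src) T.leaves
  /-- the sources are distinct -/
  inj : InjOn (rsrc Φ ε) (outs T)
  /-- no interaction -/
  good : Good Φ ε L U sgl (srcs Φ ε T) t

theorem msrc_rho (hT : ok Φ ε T) (hx : x ∈ outs T) :
    msrc Φ ε (rho Φ ε T (ext Φ ε T)) x = rsrc Φ ε x := by
  rcases hx with rfl | hx
  · rw [msrc_rho_self]
    rfl
  · exact msrc_rho_exs hT hx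

/-- The world of lines. -/
theorem coe_lnw_eq (hT : ok Φ ε T) :
    (lnw Φ ε U T (ext Φ ε T) : Set Src) = (wF U sgl (srcs Φ ε T) : Set Src) := by
  rw [coe_lnw hT, coe_wF_sgl, coe_srcs]
  unfold lwd
  congr 1
  exact image_congr fun x hx => msrc_rho hT hx

theorem lnw_eq (hT : ok Φ ε T) : lnw Φ ε U T (ext Φ ε T) = wF U sgl (srcs Φ ε T) :=
  Finset.coe_injective (coe_lnw_eq hT)

/-- The hypotheses of TREE -> LINES. -/
theorem GoodT.lgood (hΦ : IsPotential Φ) (hε : 0 < ε) (hT : ok Φ ε T) (h : GoodT Φ ε L U T t) :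
    LGood Φ ε L U T (ext Φ ε T) t := by
  have hm : ∀ x ∈ outs T, rsrc Φ ε x ∈ srcs Φ ε T := fun x hx => mem_srcs.2 ⟨x, hx, rfl⟩
  refine ⟨fun x hx x' hx' he => ?_, fun x hx => ?_, ?_⟩
  · rw [msrc_rho hT hx, msrc_rho hT hx'] at he
    exact h.inj hx hx' he
  · rw [msrc_rho hT hx]
    exact fun hU => Finset.disjoint_left.1 (h.good.disjV _ (hm x hx)) hU
      (Finset.mem_singleton_self _)
  · have : Nonempty Src := ⟨rsrc Φ ε T⟩
    refine indep_of_NI hΦ hε h.good.cubeW h.good.ni (Finset.Subset.refl _) ?_ (rsrc Φ ε)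
      (fun x hx => ?_) h.inj
    · rw [← coe_lnw hT, coe_lnw_eq hT]
    · rw [msrc_rho hT hx]
      exact h.good.idx (hm x hx) (Finset.mem_singleton_self _)

/-- **The tree `T` touches `U` iff one of its lines does.** -/
theorem touch_tree_iff (hT : TGood Φ ε L hΦ hε U T W (ext Φ ε T) t) (h : GoodT Φ ε L U T t)
    (hs : s ≤ t) : (Y Φ ε L hΦ hε).Touch U W s ↔
      ∃ x ∈ outs T, (Y Φ ε L hΦ hε).Touch U (insert (rsrc Φ ε x) U) s := by
  rw [hT.touch_base (h.lgood hΦ hε hT.ok) hs, lnw_eq hT.ok,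
    touch_sgl_iff h.good (Finset.Subset.refl _) hs]
  constructor
  · rintro ⟨a, ha, h1⟩
    obtain ⟨x, hx, rfl⟩ := mem_srcs.1 ha
    exact ⟨x, hx, h1⟩
  · rintro ⟨x, hx, h1⟩
    exact ⟨_, mem_srcs.2 ⟨x, hx, rfl⟩, h1⟩

/-- Births of the particles of a possible tree. -/
theorem birth_of_ok : ∀ {T : CTree}, ok Φ ε T → ∀ a ∈ T.leaves, 0 ≤ a.1
  | leaf _, h, a, ha => by
    have : a = _ := ha
    rw [this]
    exact h
  | node _ _, h, a, ha => by
    rcases ha with ha | ha
    · exact birth_of_ok h.1 a ha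
    · exact birth_of_ok h.2.1 a ha

/-- An inserted tree with unexposed root. -/
theorem tgood_of (h0 : ∀ a ∈ U, 0 ≤ a.1) (hd : Disjoint (U : Set Src) T.leaves)
    (hT : alive Φ ε L (addT U T : Set Src) T (ext Φ ε T)) (ht : ext Φ ε T ≤ t)
    (hE : ∀ s < ext Φ ε T, ¬(Y Φ ε L hΦ hε).Exp (addT U T) T.root s) :
    TGood Φ ε L hΦ hε U T (addT U T) (ext Φ ε T) t :=
  ⟨hd, coe_addT U T, addT_nonneg h0 (birth_of_ok (alive_pre hT).ok), hT, Or.inl rfl, hE, ht⟩

/-- **A felt tree has a line which touches** the rest of the world before its stopping time. -/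
theorem touch_of_felt (h0 : ∀ a ∈ U, 0 ≤ a.1) (h : GoodT Φ ε L U T t) (hη : 0 < η) (hηη : η ≤ η')
    (ht : 0 ≤ t) (hR : relW L hΦ hε (addT U T) U t ≤ ENNReal.ofReal ((η' - η) * mu ε))
    (hf : fl L hΦ hε (addT U T) (hz L hΦ hε η t (addT U T)) T) :
    ∃ x ∈ outs T, (Y Φ ε L hΦ hε).Touch U (insert (rsrc Φ ε x) U) (hz L hΦ hε η' t U) := by
  have hzt := hz_le (L := L) (hΦ := hΦ) (hε := hε) (W := addT U T) hη ht
  have hT : TGood Φ ε L hΦ hε U T (addT U T) (ext Φ ε T) t :=
    tgood_of h0 h.disj hf.alive (hf.ext_le.trans hzt) hf.root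
  have h1 := hf.touch
  rw [rm_addT h.disj] at h1
  obtain ⟨σ, hσ, h2, h3⟩ := h1.first
  have h4 : σ ≤ hz L hΦ hε η' t U :=
    hz_transfer hT.births h0 hη ht (fun s hs hc => h3 s hs hc.symm) hR hηη hσ
  obtain ⟨x, hx, h5⟩ := (touch_tree_iff hT h (hσ.trans hzt)).1 h2
  exact ⟨x, hx, h5.mono h4⟩

end Vale.Agent.P119.PB
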