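import Vale.Agent.P119.PB.P3
import Vale.Agent.P119.RM.Good
import Vale.Agent.P119.FB.Conc1

/-!
# P119, block PROB, P3: the exceptional term (`helper423`)

* monotonicity in time, `exF_mono`;
* `measurableSet_square`, `measurable_relW`;
* `exF_le`: the exceptional term is at most the interaction term plus the mean of `relW`.
-/

open MeasureTheory Filter Topology Set
open scoped ENNReal NNReal

noncomputable section

namespace Vale.Agent.P119.PB

open M CTree KU FB RB AU TL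

variable {Φ : E3 → ℝ} {ε : ℝ} {L : ℕ} {hΦ : IsPotential Φ} {hε : 0 < ε}
  {U K : Finset Src} {T : CTree} {s t η η' κ : ℝ} {f₀ : Ph → ℝ}

theorem GoodT.mono (h : GoodT Φ ε L U T t) (hst : s ≤ t) : GoodT Φ ε L U T s :=
  ⟨h.disj, h.inj, h.good.mono hst⟩

theorem alT.mono (h : alT Φ ε L s U T) (hst : s ≤ t) : alT Φ ε L t U T :=
  ⟨h.ok, h.depth, h.ext_le.trans hst, h.alive⟩

theorem ExF_mono (h : ExF L hΦ hε η η' s U T) (hst : s ≤ t) : ExF L hΦ hε η η' t U T := by
  rcases h with h | h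
  · exact Or.inl fun h' => h (h'.mono hst)
  · by_cases h1 : GoodT Φ ε L U T t
    · exact Or.inr ⟨⟨h1, h.1.root⟩, h.2.trans_le (relW_mono hst)⟩
    · exact Or.inl h1

theorem measurableSet_NiceT (t : ℝ) : MeasurableSet {p : CTree × GC.Conf Ph |
    NiceT L hΦ hε (wS (GC.pts p.2)) p.1 t} := by
  have h0 : MM.RS fun p : CTree × GC.Conf Ph => ((wS (GC.pts p.2) : Finset Src) : Set Src) :=
    rs_wS_tree
  have h1 := RM.measurableSet_GoodT (L := L) (t := fun _ => t) hΦ hε h0 measurable_fst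
    measurable_const
  have h2 := (RM.msys_Y hΦ hε (L := L)).measurableSet_exp_lt (rs_addT h0 measurable_fst)
    (MM.meas_root measurable_fst) ((measurable_ext hΦ hε.ne').comp measurable_fst)
  convert h1.inter h2.compl using 1
  ext p
  exact ⟨fun h => ⟨h.good, fun ⟨s, hs, he⟩ => h.root s hs he⟩,
    fun h => ⟨h.1, fun s hs he => h.2 ⟨s, hs, he⟩⟩⟩

/-- The integral over an inserted tree increases with the time. -/
theorem XX_le_XX (hst : s ≤ t) {H H' : Finset Src → CTree → ℝ≥0∞} (h : ∀ U T, H U T ≤ H' U T) :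
    XX Φ ε L f₀ s H ≤ XX Φ ε L f₀ t H' := by
  unfold XX
  refine lintegral_mono fun c => lintegral_mono fun T => ?_
  exact mul_le_mul' (ind_mono fun h' => h'.mono hst) (h _ _)

variable (L hΦ hε) in
/-- The exceptional term of P3. -/
def exF (f₀ : Ph → ℝ) (η η' t : ℝ) : ℝ≥0∞ :=
  (FL.muE ε)⁻¹ * XX Φ ε L f₀ t (fun U T => wln Φ ε T * ind (ExF L hΦ hε η η' t U T))

theorem exF_mono (hst : s ≤ t) : exF L hΦ hε f₀ η η' s ≤ exF L hΦ hε f₀ η η' t :=
  mul_le_mul_right (XX_le_XX hst fun _ _ => mul_le_mul_right (ind_mono fun h => ExF_mono h hst) _) _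

/-! ### Measurability of `relW` -/

section meas

variable {X : Type} [MeasurableSpace X] {P Q R V : X → Finset Src}

theorem mem_of_D {W₁ W₂ : Finset Src} {a : Src} {t : ℝ}
    (h : a ∈ (RB.Y Φ ε L hΦ hε).D W₁ W₂ t) : a ∈ W₁ ∨ a ∈ W₂ := by
  by_contra hcon
  rw [not_or] at hcon
  obtain ⟨s, -, h1⟩ := h
  exact h1 (sta_eq_of_notMem (by simpa using hcon.1) (by simpa using hcon.2) s)

theorem square_iff {W₁ W₂ W₃ W₄ : Finset Src} {t : ℝ} :
    FB.Sys.Square (RB.Y Φ ε L hΦ hε) W₁ W₂ W₃ W₄ t ↔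
      ∀ a ∈ ((W₁ : Set Src) ∪ (W₂ : Set Src)) ∪ ((W₃ : Set Src) ∪ (W₄ : Set Src)),
        (¬(a ∈ (RB.Y Φ ε L hΦ hε).D W₁ W₂ t ∧ a ∈ (RB.Y Φ ε L hΦ hε).D W₁ W₃ t)) ∧
        (¬(a ∉ (RB.Y Φ ε L hΦ hε).D W₁ W₂ t ∧ a ∈ (RB.Y Φ ε L hΦ hε).D W₃ W₄ t)) ∧
        ¬(a ∉ (RB.Y Φ ε L hΦ hε).D W₁ W₃ t ∧ a ∈ (RB.Y Φ ε L hΦ hε).D W₂ W₄ t) := by
  constructor
  · rintro h a -
    refine ⟨fun h1 => h.disj a h1.1 h1.2, fun h1 => ?_, fun h1 => ?_⟩
    · exact (FB.Sys.not_mem_D.2 (h.eqX a h1.1)) h1.2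
    · exact (FB.Sys.not_mem_D.2 (h.eqY a h1.1)) h1.2
  · intro h
    refine ⟨fun a h1 h2 => ?_, fun a h1 => ?_, fun a h1 => ?_⟩
    · refine (h a ?_).1 ⟨h1, h2⟩
      exact Or.inl (mem_of_D h1)
    · refine FB.Sys.not_mem_D.1 fun h2 => (h a ?_).2.1 ⟨h1, h2⟩
      exact Or.inr (mem_of_D h2)
    · refine FB.Sys.not_mem_D.1 fun h2 => (h a ?_).2.2 ⟨h1, h2⟩
      rcases mem_of_D h2 with h3 | h3
      · exact Or.inl (Or.inr h3)
      · exact Or.inr (Or.inr h3)

theorem measurableSet_square (hP : MM.RS fun x => (P x : Set Src))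
    (hQ : MM.RS fun x => (Q x : Set Src)) (hR : MM.RS fun x => (R x : Set Src))
    (hV : MM.RS fun x => (V x : Set Src)) {t : X → ℝ} (ht : Measurable t) :
    MeasurableSet {x | FB.Sys.Square (RB.Y Φ ε L hΦ hε) (P x) (Q x) (R x) (V x) (t x)} := by
  have hD : ∀ {W₁ W₂ : X → Finset Src}, MM.RS (fun x => (W₁ x : Set Src)) →
      MM.RS (fun x => (W₂ x : Set Src)) →
      MeasurableSet {p : X × Src | p.2 ∈ (RB.Y Φ ε L hΦ hε).D (W₁ p.1) (W₂ p.1) (t p.1)} :=
    fun h₁ h₂ => (RM.msys_Y hΦ hε).measurableSet_mem_D (h₁.comp measurable_fst)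
      (h₂.comp measurable_fst) measurable_snd (ht.comp measurable_fst)
  have h := (((hP.union hQ).union (hR.union hV)).measurableSet_forall
    (((hD hP hQ).inter (hD hP hR)).compl.inter
      (((hD hP hQ).compl.inter (hD hR hV)).compl.inter
        ((hD hP hR).compl.inter (hD hQ hV)).compl)))
  convert h using 1
  ext x
  exact square_iff

theorem measurable_relW {W₁ W₂ : X → Finset Src} (h₁ : MM.RS fun x => (W₁ x : Set Src))
    (h₂ : MM.RS fun x => (W₂ x : Set Src)) {t : X → ℝ} (ht : Measurable t) :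
    Measurable fun x => relW L hΦ hε (W₁ x) (W₂ x) (t x) := by
  have hm : MeasurableSet {p : X × CTree | Rel L hΦ hε (W₁ p.1) (W₂ p.1) (t p.1) p.2} := by
    have a₁ : MM.RS fun p : X × CTree => (W₁ p.1 : Set Src) := h₁.comp measurable_fst
    have a₂ : MM.RS fun p : X × CTree => (W₂ p.1 : Set Src) := h₂.comp measurable_fst
    have hT : Measurable fun p : X × CTree => p.2 := measurable_snd
    have ht' : Measurable fun p : X × CTree => t p.1 := ht.comp measurable_fst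
    have hext : Measurable fun p : X × CTree => ext Φ ε p.2 :=
      (measurable_ext hΦ hε.ne').comp measurable_snd
    have b1 : MeasurableSet {p : X × CTree | p.2.leaves ⊆ (W₂ p.1 : Set Src)} :=
      MM.measurableSet_tree_leaves_subset a₂ hT
    have b2 : MeasurableSet {p : X × CTree | p.2.depth ≤ L} :=
      (measurable_depth.comp measurable_snd) (measurableSet_Iic (a := L))
    have b3 : MeasurableSet {p : X × CTree | ext Φ ε p.2 ≤ t p.1} := measurableSet_le hext ht'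
    have b4 : MeasurableSet {p : X × CTree | M.alive Φ ε L (W₂ p.1 : Set Src) p.2
        (ext Φ ε p.2)} := MM.measurableSet_tree_alive hΦ hε a₂ hT hext
    have b5 := (measurableSet_square (hΦ := hΦ) (hε := hε) (L := L) (rs_rm a₁ hT) (rs_rm a₂ hT)
      a₁ a₂ ht').compl
    have b6 : MeasurableSet {p : X × CTree | ∃ s < ext Φ ε p.2,
        (RB.Y Φ ε L hΦ hε).Exp (W₂ p.1) p.2.root s} :=
      (RM.msys_Y hΦ hε).measurableSet_exp_lt a₂ (MM.meas_root hT) hext
    convert b1.inter (b2.inter (b3.inter (b4.inter (b6.compl.inter b5)))) using 1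
    ext p
    exact ⟨fun h => ⟨h.sub, h.depth, h.ext_le, h.alive, fun ⟨s, hs, he⟩ => h.root s hs he, h.rel⟩,
      fun h => ⟨h.1, h.2.1, h.2.2.1, h.2.2.2.1, fun s hs he => h.2.2.2.2.1 ⟨s, hs, he⟩,
        h.2.2.2.2.2⟩⟩
  have hrs : MM.RS fun x => {T | Rel L hΦ hε (W₁ x) (W₂ x) (t x) T} := by
    refine ((MM.RS.trees h₂).inter_pred hm).congr fun x => ?_
    ext T
    exact ⟨fun h => ⟨h.sub, h⟩, fun h => h.2⟩
  have hw : Measurable fun q : X × CTree => wln Φ ε q.2 :=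
    (measurable_wln hΦ hε).comp measurable_snd
  have h := hrs.measurable_tsum_indicator hw
  convert h using 2 with x
  unfold relW
  refine tsum_congr fun T => ?_
  simp only [indicator, mem_ofPred_eq]
  rfl

theorem measurable_relW_add (t : ℝ) : Measurable fun p : CTree × GC.Conf Ph =>
    relW L hΦ hε (addT (wS (GC.pts p.2)) p.1) (wS (GC.pts p.2)) t :=
  measurable_relW (rs_addT rs_wS_tree measurable_fst) rs_wS_tree measurable_const

end meas

/-- The exceptional term is bounded by the two natural terms. -/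
theorem exF_le (hη : η < η') (h : GoodDatum f₀ κ) :
    exF L hΦ hε f₀ η η' t ≤
      (FL.muE ε)⁻¹ * XX Φ ε L f₀ t (fun U T => wln Φ ε T * ind (¬GoodT Φ ε L U T t)) +
      (ENNReal.ofReal (η' - η))⁻¹ * ((FL.muE ε)⁻¹ * ((FL.muE ε)⁻¹ *
        XX Φ ε L f₀ t (fun U T => wln Φ ε T * (ind (NiceT L hΦ hε U T t) *
          relW L hΦ hε (addT U T) U t)))) := by
  have hm := measurable_relW_add (L := L) (hΦ := hΦ) (hε := hε) t
  have hμ : 0 < mu ε := GC.mu_pos hε
  have hμE : FL.muE ε = ENNReal.ofReal (mu ε) := rfl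
  have hc0 : ENNReal.ofReal ((η' - η) * mu ε) ≠ 0 :=
    (ENNReal.ofReal_pos.2 (mul_pos (by linarith) hμ)).ne'
  have hc1 : ENNReal.ofReal ((η' - η) * mu ε) ≠ ∞ := ENNReal.ofReal_ne_top
  have hci : (ENNReal.ofReal ((η' - η) * mu ε))⁻¹ =
      (ENNReal.ofReal (η' - η))⁻¹ * (FL.muE ε)⁻¹ := by
    rw [hμE, ENNReal.ofReal_mul (by linarith), ENNReal.mul_inv]
    · exact Or.inr ENNReal.ofReal_ne_top
    · exact Or.inl ENNReal.ofReal_ne_top
  have hmr : Measurable fun p : CTree × GC.Conf Ph => wln Φ ε p.1 *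
      ((ENNReal.ofReal ((η' - η) * mu ε))⁻¹ * (ind (NiceT L hΦ hε (wS (GC.pts p.2)) p.1 t) *
        relW L hΦ hε (addT (wS (GC.pts p.2)) p.1) (wS (GC.pts p.2)) t)) := by
    have h1 : Measurable fun p : CTree × GC.Conf Ph => wln Φ ε p.1 :=
      (measurable_wln hΦ hε).comp measurable_fst
    exact h1.mul (((measurable_ind (measurableSet_NiceT t)).mul hm).const_mul _)
  unfold exF
  have h2 : XX Φ ε L f₀ t (fun U T => wln Φ ε T * ind (ExF L hΦ hε η η' t U T)) ≤
      XX Φ ε L f₀ t (fun U T => wln Φ ε T * ((ENNReal.ofReal ((η' - η) * mu ε))⁻¹ *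
        (ind (NiceT L hΦ hε U T t) * relW L hΦ hε (addT U T) U t)) +
          wln Φ ε T * ind (¬GoodT Φ ε L U T t)) := by
    refine XX_mono fun U T _ => ?_
    rw [← mul_add]
    refine mul_le_mul_right ?_ _
    refine (ind_or_le _ _).trans ?_
    rw [add_comm]
    refine add_le_add ?_ le_rfl
    by_cases h3 : NiceT L hΦ hε U T t ∧
        ENNReal.ofReal ((η' - η) * mu ε) < relW L hΦ hε (addT U T) U t
    · rw [ind_of h3, ind_of h3.1, one_mul]
      calc (1 : ℝ≥0∞) = (ENNReal.ofReal ((η' - η) * mu ε))⁻¹ *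
            ENNReal.ofReal ((η' - η) * mu ε) := (ENNReal.inv_mul_cancel hc0 hc1).symm
        _ ≤ _ := mul_le_mul_right h3.2.le _
    · rw [ind_of_not h3]
      exact zero_le
  refine (mul_le_mul_right h2 _).trans ?_
  rw [XX_add hΦ hε hmr h, mul_add, add_comm]
  refine add_le_add le_rfl ?_
  have hXm : XX Φ ε L f₀ t (fun U T => wln Φ ε T * ((ENNReal.ofReal ((η' - η) * mu ε))⁻¹ *
        (ind (NiceT L hΦ hε U T t) * relW L hΦ hε (addT U T) U t))) ≤
      (ENNReal.ofReal ((η' - η) * mu ε))⁻¹ * XX Φ ε L f₀ t (fun U T => wln Φ ε T *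
        (ind (NiceT L hΦ hε U T t) * relW L hΦ hε (addT U T) U t)) := by
    have hci' : (ENNReal.ofReal ((η' - η) * mu ε))⁻¹ ≠ ∞ := ENNReal.inv_ne_top.2 hc0
    unfold XX
    rw [← lintegral_const_mul' _ _ hci']
    refine lintegral_mono fun c => ?_
    rw [← lintegral_const_mul' _ _ hci']
    refine lintegral_mono fun T => le_of_eq ?_
    ring
  refine (mul_le_mul_right hXm _).trans (le_of_eq ?_)
  rw [hci]
  ring

end Vale.Agent.P119.PB
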