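import Vale.Agent.P119.PB.Op4

/-!
# P119, block PROB: source terms of the first-order recursion, elimination of the operator
(`helper347`)
-/

open MeasureTheory Set Filter Topology Metric ProbabilityTheory
open scoped ENNReal

namespace Vale.Agent.P119.PB

open KU FL M

variable {Φ : E3 → ℝ} {ε : ℝ}

/-! ### Properties of the norm -/

theorem Y_mono {b T s : ℝ} {n : ℕ} {θ θ' : Src → ℝ≥0∞} (h : ∀ z, θ (s, z, n) ≤ θ' (s, z, n)) :
    Y b T θ s n ≤ Y b T θ' s n := lintegral_mono fun z => mul_le_mul_right (h z) _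

theorem Y_add {b T s : ℝ} {n : ℕ} {θ : Src → ℝ≥0∞} (hθ : Measurable θ) (θ' : Src → ℝ≥0∞) :
    Y b T (θ + θ') s n = Y b T θ s n + Y b T θ' s n := by
  unfold Y
  have hm : Measurable fun z : Ph => gw (bt b T s) z.2 * θ (s, z, n) :=
    ((measurable_gw _).comp measurable_snd).mul
      ((measurable_slice hθ n).comp measurable_prodMk_left)
  rw [← lintegral_add_left hm]
  refine lintegral_congr fun z => ?_
  rw [Pi.add_apply, mul_add]

theorem Nm_mono {b T l₁ l₂ t : ℝ} {a : ℕ → ℝ} {θ θ' : Src → ℝ≥0∞}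
    (h : ∀ σ : Src, σ.1 ∈ Icc 0 t → θ σ ≤ θ' σ) : Nm b T l₁ l₂ a t θ ≤ Nm b T l₁ l₂ a t θ' :=
  Nm_le fun s hs n => (mul_le_mul_right (Y_mono fun z => h (s, z, n) hs) _).trans
    (le_Nm hs n θ')

theorem Nm_add_le {b T l₁ l₂ t : ℝ} {a : ℕ → ℝ} {θ : Src → ℝ≥0∞} (hθ : Measurable θ)
    (θ' : Src → ℝ≥0∞) :
    Nm b T l₁ l₂ a t (θ + θ') ≤ Nm b T l₁ l₂ a t θ + Nm b T l₁ l₂ a t θ' := by
  refine Nm_le fun s hs n => ?_
  rw [Y_add hθ, mul_add]
  exact add_le_add (le_Nm hs n θ) (le_Nm hs n θ')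

theorem Nm_mono_time {b T l₁ l₂ t t' : ℝ} {a : ℕ → ℝ} (h : t ≤ t') (θ : Src → ℝ≥0∞) :
    Nm b T l₁ l₂ a t θ ≤ Nm b T l₁ l₂ a t' θ :=
  Nm_le fun _ hs n => le_Nm ⟨hs.1, hs.2.trans h⟩ n θ

/-- A bound of the norm from bounds of the spatial integrals. -/
theorem Nm_le_of_Y {b T l₁ l₂ t B : ℝ} {a : ℕ → ℝ} {θ : Src → ℝ≥0∞} {x : ℝ≥0∞}
    (hB : ∀ s ∈ Icc 0 t, ∀ n, wgt l₁ l₂ a s n ≤ B)
    (h : ∀ s ∈ Icc 0 t, ∀ n : ℕ, Y b T θ s n ≤ x) :
    Nm b T l₁ l₂ a t θ ≤ ENNReal.ofReal B * x :=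
  Nm_le fun s hs n => mul_le_mul' (ENNReal.ofReal_le_ofReal (hB s hs n)) (h s hs n)

/-- The weights are bounded. -/
theorem exists_wgt_le {α a : ℕ → ℝ} {Q l₁ l₂ T : ℝ} (hw : Wts α a Q) (h₁ : 0 ≤ l₁)
    (h₂ : 0 ≤ l₂) : ∃ B : ℝ, 0 < B ∧ ∀ s ∈ Icc 0 T, ∀ n, wgt l₁ l₂ a s n ≤ B := by
  obtain ⟨B, hB⟩ := hw.w3 (l₁ * T)
  have hB0 : 0 < B := lt_of_lt_of_le (mul_pos (hw.apos 0) (Real.exp_pos _)) (hB 0)
  refine ⟨B * Real.exp (l₂ * T), by positivity, fun s hs n => ?_⟩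
  unfold wgt
  have h3 : Real.exp ((l₁ * n + l₂) * s) ≤ Real.exp (l₁ * T * n) * Real.exp (l₂ * T) := by
    rw [← Real.exp_add]
    apply Real.exp_le_exp.2
    calc (l₁ * n + l₂) * s ≤ (l₁ * n + l₂) * T := by
          have := hs.2
          gcongr
      _ = _ := by ring
  calc a n * Real.exp ((l₁ * n + l₂) * s)
      ≤ a n * (Real.exp (l₁ * T * n) * Real.exp (l₂ * T)) :=
        mul_le_mul_of_nonneg_left h3 (hw.apos n).le
    _ = a n * Real.exp (l₁ * T * n) * Real.exp (l₂ * T) := by ring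
    _ ≤ _ := mul_le_mul_of_nonneg_right (hB n) (Real.exp_nonneg _)

/-! ### Elimination of the operator, through a finite number of stopping levels -/

/-- If `θ i ≤ A i + K θ (i+1)` and `K` is a contraction with factor `1/2`, then
`‖θ 0‖ ≤ 2 sup ‖A i‖ + 2^{-n} ‖θ n‖`. -/
theorem Nm_levels {b T l₁ l₂ t : ℝ} {a : ℕ → ℝ} {α : ℕ → ℝ≥0∞}
    (hK : ∀ θ : Src → ℝ≥0∞, Measurable θ → Nm b T l₁ l₂ a t (KOp Φ ε b t α θ) ≤
      2⁻¹ * Nm b T l₁ l₂ a t θ)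
    (θ A : ℕ → Src → ℝ≥0∞) (hθ : ∀ i, Measurable (θ i)) (hA : ∀ i, Measurable (A i)) (n : ℕ)
    (h : ∀ i < n, ∀ σ : Src, σ.1 ∈ Icc 0 t → θ i σ ≤ A i σ + KOp Φ ε b t α (θ (i + 1)) σ)
    {x : ℝ≥0∞} (hx : ∀ i < n, Nm b T l₁ l₂ a t (A i) ≤ x) :
    Nm b T l₁ l₂ a t (θ 0) ≤ 2 * x + 2⁻¹ ^ n * Nm b T l₁ l₂ a t (θ n) := by
  have key : ∀ k ≤ n, Nm b T l₁ l₂ a t (θ 0) ≤
      (∑ i ∈ Finset.range k, 2⁻¹ ^ i) * x + 2⁻¹ ^ k * Nm b T l₁ l₂ a t (θ k) := by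
    intro k
    induction k with
    | zero => intro _; simp
    | succ k ih =>
      intro hk
      have h1 : Nm b T l₁ l₂ a t (θ k) ≤ x + 2⁻¹ * Nm b T l₁ l₂ a t (θ (k + 1)) := by
        calc Nm b T l₁ l₂ a t (θ k)
            ≤ Nm b T l₁ l₂ a t (A k + KOp Φ ε b t α (θ (k + 1))) :=
              Nm_mono fun σ hσ => h k hk σ hσ
          _ ≤ Nm b T l₁ l₂ a t (A k) + Nm b T l₁ l₂ a t (KOp Φ ε b t α (θ (k + 1))) :=
              Nm_add_le (hA k) _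
          _ ≤ _ := add_le_add (hx k hk) (hK _ (hθ (k + 1)))
      calc Nm b T l₁ l₂ a t (θ 0)
          ≤ (∑ i ∈ Finset.range k, 2⁻¹ ^ i) * x + 2⁻¹ ^ k * Nm b T l₁ l₂ a t (θ k) :=
            ih (Nat.le_of_succ_le hk)
        _ ≤ (∑ i ∈ Finset.range k, 2⁻¹ ^ i) * x +
            2⁻¹ ^ k * (x + 2⁻¹ * Nm b T l₁ l₂ a t (θ (k + 1))) := by gcongr
        _ = _ := by rw [Finset.sum_range_succ, pow_succ]; ring
  refine (key n le_rfl).trans ?_
  have h2 : (∑ i ∈ Finset.range n, (2⁻¹ : ℝ≥0∞) ^ i) ≤ 2 := by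
    calc (∑ i ∈ Finset.range n, (2⁻¹ : ℝ≥0∞) ^ i) ≤ ∑' i : ℕ, (2⁻¹ : ℝ≥0∞) ^ i :=
          ENNReal.sum_le_tsum _
      _ = 2 := by rw [ENNReal.tsum_geometric, ENNReal.one_sub_inv_two, inv_inv]
  gcongr

/-! ### Hits of a Gaussian line on a family of lines -/

variable {X : Type*} [MeasurableSpace X]

/-- `G(hitting time, x)` when the line `z` hits the line `ℓ x` in the time interval `(s, t]`. -/
noncomputable def hitG (ε s t : ℝ) (ℓ : X → Ph) (G : ℝ × X → ℝ≥0∞) (z : Ph) (x : X) : ℝ≥0∞ :=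
  ({x : X | Meets ε (z, ℓ x) ∧ hitT ε (z, ℓ x) ∈ Ioc s t}).indicator
    (fun x => G (hitT ε (z, ℓ x), x)) x

/-- The expected value, over a measure `ν` on `X`, of `G(hitting time, x)` when the source `σ` hits
the line `ℓ x`. -/
noncomputable def hitOn (ε t : ℝ) (ν : Measure X) (ℓ : X → Ph) (G : ℝ × X → ℝ≥0∞) (σ : Src) :
    ℝ≥0∞ :=
  muE ε * ∫⁻ x, hitG ε σ.1 t ℓ G σ.2.1 x ∂ν

theorem measurable_hitG {ℓ : X → Ph} (hℓ : Measurable ℓ) {G : ℝ × X → ℝ≥0∞}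
    (hG : Measurable G) (t : ℝ) : Measurable fun q : (ℝ × Ph) × X =>
      hitG ε q.1.1 t ℓ G q.1.2 q.2 := by
  have hq : Measurable fun q : (ℝ × Ph) × X => ((q.1.2, ℓ q.2) : Ph × Ph) :=
    (measurable_snd.comp measurable_fst).prodMk (hℓ.comp measurable_snd)
  have hh : Measurable fun q : (ℝ × Ph) × X => hitT ε (q.1.2, ℓ q.2) := measurable_hitT.comp hq
  have hS : MeasurableSet {q : (ℝ × Ph) × X | Meets ε (q.1.2, ℓ q.2) ∧
      hitT ε (q.1.2, ℓ q.2) ∈ Ioc q.1.1 t} :=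
    (hq measurableSet_meets).inter
      ((measurableSet_lt (measurable_fst.comp measurable_fst) hh).inter
        (measurableSet_le hh measurable_const))
  have hGm : Measurable fun q : (ℝ × Ph) × X => G (hitT ε (q.1.2, ℓ q.2), q.2) :=
    hG.comp (hh.prodMk measurable_snd)
  exact hGm.indicator hS

theorem measurable_hitOn {ν : Measure X} [SFinite ν] {ℓ : X → Ph} (hℓ : Measurable ℓ)
    {G : ℝ × X → ℝ≥0∞} (hG : Measurable G) (t : ℝ) : Measurable (hitOn ε t ν ℓ G) := by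
  have h1 : Measurable fun p : ℝ × Ph => ∫⁻ x, hitG ε p.1 t ℓ G p.2 x ∂ν :=
    (measurable_hitG hℓ hG t).lintegral_prod_right'
  have h2 : Measurable fun σ : Src => ((σ.1, σ.2.1) : ℝ × Ph) :=
    measurable_fst.prodMk (measurable_fst.comp measurable_snd)
  exact (h1.comp h2).const_mul _

/-- The flux through a line, for a Gaussian source. -/
theorem lintegral_hitG_le (hε : 0 < ε) {b β s t : ℝ} (hb : 0 < b) (hβ : b ≤ β) {ℓ : X → Ph}
    {G : ℝ × X → ℝ≥0∞} (hG : Measurable G) (x : X) :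
    ∫⁻ z : Ph, gw β z.2 * hitG ε s t ℓ G z x ≤
      ENNReal.ofReal (ε ^ 2) * (ENNReal.ofReal Real.pi * I0 b) *
        (ENNReal.ofReal (1 + ‖(ℓ x).2‖) * ∫⁻ τ in Ioc s t, G (τ, x)) := by
  have hgx : Measurable ((Ioc s t).indicator fun τ => G (τ, x)) :=
    (hG.comp measurable_prodMk_right).indicator measurableSet_Ioc
  have hfl := flux_inner (fluxTime_hitT hε) hb hβ (ℓ x) hgx
  rw [lintegral_indicator measurableSet_Ioc] at hfl
  refine le_trans ?_ hfl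
  have hm : MeasurableSet {l' : Ph | Meets ε (ℓ x, l')} := measurable_prodMk_left measurableSet_meets
  rw [← lintegral_indicator hm]
  refine lintegral_mono fun z => ?_
  unfold hitG
  by_cases hz : Meets ε (z, ℓ x)
  · have hz' : Meets ε (ℓ x, z) := (meets_swap (ℓ x, z)).1 hz
    have hT' : hitT ε (ℓ x, z) = hitT ε (z, ℓ x) := (hitT_swap (ℓ x, z)).symm
    rw [indicator_of_mem (show z ∈ {l' : Ph | Meets ε (ℓ x, l')} from hz')]
    refine mul_le_mul_right ?_ _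
    rw [hT']
    by_cases ht : hitT ε (z, ℓ x) ∈ Ioc s t
    · rw [indicator_of_mem ht, indicator_of_mem (show x ∈ {x : X | Meets ε (z, ℓ x) ∧
        hitT ε (z, ℓ x) ∈ Ioc s t} from ⟨hz, ht⟩)]
    · rw [indicator_of_notMem (show x ∉ {x : X | Meets ε (z, ℓ x) ∧
        hitT ε (z, ℓ x) ∈ Ioc s t} from fun h => ht h.2)]
      exact zero_le
  · rw [indicator_of_notMem (show x ∉ {x : X | Meets ε (z, ℓ x) ∧
        hitT ε (z, ℓ x) ∈ Ioc s t} from fun h => hz h.1), mul_zero]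
    exact zero_le

attribute [local irreducible] hitG

/-- The spatial integral of `hitOn`. -/
theorem Y_hitOn_le (hε : 0 < ε) {b T s t : ℝ} (hb : 0 < b) (hT : 0 < T) (hsT : s ≤ T)
    {ν : Measure X} [SFinite ν] {ℓ : X → Ph} (hℓ : Measurable ℓ)
    {G : ℝ × X → ℝ≥0∞} (hG : Measurable G) (n : ℕ) :
    Y b T (hitOn ε t ν ℓ G) s n ≤ ENNReal.ofReal Real.pi * I0 (b / 2) *
      ∫⁻ x, (ENNReal.ofReal (1 + ‖(ℓ x).2‖) * (∫⁻ τ in Ioc s t, G (τ, x))) ∂ν := by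
  have hb2 : 0 < b / 2 := by positivity
  have hβ := le_bt hb hT hsT
  have hsz : Measurable fun z : Ph => ((s, z) : ℝ × Ph) := measurable_prodMk_left
  have hin : Measurable fun q : Ph × X => hitG ε s t ℓ G q.1 q.2 :=
    (measurable_hitG (ε := ε) hℓ hG t).comp
      ((hsz.comp measurable_fst).prodMk measurable_snd)
  have hgz : Measurable fun z : Ph => gw (bt b T s) z.2 := (measurable_gw _).comp measurable_snd
  have hprod : Measurable fun q : Ph × X => gw (bt b T s) q.1.2 * hitG ε s t ℓ G q.1 q.2 :=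
    (hgz.comp measurable_fst).mul hin
  have h2 : ∀ z : Ph, gw (bt b T s) z.2 * hitOn ε t ν ℓ G (s, z, n) =
      muE ε * ∫⁻ x, (gw (bt b T s) z.2 * hitG ε s t ℓ G z x) ∂ν := by
    intro z
    have hzx : Measurable fun x : X => ((z, x) : Ph × X) := measurable_prodMk_left
    have h3 : Measurable fun x : X => hitG ε s t ℓ G z x := hin.comp hzx
    rw [lintegral_const_mul _ h3]
    change gw (bt b T s) z.2 * (muE ε * _) = _
    ring
  have h1 : Y b T (hitOn ε t ν ℓ G) s n =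
      muE ε * ∫⁻ x, (∫⁻ z : Ph, gw (bt b T s) z.2 * hitG ε s t ℓ G z x) ∂ν := by
    rw [← lintegral_lintegral_swap hprod.aemeasurable]
    unfold Y
    rw [lintegral_congr h2, lintegral_const_mul _ hprod.lintegral_prod_right']
  rw [h1]
  calc muE ε * ∫⁻ x, (∫⁻ z : Ph, gw (bt b T s) z.2 * hitG ε s t ℓ G z x) ∂ν
      ≤ muE ε * ∫⁻ x, (ENNReal.ofReal (ε ^ 2) * (ENNReal.ofReal Real.pi * I0 (b / 2)) *
        (ENNReal.ofReal (1 + ‖(ℓ x).2‖) * (∫⁻ τ in Ioc s t, G (τ, x)))) ∂ν := by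
        gcongr with x
        exact lintegral_hitG_le hε hb2 hβ hG x
    _ = _ := by
        have hGi : Measurable fun x : X => (∫⁻ τ in Ioc s t, G (τ, x)) :=
          (hG.comp measurable_swap).lintegral_prod_right'
        have hv : Measurable fun x : X => ENNReal.ofReal (1 + ‖(ℓ x).2‖) :=
          (((hℓ.snd).norm.const_add 1)).ennreal_ofReal
        have hvG : Measurable fun x : X => ENNReal.ofReal (1 + ‖(ℓ x).2‖) *
            (∫⁻ τ in Ioc s t, G (τ, x)) := hv.mul hGi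
        rw [lintegral_const_mul _ hvG, ← mul_assoc, ← mul_assoc, muE_mul hε, one_mul]

/-- The norm of `hitOn`. -/
theorem Nm_hitOn_le (hε : 0 < ε) {b T t l₁ l₂ B : ℝ} {a : ℕ → ℝ} (hb : 0 < b) (hT : 0 < T)
    (htT : t ≤ T) (hB : ∀ s ∈ Icc 0 t, ∀ n, wgt l₁ l₂ a s n ≤ B)
    {ν : Measure X} [SFinite ν] {ℓ : X → Ph} (hℓ : Measurable ℓ)
    {G : ℝ × X → ℝ≥0∞} (hG : Measurable G) :
    Nm b T l₁ l₂ a t (hitOn ε t ν ℓ G) ≤ ENNReal.ofReal B * (ENNReal.ofReal Real.pi * I0 (b / 2) *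
      ∫⁻ x, (ENNReal.ofReal (1 + ‖(ℓ x).2‖) * (∫⁻ τ in Ioc 0 t, G (τ, x))) ∂ν) := by
  refine Nm_le_of_Y hB fun s hs n => ?_
  refine (Y_hitOn_le hε hb hT (hs.2.trans htT) hℓ hG n).trans ?_
  refine mul_le_mul_right (lintegral_mono fun x => mul_le_mul_right ?_ _) _
  exact lintegral_mono_set (Ioc_subset_Ioc_left hs.1)

end Vale.Agent.P119.PB
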