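import Vale.Agent.P119.PB.ExhOp
import Vale.Agent.P119.PB.Op5
import Vale.Agent.P119.RM.Src
import Vale.Agent.P119.FB.Conc1

/-!
# P119, block PROB: the reference measure and the norm (`helper423`)

* `birth_le_of_touch`: a source touches after its birth only; `theta_eq_zero`;
* `lintegral_refM_le_Nm`: the integral of `θ` with respect to the reference measure `refM` of
  `helper776` is at most a constant times the norm `Nm` of `helper347`.
-/

open MeasureTheory Filter Topology Set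
open scoped ENNReal NNReal

noncomputable section

namespace Vale.Agent.P119.PB

open M CTree KU FB RB AU

variable {Φ : E3 → ℝ} {ε : ℝ} {L : ℕ} {hΦ : IsPotential Φ} {hε : 0 < ε}

/-- **A source touches after its birth only.** -/
theorem birth_le_of_touch {U : Finset Src} {l : Src} {s : ℝ}
    (h : (RB.Y Φ ε L hΦ hε).Touch U (insert l U) s) : l.1 ≤ s := by
  classical
  by_cases hl : l ∈ U
  · rw [Finset.insert_eq_of_mem hl] at h
    obtain ⟨a, ha, -⟩ := h
    rw [FB.Sys.D_self] at ha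
    exact absurd ha (notMem_empty a)
  by_contra hcon
  rw [not_le] at hcon
  have hD : (RB.Y Φ ε L hΦ hε).Dlt U (insert l U) l.1 ⊆ {l} := by
    refine dlt_subset_single hl fun r hr b hb => ?_
    exact absurd (hb.birth_le hΦ hε).1 (not_le.2 hr)
  obtain ⟨a, ha, hE⟩ := h
  have hal : a = l := hD ⟨s, hcon, ha⟩
  subst hal
  rcases hE with hE | hE
  · exact hl hE.mem
  · exact absurd (exp_birth_le hE) (not_le.2 hcon)

theorem theta_eq_zero {f₀ : Ph → ℝ} {η t w : ℝ} (hη : 0 < η) (ht : 0 ≤ t) {σ : Src}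
    (hσ : t < σ.1) : theta L hΦ hε f₀ η t w σ = 0 := by
  unfold theta
  have h : ∀ c : GC.Conf Ph, ind (TT L hΦ hε η t w (wS (GC.pts c)) σ) = 0 := by
    intro c
    unfold ind
    rw [if_neg]
    intro hT
    have h1 := birth_le_of_touch hT
    have h2 := hz_le (L := L) (hΦ := hΦ) (hε := hε) (W := wS (GC.pts c)) hη ht
    exact absurd ((h1.trans (min_le_left _ _)).trans h2) (not_le.2 hσ)
  simp only [h, lintegral_zero]

/-! ### The reference measure -/

theorem wgt_ge {l₁ l₂ s : ℝ} {a : ℕ → ℝ} (ha : ∀ n, 0 < a n) (h₁ : 0 ≤ l₁) (h₂ : 0 ≤ l₂)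
    (hs : 0 ≤ s) (n : ℕ) : a n ≤ wgt l₁ l₂ a s n := by
  unfold wgt
  have h3 : 0 ≤ (l₁ * n + l₂) * s := by positivity
  have h4 := Real.one_le_exp h3
  have h5 := ha n
  nlinarith

/-- **The reference measure and the norm.** -/
theorem lintegral_refM_le_Nm {b β T l₁ l₂ t : ℝ} {a : ℕ → ℝ} {κ : Measure ℕ} [SFinite κ]
    (hb : 0 < b) (hT : 0 < T) (hβ : b ≤ β) (ha : ∀ n, 0 < a n) (h₁ : 0 ≤ l₁) (h₂ : 0 ≤ l₂)
    {T' : ℝ} (hT' : 0 ≤ T') {θ : Src → ℝ≥0∞} (hθ : Measurable θ)
    (h0 : ∀ σ : Src, t < σ.1 → θ σ = 0) :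
    ∫⁻ σ, θ σ ∂(EX.refM β T' κ) ≤ ENNReal.ofReal (1 + T') *
      (∫⁻ n, ENNReal.ofReal (1 / a n) ∂κ) * Nm b T l₁ l₂ a t θ := by
  have hm : ∀ s n, Measurable fun z : Ph => gw β z.2 * θ (s, z, n) := fun s n =>
    ((measurable_gw β).comp measurable_snd).mul
      (hθ.comp (measurable_const.prodMk (measurable_id.prodMk measurable_const)))
  rw [EX.lintegral_refM β T' κ hθ]
  have key : ∀ s ∈ Icc 0 T', (∫⁻ z : Ph, gw β z.2 * ∫⁻ n, θ (s, z, n) ∂κ) ≤
      (∫⁻ n, ENNReal.ofReal (1 / a n) ∂κ) * Nm b T l₁ l₂ a t θ := by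
    intro s hs
    have e1 : (∫⁻ z : Ph, gw β z.2 * ∫⁻ n, θ (s, z, n) ∂κ) =
        ∫⁻ z : Ph, ∫⁻ n, gw β z.2 * θ (s, z, n) ∂κ := by
      refine lintegral_congr fun z => ?_
      exact (lintegral_const_mul _ (hθ.comp (measurable_const.prodMk
        (measurable_const.prodMk measurable_id)))).symm
    have hsw : Measurable fun p : Ph × ℕ => gw β p.1.2 * θ (s, p.1, p.2) :=
      ((measurable_gw β).comp (measurable_snd.comp measurable_fst)).mul
        (hθ.comp (measurable_const.prodMk measurable_id))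
    rw [e1, lintegral_lintegral_swap hsw.aemeasurable,
      ← lintegral_mul_const _ (measurable_of_countable _)]
    refine lintegral_mono fun n => ?_
    by_cases hst : s ≤ t
    · calc ∫⁻ z : Ph, gw β z.2 * θ (s, z, n) ≤ Y b T θ s n := by
            unfold Y
            refine lintegral_mono fun z => ?_
            exact mul_le_mul_left (gw_anti ((bt_le hb hT hs.1).trans hβ) z.2) _
        _ ≤ ENNReal.ofReal (1 / wgt l₁ l₂ a s n) * Nm b T l₁ l₂ a t θ :=
            Y_le_Nm ha ⟨hs.1, hst⟩ n θ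
        _ ≤ ENNReal.ofReal (1 / a n) * Nm b T l₁ l₂ a t θ := by
            refine mul_le_mul_left (ENNReal.ofReal_le_ofReal ?_) _
            exact one_div_le_one_div_of_le (ha n) (wgt_ge ha h₁ h₂ hs.1 n)
    · have e2 : ∫⁻ z : Ph, gw β z.2 * θ (s, z, n) = 0 := by
        have h3 : ∀ z : Ph, gw β z.2 * θ (s, z, n) = 0 := fun z => by
          rw [h0 (s, z, n) (not_le.1 hst), mul_zero]
        simp only [h3, lintegral_zero]
      rw [e2]
      exact zero_le
  calc ∫⁻ s, (∫⁻ z : Ph, gw β z.2 * ∫⁻ n, θ (s, z, n) ∂κ) ∂(EX.tm T')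
      ≤ ∫⁻ _, (∫⁻ n, ENNReal.ofReal (1 / a n) ∂κ) * Nm b T l₁ l₂ a t θ ∂(EX.tm T') :=
        lintegral_mono_ae ((EX.ae_tm hT').mono fun s hs => key s hs)
    _ = _ := by
        rw [lintegral_const, EX.tm_univ hT']
        ring

end Vale.Agent.P119.PB
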