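import Vale.Agent.P119.PB.Exh4
import Vale.Agent.P119.PB.P3b
import Vale.Agent.P119.PB.RefNm
import Vale.Agent.P119.PB.Int5
import Vale.Agent.P119.AU.Mono

/-!
# P119, block PROB, P3: the field `p3` of `AU.RawSys` (`helper423`)

* `CapH`: the law of the root sources of the alive trees (CAP0), in the form used by P3;
  `CapH.of_typI`: the same from the form of `helper336`;
* `crude_als`: the crude bound, in the form of `EX.exh_XX`;
* `bad1_subset_I1`;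
* `ExcE1`, `ExcE2`: the two exceptional terms (IND, REL);
* `dF_le_dTh`: **the inequality P3**.
-/

open MeasureTheory Filter Topology Set
open scoped ENNReal NNReal

noncomputable section

namespace Vale.Agent.P119.PB

open M CTree KU FB RB AU EX

variable {Φ : E3 → ℝ} {ε : ℝ} {L : ℕ} {hΦ : IsPotential Φ} {hε : 0 < ε}
  {s t w η η' κ : ℝ} {f₀ : Ph → ℝ}

/-! ### The law of the root sources -/

/-- The law of the root sources of the alive trees: a typical part with the depth law `m`, and an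
atypical part which vanishes as `ε → 0`. -/
def CapH (Φ : E3 → ℝ) (f₀ : Ph → ℝ) (L : ℕ) (T b : ℝ) (m : ℕ → ℝ) : Prop :=
  ∃ aty : ℝ → GC.Conf Ph → Measure Src,
    (∀ ε, 0 < ε → ∀ c, SFinite (aty ε c)) ∧
    (∀ ε, 0 < ε → ∀ q : ℕ, Measurable fun c => ∫⁻ σ, vp q σ ∂(aty ε c)) ∧
    (∀ ε, 0 < ε → ∀ᵐ c ∂(GC.PP f₀ ε), ∀ F : Src → ℝ≥0∞, Measurable F →
      ∫⁻ S in Als Φ ε L T (wS (GC.pts c)), F (rsrc Φ ε S) ∂(tree (GC.inten f₀ ε) L) ≤
        FL.muE ε * (∫⁻ σ, F σ ∂(refM b T (dmeas m)) + ∫⁻ σ, F σ ∂(aty ε c))) ∧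
    ∀ q : ℕ, Tendsto (fun ε => ∫⁻ c, ∫⁻ σ, vp q σ ∂(aty ε c) ∂(GC.PP f₀ ε)) (𝓝[>] 0) (𝓝 0)

theorem lintegral_tm {T : ℝ} {f : ℝ → ℝ≥0∞} (hf : Measurable f) :
    ∫⁻ s, f s ∂(tm T) = f 0 + ∫⁻ s in Icc 0 T, f s := by
  unfold tm
  rw [lintegral_add_measure, lintegral_dirac' _ hf]

theorem lintegral_cL {L : ℕ} (f : ℕ → ℝ≥0∞) :
    ∫⁻ n, f n ∂(cL L) = ∑ d ∈ Finset.range (L + 1), f d := by
  unfold cL
  rw [lintegral_finsetSum_measure]
  exact Finset.sum_congr rfl fun d _ => lintegral_dirac _ _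

theorem measurable_innerF {β : ℝ} {F : Src → ℝ≥0∞} (hF : Measurable F) (d : ℕ) :
    Measurable fun s : ℝ => ∫⁻ z : Ph, gw β z.2 * F (s, z, d) := by
  have h : Measurable fun p : ℝ × Ph => gw β p.2.2 * F (p.1, p.2, d) :=
    ((measurable_gw β).comp (measurable_snd.comp measurable_snd)).mul
      (hF.comp (measurable_fst.prodMk (measurable_snd.prodMk measurable_const)))
  exact h.lintegral_prod_right'

theorem meas_gwF {β : ℝ} {F : Src → ℝ≥0∞} (hF : Measurable F) (s : ℝ) (d : ℕ) :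
    Measurable fun z : Ph => gw β z.2 * F (s, z, d) :=
  ((measurable_gw β).comp measurable_snd).mul
    (hF.comp (measurable_const.prodMk (measurable_id.prodMk measurable_const)))

/-- The reference measure with the crude depth law. -/
theorem lintegral_refM_cL {β T : ℝ} {L : ℕ} {F : Src → ℝ≥0∞} (hF : Measurable F) :
    ∫⁻ σ, F σ ∂(refM β T (cL L)) = ∑ d ∈ Finset.range (L + 1),
      ((∫⁻ z : Ph, gw β z.2 * F (0, z, d)) +
        ∫⁻ s in Icc 0 T, ∫⁻ z : Ph, gw β z.2 * F (s, z, d)) := by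
  rw [lintegral_refM _ _ _ hF]
  have e : ∀ s, (∫⁻ z : Ph, gw β z.2 * ∫⁻ n, F (s, z, n) ∂(cL L)) =
      ∑ d ∈ Finset.range (L + 1), ∫⁻ z : Ph, gw β z.2 * F (s, z, d) := by
    intro s
    rw [← lintegral_finsetSum _ fun d _ => meas_gwF hF s d]
    refine lintegral_congr fun z => ?_
    rw [lintegral_cL, Finset.mul_sum]
  simp_rw [e]
  rw [lintegral_finsetSum _ fun d _ => measurable_innerF hF d]
  exact Finset.sum_congr rfl fun d _ => lintegral_tm (measurable_innerF hF d)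

/-- The reference measure with the depth law `m`. -/
theorem lintegral_refM_dmeas {β T : ℝ} {m : ℕ → ℝ} {F : Src → ℝ≥0∞} (hF : Measurable F) :
    ∫⁻ σ, F σ ∂(refM β T (dmeas m)) = ∑' d, ENNReal.ofReal (m d) *
      ((∫⁻ z : Ph, gw β z.2 * F (0, z, d)) +
        ∫⁻ s in Icc 0 T, ∫⁻ z : Ph, gw β z.2 * F (s, z, d)) := by
  rw [lintegral_refM _ _ _ hF]
  have e : ∀ s, (∫⁻ z : Ph, gw β z.2 * ∫⁻ n, F (s, z, n) ∂(dmeas m)) =
      ∑' d, ENNReal.ofReal (m d) * ∫⁻ z : Ph, gw β z.2 * F (s, z, d) := by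
    intro s
    have h1 : ∀ d, ENNReal.ofReal (m d) * ∫⁻ z : Ph, gw β z.2 * F (s, z, d) =
        ∫⁻ z : Ph, ENNReal.ofReal (m d) * (gw β z.2 * F (s, z, d)) := fun d =>
      (lintegral_const_mul _ (meas_gwF hF s d)).symm
    simp_rw [h1]
    rw [← lintegral_tsum fun d => ((meas_gwF hF s d).const_mul _).aemeasurable]
    refine lintegral_congr fun z => ?_
    rw [lintegral_dmeas, ← ENNReal.tsum_mul_left]
    refine tsum_congr fun d => ?_
    ring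
  simp_rw [e]
  rw [lintegral_tsum fun d => ((measurable_innerF hF d).const_mul _).aemeasurable]
  refine tsum_congr fun d => ?_
  rw [lintegral_const_mul _ (measurable_innerF hF d), lintegral_tm (measurable_innerF hF d)]

theorem als_eq (c : GC.Conf Ph) : Als Φ ε L t (wS (GC.pts c)) =
    Cap.AL Φ ε L t (GC.pts c : Set Ph) := by
  ext T
  exact alT_iff

/-- `CapH` from the form used by `helper336` in `theta_le`. -/
theorem CapH.of_typI {T b : ℝ} {m : ℕ → ℝ} {aty : ℝ → GC.Conf Ph → Measure Src}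
    (h1 : ∀ ε, 0 < ε → ∀ c, SFinite (aty ε c))
    (h2 : ∀ ε, 0 < ε → ∀ q : ℕ, Measurable fun c => ∫⁻ σ, vp q σ ∂(aty ε c))
    (h3 : ∀ ε, 0 < ε → ∀ᵐ c ∂(GC.PP f₀ ε), ∀ F : Src → ℝ≥0∞, Measurable F →
      ∫⁻ S in Cap.AL Φ ε L T (GC.pts c : Set Ph), F (rsrc Φ ε S) ∂(tree (GC.inten f₀ ε) L) ≤
        FL.muE ε * (typI b T (fun d => ENNReal.ofReal (m d)) F + ∫⁻ σ, F σ ∂(aty ε c)))
    (h4 : ∀ q : ℕ, Tendsto (fun ε => ∫⁻ c, ∫⁻ σ, vp q σ ∂(aty ε c) ∂(GC.PP f₀ ε))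
      (𝓝[>] 0) (𝓝 0)) : CapH Φ f₀ L T b m := by
  refine ⟨aty, h1, h2, fun ε hε => ?_, h4⟩
  filter_upwards [h3 ε hε] with c hc F hF
  rw [als_eq, lintegral_refM_dmeas hF]
  exact hc F hF

/-- **The crude bound**, in the form of `exh_XX`. -/
theorem crude_als (hΦ : IsPotential Φ) {b₀ b T M₀ : ℝ} (hg : GoodDatum f₀ κ) (hb₀ : 0 < b₀)
    (hb : b ≤ b₀) (hT : 0 ≤ T) (hM : 0 ≤ M₀)
    (hf : ∀ z, f₀ z ≤ M₀ * Real.exp (-b₀ * ‖z.2‖ ^ 2)) (L : ℕ) :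
    ∃ C : ℝ≥0∞, C ≠ ∞ ∧ ∀ ε : ℝ, 0 < ε → ∀ U : Finset Src, ∀ F : Src → ℝ≥0∞, Measurable F →
      ∫⁻ S in Als Φ ε L T U, F (rsrc Φ ε S) ∂(tree (GC.inten f₀ ε) L) ≤
        FL.muE ε * (C * ∫⁻ σ, F σ ∂(refM (b / 2) T (cL L))) := by
  obtain ⟨C, hC, h⟩ := ML.crude_tree hΦ hg hb₀ hT hM hf L
  refine ⟨C, hC, fun ε hε U F hF => ?_⟩
  have h1 : ∫⁻ S in Als Φ ε L T U, F (rsrc Φ ε S) ∂(tree (GC.inten f₀ ε) L) ≤
      ∫⁻ S in {S | ok Φ ε S ∧ ext Φ ε S ≤ T}, F (rsrc Φ ε S) ∂(tree (GC.inten f₀ ε) L) :=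
    lintegral_mono_set fun S hS => ⟨hS.ok, hS.ext_le⟩
  refine h1.trans ((h ε hε F hF).trans ?_)
  rw [lintegral_refM_cL hF]
  refine mul_le_mul_right (mul_le_mul_right ?_ _) _
  have hg1 : ∀ v : E3, CT.g1 (b₀ / 2) v ≤ gw (b / 2) v := fun v =>
    gw_anti (by linarith) v
  have hA : (∫⁻ l : Ph, CT.g1 (b₀ / 2) l.2 * F (0, l, 0)) ≤
      ∑ d ∈ Finset.range (L + 1), ∫⁻ z : Ph, gw (b / 2) z.2 * F (0, z, d) := by
    refine le_trans (lintegral_mono fun l => mul_le_mul_left (hg1 _) _) ?_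
    exact Finset.single_le_sum (f := fun d => ∫⁻ z : Ph, gw (b / 2) z.2 * F (0, z, d))
      (fun _ _ => zero_le) (Finset.mem_range.2 (Nat.succ_pos L))
  have hB : (∑ d ∈ Finset.Icc 1 L, ∫⁻ s in Icc 0 T, ∫⁻ l : Ph, CT.g1 (b₀ / 2) l.2 * F (s, l, d)) ≤
      ∑ d ∈ Finset.range (L + 1), ∫⁻ s in Icc 0 T, ∫⁻ z : Ph, gw (b / 2) z.2 * F (s, z, d) := by
    refine le_trans (Finset.sum_le_sum fun d _ => lintegral_mono fun s =>
      lintegral_mono fun l => mul_le_mul_left (hg1 _) _) ?_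
    refine Finset.sum_le_sum_of_subset_of_nonneg (fun d hd => ?_) fun _ _ _ => zero_le
    rw [Finset.mem_Icc] at hd
    exact Finset.mem_range.2 (by omega)
  rw [Finset.sum_add_distrib]
  exact add_le_add hA hB

/-! ### The exceptional terms -/

/-- A tree with a dead subtree belongs to the exceptional set of CAP0. -/
theorem bad1_subset_I1 (hΦ : IsPotential Φ) (hε : 0 < ε) (c : GC.Conf Ph) :
    Bad1 (Als Φ ε L t (wS (GC.pts c))) ⊆ Cap.I1 Φ ε L t (GC.pts c : Set Ph) := by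
  rintro S ⟨hS, A, B, rfl, h2⟩
  refine ⟨alT_iff.1 hS, A, B, rfl, fun h3 => h2 ?_⟩
  have hok := hS.ok
  have hdp : (node A B).depth ≤ L := hS.depth
  have hsl := (sig_lt_ext hΦ hε hok).le.trans hS.ext_le
  have hdA : A.depth ≤ L := by
    change max A.depth B.depth + 1 ≤ L at hdp
    omega
  have hdB : B.depth ≤ L := by
    change max A.depth B.depth + 1 ≤ L at hdp
    omega
  have key : ∀ {X : CTree}, ok Φ ε X → X.depth ≤ L → ext Φ ε X < sig Φ ε (node A B) →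
      Cap.ALt Φ ε L (GC.pts c : Set Ph) X (sig Φ ε (node A B)) →
      X ∈ Als Φ ε L t (wS (GC.pts c)) := by
    intro X h4 h5 h6 h7
    refine ⟨h4, h5, h6.le.trans hsl, ?_⟩
    rw [coe_addT, coe_wS]
    exact alive_anti h7 h6.le le_rfl
  refine ⟨key hok.1 hdA ?_ h3.1, key hok.2.1 hdB ?_ h3.2⟩
  · exact hok.2.2.2.2.2.1
  · exact hok.2.2.2.2.2.2

/-- The first exceptional term of P3: interaction of the lines of a tree. -/
def ExcE1 (Φ : E3 → ℝ) (f₀ : Ph → ℝ) (L : ℕ) (T : ℝ) : Prop :=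
  Tendsto (fun ε => (FL.muE ε)⁻¹ * XX Φ ε L f₀ T
    (fun U S => wln Φ ε S * ind (¬GoodT Φ ε L U S T))) (𝓝[>] 0) (𝓝 0)

/-- The second exceptional term of P3: many trees are related to a tree. -/
def ExcE2 (hΦ : IsPotential Φ) (f₀ : Ph → ℝ) (L : ℕ) (T : ℝ) : Prop :=
  ∀ ρ : ℝ, 0 < ρ → ∀ᶠ ε in 𝓝[>] (0 : ℝ), ∀ hε : 0 < ε, (FL.muE ε)⁻¹ * ((FL.muE ε)⁻¹ *
    XX Φ ε L f₀ T (fun U S => wln Φ ε S * (ind (NiceT L hΦ hε U S T) *
      relW L hΦ hε (addT U S) U T))) ≤ ENNReal.ofReal ρ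

/-! ### The inequality P3 -/

theorem linesum_tchL {U : Finset Src} {S : CTree} (hS : S.depth ≤ L) :
    linesum Φ ε S (fun σ => ind (TT L hΦ hε η t w U σ)) ≤
      linesum Φ ε S (tchL L hΦ hε η t w U) := by
  have key : ∀ x : CTree, x.depth ≤ L → ind (TT L hΦ hε η t w U (rsrc Φ ε x)) ≤
      tchL L hΦ hε η t w U (rsrc Φ ε x) := by
    intro x hx
    unfold tchL
    rw [if_pos (show (rsrc Φ ε x).2.2 ≤ L from hx)]
  unfold linesum
  refine add_le_add (key S hS) (exsum_mono fun x hx => key x ?_)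
  exact (TL.outs_depth (Or.inr hx)).trans hS

theorem lintegral_tchL (σ : Src) :
    ∫⁻ c, tchL L hΦ hε η t w (wS (GC.pts c)) σ ∂(GC.PP f₀ ε) = thL L hΦ hε f₀ η t w σ := by
  unfold tchL thL theta
  by_cases h : σ.2.2 ≤ L
  · simp only [if_pos h]
  · simp only [if_neg h, lintegral_zero]

theorem measurable_tchL_conf : Measurable fun p : GC.Conf Ph × Src =>
    tchL L hΦ hε η t w (wS (GC.pts p.1)) p.2 :=
  measurable_tchL (RM.rs_wS measurable_fst) measurable_snd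

theorem measurable_thL (h₀ : GoodDatum f₀ κ) : Measurable (thL L hΦ hε f₀ η t w) := by
  have hP := GC.isProbability_PP (ε := ε) h₀
  have h : Measurable fun σ : Src =>
      ∫⁻ c, tchL L hΦ hε η t w (wS (GC.pts c)) σ ∂(GC.PP f₀ ε) :=
    (measurable_tchL_conf (L := L) (hΦ := hΦ) (hε := hε) (η := η) (t := t)
      (w := w)).lintegral_prod_left'
  have e : (fun σ : Src => ∫⁻ c, tchL L hΦ hε η t w (wS (GC.pts c)) σ ∂(GC.PP f₀ ε)) =
      thL L hΦ hε f₀ η t w := funext fun σ => lintegral_tchL σ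
  rwa [e] at h

theorem thL_eq_zero (hη : 0 < η) (ht : 0 ≤ t) {σ : Src} (hσ : t < σ.1) :
    thL L hΦ hε f₀ η t w σ = 0 := by
  unfold thL
  split_ifs
  · exact theta_eq_zero hη ht hσ
  · rfl

theorem dmeas_univ_ne_top {α a m : ℕ → ℝ} {Q : ℝ} (hw : Wts α a Q) (hm0 : ∀ n, 0 ≤ m n)
    (hm : ∀ n, (n + 1) * m n ≤ α n) : dmeas m univ ≠ ∞ := by
  obtain ⟨B, hB⟩ := hw.w3 0
  have h1 : dmeas m univ = ∑' n, ENNReal.ofReal (m n) := by
    rw [← lintegral_one, lintegral_dmeas]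
    simp only [mul_one]
  rw [h1]
  have h2 : ∑' n, ENNReal.ofReal (m n) ≤ ENNReal.ofReal B * ENNReal.ofReal Q := by
    calc ∑' n, ENNReal.ofReal (m n) ≤ ∑' n, ENNReal.ofReal B * ENNReal.ofReal (α n / a n) := by
          refine ENNReal.tsum_le_tsum fun n => ?_
          have ha := hw.apos n
          have hα := hw.α0 n
          have h3 := hB n
          rw [zero_mul, Real.exp_zero, mul_one] at h3
          have hB0 : 0 ≤ B := ha.le.trans h3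
          rw [← ENNReal.ofReal_mul hB0]
          refine ENNReal.ofReal_le_ofReal ?_
          have h4 : m n ≤ α n := by
            have h5 := hm n
            have h6 := hm0 n
            nlinarith [mul_nonneg (Nat.cast_nonneg (α := ℝ) n) h6]
          calc m n ≤ α n := h4
            _ = a n * (α n / a n) := by field_simp
            _ ≤ B * (α n / a n) := by gcongr
      _ = ENNReal.ofReal B * ∑' n, ENNReal.ofReal (α n / a n) := ENNReal.tsum_mul_left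
      _ ≤ _ := mul_le_mul_right hw.w2 _
  exact ne_top_of_le_ne_top (ENNReal.mul_ne_top ENNReal.ofReal_ne_top ENNReal.ofReal_ne_top) h2

theorem eventually_const_mul_le {f : ℝ → ℝ≥0∞} (hf : Tendsto f (𝓝[>] 0) (𝓝 0)) {C : ℝ≥0∞}
    (hC : C ≠ ∞) {ρ : ℝ} (hρ : 0 < ρ) : ∀ᶠ ε in 𝓝[>] (0 : ℝ), C * f ε ≤ ENNReal.ofReal ρ := by
  have h1 : Tendsto (fun ε => C * f ε) (𝓝[>] 0) (𝓝 (C * 0)) :=
    ENNReal.Tendsto.const_mul hf (Or.inr hC)
  rw [mul_zero] at h1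
  exact h1.eventually (ge_mem_nhds (ENNReal.ofReal_pos.2 hρ))

/-- The exceptional trees of EXH. -/
theorem XX_bad1_le (hΦ : IsPotential Φ) (hε : 0 < ε) (q : ℕ) :
    XX Φ ε L f₀ t (fun U S => vp q (rsrc Φ ε S) * ind (S ∈ Bad1 (Als Φ ε L t U))) ≤
      ∫⁻ c, ∫⁻ S in Cap.I1 Φ ε L t (GC.pts c : Set Ph), Cap.pw q (ln Φ ε S).2
        ∂(tree (GC.inten f₀ ε) L) ∂(GC.PP f₀ ε) := by
  unfold XX
  refine lintegral_mono fun c => ?_
  have hB := measurableSet_Bad1 (measurableSet_Als hΦ hε L t c)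
  calc _ ≤ ∫⁻ S in Bad1 (Als Φ ε L t (wS (GC.pts c))), Cap.pw q (ln Φ ε S).2
        ∂(tree (GC.inten f₀ ε) L) := by
        rw [← lintegral_indicator hB]
        refine lintegral_mono fun S => ?_
        by_cases h : S ∈ Bad1 (Als Φ ε L t (wS (GC.pts c)))
        · rw [indicator_of_mem h]
          change _ * (_ * ind (S ∈ Bad1 (Als Φ ε L t (wS (GC.pts c))))) ≤ _
          rw [ind_of h, mul_one]
          refine (mul_le_mul_left (ind_le_one _) _).trans ?_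
          rw [one_mul]
          exact le_rfl
        · rw [indicator_of_notMem h]
          change _ * (_ * ind (S ∈ Bad1 (Als Φ ε L t (wS (GC.pts c))))) ≤ _
          rw [ind_of_not h, mul_zero, mul_zero]
    _ ≤ _ := lintegral_mono_set (bad1_subset_I1 hΦ hε c)

/-- **The inequality P3** (field `p3` of `AU.RawSys`, without the terms `cr` and `SE`). -/
theorem dF_le_dTh (hΦ : IsPotential Φ) (h₀ : GoodDatum f₀ κ) {b b₀ b' M₀ T l₁ l₂ Q : ℝ}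
    {α a m : ℕ → ℝ} (hb : 0 < b) (hbb : b ≤ b₀) (hM : 0 ≤ M₀)
    (hf : ∀ z, f₀ z ≤ M₀ * Real.exp (-b₀ * ‖z.2‖ ^ 2)) (hT : 0 < T) (hl₁ : 0 ≤ l₁)
    (hl₂ : 0 ≤ l₂) (hw : Wts α a Q) (hm0 : ∀ n, 0 ≤ m n) (hm : ∀ n, (n + 1) * m n ≤ α n)
    (hb' : 0 < b') (hbb' : b' ≤ b / 2)
    (hcap : ∀ᶠ L in atTop, CapH Φ f₀ L T b m) (hI1 : ∀ᶠ L in atTop, Cap.InI1 Φ f₀ L T)
    (hE1 : ∀ᶠ L in atTop, ExcE1 Φ f₀ L T) (hE2 : ∀ᶠ L in atTop, ExcE2 hΦ f₀ L T) :
    ∃ C : ℝ, 0 ≤ C ∧ ∀ᶠ L in atTop, ∀ η η' : ℝ, 0 < η → η < η' → η' ≤ 1 → ∀ ρ : ℝ, 0 < ρ →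
      ∀ᶠ ε in 𝓝[>] (0 : ℝ), ∀ t ∈ Icc 0 T, dF hΦ f₀ L η ε t ≤ ENNReal.ofReal ρ +
        ENNReal.ofReal C * dTh b' T l₁ l₂ a hΦ f₀ T L η' ε t := by
  have hdt := dmeas_univ_ne_top hw hm0 hm
  have hfd : IsFiniteMeasure (dmeas m) := ⟨lt_top_iff_ne_top.2 hdt⟩
  set N : ℝ := (ENNReal.ofReal (1 + T) * dmeas m univ).toReal with hN
  have hNe : ENNReal.ofReal (1 + T) * dmeas m univ ≤ ENNReal.ofReal N := by
    rw [hN, ENNReal.ofReal_toReal (ENNReal.mul_ne_top ENNReal.ofReal_ne_top hdt)]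
  obtain ⟨C₁, hC₁, hexh⟩ := exh_XX hΦ hb hT.le 1 (ENNReal.toReal_nonneg :
    0 ≤ (ENNReal.ofReal (1 + T) * dmeas m univ).toReal)
  set C₂ : ℝ≥0∞ := ENNReal.ofReal (1 + T) *
    (ENNReal.ofReal Q + ENNReal.ofReal Q * ENNReal.ofReal Q) with hC₂
  have hC₂t : C₂ ≠ ∞ := ENNReal.mul_ne_top ENNReal.ofReal_ne_top (ENNReal.add_ne_top.2
    ⟨ENNReal.ofReal_ne_top, ENNReal.mul_ne_top ENNReal.ofReal_ne_top ENNReal.ofReal_ne_top⟩)
  refine ⟨(C₁ * C₂).toReal, ENNReal.toReal_nonneg, ?_⟩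
  have hCC : ENNReal.ofReal (C₁ * C₂).toReal = C₁ * C₂ :=
    ENNReal.ofReal_toReal (ENNReal.mul_ne_top hC₁ hC₂t)
  rw [hCC]
  filter_upwards [hcap, hI1, hE1, hE2] with L hcap hI1 hE1 hE2 η η' hη hηη _ ρ hρ
  obtain ⟨Cc, hCc, hcr⟩ := crude_als (L := L) hΦ h₀ (hb.trans_le hbb) hbb hT.le hM hf
  obtain ⟨C', hC', hexh⟩ := hexh L Cc hCc
  obtain ⟨aty, ha1, ha2, ha3, ha4⟩ := hcap
  have hρ4 : 0 < ρ / 4 := by positivity
  have hdd : 0 < η' - η := by linarith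
  filter_upwards [eventually_const_mul_le (ha4 (1 + L)) hC' hρ4,
    eventually_const_mul_le (hI1 (1 + L)) hC' hρ4,
    eventually_const_mul_le hE1 ENNReal.one_ne_top hρ4,
    hE2 ((η' - η) * (ρ / 4)) (by positivity), self_mem_nhdsWithin] with ε e1 e2 e3 e4 hε t ht
  have hε : 0 < ε := hε
  have e4 := e4 hε
  rw [one_mul] at e3
  rw [dF_pos hε, dTh_pos hε]
  have hμ0 : FL.muE ε ≠ 0 := (ENNReal.ofReal_pos.2 (GC.mu_pos hε)).ne'
  have hμt : FL.muE ε ≠ ∞ := ENNReal.ofReal_ne_top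
  have hμ : ∀ x : ℝ≥0∞, (FL.muE ε)⁻¹ * (FL.muE ε * x) = x := fun x => by
    rw [← mul_assoc, ENNReal.inv_mul_cancel hμ0 hμt, one_mul]
  -- the exceptional terms
  have hex : exF L hΦ hε f₀ η η' t ≤ ENNReal.ofReal (ρ / 4) + ENNReal.ofReal (ρ / 4) := by
    refine (exF_mono ht.2).trans ((exF_le hηη h₀).trans ?_)
    refine add_le_add e3 ((mul_le_mul_right e4 _).trans ?_)
    rw [ENNReal.ofReal_mul hdd.le, ← mul_assoc, ENNReal.inv_mul_cancel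
      (ENNReal.ofReal_pos.2 hdd).ne' ENNReal.ofReal_ne_top, one_mul]
  -- the main term
  set θ : Src → ℝ≥0∞ := thL L hΦ hε f₀ η' t T with hθ
  have hθm : Measurable θ := measurable_thL h₀
  have hη' : 0 < η' := hη.trans hηη
  have hθ0 : ∀ σ : Src, t < σ.1 → θ σ = 0 := fun σ hσ => thL_eq_zero hη' ht.1 hσ
  have hkf : SFinite (EX.kap (dmeas m)) := by unfold EX.kap; infer_instance
  have hr1 := lintegral_refM_le_Nm (κ := dmeas m) hb' hT hbb' hw.apos hl₁ hl₂ hT.le hθm hθ0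
  have hr2 := lintegral_refM_le_Nm (κ := EX.kap (dmeas m)) hb' hT hbb' hw.apos hl₁ hl₂ hT.le hθm hθ0
  have hmain := hexh f₀ κ h₀ ε hε (dmeas m) hNe (aty ε) (ha1 ε hε) (ha2 ε hε (1 + L))
    (ha3 ε hε) (Eventually.of_forall fun c F hF => hcr ε hε _ F hF)
    (fun U σ => tchL L hΦ hε η' t T U σ) measurable_tchL_conf fun U σ => tchL_le_one σ
  simp only [lintegral_tchL] at hmain
  have hXX : XX Φ ε L f₀ t (fun U S => wln Φ ε S *
        linesum Φ ε S fun σ => ind (TT L hΦ hε η' t T U σ)) ≤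
      XX Φ ε L f₀ T (fun U S => vp 1 (rsrc Φ ε S) *
        linesum Φ ε S (fun σ => tchL L hΦ hε η' t T U σ)) := by
    have hv : ∀ S, wln Φ ε S = vp 1 (rsrc Φ ε S) := fun S => by
      unfold wln vp rsrc
      rw [pow_one]
    refine le_trans (XX_mono (H' := fun U S => vp 1 (rsrc Φ ε S) *
        linesum Φ ε S (fun σ => tchL L hΦ hε η' t T U σ)) fun U S hS => ?_)
      (XX_le_XX ht.2 fun _ _ => le_rfl)
    rw [hv]
    exact mul_le_mul_right (linesum_tchL hS.depth) _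
  have hb1 := XX_bad1_le (L := L) (t := T) (f₀ := f₀) hΦ hε (1 + L)
  calc FF L hΦ hε f₀ η t
      ≤ (FL.muE ε)⁻¹ * XX Φ ε L f₀ t (fun U S => wln Φ ε S *
          linesum Φ ε S fun σ => ind (TT L hΦ hε η' t T U σ)) + exF L hΦ hε f₀ η η' t :=
        FF_le h₀ hη hηη.le ht.1 ht.2
    _ ≤ (FL.muE ε)⁻¹ * (FL.muE ε * (C₁ * (∫⁻ σ, θ σ ∂(refM (b / 2) T (dmeas m)) +
            ∫⁻ σ, θ σ ∂(refM (b / 2) T (EX.kap (dmeas m))))) +
          C' * (FL.muE ε * ∫⁻ c, (∫⁻ σ, vp (1 + L) σ ∂(aty ε c)) ∂(GC.PP f₀ ε) +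
            XX Φ ε L f₀ T (fun U S => vp (1 + L) (rsrc Φ ε S) *
              ind (S ∈ Bad1 (Als Φ ε L T U))))) +
          (ENNReal.ofReal (ρ / 4) + ENNReal.ofReal (ρ / 4)) :=
        add_le_add (mul_le_mul_right (hXX.trans hmain) _) hex
    _ ≤ (FL.muE ε)⁻¹ * (FL.muE ε * (C₁ * (C₂ * Nm b' T l₁ l₂ a t θ)) +
          C' * (FL.muE ε * ∫⁻ c, (∫⁻ σ, vp (1 + L) σ ∂(aty ε c)) ∂(GC.PP f₀ ε) +
            ∫⁻ c, ∫⁻ S in Cap.I1 Φ ε L T (GC.pts c : Set Ph), Cap.pw (1 + L) (ln Φ ε S).2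
              ∂(tree (GC.inten f₀ ε) L) ∂(GC.PP f₀ ε))) +
          (ENNReal.ofReal (ρ / 4) + ENNReal.ofReal (ρ / 4)) := by
        refine add_le_add (mul_le_mul_right (add_le_add (mul_le_mul_right (mul_le_mul_right ?_ _)
          _) (mul_le_mul_right (add_le_add le_rfl hb1) _)) _) le_rfl
        refine (add_le_add hr1 hr2).trans ?_
        rw [← add_mul, ← mul_add]
        refine mul_le_mul_left (mul_le_mul_right (add_le_add ?_ ?_) _) _
        · exact inv_dmeas_le hw hm0 hm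
        · exact inv_kap_le hw hm0 hm
    _ = C₁ * C₂ * Nm b' T l₁ l₂ a t θ +
          (C' * ∫⁻ c, (∫⁻ σ, vp (1 + L) σ ∂(aty ε c)) ∂(GC.PP f₀ ε)) +
          (C' * ((FL.muE ε)⁻¹ * ∫⁻ c, ∫⁻ S in Cap.I1 Φ ε L T (GC.pts c : Set Ph),
            Cap.pw (1 + L) (ln Φ ε S).2 ∂(tree (GC.inten f₀ ε) L) ∂(GC.PP f₀ ε))) +
          (ENNReal.ofReal (ρ / 4) + ENNReal.ofReal (ρ / 4)) := by
        have h5 : ∀ x y z : ℝ≥0∞, (FL.muE ε)⁻¹ * (FL.muE ε * x + C' * (FL.muE ε * y + z)) =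
            x + C' * y + C' * ((FL.muE ε)⁻¹ * z) := by
          intro x y z
          have h6 := hμ x
          have h7 := hμ y
          calc (FL.muE ε)⁻¹ * (FL.muE ε * x + C' * (FL.muE ε * y + z)) =
                (FL.muE ε)⁻¹ * (FL.muE ε * x) + C' * ((FL.muE ε)⁻¹ * (FL.muE ε * y)) +
                  C' * ((FL.muE ε)⁻¹ * z) := by ring
            _ = _ := by rw [h6, h7]
        rw [h5, ← mul_assoc C₁ C₂]
    _ ≤ C₁ * C₂ * Nm b' T l₁ l₂ a t θ + ENNReal.ofReal (ρ / 4) + ENNReal.ofReal (ρ / 4) +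
          (ENNReal.ofReal (ρ / 4) + ENNReal.ofReal (ρ / 4)) :=
        add_le_add (add_le_add (add_le_add le_rfl e1) e2) le_rfl
    _ = ENNReal.ofReal ρ + C₁ * C₂ * Nm b' T l₁ l₂ a t θ := by
        have h8 : ENNReal.ofReal ρ = ENNReal.ofReal (ρ / 4) + ENNReal.ofReal (ρ / 4) +
            (ENNReal.ofReal (ρ / 4) + ENNReal.ofReal (ρ / 4)) := by
          rw [← ENNReal.ofReal_add hρ4.le hρ4.le, ← ENNReal.ofReal_add (by positivity)
            (by positivity)]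
          congr 1
          ring
        rw [h8]
        ring

end Vale.Agent.P119.PB
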