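import Vale.Agent.P119.PB.Thr
import Vale.Agent.P119.TL.Inst
import Vale.Agent.P119.TL.Part

/-!
# P119, block PROB: threshold transfer from the tree to its lines (`helper456`)

`W = U ∪ leaves T`, `W'` the world of the lines of `T` (`TL.lwd`, `TL.lnw`).

* `th_inj`: the substitution of the histories is injective;
* `eW_lines`: the exposed energies of `W` and `W'` are equal;
* `relT`: the weighted number of the trees which are not independent of `T`;
* `nW_lnw_le`: `nW W' u ≤ nW W u + relT` at the times `u ≥ ρ`;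
* `hz_lnw`: `σ ≤ hz η t W` and `ρ < σ` imply `σ ≤ hz η' t W'` if `relT ≤ (η' - η) μ`.
-/

open MeasureTheory Filter Topology Set
open scoped ENNReal NNReal

noncomputable section

namespace Vale.Agent.P119.PB

open M CTree KU FB RB AU TL

variable {Φ : E3 → ℝ} {ε : ℝ} {L : ℕ} {U : Set Src} {T : CTree} {r : CTree → ℝ} {t u : ℝ}

/-! ### The substitution is injective -/

theorem fs_ne_node (h : Setup Φ ε L U T r t) {σ : Src} (hσ : σ ∈ lwd Φ ε r U T) {a b : CTree}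
    (ha : a.leaves ⊆ lwd Φ ε r U T) : fs Φ ε r T σ ≠ node (th Φ ε r T a) (th Φ ε r T b) := by
  intro he
  rcases hσ with hσ | ⟨x, hx, rfl⟩
  · rw [fs_of_mem h hσ] at he
    exact absurd he (by simp)
  · rw [fs_msrc h hx] at he
    have h1 : Sub (th Φ ε r T a) x := by
      rw [he]
      exact Sub.left _ (Sub.refl _)
    have h2 : Sub (fs Φ ε r T a.root) (th Φ ε r T a) := sub_sbs a.root_mem_leaves
    have h3 : (fs Φ ε r T a.root).leaves ⊆ T.leaves :=
      ((h2.trans h1).leaves_subset).trans (outs_leaves hx)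
    rcases ha a.root_mem_leaves with h4 | ⟨x', hx', h4⟩
    · rw [fs_of_mem h h4] at h3
      exact disjoint_left.1 h.disj h4 (h3 (mem_singleton _))
    · rw [← h4, fs_msrc h hx'] at h2
      have h5 := outs_eq_of_sub (ok_T h) hx hx' (h2.trans h1)
      rw [h5] at h2
      have h6 := h2.card_le
      have h7 : x.card = (th Φ ε r T a).card + (th Φ ε r T b).card := by
        conv_lhs => rw [he]
        rfl
      have h8 := (th Φ ε r T b).card_pos
      omega

theorem th_inj (h : Setup Φ ε L U T r t) {y y' : CTree} (hy : y.leaves ⊆ lwd Φ ε r U T)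
    (hy' : y'.leaves ⊆ lwd Φ ε r U T) (he : th Φ ε r T y = th Φ ε r T y') : y = y' := by
  induction y generalizing y' with
  | leaf σ =>
    cases y' with
    | leaf σ' =>
      have h1 : fs Φ ε r T σ = fs Φ ε r T σ' := he
      rw [fs_root_inj h (hy (mem_singleton _)) (hy' (mem_singleton _)) (by rw [h1])]
    | node a' b' =>
      exact absurd he (fs_ne_node h (hy (mem_singleton _)) (leaves_left hy'))
  | node a b iha ihb =>
    cases y' with
    | leaf σ' =>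
      exact absurd he.symm (fs_ne_node h (hy' (mem_singleton _)) (leaves_left hy))
    | node a' b' =>
      rw [th_node, th_node] at he
      injection he with h1 h2
      rw [iha (leaves_left hy) (leaves_left hy') h1, ihb (leaves_right hy) (leaves_right hy') h2]

/-! ### Exposed energies -/

variable {hΦ : IsPotential Φ} {hε : 0 < ε} {W W' : Finset Src}

/-- The trees before the exposure correspond. -/
theorem PS_th (h : Setup Φ ε L U T r t) {c : Src} {S : CTree} {τ : ℝ} (hτ : τ ≤ t)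
    (hcτ : c.1 ≤ τ) (hS : EN.PS Φ ε L (lwd Φ ε r U T) c τ S) (hΦ : IsPotential Φ) (hε : 0 < ε) :
    EN.PS Φ ε L (U ∪ T.leaves) (rt Φ ε r T c) τ (th Φ ε r T S) := by
  obtain ⟨h1, h2, h3⟩ := hS
  refine ⟨by rw [th_root, h1], ((live_th hΦ hε h hτ h2.sub).1 h2).1, ?_⟩
  cases S with
  | leaf σ =>
    have h4 : σ = c := h1
    subst h4
    have hσ : σ ∈ lwd Φ ε r U T := h2.sub (mem_singleton _)
    rcases hσ with hσ | ⟨x, hx, rfl⟩
    · left
      rw [rt_of_mem h hσ]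
      exact fs_of_mem h hσ
    · rw [th_leaf_msrc h hx, rt_msrc h hx]
      cases x with
      | leaf σ' => exact Or.inl rfl
      | node a b =>
        right
        have h5 := sig_lt_ext hΦ hε (ok_out h hx)
        exact (h5.trans_le (h.le_r _ hx)).trans_le hcτ
  | node a b =>
    right
    rw [th_sig h h2.sub]
    rcases h3 with h3 | h3
    · exact absurd h3 (by simp)
    · exact h3

/-- The weights of the trees correspond. -/
theorem cw_th (h : Setup Φ ε L U T r t) {S : CTree} (hS : S.leaves ⊆ lwd Φ ε r U T) {τ : ℝ}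
    (hτ : S.root.1 ≤ τ) : EN.cw Φ ε (th Φ ε r T S) τ = EN.cw Φ ε S τ := by
  cases S with
  | leaf σ =>
    have hσ : σ ∈ lwd Φ ε r U T := hS (mem_singleton _)
    have h1 : ext Φ ε (th Φ ε r T (leaf σ)) ≤ τ := (fs_ext h hσ).trans hτ
    rw [EN.cw_of_ext_le h1, th_ln h hS]
    rfl
  | node a b =>
    rw [th_node, EN.cw_node, EN.cw_node, ← th_node, th_ext h hS, th_ln h hS,
      th_ln h (leaves_left hS), th_ln h (leaves_right hS)]

/-- The first exposed time. -/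
theorem tau_first {c : Src} {s : ℝ} (hc : c ∈ ex L hΦ hε W s) :
    c ∈ ex L hΦ hε W (EN.tau (ex L hΦ hε W) c) ∧ EN.tau (ex L hΦ hε W) c ≤ s ∧
      ∀ q < EN.tau (ex L hΦ hε W) c, c ∉ ex L hΦ hε W q := by
  obtain ⟨σ, h1, h2, h3⟩ := (FB.Sys.exp_closed (Y := Y Φ ε L hΦ hε) W c).first (m := 0)
    (fun s hs => FB.Sys.Exp.nonneg hs) (mem_ex.1 hc)
  have h4 : EN.tau (ex L hΦ hε W) c = σ :=
    IsLeast.csInf_eq ⟨mem_ex.2 h2, fun s hs => not_lt.1 fun h => h3 s h (mem_ex.1 hs)⟩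
  rw [h4]
  exact ⟨mem_ex.2 h2, h1, fun q hq hcq => h3 q hq (mem_ex.1 hcq)⟩

/-- A source at its birth. -/
theorem PS_birth {V : Set Src} {c : Src} (hc : c ∈ V) (h0 : 0 ≤ c.1) (hd : c.2.2 ≤ L) :
    EN.PS Φ ε L V c c.1 (leaf c) :=
  ⟨rfl, ⟨by rintro σ rfl; exact hc, h0, hd, le_rfl, fun _ s hs hh =>
    absurd hs (not_lt.2 hh.1)⟩, Or.inl rfl⟩

theorem PS_birth_eq (hΦ : IsPotential Φ) (hε : 0 < ε) {V : Set Src} {c : Src} {S : CTree}
    (h : EN.PS Φ ε L V c c.1 S) : S = leaf c := by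
  obtain ⟨h1, h2, h3⟩ := h
  rcases h3 with h3 | h3
  · exact h3
  · have h4 := root_birth_le_sig hΦ hε h2.ok
    rw [h1] at h4
    exact absurd h3 (not_lt.2 h4)

/-- The weights at the exposure correspond. -/
theorem cw_ptree_lines (h : Setup Φ ε L U T r t) (hW : (W : Set Src) = U ∪ T.leaves)
    (hW' : (W' : Set Src) = lwd Φ ε r U T) (h0 : ∀ a ∈ W', 0 ≤ a.1) {c : Src} (hc : c ∈ W')
    {τ : ℝ} (hτ : τ ≤ t) (hcτ : c.1 ≤ τ) (hn : ∀ q < τ, ¬(Y Φ ε L hΦ hε).Exp W' c q) :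
    EN.cw Φ ε (EN.ptree Φ ε L (W : Set Src) (rt Φ ε r T c) τ) τ =
      EN.cw Φ ε (EN.ptree Φ ε L (W' : Set Src) c τ) τ := by
  have hf := W.finite_toSet
  have hf' := W'.finite_toSet
  by_cases hP : ∃ S, EN.PS Φ ε L (W' : Set Src) c τ S
  · obtain ⟨S, hS⟩ := hP
    have hS' : EN.PS Φ ε L (lwd Φ ε r U T) c τ S := hW' ▸ hS
    have h1 := PS_th h hτ hcτ hS' hΦ hε
    rw [← hW] at h1
    rw [EN.ptree_eq hΦ hε hf h1, EN.ptree_eq hΦ hε hf' hS]
    refine cw_th h hS'.2.1.sub ?_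
    rw [hS'.1]
    exact hcτ
  · have h1 : c.1 = τ := by
      rcases hcτ.lt_or_eq with h2 | h2
      · exfalso
        obtain ⟨S, hS, -⟩ := EN.stat_left hΦ hε hf' (L := L) h2 fun q h3 h4 hnone =>
          hn q h4 (exp_of_badi ⟨Finset.mem_coe.2 hc, (h0 c hc).trans h3, h3, Or.inl hnone⟩ le_rfl)
        exact hP ⟨S, hS⟩
      · exact h2
    subst h1
    have hcl : c ∈ lwd Φ ε r U T := by rw [← hW']; exact Finset.mem_coe.2 hc
    rcases hcl with hcU | ⟨x, hx, rfl⟩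
    · rw [rt_of_mem h hcU]
      have hP' : ¬∃ S, EN.PS Φ ε L (W : Set Src) c c.1 S := by
        rintro ⟨S, hS⟩
        have h2 := PS_birth_eq hΦ hε hS
        subst h2
        exact hP ⟨_, PS_birth (Finset.mem_coe.2 hc) (h0 c hc) hS.2.1.depth⟩
      unfold EN.ptree
      rw [dif_neg hP, dif_neg hP']
    · exact absurd ⟨_, PS_birth (Finset.mem_coe.2 hc) (h0 _ hc)
        (alive_pre (h.alive x hx)).depth⟩ hP

/-- **The exposed energies are the same.** -/
theorem eW_lines (h : Setup Φ ε L U T r t) (hW : (W : Set Src) = U ∪ T.leaves)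
    (hW' : (W' : Set Src) = lwd Φ ε r U T) (h0 : ∀ a ∈ W', 0 ≤ a.1)
    (hl : Lines Φ ε L hΦ hε W W' (rt Φ ε r T) (th Φ ε r T) t) (hu : u ≤ t) :
    eW L hΦ hε W' u = eW L hΦ hε W u := by
  have hexp : ∀ c ∈ W', ∀ q ≤ t, (c ∈ ex L hΦ hε W' q ↔ rt Φ ε r T c ∈ ex L hΦ hε W q) :=
    fun c hc q hq => by
      rw [mem_ex, mem_ex]
      exact hl.exp c hc q hq
  unfold eW
  refine Finset.sum_nbij (rt Φ ε r T) (fun c hc => ?_) (fun c hc c' hc' he => ?_)
    (fun c hc => ?_) fun c hc => ?_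
  · exact (hexp c (ex_subset hc) u hu).1 hc
  · exact hl.bij.injOn (Finset.mem_coe.2 (ex_subset (Finset.mem_coe.1 hc)))
      (Finset.mem_coe.2 (ex_subset (Finset.mem_coe.1 hc'))) he
  · have hc := Finset.mem_coe.1 hc
    obtain ⟨c', hc', rfl⟩ := hl.bij.surjOn (Finset.mem_coe.2 (ex_subset hc))
    exact ⟨c', Finset.mem_coe.2 ((hexp c' (Finset.mem_coe.1 hc') u hu).2 hc), rfl⟩
  · have hcW := ex_subset hc
    obtain ⟨h1, h2, h3⟩ := tau_first hc
    obtain ⟨h1', h2', h3'⟩ := tau_first ((hexp c hcW u hu).1 hc)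
    have he : EN.tau (ex L hΦ hε W') c = EN.tau (ex L hΦ hε W) (rt Φ ε r T c) := by
      refine le_antisymm (not_lt.1 fun h4 => ?_) (not_lt.1 fun h4 => ?_)
      · exact h3 _ h4 ((hexp c hcW _ (h2'.trans hu)).2 h1')
      · exact h3' _ h4 ((hexp c hcW _ (h2.trans hu)).1 h1)
    unfold EN.wt
    rw [← he, cw_ptree_lines h hW hW' h0 hcW (h2.trans hu) (exp_birth_le (mem_ex.1 h1))
      fun q hq hcq => h3 q hq (mem_ex.2 hcq)]

/-! ### Felt trees -/

/-- Full statuses which correspond to the same full statuses are the same. -/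
theorem sta_eq_of_lines {U₁ U₂ : Set Src} {W₁ W₂ W₁' W₂' : Finset Src}
    (h₂ : Setup Φ ε L U₂ T r u) (hU : U₁ ⊆ U₂)
    (hW₁' : (W₁' : Set Src) = lwd Φ ε r U₁ T) (hW₂' : (W₂' : Set Src) = lwd Φ ε r U₂ T)
    (l₁ : Lines Φ ε L hΦ hε W₁ W₁' (rt Φ ε r T) (th Φ ε r T) u)
    (l₂ : Lines Φ ε L hΦ hε W₂ W₂' (rt Φ ε r T) (th Φ ε r T) u) {a : Src} (ha₁ : a ∈ W₁')
    (ha₂ : a ∈ W₂') {s : ℝ} (hs : s ≤ u)
    (h : sta Φ ε L (W₁ : Set Src) (rt Φ ε r T a) s = sta Φ ε L (W₂ : Set Src) (rt Φ ε r T a) s) :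
    sta Φ ε L (W₁' : Set Src) a s = sta Φ ε L (W₂' : Set Src) a s := by
  have m₁ : (a ∈ (W₁' : Set Src)) = True := eq_true (Finset.mem_coe.2 ha₁)
  have m₂ : (a ∈ (W₂' : Set Src)) = True := eq_true (Finset.mem_coe.2 ha₂)
  have hb : badc Φ ε L (W₁' : Set Src) a s = badc Φ ε L (W₂' : Set Src) a s :=
    propext ((l₁.badc a ha₁ s hs).trans ((badc_of_sta h).trans (l₂.badc a ha₂ s hs).symm))
  have hst : stat Φ ε L (W₁' : Set Src) a s = stat Φ ε L (W₂' : Set Src) a s := by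
    rcases le_or_gt a.1 s with h3 | h3
    · have h4 := stat_of_sta h
      rw [l₁.stat a ha₁ s hs h3, l₂.stat a ha₂ s hs h3] at h4
      rcases h5 : stat Φ ε L (W₁' : Set Src) a s with _ | Z
      · rw [h5, Option.map_none] at h4
        exact (Option.map_eq_none_iff.1 h4.symm).symm
      · rcases h6 : stat Φ ε L (W₂' : Set Src) a s with _ | Z'
        · rw [h5, h6, Option.map_none, Option.map_some] at h4
          exact absurd h4 (by simp)
        · rw [h5, h6, Option.map_some, Option.map_some, Option.some_inj] at h4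
          have h7 := ((stat_eq_some_iff hΦ hε W₁'.finite_toSet).1 h5).2.sub
          have h8 := ((stat_eq_some_iff hΦ hε W₂'.finite_toSet).1 h6).2.sub
          rw [hW₁'] at h7
          rw [hW₂'] at h8
          rw [th_inj h₂ (h7.trans (union_subset_union_left _ hU)) h8 h4]
    · rw [stat_unborn hΦ hε h3, stat_unborn hΦ hε h3]
  simp only [sta]
  rw [m₁, m₂, hb, hst]

/-- Touches of the worlds of lines come from touches of the worlds with the tree. -/
theorem touch_of_lines {U₁ U₂ : Set Src} {W₁ W₂ W₁' W₂' : Finset Src}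
    (h₂ : Setup Φ ε L U₂ T r u) (hU : U₁ ⊆ U₂)
    (hW₁ : (W₁ : Set Src) = U₁ ∪ T.leaves)
    (hW₁' : (W₁' : Set Src) = lwd Φ ε r U₁ T) (hW₂' : (W₂' : Set Src) = lwd Φ ε r U₂ T)
    (l₁ : Lines Φ ε L hΦ hε W₁ W₁' (rt Φ ε r T) (th Φ ε r T) u)
    (l₂ : Lines Φ ε L hΦ hε W₂ W₂' (rt Φ ε r T) (th Φ ε r T) u)
    (h : (Y Φ ε L hΦ hε).Touch W₁' W₂' u) : (Y Φ ε L hΦ hε).Touch W₁ W₂ u := by
  have hsub : ∀ a ∈ W₁', a ∈ W₂' := fun a ha => by
    rw [← Finset.mem_coe, hW₂']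
    rw [← Finset.mem_coe, hW₁'] at ha
    exact ha.imp (fun h => hU h) id
  obtain ⟨a, hD, he⟩ := h
  have ha₂ : a ∈ W₂' := he.elim (fun he => hsub a he.mem) fun he => he.mem
  by_cases ha₁ : a ∈ W₁'
  · refine ⟨rt Φ ε r T a, ?_, he.imp (fun he => (l₁.exp a ha₁ u le_rfl).1 he)
      fun he => (l₂.exp a ha₂ u le_rfl).1 he⟩
    by_contra hcon
    refine (FB.Sys.not_mem_D.2 fun s hs => ?_ : a ∉ (Y Φ ε L hΦ hε).D W₁' W₂' u) hD
    exact sta_eq_of_lines h₂ hU hW₁' hW₂' l₁ l₂ ha₁ ha₂ hs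
      (sta_eq_of_not_mem_D hcon hs)
  · have he₂ : (Y Φ ε L hΦ hε).Exp W₂' a u := he.elim (fun he => absurd he.mem ha₁) id
    have h3 := (l₂.exp a ha₂ u le_rfl).1 he₂
    refine ⟨rt Φ ε r T a, mem_D_of_not_mem fun h4 => ha₁ ?_, Or.inr h3⟩
    have h5 := Finset.mem_coe.2 (h4.2 h3.mem)
    rw [hW₁] at h5
    -- the label `a` belongs to the first world of lines
    rw [← Finset.mem_coe, hW₂'] at ha₂
    rw [← Finset.mem_coe, hW₁']
    rcases ha₂ with ha₂ | ha₂
    · rw [rt_of_mem h₂ ha₂] at h5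
      rcases h5 with h5 | h5
      · exact Or.inl h5
      · exact absurd h5 (disjoint_left.1 h₂.disj ha₂)
    · exact Or.inr ha₂

variable {V : Finset Src} {ρ η η' : ℝ} {S : CTree}

/-- The conditions of independence of the trees `S` and `T`. -/
structure IndT (Φ : E3 → ℝ) (ε : ℝ) (L : ℕ) (V : Finset Src) (T : CTree) (W : Finset Src)
    (ρ t : ℝ) (S : CTree) : Prop where
  /-- `S` is a tree of the base -/
  sub : S.leaves ⊆ (V : Set Src)
  /-- `T` is alive without `S` -/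
  alive : M.alive Φ ε L (rm W S : Set Src) T ρ
  /-- `T` lives without `S` -/
  lives : ρ = ext Φ ε T ∨ M.lives Φ ε L (rm W S : Set Src) T ρ
  /-- the lines of `T` are independent without `S` -/
  good : LGood Φ ε L (rm V S) T ρ t

theorem coe_rm (W : Finset Src) (S : CTree) : (rm W S : Set Src) = (W : Set Src) \ S.leaves := by
  ext a
  rw [Finset.mem_coe, mem_rm, mem_diff, Finset.mem_coe]

theorem lgood_mono (h : LGood Φ ε L V T ρ t) (hu : u ≤ t) :
    LGood Φ ε L V T ρ u :=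
  ⟨h.inj, h.fresh, fun p y s hs => h.indep p y s (hs.trans hu)⟩

theorem tgood_of_le (h : TGood Φ ε L hΦ hε V T W ρ t) (hu : ρ ≤ u) :
    TGood Φ ε L hΦ hε V T W ρ u :=
  ⟨h.disj, h.eq, h.births, h.alive, h.lives, h.unexp, hu⟩

/-- The world of lines without `S`. -/
theorem rm_lnw (h : TGood Φ ε L hΦ hε V T W ρ t) (hl : LGood Φ ε L V T ρ t)
    (hS : S.leaves ⊆ (V : Set Src)) : rm (lnw Φ ε V T ρ) S = lnw Φ ε (rm V S) T ρ := by
  apply Finset.coe_injective
  rw [coe_rm, coe_lnw h.ok, coe_lnw h.ok, coe_rm]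
  unfold lwd
  rw [union_sdiff_distrib]
  congr 1
  refine sdiff_eq_left.2 (disjoint_left.2 ?_)
  rintro a ⟨x, hx, rfl⟩ ha
  exact hl.fresh x hx (Finset.mem_coe.1 (hS ha))

/-- A felt tree of the world of lines which is independent of `T` is felt in the world with `T`. -/
theorem fl_of_lnw (h : TGood Φ ε L hΦ hε V T W ρ t) (hl : LGood Φ ε L V T ρ t) (hρ : ρ ≤ u)
    (hu : u ≤ t) (hi : IndT Φ ε L V T W ρ t S) (hS : fl L hΦ hε (lnw Φ ε V T ρ) u S) :
    fl L hΦ hε W u S := by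
  have hset := h.setup hl
  have hcoe := coe_lnw (V := V) (ρ := ρ) h.ok
  have hL := (h.rep hl).lines
  have hVW : (V : Set Src) ⊆ (W : Set Src) := by rw [h.eq]; exact subset_union_left
  have hSl : S.leaves ⊆ lwd Φ ε (rho Φ ε T ρ) (V : Set Src) T := hi.sub.trans subset_union_left
  have hth : th Φ ε (rho Φ ε T ρ) T S = S := th_of_subset hset hi.sub
  have hrS : S.root ∈ (V : Set Src) := hi.sub S.root_mem_leaves
  have hrS' : S.root ∈ lnw Φ ε V T ρ := by
    rw [← Finset.mem_coe, hcoe]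
    exact Or.inl hrS
  have hext := hS.ext_le.trans hu
  refine ⟨hi.sub.trans hVW, hS.depth, hS.ext_le, ?_, fun q hq he => ?_, ?_⟩
  · have h1 := hS.alive
    rw [hcoe, alive_th hΦ hε hset hext hSl, hth] at h1
    rw [h.eq]
    exact h1.1
  · refine hS.root q hq ((hL.exp _ hrS' q (hq.le.trans hext)).2 ?_)
    change (Y Φ ε L hΦ hε).Exp W (rt Φ ε (rho Φ ε T ρ) T S.root) q
    rw [rt_of_mem hset hrS]
    exact he
  · by_contra hn
    -- the world without `S`
    have h0 : ∀ a ∈ rm W S, 0 ≤ a.1 := rm_nonneg h.births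
    have hunexp : ∀ s < ρ, ¬(Y Φ ε L hΦ hε).Exp (rm W S) T.root s := fun s hs he =>
      h.unexp s hs ((FB.Sys.exp_iff (Y_transfer hΦ hε h0 h.births) hn (hs.le.trans hρ)).1 he)
    have hg : TGood Φ ε L hΦ hε (rm V S) T (rm W S) ρ u := by
      refine ⟨?_, ?_, h0, hi.alive, hi.lives, hunexp, hρ⟩
      · rw [coe_rm]
        exact h.disj.mono_left diff_subset
      · rw [coe_rm, coe_rm, h.eq, union_sdiff_distrib]
        congr 1
        exact sdiff_eq_left.2 (h.disj.symm.mono_right hi.sub)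
    have hl' := lgood_mono hi.good hu
    have hg2 := tgood_of_le (u := u) h hρ
    have hl2 := lgood_mono hl hu
    refine hn (touch_of_lines (hg2.setup hl2) (U₁ := (rm V S : Set Src)) ?_ hg.eq
      (W₁' := lnw Φ ε (rm V S) T ρ) (coe_lnw h.ok) hcoe (hg.rep hl').lines (hg2.rep hl2).lines ?_)
    · rw [coe_rm]
      exact diff_subset
    · rw [← rm_lnw h hl hi.sub]
      exact hS.touch

/-- `S` is a tree of the world of lines which is over at the time `t`, whose root was not exposed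
before its end, and which is not independent of `T`. -/
structure DepT (Φ : E3 → ℝ) (ε : ℝ) (L : ℕ) (V : Finset Src) (T : CTree) (W : Finset Src)
    (ρ t : ℝ) (S : CTree) : Prop where
  sub : S.leaves ⊆ (lnw Φ ε V T ρ : Set Src)
  depth : S.depth ≤ L
  ext_le : ext Φ ε S ≤ t
  alive : M.alive Φ ε L (lnw Φ ε V T ρ : Set Src) S (ext Φ ε S)
  root : ∀ (hΦ : IsPotential Φ) (hε : 0 < ε), ∀ s < ext Φ ε S,
    ¬(Y Φ ε L hΦ hε).Exp (lnw Φ ε V T ρ) S.root s
  dep : ¬IndT Φ ε L V T W ρ t S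

open Classical in
/-- The weighted number of the trees of the world of lines which are not independent of `T`. -/
def relT (Φ : E3 → ℝ) (ε : ℝ) (L : ℕ) (V : Finset Src) (T : CTree) (W : Finset Src)
    (ρ t : ℝ) : ℝ≥0∞ :=
  ∑' S : CTree, if DepT Φ ε L V T W ρ t S then ENNReal.ofReal (1 + ‖(ln Φ ε S).2‖) else 0

theorem fW_lnw_le (h : TGood Φ ε L hΦ hε V T W ρ t) (hl : LGood Φ ε L V T ρ t) (hρ : ρ ≤ u)
    (hu : u ≤ t) : fW L hΦ hε (lnw Φ ε V T ρ) u ≤ fW L hΦ hε W u + relT Φ ε L V T W ρ t := by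
  unfold fW relT
  rw [← ENNReal.tsum_add]
  refine ENNReal.tsum_le_tsum fun S => ?_
  by_cases hS : fl L hΦ hε (lnw Φ ε V T ρ) u S
  · rw [if_pos hS]
    by_cases hi : IndT Φ ε L V T W ρ t S
    · rw [if_pos (fl_of_lnw h hl hρ hu hi hS)]
      exact le_self_add
    · rw [if_pos (⟨hS.sub, hS.depth, hS.ext_le.trans hu, hS.alive, fun _ _ => hS.root, hi⟩ :
        DepT Φ ε L V T W ρ t S)]
      exact le_add_self
  · rw [if_neg hS]
    exact zero_le

theorem lnw_nonneg (h : TGood Φ ε L hΦ hε V T W ρ t) : ∀ a ∈ lnw Φ ε V T ρ, 0 ≤ a.1 := by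
  intro a ha
  rw [← Finset.mem_coe, coe_lnw h.ok] at ha
  rcases ha with ha | ⟨x, hx, rfl⟩
  · refine h.births a ?_
    rw [← Finset.mem_coe, h.eq]
    exact Or.inl ha
  · exact (ext_nonneg hΦ hε (outs_ok hΦ h.ok hx)).trans
      (le_rho h.ok (alive_pre h.alive).ext_le hx)

theorem eW_lnw (h : TGood Φ ε L hΦ hε V T W ρ t) (hl : LGood Φ ε L V T ρ t) (hu : u ≤ t) :
    eW L hΦ hε (lnw Φ ε V T ρ) u = eW L hΦ hε W u :=
  eW_lines (h.setup hl) h.eq (coe_lnw h.ok) (lnw_nonneg h) (h.rep hl).lines hu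

/-- **The watched numbers** of the world of lines and of the world with the tree. -/
theorem nW_lnw_le (h : TGood Φ ε L hΦ hε V T W ρ t) (hl : LGood Φ ε L V T ρ t) (hρ : ρ ≤ u)
    (hu : u ≤ t) : nW L hΦ hε (lnw Φ ε V T ρ) u ≤ nW L hΦ hε W u + relT Φ ε L V T W ρ t := by
  unfold nW
  rw [eW_lnw h hl hu, add_assoc]
  exact add_le_add le_rfl (fW_lnw_le h hl hρ hu)

/-- **P2, from the world with the tree to the world of lines.** -/
theorem hz_lnw (h : TGood Φ ε L hΦ hε V T W ρ t) (hl : LGood Φ ε L V T ρ t) (hη : 0 < η)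
    (ht : 0 ≤ t) {σ : ℝ} (hρσ : ρ < σ)
    (hR : relT Φ ε L V T W ρ t ≤ ENNReal.ofReal ((η' - η) * mu ε)) (hηη : η ≤ η')
    (hσ : σ ≤ hz L hΦ hε η t W) : σ ≤ hz L hΦ hε η' t (lnw Φ ε V T ρ) := by
  have hσt : σ ≤ t := hσ.trans (hz_le hη ht)
  refine le_hz hσt fun r hr => ?_
  have hm : max r ρ < σ := max_lt hr hρσ
  have h3 : nW L hΦ hε W (max r ρ) < ENNReal.ofReal (η * mu ε) :=
    nW_lt_of_lt_hz hη ht (hm.trans_le hσ)
  have h4 := nW_lnw_le h hl (le_max_right r ρ) (hm.le.trans hσt)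
  have hμ := (GC.mu_pos hε).le
  calc nW L hΦ hε (lnw Φ ε V T ρ) r ≤ nW L hΦ hε (lnw Φ ε V T ρ) (max r ρ) :=
        nW_mono (le_max_left _ _)
    _ ≤ nW L hΦ hε W (max r ρ) + ENNReal.ofReal ((η' - η) * mu ε) :=
        h4.trans (add_le_add le_rfl hR)
    _ < ENNReal.ofReal (η * mu ε) + ENNReal.ofReal ((η' - η) * mu ε) :=
        ENNReal.add_lt_add_right ENNReal.ofReal_ne_top h3
    _ = ENNReal.ofReal (η' * mu ε) := by
        rw [← ENNReal.ofReal_add (mul_nonneg hη.le hμ) (mul_nonneg (by linarith) hμ)]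
        congr 1
        ring

end Vale.Agent.P119.PB
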