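import Vale.Agent.P119.PB.Exh4
import Vale.Agent.P119.PB.Int5
import Vale.Agent.P119.PB.Op8
import Vale.Agent.P119.PB.P3c
import Vale.Agent.P119.RM.Exs
import Vale.Agent.P119.RM.Rel

/-!
# P119, block PROB: second events after a hit within a window (`helper776`)

* `XI_line_le`: the line which hits the tree is integrated out;
* `secN_le`: a second event is an event of one exhaust (the second touch is dropped);
* `ind_TE_le`: the horizon of the world with the exhaust is replaced by the horizon of the base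
  world, up to related trees;
* `secS_line_le`: second events after a hit of a Gaussian line within a window;
* `markL_le`: the sum over the lines of a tree which touch (one mark), as in P3c;
* `ExcE3`: the exceptional term; `Nm_secS_le`: **the second-event term of P10**.
-/

open MeasureTheory Filter Topology Set Metric
open scoped ENNReal

namespace Vale.Agent.P119.PB.EX

open KU FL M CTree AU FB RB

variable {Φ : E3 → ℝ} {ε : ℝ} {L : ℕ} {hΦ : IsPotential Φ} {hε : 0 < ε} {f₀ : Ph → ℝ} {κ₀ : ℝ}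
  {η η' t w s : ℝ}

theorem alT_mono {t t' : ℝ} (h : t ≤ t') {U : Finset Src} {T : CTree} (hT : alT Φ ε L t U T) :
    alT Φ ε L t' U T := ⟨hT.ok, hT.depth, hT.ext_le.trans h, hT.alive⟩

/-- The horizon of `XX`. -/
theorem XX_mono_time {t t' : ℝ} (h : t ≤ t') (H : Finset Src → CTree → ℝ≥0∞) :
    XX Φ ε L f₀ t H ≤ XX Φ ε L f₀ t' H := by
  unfold XX
  refine lintegral_mono fun c => lintegral_mono fun T => ?_
  exact mul_le_mul_left (ind_mono fun h' => alT_mono h h') _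

/-- **The line which hits the tree is integrated out.** -/
theorem XI_line_le (hg : GoodDatum f₀ κ₀) (hΦ : IsPotential Φ) (hε : 0 < ε) {b : ℝ} (hb : 0 < b)
    (s t w : ℝ) (n : ℕ) {H : Finset Src → CTree → ℝ≥0∞}
    (hH : Measurable fun p : CTree × GC.Conf Ph => H (wS (GC.pts p.2)) p.1) :
    ∫⁻ z : Ph, gw b z.2 * XI f₀ Φ ε L t (s, z, n) (fun V T =>
      ind (hitT ε (z, ln Φ ε T) ≤ s + w) * H V T) ≤
      ENNReal.ofReal (ε ^ 2) * (ENNReal.ofReal Real.pi * I0 b) *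
        (ENNReal.ofReal (min t (s + w) - s) * XX Φ ε L f₀ t fun V T => wln Φ ε T * H V T) := by
  have hfin := GC.isFiniteMeasure_inten (ε := ε) hg
  have hP := GC.isProbability_PP (ε := ε) hg
  obtain ⟨A, hA⟩ : ∃ A : Set ℝ, A = Ioc s (min t (s + w)) := ⟨_, rfl⟩
  have hAm : MeasurableSet A := by rw [hA]; exact measurableSet_Ioc
  -- the density
  obtain ⟨K, hK⟩ : ∃ K : GC.Conf Ph → CTree → ℝ≥0∞, K = fun c T =>
    ind (alT Φ ε L t (wS (GC.pts c)) T) * H (wS (GC.pts c)) T := ⟨_, rfl⟩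
  have hKm : Measurable fun p : GC.Conf Ph × CTree => K p.1 p.2 := by
    rw [hK]
    exact meas_swap (F := fun (T : CTree) (c : GC.Conf Ph) =>
      ind (alT Φ ε L t (wS (GC.pts c)) T) * H (wS (GC.pts c)) T)
      ((measurable_ind (measurableSet_alT' hΦ hε t)).mul hH)
  obtain ⟨g, hgd⟩ : ∃ g : Ph → CTree → ℝ≥0∞, g = fun z T =>
    gw b z.2 * ind (Meets ε (z, ln Φ ε T) ∧ hitT ε (z, ln Φ ε T) ∈ A) := ⟨_, rfl⟩
  have hgm : Measurable fun p : Ph × CTree => g p.1 p.2 := by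
    rw [hgd]
    have hq : Measurable fun p : Ph × CTree => (p.1, ln Φ ε p.2) :=
      measurable_fst.prodMk ((M.measurable_ln hΦ hε.ne').comp measurable_snd)
    exact ((measurable_gw b).comp (measurable_snd.comp measurable_fst)).mul
      (measurable_ind ((hq measurableSet_meets).inter ((measurable_hitT.comp hq) hAm)))
  have e0 : ∀ z : Ph, gw b z.2 * XI f₀ Φ ε L t (s, z, n) (fun V T =>
      ind (hitT ε (z, ln Φ ε T) ≤ s + w) * H V T) =
      ∫⁻ c, ∫⁻ T, g z T * K c T ∂(tree (GC.inten f₀ ε) L) ∂(GC.PP f₀ ε) := by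
    intro z
    have hz : gw b z.2 ≠ ∞ := ENNReal.ofReal_ne_top
    unfold XI XX
    rw [← lintegral_const_mul' _ _ hz]
    refine lintegral_congr fun c => ?_
    rw [← lintegral_const_mul' _ _ hz]
    refine lintegral_congr fun T => ?_
    have h1 : ind (hitI ε t (s, z, n) (ln Φ ε T)) * ind (hitT ε (z, ln Φ ε T) ≤ s + w) =
        ind (Meets ε (z, ln Φ ε T) ∧ hitT ε (z, ln Φ ε T) ∈ A) := by
      rw [ind_mul_ind, hA]
      unfold hitI
      congr 1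
      simp only [mem_Ioc, le_min_iff]
      exact propext ⟨fun h => ⟨h.1.1, h.1.2.1, h.1.2.2, h.2⟩,
        fun h => ⟨⟨h.1, h.2.1, h.2.2.1⟩, h.2.2.2⟩⟩
    rw [hgd, hK]
    simp only
    rw [← h1]
    ring
  have m1 : Measurable fun p : (Ph × GC.Conf Ph) × CTree => g p.1.1 p.2 * K p.1.2 p.2 :=
    (hgm.comp ((measurable_fst.comp measurable_fst).prodMk measurable_snd)).mul
      (hKm.comp ((measurable_snd.comp measurable_fst).prodMk measurable_snd))
  have m2 : Measurable fun p : Ph × GC.Conf Ph =>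
      ∫⁻ T, g p.1 T * K p.2 T ∂(tree (GC.inten f₀ ε) L) := m1.lintegral_prod_right'
  rw [lintegral_congr e0, lintegral_lintegral_swap m2.aemeasurable]
  have h2 : ∀ c, ∫⁻ z, ∫⁻ T, g z T * K c T ∂(tree (GC.inten f₀ ε) L) ≤
      ENNReal.ofReal (ε ^ 2) * (ENNReal.ofReal Real.pi * I0 b) *
        (ENNReal.ofReal (min t (s + w) - s) * ∫⁻ T, ind (alT Φ ε L t (wS (GC.pts c)) T) *
          (wln Φ ε T * H (wS (GC.pts c)) T) ∂(tree (GC.inten f₀ ε) L)) := by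
    intro c
    have m3 : Measurable fun p : Ph × CTree => g p.1 p.2 * K c p.2 :=
      hgm.mul (hKm.comp (measurable_const.prodMk measurable_snd))
    rw [lintegral_lintegral_swap m3.aemeasurable]
    have hKc : Measurable fun T => K c T := hKm.comp (measurable_const.prodMk measurable_id)
    have hwm : Measurable (wln Φ ε) := measurable_wln hΦ hε
    calc ∫⁻ T, (∫⁻ z, g z T * K c T) ∂(tree (GC.inten f₀ ε) L)
        ≤ ∫⁻ T, (ENNReal.ofReal (ε ^ 2) * (ENNReal.ofReal Real.pi * I0 b) *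
          (wln Φ ε T * volume A)) * K c T ∂(tree (GC.inten f₀ ε) L) := by
          refine lintegral_mono fun T => ?_
          have hgT : Measurable fun z => g z T := hgm.comp (measurable_id.prodMk measurable_const)
          rw [lintegral_mul_const _ hgT, hgd]
          exact mul_le_mul_left (line_flux hε hb (ln Φ ε T) hAm).2 _
      _ = ENNReal.ofReal (ε ^ 2) * (ENNReal.ofReal Real.pi * I0 b) *
          (ENNReal.ofReal (min t (s + w) - s) * ∫⁻ T, ind (alT Φ ε L t (wS (GC.pts c)) T) *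
          (wln Φ ε T * H (wS (GC.pts c)) T) ∂(tree (GC.inten f₀ ε) L)) := by
          have m4 : Measurable fun T => wln Φ ε T * K c T := hwm.mul hKc
          have e1 : ∀ T, ENNReal.ofReal (ε ^ 2) * (ENNReal.ofReal Real.pi * I0 b) *
              (wln Φ ε T * volume A) * K c T = (ENNReal.ofReal (ε ^ 2) *
              (ENNReal.ofReal Real.pi * I0 b) * ENNReal.ofReal (min t (s + w) - s)) *
              (wln Φ ε T * K c T) := by
            intro T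
            rw [hA, Real.volume_Ioc]
            ring
          rw [lintegral_congr e1, lintegral_const_mul _ m4, mul_assoc]
          congr 2
          refine lintegral_congr fun T => ?_
          rw [hK]
          ring
  refine (lintegral_mono h2).trans (le_of_eq ?_)
  have m5 : Measurable fun c => ∫⁻ T, ind (alT Φ ε L t (wS (GC.pts c)) T) *
      (wln Φ ε T * H (wS (GC.pts c)) T) ∂(tree (GC.inten f₀ ε) L) := by
    have m6 : Measurable fun p : GC.Conf Ph × CTree => wln Φ ε p.2 * K p.1 p.2 :=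
      ((measurable_wln hΦ hε).comp measurable_snd).mul hKm
    have m7 := m6.lintegral_prod_right' (ν := tree (GC.inten f₀ ε) L)
    have e2 : (fun c => ∫⁻ T, ind (alT Φ ε L t (wS (GC.pts c)) T) *
      (wln Φ ε T * H (wS (GC.pts c)) T) ∂(tree (GC.inten f₀ ε) L)) =
      fun c => ∫⁻ T, wln Φ ε T * K c T ∂(tree (GC.inten f₀ ε) L) := by
      funext c
      refine lintegral_congr fun T => ?_
      rw [hK]
      ring
    rw [e2]
    exact m7
  rw [lintegral_const_mul _ (m5.const_mul _), lintegral_const_mul _ m5]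
  rfl

/-! ### The second events -/

variable (L hΦ hε) in
/-- The source `e` touches `V` before the stopping time of the world with `e`. -/
def TEx (η t : ℝ) (V : Finset Src) (e : Src) : Prop :=
  (RB.Y Φ ε L hΦ hε).Touch V (insert e V) (hz L hΦ hε η t (insert e V))

theorem exsum_const_le {T : CTree} (hd : T.depth ≤ L) (p : Prop) :
    exsum T (fun _ => ind p) ≤ 2 ^ L * ind p := by
  have h1 : exsum T (fun _ => (1 : ℝ≥0∞)) ≤ 2 ^ L :=
    calc exsum T (fun _ => (1 : ℝ≥0∞))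
        ≤ ES (fun _ => 0) 1 (fun _ => 1) T := exsum_le_ES (Φ := fun _ => 0) (ε := 1) (fun _ => 1) T
      _ ≤ ES (fun _ => 0) 1 (fun _ => 1) T + 1 := le_self_add
      _ ≤ 2 ^ T.depth := ES_le_pow (fun _ => le_rfl) T
      _ ≤ 2 ^ L := pow_le_pow_right₀ one_le_two hd
  by_cases hp : p
  · have h2 : (fun _ : CTree => ind p) = fun _ => (1 : ℝ≥0∞) := by rw [ind_of hp]
    rw [h2, ind_of hp, mul_one]
    exact h1
  · have h2 : (fun _ : CTree => ind p) = fun _ => (0 : ℝ≥0∞) := by rw [ind_of_not hp]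
    rw [h2]
    have h3 : exsum T (fun _ => (0 : ℝ≥0∞)) = 0 := by
      unfold exsum
      simp
    rw [h3]
    exact zero_le

theorem exsum_mul_left {T : CTree} {k : ℝ≥0∞} (φ : CTree → ℝ≥0∞) :
    exsum T (fun x => k * φ x) = k * exsum T φ := by
  unfold exsum
  rw [← ENNReal.tsum_mul_left]
  refine tsum_congr fun x => ?_
  rw [mul_ite, mul_zero]

/-- **A second event is an event of one exhaust.** -/
theorem secN_le {V : Finset Src} {σ : Src} {T : CTree} (hd : T.depth ≤ L) :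
    secN L hΦ hε η t w V σ T ≤
      (4 + 2 ^ L) * exsum T fun x => ind (TEx L hΦ hε η t V (rsrc Φ ε x)) := by
  classical
  rw [← exsum_mul_left]
  unfold secN
  refine exsum_mono fun x _ => ?_
  have h1 : ∀ m, gI L hΦ hε η t V (rsrc Φ ε x) m ≤
      ind (TEx L hΦ hε η t V (rsrc Φ ε x)) := fun m => by
    unfold gI
    split_ifs
    · exact ind_mono fun h => h.1
    · exact zero_le
  have h2 : exsum T (fun y => if x = y then 0 else gI L hΦ hε η t V (rsrc Φ ε x)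
      (rsrc Φ ε y)) ≤ 2 ^ L * ind (TEx L hΦ hε η t V (rsrc Φ ε x)) := by
    refine le_trans (exsum_mono fun y _ => ?_) (exsum_const_le hd _)
    split_ifs
    · exact zero_le
    · exact h1 _
  have h3 : pI L hΦ hε η t w V (rsrc Φ ε x) σ (ln Φ ε T) ≤
      ind (TEx L hΦ hε η t V (rsrc Φ ε x)) := by
    unfold pI
    exact ind_mono fun h => h.1
  rw [add_mul]
  refine add_le_add ?_ h2
  calc _ ≤ ind (TEx L hΦ hε η t V (rsrc Φ ε x)) + ind (TEx L hΦ hε η t V (rsrc Φ ε x)) +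
        ind (TEx L hΦ hε η t V (rsrc Φ ε x)) + ind (TEx L hΦ hε η t V (rsrc Φ ε x)) :=
        add_le_add (add_le_add (add_le_add (h1 _) (h1 _)) (h1 _)) h3
    _ = _ := by ring

/-- **The horizon of the world with the exhaust.** -/
theorem ind_TEx_le {V : Finset Src} {e : Src} (hV : ∀ a ∈ V, 0 ≤ a.1) (he : 0 ≤ e.1)
    (hη : 0 < η) (hηη : η ≤ η') (ht : 0 ≤ t) (htw : t ≤ w) :
    ind (TEx L hΦ hε η t V e) ≤ ind (TT L hΦ hε η' t w V e) +
      ind (ENNReal.ofReal ((η' - η) * mu ε) < relW L hΦ hε (insert e V) V t) := by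
  by_cases hR : ENNReal.ofReal ((η' - η) * mu ε) < relW L hΦ hε (insert e V) V t
  · rw [ind_of hR]
    exact (ind_le_one _).trans le_add_self
  refine le_trans (ind_mono fun h => ?_) le_self_add
  have hi : ∀ a ∈ insert e V, 0 ≤ a.1 := by
    intro a ha
    rcases Finset.mem_insert.1 ha with rfl | ha
    · exact he
    · exact hV a ha
  obtain ⟨τ, hτ, h1, h2⟩ := FB.Sys.Touch.first h
  have h3 : τ ≤ hz L hΦ hε η' t V := hz_transfer hi hV hη ht
    (fun s hs h' => h2 s hs h'.symm) (not_lt.1 hR) hηη hτ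
  unfold TT
  refine h1.mono (le_min h3 ?_)
  have h4 := hz_le (L := L) (hΦ := hΦ) (hε := hε) (W := V) (hη.trans_le hηη) ht
  linarith

/-! ### The window -/

theorem measurable_exsum_conf {F : GC.Conf Ph → CTree → ℝ≥0∞}
    (hF : Measurable fun p : GC.Conf Ph × CTree => F p.1 p.2) :
    Measurable fun p : CTree × GC.Conf Ph => exsum p.1 (F p.2) :=
  RM.measurable_exsum' (X := CTree × GC.Conf Ph) (T := fun p => p.1) measurable_fst
    (F := fun p x => F p.2 x)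
    (hF.comp ((measurable_snd.comp measurable_fst).prodMk measurable_snd))

theorem measurable_ind_TT_rsrc (η t w : ℝ) : Measurable fun p : GC.Conf Ph × CTree =>
    ind (TT L hΦ hε η t w (wS (GC.pts p.1)) (rsrc Φ ε p.2)) :=
  measurable_ind (RM.measurableSet_TT (RM.rs_wS measurable_fst) measurable_const measurable_const
    measurable_const (RM.meas_rsrc hΦ hε measurable_snd))

open Classical in
theorem measurable_relW_rsrc (t : ℝ) : Measurable fun p : GC.Conf Ph × CTree =>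
    relW L hΦ hε (insert (rsrc Φ ε p.2) (wS (GC.pts p.1))) (wS (GC.pts p.1)) t :=
  RM.measurable_relW (RM.rs_insert_rsrc hΦ hε (RM.rs_wS measurable_fst) measurable_snd)
    (RM.rs_wS measurable_fst) measurable_const

theorem wS_birth (w : Finset Ph) : ∀ a ∈ wS w, 0 ≤ a.1 := by
  intro a ha
  obtain ⟨z, -, rfl⟩ := mem_wS.1 ha
  exact le_rfl

/-- The sum over the exhausts which touch, with the horizon of the base world. -/
noncomputable def exT (L : ℕ) (hΦ : IsPotential Φ) (hε : 0 < ε) (η t w : ℝ) (U : Finset Src)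
    (T : CTree) : ℝ≥0∞ :=
  exsum T fun x => ind (TT L hΦ hε η t w U (rsrc Φ ε x))

/-- The number of the exhausts which have too many related trees. -/
noncomputable def exR (L : ℕ) (hΦ : IsPotential Φ) (hε : 0 < ε) (θ t : ℝ) (U : Finset Src)
    (T : CTree) : ℝ≥0∞ :=
  exsum T fun x => ind (ENNReal.ofReal (θ * mu ε) < relW L hΦ hε (insert (rsrc Φ ε x) U) U t)

theorem measurable_exT (η t w : ℝ) : Measurable fun p : CTree × GC.Conf Ph =>
    exT L hΦ hε η t w (wS (GC.pts p.2)) p.1 :=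
  measurable_exsum_conf (F := fun c x => ind (TT L hΦ hε η t w (wS (GC.pts c)) (rsrc Φ ε x)))
    (measurable_ind_TT_rsrc η t w)

theorem measurable_exR (θ t : ℝ) : Measurable fun p : CTree × GC.Conf Ph =>
    exR L hΦ hε θ t (wS (GC.pts p.2)) p.1 :=
  measurable_exsum_conf (F := fun c x => ind (ENNReal.ofReal (θ * mu ε) <
    relW L hΦ hε (insert (rsrc Φ ε x) (wS (GC.pts c))) (wS (GC.pts c)) t))
    (measurable_ind (measurableSet_lt measurable_const (measurable_relW_rsrc t)))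

/-- The second events after a hit, for a tree of the gas. -/
theorem secN_le_exT {c : GC.Conf Ph} {σ : Src} {T : CTree} (hη : 0 < η) (hηη : η ≤ η')
    (ht : 0 ≤ t) {w' : ℝ} (htw : t ≤ w') (hT : alT Φ ε L t (wS (GC.pts c)) T) :
    secN L hΦ hε η t w (wS (GC.pts c)) σ T ≤ (4 + 2 ^ L) *
      (exT L hΦ hε η' t w' (wS (GC.pts c)) T + exR L hΦ hε (η' - η) t (wS (GC.pts c)) T) := by
  refine (secN_le hT.depth).trans (mul_le_mul_right ?_ _)
  unfold exT exR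
  rw [← exsum_add]
  refine exsum_mono fun x hx => ?_
  exact ind_TEx_le (wS_birth _) (M.ext_nonneg hΦ hε (TL.outs_ok hΦ hT.ok (Or.inr hx)))
    hη hηη ht htw

/-- **The second events after a hit of a Gaussian line within the time `w`.** -/
theorem secS_line_le (hg : GoodDatum f₀ κ₀) {b : ℝ} (hb : 0 < b) (hη : 0 < η) (hηη : η ≤ η')
    (ht : 0 ≤ t) {w' : ℝ} (htw : t ≤ w') (s w : ℝ) (n : ℕ) :
    ∫⁻ z : Ph, gw b z.2 * secS L hΦ hε f₀ η t w (s, z, n) ≤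
      ENNReal.ofReal (ε ^ 2) * (ENNReal.ofReal Real.pi * I0 b) *
        (ENNReal.ofReal (min t (s + w) - s) * ((4 + 2 ^ L) *
          (XX Φ ε L f₀ t (fun U T => wln Φ ε T * exT L hΦ hε η' t w' U T) +
            XX Φ ε L f₀ t (fun U T => wln Φ ε T * exR L hΦ hε (η' - η) t U T)))) := by
  have hwm : Measurable (wln Φ ε) := measurable_wln hΦ hε
  have m1 := measurable_exT (L := L) (hΦ := hΦ) (hε := hε) η' t w'
  have m2 := measurable_exR (L := L) (hΦ := hΦ) (hε := hε) (η' - η) t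
  have mH : Measurable fun p : CTree × GC.Conf Ph => (4 + 2 ^ L : ℝ≥0∞) *
      (exT L hΦ hε η' t w' (wS (GC.pts p.2)) p.1 +
        exR L hΦ hε (η' - η) t (wS (GC.pts p.2)) p.1) := (m1.add m2).const_mul _
  have h1 := XI_line_le (L := L) (f₀ := f₀) hg hΦ hε hb s t w n (H := fun V T =>
    (4 + 2 ^ L : ℝ≥0∞) * (exT L hΦ hε η' t w' V T + exR L hΦ hε (η' - η) t V T)) mH
  refine le_trans (lintegral_mono fun z => mul_le_mul_right ?_ _) (h1.trans (le_of_eq ?_))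
  · unfold secS XI XX
    refine lintegral_mono fun c => lintegral_mono fun T => ?_
    by_cases hT : alT Φ ε L t (wS (GC.pts c)) T
    · refine mul_le_mul_right (mul_le_mul_right ?_ _) _
      unfold secW
      exact mul_le_mul' (ind_mono fun h => h.1) (secN_le_exT hη hηη ht htw hT)
    · rw [ind_of_not hT, zero_mul, zero_mul]
  · have m3 : Measurable fun p : CTree × GC.Conf Ph => wln Φ ε p.1 *
        exT L hΦ hε η' t w' (wS (GC.pts p.2)) p.1 := (hwm.comp measurable_fst).mul m1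
    congr 2
    rw [← XX_add hΦ hε m3 hg]
    have hP := GC.isProbability_PP (ε := ε) hg
    have h4 : (4 + 2 ^ L : ℝ≥0∞) ≠ ∞ :=
      ENNReal.add_ne_top.2 ⟨by norm_num, ENNReal.pow_ne_top (by norm_num)⟩
    unfold XX
    rw [← lintegral_const_mul' _ _ h4]
    refine lintegral_congr fun c => ?_
    rw [← lintegral_const_mul' _ _ h4]
    refine lintegral_congr fun T => ?_
    ring

/-! ### The norm -/

/-- The exceptional term: trees related to an exhaust of a tree. -/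
def ExcE3 (hΦ : IsPotential Φ) (f₀ : Ph → ℝ) (L : ℕ) (T : ℝ) : Prop :=
  ∀ ρ : ℝ, 0 < ρ → ∀ᶠ ε in 𝓝[>] (0 : ℝ), ∀ hε : 0 < ε, (FL.muE ε)⁻¹ * ((FL.muE ε)⁻¹ *
    XX Φ ε L f₀ T (fun U S => wln Φ ε S * exsum S fun x => by
      classical
      exact relW L hΦ hε (insert (rsrc Φ ε x) U) U T)) ≤ ENNReal.ofReal ρ

theorem exR_le {θ t T : ℝ} (hθ : 0 < θ) (htT : t ≤ T) (U : Finset Src) (S : CTree) :
    exR L hΦ hε θ t U S ≤ (ENNReal.ofReal (θ * mu ε))⁻¹ * exsum S fun x => by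
      classical
      exact relW L hΦ hε (insert (rsrc Φ ε x) U) U T := by
  classical
  have h0 : 0 < θ * mu ε := mul_pos hθ (GC.mu_pos hε)
  rw [← exsum_mul_left]
  unfold exR
  refine exsum_mono fun x _ => ?_
  by_cases h : ENNReal.ofReal (θ * mu ε) < relW L hΦ hε (insert (rsrc Φ ε x) U) U t
  · rw [ind_of h]
    calc (1 : ℝ≥0∞) = (ENNReal.ofReal (θ * mu ε))⁻¹ * ENNReal.ofReal (θ * mu ε) :=
          (ENNReal.inv_mul_cancel (ENNReal.ofReal_pos.2 h0).ne' ENNReal.ofReal_ne_top).symm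
      _ ≤ _ := mul_le_mul_right (h.le.trans (relW_mono htT)) _
  · rw [ind_of_not h]
    exact zero_le

/-- **One mark.** -/
theorem markL_le (hΦ : IsPotential Φ) (h₀ : GoodDatum f₀ κ₀) {b b₀ b' M₀ T l₁ l₂ Q : ℝ}
    {α a m : ℕ → ℝ} (hb : 0 < b) (hbb : b ≤ b₀) (hM : 0 ≤ M₀)
    (hf : ∀ z, f₀ z ≤ M₀ * Real.exp (-b₀ * ‖z.2‖ ^ 2)) (hT : 0 < T) (hl₁ : 0 ≤ l₁)
    (hl₂ : 0 ≤ l₂) (hw : Wts α a Q) (hm0 : ∀ n, 0 ≤ m n) (hm : ∀ n, (n + 1) * m n ≤ α n)
    (hb' : 0 < b') (hbb' : b' ≤ b / 2)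
    (hcap : ∀ᶠ L in atTop, CapH Φ f₀ L T b m) (hI1 : ∀ᶠ L in atTop, Cap.InI1 Φ f₀ L T) :
    ∃ C : ℝ, 0 ≤ C ∧ ∀ᶠ L in atTop, ∀ η : ℝ, 0 < η → ∀ ρ : ℝ, 0 < ρ →
      ∀ᶠ ε in 𝓝[>] (0 : ℝ), ∀ hε : 0 < ε, ∀ t ∈ Icc 0 T, (FL.muE ε)⁻¹ *
        XX Φ ε L f₀ T (fun U S => vp 1 (rsrc Φ ε S) *
          linesum Φ ε S (fun σ => tchL L hΦ hε η t T U σ)) ≤ ENNReal.ofReal ρ +
        ENNReal.ofReal C * Nm b' T l₁ l₂ a t (thL L hΦ hε f₀ η t T) := by
  have hdt := dmeas_univ_ne_top hw hm0 hm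
  have hfd : IsFiniteMeasure (dmeas m) := ⟨lt_top_iff_ne_top.2 hdt⟩
  have hNe : ENNReal.ofReal (1 + T) * dmeas m univ ≤
      ENNReal.ofReal (ENNReal.ofReal (1 + T) * dmeas m univ).toReal := by
    rw [ENNReal.ofReal_toReal (ENNReal.mul_ne_top ENNReal.ofReal_ne_top hdt)]
  obtain ⟨C₁, hC₁, hexh⟩ := exh_XX hΦ hb hT.le 1 (ENNReal.toReal_nonneg :
    0 ≤ (ENNReal.ofReal (1 + T) * dmeas m univ).toReal)
  set C₂ : ℝ≥0∞ := ENNReal.ofReal (1 + T) *
    (ENNReal.ofReal Q + ENNReal.ofReal Q * ENNReal.ofReal Q) with hC₂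
  have hC₂t : C₂ ≠ ∞ := ENNReal.mul_ne_top ENNReal.ofReal_ne_top (ENNReal.add_ne_top.2
    ⟨ENNReal.ofReal_ne_top, ENNReal.mul_ne_top ENNReal.ofReal_ne_top ENNReal.ofReal_ne_top⟩)
  refine ⟨(C₁ * C₂).toReal, ENNReal.toReal_nonneg, ?_⟩
  have hCC : ENNReal.ofReal (C₁ * C₂).toReal = C₁ * C₂ :=
    ENNReal.ofReal_toReal (ENNReal.mul_ne_top hC₁ hC₂t)
  rw [hCC]
  filter_upwards [hcap, hI1] with L hcap hI1 η hη ρ hρ
  obtain ⟨Cc, hCc, hcr⟩ := crude_als (L := L) hΦ h₀ (hb.trans_le hbb) hbb hT.le hM hf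
  obtain ⟨C', hC', hexh⟩ := hexh L Cc hCc
  obtain ⟨aty, ha1, ha2, ha3, ha4⟩ := hcap
  have hρ2 : 0 < ρ / 2 := by positivity
  filter_upwards [eventually_const_mul_le (ha4 (1 + L)) hC' hρ2,
    eventually_const_mul_le (hI1 (1 + L)) hC' hρ2] with ε e1 e2 hε t ht
  have hμ0 : FL.muE ε ≠ 0 := (ENNReal.ofReal_pos.2 (GC.mu_pos hε)).ne'
  have hμt : FL.muE ε ≠ ∞ := ENNReal.ofReal_ne_top
  have hμ : ∀ x : ℝ≥0∞, (FL.muE ε)⁻¹ * (FL.muE ε * x) = x := fun x => by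
    rw [← mul_assoc, ENNReal.inv_mul_cancel hμ0 hμt, one_mul]
  set θ : Src → ℝ≥0∞ := thL L hΦ hε f₀ η t T with hθ
  have hθm : Measurable θ := measurable_thL h₀
  have hθ0 : ∀ σ : Src, t < σ.1 → θ σ = 0 := fun σ hσ => thL_eq_zero hη ht.1 hσ
  have hkf : SFinite (EX.kap (dmeas m)) := by unfold EX.kap; infer_instance
  have hr1 := lintegral_refM_le_Nm (κ := dmeas m) hb' hT hbb' hw.apos hl₁ hl₂ hT.le hθm hθ0
  have hr2 := lintegral_refM_le_Nm (κ := EX.kap (dmeas m)) hb' hT hbb' hw.apos hl₁ hl₂ hT.le hθm hθ0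
  have hmain := hexh f₀ κ₀ h₀ ε hε (dmeas m) hNe (aty ε) (ha1 ε hε) (ha2 ε hε (1 + L))
    (ha3 ε hε) (Eventually.of_forall fun c F hF => hcr ε hε _ F hF)
    (fun U σ => tchL L hΦ hε η t T U σ) measurable_tchL_conf fun U σ => tchL_le_one σ
  simp only [lintegral_tchL] at hmain
  have hb1 := XX_bad1_le (L := L) (t := T) (f₀ := f₀) hΦ hε (1 + L)
  calc (FL.muE ε)⁻¹ * XX Φ ε L f₀ T (fun U S => vp 1 (rsrc Φ ε S) *
          linesum Φ ε S (fun σ => tchL L hΦ hε η t T U σ))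
      ≤ (FL.muE ε)⁻¹ * (FL.muE ε * (C₁ * (∫⁻ σ, θ σ ∂(refM (b / 2) T (dmeas m)) +
            ∫⁻ σ, θ σ ∂(refM (b / 2) T (EX.kap (dmeas m))))) +
          C' * (FL.muE ε * ∫⁻ c, (∫⁻ σ, vp (1 + L) σ ∂(aty ε c)) ∂(GC.PP f₀ ε) +
            XX Φ ε L f₀ T (fun U S => vp (1 + L) (rsrc Φ ε S) *
              ind (S ∈ Bad1 (Als Φ ε L T U))))) := mul_le_mul_right hmain _
    _ ≤ (FL.muE ε)⁻¹ * (FL.muE ε * (C₁ * (C₂ * Nm b' T l₁ l₂ a t θ)) +
          C' * (FL.muE ε * ∫⁻ c, (∫⁻ σ, vp (1 + L) σ ∂(aty ε c)) ∂(GC.PP f₀ ε) +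
            ∫⁻ c, ∫⁻ S in Cap.I1 Φ ε L T (GC.pts c : Set Ph), Cap.pw (1 + L) (ln Φ ε S).2
              ∂(tree (GC.inten f₀ ε) L) ∂(GC.PP f₀ ε))) := by
        refine mul_le_mul_right (add_le_add (mul_le_mul_right (mul_le_mul_right ?_ _)
          _) (mul_le_mul_right (add_le_add le_rfl hb1) _)) _
        refine (add_le_add hr1 hr2).trans ?_
        rw [← add_mul, ← mul_add]
        refine mul_le_mul_left (mul_le_mul_right (add_le_add ?_ ?_) _) _
        · exact inv_dmeas_le hw hm0 hm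
        · exact inv_kap_le hw hm0 hm
    _ = C₁ * C₂ * Nm b' T l₁ l₂ a t θ +
          (C' * ∫⁻ c, (∫⁻ σ, vp (1 + L) σ ∂(aty ε c)) ∂(GC.PP f₀ ε)) +
          (C' * ((FL.muE ε)⁻¹ * ∫⁻ c, ∫⁻ S in Cap.I1 Φ ε L T (GC.pts c : Set Ph),
            Cap.pw (1 + L) (ln Φ ε S).2 ∂(tree (GC.inten f₀ ε) L) ∂(GC.PP f₀ ε))) := by
        have h5 : ∀ x y z : ℝ≥0∞, (FL.muE ε)⁻¹ * (FL.muE ε * x + C' * (FL.muE ε * y + z)) =
            x + C' * y + C' * ((FL.muE ε)⁻¹ * z) := by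
          intro x y z
          have h6 := hμ x
          have h7 := hμ y
          calc (FL.muE ε)⁻¹ * (FL.muE ε * x + C' * (FL.muE ε * y + z)) =
                (FL.muE ε)⁻¹ * (FL.muE ε * x) + C' * ((FL.muE ε)⁻¹ * (FL.muE ε * y)) +
                  C' * ((FL.muE ε)⁻¹ * z) := by ring
            _ = _ := by rw [h6, h7]
        rw [h5, ← mul_assoc C₁ C₂]
    _ ≤ C₁ * C₂ * Nm b' T l₁ l₂ a t θ + ENNReal.ofReal (ρ / 2) + ENNReal.ofReal (ρ / 2) :=
        add_le_add (add_le_add le_rfl e1) e2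
    _ = ENNReal.ofReal ρ + C₁ * C₂ * Nm b' T l₁ l₂ a t θ := by
        rw [add_assoc, ← ENNReal.ofReal_add hρ2.le hρ2.le, add_halves, add_comm]

theorem exT_le_linesum {U : Finset Src} {S : CTree} (hS : S.depth ≤ L) :
    exT L hΦ hε η t w U S ≤ linesum Φ ε S (tchL L hΦ hε η t w U) :=
  le_trans le_add_self (linesum_tchL hS)

/-- The norm of the second events in a window, for fixed parameters. -/
theorem Nm_secS_le' (hg : GoodDatum f₀ κ₀) {b T l₁ l₂ B δ : ℝ} {a : ℕ → ℝ} (hb : 0 < b)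
    (hT : 0 < T) (ha : ∀ n, 0 < a n) (hl₁ : 0 ≤ l₁) (hl₂ : 0 ≤ l₂)
    (hB : ∀ n, a n * Real.exp (l₁ * T * n) ≤ B) (hη : 0 < η) (hηη : η < η')
    (ht : t ∈ Icc 0 T) :
    Nm b T l₁ l₂ a t (secS L hΦ hε f₀ η t δ) ≤
      ENNReal.ofReal (B * Real.exp (l₂ * T)) * (ENNReal.ofReal Real.pi * I0 (b / 2)) *
        (ENNReal.ofReal δ * ((4 + 2 ^ L) *
          ((FL.muE ε)⁻¹ * XX Φ ε L f₀ T (fun U S => vp 1 (rsrc Φ ε S) *
            linesum Φ ε S (fun σ => tchL L hΦ hε η' t T U σ)) +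
          (ENNReal.ofReal (η' - η))⁻¹ * ((FL.muE ε)⁻¹ * ((FL.muE ε)⁻¹ *
            XX Φ ε L f₀ T (fun U S => wln Φ ε S * exsum S fun x => by
              classical
              exact relW L hΦ hε (insert (rsrc Φ ε x) U) U T)))))) := by
  classical
  have hμ0 : FL.muE ε ≠ 0 := (ENNReal.ofReal_pos.2 (GC.mu_pos hε)).ne'
  have hμt : FL.muE ε ≠ ∞ := ENNReal.ofReal_ne_top
  have hε2 : ENNReal.ofReal (ε ^ 2) = (FL.muE ε)⁻¹ := by
    have h1 := FL.muE_mul hε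
    calc ENNReal.ofReal (ε ^ 2) = (FL.muE ε)⁻¹ * (FL.muE ε * ENNReal.ofReal (ε ^ 2)) := by
          rw [← mul_assoc, ENNReal.inv_mul_cancel hμ0 hμt, one_mul]
      _ = _ := by rw [h1, mul_one]
  have hd : 0 < η' - η := by linarith
  have hμp := GC.mu_pos hε
  refine Nm_le fun s hs n => ?_
  have hsT : s ≤ T := hs.2.trans ht.2
  have hwg : wgt l₁ l₂ a s n ≤ B * Real.exp (l₂ * T) := by
    unfold wgt
    have h1 : (l₁ * n + l₂) * s ≤ l₁ * T * n + l₂ * T := by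
      have h2 : l₁ * n * s ≤ l₁ * n * T := mul_le_mul_of_nonneg_left hsT (by positivity)
      have h3 : l₂ * s ≤ l₂ * T := mul_le_mul_of_nonneg_left hsT hl₂
      nlinarith
    calc a n * Real.exp ((l₁ * n + l₂) * s) ≤ a n * Real.exp (l₁ * T * n + l₂ * T) :=
          mul_le_mul_of_nonneg_left (Real.exp_le_exp.2 h1) (ha n).le
      _ = (a n * Real.exp (l₁ * T * n)) * Real.exp (l₂ * T) := by rw [Real.exp_add]; ring
      _ ≤ _ := mul_le_mul_of_nonneg_right (hB n) (Real.exp_pos _).le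
  have hbt : 0 < bt b T s := lt_of_lt_of_le (by linarith) (le_bt hb hT hsT)
  have h1 := secS_line_le (L := L) (hΦ := hΦ) (hε := hε) (f₀ := f₀) hg hbt hη hηη.le ht.1
    (w' := T) ht.2 s δ n
  have h2 : XX Φ ε L f₀ t (fun U S => wln Φ ε S * exT L hΦ hε η' t T U S) ≤
      XX Φ ε L f₀ T (fun U S => vp 1 (rsrc Φ ε S) *
        linesum Φ ε S (fun σ => tchL L hΦ hε η' t T U σ)) := by
    refine le_trans (XX_mono (H' := fun U S => vp 1 (rsrc Φ ε S) *
        linesum Φ ε S (fun σ => tchL L hΦ hε η' t T U σ)) fun U S hS => ?_)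
      (XX_mono_time ht.2 _)
    have hv : wln Φ ε S = vp 1 (rsrc Φ ε S) := by
      unfold wln vp rsrc
      rw [pow_one]
    rw [hv]
    exact mul_le_mul_right (exT_le_linesum hS.depth) _
  have h3 : XX Φ ε L f₀ t (fun U S => wln Φ ε S * exR L hΦ hε (η' - η) t U S) ≤
      (ENNReal.ofReal ((η' - η) * mu ε))⁻¹ * XX Φ ε L f₀ T (fun U S => wln Φ ε S *
        exsum S fun x => relW L hΦ hε (insert (rsrc Φ ε x) U) U T) := by
    have hinv : (ENNReal.ofReal ((η' - η) * mu ε))⁻¹ ≠ ∞ :=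
      ENNReal.inv_ne_top.2 (ENNReal.ofReal_pos.2 (mul_pos hd hμp)).ne'
    refine (XX_mono_time ht.2 _).trans ?_
    unfold XX
    rw [← lintegral_const_mul' _ _ hinv]
    refine lintegral_mono fun c => ?_
    rw [← lintegral_const_mul' _ _ hinv]
    refine lintegral_mono fun S => ?_
    calc ind (alT Φ ε L T (wS (GC.pts c)) S) * (wln Φ ε S *
          exR L hΦ hε (η' - η) t (wS (GC.pts c)) S)
        ≤ ind (alT Φ ε L T (wS (GC.pts c)) S) * (wln Φ ε S *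
          ((ENNReal.ofReal ((η' - η) * mu ε))⁻¹ * exsum S fun x =>
            relW L hΦ hε (insert (rsrc Φ ε x) (wS (GC.pts c))) (wS (GC.pts c)) T)) := by
          refine mul_le_mul_right (mul_le_mul_right ?_ _) _
          exact exR_le hd ht.2 _ _
      _ = _ := by ring
  have hmm : (ENNReal.ofReal ((η' - η) * mu ε))⁻¹ =
      (ENNReal.ofReal (η' - η))⁻¹ * (FL.muE ε)⁻¹ := by
    rw [ENNReal.ofReal_mul hd.le, ENNReal.mul_inv (Or.inr ENNReal.ofReal_ne_top)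
      (Or.inl ENNReal.ofReal_ne_top)]
    rfl
  rw [hmm] at h3
  obtain ⟨X₁, hX₁⟩ : ∃ X, X = XX Φ ε L f₀ T (fun U S => vp 1 (rsrc Φ ε S) *
        linesum Φ ε S (fun σ => tchL L hΦ hε η' t T U σ)) := ⟨_, rfl⟩
  obtain ⟨X₂, hX₂⟩ : ∃ X, X = XX Φ ε L f₀ T (fun U S => wln Φ ε S *
        exsum S fun x => relW L hΦ hε (insert (rsrc Φ ε x) U) U T) := ⟨_, rfl⟩
  have hmin : ENNReal.ofReal (min t (s + δ) - s) ≤ ENNReal.ofReal δ :=
    ENNReal.ofReal_le_ofReal (by linarith [min_le_right t (s + δ)])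
  calc ENNReal.ofReal (wgt l₁ l₂ a s n) * Y b T (secS L hΦ hε f₀ η t δ) s n
      ≤ ENNReal.ofReal (B * Real.exp (l₂ * T)) *
        (ENNReal.ofReal (ε ^ 2) * (ENNReal.ofReal Real.pi * I0 (bt b T s)) *
        (ENNReal.ofReal (min t (s + δ) - s) * ((4 + 2 ^ L) *
          (XX Φ ε L f₀ t (fun U S => wln Φ ε S * exT L hΦ hε η' t T U S) +
            XX Φ ε L f₀ t (fun U S => wln Φ ε S * exR L hΦ hε (η' - η) t U S))))) :=
        mul_le_mul' (ENNReal.ofReal_le_ofReal hwg) h1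
    _ ≤ ENNReal.ofReal (B * Real.exp (l₂ * T)) *
        ((FL.muE ε)⁻¹ * (ENNReal.ofReal Real.pi * I0 (b / 2)) *
        (ENNReal.ofReal δ * ((4 + 2 ^ L) *
          (X₁ + (ENNReal.ofReal (η' - η))⁻¹ * (FL.muE ε)⁻¹ * X₂)))) := by
        rw [hε2]
        have hI : I0 (bt b T s) ≤ I0 (b / 2) := I0_anti (le_bt hb hT hsT)
        have h2' := h2
        have h3' := h3
        rw [← hX₁] at h2'
        rw [← hX₂] at h3'
        gcongr
    _ = _ := by
        rw [hX₁, hX₂]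
        ring

/-- **The second-event term of P10** (windows), with the absolute constant `C` and `2 ^ L`. -/
theorem Nm_secS_le (hΦ : IsPotential Φ) (h₀ : GoodDatum f₀ κ₀) {b b₀ b' M₀ T l₁ l₂ Q : ℝ}
    {α a m : ℕ → ℝ} (hb : 0 < b) (hbb : b ≤ b₀) (hM : 0 ≤ M₀)
    (hf : ∀ z, f₀ z ≤ M₀ * Real.exp (-b₀ * ‖z.2‖ ^ 2)) (hT : 0 < T) (hl₁ : 0 ≤ l₁)
    (hl₂ : 0 ≤ l₂) (hw : Wts α a Q) (hm0 : ∀ n, 0 ≤ m n) (hm : ∀ n, (n + 1) * m n ≤ α n)
    (hb' : 0 < b') (hbb' : b' ≤ b / 2)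
    (hcap : ∀ᶠ L in atTop, CapH Φ f₀ L T b m) (hI1 : ∀ᶠ L in atTop, Cap.InI1 Φ f₀ L T)
    (hE3 : ∀ᶠ L in atTop, ExcE3 hΦ f₀ L T) :
    ∃ C : ℝ, 0 ≤ C ∧ ∀ᶠ L in atTop, ∀ δ ∈ Icc (0 : ℝ) 1, ∀ η η' : ℝ, 0 < η → η < η' →
      ∀ ρ : ℝ, 0 < ρ → ∀ᶠ ε in 𝓝[>] (0 : ℝ), ∀ hε : 0 < ε, ∀ t ∈ Icc 0 T,
        Nm b' T l₁ l₂ a t (secS L hΦ hε f₀ η t δ) ≤ ENNReal.ofReal ρ +
          ENNReal.ofReal (C * 2 ^ L * δ) * Nm b' T l₁ l₂ a t (thL L hΦ hε f₀ η' t T) := by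
  obtain ⟨C₁, hC₁, hmark⟩ := markL_le hΦ h₀ hb hbb hM hf hT hl₁ hl₂ hw hm0 hm hb' hbb' hcap hI1
  obtain ⟨B, hB⟩ := hw.w3 (l₁ * T)
  obtain ⟨K, hK⟩ : ∃ K : ℝ≥0∞, K = ENNReal.ofReal (B * Real.exp (l₂ * T)) *
    (ENNReal.ofReal Real.pi * I0 (b' / 2)) := ⟨_, rfl⟩
  have hKt : K ≠ ∞ := by
    rw [hK]
    exact ENNReal.mul_ne_top ENNReal.ofReal_ne_top
      (ENNReal.mul_ne_top ENNReal.ofReal_ne_top (I0_ne_top (by linarith)))
  obtain ⟨k, hk0, hk⟩ : ∃ k : ℝ, 0 ≤ k ∧ K = ENNReal.ofReal k :=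
    ⟨K.toReal, ENNReal.toReal_nonneg, (ENNReal.ofReal_toReal hKt).symm⟩
  refine ⟨k * 5 * C₁, by positivity, ?_⟩
  filter_upwards [hmark, hE3] with L hmark hE3 δ hδ η η' hη hηη ρ hρ
  have hd : 0 < η' - η := by linarith
  obtain ⟨r, hr, hrρ⟩ : ∃ r : ℝ, 0 < r ∧ k * (5 * 2 ^ L) * (2 * r) ≤ ρ := by
    have h5 : 0 ≤ k * (5 * 2 ^ L) := by positivity
    refine ⟨ρ / (2 * (k * (5 * 2 ^ L) + 1)), by positivity, ?_⟩
    have h6 : k * (5 * 2 ^ L) * (2 * (ρ / (2 * (k * (5 * 2 ^ L) + 1)))) =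
        ρ * (k * (5 * 2 ^ L) / (k * (5 * 2 ^ L) + 1)) := by field_simp
    rw [h6]
    have h7 : k * (5 * 2 ^ L) / (k * (5 * 2 ^ L) + 1) ≤ 1 := by
      rw [div_le_one (by positivity)]
      linarith
    nlinarith
  filter_upwards [hmark η' (hη.trans hηη) r hr, hE3 ((η' - η) * r) (by positivity)]
    with ε e1 e2 hε t ht
  have h1 := Nm_secS_le' (L := L) (hΦ := hΦ) (hε := hε) (f₀ := f₀) (δ := δ) h₀ hb' hT hw.apos
    hl₁ hl₂ hB
    hη hηη ht
  have e1' := e1 hε t ht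
  have e2' := e2 hε
  rw [← hK, hk] at h1
  obtain ⟨N, hN⟩ : ∃ N, N = Nm b' T l₁ l₂ a t (thL L hΦ hε f₀ η' t T) := ⟨_, rfl⟩
  rw [← hN] at e1' ⊢
  have h24 : (4 + 2 ^ L : ℝ≥0∞) ≤ ENNReal.ofReal (5 * 2 ^ L) := by
    have h5 : ENNReal.ofReal (5 * 2 ^ L) = 5 * 2 ^ L := by
      rw [ENNReal.ofReal_mul (by norm_num), ENNReal.ofReal_pow (by norm_num)]
      simp
    rw [h5]
    have h6 : (1 : ℝ≥0∞) ≤ 2 ^ L := one_le_pow₀ one_le_two
    calc (4 + 2 ^ L : ℝ≥0∞) = 4 * 1 + 2 ^ L := by ring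
      _ ≤ 4 * 2 ^ L + 2 ^ L := by gcongr
      _ = 5 * 2 ^ L := by ring
  have h3 : (ENNReal.ofReal (η' - η))⁻¹ * ENNReal.ofReal ((η' - η) * r) = ENNReal.ofReal r := by
    rw [ENNReal.ofReal_mul hd.le, ← mul_assoc, ENNReal.inv_mul_cancel
      (ENNReal.ofReal_pos.2 hd).ne' ENNReal.ofReal_ne_top, one_mul]
  refine h1.trans ?_
  calc _ ≤ ENNReal.ofReal k * (ENNReal.ofReal δ * (ENNReal.ofReal (5 * 2 ^ L) *
        ((ENNReal.ofReal r + ENNReal.ofReal C₁ * N) + (ENNReal.ofReal (η' - η))⁻¹ *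
          ENNReal.ofReal ((η' - η) * r)))) := by
        refine mul_le_mul_right (mul_le_mul_right (mul_le_mul' h24 (add_le_add e1'
          (mul_le_mul_right e2' _))) _) _
    _ = ENNReal.ofReal δ * ENNReal.ofReal (k * (5 * 2 ^ L) * (2 * r)) +
        ENNReal.ofReal (k * 5 * C₁ * 2 ^ L * δ) * N := by
        rw [h3, ENNReal.ofReal_mul (by positivity : 0 ≤ k * (5 * 2 ^ L)),
          ENNReal.ofReal_mul hk0, ENNReal.ofReal_mul (by norm_num : (0 : ℝ) ≤ 2),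
          ENNReal.ofReal_mul (by positivity : 0 ≤ k * 5 * C₁ * 2 ^ L),
          show k * 5 * C₁ * 2 ^ L = k * (5 * 2 ^ L) * C₁ by ring,
          ENNReal.ofReal_mul (by positivity : 0 ≤ k * (5 * 2 ^ L)), ENNReal.ofReal_mul hk0,
          ENNReal.ofReal_ofNat]
        ring
    _ ≤ ENNReal.ofReal ρ + ENNReal.ofReal (k * 5 * C₁ * 2 ^ L * δ) * N := by
        refine add_le_add ?_ le_rfl
        rw [← ENNReal.ofReal_mul hδ.1]
        refine ENNReal.ofReal_le_ofReal ?_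
        have h8 : 0 ≤ k * (5 * 2 ^ L) * (2 * r) := by positivity
        nlinarith [hδ.2, hδ.1]

/-- **The second-event term of P10**, with a constant `K ^ L`. -/
theorem Nm_secS_K (hΦ : IsPotential Φ) (h₀ : GoodDatum f₀ κ₀) {b b₀ b' M₀ T l₁ l₂ Q : ℝ}
    {α a m : ℕ → ℝ} (hb : 0 < b) (hbb : b ≤ b₀) (hM : 0 ≤ M₀)
    (hf : ∀ z, f₀ z ≤ M₀ * Real.exp (-b₀ * ‖z.2‖ ^ 2)) (hT : 0 < T) (hl₁ : 0 ≤ l₁)
    (hl₂ : 0 ≤ l₂) (hw : Wts α a Q) (hm0 : ∀ n, 0 ≤ m n) (hm : ∀ n, (n + 1) * m n ≤ α n)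
    (hb' : 0 < b') (hbb' : b' ≤ b / 2)
    (hcap : ∀ᶠ L in atTop, CapH Φ f₀ L T b m) (hI1 : ∀ᶠ L in atTop, Cap.InI1 Φ f₀ L T)
    (hE3 : ∀ᶠ L in atTop, ExcE3 hΦ f₀ L T) :
    ∃ K : ℝ, 1 ≤ K ∧ ∀ᶠ L in atTop, ∀ δ ∈ Ioc (0 : ℝ) 1, ∀ η η' : ℝ, 0 < η → η < η' → η' ≤ 1 →
      ∀ ρ : ℝ, 0 < ρ → ∀ᶠ ε in 𝓝[>] (0 : ℝ), ∀ hε : 0 < ε, ∀ t ∈ Icc 0 T,
        Nm b' T l₁ l₂ a t (secS L hΦ hε f₀ η t δ) ≤
          ENNReal.ofReal (K ^ L * δ) * Nm b' T l₁ l₂ a t (thL L hΦ hε f₀ η' t T) +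
            ENNReal.ofReal ρ := by
  obtain ⟨C, hC, h⟩ := Nm_secS_le hΦ h₀ hb hbb hM hf hT hl₁ hl₂ hw hm0 hm hb' hbb' hcap hI1 hE3
  refine ⟨2 * (C + 1), by linarith, ?_⟩
  filter_upwards [h, eventually_ge_atTop 1] with L h hL δ hδ η η' hη hηη _ ρ hρ
  filter_upwards [h δ ⟨hδ.1.le, hδ.2⟩ η η' hη hηη ρ hρ] with ε h1 hε t ht
  refine (h1 hε t ht).trans ?_
  rw [add_comm]
  refine add_le_add (mul_le_mul_left (ENNReal.ofReal_le_ofReal ?_) _) le_rfl
  have h2 : C * 2 ^ L ≤ (2 * (C + 1)) ^ L := by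
    rw [mul_pow]
    have h3 : C + 1 ≤ (C + 1) ^ L := le_self_pow₀ (by linarith) (by omega)
    have h4 : (0 : ℝ) < 2 ^ L := by positivity
    nlinarith
  exact mul_le_mul_of_nonneg_right h2 hδ.1.le

end Vale.Agent.P119.PB.EX
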