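import Vale.Agent.P119.PB.Pt5
import Vale.Agent.P119.M.Good

/-!
# P119, block PROB: second events, definitions (`helper178`)

* `HitU`, `StepU`: the deterministic alternatives for a line `l` inserted in a general world `W`,
  up to a horizon `h`, without second events: the tree `T` which is hit by `l` is either touched
  strictly before `h`, or one of the fresh lines or the pair touches `W ∖ T`;
* `TE`: the source `e` touches `V`, before the stopping time of `V + e`;
* `GGL`, `S6`, `main6`, `B6`: the terms of the pointwise inequality for the second events.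
-/

open MeasureTheory Filter Topology Set
open scoped ENNReal NNReal

noncomputable section

namespace Vale.Agent.P119.PB

open M CTree KU FB RB AU FL TL

variable {Φ : E3 → ℝ} {ε : ℝ}

open Classical in
/-- The first contact of the line `l` with the world `W` is the regular hit of the tree `T`, not
later than `τ`. -/
structure HitU (L : ℕ) (hΦ : IsPotential Φ) (hε : 0 < ε) (W : Finset Src) (l : Src) (T : CTree)
    (τ : ℝ) : Prop where
  /-- `T` is a tree of `W` -/
  sub : T.leaves ⊆ (W : Set Src)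
  /-- its depth -/
  depth : T.depth ≤ L
  /-- the lines meet -/
  meets : Meets ε (l.2.1, ln Φ ε T)
  /-- the hit is after the birth of `l` -/
  birth : l.1 < hitT ε (l.2.1, ln Φ ε T)
  /-- ... and not later than `τ` -/
  le : hitT ε (l.2.1, ln Φ ε T) ≤ τ
  /-- `T` flies -/
  ext : ext Φ ε T < hitT ε (l.2.1, ln Φ ε T)
  /-- `T` is alive in `W` -/
  alive : alive Φ ε L (W : Set Src) T (hitT ε (l.2.1, ln Φ ε T))
  /-- the root of `T` is not exposed in `W` -/
  unexp : ∀ q < hitT ε (l.2.1, ln Φ ε T), ¬(RB.Y Φ ε L hΦ hε).Exp W T.root q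
  /-- `l` has no contact before -/
  free : ∀ r < hitT ε (l.2.1, ln Φ ε T), ∀ b,
    ¬mcon Φ ε L ((insert l W : Finset Src) : Set Src) r l b

open Classical in
/-- **The alternatives for a general world `W`**, up to the horizon `h`. -/
inductive StepU (L : ℕ) (hΦ : IsPotential Φ) (hε : 0 < ε) (h : ℝ) (E : Finset Src → CTree → Prop)
    (W : Finset Src) (l : Src) (T : CTree) : Prop
  | deep : L < max l.2.2 T.depth + 1 → StepU L hΦ hε h E W l T
  | exc : E (rm W T) T → StepU L hΦ hε h E W l T
  | felt (s : ℝ) : s < h → fl L hΦ hε W s T → StepU L hΦ hε h E W l T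
  | pair (r : ℝ) : (∀ q < h, ¬(RB.Y Φ ε L hΦ hε).Touch (rm W T) W q) →
      hitT ε (l.2.1, ln Φ ε T) ≤ r → r ≤ h → PCC L hΦ hε (rm W T) l T r → StepU L hΦ hε h E W l T
  | new (m : Src) (σ : ℝ) : (∀ q < h, ¬(RB.Y Φ ε L hΦ hε).Touch (rm W T) W q) →
      Frs Φ ε l T m → σ ≤ h → (RB.Y Φ ε L hΦ hε).Touch (rm W T) (insert m (rm W T)) σ →
      StepU L hΦ hε h E W l T

open Classical in
/-- **The deterministic step** for the line `l` and the world `W` (`I`: the first contact is
irregular): for every first touch time `τ` and every horizon `h ≥ τ`. -/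
def StepHyp (L : ℕ) (hΦ : IsPotential Φ) (hε : 0 < ε) (t : ℝ) (I : Prop)
    (E : Finset Src → CTree → Prop) (W : Finset Src) (l : Src) : Prop :=
  ∀ τ h, 0 ≤ τ → τ ≤ h → h ≤ t → (RB.Y Φ ε L hΦ hε).Touch W (insert l W) τ →
    (∀ s < τ, ¬(RB.Y Φ ε L hΦ hε).Touch W (insert l W) s) →
    FB.Direct Φ ε L hΦ hε W l τ ∨ I ∨ ∃ T, HitU L hΦ hε W l T τ ∧ StepU L hΦ hε h E W l T

variable (L : ℕ) (hΦ : IsPotential Φ) (hε : 0 < ε)

open Classical in
/-- The source `e` touches `V`, before the stopping time of `V + e`. -/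
def TE (η t : ℝ) (V : Finset Src) (e : Src) : Prop :=
  (RB.Y Φ ε L hΦ hε).Touch V (insert e V) (hz L hΦ hε η t (insert e V))

open Classical in
/-- Second events for the depths at most `L`. -/
def GGL (η t : ℝ) (V : Finset Src) (e m : Src) : ℝ≥0∞ :=
  if m.2.2 ≤ L then ind (GG L hΦ hε η t V e m) else 0

open Classical in
/-- `m` is in contact with an exposed label of `V + e`. -/
def DirG (η t w : ℝ) (V : Finset Src) (e m : Src) : Prop :=
  TE L hΦ hε η t V e ∧ DirC L hΦ hε η t w (insert e V) m

open Classical in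
/-- `m` hits, not before `u`, a tree of `V` which is felt in `V + e` strictly before the stopping
time. -/
def FelL (η t u : ℝ) (V : Finset Src) (e m : Src) : Prop :=
  TE L hΦ hε η t V e ∧ ∃ T ∈ trs L V, Meets ε (m.2.1, ln Φ ε T) ∧
    m.1 < hitT ε (m.2.1, ln Φ ε T) ∧ u ≤ hitT ε (m.2.1, ln Φ ε T) ∧
    hitT ε (m.2.1, ln Φ ε T) ≤ hz L hΦ hε η t (insert e V) ∧
    ∃ s < hz L hΦ hε η t (insert e V), fl L hΦ hε (insert e V) s T

open Classical in
/-- `e` touches before `u`. -/
def TEu (η t u : ℝ) (V : Finset Src) (e m : Src) : Prop :=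
  m.1 < u ∧ (RB.Y Φ ε L hΦ hε).Touch V (insert e V) (min (hz L hΦ hε η t (insert e V)) u)

open Classical in
/-- `m` hits, before `u`, a tree which is felt in `V`. -/
def FelS (η t u : ℝ) (V : Finset Src) (e m : Src) : Prop :=
  TE L hΦ hε η t V e ∧ ∃ T ∈ trs L V, Meets ε (m.2.1, ln Φ ε T) ∧
    m.1 < hitT ε (m.2.1, ln Φ ε T) ∧ hitT ε (m.2.1, ln Φ ε T) < u ∧
    hitT ε (m.2.1, ln Φ ε T) ≤ hz L hΦ hε η t V ∧ fl L hΦ hε V (hz L hΦ hε η t V) T

/-- The terms of order zero. -/
def S6 (η t w u : ℝ) (V : Finset Src) (e m : Src) : ℝ≥0∞ :=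
  ind (DirG L hΦ hε η t w V e m) + ind (FelL L hΦ hε η t u V e m) +
    ind (TEu L hΦ hε η t u V e m) + ind (FelS L hΦ hε η t u V e m)

open Classical in
/-- The pair of `m` and its partner is in contact with an exposed label of `V + e`. -/
def PairG (η t w : ℝ) (V : Finset Src) (e m : Src) (z' : Ph) : Prop :=
  TE L hΦ hε η t V e ∧ PairC L hΦ hε η t w (insert e V) m z'

open Classical in
/-- The terms with one typical partner. -/
def main6 (η t w u : ℝ) (V : Finset Src) (e m : Src) (z' : Ph) (n : ℕ) : ℝ≥0∞ :=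
  ind (PairG L hΦ hε η t w V e m z') + fresh Φ ε t (GGL L hΦ hε η t V e) m z' n +
    (if hitT ε (m.2.1, z') < u then ind (TE L hΦ hε η t V e) else 0)

open Classical in
/-- The exceptional terms without a partner. -/
def I6 (θ t : ℝ) (I : Prop) (U : Finset Src) (e m : Src) : Prop :=
  I ∨ ¬M.Good Φ ε L U (fun a : Src => ({a} : Finset Src)) {e, m} t ∨
    ENNReal.ofReal (θ * mu ε) < relW L hΦ hε (insert e U) U t

open Classical in
/-- The line `m` hits the tree `T` in the world `V + e + T` (after the exit of `T`, which is alive with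
an unexposed root); `e` and `m` do not interact over `V + T`. -/
structure Hit6 (t : ℝ) (V : Finset Src) (e m : Src) (T : CTree) : Prop where
  hit : HitR L hΦ hε m (insert e V) T
  good : M.Good Φ ε L (addT V T) (fun a : Src => ({a} : Finset Src)) {e, m} t
  notMem : e ∉ T.leaves
  al : M.alive Φ ε L (addT V T : Set Src) T (hitT ε (m.2.1, ln Φ ε T))

open Classical in
/-- The trees which are hit by `m` and not independent of `e`. -/
def relHit (t : ℝ) (E : Finset Src → CTree → Prop) (U : Finset Src) (e m : Src) : ℝ≥0∞ :=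
  sumHit Φ ε L t m (fun V T => ind (Hit6 L hΦ hε t V e m T ∧ ¬E (insert e V) T ∧
    ¬FB.Sys.Square (RB.Y Φ ε L hΦ hε) V (insert e V) (addT V T) (addT (insert e V) T) t)) U

open Classical in
/-- The exceptional terms with a partner. -/
def B6 (θ t : ℝ) (E : Finset Src → CTree → Prop) (e m : Src) (V : Finset Src) (T : CTree) : ℝ≥0∞ :=
  ind (Hit6 L hΦ hε t V e m T ∧ E (insert e V) T) +
    ind (Hit6 L hΦ hε t V e m T ∧ ¬E (insert e V) T ∧ ENNReal.ofReal (θ * mu ε) <
      relW L hΦ hε (addT (insert e V) T) (insert e V) t)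

open Classical in
/-- **The pointwise inequality for the second events.** -/
def Pt6 (η η' t w u : ℝ) (U : Finset Src) (e m : Src) (I : Prop) (E : Finset Src → CTree → Prop) :
    Prop :=
  GGL L hΦ hε η t U e m ≤ S6 L hΦ hε η' t w u U e m +
    sumHit Φ ε L t m (fun V T => main6 L hΦ hε η' t w u V e m (ln Φ ε T) T.depth) U +
    sumHit Φ ε L t m (fun _ T => ovr L m T) U +
    (ind (TE L hΦ hε η t U e ∧ I6 L hΦ hε (η' - η) t I U e m) + relHit L hΦ hε t E U e m +
      sumHit Φ ε L t m (B6 L hΦ hε (η' - η) t E e m) U)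

end Vale.Agent.P119.PB
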