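import Vale.Agent.P119.PB.Def
import Vale.Agent.P119.FB.Conc1

/-!
# P119, block PROB, P9 (contamination): definitions (`helper909`)

* `fex W a τ`: the label `a` is exposed for the first time at `τ`;
* `FE W h T`: the root of `T` is exposed for the first time at some `τ ≤ h`, `T` is its tree just
  before `τ`, `T` is over (flying; a source or `ext T ≤ τ`), and the root is not bad at `τ`;
* `PE W h x y`: the same for a colliding tree `node x y`;
* `CE W h T`: the root of `T`, or its partner if it is colliding, is bad at the first exposure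
  `τ ≤ h`, and `T` is its tree just before `τ`;
* `DirF`, `DirP`: direct contact of the root line of `T`, of the colliding pair `(x, y)`, with an
  exposed label of the base world;
* `TwoF`, `TwoP`: second events (`rsrc x` is the source on the line of `x`, born at the exit).
-/

open MeasureTheory Filter Topology Set
open scoped ENNReal NNReal

noncomputable section

namespace Vale.Agent.P119.PB

open M CTree KU FB RB AU

variable {Φ : E3 → ℝ} {ε : ℝ} (L : ℕ) (hΦ : IsPotential Φ) (hε : 0 < ε)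

/-- The label `a` is exposed for the first time at `τ`. -/
def fex (W : Finset Src) (a : Src) (τ : ℝ) : Prop :=
  (Y Φ ε L hΦ hε).Exp W a τ ∧ ∀ s < τ, ¬(Y Φ ε L hΦ hε).Exp W a s

/-- **Flying exposure.** -/
def FE (W : Finset Src) (h : ℝ) (T : CTree) : Prop :=
  ∃ τ ≤ h, fex L hΦ hε W T.root τ ∧ EN.PS Φ ε L (W : Set Src) T.root τ T ∧
    (T = leaf T.root ∨ ext Φ ε T ≤ τ) ∧ ¬badc Φ ε L (W : Set Src) T.root τ

/-- **Exposure of a colliding pair.** -/
def PE (W : Finset Src) (h : ℝ) (x y : CTree) : Prop :=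
  ∃ τ ≤ h, fex L hΦ hε W x.root τ ∧ live Φ ε L (W : Set Src) (node x y) τ ∧
    sig Φ ε (node x y) < τ ∧ τ < ext Φ ε (node x y) ∧ ¬badc Φ ε L (W : Set Src) x.root τ ∧
    ¬badc Φ ε L (W : Set Src) y.root τ

/-- **Creation**: the label, or its partner, is bad when it is exposed. -/
def CE (W : Finset Src) (h : ℝ) (T : CTree) : Prop :=
  ∃ τ ≤ h, fex L hΦ hε W T.root τ ∧ EN.PS Φ ε L (W : Set Src) T.root τ T ∧
    (badc Φ ε L (W : Set Src) T.root τ ∨ ∃ x y, T = node x y ∧ τ ≤ ext Φ ε T ∧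
      badc Φ ε L (W : Set Src) y.root τ)

/-- **Direct contact of the root line** of `T` with an exposed label of `U` up to the time `h`. -/
def DirF (U : Finset Src) (h : ℝ) (T : CTree) : Prop :=
  ∃ r ≤ h, ext Φ ε T ≤ r ∧ ∃ b, (Y Φ ε L hΦ hε).Exp U b r ∧
    Hits Φ ε L U b r (KU.free r (ln Φ ε T))

/-- **Direct contact of the colliding pair** `(x, y)` with an exposed label of `U` up to `h`. -/
def DirP (U : Finset Src) (h : ℝ) (x y : CTree) : Prop :=
  ∃ r ≤ h, sig Φ ε (node x y) < r ∧ r ≤ ext Φ ε (node x y) ∧ ∃ b, (Y Φ ε L hΦ hε).Exp U b r ∧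
    (Hits Φ ε L U b r (st Φ ε (node x y) r) ∨
      Hits Φ ε L U b r (st Φ ε (node y x) r))

/-- **Second events of a tree**: `e`, an exhaust, touches `U`, and another line touches `U + e`. -/
def TwoF (η t : ℝ) (U : Finset Src) (T : CTree) : Prop :=
  ∃ e ∈ TL.exs T, ∃ m ∈ TL.outs T, m ≠ e ∧ GG L hΦ hε η t U (rsrc Φ ε e) (rsrc Φ ε m)

open Classical in
/-- **Second events of a colliding pair**: `e`, an exhaust of `x` or `y`, touches `U`, and another
exhaust touches `U + e`, or the pair makes a direct contact with an exposed label of `U + e`. -/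
def TwoP (η t : ℝ) (U : Finset Src) (x y : CTree) : Prop :=
  ∃ e ∈ TL.exs x ∪ TL.exs y, (∃ m ∈ TL.exs x ∪ TL.exs y, m ≠ e ∧
      GG L hΦ hε η t U (rsrc Φ ε e) (rsrc Φ ε m)) ∨
    ((Y Φ ε L hΦ hε).Touch U (insert (rsrc Φ ε e) U) (hz L hΦ hε η t (insert (rsrc Φ ε e) U)) ∧
      DirP L hΦ hε (insert (rsrc Φ ε e) U) (hz L hΦ hε η t (insert (rsrc Φ ε e) U)) x y)

variable {L hΦ hε} {W : Finset Src} {a : Src} {T x y : CTree} {s τ h h' : ℝ}

theorem fex.nonneg (hf : fex L hΦ hε W a τ) : 0 ≤ τ := hf.1.nonneg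

theorem fex.unique {τ' : ℝ} (hf : fex L hΦ hε W a τ) (hf' : fex L hΦ hε W a τ') : τ = τ' := by
  rcases lt_trichotomy τ τ' with h1 | h1 | h1
  · exact absurd hf.1 (hf'.2 τ h1)
  · exact h1
  · exact absurd hf'.1 (hf.2 τ' h1)

theorem exists_fex (ha : (Y Φ ε L hΦ hε).Exp W a s) : ∃ τ ≤ s, fex L hΦ hε W a τ := by
  obtain ⟨τ, h1, h2, h3⟩ := (FB.Sys.exp_closed (Y := Y Φ ε L hΦ hε) W a).first
    (fun s hs => FB.Sys.Exp.nonneg hs) (t := s) ha
  exact ⟨τ, h1, h2, h3⟩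

theorem FE.mono (hF : FE L hΦ hε W h T) (hh : h ≤ h') : FE L hΦ hε W h' T := by
  obtain ⟨τ, h1, h2⟩ := hF
  exact ⟨τ, h1.trans hh, h2⟩

theorem PE.mono (hF : PE L hΦ hε W h x y) (hh : h ≤ h') : PE L hΦ hε W h' x y := by
  obtain ⟨τ, h1, h2⟩ := hF
  exact ⟨τ, h1.trans hh, h2⟩

theorem CE.mono (hF : CE L hΦ hε W h T) (hh : h ≤ h') : CE L hΦ hε W h' T := by
  obtain ⟨τ, h1, h2⟩ := hF
  exact ⟨τ, h1.trans hh, h2⟩

/-- `EN.tau` is the first exposure. -/
theorem tau_eq_of_fex (hf : fex L hΦ hε W a τ) : EN.tau (ex L hΦ hε W) a = τ := by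
  unfold EN.tau
  refine IsLeast.csInf_eq ⟨mem_ex.2 hf.1, fun s hs => ?_⟩
  by_contra hcon
  exact hf.2 s (not_le.1 hcon) (mem_ex.1 hs)

theorem ext_le_of_flying (hf : T = leaf T.root ∨ ext Φ ε T ≤ τ)
    (hl : M.live Φ ε L (W : Set Src) T τ) : ext Φ ε T ≤ τ := by
  rcases hf with hf | hf
  · have h1 := hl.sig_le
    rw [hf] at h1 ⊢
    exact h1
  · exact hf

theorem FE.live (hF : FE L hΦ hε W h T) : alive Φ ε L (W : Set Src) T (ext Φ ε T) := by
  obtain ⟨τ, -, -, h1, h2, -⟩ := hF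
  have h3 := ext_le_of_flying h2 h1.2.1
  rw [alive_iff_live hΦ hε W.finite_toSet]
  exact ⟨h1.2.1.anti h3 (sig_le_ext hΦ hε h1.2.1.ok), le_rfl⟩

theorem FE.mem_trs (hF : FE L hΦ hε W h T) : T ∈ trs L W := by
  obtain ⟨τ, -, -, h1, h2, -⟩ := hF
  exact PB.mem_trs.2 ⟨h1.2.1.sub, h1.2.1.depth⟩

theorem FE.ext_le (hF : FE L hΦ hε W h T) : ext Φ ε T ≤ h := by
  obtain ⟨τ, h0, -, h1, h2, -⟩ := hF
  exact (ext_le_of_flying h2 h1.2.1).trans h0

end Vale.Agent.P119.PB
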