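import Vale.Agent.P119.PB.X
import Vale.Agent.P119.PB.ContDef
import Vale.Agent.P119.RM.Exs

/-!
# P119, block PROB, P9 (contamination): integrals over a colliding pair inserted in the gas
(`helper909`)

* `wq`, `wqP`: the weights of a flying tree, of a colliding pair;
* `onN F`: the function of trees `node x y ↦ F x y`;
* `coT t U x y`: the colliding tree `node x y` is live at the beginning of the collision in the world
  `U + node x y`, and the collision begins not after `t`;
* `XP f₀ t H = E_U ∫∫ tree(dx) tree(dy) 1{coT t U x y} H U x y`;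
* `gibbsP`: the sum over the colliding trees of the gas is at most `XP`.
-/

open MeasureTheory Filter Topology Set
open scoped ENNReal NNReal

noncomputable section

namespace Vale.Agent.P119.PB

open M CTree KU FB RB AU

variable {Φ : E3 → ℝ} {ε : ℝ} {L : ℕ}

/-! ### Weights -/

/-- The weight of a flying tree. -/
def wq (Φ : E3 → ℝ) (ε : ℝ) (T : CTree) : ℝ≥0∞ := ENNReal.ofReal (1 + ‖(ln Φ ε T).2‖ ^ 2)

/-- The weight of a colliding pair. -/
def wqP (Φ : E3 → ℝ) (ε : ℝ) (x y : CTree) : ℝ≥0∞ :=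
  ENNReal.ofReal (1 + (‖(ln Φ ε x).2‖ ^ 2 + ‖(ln Φ ε y).2‖ ^ 2))

theorem measurable_wq (hΦ : IsPotential Φ) (hε : 0 < ε) : Measurable (wq Φ ε) := by
  unfold wq
  exact ENNReal.measurable_ofReal.comp (measurable_const.add
    (((M.measurable_ln hΦ hε.ne').snd.norm).pow_const 2))

theorem measurable_wqP (hΦ : IsPotential Φ) (hε : 0 < ε) {X : Type*} [MeasurableSpace X]
    {x y : X → CTree} (hx : Measurable x) (hy : Measurable y) :
    Measurable fun q => wqP Φ ε (x q) (y q) := by
  unfold wqP
  have h1 : Measurable fun q => ‖(ln Φ ε (x q)).2‖ ^ 2 :=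
    (((M.measurable_ln hΦ hε.ne').comp hx).snd.norm).pow_const 2
  have h2 : Measurable fun q => ‖(ln Φ ε (y q)).2‖ ^ 2 :=
    (((M.measurable_ln hΦ hε.ne').comp hy).snd.norm).pow_const 2
  exact ENNReal.measurable_ofReal.comp (measurable_const.add (h1.add h2))

theorem wq_ne_top {T : CTree} : wq Φ ε T ≠ ∞ := ENNReal.ofReal_ne_top

theorem wqP_ne_top {x y : CTree} : wqP Φ ε x y ≠ ∞ := ENNReal.ofReal_ne_top

/-! ### Functions of the two sides of the last node -/

/-- The function of the two sides of the last node; `0` on the leaves. -/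
def onN (F : CTree → CTree → ℝ≥0∞) : CTree → ℝ≥0∞
  | leaf _ => 0
  | node x y => F x y

theorem onN_leaf (F : CTree → CTree → ℝ≥0∞) (a : Src) : onN F (leaf a) = 0 := rfl

theorem onN_node (F : CTree → CTree → ℝ≥0∞) (x y : CTree) : onN F (node x y) = F x y := rfl

theorem onN_mono {F G : CTree → CTree → ℝ≥0∞} (h : ∀ x y, F x y ≤ G x y) (T : CTree) :
    onN F T ≤ onN G T := by
  cases T with
  | leaf a => exact le_rfl
  | node x y => exact h x y

theorem onN_add (F G : CTree → CTree → ℝ≥0∞) (T : CTree) :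
    onN (fun x y => F x y + G x y) T = onN F T + onN G T := by
  cases T with
  | leaf a => exact (add_zero _).symm
  | node x y => rfl

theorem measurable_onN {X : Type*} [MeasurableSpace X] {F : X → CTree → CTree → ℝ≥0∞}
    (hF : Measurable fun p : X × CTree × CTree => F p.1 p.2.1 p.2.2) {T : X → CTree}
    (hT : Measurable T) : Measurable fun q => onN (F q) (T q) := by
  classical
  have e : (fun q => onN (F q) (T q)) = fun q => if T q ∈ {T : CTree | ∃ a b, T = node a b} then
      F q (RM.lft (T q)) (RM.rgt (T q)) else 0 := by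
    funext q
    cases h : T q with
    | leaf a =>
      rw [if_neg]
      · rfl
      · rintro ⟨a', b', h'⟩
        exact absurd h' (by simp)
    | node x y =>
      rw [if_pos ⟨x, y, rfl⟩]
      rfl
  rw [e]
  refine Measurable.ite (hT RM.measurableSet_isNode) ?_ measurable_const
  exact hF.comp (measurable_id.prodMk ((RM.measurable_lft.comp hT).prodMk
    (RM.measurable_rgt.comp hT)))

/-! ### Colliding trees -/

/-- `node x y` is a colliding tree, live at the beginning of the collision in the world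
`U + node x y`, and the collision begins not after `t`. -/
structure coT (Φ : E3 → ℝ) (ε : ℝ) (L : ℕ) (t : ℝ) (U : Finset Src) (x y : CTree) : Prop where
  ok : ok Φ ε (node x y)
  depth : (node x y).depth ≤ L
  sig_le : sig Φ ε (node x y) ≤ t
  live : live Φ ε L (addT U (node x y) : Set Src) (node x y) (sig Φ ε (node x y))

theorem coT.mono {s t : ℝ} {U : Finset Src} {x y : CTree} (h : coT Φ ε L s U x y) (hst : s ≤ t) :
    coT Φ ε L t U x y := ⟨h.ok, h.depth, h.sig_le.trans hst, h.live⟩

theorem measurableSet_coT (hΦ : IsPotential Φ) (hε : 0 < ε) {X : Type*} [MeasurableSpace X]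
    {W : X → Finset Src} {x y : X → CTree} {t : X → ℝ} (hW : MM.RS fun q => (W q : Set Src))
    (hx : Measurable x) (hy : Measurable y) (ht : Measurable t) :
    MeasurableSet {q | coT Φ ε L (t q) (W q) (x q) (y q)} := by
  have hT : Measurable fun q => node (x q) (y q) := measurable_node.comp (hx.prodMk hy)
  have hs : Measurable fun q => sig Φ ε (node (x q) (y q)) :=
    (measurable_sig hΦ hε.ne').comp hT
  have h1 : MeasurableSet {q | M.CTree.ok Φ ε (node (x q) (y q))} := hT (measurableSet_ok hΦ hε.ne')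
  have h2 : MeasurableSet {q | (node (x q) (y q)).depth ≤ L} :=
    (measurable_depth.comp hT) (measurableSet_Iic (a := L))
  have h3 : MeasurableSet {q | sig Φ ε (node (x q) (y q)) ≤ t q} := measurableSet_le hs ht
  have h4 : MeasurableSet {q | M.live Φ ε L (addT (W q) (node (x q) (y q)) : Set Src)
      (node (x q) (y q)) (sig Φ ε (node (x q) (y q)))} :=
    MM.measurableSet_tree_live hΦ hε (rs_addT hW hT) hT hs
  have e : {q | coT Φ ε L (t q) (W q) (x q) (y q)} = {q | M.CTree.ok Φ ε (node (x q) (y q))} ∩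
      ({q | (node (x q) (y q)).depth ≤ L} ∩ ({q | sig Φ ε (node (x q) (y q)) ≤ t q} ∩
        {q | M.live Φ ε L (addT (W q) (node (x q) (y q)) : Set Src)
          (node (x q) (y q)) (sig Φ ε (node (x q) (y q)))})) := by
    ext q
    exact ⟨fun h => ⟨h.ok, h.depth, h.sig_le, h.live⟩, fun h => ⟨h.1, h.2.1, h.2.2.1, h.2.2.2⟩⟩
  rw [e]
  exact h1.inter (h2.inter (h3.inter h4))

/-- The exposed pairs are colliding. -/
theorem coT_of_live {W : Finset Src} {x y : CTree} {τ t : ℝ}
    (h : live Φ ε L (W : Set Src) (node x y) τ) (ht : τ ≤ t) :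
    coT Φ ε L t (rm W (node x y)) x y := by
  refine ⟨h.ok, h.depth, h.sig_le.trans ht, ?_⟩
  rw [addT_rm h.sub]
  exact h.anti h.sig_le le_rfl

variable (Φ ε L)

/-- The integral of `H U x y` over the gas `U` and an inserted colliding pair `x`, `y`. -/
def XP (f₀ : Ph → ℝ) (t : ℝ) (H : Finset Src → CTree → CTree → ℝ≥0∞) : ℝ≥0∞ :=
  ∫⁻ c, ∫⁻ T, onN (fun x y => ind (coT Φ ε L t (wS (GC.pts c)) x y) * H (wS (GC.pts c)) x y) T
    ∂(tree (GC.inten f₀ ε) L) ∂(GC.PP f₀ ε)

variable {Φ ε L} {f₀ : Ph → ℝ} {κ t s : ℝ}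

theorem XP_mono {H H' : Finset Src → CTree → CTree → ℝ≥0∞}
    (h : ∀ U x y, coT Φ ε L t U x y → H U x y ≤ H' U x y) :
    XP Φ ε L f₀ t H ≤ XP Φ ε L f₀ t H' := by
  unfold XP
  refine lintegral_mono fun c => lintegral_mono fun T => onN_mono (fun x y => ?_) T
  by_cases hT : coT Φ ε L t (wS (GC.pts c)) x y
  · exact mul_le_mul_right (h _ _ _ hT) _
  · rw [ind_of_not hT, zero_mul]
    exact zero_le

theorem XP_le_XP (hst : s ≤ t) {H H' : Finset Src → CTree → CTree → ℝ≥0∞}
    (h : ∀ U x y, H U x y ≤ H' U x y) : XP Φ ε L f₀ s H ≤ XP Φ ε L f₀ t H' := by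
  unfold XP
  refine lintegral_mono fun c => lintegral_mono fun T => onN_mono (fun x y => ?_) T
  exact mul_le_mul' (ind_mono fun h' => h'.mono hst) (h _ _ _)

theorem measurable_XPi (hΦ : IsPotential Φ) (hε : 0 < ε) {H : Finset Src → CTree → CTree → ℝ≥0∞}
    (hH : Measurable fun p : (CTree × CTree) × GC.Conf Ph => H (wS (GC.pts p.2)) p.1.1 p.1.2)
    (t : ℝ) : Measurable fun p : CTree × GC.Conf Ph =>
      onN (fun x y => ind (coT Φ ε L t (wS (GC.pts p.2)) x y) * H (wS (GC.pts p.2)) x y) p.1 := by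
  refine measurable_onN (F := fun (p : CTree × GC.Conf Ph) x y =>
    ind (coT Φ ε L t (wS (GC.pts p.2)) x y) * H (wS (GC.pts p.2)) x y) ?_ measurable_fst
  have h1 : MM.RS fun p : (CTree × GC.Conf Ph) × CTree × CTree =>
      (wS (GC.pts p.1.2) : Set Src) := RM.rs_wS (measurable_snd.comp measurable_fst)
  have h2 : Measurable fun p : (CTree × GC.Conf Ph) × CTree × CTree =>
      ind (coT Φ ε L t (wS (GC.pts p.1.2)) p.2.1 p.2.2) :=
    measurable_ind (measurableSet_coT hΦ hε h1 (measurable_fst.comp measurable_snd)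
      (measurable_snd.comp measurable_snd) measurable_const)
  have h3 : Measurable fun p : (CTree × GC.Conf Ph) × CTree × CTree =>
      (((p.2.1, p.2.2), p.1.2) : (CTree × CTree) × GC.Conf Ph) :=
    measurable_snd.prodMk (measurable_snd.comp measurable_fst)
  exact h2.mul (hH.comp h3)

theorem XP_add (hΦ : IsPotential Φ) (hε : 0 < ε) {H H' : Finset Src → CTree → CTree → ℝ≥0∞}
    (hH : Measurable fun p : (CTree × CTree) × GC.Conf Ph => H (wS (GC.pts p.2)) p.1.1 p.1.2)
    (h : GoodDatum f₀ κ) :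
    XP Φ ε L f₀ t (fun U x y => H U x y + H' U x y) = XP Φ ε L f₀ t H + XP Φ ε L f₀ t H' := by
  have := GC.isFiniteMeasure_inten (ε := ε) h
  have hm := measurable_XPi (L := L) hΦ hε hH t
  have hm' : Measurable fun p : GC.Conf Ph × CTree =>
      onN (fun x y => ind (coT Φ ε L t (wS (GC.pts p.1)) x y) * H (wS (GC.pts p.1)) x y) p.2 :=
    hm.comp measurable_swap
  have hA : Measurable fun c : GC.Conf Ph => ∫⁻ T, onN (fun x y =>
      ind (coT Φ ε L t (wS (GC.pts c)) x y) * H (wS (GC.pts c)) x y) T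
        ∂(tree (GC.inten f₀ ε) L) := hm'.lintegral_prod_right'
  have h1 : ∀ c : GC.Conf Ph, Measurable fun T : CTree => onN (fun x y =>
      ind (coT Φ ε L t (wS (GC.pts c)) x y) * H (wS (GC.pts c)) x y) T := fun c =>
    hm.comp (measurable_id.prodMk measurable_const)
  have h2 : ∀ c : GC.Conf Ph, ∫⁻ T, onN (fun x y => ind (coT Φ ε L t (wS (GC.pts c)) x y) *
      (H (wS (GC.pts c)) x y + H' (wS (GC.pts c)) x y)) T ∂(tree (GC.inten f₀ ε) L) =
      ∫⁻ T, onN (fun x y => ind (coT Φ ε L t (wS (GC.pts c)) x y) * H (wS (GC.pts c)) x y) T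
        ∂(tree (GC.inten f₀ ε) L) + ∫⁻ T, onN (fun x y =>
          ind (coT Φ ε L t (wS (GC.pts c)) x y) * H' (wS (GC.pts c)) x y) T
        ∂(tree (GC.inten f₀ ε) L) := by
    intro c
    rw [← lintegral_add_left (h1 c)]
    refine lintegral_congr fun T => ?_
    rw [← onN_add]
    simp only [mul_add]
  unfold XP
  rw [lintegral_congr h2, lintegral_add_left hA]

/-- **Extraction of a colliding tree from the gas.** -/
theorem gibbsP (hΦ : IsPotential Φ) (h : GoodDatum f₀ κ) (hε : 0 < ε)
    {H : Finset Src → CTree → CTree → ℝ≥0∞}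
    (hH : Measurable fun p : (CTree × CTree) × GC.Conf Ph => H (wS (GC.pts p.2)) p.1.1 p.1.2) :
    ∫⁻ c, ∑ T ∈ trs L (wS (GC.pts c)), onN (fun x y =>
      ind (coT Φ ε L t (rm (wS (GC.pts c)) (node x y)) x y) *
        H (rm (wS (GC.pts c)) (node x y)) x y) T ∂(GC.PP f₀ ε) ≤ XP Φ ε L f₀ t H := by
  classical
  have hfin := GC.isFiniteMeasure_inten (ε := ε) h
  have hprob := GC.isProbability_PP (ε := ε) h
  have hm := measurable_XPi (L := L) hΦ hε hH t
  have h1 := extract_le (Φ := Φ) (ε := ε) (L := L) (ν := GC.inten f₀ ε) (C := GC.Cx ε)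
    (GC.measurableSet_Cx ε) (GC.Cx_symm ε) (GC.Cx_irrefl hε.le)
    (F := fun T w => onN (fun x y => ind (coT Φ ε L t (wS w) x y) * H (wS w) x y) T)
    (fun T w hne => by
      cases T with
      | leaf a => exact absurd rfl hne
      | node x y =>
        by_cases hT : coT Φ ε L t (wS w) x y
        · exact ⟨hT.ok, hT.depth⟩
        · rw [onN_node, ind_of_not hT, zero_mul] at hne
          exact absurd rfl hne) hm
  refine le_trans ?_ (h1.trans (le_of_eq ?_))
  · refine lintegral_mono fun c => ?_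
    refine le_trans (Finset.sum_le_sum fun T hT => ?_) (ENNReal.sum_le_tsum (trs L (wS (GC.pts c))))
    obtain ⟨h2, h3⟩ := mem_trs.1 hT
    rw [if_pos (by rw [← coe_wS]; exact h2)]
    cases T with
    | leaf a => exact le_rfl
    | node x y => rw [onN_node, onN_node, wS_rem]
  · rw [lintegral_lintegral_swap hm.aemeasurable]
    rfl

end Vale.Agent.P119.PB
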