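import Vale.Agent.P119.PB.ContCount
import Vale.Agent.P119.PB.ContX

/-!
# P119, block PROB, P9 (contamination): the refined count (`helper456`)

* `CEF`: creation by a flying tree, `CEP`: creation by a colliding pair;
* `eW_le_cont4`: the exposed energy is at most the sum over the trees which are flying, colliding,
  or bad at the first exposure.
-/

open MeasureTheory Filter Topology Set
open scoped ENNReal NNReal

noncomputable section

namespace Vale.Agent.P119.PB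

open M CTree KU FB RB AU

variable {Φ : E3 → ℝ} {ε : ℝ} {L : ℕ} (hΦ : IsPotential Φ) (hε : 0 < ε)

variable (L) in
/-- **Creation, flying.** -/
def CEF (W : Finset Src) (h : ℝ) (T : CTree) : Prop :=
  ∃ τ ≤ h, fex L hΦ hε W T.root τ ∧ EN.PS Φ ε L (W : Set Src) T.root τ T ∧
    (T = leaf T.root ∨ ext Φ ε T ≤ τ) ∧ badc Φ ε L (W : Set Src) T.root τ

variable (L) in
/-- **Creation, colliding.** -/
def CEP (W : Finset Src) (h : ℝ) (x y : CTree) : Prop :=
  ∃ τ ≤ h, fex L hΦ hε W x.root τ ∧ live Φ ε L (W : Set Src) (node x y) τ ∧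
    sig Φ ε (node x y) < τ ∧ τ < ext Φ ε (node x y) ∧ (badc Φ ε L (W : Set Src) x.root τ ∨
      badc Φ ε L (W : Set Src) y.root τ)

variable {hΦ hε} {W : Finset Src} {h h' : ℝ} {c : Src} {T x y : CTree}

theorem CEF.mono (hF : CEF L hΦ hε W h T) (hh : h ≤ h') : CEF L hΦ hε W h' T := by
  obtain ⟨τ, h1, h2⟩ := hF
  exact ⟨τ, h1.trans hh, h2⟩

theorem CEP.mono (hF : CEP L hΦ hε W h x y) (hh : h ≤ h') : CEP L hΦ hε W h' x y := by
  obtain ⟨τ, h1, h2⟩ := hF
  exact ⟨τ, h1.trans hh, h2⟩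

theorem CEF.live (hF : CEF L hΦ hε W h T) : alive Φ ε L (W : Set Src) T (ext Φ ε T) := by
  obtain ⟨τ, -, -, h1, h2, -⟩ := hF
  have h3 := ext_le_of_flying h2 h1.2.1
  rw [alive_iff_live hΦ hε W.finite_toSet]
  exact ⟨h1.2.1.anti h3 (sig_le_ext hΦ hε h1.2.1.ok), le_rfl⟩

theorem CEF.ext_le (hF : CEF L hΦ hε W h T) : ext Φ ε T ≤ h := by
  obtain ⟨τ, h0, -, h1, h2, -⟩ := hF
  exact (ext_le_of_flying h2 h1.2.1).trans h0

/-- A tree which is exposed, flying or bad or colliding. -/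
theorem CEP.live (hF : CEP L hΦ hε W h x y) :
    M.live Φ ε L (W : Set Src) (node x y) (sig Φ ε (node x y)) := by
  obtain ⟨τ, -, -, h1, h2, -⟩ := hF
  exact h1.anti h2.le le_rfl

theorem CEP.sig_le (hF : CEP L hΦ hε W h x y) : sig Φ ε (node x y) ≤ h := by
  obtain ⟨τ, h0, -, -, h2, -⟩ := hF
  exact h2.le.trans h0

/-- **The cases at the first exposure.** -/
theorem fex_cases4 (hΦ : IsPotential Φ) (hε : 0 < ε) {τ : ℝ} (hf : fex L hΦ hε W c τ) (hτ : τ ≤ h)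
    {T : CTree} (hT : EN.PS Φ ε L (W : Set Src) c τ T) :
    ((FE L hΦ hε W h T ∨ CEF L hΦ hε W h T) ∧ EN.cw Φ ε T τ = ‖(ln Φ ε T).2‖ ^ 2) ∨
      (∃ x y, T = node x y ∧ (PE L hΦ hε W h x y ∨ CEP L hΦ hε W h x y) ∧
        EN.cw Φ ε T τ ≤ ‖(ln Φ ε x).2‖ ^ 2 + ‖(ln Φ ε y).2‖ ^ 2) := by
  have hr : T.root = c := hT.1
  subst hr
  have key : (T = leaf T.root ∨ ext Φ ε T ≤ τ) →
      (FE L hΦ hε W h T ∨ CEF L hΦ hε W h T) := by
    intro h1
    by_cases h2 : badc Φ ε L (W : Set Src) T.root τ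
    · exact Or.inr ⟨τ, hτ, hf, hT, h1, h2⟩
    · exact Or.inl ⟨τ, hτ, hf, hT, h1, h2⟩
  cases T with
  | leaf σ => exact Or.inl ⟨key (Or.inl rfl), rfl⟩
  | node x y =>
    rcases le_or_gt (ext Φ ε (node x y)) τ with h2 | h2
    · exact Or.inl ⟨key (Or.inr h2), EN.cw_of_ext_le h2⟩
    · have h4 : sig Φ ε (node x y) < τ := by
        rcases hT.2.2 with h4 | h4
        · exact absurd h4 (by simp)
        · exact h4
      refine Or.inr ⟨x, y, rfl, ?_, cw_le_cx hΦ hε (node x y) τ⟩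
      by_cases h3 : badc Φ ε L (W : Set Src) x.root τ ∨ badc Φ ε L (W : Set Src) y.root τ
      · exact Or.inr ⟨τ, hτ, hf, hT.2.1, h4, h2, h3⟩
      · rw [not_or] at h3
        exact Or.inl ⟨τ, hτ, hf, hT.2.1, h4, h2, h3.1, h3.2⟩

/-- The contribution of the tree `T` to the exposed energy. -/
def gT4 (L : ℕ) (hΦ : IsPotential Φ) (hε : 0 < ε) (W : Finset Src) (h : ℝ) (T : CTree) : ℝ≥0∞ :=
  wq Φ ε T * ind (FE L hΦ hε W h T) + wq Φ ε T * ind (CEF L hΦ hε W h T) +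
    (onN (fun x y => wqP Φ ε x y * ind (PE L hΦ hε W h x y)) T +
      onN (fun x y => wqP Φ ε x y * ind (CEP L hΦ hε W h x y)) T)

/-- **COUNT**, refined. -/
theorem eW_le_cont4 (h0 : ∀ a ∈ W, 0 ≤ a.1) (hd : ∀ a ∈ W, a.2.2 ≤ L) (h : ℝ) :
    eW L hΦ hε W h ≤ ∑ T ∈ trs L W, gT4 L hΦ hε W h T := by
  classical
  set φ : Src → CTree := fun c => EN.ptree Φ ε L (W : Set Src) c (EN.tau (ex L hΦ hε W) c) with hφ
  have key : ∀ c ∈ ex L hΦ hε W h, φ c ∈ trs L W ∧ (φ c).root = c ∧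
      ENNReal.ofReal (1 + EN.wt Φ ε L W (ex L hΦ hε W) c) ≤ gT4 L hΦ hε W h (φ c) := by
    intro c hc
    obtain ⟨h1, h2, h3⟩ := tau_first hc
    have hf : fex L hΦ hε W c (EN.tau (ex L hΦ hε W) c) :=
      ⟨mem_ex.1 h1, fun s hs hcs => h3 s hs (mem_ex.2 hcs)⟩
    obtain ⟨T, hT, hPS⟩ := exists_PS_fex h0 hd hf
    have h4 : φ c = T := EN.ptree_eq hΦ hε W.finite_toSet hPS
    have h5 : EN.wt Φ ε L W (ex L hΦ hε W) c = EN.cw Φ ε T (EN.tau (ex L hΦ hε W) c) := by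
      unfold EN.wt
      rw [← h4]
    refine ⟨h4 ▸ hT, by rw [h4]; exact hPS.1, ?_⟩
    rw [h4, h5]
    unfold gT4
    rcases fex_cases4 hΦ hε hf h2 hPS with ⟨h6, h7⟩ | ⟨x, y, rfl, h6, h7⟩
    · rw [h7]
      refine le_trans ?_ le_self_add
      rcases h6 with h6 | h6
      · rw [ind_of h6, mul_one]
        exact le_self_add
      · rw [ind_of h6, mul_one]
        exact le_add_self
    · refine le_trans ?_ le_add_self
      have h8 : ENNReal.ofReal (1 + EN.cw Φ ε (node x y) (EN.tau (ex L hΦ hε W) c)) ≤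
          wqP Φ ε x y := ENNReal.ofReal_le_ofReal (by linarith)
      rcases h6 with h6 | h6
      · refine le_trans ?_ le_self_add
        change _ ≤ wqP Φ ε x y * ind (PE L hΦ hε W h x y)
        rw [ind_of h6, mul_one]
        exact h8
      · refine le_trans ?_ le_add_self
        change _ ≤ wqP Φ ε x y * ind (CEP L hΦ hε W h x y)
        rw [ind_of h6, mul_one]
        exact h8
  unfold eW
  calc ∑ c ∈ ex L hΦ hε W h, ENNReal.ofReal (1 + EN.wt Φ ε L W (ex L hΦ hε W) c)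
      ≤ ∑ c ∈ ex L hΦ hε W h, gT4 L hΦ hε W h (φ c) :=
        Finset.sum_le_sum fun c hc => (key c hc).2.2
    _ = ∑ T ∈ (ex L hΦ hε W h).image φ, gT4 L hΦ hε W h T := by
        refine (Finset.sum_image fun c hc c' hc' he => ?_).symm
        rw [← (key c hc).2.1, ← (key c' hc').2.1, he]
    _ ≤ ∑ T ∈ trs L W, gT4 L hΦ hε W h T := by
        refine Finset.sum_le_sum_of_subset fun T hT => ?_
        obtain ⟨c, hc, rfl⟩ := Finset.mem_image.1 hT
        exact (key c hc).1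

end Vale.Agent.P119.PB
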