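import Vale.Agent.P119.FB.Conc2
import Vale.Agent.P119.PB.Src

/-!
# P119, block PROB, P9 (contamination): creation of a bad particle by a free line (`helper456`)

`RegHit w l s T`: the free source `l` regularly hits the alive tree `T` of `w` at the time `s`.
`line_creation`: if the inserted source `l` has no M-contact before `τ` and is bad at `τ` then its
first contact is irregular (`FB.Irr`), or it regularly hits a tree `T` at the time `τ`, and the new
tree is too deep, or the pair does not separate, or there is a tie (a third line at the same time).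
-/

open MeasureTheory Filter Topology Set

noncomputable section

namespace Vale.Agent.P119.PB

open M CTree KU RB FB

variable {Φ : E3 → ℝ} {ε : ℝ} {L : ℕ} {w : Finset Src} {l : Src} {s t τ : ℝ} {T S : CTree}

/-- The free source `l` regularly hits the alive tree `T` of `w` at the time `s`. -/
structure RegHit (Φ : E3 → ℝ) (ε : ℝ) (L : ℕ) (w : Finset Src) (l : Src) (s : ℝ) (T : CTree) :
    Prop where
  alive : alive Φ ε L (w : Set Src) T s
  ext_lt : ext Φ ε T < s
  birth : l.1 < s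
  meets : Meets ε (l.2.1, ln Φ ε T)
  time : hitT ε (l.2.1, ln Φ ε T) = s

/-- Over-depth: `l` hits a tree of `w` up to `t` and the new tree is too deep. -/
def OvL (Φ : E3 → ℝ) (ε : ℝ) (L : ℕ) (w : Finset Src) (l : Src) (t : ℝ) : Prop :=
  ∃ T : CTree, ∃ s ≤ t, RegHit Φ ε L w l s T ∧ L < max l.2.2 T.depth + 1

/-- `l` hits a tree of `w` and the pair does not separate. -/
def NoEx (Φ : E3 → ℝ) (ε : ℝ) (L : ℕ) (w : Finset Src) (l : Src) (t : ℝ) : Prop :=
  ∃ T : CTree, ∃ s ≤ t, RegHit Φ ε L w l s T ∧ ¬Exits Φ (rel ε (l.2.1, ln Φ ε T))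

/-- Ties: when `l` hits the tree `T`, one of them is hit by another tree at the same time. -/
def TieL (Φ : E3 → ℝ) (ε : ℝ) (L : ℕ) (w : Finset Src) (l : Src) (t : ℝ) : Prop :=
  ∃ T S : CTree, ∃ s ≤ t, RegHit Φ ε L w l s T ∧ S.root ≠ T.root ∧
    (RegHit Φ ε L w l s S ∨ (alive Φ ε L (w : Set Src) S s ∧ hit Φ ε T S s))

/-- All the exceptional contacts of `l`. -/
def ExL (Φ : E3 → ℝ) (ε : ℝ) (L : ℕ) (w : Finset Src) (l : Src) (t : ℝ) : Prop :=
  Irr Φ ε L w l t ∨ NoEx Φ ε L w l t ∨ TieL Φ ε L w l t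

theorem OvL.mono (h : OvL Φ ε L w l s) (hst : s ≤ t) : OvL Φ ε L w l t := by
  obtain ⟨T, r, hr, h⟩ := h
  exact ⟨T, r, hr.trans hst, h⟩

theorem ExL.mono (h : ExL Φ ε L w l s) (hst : s ≤ t) : ExL Φ ε L w l t := by
  rcases h with h | h | h
  · exact Or.inl (h.mono hst)
  · obtain ⟨T, r, hr, h⟩ := h
    exact Or.inr (Or.inl ⟨T, r, hr.trans hst, h⟩)
  · obtain ⟨T, S, r, hr, h⟩ := h
    exact Or.inr (Or.inr ⟨T, S, r, hr.trans hst, h⟩)

/-- An over-depth hit is one of the hits of `helper347`. -/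
theorem OvL.hitC (h : OvL Φ ε L w l t) :
    ∃ T ∈ trs L w, HitC Φ ε L t w l T ∧ L < max l.2.2 T.depth + 1 := by
  obtain ⟨T, s, hs, h1, h2⟩ := h
  have h3 := alive_pre h1.alive
  refine ⟨T, mem_trs.2 ⟨h3.sub, h3.depth⟩, ⟨h1.meets, ?_, ?_, h1.ext_lt.le.trans hs,
    alive_anti h1.alive h1.ext_lt.le le_rfl⟩, h2⟩
  · rw [h1.time]; exact h1.birth
  · rw [h1.time]; exact hs

/-- The contacts of `l` at the time of its first contact. -/
theorem regHit_of_mcon (hΦ : IsPotential Φ) (hε : 0 < ε) (hl : l ∉ w) (h0 : 0 ≤ l.1)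
    (hd : l.2.2 ≤ L) {b : Src}
    (hn : ∀ r < τ, ∀ b, ¬mcon Φ ε L (insert l w : Finset Src) r l b)
    (hm : mcon Φ ε L (insert l w : Finset Src) τ l b) :
    Irr Φ ε L w l τ ∨ ∃ T : CTree, T.root = b ∧ RegHit Φ ε L w l τ T := by
  rcases classify hΦ hε hl h0 hd hm hn with h | ⟨T, h1, h2, h3, h4, h5, h6⟩
  · exact Or.inl h
  · exact Or.inr ⟨T, h1, ⟨h2, h3, h4, h5, h6⟩⟩

/-- **Creation by a free line.** -/
theorem line_creation (hΦ : IsPotential Φ) (hε : 0 < ε) (hl : l ∉ w) (h0 : 0 ≤ l.1)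
    (hd : l.2.2 ≤ L) (hn : ∀ r < τ, ∀ b, ¬mcon Φ ε L (insert l w : Finset Src) r l b)
    (hb : badc Φ ε L (insert l w : Finset Src) l τ) : OvL Φ ε L w l τ ∨ ExL Φ ε L w l τ := by
  classical
  have hW : ((insert l w : Finset Src) : Set Src).Finite := Finset.finite_toSet _
  have hw := w.finite_toSet
  have hlW : l ∈ ((insert l w : Finset Src) : Set Src) := by simp
  -- the time is `τ`
  have hbad : badi Φ ε L ((insert l w : Finset Src) : Set Src) l τ := by
    obtain ⟨s, hs, hbi⟩ := hb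
    rcases hs.lt_or_eq with h1 | h1
    · exfalso
      have h2 : stat Φ ε L ((insert l w : Finset Src) : Set Src) l s = some (leaf l) :=
        (stat_eq_some_iff hΦ hε hW).2 ⟨rfl, lives_leaf hΦ hε hW hlW h0 hd hbi.2.2.1
          fun r hr => hn r (hr.trans_lt h1)⟩
      exact not_badi_of_no_mcon h2 (fun b => hn s h1 b) hbi
    · rwa [h1] at hbi
  have hlτ : l.1 ≤ τ := hbad.2.2.1
  have hmc : ∃ b, mcon Φ ε L (insert l w : Finset Src) τ l b := by
    by_contra hcon
    push Not at hcon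
    have h1 : ∀ r ≤ τ, ∀ b, ¬mcon Φ ε L (insert l w : Finset Src) r l b := by
      intro r hr b
      rcases hr.lt_or_eq with h | h
      · exact hn r h b
      · rw [h]; exact hcon b
    have h2 : stat Φ ε L ((insert l w : Finset Src) : Set Src) l τ = some (leaf l) :=
      (stat_eq_some_iff hΦ hε hW).2 ⟨rfl, lives_leaf hΦ hε hW hlW h0 hd hlτ h1⟩
    exact not_badi_of_no_mcon h2 hcon hbad
  obtain ⟨b, hm⟩ := hmc
  rcases regHit_of_mcon hΦ hε hl h0 hd hn hm with h1 | ⟨T, hTr, hT⟩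
  · exact Or.inr (Or.inl h1)
  by_cases hdep : L < max l.2.2 T.depth + 1
  · exact Or.inl ⟨T, τ, le_rfl, hT, hdep⟩
  by_cases hex : Exits Φ (rel ε (l.2.1, ln Φ ε T))
  swap
  · exact Or.inr (Or.inr (Or.inl ⟨T, τ, le_rfl, hT, hex⟩))
  by_contra hcon
  push Not at hcon
  obtain ⟨-, hcon⟩ := hcon
  have hIrr : ¬Irr Φ ε L w l τ := fun h => hcon (Or.inl h)
  have hTie : ∀ S : CTree, S.root ≠ T.root →
      ¬(RegHit Φ ε L w l τ S ∨ (alive Φ ε L (w : Set Src) S τ ∧ hit Φ ε T S τ)) :=
    fun S h1 h2 => hcon (Or.inr (Or.inr ⟨T, S, τ, le_rfl, hT, h1, h2⟩))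
  -- other contacts of `l` at the time `τ`
  have hother : ∀ c, mcon Φ ε L (insert l w : Finset Src) τ l c → c = T.root := by
    intro c hc
    by_contra hne
    rcases regHit_of_mcon hΦ hε hl h0 hd hn hc with h1 | ⟨S, hSr, hS⟩
    · exact hIrr h1
    · exact hTie S (by rw [hSr]; exact hne) (Or.inl hS)
  have hstat : ∀ a ≠ l, ∀ r < τ, stat Φ ε L (w : Set Src) a r =
      stat Φ ε L ((insert l w : Finset Src) : Set Src) a r := fun a ha r hr =>
    stat_of_sta (sta_eq_before hΦ hε hl hn ha hr)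
  have hTp := alive_pre hT.alive
  have hbl : T.root ≠ l := fun h => hl (Finset.mem_coe.1 (h ▸ hTp.sub T.root_mem_leaves))
  have hTW : alive Φ ε L ((insert l w : Finset Src) : Set Src) T τ :=
    alive_congr hΦ hε hw hW (fun h => by
      rw [Finset.mem_coe] at h ⊢
      exact Finset.mem_insert_of_mem h) (fun r hr => hstat _ hbl r hr) hT.alive
  have hlW' : live Φ ε L ((insert l w : Finset Src) : Set Src) (leaf l) τ :=
    live_leaf_of hΦ hε hW hlW h0 hd hlτ hn
  have hlA : alive Φ ε L ((insert l w : Finset Src) : Set Src) (leaf l) τ :=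
    (alive_iff_live hΦ hε hW).2 ⟨hlW', hlτ⟩
  have hdisj : Disjoint (leaf l).leaves T.leaves := by
    change Disjoint {l} T.leaves
    rw [disjoint_singleton_left]
    exact fun h => hl (Finset.mem_coe.1 (hTp.sub h))
  have hok : ok Φ ε (node (leaf l) T) := by
    refine ⟨h0, hTp.ok, hdisj, hT.meets, hex, ?_, ?_⟩
    · change l.1 < hitT ε (l.2.1, ln Φ ε T)
      rw [hT.time]; exact hT.birth
    · change _ < hitT ε (l.2.1, ln Φ ε T)
      rw [hT.time]; exact hT.ext_lt
  have hsig : sig Φ ε (node (leaf l) T) = τ := hT.time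
  -- the two kinds of hits at the time `τ`
  have hhitl : ∀ T'' : CTree, hit Φ ε (leaf l) T'' τ →
      alive Φ ε L ((insert l w : Finset Src) : Set Src) T'' τ → T'' = T := by
    intro T'' hh ha
    have h1 := (alive_iff_live hΦ hε hW).1 ha
    have h2 : T''.root ≠ l := fun h => hh.2.2.1 (h ▸ T''.root_mem_leaves)
    have h3 : mcon Φ ε L ((insert l w : Finset Src) : Set Src) τ l T''.root := by
      refine ⟨h2.symm, leaf l, T'', rfl, rfl, hlW', h1.1, ?_⟩
      rw [st_after hΦ hε h1.1.ok h1.2]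
      exact hh.2.2.2
    exact alive_eq_of_root hΦ hε hW hTW hT.ext_lt ha (hother _ h3)
  have hhitT : ∀ T'' : CTree, hit Φ ε T T'' τ →
      alive Φ ε L ((insert l w : Finset Src) : Set Src) T'' τ → T'' = leaf l := by
    intro T'' hh ha
    by_cases h2 : T''.root = l
    · exact alive_eq_of_root hΦ hε hW hlA hT.birth ha h2
    · exfalso
      have hw' : alive Φ ε L (w : Set Src) T'' τ := by
        refine alive_congr hΦ hε hW hw (fun h => ?_) (fun r hr => (hstat _ h2 r hr).symm) ha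
        rcases Finset.mem_insert.1 (Finset.mem_coe.1 h) with h3 | h3
        · exact absurd h3 h2
        · exact Finset.mem_coe.2 h3
      refine hTie T'' (fun h => ?_) (Or.inr ⟨hw', hh⟩)
      have h3 := (hit_after hΦ hε hTp.ok hT.ext_lt.le).1 hh
      exact disjoint_left.1 h3.2.1 T.root_mem_leaves (h ▸ T''.root_mem_leaves)
  have hlives : lives Φ ε L ((insert l w : Finset Src) : Set Src) (node (leaf l) T) τ := by
    refine ⟨?_, hok, ?_, hsig.le, fun T'' s hs hh ha => ?_⟩
    · rintro x (hx | hx)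
      · rw [mem_singleton_iff.1 hx]; exact hlW
      · exact (alive_pre hTW).sub hx
    · change max l.2.2 T.depth + 1 ≤ L
      omega
    · rcases hs.lt_or_eq with hs | rfl
      · rcases hh with ⟨-, ⟨h1, -⟩ | ⟨h1, -⟩⟩ | ⟨h1, -⟩
        · exact hlW'.nohit T'' s hs h1 ha
        · exact ((alive_iff_live hΦ hε hW).1 hTW).1.nohit T'' s hs h1 ha
        · rw [hsig] at h1
          exact absurd hs (not_lt.2 h1)
      · rcases hh with ⟨-, ⟨h1, h2⟩ | ⟨h1, h2⟩⟩ | ⟨-, h2, h3, h4⟩
        · exact h2 ⟨hhitl T'' h1 ha, hsig.symm⟩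
        · exact h2 ⟨hhitT T'' h1 ha, hsig.symm⟩
        · have h5 : (pairLine Φ ε (ln Φ ε (leaf l), ln Φ ε T) s) =
              (KU.free s (ln Φ ε (leaf l)), KU.free s (ln Φ ε T)) :=
            pairLine_before hΦ hε (q := (l.2.1, ln Φ ε T)) hT.meets.1 hT.meets.2.le hT.time.ge
          rw [h5] at h4
          rcases h4 with h4 | ⟨-, h4⟩
          · have h6 := hhitl T'' ⟨hlτ, h2, fun h => disjoint_left.1 h3 (Or.inl rfl) h, h4⟩ ha
            rw [h6] at h3
            exact disjoint_left.1 h3 (Or.inr T.root_mem_leaves) T.root_mem_leaves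
          · have h6 := hhitT T'' ((hit_after hΦ hε hTp.ok hT.ext_lt.le).2
              ⟨h2, h3.mono_left fun x hx => Or.inr hx, h4⟩) ha
            rw [h6] at h3
            exact disjoint_left.1 h3 (Or.inl rfl) rfl
  obtain ⟨h1, -, h3, -⟩ := stat_pair hΦ hε hW hlives (by rw [← hsig]; exact sig_lt_ext hΦ hε hok)
  rcases hbad.2.2.2 with h5 | ⟨c, h5, h6⟩
  · have h1' : stat Φ ε L ((insert l w : Finset Src) : Set Src) l τ = some (node (leaf l) T) := h1
    rw [h1'] at h5
    exact absurd h5 (by simp)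
  · rw [hother c h5] at h6
    exact h6 h3

end Vale.Agent.P119.PB
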