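import Vale.Agent.P119.FB.Conc3
import Vale.Agent.P119.PB.ContCre1

/-!
# P119, block PROB, P9 (contamination): creation of a bad particle by a colliding pair (`helper456`)

* `not_ctc_sepT`: the two particles of a pair are not in contact when they separate;
* `TriP U x y t`: a particle of `U` is in contact with one of the particles of the colliding pair
  `(x, y)` during the collision, up to the time `t`;
* `pair_creation`: two inserted sources, colliding with each other, become bad during their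
  collision only by a contact with a third body.
-/

open MeasureTheory Filter Topology Set

noncomputable section

namespace Vale.Agent.P119.PB

open M CTree KU RB FB

variable {Φ : E3 → ℝ} {ε : ℝ} {L : ℕ} {u : Finset Src} {a l : Src} {s t τ : ℝ} {x y S : CTree}

/-- There is no contact at the time of the separation. -/
theorem not_ctc_sepT (hΦ : IsPotential Φ) (hε : 0 < ε) {q : Ph × Ph} (hq : Meets ε q)
    (hx : Exits Φ (rel ε q)) :
    ¬Ctc ε (pairLine Φ ε q (sepT Φ ε q)).1 (pairLine Φ ε q (sepT Φ ε q)).2 := by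
  have hr : rel ε (pairLine Φ ε q (sepT Φ ε q)) = traj Φ (rel ε q) (tout Φ (rel ε q)) := by
    rw [rel_pairLine hε.ne']
    congr 1
    unfold sepT
    field_simp
  have hd : ‖(pairLine Φ ε q (sepT Φ ε q)).1.1 - (pairLine Φ ε q (sepT Φ ε q)).2.1‖ = ε := by
    rw [dist_eq_rel hε, hr, norm_traj_tout hΦ hx hq.2.le, mul_one]
  rintro ⟨-, h2⟩
  refine h2 ⟨hd, ?_⟩
  have h3 := inner_free (scat Φ (rel ε q)) (tout Φ (rel ε q))
  rw [← traj_after hΦ hx hq.2.le le_rfl, ← hr] at h3
  have h4 : (rel ε (pairLine Φ ε q (sepT Φ ε q))).1 = ε⁻¹ •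
      ((pairLine Φ ε q (sepT Φ ε q)).1.1 - (pairLine Φ ε q (sepT Φ ε q)).2.1) := rfl
  have h5 : (rel ε (pairLine Φ ε q (sepT Φ ε q))).2 =
      (pairLine Φ ε q (sepT Φ ε q)).1.2 - (pairLine Φ ε q (sepT Φ ε q)).2.2 := rfl
  rw [h4, h5, real_inner_smul_left] at h3
  have h6 : crd (scat Φ (rel ε q)) + tout Φ (rel ε q) = half (rel ε q) := by
    unfold tout
    ring
  rw [h6, scat_snd_norm hΦ] at h3
  have h7 : 0 < half (rel ε q) := half_pos hx.1 hq.2
  have h8 : 0 < ‖(rel ε q).2‖ := norm_pos_iff.2 hx.1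
  have h9 : 0 < half (rel ε q) * ‖(rel ε q).2‖ ^ 2 := by positivity
  rw [← h3] at h9
  exact (mul_pos_iff_of_pos_left (inv_pos.2 hε)).1 h9

/-- A third body at the colliding pair `(x, y)`. -/
def TriP (Φ : E3 → ℝ) (ε : ℝ) (L : ℕ) (U : Finset Src) (x y : CTree) (t : ℝ) : Prop :=
  ∃ s ≤ t, sig Φ ε (node x y) < s ∧ s ≤ ext Φ ε (node x y) ∧
    ∃ S : CTree, live Φ ε L (U : Set Src) S s ∧
      (Ctc ε (st Φ ε (node x y) s) (st Φ ε S s) ∨ Ctc ε (st Φ ε (node y x) s) (st Φ ε S s))

theorem TriP.mono (h : TriP Φ ε L u x y s) (hst : s ≤ t) : TriP Φ ε L u x y t := by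
  obtain ⟨r, hr, h⟩ := h
  exact ⟨r, hr.trans hst, h⟩

/-- The position of a particle whose current tree began before `τ`. -/
theorem st_eq_of_sig (hΦ : IsPotential Φ) (hε : 0 < ε) {W : Set Src} (hW : W.Finite)
    {T T' : CTree} (h : live Φ ε L W T τ) (h' : live Φ ε L W T' τ) (hr : T'.root = T.root)
    (hs : sig Φ ε T < τ) : st Φ ε T' τ = st Φ ε T τ := by
  rcases live_sig hΦ hε hW h' with ⟨h1, h2⟩ | ⟨T₀, h1, h2, h3, h4⟩
  · exfalso
    have h3 := root_birth_le_sig hΦ hε h.ok
    rw [← hr, h2] at h3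
    exact absurd hs (not_lt.2 h3)
  · rw [← h4, live_unique hΦ hε hW h2 h (h1.trans hr) h3 hs]

open Classical in
/-- **Creation by a colliding pair.** -/
theorem pair_creation (hΦ : IsPotential Φ) (hε : 0 < ε) (ha : a ∉ u) (hl : l ∉ u) (hal : a ≠ l)
    (hy : live Φ ε L ((insert a (insert l u) : Finset Src) : Set Src) (node (leaf a) (leaf l)) τ)
    (hs : sig Φ ε (node (leaf a) (leaf l)) < τ) (he : τ ≤ ext Φ ε (node (leaf a) (leaf l)))
    (hn : ∀ r < τ, ∀ b, b ≠ a → b ≠ l →
      ¬mcon Φ ε L ((insert a (insert l u) : Finset Src) : Set Src) r a b ∧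
        ¬mcon Φ ε L ((insert a (insert l u) : Finset Src) : Set Src) r l b)
    (hb : badi Φ ε L ((insert a (insert l u) : Finset Src) : Set Src) a τ ∨
      badi Φ ε L ((insert a (insert l u) : Finset Src) : Set Src) l τ) :
    ∃ S : CTree, live Φ ε L (u : Set Src) S τ ∧
      (Ctc ε (st Φ ε (node (leaf a) (leaf l)) τ) (st Φ ε S τ) ∨
        Ctc ε (st Φ ε (node (leaf l) (leaf a)) τ) (st Φ ε S τ)) := by
  set P : Finset Src := insert a (insert l u) with hP
  have hPf : (P : Set Src).Finite := P.finite_toSet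
  have hu := u.finite_toSet
  have hok := hy.ok
  have hy' : live Φ ε L (P : Set Src) (node (leaf l) (leaf a)) τ := live_swap hΦ hy he
  have hs' : sig Φ ε (node (leaf l) (leaf a)) < τ := by rw [sig_swap]; exact hs
  have he' : τ ≤ ext Φ ε (node (leaf l) (leaf a)) := by rw [ext_swap hΦ]; exact he
  have hmemP : ∀ c, c ∈ P → c ≠ a → c ≠ l → c ∈ u := by
    intro c hc h1 h2
    rcases Finset.mem_insert.1 hc with h | h
    · exact absurd h h1
    rcases Finset.mem_insert.1 h with h | h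
    · exact absurd h h2
    · exact h
  have hsub : u ⊆ P := (Finset.subset_insert _ _).trans (Finset.subset_insert _ _)
  have hD : (RB.Y Φ ε L hΦ hε).Dlt u P τ ⊆ (({a, l} : Finset Src) : Set Src) := by
    refine dlt_subset_ins hΦ hε hsub (fun c hc hcu => ?_) ?_ (fun r hr x hx b hb => ?_)
    · by_contra hcon
      rw [Finset.mem_insert, Finset.mem_singleton, not_or] at hcon
      exact hcu (hmemP c hc hcon.1 hcon.2)
    · rw [Finset.disjoint_right]
      intro c hc
      rcases Finset.mem_insert.1 hc with rfl | hc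
      · exact ha
      · rw [Finset.mem_singleton.1 hc]
        exact hl
    · rw [Finset.mem_insert, Finset.mem_singleton, not_or] at hb
      rcases Finset.mem_insert.1 hx with rfl | hx
      · exact (hn r hr b hb.1 hb.2).1
      · rw [Finset.mem_singleton.1 hx]
        exact (hn r hr b hb.1 hb.2).2
  have hstat : ∀ c, c ≠ a → c ≠ l → ∀ r < τ, stat Φ ε L (P : Set Src) c r =
      stat Φ ε L (u : Set Src) c r := by
    intro c h1 h2 r hr
    by_contra hcon
    have h3 := hD ⟨r, hr, r, le_rfl, fun h => hcon (stat_of_sta h).symm⟩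
    rw [Finset.mem_coe, Finset.mem_insert, Finset.mem_singleton] at h3
    exact h3.elim h1 h2
  -- a contact of a third body
  by_contra hcon
  push Not at hcon
  have hthird : ∀ T T' : CTree, live Φ ε L (P : Set Src) T τ → live Φ ε L (P : Set Src) T' τ →
      (T.root = a ∨ T.root = l) → T'.root ≠ a → T'.root ≠ l →
      ¬Ctc ε (st Φ ε T τ) (st Φ ε T' τ) := by
    intro T T' h1 h2 h3 h4 h5 h6
    obtain ⟨S', k1, k2, k3⟩ := live_congr' hΦ hε hPf hu (T := T')
      (fun h => Finset.mem_coe.2 (hmemP _ (Finset.mem_coe.1 h) h4 h5))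
      (fun r hr => hstat _ h4 h5 r hr) h2
    rw [← k3] at h6
    rcases h3 with h3 | h3
    · rw [st_eq_of_sig hΦ hε hPf hy h1 (by rw [h3]; rfl) hs] at h6
      exact (hcon S' k2).1 h6
    · rw [st_eq_of_sig hΦ hε hPf hy' h1 (by rw [h3]; rfl) hs'] at h6
      exact (hcon S' k2).2 h6
  have hlives : ∀ b c : Src, (b = a ∧ c = l ∨ b = l ∧ c = a) →
      live Φ ε L (P : Set Src) (node (leaf b) (leaf c)) τ →
      lives Φ ε L (P : Set Src) (node (leaf b) (leaf c)) τ := by
    intro b c hbc hlive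
    have hlive' : live Φ ε L (P : Set Src) (node (leaf c) (leaf b)) τ := by
      refine live_swap hΦ hlive ?_
      rcases hbc with ⟨rfl, rfl⟩ | ⟨rfl, rfl⟩
      · exact he
      · exact he'
    have hsg : sig Φ ε (node (leaf b) (leaf c)) < τ := by
      rcases hbc with ⟨rfl, rfl⟩ | ⟨rfl, rfl⟩
      · exact hs
      · exact hs'
    refine ⟨hlive.sub, hlive.ok, hlive.depth, hlive.sig_le, fun T'' r hr hh ha'' => ?_⟩
    rcases hr.lt_or_eq with hr | rfl
    · exact hlive.nohit T'' r hr hh ha''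
    · have h1 := (alive_iff_live hΦ hε hPf).1 ha''
      rcases hh with ⟨h2, -⟩ | ⟨-, h2, h3, h4⟩
      · exact absurd hsg (not_lt.2 h2)
      · have n1 : T''.root ≠ b := fun h =>
          disjoint_left.1 h3 (Or.inl rfl) (h ▸ T''.root_mem_leaves)
        have n2 : T''.root ≠ c := fun h =>
          disjoint_left.1 h3 (Or.inr rfl) (h ▸ T''.root_mem_leaves)
        have n3 : T''.root ≠ a ∧ T''.root ≠ l := by
          rcases hbc with ⟨rfl, rfl⟩ | ⟨rfl, rfl⟩
          · exact ⟨n1, n2⟩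
          · exact ⟨n2, n1⟩
        have e1 := st_after hΦ hε h1.1.ok h1.2
        rcases h4 with h4 | ⟨-, h4⟩
        · refine hthird _ T'' hlive h1.1 ?_ n3.1 n3.2 (by rw [e1]; exact h4)
          rcases hbc with ⟨rfl, rfl⟩ | ⟨rfl, rfl⟩
          · exact Or.inl rfl
          · exact Or.inr rfl
        · refine hthird _ T'' hlive' h1.1 ?_ n3.1 n3.2 ?_
          · rcases hbc with ⟨rfl, rfl⟩ | ⟨rfl, rfl⟩
            · exact Or.inr rfl
            · exact Or.inl rfl
          · rw [e1, st_swap hΦ (leaf b) (leaf c)]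
            exact h4
  have hla := hlives a l (Or.inl ⟨rfl, rfl⟩) hy
  have hll := hlives l a (Or.inr ⟨rfl, rfl⟩) hy'
  have sa : stat Φ ε L (P : Set Src) a τ = some (node (leaf a) (leaf l)) :=
    (stat_eq_some_iff hΦ hε hPf).2 ⟨rfl, hla⟩
  have sl : stat Φ ε L (P : Set Src) l τ = some (node (leaf l) (leaf a)) :=
    (stat_eq_some_iff hΦ hε hPf).2 ⟨rfl, hll⟩
  -- a contact of the partners which is not their collision
  have hpart : ∀ b c : Src, (b = a ∧ c = l ∨ b = l ∧ c = a) →
      mcon Φ ε L (P : Set Src) τ b c → part Φ ε L (P : Set Src) τ b c := by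
    intro b c hbc hm
    rcases he.lt_or_eq with h1 | h1
    · rcases hbc with ⟨rfl, rfl⟩ | ⟨rfl, rfl⟩
      · exact ⟨_, _, sa, sl, leaf b, leaf c, rfl, rfl, h1⟩
      · exact ⟨_, _, sl, sa, leaf b, leaf c, rfl, rfl, by rw [ext_swap hΦ]; exact h1⟩
    · exfalso
      have key : mcon Φ ε L (P : Set Src) τ a l := by
        rcases hbc with ⟨rfl, rfl⟩ | ⟨rfl, rfl⟩
        · exact hm
        · exact hm.symm
      obtain ⟨-, T, T', h2, h3, h4, h5, h6⟩ := key
      rw [st_eq_of_sig hΦ hε hPf hy h4 (by rw [h2]; rfl) hs,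
        st_eq_of_sig hΦ hε hPf hy' h5 (by rw [h3]; rfl) hs', st_swap hΦ (leaf a) (leaf l)] at h6
      have h7 : τ = sepT Φ ε (ln Φ ε (leaf a), ln Φ ε (leaf l)) := h1
      rw [h7] at h6
      exact not_ctc_sepT hΦ hε hok.2.2.2.1 hok.2.2.2.2.1 h6
  have hfin : ∀ b c : Src, (b = a ∧ c = l ∨ b = l ∧ c = a) → ¬badi Φ ε L (P : Set Src) b τ := by
    rintro b c hbc ⟨-, -, -, h5 | ⟨d, h5, h6⟩⟩
    · rcases hbc with ⟨rfl, rfl⟩ | ⟨rfl, rfl⟩
      · rw [sa] at h5
        exact absurd h5 (by simp)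
      · rw [sl] at h5
        exact absurd h5 (by simp)
    · by_cases hdc : d = c
      · subst hdc
        exact h6 (hpart b d hbc h5)
      · obtain ⟨hne, T, T', h7, h8, h9, h10, h11⟩ := h5
        refine hthird T T' h9 h10 ?_ ?_ ?_ h11
        · rw [h7]
          exact hbc.imp (fun h => h.1) (fun h => h.1)
        · rw [h8]
          rcases hbc with ⟨rfl, rfl⟩ | ⟨rfl, rfl⟩
          · exact hne.symm
          · exact hdc
        · rw [h8]
          rcases hbc with ⟨rfl, rfl⟩ | ⟨rfl, rfl⟩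
          · exact hdc
          · exact hne.symm
  rcases hb with hb | hb
  · exact hfin a l (Or.inl ⟨rfl, rfl⟩) hb
  · exact hfin l a (Or.inr ⟨rfl, rfl⟩) hb

end Vale.Agent.P119.PB
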