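import Vale.Agent.P119.PB.Cont3

/-!
# P119, block PROB, P9 (contamination): the colliding case (`helper909`)

`colliding`: the trees `x`, `y` of `W` collide with each other, and `x.root` is exposed for the
first time at `τ`, during the collision.  Then the pair makes a direct contact with an exposed label
of the base `V` at `τ`, or an exhaust `e` of `x` or `y` touches `V`, and another exhaust touches
`V + e` or the pair makes a direct contact with an exposed label of `V + e` at `τ`.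
-/

open MeasureTheory Filter Topology Set
open scoped ENNReal NNReal

noncomputable section

namespace Vale.Agent.P119.PB

open M CTree KU FB RB AU

variable {Φ : E3 → ℝ} {ε : ℝ} {L : ℕ} {hΦ : IsPotential Φ} {hε : 0 < ε}
  {V W : Finset Src} {a b : Src} {x y : CTree} {s σ τ t : ℝ} {ι : Type*} [DecidableEq ι]

/-- The family `X` of the lines of the colliding trees `x`, `y`: the index `r` is the pair, the
indices of `E` are the exhausts. -/
structure Fam2 (Φ : E3 → ℝ) (ε : ℝ) (V : Finset Src) (x y : CTree) (X : ι → Finset Src)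
    (E : Finset ι) (r : ι) : Prop where
  nr : r ∉ E
  root : ∀ a, a ∈ X r ↔ a = rsrc Φ ε x ∨ a = rsrc Φ ε y
  exh : ∀ i ∈ E, ∃ u ∈ TL.exs x ∪ TL.exs y, X i = {rsrc Φ ε u}
  inj : ∀ i ∈ insert r E, ∀ j ∈ insert r E, i ≠ j → Disjoint (X i) (X j)
  fresh : ∀ i ∈ insert r E, Disjoint V (X i)

open Classical in
/-- **Contamination, colliding case.** -/
theorem colliding {X : ι → Finset Src} {E : Finset ι} {r : ι} (hX : Fam2 Φ ε V x y X E r)
    (hC : FB.Sys.Cube (Y Φ ε L hΦ hε) (wd V X) (insert r E) t)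
    {g : Src → Src} {θ : CTree → CTree}
    (hL : TL.Lines Φ ε L hΦ hε W (wd V X (insert r E)) g θ t)
    (gx : g (rsrc Φ ε x) = x.root) (gy : g (rsrc Φ ε y) = y.root)
    (h0 : ∀ a ∈ wd V X (insert r E), 0 ≤ a.1 ∧ a.2.2 ≤ L) (hW : ∀ a ∈ W, 0 ≤ a.1)
    (hτ : τ ≤ t) (hf : fex L hΦ hε W x.root τ) (hlive : live Φ ε L (W : Set Src) (node x y) τ)
    (hsig : sig Φ ε (node x y) < τ) (hext : τ ≤ ext Φ ε (node x y))
    (n₁ : ¬badc Φ ε L (W : Set Src) x.root τ) (n₂ : ¬badc Φ ε L (W : Set Src) y.root τ) :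
    ((∀ s < τ, ¬(Y Φ ε L hΦ hε).Touch V (wd V X (insert r E)) s) ∧ DirP L hΦ hε V τ x y) ∨
    ∃ e ∈ TL.exs x ∪ TL.exs y, ∃ σ σ₂, σ ≤ σ₂ ∧ σ₂ ≤ τ ∧
      (Y Φ ε L hΦ hε).Touch V (insert (rsrc Φ ε e) V) σ ∧
      (∀ s < σ₂, ¬(Y Φ ε L hΦ hε).Touch (insert (rsrc Φ ε e) V) (wd V X (insert r E)) s) ∧
      ((∃ m ∈ TL.exs x ∪ TL.exs y, m ≠ e ∧
        (Y Φ ε L hΦ hε).Touch (insert (rsrc Φ ε e) V)
          (insert (rsrc Φ ε m) (insert (rsrc Φ ε e) V)) σ₂) ∨
        (σ₂ = τ ∧ DirP L hΦ hε (insert (rsrc Φ ε e) V) τ x y)) := by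
  set Z := Y Φ ε L hΦ hε with hZ
  set K : Finset ι := insert r E with hK
  have hrK : r ∈ K := Finset.mem_insert_self r E
  have mono : ∀ {I J : Finset ι}, I ⊆ J → wd V X I ⊆ wd V X J := by
    intro I J hIJ a ha
    rw [mem_wd] at ha ⊢
    rcases ha with ha | ⟨i, hi, ha⟩
    · exact Or.inl ha
    · exact Or.inr ⟨i, hIJ hi, ha⟩
  have hb : ∀ J ⊆ K, ∀ a ∈ wd V X J, 0 ≤ a.1 ∧ a.2.2 ≤ L := fun J hJ a ha => h0 a (mono hJ ha)
  have htr : ∀ I J, I ⊆ K → J ⊆ K → Z.Transfer (wd V X I) (wd V X J) := fun I J hI hJ =>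
    Y_transfer hΦ hε (fun a ha => (hb I hI a ha).1) (fun a ha => (hb J hJ a ha).1)
  have mx : rsrc Φ ε x ∈ X r := (hX.root _).2 (Or.inl rfl)
  have my : rsrc Φ ε y ∈ X r := (hX.root _).2 (Or.inr rfl)
  -- the pair is in the worlds with the index `r` only
  have hnot : ∀ J ⊆ E, ∀ a ∈ X r, a ∉ wd V X J := by
    intro J hJ a ha hm
    rcases mem_wd.1 hm with hm | ⟨i, hi, hm⟩
    · exact Finset.disjoint_left.1 (hX.fresh r hrK) hm ha
    · have hne : i ≠ r := by rintro rfl; exact hX.nr (hJ hi)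
      exact Finset.disjoint_left.1 (hX.inj i (Finset.mem_insert_of_mem (hJ hi)) r hrK hne) hm ha
  have hmemF : ∀ a ∈ X r, a ∈ wd V X K := fun a ha => mem_wd.2 (Or.inr ⟨r, hrK, ha⟩)
  have hmem : ∀ J ⊆ E, rsrc Φ ε x ∉ wd V X J ∧ rsrc Φ ε y ∉ wd V X J ∧
      wd V X J ⊆ wd V X (insert r J) ∧
      ∀ a, a ∈ wd V X (insert r J) → a ∈ wd V X J ∨ a = rsrc Φ ε x ∨ a = rsrc Φ ε y := by
    intro J hJ
    refine ⟨hnot J hJ _ mx, hnot J hJ _ my, mono (Finset.subset_insert r J), fun a ha => ?_⟩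
    rcases mem_wd.1 ha with ha' | ⟨i, hi, ha'⟩
    · exact Or.inl (mem_wd.2 (Or.inl ha'))
    · rcases Finset.mem_insert.1 hi with h' | hi
      · rw [h'] at ha'
        exact Or.inr ((hX.root a).1 ha')
      · exact Or.inl (mem_wd.2 (Or.inr ⟨i, hi, ha'⟩))
  have hpair : PairIn Φ ε L hΦ hε W (wd V X K) x y (rsrc Φ ε x) (rsrc Φ ε y) τ :=
    PairIn.of_lines hL hτ hW (fun a ha => (h0 a ha).1) (hmemF _ mx) (hmemF _ my) gx gy rfl rfl
      hlive hsig hext hf.2 n₁ n₂
  have hCτ := hC.mono hτ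
  have hexp : Z.Exp (wd V X K) (rsrc Φ ε x) τ := by
    refine (hL.exp _ (hmemF _ mx) τ hτ).2 ?_
    rw [gx]
    exact hf.1
  have hD : ∀ I ⊆ E, rsrc Φ ε x ∈ Z.D (wd V X I) (wd V X K) τ := fun I hI =>
    mem_D_of_diff (hmemF _ mx) (hnot I hI _ mx) τ
  rcases FB.Sys.contam_first hCτ htr hX.nr hD hexp with
    ⟨σ, hσ, h1, h2⟩ | ⟨i, hi, σ, σ₂, h1, h2, h3, h4, h5⟩
  · left
    obtain ⟨rfl, h6⟩ := pair_core hX.nr hCτ hb hpair hmem (mem_wd.2 (Or.inr ⟨r, by simp, mx⟩))
      (mem_wd.2 (Or.inr ⟨r, by simp, my⟩)) (mono (Finset.singleton_subset_iff.2 hrK)) hσ h1 h2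
    rw [wd_empty] at h2 h6
    exact ⟨h2, h6⟩
  · right
    obtain ⟨j, hj, hji, h6⟩ := h4
    obtain ⟨e, he, hXi⟩ := hX.exh i hi
    refine ⟨e, he, σ, σ₂, h1, h2, ?_, ?_, ?_⟩
    · rwa [wd_empty, wd_single hXi] at h3
    · rwa [wd_single hXi] at h5
    · rcases Finset.mem_insert.1 hj with rfl | hj
      · -- the pair is the second
        right
        have hiK : i ∈ insert j E := Finset.mem_insert_of_mem hi
        have hK' : (insert j E).erase i = insert j (E.erase i) :=
          Finset.erase_insert_of_ne hji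
        have hC' := hCτ.face hiK
        rw [hK'] at hC'
        have hnr' : j ∉ E.erase i := fun h => hX.nr (Finset.mem_of_mem_erase h)
        have e1 : insert i (insert j (E.erase i)) = insert j E := by
          rw [Finset.insert_comm, Finset.insert_erase hi]
        have e2 : (insert i {j} : Finset ι) = {i, j} := rfl
        have e3 : (insert i ∅ : Finset ι) = {i} := by simp
        have hsub : ∀ J ⊆ insert j (E.erase i), insert i J ⊆ insert j E := by
          intro J hJ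
          rw [← e1]
          exact Finset.insert_subset_insert i hJ
        have hsub' : ∀ J ⊆ E.erase i, insert i J ⊆ E := fun J hJ =>
          Finset.insert_subset hi (hJ.trans (Finset.erase_subset i E))
        have hmem' : ∀ J ⊆ E.erase i, rsrc Φ ε x ∉ wd V X (insert i J) ∧
            rsrc Φ ε y ∉ wd V X (insert i J) ∧
            wd V X (insert i J) ⊆ wd V X (insert i (insert j J)) ∧
            ∀ a, a ∈ wd V X (insert i (insert j J)) →
              a ∈ wd V X (insert i J) ∨ a = rsrc Φ ε x ∨ a = rsrc Φ ε y := by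
          intro J hJ
          have := hmem (insert i J) (hsub' J hJ)
          rwa [Finset.insert_comm] at this
        have hp' : PairIn Φ ε L hΦ hε W (wd V X (insert i (insert j (E.erase i)))) x y
            (rsrc Φ ε x) (rsrc Φ ε y) τ := by
          rw [e1]; exact hpair
        have h6' : Z.Touch (wd V X (insert i ∅)) (wd V X (insert i {j})) σ₂ := by
          rw [e3]; exact h6
        have h5' : ∀ s < σ₂, ¬Z.Touch (wd V X (insert i ∅))
            (wd V X (insert i (insert j (E.erase i)))) s := by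
          rw [e3, e1]; exact h5
        obtain ⟨h7, h8⟩ := pair_core (Wc := fun I => wd V X (insert i I)) hnr' hC'
          (fun J hJ => hb _ (hsub J hJ)) hp' hmem'
          (mem_wd.2 (Or.inr ⟨j, by simp, mx⟩)) (mem_wd.2 (Or.inr ⟨j, by simp, my⟩))
          (mono (Finset.insert_subset_insert i (Finset.singleton_subset_iff.2
            (Finset.mem_insert_self j _)))) h2 h6' h5'
        refine ⟨h7, ?_⟩
        change DirP L hΦ hε (wd V X (insert i ∅)) τ x y at h8
        rwa [e3, wd_single hXi] at h8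
      · left
        obtain ⟨m, hm, hXj⟩ := hX.exh j hj
        refine ⟨m, hm, ?_, ?_⟩
        · rintro rfl
          have := hX.inj j (Finset.mem_insert_of_mem hj) i (Finset.mem_insert_of_mem hi) hji
          rw [hXi, hXj, Finset.disjoint_self_iff_empty] at this
          exact Finset.singleton_ne_empty _ this
        · rwa [wd_single hXi, wd_pair hXi hXj] at h6

end Vale.Agent.P119.PB
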