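import Vale.Agent.P119.PB.PairGood
import Vale.Agent.P119.PB.Cont4

/-!
# P119, block PROB, P9: contamination by a colliding pair (`helper384`)

Glue of `PGood`, TREES -> LINES, the threshold transfers and `colliding` (`helper909`):

* `PExc`: the exceptional event of the pair `x`, `y` over `U`;
* **`pe_cases`**: `PE W (hz η t W) x y`, `U = W` without the particles of the pair, not exceptional
  ⇒ `DirP U (hz η'' t U) x y` or `TwoP η'' t U x y`.
-/

open MeasureTheory Filter Topology Set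
open scoped ENNReal NNReal

noncomputable section

namespace Vale.Agent.P119.PB

open M CTree KU FB RB AU TL

variable {Φ : E3 → ℝ} {ε : ℝ} {L : ℕ} {hΦ : IsPotential Φ} {hε : 0 < ε}
  {U V W : Finset Src} {x y z S : CTree} {s t u τ η η' η'' : ℝ} {a b : Src}

theorem wd_eq_wF {ι : Type*} {X : ι → Finset Src} {J : Finset ι} : wd V X J = wF V X J := by
  ext a
  rw [mem_wd, mem_wF]

/-- The two colliding trees are alive at their exits, their roots are not exposed before. -/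
theorem PAl.of_live (hlive : live Φ ε L (W : Set Src) (node x y) τ)
    (hsig : sig Φ ε (node x y) < τ) (hext : τ ≤ ext Φ ε (node x y))
    (hf : ∀ s < τ, ¬(Y Φ ε L hΦ hε).Exp W x.root s) : PAl Φ ε L hΦ hε W x y := by
  have hok := hlive.ok
  have h1 : ext Φ ε x < sig Φ ε (node x y) := hok.2.2.2.2.2.1
  have h2 : ext Φ ε y < sig Φ ε (node x y) := hok.2.2.2.2.2.2
  exact ⟨hok.2.2.1, alive_anti (live_left hΦ hε W.finite_toSet hlive) h1.le le_rfl,
    alive_anti (live_right hΦ hε W.finite_toSet hlive) h2.le le_rfl,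
    fun s hs => hf s ((hs.trans h1).trans hsig),
    fun s hs => not_exp_pair hlive hsig hext hf s ((hs.trans h2).trans hsig)⟩

theorem prk_not_mem (h : PGood Φ ε L U x y t) (hd : Disjoint x.leaves y.leaves) :
    prk Φ ε x y ∉ epk Φ ε x y := by
  intro hm
  obtain ⟨z, hz, he⟩ := mem_epk.1 hm
  have h1 : rsrc Φ ε x ∈ sgl (rsrc Φ ε z) := by
    rw [he]
    exact mem_prk.2 (Or.inl rfl)
  have h2 : rsrc Φ ε y ∈ sgl (rsrc Φ ε z) := by
    rw [he]
    exact mem_prk.2 (Or.inr rfl)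
  have h3 := h.inj left_mem_outs (exs_sub_outs hz) (Finset.mem_singleton.1 h1)
  have h4 := h.inj right_mem_outs (exs_sub_outs hz) (Finset.mem_singleton.1 h2)
  rw [h3, h4] at hd
  exact disjoint_left.1 hd z.root_mem_leaves z.root_mem_leaves

open Classical in
/-- The family of packets. -/
theorem PGood.fam2 (h : PGood Φ ε L U x y t) (hd : Disjoint x.leaves y.leaves) :
    Fam2 Φ ε U x y id (epk Φ ε x y) (prk Φ ε x y) := by
  have hm : ∀ A ∈ insert (prk Φ ε x y) (epk Φ ε x y), A ∈ pks Φ ε x y := fun A hA => by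
    unfold pks
    rcases Finset.mem_insert.1 hA with h | h
    · exact Finset.mem_insert.2 (Or.inl h)
    · exact Finset.mem_insert.2 (Or.inr h)
  refine ⟨prk_not_mem h hd, fun a => mem_prk, fun A hA => ?_, fun A hA B hB hAB => ?_,
    fun A hA => ?_⟩
  · obtain ⟨z, hz, rfl⟩ := mem_epk.1 hA
    exact ⟨z, hz, rfl⟩
  · exact h.good.disj A (hm A hA) B (hm B hB) hAB
  · exact h.good.disjV A (hm A hA)

theorem lw2_eq_wd : lw2 Φ ε U x y = wd U id (pks Φ ε x y) := wd_eq_wF.symm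

variable (L hΦ hε) in
/-- **The exceptional event** of the pair `x`, `y` over `U`. -/
def PExc (η η' η'' t : ℝ) (U : Finset Src) (x y : CTree) : Prop :=
  ¬PGood Φ ε L U x y t ∨ ENNReal.ofReal ((η' - η) * mu ε) < relP Φ ε L U x y t ∨
    ENNReal.ofReal ((η'' - η') * mu ε) < relW L hΦ hε (lw2 Φ ε U x y) U t ∨
    ∃ e ∈ exs x ∪ exs y, ENNReal.ofReal ((η'' - η') * mu ε) <
      relW L hΦ hε (lw2 Φ ε U x y) (addT U (leaf (rsrc Φ ε e))) t

theorem addT_leaf [DecidableEq Src] : addT U (leaf a) = insert a U := by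
  ext b
  rw [mem_addT, Finset.mem_insert, or_comm]
  rfl

open Classical in
/-- **Contamination by a colliding pair.** -/
theorem pe_cases (h0 : ∀ a ∈ W, 0 ≤ a.1) (hη : 0 < η) (hηη : η ≤ η') (hηη' : η' ≤ η'')
    (ht : 0 ≤ t) (hPE : PE L hΦ hε W (hz L hΦ hε η t W) x y)
    (hN : ¬PExc L hΦ hε η η' η'' t (rm W (node x y)) x y) :
    DirP L hΦ hε (rm W (node x y)) (hz L hΦ hε η'' t (rm W (node x y))) x y ∨
      TwoP L hΦ hε η'' t (rm W (node x y)) x y := by
  obtain ⟨τ, hτ, hf, hlive, hsig, hext', n₁, n₂⟩ := hPE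
  have hext := hext'.le
  set V := rm W (node x y) with hV
  unfold PExc at hN
  push Not at hN
  obtain ⟨hg, hR₁, hR₂, hR₃⟩ := hN
  have hWV : addT V (node x y) = W := addT_rm hlive.sub
  have hd : Disjoint (V : Set Src) (node x y).leaves := disjoint_rm W (node x y)
  have hτt : τ ≤ t := hτ.trans (hz_le hη ht)
  have hA : PAl Φ ε L hΦ hε W x y := PAl.of_live hlive hsig hext hf.2
  have hok := hlive.ok
  have h1 : ext Φ ε x < τ := hok.2.2.2.2.2.1.trans hsig
  have h2 : ext Φ ε y < τ := hok.2.2.2.2.2.2.trans hsig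
  have hη' : 0 < η' := hη.trans_le hηη
  have hτ' : τ ≤ hz L hΦ hε η' t (lw2 Φ ε V x y) := by
    refine hg.hz (hΦ := hΦ) (hε := hε) (τ := τ) hd (by rw [hWV]; exact hA) hη ht hηη h1 h2 hR₁ ?_
    rw [hWV]
    exact hτ
  have hrep := hg.rep h0 (by rw [← coe_addT, hWV]) hA (h1.le.trans hτt) (h2.le.trans hτt)
  have hL := hrep.lines
  rw [lw2_eq_wd] at hL
  have hcube : FB.Sys.Cube (Y Φ ε L hΦ hε) (wd V id) (pks Φ ε x y) t := by
    have := hg.good.cube hΦ hε
    have e : wd V (id : Finset Src → Finset Src) = wF V id := funext fun J => wd_eq_wF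
    rw [e]
    exact this
  have hbd : ∀ a ∈ wd V id (pks Φ ε x y), 0 ≤ a.1 ∧ a.2.2 ≤ L := by
    intro a ha
    rw [← lw2_eq_wd] at ha
    exact hg.bd a ha
  have gx : (TF.fs Φ ε (ext Φ ε) {x, y} (rsrc Φ ε x)).root = x.root := by
    rw [hg.fs_rsrc left_mem_outs]
  have gy : (TF.fs Φ ε (ext Φ ε) {x, y} (rsrc Φ ε y)).root = y.root := by
    rw [hg.fs_rsrc right_mem_outs]
  have hlw : wd V id (insert (prk Φ ε x y) (epk Φ ε x y)) = lw2 Φ ε V x y := by
    rw [lw2_eq_wd]
    rfl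
  have key := colliding (hΦ := hΦ) (hε := hε) (hg.fam2 hA.disj) hcube hL gx gy hbd h0 hτt hf hlive
    hsig hext n₁ n₂
  rw [hlw] at key
  have hnn := hg.lw2_nonneg
  have hVn := hg.nonneg
  rcases key with ⟨k1, k2⟩ | ⟨e, he, σ, σ₂, k1, k2, k3, k4, k5⟩
  · left
    have h3 : τ ≤ hz L hΦ hε η'' t V := hz_transfer hnn hVn hη' ht
      (fun s hs hc => k1 s hs hc.symm) hR₂ hηη' hτ'
    obtain ⟨r, hr, h4⟩ := k2
    exact ⟨r, hr.trans h3, h4⟩
  · right
    have hen : ∀ a ∈ insert (rsrc Φ ε e) V, 0 ≤ a.1 := by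
      intro a ha
      rcases Finset.mem_insert.1 ha with rfl | ha
      · exact hnn _ (mem_lw2.2 (Or.inr ⟨e, exs_sub_outs he, rfl⟩))
      · exact hVn a ha
    have hR := hR₃ e he
    rw [addT_leaf] at hR
    have h3 : σ₂ ≤ hz L hΦ hε η'' t (insert (rsrc Φ ε e) V) := hz_transfer hnn hen hη' ht
      (fun s hs hc => k4 s hs hc.symm) hR hηη' (k2.trans hτ')
    refine ⟨e, he, ?_⟩
    rcases k5 with ⟨m, hm, hme, k5⟩ | ⟨rfl, r, hr, k5⟩
    · exact Or.inl ⟨m, hm, hme, k3.mono (k1.trans h3), k5.mono h3⟩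
    · exact Or.inr ⟨k3.mono (k1.trans h3), r, hr.trans h3, k5⟩

/-! ### The statuses and the contacts of the pair over `U` (for `helper456`) -/

/-- Before `τ` the first particle of the pair has a contact only with the second one, during the
collision. -/
theorem mcon_core {F P : Finset Src} {f : Src → CTree} {l₁ l₂ : Src}
    (hr : Rep Φ ε L hΦ hε W F f t) (m₁ : l₁ ∈ F) (m₂ : l₂ ∈ F) (f₁ : f l₁ = x) (f₂ : f l₂ = y)
    (b₁ : l₁.1 = ext Φ ε x) (hlive : live Φ ε L (W : Set Src) (node x y) τ)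
    (hf : ∀ s < τ, ¬(Y Φ ε L hΦ hε).Exp W x.root s) (hτ : τ ≤ t)
    (hst : ∀ s < τ, sta Φ ε L (P : Set Src) l₁ s = sta Φ ε L (F : Set Src) l₁ s) (hs : s < τ)
    (hm : mcon Φ ε L (P : Set Src) s l₁ b) : b = l₂ ∧ sig Φ ε (node x y) ≤ s := by
  have hW := W.finite_toSet
  have hl := hr.lines
  have hst' := hst s hs
  have hnW : ¬badc Φ ε L (W : Set Src) x.root s := fun h => hf s hs (.bad le_rfl h)
  have hnF : ¬badc Φ ε L (F : Set Src) l₁ s := fun h => hnW (by
    have := (hl.badc l₁ m₁ s (hs.le.trans hτ)).1 h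
    rwa [f₁] at this)
  have hnP : ¬badc Φ ε L (P : Set Src) l₁ s := fun h => hnF ((badc_of_sta hst').1 h)
  have hb := hm.birth_le hΦ hε
  have hp : part Φ ε L (P : Set Src) s l₁ b := by
    by_contra hcon
    exact hnP ⟨s, le_rfl, hm.mem.1, hm.nonneg hΦ hε, hb.1, Or.inr ⟨b, hm, hcon⟩⟩
  obtain ⟨S, S', k1, k2, u, v, rfl, rfl, k3⟩ := hp
  have hvb : v.root = b := ((stat_eq_some_iff hΦ hε P.finite_toSet).1 k2).1
  rw [stat_of_sta hst'] at k1
  have k4 := (stat_eq_some_iff hΦ hε F.finite_toSet).1 k1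
  have k5 := hl.stat l₁ m₁ s (hs.le.trans hτ) hb.1
  rw [k1, f₁] at k5
  have k6 : stat Φ ε L (W : Set Src) x.root s = some (node (sbs f u) (sbs f v)) := k5
  have hok := hlive.ok
  have hln := hr.ln_leaves k4.2.live.sub
  have hxs : ext Φ ε x ≤ s := b₁ ▸ hb.1
  rcases lt_or_ge s (sig Φ ε (node x y)) with h4 | h4
  · exfalso
    have h5 := (alive_iff_live hΦ hε hW).1 (live_left hΦ hε hW hlive)
    have h6 : lives Φ ε L (W : Set Src) x s :=
      h5.1.lives_of_lt h4 ((sig_le_ext hΦ hε hok.1).trans hxs)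
    have h7 : stat Φ ε L (W : Set Src) x.root s = some x :=
      (stat_eq_some_iff hΦ hε hW).2 ⟨rfl, h6⟩
    rw [h7] at k6
    injection k6 with k6
    have h8 : ext Φ ε x = ext Φ ε (node u v) := by
      rw [k6]
      exact ext_sbs hln
    rw [h8] at hxs
    exact absurd k3 (not_lt.2 hxs)
  · refine ⟨?_, h4⟩
    have h7 : stat Φ ε L (W : Set Src) x.root s = some (node x y) :=
      (stat_eq_some_iff hΦ hε hW).2 ⟨rfl, hlive.lives_of_lt hs h4⟩
    rw [h7] at k6
    injection k6 with k6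
    injection k6 with _ k7
    have h8 : (f v.root).root = (f l₂).root := by
      rw [f₂, k7]
      exact (sbs_root v).symm
    have hv : v.root ∈ (F : Set Src) := k4.2.live.sub (Or.inr v.root_mem_leaves)
    rw [← hvb]
    exact hl.bij.injOn hv (Finset.mem_coe.2 m₂) h8

open Classical in
/-- The world with the pair only. -/
def pw (Φ : E3 → ℝ) (ε : ℝ) (U : Finset Src) (x y : CTree) : Finset Src :=
  insert (rsrc Φ ε x) (insert (rsrc Φ ε y) U)

theorem wF_prk : wF U id {prk Φ ε x y} = pw Φ ε U x y := by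
  classical
  ext a
  unfold pw
  rw [mem_wF, Finset.mem_insert, Finset.mem_insert]
  constructor
  · rintro (h | ⟨A, hA, ha⟩)
    · exact Or.inr (Or.inr h)
    · rw [Finset.mem_singleton.1 hA] at ha
      rcases mem_prk.1 ha with h | h
      · exact Or.inl h
      · exact Or.inr (Or.inl h)
  · rintro (h | h | h)
    · exact Or.inr ⟨_, Finset.mem_singleton_self _, mem_prk.2 (Or.inl h)⟩
    · exact Or.inr ⟨_, Finset.mem_singleton_self _, mem_prk.2 (Or.inr h)⟩
    · exact Or.inl h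

/-- The full statuses of the pair are the same with or without the exhausts. -/
theorem PGood.sta_pw (hΦ : IsPotential Φ) (hε : 0 < ε) (h : PGood Φ ε L U x y t)
    (hz : z = x ∨ z = y) (hs : s ≤ t) :
    sta Φ ε L (pw Φ ε U x y : Set Src) (rsrc Φ ε z) s =
      sta Φ ε L (lw2 Φ ε U x y : Set Src) (rsrc Φ ε z) s := by
  classical
  have hm : rsrc Φ ε z ∈ prk Φ ε x y := mem_prk.2 (by
    rcases hz with rfl | rfl
    · exact Or.inl rfl
    · exact Or.inr rfl)
  have hzo : z ∈ outs x ∪ outs y := by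
    rcases hz with rfl | rfl
    · exact left_mem_outs
    · exact right_mem_outs
  have key := sta_full (hΦ := hΦ) (hε := hε) (h.good.cube hΦ hε) prk_mem (Finset.Subset.refl _)
    (x := rsrc Φ ε z) (mem_D_of_diff ?_ ?_ t) hs
  · rw [wF_prk] at key
    exact key
  · exact mem_wF.2 (Or.inr ⟨_, Finset.mem_singleton_self _, hm⟩)
  · rw [wF_empty]
    exact h.fresh hzo

/-- **The bad particles of the pair**: the same in `W` and over `U`. -/
theorem PGood.badc_pw (h : PGood Φ ε L U x y t) (h0 : ∀ a ∈ W, 0 ≤ a.1)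
    (hW : (W : Set Src) = (U : Set Src) ∪ (node x y).leaves)
    (hA : PAl Φ ε L hΦ hε W x y) (hx : ext Φ ε x ≤ t) (hy : ext Φ ε y ≤ t)
    (hz : z = x ∨ z = y) (hs : s ≤ t) : badc Φ ε L (pw Φ ε U x y : Set Src) (rsrc Φ ε z) s ↔
      badc Φ ε L (W : Set Src) z.root s := by
  have hzo : z ∈ outs x ∪ outs y := by
    rcases hz with rfl | rfl
    · exact left_mem_outs
    · exact right_mem_outs
  have h1 := (h.rep h0 hW hA hx hy).lines.badc (rsrc Φ ε z) (mem_lw2.2 (Or.inr ⟨z, hzo, rfl⟩)) s hs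
  rw [h.fs_rsrc hzo] at h1
  exact (badc_of_sta (h.sta_pw hΦ hε hz hs)).trans h1

/-- **The contacts of the pair over `U`** before `τ`: only with each other, during the collision. -/
theorem PGood.mcon_pw (h : PGood Φ ε L U x y t) (h0 : ∀ a ∈ W, 0 ≤ a.1)
    (hW : (W : Set Src) = (U : Set Src) ∪ (node x y).leaves)
    (hlive : live Φ ε L (W : Set Src) (node x y) τ)
    (hsig : sig Φ ε (node x y) < τ) (hext : τ ≤ ext Φ ε (node x y)) (hτ : τ ≤ t)
    (hf : ∀ s < τ, ¬(Y Φ ε L hΦ hε).Exp W x.root s) (hs : s < τ) :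
    (mcon Φ ε L (pw Φ ε U x y : Set Src) s (rsrc Φ ε x) b →
      b = rsrc Φ ε y ∧ sig Φ ε (node x y) ≤ s) ∧
    (mcon Φ ε L (pw Φ ε U x y : Set Src) s (rsrc Φ ε y) b →
      b = rsrc Φ ε x ∧ sig Φ ε (node x y) ≤ s) := by
  have hA : PAl Φ ε L hΦ hε W x y := PAl.of_live hlive hsig hext hf
  have hok := hlive.ok
  have h1 : ext Φ ε x < τ := hok.2.2.2.2.2.1.trans hsig
  have h2 : ext Φ ε y < τ := hok.2.2.2.2.2.2.trans hsig
  have hrep := h.rep h0 hW hA (h1.le.trans hτ) (h2.le.trans hτ)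
  have mx : rsrc Φ ε x ∈ lw2 Φ ε U x y := mem_lw2.2 (Or.inr ⟨x, left_mem_outs, rfl⟩)
  have my : rsrc Φ ε y ∈ lw2 Φ ε U x y := mem_lw2.2 (Or.inr ⟨y, right_mem_outs, rfl⟩)
  have ex := h.fs_rsrc (z := x) left_mem_outs
  have ey := h.fs_rsrc (z := y) right_mem_outs
  constructor
  · exact mcon_core hrep mx my ex ey rfl hlive hf hτ
      (fun q hq => h.sta_pw hΦ hε (Or.inl rfl) (hq.le.trans hτ)) hs
  · intro hm
    have h3 := mcon_core hrep my mx ey ex rfl (live_swap hΦ hlive hext)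
      (not_exp_pair hlive hsig hext hf) hτ
      (fun q hq => h.sta_pw hΦ hε (Or.inr rfl) (hq.le.trans hτ)) hs hm
    rwa [sig_swap x y] at h3

end Vale.Agent.P119.PB
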