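import Vale.Agent.P119.PB.ThrRep
import Vale.Agent.P119.PB.Felt
import Vale.Agent.P119.TF.Pair

/-!
# P119, block PROB, P9: the lines of a colliding pair (`helper384`)

* `prk`, `pks`: the packets (one source for each exhaust of `x`, `y`; the two lines of the pair are
  one packet); `lw2 Φ ε U x y`: the world of the lines;
* `PGood Φ ε L U x y t`: these packets do not interact over `U` (`M.Good`);
* `PGood.rep`: TREES -> LINES, births at the exits;
* `IndP`, `relP`, **`PGood.hz`**: threshold transfer from the world with the pair to the world of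
  lines.
-/

open MeasureTheory Filter Topology Set
open scoped ENNReal NNReal

noncomputable section

namespace Vale.Agent.P119.PB

open M CTree KU FB RB AU TL

variable {Φ : E3 → ℝ} {ε : ℝ} {L : ℕ} {hΦ : IsPotential Φ} {hε : 0 < ε}
  {U V W : Finset Src} {x y z S : CTree} {s t u τ η η' : ℝ} {a : Src}

open Classical in
/-- The two lines of the pair. -/
def prk (Φ : E3 → ℝ) (ε : ℝ) (x y : CTree) : Finset Src := {rsrc Φ ε x, rsrc Φ ε y}

open Classical in
/-- The packets of the lines of the exhausts. -/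
def epk (Φ : E3 → ℝ) (ε : ℝ) (x y : CTree) : Finset (Finset Src) :=
  (exl Φ ε x ∪ exl Φ ε y).image sgl

open Classical in
/-- The packets of the lines of `x` and `y`. -/
def pks (Φ : E3 → ℝ) (ε : ℝ) (x y : CTree) : Finset (Finset Src) :=
  insert (prk Φ ε x y) (epk Φ ε x y)

/-- The world of the lines of `x` and `y`. -/
def lw2 (Φ : E3 → ℝ) (ε : ℝ) (U : Finset Src) (x y : CTree) : Finset Src :=
  wF U id (pks Φ ε x y)

theorem mem_prk : a ∈ prk Φ ε x y ↔ a = rsrc Φ ε x ∨ a = rsrc Φ ε y := by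
  unfold prk
  rw [Finset.mem_insert, Finset.mem_singleton]

theorem mem_exl {T : CTree} : a ∈ exl Φ ε T ↔ ∃ z ∈ exs T, rsrc Φ ε z = a := by
  rw [← Finset.mem_coe, coe_exl]
  rfl

theorem mem_epk {A : Finset Src} :
    A ∈ epk Φ ε x y ↔ ∃ z ∈ exs x ∪ exs y, sgl (rsrc Φ ε z) = A := by
  classical
  unfold epk
  rw [Finset.mem_image]
  constructor
  · rintro ⟨a, ha, rfl⟩
    rcases Finset.mem_union.1 ha with ha | ha
    · obtain ⟨z, hz, rfl⟩ := mem_exl.1 ha
      exact ⟨z, Or.inl hz, rfl⟩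
    · obtain ⟨z, hz, rfl⟩ := mem_exl.1 ha
      exact ⟨z, Or.inr hz, rfl⟩
  · rintro ⟨z, hz | hz, rfl⟩
    · exact ⟨_, Finset.mem_union_left _ (mem_exl.2 ⟨z, hz, rfl⟩), rfl⟩
    · exact ⟨_, Finset.mem_union_right _ (mem_exl.2 ⟨z, hz, rfl⟩), rfl⟩

theorem prk_mem : prk Φ ε x y ∈ pks Φ ε x y := by
  classical
  exact Finset.mem_insert_self _ _

theorem epk_subset : epk Φ ε x y ⊆ pks Φ ε x y := by
  classical
  exact Finset.subset_insert _ _

theorem sgl_mem_pks (hz : z ∈ exs x ∪ exs y) : sgl (rsrc Φ ε z) ∈ pks Φ ε x y :=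
  epk_subset (mem_epk.2 ⟨z, hz, rfl⟩)

theorem pks_cases {A : Finset Src} (hA : A ∈ pks Φ ε x y) :
    A = prk Φ ε x y ∨ A ∈ epk Φ ε x y := by
  classical
  unfold pks at hA
  exact Finset.mem_insert.1 hA

theorem outs_cases (hz : z ∈ outs x ∪ outs y) : z = x ∨ z = y ∨ z ∈ exs x ∪ exs y := by
  rcases hz with (h | h) | (h | h)
  · exact Or.inl h
  · exact Or.inr (Or.inr (Or.inl h))
  · exact Or.inr (Or.inl h)
  · exact Or.inr (Or.inr (Or.inr h))

theorem exs_sub_outs (hz : z ∈ exs x ∪ exs y) : z ∈ outs x ∪ outs y := by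
  rcases hz with h | h
  · exact Or.inl (Or.inr h)
  · exact Or.inr (Or.inr h)

theorem left_mem_outs : x ∈ outs x ∪ outs y := Or.inl (Or.inl rfl)

theorem right_mem_outs : y ∈ outs x ∪ outs y := Or.inr (Or.inl rfl)

theorem mem_lw2 : a ∈ lw2 Φ ε U x y ↔ a ∈ U ∨ ∃ z ∈ outs x ∪ outs y, rsrc Φ ε z = a := by
  unfold lw2
  rw [mem_wF]
  refine or_congr_right ⟨?_, ?_⟩
  · rintro ⟨A, hA, ha⟩
    rcases pks_cases hA with rfl | hA
    · rcases mem_prk.1 ha with rfl | rfl
      · exact ⟨x, left_mem_outs, rfl⟩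
      · exact ⟨y, right_mem_outs, rfl⟩
    · obtain ⟨z, hz, rfl⟩ := mem_epk.1 hA
      exact ⟨z, exs_sub_outs hz, (Finset.mem_singleton.1 ha).symm⟩
  · rintro ⟨z, hz, rfl⟩
    rcases outs_cases hz with rfl | rfl | hz
    · exact ⟨_, prk_mem, mem_prk.2 (Or.inl rfl)⟩
    · exact ⟨_, prk_mem, mem_prk.2 (Or.inr rfl)⟩
    · exact ⟨_, sgl_mem_pks hz, Finset.mem_singleton_self _⟩

theorem coe_lw2 : (lw2 Φ ε U x y : Set Src) =
    (U : Set Src) ∪ msrc Φ ε (ext Φ ε) '' (outs x ∪ outs y) := by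
  ext a
  rw [Finset.mem_coe, mem_lw2]
  rfl

theorem coe_lw2' : (lw2 Φ ε U x y : Set Src) = TF.lwd Φ ε (ext Φ ε) (U : Set Src) {x, y} := by
  rw [coe_lw2]
  unfold TF.lwd
  rw [TF.ous_pair]

/-- The lines of `x` and `y` do not interact over `U` up to the time `t`, except those of the
pair. -/
structure PGood (Φ : E3 → ℝ) (ε : ℝ) (L : ℕ) (U : Finset Src) (x y : CTree) (t : ℝ) : Prop where
  /-- the particles are new -/
  disj : Disjoint (U : Set Src) (node x y).leaves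
  /-- the sources are distinct -/
  inj : InjOn (rsrc Φ ε) (outs x ∪ outs y)
  /-- no interaction -/
  good : Good Φ ε L U id (pks Φ ε x y) t

namespace PGood

theorem mono (h : PGood Φ ε L U x y t) (hst : s ≤ t) : PGood Φ ε L U x y s :=
  ⟨h.disj, h.inj, h.good.mono hst⟩

theorem fresh (h : PGood Φ ε L U x y t) (hz : z ∈ outs x ∪ outs y) : rsrc Φ ε z ∉ U := by
  intro hU
  rcases outs_cases hz with rfl | rfl | hz
  · exact Finset.disjoint_left.1 (h.good.disjV _ prk_mem) hU (mem_prk.2 (Or.inl rfl))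
  · exact Finset.disjoint_left.1 (h.good.disjV _ prk_mem) hU (mem_prk.2 (Or.inr rfl))
  · exact Finset.disjoint_left.1 (h.good.disjV _ (sgl_mem_pks hz)) hU
      (Finset.mem_singleton_self _)

theorem nonneg (h : PGood Φ ε L U x y t) : ∀ a ∈ U, 0 ≤ a.1 := fun a ha => (h.good.birthV a ha).1

theorem bd (h : PGood Φ ε L U x y t) : ∀ a ∈ lw2 Φ ε U x y, 0 ≤ a.1 ∧ a.2.2 ≤ L :=
  h.good.bd (Finset.Subset.refl _)

end PGood

open Classical in
/-- The index of a history. -/
def ixp (Φ : E3 → ℝ) (ε : ℝ) (x y z : CTree) : Finset Src :=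
  if z = x ∨ z = y then prk Φ ε x y else sgl (rsrc Φ ε z)

/-- The histories `x` and `y`, disjoint and alive at their exits, with unexposed roots. -/
structure PAl (Φ : E3 → ℝ) (ε : ℝ) (L : ℕ) (hΦ : IsPotential Φ) (hε : 0 < ε) (W : Finset Src)
    (x y : CTree) : Prop where
  disj : Disjoint x.leaves y.leaves
  ax : alive Φ ε L (W : Set Src) x (ext Φ ε x)
  ay : alive Φ ε L (W : Set Src) y (ext Φ ε y)
  ux : ∀ s < ext Φ ε x, ¬(Y Φ ε L hΦ hε).Exp W x.root s
  uy : ∀ s < ext Φ ε y, ¬(Y Φ ε L hΦ hε).Exp W y.root s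

/-- **TREES -> LINES for the pair**, births at the exits. -/
theorem PGood.rep (h : PGood Φ ε L U x y t) (h0 : ∀ a ∈ W, 0 ≤ a.1)
    (hW : (W : Set Src) = (U : Set Src) ∪ (node x y).leaves)
    (hA : PAl Φ ε L hΦ hε W x y) (hx : ext Φ ε x ≤ t) (hy : ext Φ ε y ≤ t) :
    Rep Φ ε L hΦ hε W (lw2 Φ ε U x y) (TF.fs Φ ε (ext Φ ε) {x, y}) t := by
  classical
  have hne : Nonempty (Finset Src) := ⟨∅⟩
  have hidx : ∀ z ∈ outs x ∪ outs y, Idx (fun J => (wF U id J : Set Src)) (pks Φ ε x y)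
      (ixp Φ ε x y z) (msrc Φ ε (ext Φ ε) z) := by
    intro z hz
    have h1 : ixp Φ ε x y z ∈ pks Φ ε x y ∧ rsrc Φ ε z ∈ ixp Φ ε x y z := by
      unfold ixp
      split_ifs with hc
      · refine ⟨prk_mem, mem_prk.2 ?_⟩
        rcases hc with rfl | rfl
        · exact Or.inl rfl
        · exact Or.inr rfl
      · rcases outs_cases hz with rfl | rfl | hz
        · exact absurd (Or.inl rfl) hc
        · exact absurd (Or.inr rfl) hc
        · exact ⟨sgl_mem_pks hz, Finset.mem_singleton_self _⟩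
    exact h.good.idx h1.1 h1.2
  have hpair : ∀ z ∈ outs x ∪ outs y, ∀ z' ∈ outs x ∪ outs y, z ≠ z' →
      ixp Φ ε x y z = ixp Φ ε x y z' → Disjoint z.leaves z'.leaves := by
    have key : ∀ z ∈ outs x ∪ outs y, ∀ z' ∈ outs x ∪ outs y, z ≠ z' → (z = x ∨ z = y) →
        ¬(z' = x ∨ z' = y) → prk Φ ε x y ≠ sgl (rsrc Φ ε z') := by
      intro z hz z' hz' hzz hzc hz'c he
      have h2 : rsrc Φ ε z ∈ prk Φ ε x y := mem_prk.2 (by
        rcases hzc with rfl | rfl
        · exact Or.inl rfl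
        · exact Or.inr rfl)
      rw [he] at h2
      exact hzz (h.inj hz hz' (Finset.mem_singleton.1 h2))
    intro z hz z' hz' hzz he
    unfold ixp at he
    split_ifs at he with h1 h2 h2
    · rcases h1 with rfl | rfl <;> rcases h2 with rfl | rfl
      · exact absurd rfl hzz
      · exact hA.disj
      · exact hA.disj.symm
      · exact absurd rfl hzz
    · exact absurd he (key z hz z' hz' hzz h1 h2)
    · exact absurd he.symm (key z' hz' z hz (Ne.symm hzz) h2 h1)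
    · have h3 : rsrc Φ ε z ∈ sgl (rsrc Φ ε z) := Finset.mem_singleton_self _
      rw [he] at h3
      exact absurd (h.inj hz hz' (Finset.mem_singleton.1 h3)) hzz
  have key := TF.rep_of_NI (Φ := Φ) (ε := ε) (L := L) (U := (U : Set Src)) (F := {x, y})
    (ρ := ext Φ ε) (t := t) (hΦ := hΦ) (hε := hε) (W := W) (W' := lw2 Φ ε U x y)
    h.good.cubeW h.good.ni (Finset.Subset.refl _) (ixp Φ ε x y)
  rw [TF.rhoF_ext', TF.ous_pair, TF.lvs_pair] at key
  have hax := hA.ax
  have hay := hA.ay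
  rw [hW] at hax hay
  refine key hidx hpair rfl ?_ ((finite_singleton y).insert x) ?_ h.disj hW h0 h.inj
    (fun z hz hm => h.fresh hz (Finset.mem_coe.1 hm)) ?_ ?_ ?_ ?_
  · rw [← coe_lw2']
    rfl
  · rintro T (rfl | rfl) T' (rfl | rfl) hne
    · exact absurd rfl hne
    · exact hA.disj
    · exact hA.disj.symm
    · exact absurd rfl hne
  · rintro T (rfl | rfl)
    · exact hax
    · exact hay
  · exact fun T _ => Or.inl rfl
  · rintro T (rfl | rfl)
    · exact hx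
    · exact hy
  · rintro T (rfl | rfl)
    · exact hA.ux
    · exact hA.uy

theorem PGood.fs_of_mem (h : PGood Φ ε L U x y t) (ha : a ∈ U) :
    TF.fs Φ ε (ext Φ ε) {x, y} a = leaf a := by
  refine TF.fs_of_mem' (U := (U : Set Src)) (fun z hz hm => ?_) (Finset.mem_coe.2 ha)
  rw [TF.ous_pair] at hz
  exact h.fresh hz (Finset.mem_coe.1 hm)

theorem PGood.fs_rsrc (h : PGood Φ ε L U x y t) (hz : z ∈ outs x ∪ outs y) :
    TF.fs Φ ε (ext Φ ε) {x, y} (rsrc Φ ε z) = z := by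
  refine TF.fs_msrc' (fun z hz z' hz' he => ?_) ?_
  · rw [TF.ous_pair] at hz hz'
    exact h.inj hz hz' he
  · rw [TF.ous_pair]
    exact hz

/-! ### Independent trees -/

/-- The conditions of independence of the tree `S` and the pair `x`, `y` over `U`. -/
structure IndP (Φ : E3 → ℝ) (ε : ℝ) (L : ℕ) (U : Finset Src) (x y : CTree) (t : ℝ) (S : CTree) :
    Prop where
  /-- `S` is a tree of the base -/
  sub : S.leaves ⊆ (U : Set Src)
  /-- `x` is alive without `S` -/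
  ax : alive Φ ε L (rm (addT U (node x y)) S : Set Src) x (ext Φ ε x)
  /-- `y` is alive without `S` -/
  ay : alive Φ ε L (rm (addT U (node x y)) S : Set Src) y (ext Φ ε y)
  /-- the lines are independent without `S` -/
  good : PGood Φ ε L (rm U S) x y t

/-- The weighted number of the trees of the world of lines which are not independent of the
pair. -/
def relP (Φ : E3 → ℝ) (ε : ℝ) (L : ℕ) (U : Finset Src) (x y : CTree) (t : ℝ) : ℝ≥0∞ :=
  relI Φ ε L (lw2 Φ ε U x y) t (IndP Φ ε L U x y t)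

/-- The world of lines without `S`. -/
theorem PGood.rm_lw2 (h : PGood Φ ε L U x y t) (hS : S.leaves ⊆ (U : Set Src)) :
    rm (lw2 Φ ε U x y) S = lw2 Φ ε (rm U S) x y := by
  ext a
  rw [mem_rm, mem_lw2, mem_lw2, mem_rm]
  constructor
  · rintro ⟨h1 | h1, h2⟩
    · exact Or.inl ⟨h1, h2⟩
    · exact Or.inr h1
  · rintro (h1 | ⟨z, hz, rfl⟩)
    · exact ⟨Or.inl h1.1, h1.2⟩
    · exact ⟨Or.inr ⟨z, hz, rfl⟩, fun h2 => h.fresh hz (Finset.mem_coe.1 (hS h2))⟩

theorem PGood.lw2_nonneg (h : PGood Φ ε L U x y t) : ∀ a ∈ lw2 Φ ε U x y, 0 ≤ a.1 :=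
  fun a ha => (h.bd a ha).1

/-- **P2, from the world with the pair to the world of lines.** -/
theorem PGood.hz (h : PGood Φ ε L U x y t) (hd : Disjoint (U : Set Src) (node x y).leaves)
    (hA : PAl Φ ε L hΦ hε (addT U (node x y)) x y) (hη : 0 < η) (ht : 0 ≤ t) (hηη : η ≤ η')
    (hx : ext Φ ε x < τ) (hy : ext Φ ε y < τ)
    (hR : relP Φ ε L U x y t ≤ ENNReal.ofReal ((η' - η) * mu ε))
    (hτ : τ ≤ PB.hz L hΦ hε η t (addT U (node x y))) :
    τ ≤ PB.hz L hΦ hε η' t (lw2 Φ ε U x y) := by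
  have hτt : τ ≤ t := hτ.trans (hz_le hη ht)
  have hokx := (alive_pre hA.ax).ok
  have hoky := (alive_pre hA.ay).ok
  have h0 : ∀ a ∈ addT U (node x y), 0 ≤ a.1 := addT_nonneg h.nonneg (by
    intro a ha
    rcases ha with ha | ha
    · exact birth_of_ok hokx a ha
    · exact birth_of_ok hoky a ha)
  have hrep : ∀ u ≤ t, max (ext Φ ε x) (ext Φ ε y) ≤ u → Rep Φ ε L hΦ hε (addT U (node x y))
      (lw2 Φ ε U x y) (TF.fs Φ ε (ext Φ ε) {x, y}) u := fun u hu hm =>
    (h.mono hu).rep h0 (coe_addT _ _) hA ((le_max_left _ _).trans hm) ((le_max_right _ _).trans hm)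
  refine (hrep t le_rfl (max_le hx.le hy.le |>.trans hτt)).hz h.lw2_nonneg hη ht (fun S hS hI => ?_)
    hrep (max_lt hx hy) hR hηη hτ
  refine ⟨fun σ hσ => h.fs_of_mem (Finset.mem_coe.1 (hI.sub hσ)), fun u hu hm hn => ?_⟩
  have h0' : ∀ a ∈ rm (addT U (node x y)) S, 0 ≤ a.1 := rm_nonneg h0
  have he : ∀ {b : Src} {s : ℝ}, s ≤ u → (Y Φ ε L hΦ hε).Exp (rm (addT U (node x y)) S) b s →
      (Y Φ ε L hΦ hε).Exp (addT U (node x y)) b s := fun hs hb =>
    (FB.Sys.exp_iff (Y_transfer hΦ hε h0' h0) hn hs).1 hb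
  rw [h.rm_lw2 hI.sub]
  refine (hI.good.mono hu).rep h0' ?_ ⟨hA.disj, hI.ax, hI.ay, fun s hs hb => ?_,
    fun s hs hb => ?_⟩ ((le_max_left _ _).trans hm) ((le_max_right _ _).trans hm)
  · rw [coe_rm, coe_rm, coe_addT, union_sdiff_distrib]
    congr 1
    exact sdiff_eq_left.2 (hd.symm.mono_right hI.sub)
  · exact hA.ux s hs (he (hs.le.trans ((le_max_left _ _).trans hm)) hb)
  · exact hA.uy s hs (he (hs.le.trans ((le_max_right _ _).trans hm)) hb)

end Vale.Agent.P119.PB
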