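import Vale.Agent.P119.PB.Exc5
import Vale.Agent.P119.PB.ExhW
import Vale.Agent.P119.PB.Op5
import Vale.Agent.P119.RM.Exc2

/-!
# P119, block PROB: the exceptional term of ONE STEP, reduction (`helper723`)

`Exc5` (the norm of the exceptional terms of ONE STEP) from

* `ExcIrr`: irregular first contact of a Gaussian line;
* `ExcNE`: the exceptional event `¬NoExc` of the line and of the tree which it hits;
* `ExcE2`: trees related to the inserted tree (P3);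
* `ExcRT`: trees related to the tree which is hit (worlds with the tree and of lines);
* `ExcRL`: trees related to the lines of the tree which is hit.

All limits are stated for the horizon `T` only, for one Gaussian line `(s, z, n)`, uniformly in the
birth `s ∈ [0, T]`. `exc5_of` is the reduction.
-/

open MeasureTheory Filter Topology Set
open scoped ENNReal NNReal

noncomputable section

namespace Vale.Agent.P119.PB

open M CTree KU FB RB AU FL TL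

/-- **Irregular first contact** of a Gaussian line. -/
def ExcIrr (Φ : E3 → ℝ) (f₀ : Ph → ℝ) (L : ℕ) (T β : ℝ) : Prop :=
  ∀ ρ : ℝ, 0 < ρ → ∀ᶠ ε in 𝓝[>] (0 : ℝ), ∀ s ∈ Icc 0 T,
    ∫⁻ z : Ph, gw β z.2 * ∫⁻ c, ind (Irr Φ ε L (wS (GC.pts c)) (s, z, 0) T) ∂(GC.PP f₀ ε) ≤
      ENNReal.ofReal ρ

/-- **The exceptional event** of a Gaussian line and of the tree which it hits. -/
def ExcNE (Φ : E3 → ℝ) (f₀ : Ph → ℝ) (L : ℕ) (T β : ℝ) : Prop :=
  ∀ ρ : ℝ, 0 < ρ → ∀ᶠ ε in 𝓝[>] (0 : ℝ), ∀ s ∈ Icc 0 T, ∀ n ≤ L,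
    ∫⁻ z : Ph, gw β z.2 * XI f₀ Φ ε L T (s, z, n)
      (fun V S => ind (HitA Φ ε L (s, z, n) V S ∧ ¬NoExc Φ ε L T (s, z, n) V S)) ≤
        ENNReal.ofReal ρ

/-- The line hits the tree, which lives and whose lines are independent. -/
def HitL (L : ℕ) {Φ : E3 → ℝ} {ε : ℝ} (hΦ : IsPotential Φ) (hε : 0 < ε) (T : ℝ) (l : Src)
    (V : Finset Src) (S : CTree) : Prop :=
  HitR L hΦ hε l V S ∧ lives Φ ε L (addT V S : Set Src) S (hitT ε (l.2.1, ln Φ ε S)) ∧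
    LGood Φ ε L V S (hitT ε (l.2.1, ln Φ ε S)) T

/-- **Trees related to the tree which is hit** by a Gaussian line. -/
def ExcRT {Φ : E3 → ℝ} (hΦ : IsPotential Φ) (f₀ : Ph → ℝ) (L : ℕ) (T β : ℝ) : Prop :=
  ∀ ρ : ℝ, 0 < ρ → ∀ᶠ ε in 𝓝[>] (0 : ℝ), ∀ hε : 0 < ε, ∀ s ∈ Icc 0 T,
    (FL.muE ε)⁻¹ * ∫⁻ z : Ph, gw β z.2 * XI f₀ Φ ε L T (s, z, 0)
      (fun V S => ind (HitL L hΦ hε T (s, z, 0) V S) *
        relT Φ ε L V S (addT V S) (hitT ε (z, ln Φ ε S)) T) ≤ ENNReal.ofReal ρ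

/-- **Trees related to the lines of the tree which is hit** by a Gaussian line. -/
def ExcRL {Φ : E3 → ℝ} (hΦ : IsPotential Φ) (f₀ : Ph → ℝ) (L : ℕ) (T β : ℝ) : Prop :=
  ∀ ρ : ℝ, 0 < ρ → ∀ᶠ ε in 𝓝[>] (0 : ℝ), ∀ hε : 0 < ε, ∀ s ∈ Icc 0 T,
    (FL.muE ε)⁻¹ * ∫⁻ z : Ph, gw β z.2 * XI f₀ Φ ε L T (s, z, 0)
      (fun V S => ind (HitR L hΦ hε (s, z, 0) V S) * exsum S fun x => by
        classical
        exact relW L hΦ hε (lnw Φ ε V S (hitT ε (z, ln Φ ε S))) (insert (rsrc Φ ε x) V) T) ≤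
      ENNReal.ofReal ρ

variable {Φ : E3 → ℝ} {ε : ℝ} {L : ℕ} {hΦ : IsPotential Φ} {hε : 0 < ε} {f₀ : Ph → ℝ} {κ : ℝ}
  {t T θ : ℝ} {σ : Src}

/-! ### The norm -/

/-- A bound of the norm from bounds of the Gaussian integrals. -/
theorem Nm_le_of_line {b T l₁ l₂ t B : ℝ} {a : ℕ → ℝ} {F : Src → ℝ≥0∞} {x : ℝ≥0∞}
    (hb : 0 < b) (hT : 0 < T) (ht : t ≤ T)
    (hB : ∀ s ∈ Icc 0 T, ∀ n, wgt l₁ l₂ a s n ≤ B)
    (hF : ∀ σ : Src, L < σ.2.2 → F σ = 0)
    (h : ∀ s ∈ Icc 0 t, ∀ n ≤ L, ∫⁻ z : Ph, gw (b / 2) z.2 * F (s, z, n) ≤ x) :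
    Nm b T l₁ l₂ a t F ≤ ENNReal.ofReal B * x := by
  refine Nm_le_of_Y (fun s hs n => hB s ⟨hs.1, hs.2.trans ht⟩ n) fun s hs n => ?_
  by_cases hn : n ≤ L
  · refine le_trans ?_ (h s hs n hn)
    unfold Y
    refine lintegral_mono fun z => mul_le_mul_left ?_ _
    exact gw_anti (le_bt hb hT (hs.2.trans ht)) _
  · have h0 : ∀ z : Ph, F (s, z, n) = 0 := fun z => hF _ (not_le.1 hn)
    unfold Y
    simp only [h0, mul_zero, lintegral_zero]
    exact zero_le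

/-! ### The operator -/

/-- The integral over a Gaussian line and the tree which it hits. -/
def LI (f₀ : Ph → ℝ) (Φ : E3 → ℝ) (ε : ℝ) (L : ℕ) (β t s : ℝ) (n : ℕ)
    (G : Ph → Finset Src → CTree → ℝ≥0∞) : ℝ≥0∞ :=
  ∫⁻ z : Ph, gw β z.2 * XI f₀ Φ ε L t (s, z, n) (G z)

theorem XI_mono {G G' : Finset Src → CTree → ℝ≥0∞}
    (h : ∀ U T, alT Φ ε L t U T → G U T ≤ G' U T) : XI f₀ Φ ε L t σ G ≤ XI f₀ Φ ε L t σ G' :=
  XX_mono fun U T hT => mul_le_mul_right (h U T hT) _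

theorem XI_mono_time {t' : ℝ} (h : t ≤ t') (G : Finset Src → CTree → ℝ≥0∞) :
    XI f₀ Φ ε L t σ G ≤ XI f₀ Φ ε L t' σ G := by
  unfold XI
  refine (EX.XX_mono_time h _).trans (XX_mono fun U T _ => mul_le_mul_left (ind_mono ?_) _)
  exact fun h1 => ⟨h1.1, h1.2.1, h1.2.2.trans h⟩

theorem XI_depth (s : ℝ) (z : Ph) (n n' : ℕ) (G : Finset Src → CTree → ℝ≥0∞) :
    XI f₀ Φ ε L t (s, z, n) G = XI f₀ Φ ε L t (s, z, n') G := rfl

theorem XI_const_mul {c : ℝ≥0∞} (hc : c ≠ ∞) (G : Finset Src → CTree → ℝ≥0∞) :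
    XI f₀ Φ ε L t σ (fun V T => c * G V T) = c * XI f₀ Φ ε L t σ G := by
  unfold XI XX
  rw [← lintegral_const_mul' _ _ hc]
  refine lintegral_congr fun w => ?_
  rw [← lintegral_const_mul' _ _ hc]
  refine lintegral_congr fun T => ?_
  ring

variable {β s : ℝ} {n : ℕ} {G G' : Ph → Finset Src → CTree → ℝ≥0∞}

theorem measurable_XI_of (h₀ : GoodDatum f₀ κ) (hΦ : IsPotential Φ) (hε : 0 < ε)
    (hG : Measurable fun p : (Ph × CTree) × GC.Conf Ph => G p.1.1 (wS (GC.pts p.2)) p.1.2) :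
    Measurable fun z => XI f₀ Φ ε L t (s, z, n) (G z) := by
  have hfin := GC.isFiniteMeasure_inten (ε := ε) h₀
  have hP := GC.isProbability_PP (ε := ε) h₀
  have hz : Measurable fun p : (Ph × GC.Conf Ph) × CTree => p.1.1 :=
    measurable_fst.comp measurable_fst
  have hc : Measurable fun p : (Ph × GC.Conf Ph) × CTree => p.1.2 :=
    measurable_snd.comp measurable_fst
  have h1 : Measurable fun p : (Ph × GC.Conf Ph) × CTree =>
      ind (alT Φ ε L t (wS (GC.pts p.1.2)) p.2) :=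
    measurable_ind (measurableSet_alT hΦ hε (RM.rs_wS hc) measurable_snd measurable_const)
  have h2 : Measurable fun p : (Ph × GC.Conf Ph) × CTree =>
      ind (hitI ε t (s, p.1.1, n) (ln Φ ε p.2)) := by
    refine measurable_ind (measurableSet_hitI ?_ ((M.measurable_ln hΦ hε.ne').comp measurable_snd))
    exact measurable_const.prodMk (hz.prodMk measurable_const)
  have h3 : Measurable fun p : (Ph × GC.Conf Ph) × CTree =>
      G p.1.1 (wS (GC.pts p.1.2)) p.2 := hG.comp ((hz.prodMk measurable_snd).prodMk hc)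
  have h4 := (h1.mul (h2.mul h3)).lintegral_prod_right' (ν := tree (GC.inten f₀ ε) L)
  exact h4.lintegral_prod_right' (ν := GC.PP f₀ ε)

theorem LI_mono (h : ∀ z U T, alT Φ ε L t U T → G z U T ≤ G' z U T) :
    LI f₀ Φ ε L β t s n G ≤ LI f₀ Φ ε L β t s n G' :=
  lintegral_mono fun z => mul_le_mul_right (XI_mono (h z)) _

theorem LI_mono_time {t' : ℝ} (h : t ≤ t') (G : Ph → Finset Src → CTree → ℝ≥0∞) :
    LI f₀ Φ ε L β t s n G ≤ LI f₀ Φ ε L β t' s n G :=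
  lintegral_mono fun z => mul_le_mul_right (XI_mono_time h (G z)) _

theorem LI_const_mul {c : ℝ≥0∞} (hc : c ≠ ∞) (G : Ph → Finset Src → CTree → ℝ≥0∞) :
    LI f₀ Φ ε L β t s n (fun z V T => c * G z V T) = c * LI f₀ Φ ε L β t s n G := by
  unfold LI
  rw [← lintegral_const_mul' _ _ hc]
  refine lintegral_congr fun z => ?_
  rw [XI_const_mul hc]
  ring

theorem LI_add (h₀ : GoodDatum f₀ κ) (hΦ : IsPotential Φ) (hε : 0 < ε)
    (hG : Measurable fun p : (Ph × CTree) × GC.Conf Ph => G p.1.1 (wS (GC.pts p.2)) p.1.2) :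
    LI f₀ Φ ε L β t s n (fun z V T => G z V T + G' z V T) =
      LI f₀ Φ ε L β t s n G + LI f₀ Φ ε L β t s n G' := by
  have hm : Measurable fun z : Ph => gw β z.2 * XI f₀ Φ ε L t (s, z, n) (G z) :=
    ((measurable_gw β).comp measurable_snd).mul (measurable_XI_of h₀ hΦ hε hG)
  unfold LI
  rw [← lintegral_add_left hm]
  refine lintegral_congr fun z => ?_
  rw [← mul_add]
  congr 1
  unfold XI
  have hz : Measurable fun p : CTree × GC.Conf Ph => G z (wS (GC.pts p.2)) p.1 :=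
    hG.comp ((measurable_const.prodMk measurable_fst).prodMk measurable_snd)
  rw [← XX_add hΦ hε (measurable_hit (t := t) (σ := (s, z, n)) hΦ hε hz) h₀]
  simp only [mul_add]

/-- The line which hits the tree is integrated out. -/
theorem LI_le_XX (h₀ : GoodDatum f₀ κ) (hΦ : IsPotential Φ) (hε : 0 < ε) (hβ : 0 < β)
    (hs : 0 ≤ s) {H : Finset Src → CTree → ℝ≥0∞}
    (hH : Measurable fun p : CTree × GC.Conf Ph => H (wS (GC.pts p.2)) p.1) :
    LI f₀ Φ ε L β t s n (fun _ => H) ≤ (FL.muE ε)⁻¹ * ((ENNReal.ofReal Real.pi * I0 β) *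
      ENNReal.ofReal t * XX Φ ε L f₀ t fun V T => wln Φ ε T * H V T) := by
  have hμ0 : FL.muE ε ≠ 0 := (ENNReal.ofReal_pos.2 (GC.mu_pos hε)).ne'
  have hμt : FL.muE ε ≠ ∞ := ENNReal.ofReal_ne_top
  have hε2 : ENNReal.ofReal (ε ^ 2) = (FL.muE ε)⁻¹ := by
    have h1 := FL.muE_mul hε
    calc ENNReal.ofReal (ε ^ 2) = (FL.muE ε)⁻¹ * (FL.muE ε * ENNReal.ofReal (ε ^ 2)) := by
          rw [← mul_assoc, ENNReal.inv_mul_cancel hμ0 hμt, one_mul]
      _ = _ := by rw [h1, mul_one]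
  have h1 := EX.XI_line_le (L := L) (f₀ := f₀) h₀ hΦ hε hβ s t (t - s) n hH
  have h2 : LI f₀ Φ ε L β t s n (fun _ => H) ≤
      ∫⁻ z : Ph, gw β z.2 * XI f₀ Φ ε L t (s, z, n) (fun V T =>
        ind (hitT ε (z, ln Φ ε T) ≤ s + (t - s)) * H V T) := by
    refine lintegral_mono fun z => mul_le_mul_right ?_ _
    unfold XI
    refine XX_mono fun U T _ => ?_
    by_cases h : hitI ε t (s, z, n) (ln Φ ε T)
    · have h3 : hitT ε (z, ln Φ ε T) ≤ s + (t - s) := by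
        have := h.2.2
        linarith
      beta_reduce
      rw [ind_of h3, one_mul]
    · rw [ind_of_not h, zero_mul]
      exact zero_le
  refine h2.trans (h1.trans ?_)
  have h3 : ENNReal.ofReal (min t (s + (t - s)) - s) ≤ ENNReal.ofReal t :=
    ENNReal.ofReal_le_ofReal (by linarith [min_le_left t (s + (t - s))])
  calc ENNReal.ofReal (ε ^ 2) * (ENNReal.ofReal Real.pi * I0 β) *
        (ENNReal.ofReal (min t (s + (t - s)) - s) * XX Φ ε L f₀ t fun V T => wln Φ ε T * H V T)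
      ≤ ENNReal.ofReal (ε ^ 2) * (ENNReal.ofReal Real.pi * I0 β) *
        (ENNReal.ofReal t * XX Φ ε L f₀ t fun V T => wln Φ ε T * H V T) :=
        mul_le_mul_right (mul_le_mul_left h3 _) _
    _ = _ := by rw [hε2]; ring

/-! ### Monotonicity in the horizon -/

theorem not_NoExc_mono {t t' : ℝ} (h : t ≤ t') {l : Src} {V : Finset Src} {S : CTree}
    (hn : ¬NoExc Φ ε L t l V S) : ¬NoExc Φ ε L t' l V S := fun h' =>
  hn ⟨h'.exits, h'.inj, h'.inj', h'.ga.mono h, fun hd => (h'.gb hd).mono h,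
    fun h3 => h'.tri (h3.mono h)⟩

theorem relT_hor {V W : Finset Src} {S : CTree} {r t t' : ℝ} (h : t ≤ t') :
    relT Φ ε L V S W r t ≤ relT Φ ε L V S W r t' := by
  classical
  unfold relT
  refine ENNReal.tsum_le_tsum fun R => ?_
  by_cases h1 : DepT Φ ε L V S W r t R
  · have h2 : DepT Φ ε L V S W r t' R := ⟨h1.sub, h1.depth, h1.ext_le.trans h, h1.alive, h1.root,
      fun h3 => h1.dep ⟨h3.sub, h3.alive, h3.lives, lgood_mono h3.good h⟩⟩
    rw [if_pos h1, if_pos h2]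
  · rw [if_neg h1]
    exact zero_le

/-- Markov. -/
theorem ind_lt_le {k r : ℝ≥0∞} (hk : k ≠ 0) (hk' : k ≠ ∞) : ind (k < r) ≤ k⁻¹ * r := by
  by_cases h : k < r
  · rw [ind_of h, ← ENNReal.inv_mul_cancel hk hk']
    exact mul_le_mul_right h.le _
  · rw [ind_of_not h]
    exact zero_le

theorem ind_and_lt_le {p : Prop} {k r : ℝ≥0∞} (hk : k ≠ 0) (hk' : k ≠ ∞) :
    ind (p ∧ k < r) ≤ k⁻¹ * (ind p * r) := by
  rw [ind_and]
  calc ind p * ind (k < r) ≤ ind p * (k⁻¹ * r) := mul_le_mul_right (ind_lt_le hk hk') _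
    _ = _ := by ring

theorem HitR.depth {s : ℝ} {z : Ph} {n : ℕ} {V : Finset Src} {S : CTree}
    (h : HitR L hΦ hε (s, z, n) V S) (n' : ℕ) : HitR L hΦ hε (s, z, n') V S :=
  ⟨⟨h.lt, h.alive⟩, h.unexp⟩

theorem ind_le_split (p q : Prop) : ind p ≤ ind (p ∧ ¬q) + ind (p ∧ q) := by
  by_cases hp : p
  · by_cases hq : q
    · rw [ind_of (p := p ∧ q) ⟨hp, hq⟩]; exact (ind_le_one _).trans le_add_self
    · rw [ind_of (p := p ∧ ¬q) ⟨hp, hq⟩]; exact (ind_le_one _).trans le_self_add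
  · rw [ind_of_not hp]; exact zero_le

/-- The hit, without exceptional events. -/
theorem HitR.hitL {s : ℝ} {z : Ph} {n : ℕ} {V : Finset Src} {S : CTree} (hS : ok Φ ε S)
    (h : HitR L hΦ hε (s, z, n) V S) (hN : NoExc Φ ε L T (s, z, n) V S)
    (hl : lives Φ ε L (addT V S : Set Src) S (hitT ε (z, ln Φ ε S))) :
    HitL L hΦ hε T (s, z, 0) V S := by
  have hsig := sig_eq (Φ := Φ) (ε := ε) (T := S) (l := ((s, z, n) : Src))
  refine ⟨h.depth 0, hl, ?_⟩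
  have h1 := hN.lgood_A hΦ hε hS (by rw [hsig]; exact h.lt)
  rw [hsig] at h1
  exact h1

open Classical in
/-- The exceptional terms, with horizon `T`. -/
theorem BB_le (hθ : 0 < θ) (htT : t ≤ T) {V : Finset Src} {S : CTree} {s : ℝ} {z : Ph} {n : ℕ}
    (hS : alT Φ ε L t V S) :
    BB L hΦ hε θ t (fun V S => ¬NoExc Φ ε L t (s, z, n) V S) (s, z, n) V S ≤
      ((ind (HitA Φ ε L (s, z, n) V S ∧ ¬NoExc Φ ε L T (s, z, n) V S) +
        ind (HitA Φ ε L (s, z, n) V S ∧ ¬NoExc Φ ε L T (s, z, n) V S)) +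
        ind (¬GoodT Φ ε L V S T)) +
        (ENNReal.ofReal (θ * mu ε))⁻¹ *
        (ind (NiceT L hΦ hε V S T) * relW L hΦ hε (addT V S) V T +
          (ind (HitL L hΦ hε T (s, z, 0) V S) *
            relT Φ ε L V S (addT V S) (hitT ε (z, ln Φ ε S)) T +
          ind (HitR L hΦ hε (s, z, 0) V S) * exsum S fun x =>
            relW L hΦ hε (lnw Φ ε V S (hitT ε (z, ln Φ ε S)))
            (insert (rsrc Φ ε x) V) T)) := by
  have h0 : 0 < θ * mu ε := mul_pos hθ (GC.mu_pos hε)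
  have hk : ENNReal.ofReal (θ * mu ε) ≠ 0 := (ENNReal.ofReal_pos.2 h0).ne'
  have hk' : ENNReal.ofReal (θ * mu ε) ≠ ∞ := ENNReal.ofReal_ne_top
  obtain ⟨k, hkk⟩ : ∃ k, k = (ENNReal.ofReal (θ * mu ε))⁻¹ := ⟨_, rfl⟩
  obtain ⟨N, hN⟩ : ∃ N, N =
    ind (HitA Φ ε L (s, z, n) V S ∧ ¬NoExc Φ ε L T (s, z, n) V S) := ⟨_, rfl⟩
  have b1 : ind (HitA Φ ε L (s, z, n) V S ∧ ¬NoExc Φ ε L t (s, z, n) V S) ≤ N := by
    rw [hN]
    exact ind_mono fun h => ⟨h.1, not_NoExc_mono htT h.2⟩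
  have b2 : ind (HitR L hΦ hε (s, z, n) V S ∧
      ENNReal.ofReal (θ * mu ε) < relW L hΦ hε (addT V S) V t) ≤
      ind (¬GoodT Φ ε L V S T) +
        k * (ind (NiceT L hΦ hε V S T) * relW L hΦ hε (addT V S) V T) := by
    refine (ind_le_split _ (GoodT Φ ε L V S T)).trans (add_le_add (ind_mono fun h => h.2) ?_)
    have h1 : ind ((HitR L hΦ hε (s, z, n) V S ∧
        ENNReal.ofReal (θ * mu ε) < relW L hΦ hε (addT V S) V t) ∧ GoodT Φ ε L V S T) ≤
        ind (NiceT L hΦ hε V S T ∧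
          ENNReal.ofReal (θ * mu ε) < relW L hΦ hε (addT V S) V t) :=
      ind_mono fun h => ⟨⟨h.2, fun q hq => h.1.1.unexp q (hq.trans h.1.1.lt)⟩, h.1.2⟩
    rw [hkk]
    refine h1.trans ((ind_and_lt_le hk hk').trans ?_)
    exact mul_le_mul_right (mul_le_mul_right (relW_mono htT) _) _
  have b3 : ind (HitR L hΦ hε (s, z, n) V S ∧
        lives Φ ε L (addT V S : Set Src) S (hitT ε (z, ln Φ ε S)) ∧
        ENNReal.ofReal (θ * mu ε) < relT Φ ε L V S (addT V S) (hitT ε (z, ln Φ ε S)) t) ≤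
      N + k * (ind (HitL L hΦ hε T (s, z, 0) V S) *
            relT Φ ε L V S (addT V S) (hitT ε (z, ln Φ ε S)) T) := by
    refine (ind_le_split _ (NoExc Φ ε L T (s, z, n) V S)).trans (add_le_add ?_ ?_)
    · rw [hN]
      exact ind_mono fun h => ⟨h.1.1.toHitA, h.2⟩
    · have h1 : ind ((HitR L hΦ hε (s, z, n) V S ∧
          lives Φ ε L (addT V S : Set Src) S (hitT ε (z, ln Φ ε S)) ∧
          ENNReal.ofReal (θ * mu ε) < relT Φ ε L V S (addT V S) (hitT ε (z, ln Φ ε S)) t) ∧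
            NoExc Φ ε L T (s, z, n) V S) ≤
          ind (HitL L hΦ hε T (s, z, 0) V S ∧
          ENNReal.ofReal (θ * mu ε) < relT Φ ε L V S (addT V S) (hitT ε (z, ln Φ ε S)) t) :=
        ind_mono fun h => ⟨h.1.1.hitL hS.ok h.2 h.1.2.1, h.1.2.2⟩
      rw [hkk]
      refine h1.trans ((ind_and_lt_le hk hk').trans ?_)
      exact mul_le_mul_right (mul_le_mul_right (relT_hor htT) _) _
  have b4 : (exsum S fun x => ind (HitR L hΦ hε (s, z, n) V S ∧ ENNReal.ofReal (θ * mu ε) <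
        relW L hΦ hε (lnw Φ ε V S (hitT ε (z, ln Φ ε S))) (insert (rsrc Φ ε x) V) t)) ≤
      k * (ind (HitR L hΦ hε (s, z, 0) V S) * exsum S fun x =>
            relW L hΦ hε (lnw Φ ε V S (hitT ε (z, ln Φ ε S)))
            (insert (rsrc Φ ε x) V) T) := by
    rw [← EX.exsum_mul_left, ← EX.exsum_mul_left, hkk]
    refine exsum_mono fun x _ => ?_
    have h1 : ind (HitR L hΦ hε (s, z, n) V S ∧ ENNReal.ofReal (θ * mu ε) <
        relW L hΦ hε (lnw Φ ε V S (hitT ε (z, ln Φ ε S))) (insert (rsrc Φ ε x) V) t) ≤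
        ind (HitR L hΦ hε (s, z, 0) V S ∧ ENNReal.ofReal (θ * mu ε) <
        relW L hΦ hε (lnw Φ ε V S (hitT ε (z, ln Φ ε S))) (insert (rsrc Φ ε x) V) t) :=
      ind_mono fun h => ⟨h.1.depth 0, h.2⟩
    refine h1.trans ((ind_and_lt_le hk hk').trans ?_)
    exact mul_le_mul_right (mul_le_mul_right (relW_mono htT) _) _
  rw [← hN, ← hkk]
  unfold BB
  refine (add_le_add (add_le_add (add_le_add b1 b2) b3) b4).trans (le_of_eq ?_)
  ring

/-! ### Measurability -/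

theorem meas_src (s : ℝ) (n : ℕ) :
    Measurable fun p : (Ph × CTree) × GC.Conf Ph => ((s, p.1.1, n) : Src) :=
  measurable_const.prodMk ((measurable_fst.comp measurable_fst).prodMk measurable_const)

theorem meas_HR (s : ℝ) (n : ℕ) :
    MeasurableSet {p : (Ph × CTree) × GC.Conf Ph |
      HitR L hΦ hε (s, p.1.1, n) (wS (GC.pts p.2)) p.1.2} :=
  measurableSet_HitR (RM.rs_wS measurable_snd) (measurable_snd.comp measurable_fst)
    (meas_src s n)

theorem meas_NE (hΦ : IsPotential Φ) (hε : 0 < ε) (T s : ℝ) (n : ℕ) :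
    MeasurableSet {p : (Ph × CTree) × GC.Conf Ph |
      HitA Φ ε L (s, p.1.1, n) (wS (GC.pts p.2)) p.1.2 ∧
        ¬NoExc Φ ε L T (s, p.1.1, n) (wS (GC.pts p.2)) p.1.2} :=
  (measurableSet_HitA hΦ hε (RM.rs_wS measurable_snd) (measurable_snd.comp measurable_fst)
    (meas_src s n)).inter (RM.measurableSet_NoExc hΦ hε (RM.rs_wS measurable_snd)
    (measurable_snd.comp measurable_fst) (meas_src s n) measurable_const).compl

theorem measurableSet_NiceT' {X : Type} [MeasurableSpace X] {V : X → Finset Src} {S : X → CTree}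
    (hV : MM.RS fun x => (V x : Set Src)) (hS : Measurable S) (t : ℝ) :
    MeasurableSet {x | NiceT L hΦ hε (V x) (S x) t} := by
  have h1 := RM.measurableSet_GoodT (L := L) hΦ hε hV hS (measurable_const (a := t))
  have h3 : MeasurableSet {x | ∃ s < ext Φ ε (S x),
      (RB.Y Φ ε L hΦ hε).Exp (addT (V x) (S x)) (S x).root s} :=
    (RM.msys_Y hΦ hε).measurableSet_exp_lt (rs_addT hV hS) (MM.meas_root hS)
      ((M.measurable_ext hΦ hε.ne').comp hS)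
  convert h1.inter h3.compl using 1
  ext x
  exact ⟨fun h => ⟨h.1, fun ⟨s, hs, he⟩ => h.2 s hs he⟩,
    fun h => ⟨h.1, fun s hs he => h.2 ⟨s, hs, he⟩⟩⟩

theorem meas_GT (hΦ : IsPotential Φ) (hε : 0 < ε) (T : ℝ) : Measurable fun p : CTree × GC.Conf Ph =>
    ind (¬GoodT Φ ε L (wS (GC.pts p.2)) p.1 T) :=
  measurable_ind (RM.measurableSet_GoodT hΦ hε (RM.rs_wS measurable_snd) measurable_fst
    measurable_const).compl

theorem meas_R2 (T : ℝ) : Measurable fun p : CTree × GC.Conf Ph =>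
    ind (NiceT L hΦ hε (wS (GC.pts p.2)) p.1 T) *
      relW L hΦ hε (addT (wS (GC.pts p.2)) p.1) (wS (GC.pts p.2)) T :=
  (measurable_ind (measurableSet_NiceT' (RM.rs_wS measurable_snd) measurable_fst T)).mul
    (RM.measurable_relW (rs_addT (RM.rs_wS measurable_snd) measurable_fst)
      (RM.rs_wS measurable_snd) measurable_const)

theorem meas_GT' (hΦ : IsPotential Φ) (hε : 0 < ε) (T : ℝ) :
    Measurable fun p : (Ph × CTree) × GC.Conf Ph =>
      ind (¬GoodT Φ ε L (wS (GC.pts p.2)) p.1.2 T) :=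
  measurable_ind (RM.measurableSet_GoodT hΦ hε (RM.rs_wS measurable_snd)
    (measurable_snd.comp measurable_fst) measurable_const).compl

theorem meas_R2' (T : ℝ) : Measurable fun p : (Ph × CTree) × GC.Conf Ph =>
    ind (NiceT L hΦ hε (wS (GC.pts p.2)) p.1.2 T) *
      relW L hΦ hε (addT (wS (GC.pts p.2)) p.1.2) (wS (GC.pts p.2)) T :=
  (measurable_ind (measurableSet_NiceT' (RM.rs_wS measurable_snd)
    (measurable_snd.comp measurable_fst) T)).mul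
    (RM.measurable_relW (rs_addT (RM.rs_wS measurable_snd) (measurable_snd.comp measurable_fst))
      (RM.rs_wS measurable_snd) measurable_const)

theorem meas_hitT (hΦ : IsPotential Φ) (hε : 0 < ε) :
    Measurable fun p : (Ph × CTree) × GC.Conf Ph => hitT ε (p.1.1, ln Φ ε p.1.2) :=
  measurable_hitT.comp ((measurable_fst.comp measurable_fst).prodMk
    ((M.measurable_ln hΦ hε.ne').comp (measurable_snd.comp measurable_fst)))

theorem meas_HL (T s : ℝ) :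
    MeasurableSet {p : (Ph × CTree) × GC.Conf Ph |
      HitL L hΦ hε T (s, p.1.1, 0) (wS (GC.pts p.2)) p.1.2} := by
  have h1 : Measurable fun p : (Ph × CTree) × GC.Conf Ph => p.1.2 :=
    measurable_snd.comp measurable_fst
  have h2 := rs_addT (RM.rs_wS (measurable_snd (α := Ph × CTree) (β := GC.Conf Ph))) h1
  exact (meas_HR s 0).inter ((MM.measurableSet_tree_lives hΦ hε h2
    (fun _ => Finset.finite_toSet _) h1 (meas_hitT hΦ hε)).inter
    (RM.measurableSet_LGood hΦ hε (RM.rs_wS measurable_snd) h1 (meas_hitT hΦ hε)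
      measurable_const))

theorem meas_R3 (T s : ℝ) :
    Measurable fun p : (Ph × CTree) × GC.Conf Ph =>
      ind (HitL L hΦ hε T (s, p.1.1, 0) (wS (GC.pts p.2)) p.1.2) *
      relT Φ ε L (wS (GC.pts p.2)) p.1.2 (addT (wS (GC.pts p.2)) p.1.2)
        (hitT ε (p.1.1, ln Φ ε p.1.2)) T := by
  have h1 : Measurable fun p : (Ph × CTree) × GC.Conf Ph => p.1.2 :=
    measurable_snd.comp measurable_fst
  have h2 := rs_addT (RM.rs_wS (measurable_snd (α := Ph × CTree) (β := GC.Conf Ph))) h1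
  exact (measurable_ind (meas_HL T s)).mul
    (RM.measurable_relT hΦ hε (RM.rs_wS measurable_snd) h2 h1 (meas_hitT hΦ hε) measurable_const)

open Classical in
theorem meas_R4 (T s : ℝ) : Measurable fun p : (Ph × CTree) × GC.Conf Ph =>
    ind (HitR L hΦ hε (s, p.1.1, 0) (wS (GC.pts p.2)) p.1.2) *
    exsum p.1.2 fun x => relW L hΦ hε (lnw Φ ε (wS (GC.pts p.2)) p.1.2
      (hitT ε (p.1.1, ln Φ ε p.1.2))) (insert (rsrc Φ ε x) (wS (GC.pts p.2))) T := by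
  have h1 : Measurable fun p : (Ph × CTree) × GC.Conf Ph => p.1.2 :=
    measurable_snd.comp measurable_fst
  have h2 : MM.RS fun p : (Ph × CTree) × GC.Conf Ph =>
      ((wS (GC.pts p.2) : Finset Src) : Set Src) := RM.rs_wS measurable_snd
  refine (measurable_ind (meas_HR s 0)).mul ?_
  refine RM.measurable_exsum' (X := (Ph × CTree) × GC.Conf Ph) h1 (F := fun p x =>
    relW L hΦ hε (lnw Φ ε (wS (GC.pts p.2)) p.1.2
      (hitT ε (p.1.1, ln Φ ε p.1.2))) (insert (rsrc Φ ε x) (wS (GC.pts p.2))) T) ?_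
  exact RM.measurable_relW (RM.rs_lnw hΦ hε (h2.comp measurable_fst) (h1.comp measurable_fst)
    ((meas_hitT hΦ hε).comp measurable_fst))
    (RM.rs_insert_rsrc hΦ hε (h2.comp measurable_fst) measurable_snd) measurable_const

open Classical in
/-- **The exceptional terms of a Gaussian line.** -/
theorem line_exc_le (h₀ : GoodDatum f₀ κ) (hΦ : IsPotential Φ) (hε : 0 < ε) (hβ : 0 < β)
    (hθ : 0 < θ) (hs : s ∈ Icc 0 t) (htT : t ≤ T) :
    ∫⁻ z : Ph, gw β z.2 * ∫⁻ c, (ind (Irr Φ ε L (wS (GC.pts c)) (s, z, n) t) +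
        sumHit Φ ε L t (s, z, n) (BB L hΦ hε θ t (fun V S => ¬NoExc Φ ε L t (s, z, n) V S)
          (s, z, n)) (wS (GC.pts c))) ∂(GC.PP f₀ ε) ≤
      (∫⁻ z : Ph, gw β z.2 * ∫⁻ c, ind (Irr Φ ε L (wS (GC.pts c)) (s, z, 0) T) ∂(GC.PP f₀ ε)) +
      (((LI f₀ Φ ε L β T s n (fun z V S => ind (HitA Φ ε L (s, z, n) V S ∧
        ¬NoExc Φ ε L T (s, z, n) V S)) + LI f₀ Φ ε L β T s n (fun z V S =>
          ind (HitA Φ ε L (s, z, n) V S ∧ ¬NoExc Φ ε L T (s, z, n) V S))) +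
      (ENNReal.ofReal Real.pi * I0 β) * ENNReal.ofReal T *
        ((FL.muE ε)⁻¹ * XX Φ ε L f₀ T fun U S => wln Φ ε S * ind (¬GoodT Φ ε L U S T))) +
      (ENNReal.ofReal θ)⁻¹ * ((ENNReal.ofReal Real.pi * I0 β) * ENNReal.ofReal T *
        ((FL.muE ε)⁻¹ * ((FL.muE ε)⁻¹ * XX Φ ε L f₀ T fun U S =>
          wln Φ ε S * (ind (NiceT L hΦ hε U S T) * relW L hΦ hε (addT U S) U T))) +
      ((FL.muE ε)⁻¹ * LI f₀ Φ ε L β T s 0 (fun z V S => ind (HitL L hΦ hε T (s, z, 0) V S) *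
        relT Φ ε L V S (addT V S) (hitT ε (z, ln Φ ε S)) T) +
      (FL.muE ε)⁻¹ * LI f₀ Φ ε L β T s 0 (fun z V S => ind (HitR L hΦ hε (s, z, 0) V S) *
        exsum S fun x =>
        relW L hΦ hε (lnw Φ ε V S (hitT ε (z, ln Φ ε S))) (insert (rsrc Φ ε x) V) T)))) := by
  have hfin := GC.isFiniteMeasure_inten (ε := ε) h₀
  have hP := GC.isProbability_PP (ε := ε) h₀
  have hμp := GC.mu_pos hε
  have h0 : 0 < θ * mu ε := mul_pos hθ hμp
  have hk : (ENNReal.ofReal (θ * mu ε))⁻¹ ≠ ∞ :=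
    ENNReal.inv_ne_top.2 (ENNReal.ofReal_pos.2 h0).ne'
  have hkk : (ENNReal.ofReal (θ * mu ε))⁻¹ = (ENNReal.ofReal θ)⁻¹ * (FL.muE ε)⁻¹ := by
    rw [ENNReal.ofReal_mul hθ.le, ENNReal.mul_inv (Or.inr ENNReal.ofReal_ne_top)
      (Or.inl ENNReal.ofReal_ne_top)]
    rfl
  have mIrr : Measurable fun p : Ph × GC.Conf Ph =>
      ind (Irr Φ ε L (wS (GC.pts p.2)) (s, p.1, n) t) :=
    measurable_ind (RM.measurableSet_Irr hΦ hε (RM.rs_wS measurable_snd)
      (measurable_const.prodMk (measurable_fst.prodMk measurable_const)) measurable_const)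
  have mI : Measurable fun z : Ph => gw β z.2 * ∫⁻ c,
      ind (Irr Φ ε L (wS (GC.pts c)) (s, z, n) t) ∂(GC.PP f₀ ε) :=
    ((measurable_gw β).comp measurable_snd).mul mIrr.lintegral_prod_right'
  have hlow : ∀ z : Ph, (∫⁻ c, (ind (Irr Φ ε L (wS (GC.pts c)) (s, z, n) t) +
        sumHit Φ ε L t (s, z, n) (BB L hΦ hε θ t (fun V S => ¬NoExc Φ ε L t (s, z, n) V S)
          (s, z, n)) (wS (GC.pts c))) ∂(GC.PP f₀ ε)) ≤
      (∫⁻ c, ind (Irr Φ ε L (wS (GC.pts c)) (s, z, n) t) ∂(GC.PP f₀ ε)) +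
        XI f₀ Φ ε L t (s, z, n) (BB L hΦ hε θ t (fun V S => ¬NoExc Φ ε L t (s, z, n) V S)
          (s, z, n)) := fun z => by
    refine exc_le h₀ hΦ hε (mIrr.comp (measurable_const.prodMk measurable_id)) ?_
    exact measurable_BB (RM.rs_wS measurable_snd) measurable_fst measurable_const
      (RM.measurableSet_NoExc hΦ hε (RM.rs_wS measurable_snd) measurable_fst measurable_const
        measurable_const).compl
  have e1 : (∫⁻ z : Ph, gw β z.2 * ∫⁻ c, ind (Irr Φ ε L (wS (GC.pts c)) (s, z, n) t)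
      ∂(GC.PP f₀ ε)) ≤
      ∫⁻ z : Ph, gw β z.2 * ∫⁻ c, ind (Irr Φ ε L (wS (GC.pts c)) (s, z, 0) T) ∂(GC.PP f₀ ε) :=
    lintegral_mono fun z => mul_le_mul_right (lintegral_mono fun c => ind_mono fun h =>
      (show Irr Φ ε L (wS (GC.pts c)) (s, z, 0) t from h).mono htT) _
  -- the three operators
  obtain ⟨G₁, hG₁⟩ : ∃ G : Ph → Finset Src → CTree → ℝ≥0∞, G = fun z V S =>
    ind (HitA Φ ε L (s, z, n) V S ∧ ¬NoExc Φ ε L T (s, z, n) V S) := ⟨_, rfl⟩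
  obtain ⟨G₀, hG₀⟩ : ∃ G : Ph → Finset Src → CTree → ℝ≥0∞, G = fun _ V S =>
    ind (¬GoodT Φ ε L V S T) := ⟨_, rfl⟩
  obtain ⟨G₂, hG₂⟩ : ∃ G : Ph → Finset Src → CTree → ℝ≥0∞, G = fun _ V S =>
    ind (NiceT L hΦ hε V S T) * relW L hΦ hε (addT V S) V T := ⟨_, rfl⟩
  obtain ⟨G₃, hG₃⟩ : ∃ G : Ph → Finset Src → CTree → ℝ≥0∞, G = fun z V S =>
    ind (HitL L hΦ hε T (s, z, 0) V S) *
        relT Φ ε L V S (addT V S) (hitT ε (z, ln Φ ε S)) T := ⟨_, rfl⟩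
  obtain ⟨G₄, hG₄⟩ : ∃ G : Ph → Finset Src → CTree → ℝ≥0∞, G = fun z V S =>
    ind (HitR L hΦ hε (s, z, 0) V S) * exsum S fun x =>
        relW L hΦ hε (lnw Φ ε V S (hitT ε (z, ln Φ ε S))) (insert (rsrc Φ ε x) V) T := ⟨_, rfl⟩
  rw [← hG₁, ← hG₃, ← hG₄]
  have mG₁ : Measurable fun p : (Ph × CTree) × GC.Conf Ph => G₁ p.1.1 (wS (GC.pts p.2)) p.1.2 := by
    rw [hG₁]; exact measurable_ind (meas_NE hΦ hε T s n)
  have mG₂ : Measurable fun p : (Ph × CTree) × GC.Conf Ph => G₂ p.1.1 (wS (GC.pts p.2)) p.1.2 := by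
    rw [hG₂]; exact meas_R2' T
  have mG₀ : Measurable fun p : (Ph × CTree) × GC.Conf Ph => G₀ p.1.1 (wS (GC.pts p.2)) p.1.2 := by
    rw [hG₀]
    exact meas_GT' hΦ hε T
  have mG₃ : Measurable fun p : (Ph × CTree) × GC.Conf Ph => G₃ p.1.1 (wS (GC.pts p.2)) p.1.2 := by
    rw [hG₃]; exact meas_R3 T s
  have e2 : (∫⁻ z : Ph, gw β z.2 * XI f₀ Φ ε L t (s, z, n)
      (BB L hΦ hε θ t (fun V S => ¬NoExc Φ ε L t (s, z, n) V S) (s, z, n))) ≤
      LI f₀ Φ ε L β T s n (fun z V S => ((G₁ z V S + G₁ z V S) + G₀ z V S) +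
        (ENNReal.ofReal (θ * mu ε))⁻¹ * (G₂ z V S + (G₃ z V S + G₄ z V S))) := by
    refine le_trans (LI_mono (G := fun z => BB L hΦ hε θ t
      (fun V S => ¬NoExc Φ ε L t (s, z, n) V S) (s, z, n)) fun z U S hS => ?_)
      (LI_mono_time htT _)
    rw [hG₀, hG₁, hG₂, hG₃, hG₄]
    exact BB_le hθ htT hS
  have e3 : LI f₀ Φ ε L β T s n (fun z V S => ((G₁ z V S + G₁ z V S) + G₀ z V S) +
        (ENNReal.ofReal (θ * mu ε))⁻¹ * (G₂ z V S + (G₃ z V S + G₄ z V S))) =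
      ((LI f₀ Φ ε L β T s n G₁ + LI f₀ Φ ε L β T s n G₁) + LI f₀ Φ ε L β T s n G₀) +
      (ENNReal.ofReal (θ * mu ε))⁻¹ * (LI f₀ Φ ε L β T s n G₂ +
        (LI f₀ Φ ε L β T s n G₃ + LI f₀ Φ ε L β T s n G₄)) := by
    rw [LI_add h₀ hΦ hε ((mG₁.add mG₁).add mG₀), LI_add h₀ hΦ hε (mG₁.add mG₁),
      LI_add h₀ hΦ hε mG₁, LI_const_mul hk,
      LI_add h₀ hΦ hε mG₂, LI_add h₀ hΦ hε mG₃]
  have e4 := LI_le_XX (L := L) (t := T) (n := n) h₀ hΦ hε hβ hs.1 (H := fun V S =>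
    ind (NiceT L hΦ hε V S T) * relW L hΦ hε (addT V S) V T) (meas_R2 T)
  have e0 := LI_le_XX (L := L) (t := T) (n := n) h₀ hΦ hε hβ hs.1 (H := fun V S =>
    ind (¬GoodT Φ ε L V S T)) (meas_GT hΦ hε T)
  have e5 : ∀ G : Ph → Finset Src → CTree → ℝ≥0∞,
      LI f₀ Φ ε L β T s n G = LI f₀ Φ ε L β T s 0 G := fun G => rfl
  calc _ ≤ ∫⁻ z : Ph, (gw β z.2 * (∫⁻ c, ind (Irr Φ ε L (wS (GC.pts c)) (s, z, n) t)
          ∂(GC.PP f₀ ε)) + gw β z.2 * XI f₀ Φ ε L t (s, z, n)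
            (BB L hΦ hε θ t (fun V S => ¬NoExc Φ ε L t (s, z, n) V S) (s, z, n))) := by
        refine lintegral_mono fun z => ?_
        rw [← mul_add]
        exact mul_le_mul_right (hlow z) _
    _ = _ := lintegral_add_left mI _
    _ ≤ _ := add_le_add e1 (e2.trans (e3.trans_le ?_))
  refine add_le_add (add_le_add le_rfl ?_) ?_
  · rw [hG₀]
    refine e0.trans (le_of_eq ?_)
    ring
  rw [hkk, mul_assoc]
  refine mul_le_mul_right ?_ _
  rw [mul_add, mul_add, e5 G₃, e5 G₄, hG₂]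
  refine add_le_add ?_ le_rfl
  refine (mul_le_mul_right e4 _).trans (le_of_eq ?_)
  ring

/-- **The exceptional term of ONE STEP**, reduction. -/
theorem exc5_of (h₀ : GoodDatum f₀ κ) {b T l₁ l₂ Q : ℝ} {α a : ℕ → ℝ} (hb : 0 < b) (hT : 0 < T)
    (hl₁ : 0 ≤ l₁) (hl₂ : 0 ≤ l₂) (hw : Wts α a Q) (hIr : ExcIrr Φ f₀ L T (b / 2))
    (hNE : ExcNE Φ f₀ L T (b / 2)) (hE1 : ExcE1 Φ f₀ L T) (hE2 : ExcE2 hΦ f₀ L T)
    (hRT : ExcRT hΦ f₀ L T (b / 2))
    (hRL : ExcRL hΦ f₀ L T (b / 2)) : Exc5 hΦ f₀ L T b l₁ l₂ a := by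
  intro θ hθ ρ hρ
  obtain ⟨B, hB0, hB⟩ := exists_wgt_le (T := T) hw hl₁ hl₂
  have hβ : 0 < b / 2 := by linarith
  have hCt : ENNReal.ofReal Real.pi * I0 (b / 2) * ENNReal.ofReal T ≠ ∞ :=
    ENNReal.mul_ne_top (ENNReal.mul_ne_top ENNReal.ofReal_ne_top (I0_ne_top hβ))
      ENNReal.ofReal_ne_top
  obtain ⟨C, hC0, hC⟩ : ∃ C : ℝ, 0 ≤ C ∧ ENNReal.ofReal Real.pi * I0 (b / 2) *
      ENNReal.ofReal T = ENNReal.ofReal C :=
    ⟨_, ENNReal.toReal_nonneg, (ENNReal.ofReal_toReal hCt).symm⟩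
  obtain ⟨r, hr⟩ : ∃ r : ℝ, r = ρ / (7 * B) := ⟨_, rfl⟩
  have hr0 : 0 < r := by rw [hr]; positivity
  have hE1' : ∀ᶠ ε in 𝓝[>] (0 : ℝ), ENNReal.ofReal C * ((FL.muE ε)⁻¹ *
      XX Φ ε L f₀ T (fun U S => wln Φ ε S * ind (¬GoodT Φ ε L U S T))) ≤ ENNReal.ofReal r :=
    eventually_const_mul_le hE1 ENNReal.ofReal_ne_top hr0
  filter_upwards [hIr r hr0, hNE r hr0, hE1', hE2 (θ * r / (C + 1)) (by positivity),
    hRT (θ * r) (by positivity), hRL (θ * r) (by positivity)] with ε h1 h2 h0 h3 h4 h5 hε t ht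
  refine (Nm_le_of_line hb hT ht.2 hB (x := ENNReal.ofReal (7 * r))
    (fun σ hσ => if_neg (not_le.2 hσ)) fun s hs n hn => ?_).trans (le_of_eq ?_)
  swap
  · rw [← ENNReal.ofReal_mul hB0.le, hr]
    congr 1
    field_simp
  have hsT : s ∈ Icc 0 T := ⟨hs.1, hs.2.trans ht.2⟩
  have hθ' : ENNReal.ofReal θ ≠ 0 := (ENNReal.ofReal_pos.2 hθ).ne'
  have hθr : (ENNReal.ofReal θ)⁻¹ * ENNReal.ofReal (θ * r) = ENNReal.ofReal r := by
    rw [ENNReal.ofReal_mul hθ.le, ← mul_assoc, ENNReal.inv_mul_cancel hθ' ENNReal.ofReal_ne_top,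
      one_mul]
  have hCr : ENNReal.ofReal C * ENNReal.ofReal (θ * r / (C + 1)) ≤ ENNReal.ofReal (θ * r) := by
    rw [← ENNReal.ofReal_mul hC0]
    refine ENNReal.ofReal_le_ofReal ?_
    rw [mul_div_assoc', div_le_iff₀ (by positivity)]
    nlinarith [mul_pos hθ hr0]
  calc _ = ∫⁻ z : Ph, gw (b / 2) z.2 * ∫⁻ c, (ind (Irr Φ ε L (wS (GC.pts c)) (s, z, n) t) +
        sumHit Φ ε L t (s, z, n) (BB L hΦ hε θ t (fun V S => ¬NoExc Φ ε L t (s, z, n) V S)
          (s, z, n)) (wS (GC.pts c))) ∂(GC.PP f₀ ε) :=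
        lintegral_congr fun z => by rw [if_pos (show ((s, z, n) : Src).2.2 ≤ L from hn)]
    _ ≤ _ := line_exc_le h₀ hΦ hε hβ hθ hs ht.2
    _ ≤ ENNReal.ofReal r + (((ENNReal.ofReal r + ENNReal.ofReal r) + ENNReal.ofReal r) +
        (ENNReal.ofReal θ)⁻¹ *
        (ENNReal.ofReal C * ENNReal.ofReal (θ * r / (C + 1)) +
          (ENNReal.ofReal (θ * r) + ENNReal.ofReal (θ * r)))) := by
        rw [hC]
        exact add_le_add (h1 s hsT) (add_le_add (add_le_add (add_le_add (h2 s hsT n hn)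
          (h2 s hsT n hn)) h0) (mul_le_mul_right (add_le_add
          (mul_le_mul_right (h3 hε) _) (add_le_add (h4 hε s hsT) (h5 hε s hsT))) _))
    _ ≤ ENNReal.ofReal r + (((ENNReal.ofReal r + ENNReal.ofReal r) + ENNReal.ofReal r) +
        (ENNReal.ofReal θ)⁻¹ *
        (ENNReal.ofReal (θ * r) + (ENNReal.ofReal (θ * r) + ENNReal.ofReal (θ * r)))) := by
        gcongr
    _ = ENNReal.ofReal (7 * r) := by
        have e : ∀ x y : ℝ, 0 ≤ x → 0 ≤ y → ENNReal.ofReal x + ENNReal.ofReal y =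
            ENNReal.ofReal (x + y) := fun x y hx hy => (ENNReal.ofReal_add hx hy).symm
        rw [mul_add, mul_add, hθr, e r r hr0.le hr0.le, e (r + r) r (by positivity) hr0.le,
          e r (r + r) hr0.le (by positivity), e (r + r + r) (r + (r + r)) (by positivity)
          (by positivity), e r _ hr0.le (by positivity)]
        congr 1
        ring

end Vale.Agent.P119.PB
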