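import Vale.Agent.P119.PB.BadPc
import Vale.Agent.P119.ML.CapIn

/-!
# P119, block PROB: **BadP tends to 0** (`helper776`)

* `badP_of_gen`: from `DpLim` (decoupling of two generic germs);
* **`badP_of_relZ`**: from `RelZ`, for large depth.
-/

open MeasureTheory Filter Topology Set
open scoped ENNReal NNReal

noncomputable section

namespace Vale.Agent.P119.PB.BP

open KU M CTree KT ML Cap GC AU EX

variable {Φ : E3 → ℝ} {f₀ : Ph → ℝ} {L : ℕ} {T : ℝ}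

/-- The hypotheses of a fixed pair hold almost everywhere. -/
theorem hypP_of_gen (hΦ : IsPotential Φ) {κ : ℝ} (hg : GoodDatum f₀ κ) (H2 : DpLim Φ f₀ L T) :
    ∀ a ∈ shapes (L - 1), ∀ b ∈ shapes (L - 1),
      ∀ᵐ x : Ph × (ℝ × ML.XP a b) ∂((volume : Measure Ph).prod (tvol T a b)),
        ML.nW (ML.fh f₀) Φ 0 a b x.2.1 x.1 x.2.2 ≠ 0 → HypP Φ f₀ L x := by
  intro a ha b hb
  have hda : a.depth ≤ L := (mem_shapes.1 ha).trans (Nat.sub_le _ _)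
  have hdb : b.depth ≤ L := (mem_shapes.1 hb).trans (Nat.sub_le _ _)
  have hmem : ∀ᵐ x ∂((volume : Measure Ph).prod (tvol T a b)), x.2.1 ∈ Icc 0 T :=
    Measure.quasiMeasurePreserving_snd.ae (ae_tvol_mem T a b)
  filter_upwards [ae_GAB' hΦ a b T, hmem] with x hx hxT hW
  obtain ⟨l, t, ξ⟩ := x
  simp only at hx hxT hW
  obtain ⟨hv, hk⟩ := nW_facts hW
  obtain ⟨ho, t1, t2, s1, s2⟩ := oab_of_nw hk
  have hG := hx ho
  have p1 : 0 ≤ stm a ξ.2.1 := KT.stm_nonneg a _ t1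
  have hev : ∀ᶠ δ in 𝓝[>] (0 : ℝ), 0 < δ ∧ stm a ξ.2.1 < t - δ ∧ stm b ξ.2.2 < t - δ := by
    have e0 : Tendsto (fun δ : ℝ => t - δ) (𝓝[>] 0) (𝓝 t) := by
      have : Tendsto (fun δ : ℝ => t - δ) (𝓝[>] 0) (𝓝 (t - 0)) :=
        (tendsto_const_nhds.sub tendsto_id).mono_left nhdsWithin_le_nhds
      rwa [sub_zero] at this
    filter_upwards [self_mem_nhdsWithin, e0.eventually_const_lt s1, e0.eventually_const_lt s2]
      with δ h1 h2 h3
    exact ⟨h1, h2, h3⟩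
  have eA : ∀ ε, (gA Φ a b t l ξ).tree Φ ε = nA Φ ε a b t l ξ := fun ε => gA_tree
  have eB : ∀ ε, (gB Φ a b t l ξ).tree Φ ε = nB Φ ε a b t l ξ := fun ε => gB_tree
  refine ⟨?_, ?_, ?_⟩
  · exact ncmp_tendsto hg (fun ε => bk Φ ε a (nL Φ ε t l ξ.1).1 ξ.2.1)
      (fun ε => bk Φ ε b (nL Φ ε t l ξ.1).2 ξ.2.2)
  · filter_upwards [hev] with δ hδ
    have hg2 := gab_gen2 (h := t - δ) hda hdb hv hk hG (p1.trans_lt hδ.2.1) (by linarith)
    have h3 := H2 (gB Φ a b t l ξ) (gA Φ a b t l ξ) (t - δ)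
      (hg2.perm (List.Perm.swap _ _ _)) hδ.2.2 hδ.2.1 (by linarith [hxT.2])
    simp only [eA, eB] at h3
    exact h3
  · filter_upwards [hev] with δ hδ
    have hg2 := gab_gen2 (h := t - δ) hda hdb hv hk hG (p1.trans_lt hδ.2.1) (by linarith)
    have h3 := H2 (gA Φ a b t l ξ) (gB Φ a b t l ξ) (t - δ) hg2 hδ.2.1 hδ.2.2
      (by linarith [hxT.2])
    simp only [eA, eB] at h3
    exact h3

/-- **BadP**, from the decoupling of two generic germs. -/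
theorem badP_of_gen (hΦ : IsPotential Φ) {κ M β : ℝ} (hg : GoodDatum f₀ κ)
    (hf : Measurable f₀) (hGD : GD (ML.fh f₀) M β) (hT : 0 < T) (H2 : DpLim Φ f₀ L T) :
    Tendsto (fun ε => (FL.muE ε)⁻¹ * XP Φ ε L f₀ T (fun U A B => wqP Φ ε A B *
      ind (¬(A ∈ Als Φ ε L T U ∧ B ∈ Als Φ ε L T U)))) (𝓝[>] 0) (𝓝 0) :=
  badP_tendsto hΦ hg hf hGD hT (hypP_of_gen hΦ hg H2)

/-- **BadP tends to `0`**: the two trees of a colliding pair are alive alone. -/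
theorem badP_of_relZ {hΦ : IsPotential Φ} {m₀ : Measurable fun p : E3 × E3 => K1.f0hat f₀ p.1 p.2}
    {κ β' : ℝ} {f : ℝ → Ph → ℝ} (K : KE.KinFamily hΦ f₀ m₀ T f) (hg : GoodDatum f₀ κ)
    (hd : IsDatum β' f₀) (hT : 0 < T) (hrel : ∀ L, RelZ Φ f₀ L) :
    ∀ᶠ L in atTop, Tendsto (fun ε => (FL.muE ε)⁻¹ * XP Φ ε L f₀ T (fun U A B => wqP Φ ε A B *
      ind (¬(A ∈ Als Φ ε L T U ∧ B ∈ Als Φ ε L T U)))) (𝓝[>] 0) (𝓝 0) := by
  filter_upwards [ev_depth K] with L hL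
  have hE := exLim_of_relZ (K := K) hg hd hL hT.le (hrel L)
  exact badP_of_gen hΦ hg hd.contDiff.continuous.measurable (gd_of_kin hΦ hd K) hT
    fun G G' t hG _ _ ht => hE.d [G] [] G' t hG ht

end Vale.Agent.P119.PB.BP
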