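import Vale.Agent.P119.PB.TopP
import Vale.Agent.P119.PB.BadPd
import Vale.Agent.P119.KT.RelZero

/-!
# P119, block PROB, P8: the colliding pairs which are not both alive (`helper776`)

* `badPP_small`: `BadPP` is small, uniformly in the horizon `t ≤ T`.
-/

open MeasureTheory Filter Topology Set
open scoped ENNReal NNReal

noncomputable section

namespace Vale.Agent.P119.PB

open M CTree KU FB RB AU FL EX

variable {Φ : E3 → ℝ} {f₀ : Ph → ℝ} {T : ℝ}

/-- **The colliding pairs which are not both alive are negligible**, uniformly in the time. -/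
theorem badPP_small {hΦ : IsPotential Φ} {m₀ : Measurable fun p : E3 × E3 => K1.f0hat f₀ p.1 p.2}
    {κ β' : ℝ} {f : ℝ → Ph → ℝ} (K : KE.KinFamily hΦ f₀ m₀ T f) (hg : GoodDatum f₀ κ)
    (hd : IsDatum β' f₀) (hT : 0 < T) :
    ∀ᶠ L in atTop, ∀ ρ : ℝ≥0∞, ρ ≠ 0 → ∀ᶠ ε in 𝓝[>] (0 : ℝ), ∀ t ≤ T,
      BadPP Φ ε L f₀ t ≤ ρ := by
  filter_upwards [BP.badP_of_relZ K hg hd hT fun L => KT.relZ_of_kin K hg L] with L hL
  intro ρ hρ
  have h1 : ∀ᶠ ε in 𝓝[>] (0 : ℝ), BadPP Φ ε L f₀ T ≤ ρ := by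
    have h2 := hL.eventually_lt_const (pos_iff_ne_zero.2 hρ)
    filter_upwards [h2] with ε h3
    exact h3.le
  filter_upwards [h1] with ε h2 t ht
  exact (BadPP_mono ht).trans h2

end Vale.Agent.P119.PB
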