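import Vale.Agent.P119.PB.In8c
import Vale.Agent.P119.PB.TopPz

/-!
# P119, block PROB, P8: the second events as a sum of functionals (`helper336`)

* `cap8_of_par`: the input `Cap8` from CAP0 and the masses of the trees;
* `fP2`, `fFX`, `fXp`, `f9a`, `f9b`, `f9c`: the six functionals;
* `BadS`: the colliding pairs which are not both alive are negligible;
* `in8_of_ok8`: P8 from the bounds of the six functionals at the second events.
-/

open MeasureTheory Filter Topology Set ProbabilityTheory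
open scoped ENNReal NNReal

noncomputable section

namespace Vale.Agent.P119.PB

open M CTree KU FB RB AU FL TL

variable {Φ : E3 → ℝ} {hΦ : IsPotential Φ} {f₀ : Ph → ℝ} {κ T b₀ b l₁ l₂ Q : ℝ} {m α a : ℕ → ℝ}
  {D Θ F : ℕ → ℝ → ℝ → ℝ → ℝ≥0∞} {W : ℕ → ℝ → ℝ → ℝ → ℝ → ℝ≥0∞}

/-! ### The masses of the trees -/

theorem one_add_norm_le_eT {ε c : ℝ} (hc : 0 < c) (S : CTree) :
    ENNReal.ofReal (1 + ‖(ln Φ ε S).2‖) ≤ ENNReal.ofReal (ker c 1) * eT Φ ε c S := by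
  unfold eT
  rw [← ENNReal.ofReal_mul (ker_nonneg _ _)]
  refine ENNReal.ofReal_le_ofReal ?_
  have h := one_add_mul_exp_le (c := c) (r := 1) (x := ‖(ln Φ ε S).2‖) hc one_pos
  rw [mul_one] at h
  have h2 : (1 + ‖(ln Φ ε S).2‖) = (1 + ‖(ln Φ ε S).2‖) *
      Real.exp (-c * ‖(ln Φ ε S).2‖ ^ 2) * Real.exp (c * ‖(ln Φ ε S).2‖ ^ 2) := by
    rw [mul_assoc, ← Real.exp_add]
    have e : -c * ‖(ln Φ ε S).2‖ ^ 2 + c * ‖(ln Φ ε S).2‖ ^ 2 = 0 := by ring
    rw [e, Real.exp_zero, mul_one]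
  rw [h2]
  exact mul_le_mul_of_nonneg_right h (Real.exp_nonneg _)

/-- **The masses of the trees**, with a geometric weight of the depth. -/
theorem exists_over (hP : Par T b₀ m b l₁ l₂ Q α a) (hΦ : IsPotential Φ) (hg : GoodDatum f₀ κ)
    {M₀ : ℝ} (hM : 0 ≤ M₀) (hf : ∀ z, f₀ z ≤ M₀ * Real.exp (-b₀ * ‖z.2‖ ^ 2))
    (hx : ∀ v : E3, ∫⁻ x : E3, ENNReal.ofReal (f₀ (x, v)) ≤
      ENNReal.ofReal (M₀ * Real.exp (-b₀ * ‖v‖ ^ 2)))
    (hcap : ∀ᶠ L in atTop, CapT Φ f₀ L T (b₀ / 2) m) (hI1 : ∀ᶠ L in atTop, Cap.InI1 Φ f₀ L T)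
    {A : ℝ≥0∞} (hA : A ≠ ∞) :
    ∃ C : ℝ≥0∞, C ≠ ∞ ∧ ∀ᶠ L in atTop, ∀ᶠ ε in 𝓝[>] (0 : ℝ), ∀ _ : 0 < ε, ∀ t ∈ Icc 0 T,
      ENNReal.ofReal (ε ^ 2) *
        XX Φ ε L f₀ t (fun _ S => A ^ S.depth * ENNReal.ofReal (1 + ‖(ln Φ ε S).2‖)) ≤ C := by
  have hb₀ := hP.b₀0
  obtain ⟨c, hc, dm, hdm0, hdms, Mt, hMt, hmass⟩ := exists_depth_mass hΦ hg hb₀ hP.T0 hM hf hx
    (by positivity : 0 < b₀ / 2) hP.tsum_ne_top
  -- the series
  have hser : ∑' d, A ^ d * ENNReal.ofReal (dm d) ≠ ∞ := by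
    have h1 : KE.SuperExp fun n => A.toReal ^ n * dm n := by
      intro B hB
      refine (hdms (B * A.toReal) (mul_nonneg hB ENNReal.toReal_nonneg)).congr fun n => ?_
      rw [mul_pow]
      ring
    obtain ⟨B, hB, hB'⟩ := superExp_geom h1
    have h2 : ∀ d, A ^ d * ENNReal.ofReal (dm d) ≤ ENNReal.ofReal (B * (1 / 2) ^ d) := by
      intro d
      calc A ^ d * ENNReal.ofReal (dm d) = ENNReal.ofReal (A.toReal ^ d) *
            ENNReal.ofReal (dm d) := by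
            rw [ENNReal.ofReal_pow ENNReal.toReal_nonneg, ENNReal.ofReal_toReal hA]
        _ = ENNReal.ofReal (A.toReal ^ d * dm d) := by
            rw [ENNReal.ofReal_mul (by positivity)]
        _ ≤ _ := ENNReal.ofReal_le_ofReal (hB' d)
    refine ne_top_of_le_ne_top ?_ (ENNReal.tsum_le_tsum h2)
    have h3 : Summable fun n : ℕ => B * (1 / 2 : ℝ) ^ n :=
      (summable_geometric_of_lt_one (by norm_num) (by norm_num)).mul_left B
    exact h3.tsum_ofReal_ne_top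
  refine ⟨ENNReal.ofReal (ker c 1) * (∑' d, A ^ d * ENNReal.ofReal (dm d) + 1),
    ENNReal.mul_ne_top ENNReal.ofReal_ne_top (ENNReal.add_ne_top.2 ⟨hser, ENNReal.one_ne_top⟩),
    ?_⟩
  filter_upwards [hcap, hI1] with L hL hI
  obtain ⟨ν, hν⟩ := hL.capL
  -- the error
  set N : ℝ≥0∞ := ∑ d ∈ Finset.range (L + 1), A ^ d with hN
  have hNt : N ≠ ∞ := ENNReal.sum_ne_top.2 fun d _ => ENNReal.pow_ne_top hA
  obtain ⟨r, hr0, hr⟩ : ∃ r : ℝ, 0 < r ∧ N * ENNReal.ofReal r ≤ 1 := by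
    have h0 : 0 ≤ N.toReal := ENNReal.toReal_nonneg
    refine ⟨(N.toReal + 1)⁻¹, by positivity, ?_⟩
    calc N * ENNReal.ofReal (N.toReal + 1)⁻¹
        = ENNReal.ofReal N.toReal * ENNReal.ofReal (N.toReal + 1)⁻¹ := by
          rw [ENNReal.ofReal_toReal hNt]
      _ = ENNReal.ofReal (N.toReal * (N.toReal + 1)⁻¹) := by
          rw [ENNReal.ofReal_mul ENNReal.toReal_nonneg]
      _ ≤ ENNReal.ofReal 1 := by
          refine ENNReal.ofReal_le_ofReal ?_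
          rw [← div_eq_mul_inv, div_le_one (by linarith)]
          linarith
      _ = 1 := ENNReal.ofReal_one
  filter_upwards [hmass L ν hν hI r hr0] with ε hmε hε t ht
  have hfin := GC.isFiniteMeasure_inten (ε := ε) hg
  set H : ℕ → GC.Conf Ph × CTree → ℝ≥0∞ := fun d p =>
    {p : GC.Conf Ph × CTree | p.2 ∈ Cap.AL Φ ε L T (GC.pts p.1 : Set Ph) ∧
      p.2 ∈ dep d}.indicator (fun p => eT Φ ε c p.2) p with hH
  have hme : Measurable (eT Φ ε c) := measurable_eT hΦ hε.ne' c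
  have hHm : ∀ d, Measurable (H d) := by
    intro d
    have h2 : MeasurableSet {p : GC.Conf Ph × CTree |
        p.2 ∈ Cap.AL Φ ε L T (GC.pts p.1 : Set Ph)} := by
      have h := Cap.measurableSet_AL (X := GC.Conf Ph × CTree) (c := fun p => p.1)
        (T := fun p => p.2) (L := L) (Tm := T) hΦ hε measurable_fst measurable_snd
      exact h
    have h3 : MeasurableSet {p : GC.Conf Ph × CTree | p.2 ∈ dep d} :=
      measurable_snd (measurableSet_dep d)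
    exact (hme.comp measurable_snd).indicator (h2.inter h3)
  have hHi : ∀ (d : ℕ) (x : GC.Conf Ph), ∫⁻ S, H d (x, S) ∂(tree (GC.inten f₀ ε) L) =
      ∫⁻ S in Cap.AL Φ ε L T (GC.pts x : Set Ph) ∩ dep d, eT Φ ε c S
        ∂(tree (GC.inten f₀ ε) L) := by
    intro d x
    rw [← lintegral_indicator ((measurableSet_ALc hΦ hε L T x).inter (measurableSet_dep d))]
    rfl
  -- the decomposition over the depths
  have hpt : ∀ (x : GC.Conf Ph) (S : CTree),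
      ind (alT Φ ε L t (wS (GC.pts x)) S) *
        (A ^ S.depth * ENNReal.ofReal (1 + ‖(ln Φ ε S).2‖)) ≤
      ∑ d ∈ Finset.range (L + 1), A ^ d * (ENNReal.ofReal (ker c 1) * H d (x, S)) := by
    intro x S
    by_cases h : alT Φ ε L t (wS (GC.pts x)) S
    swap
    · rw [ind_of_not h, zero_mul]
      exact zero_le
    rw [ind_of h, one_mul]
    have h3 := alT_iff.1 h
    have h' : S ∈ Cap.AL Φ ε L T (GC.pts x : Set Ph) := ⟨h3.1, h3.2.trans ht.2⟩
    have hd : S.depth ∈ Finset.range (L + 1) := Finset.mem_range.2 (by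
      have := h.depth; omega)
    refine le_trans ?_ (Finset.single_le_sum (f := fun d => A ^ d * (ENNReal.ofReal (ker c 1) *
      H d (x, S))) (fun _ _ => zero_le) hd)
    have h4 : H S.depth (x, S) = eT Φ ε c S :=
      indicator_of_mem (show (x, S) ∈ {p : GC.Conf Ph × CTree |
        p.2 ∈ Cap.AL Φ ε L T (GC.pts p.1 : Set Ph) ∧ p.2 ∈ dep S.depth} from ⟨h', rfl⟩) _
    simp only [h4]
    exact mul_le_mul' le_rfl (one_add_norm_le_eT hc S)
  have h1 : XX Φ ε L f₀ t (fun _ S => A ^ S.depth * ENNReal.ofReal (1 + ‖(ln Φ ε S).2‖)) ≤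
      ∑ d ∈ Finset.range (L + 1), A ^ d * (ENNReal.ofReal (ker c 1) *
        (muE ε * ENNReal.ofReal (dm d + r))) := by
    calc _ ≤ ∫⁻ x, ∫⁻ S, ∑ d ∈ Finset.range (L + 1), A ^ d *
          (ENNReal.ofReal (ker c 1) * H d (x, S)) ∂(tree (GC.inten f₀ ε) L) ∂(GC.PP f₀ ε) :=
          lintegral_mono fun x => lintegral_mono fun S => hpt x S
      _ = ∑ d ∈ Finset.range (L + 1), A ^ d * (ENNReal.ofReal (ker c 1) *
          ∫⁻ x, ∫⁻ S, H d (x, S) ∂(tree (GC.inten f₀ ε) L) ∂(GC.PP f₀ ε)) := by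
          have e1 : ∀ x, ∫⁻ S, ∑ d ∈ Finset.range (L + 1), A ^ d *
              (ENNReal.ofReal (ker c 1) * H d (x, S)) ∂(tree (GC.inten f₀ ε) L) =
              ∑ d ∈ Finset.range (L + 1), A ^ d * (ENNReal.ofReal (ker c 1) *
                ∫⁻ S, H d (x, S) ∂(tree (GC.inten f₀ ε) L)) := by
            intro x
            have hs : ∀ d, Measurable fun S => H d (x, S) := fun d =>
              (hHm d).comp measurable_prodMk_left
            rw [lintegral_finsetSum _ fun d _ => ((hs d).const_mul _).const_mul _]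
            refine Finset.sum_congr rfl fun d _ => ?_
            rw [lintegral_const_mul _ ((hs d).const_mul _), lintegral_const_mul _ (hs d)]
          simp_rw [e1]
          have hs : ∀ d, Measurable fun x => ∫⁻ S, H d (x, S) ∂(tree (GC.inten f₀ ε) L) :=
            fun d => (hHm d).lintegral_prod_right'
          rw [lintegral_finsetSum _ fun d _ => ((hs d).const_mul _).const_mul _]
          refine Finset.sum_congr rfl fun d _ => ?_
          rw [lintegral_const_mul _ ((hs d).const_mul _), lintegral_const_mul _ (hs d)]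
      _ ≤ _ := by
          refine Finset.sum_le_sum fun d hd => mul_le_mul' le_rfl (mul_le_mul' le_rfl ?_)
          simp_rw [hHi]
          exact hmε.1 d (by have := Finset.mem_range.1 hd; omega)
  calc ENNReal.ofReal (ε ^ 2) *
        XX Φ ε L f₀ t (fun _ S => A ^ S.depth * ENNReal.ofReal (1 + ‖(ln Φ ε S).2‖))
      ≤ ENNReal.ofReal (ε ^ 2) * ∑ d ∈ Finset.range (L + 1), A ^ d *
          (ENNReal.ofReal (ker c 1) * (muE ε * ENNReal.ofReal (dm d + r))) :=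
        mul_le_mul' le_rfl h1
    _ = ENNReal.ofReal (ε ^ 2) * (muE ε * (ENNReal.ofReal (ker c 1) *
          ∑ d ∈ Finset.range (L + 1), A ^ d * ENNReal.ofReal (dm d + r))) := by
        congr 1
        rw [Finset.mul_sum, Finset.mul_sum]
        refine Finset.sum_congr rfl fun d _ => ?_
        ring
    _ = ENNReal.ofReal (ker c 1) *
          ∑ d ∈ Finset.range (L + 1), A ^ d * ENNReal.ofReal (dm d + r) := by
        rw [ofReal_sq_mul_muE hε]
    _ ≤ ENNReal.ofReal (ker c 1) * (∑' d, A ^ d * ENNReal.ofReal (dm d) + 1) := by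
        refine mul_le_mul' le_rfl ?_
        calc ∑ d ∈ Finset.range (L + 1), A ^ d * ENNReal.ofReal (dm d + r)
            = ∑ d ∈ Finset.range (L + 1), A ^ d * ENNReal.ofReal (dm d) +
              N * ENNReal.ofReal r := by
              rw [hN, Finset.sum_mul, ← Finset.sum_add_distrib]
              refine Finset.sum_congr rfl fun d _ => ?_
              rw [ENNReal.ofReal_add (hdm0 d) hr0.le, mul_add]
          _ ≤ _ := add_le_add (ENNReal.sum_le_tsum _) hr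

/-- **The input `Cap8`.** -/
theorem cap8_of_par (hP : Par T b₀ m b l₁ l₂ Q α a) (hΦ : IsPotential Φ) (hg : GoodDatum f₀ κ)
    {M₀ : ℝ} (hM : 0 ≤ M₀) (hf : ∀ z, f₀ z ≤ M₀ * Real.exp (-b₀ * ‖z.2‖ ^ 2))
    (hx : ∀ v : E3, ∫⁻ x : E3, ENNReal.ofReal (f₀ (x, v)) ≤
      ENNReal.ofReal (M₀ * Real.exp (-b₀ * ‖v‖ ^ 2)))
    (hcap : ∀ᶠ L in atTop, CapT Φ f₀ L T (b₀ / 2) m) (hI1 : ∀ᶠ L in atTop, Cap.InI1 Φ f₀ L T) :
    Cap8 Φ f₀ T (b₀ / 2) m :=
  ⟨hP.m0, hP.msup, hcap, fun _ hA => exists_over hP hΦ hg hM hf hx hcap hI1 hA⟩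

/-! ### The functionals -/

/-- The pairs of outgoing lines of an alive tree. -/
def fP2 (Φ : E3 → ℝ) (f₀ : Ph → ℝ) : Fun8 := fun L ε _ t ψ => P2g Φ ε L f₀ t ψ

/-- An exhaust and a created line, summed over the depth of the free line. -/
def fFX (Φ : E3 → ℝ) (f₀ : Ph → ℝ) (T b l₁ l₂ : ℝ) (a : ℕ → ℝ) : Fun8 := fun L ε _ t ψ =>
  ∑' n, ENNReal.ofReal (wgt l₁ l₂ a T n) * FXg Φ ε L f₀ (b / 2) t ψ n

/-- An exhaust and the pair of the free line and the root line. -/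
def fXp (Φ : E3 → ℝ) (f₀ : Ph → ℝ) (b : ℝ) : FunP8 := fun L ε _ t φ =>
  FXp Φ ε L f₀ (b / 2) t φ

/-- Colliding trees: both exhausts in one tree. -/
def f9a (Φ : E3 → ℝ) (f₀ : Ph → ℝ) : Fun8 := fun L ε _ t ψ => P9a Φ ε L f₀ t ψ

/-- Colliding trees: one exhaust in each tree. -/
def f9b (Φ : E3 → ℝ) (f₀ : Ph → ℝ) : Fun8 := fun L ε _ t ψ => P9b Φ ε L f₀ t ψ

/-- Colliding trees: an exhaust and the pair. -/
def f9c (Φ : E3 → ℝ) (f₀ : Ph → ℝ) : FunP8 := fun L ε _ t φ => P9c Φ ε L f₀ t φ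

/-- The colliding pairs which are not both alive are negligible. -/
def BadS (Φ : E3 → ℝ) (f₀ : Ph → ℝ) (T : ℝ) : Prop :=
  ∀ᶠ L in atTop, ∀ ρ : ℝ≥0∞, ρ ≠ 0 → ∀ᶠ ε in 𝓝[>] (0 : ℝ), ∀ t ≤ T, BadPP Φ ε L f₀ t ≤ ρ

/-- **P8 from the bounds of the functionals.** -/
theorem in8_of_ok8 (hP : Par T b₀ m b l₁ l₂ Q α a) (hg : GoodDatum f₀ κ) (hbad : BadS Φ f₀ T)
    (h1 : Ok8 T D Θ F W fun L η ε hε t => fP2 Φ f₀ L ε hε t (gI L hΦ hε η t))
    (h2 : Ok8 T D Θ F W fun L η ε hε t => fFX Φ f₀ T b l₁ l₂ a L ε hε t (gI L hΦ hε η t))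
    (h3 : Ok8 T D Θ F W fun L η ε hε t => fXp Φ f₀ b L ε hε t (pI L hΦ hε η t T))
    (h4 : Ok8 T D Θ F W fun L η ε hε t => f9a Φ f₀ L ε hε t (gI L hΦ hε η t))
    (h5 : Ok8 T D Θ F W fun L η ε hε t => f9b Φ f₀ L ε hε t (gI L hΦ hε η t))
    (h6 : Ok8 T D Θ F W fun L η ε hε t => f9c Φ f₀ L ε hε t (pI L hΦ hε η t T)) :
    ∃ C K p cr, Cst C K cr ∧ In8 T K p cr D Θ F (dSE b T l₁ l₂ a hΦ f₀ T) W := by
  have hT := hP.T0
  obtain ⟨B, hB0, hB⟩ := exists_wgt_le (T := T) hP.wts hP.l₁0 hP.l₂0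
  have hBT : ∀ n, wgt l₁ l₂ a T n ≤ B := fun n => hB T ⟨hT.le, le_rfl⟩ n
  set c₁ : ℝ≥0∞ := ENNReal.ofReal B * (2 * (ENNReal.ofReal Real.pi * I0 (b / 2) *
    ENNReal.ofReal T)) with hc₁
  have hc₁t : c₁ ≠ ∞ := ENNReal.mul_ne_top ENNReal.ofReal_ne_top (ENNReal.mul_ne_top (by norm_num)
    (ENNReal.mul_ne_top (ENNReal.mul_ne_top ENNReal.ofReal_ne_top
      (I0_ne_top (half_pos hP.b0))) ENNReal.ofReal_ne_top))
  have h0 : Ok8 T D Θ F W fun L _ ε _ t => BadPP Φ ε L f₀ t := by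
    refine Ok8.zero ?_
    filter_upwards [hbad] with L hL η _ ρ hρ
    filter_upwards [hL (ENNReal.ofReal ρ) (ENNReal.ofReal_pos.2 hρ).ne'] with ε h _ t ht
    exact h t ht.2
  have hall := ((((h2.add (h3.const_mul (ENNReal.ofReal_ne_top (r := B)))).add
    (h1.const_mul hc₁t)).add h1).add (h0.add (((h4.const_mul (by norm_num :
      (2 : ℝ≥0∞) ≠ ∞)).add h5).add (h6.const_mul (by norm_num : (2 : ℝ≥0∞) ≠ ∞)))))
  refine hall.in8 (Eventually.of_forall fun L η hη ε hε t ht => ?_)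
  rw [dSE_pos hε]
  unfold sSE
  have k1 := Nm_secS_le' (L := L) (κ := κ) hg hΦ hε hη.1 hP.b0 hT ht.1 ht.2 hP.wts.apos hP.l₁0
    hP.l₂0 hBT
  have k2 := SE9F_le' (Φ := Φ) (ε := ε) (L := L) (hΦ := hΦ) (hε := hε) (η := η) (t := t)
    (f₀ := f₀)
  have k3 := SE9P_le (L := L) (hΦ := hΦ) (hε := hε) (w := T) hg hη.1 ht.1 ht.2
  refine (add_le_add (add_le_add k1 k2) k3).trans ?_
  refine add_le_add (add_le_add (add_le_add le_rfl ?_) le_rfl) le_rfl
  rw [hc₁, mul_assoc (ENNReal.ofReal B)]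
  refine mul_le_mul' le_rfl (mul_le_mul' (mul_le_mul' le_rfl (mul_le_mul' le_rfl ?_)) le_rfl)
  exact ENNReal.ofReal_le_ofReal ht.2

end Vale.Agent.P119.PB
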