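import Vale.Agent.P119.PB.Op8
import Vale.Agent.P119.RM.Src

/-!
# P119, block PROB: norms of the source terms `dirS`, `pairS`, `feltS` (`helper347`)
-/

open MeasureTheory Set Filter Topology Metric ProbabilityTheory
open scoped ENNReal

namespace Vale.Agent.P119.PB

open M CTree KU FB RB AU FL

variable {Φ : E3 → ℝ} {ε : ℝ} {L : ℕ}

/-! ### Ordinary worlds -/

theorem wS_birth0 {w : Finset Ph} {a : Src} (ha : a ∈ wS w) : a.1 = 0 := by
  obtain ⟨z, -, rfl⟩ := mem_wS.1 ha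
  rfl

theorem wS_nonneg0 (w : Finset Ph) : ∀ a ∈ wS w, 0 ≤ a.1 := fun _ ha => (wS_birth0 ha).ge

theorem wS_excl {c : GC.Conf Ph} (hc : c.2 ∈ excl ε c.1) : ∀ a ∈ wS (GC.pts c),
    ∀ a' ∈ wS (GC.pts c), a ≠ a' → a.1 = 0 → a'.1 = 0 → ε ≤ ‖a.2.1.1 - a'.2.1.1‖ := by
  intro a ha a' ha' hne _ _
  obtain ⟨z, hz, rfl⟩ := mem_wS.1 ha
  obtain ⟨z', hz', rfl⟩ := mem_wS.1 ha'
  obtain ⟨i, rfl⟩ := GC.mem_pts.1 hz
  obtain ⟨j, rfl⟩ := GC.mem_pts.1 hz'
  have hij : i ≠ j := by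
    rintro rfl
    exact hne rfl
  exact (hc i j hij).le

theorem wS_filter (w : Finset Ph) : ((wS w).filter fun a => a.1 ≠ 0).card ≤ 0 := by
  rw [Nat.le_zero, Finset.card_eq_zero, Finset.filter_eq_empty_iff]
  intro a ha h
  exact h (wS_birth0 ha)

/-- Before the stopping time, the stopping time with an earlier horizon is this horizon. -/
theorem hz_of_le {hΦ : IsPotential Φ} {hε : 0 < ε} {W : Finset Src} {η t r : ℝ} (hη : 0 < η)
    (ht : 0 ≤ t) (hr0 : 0 ≤ r) (hr : r ≤ hz L hΦ hε η t W) : hz L hΦ hε η r W = r := by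
  refine le_antisymm (hz_le hη hr0) ?_
  rw [le_hz_iff hη hr0]
  exact ⟨le_rfl, ((le_hz_iff hη ht).1 hr).2⟩

/-- The window `[s, min t (s + w)]`. -/
theorem setLIntegral_hz_le {hΦ : IsPotential Φ} {hε : 0 < ε} {W : Finset Src} {η t s w : ℝ}
    (hη : 0 < η) (ht : 0 ≤ t) (hs : 0 ≤ s) (g : Finset Src → ℝ → ℝ≥0∞) :
    ∫⁻ r in Icc s (min (hz L hΦ hε η t W) (s + w)), g W r ≤
      ∫⁻ r in Icc s (min t (s + w)), g W (hz L hΦ hε η r W) := by
  calc ∫⁻ r in Icc s (min (hz L hΦ hε η t W) (s + w)), g W r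
      = ∫⁻ r in Icc s (min (hz L hΦ hε η t W) (s + w)), g W (hz L hΦ hε η r W) := by
        refine setLIntegral_congr_fun measurableSet_Icc fun r hr => ?_
        rw [hz_of_le hη ht (hs.trans hr.1) (hr.2.trans (min_le_left _ _))]
    _ ≤ _ := lintegral_mono_set (Icc_subset_Icc_right (min_le_min_right _ (hz_le hη ht)))

section

variable {hΦ : IsPotential Φ} {hε : 0 < ε} {f₀ : Ph → ℝ} {κ : ℝ}

theorem lintegral_eW_eq (η r : ℝ) : ∫⁻ c, eW L hΦ hε (wS (GC.pts c))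
    (hz L hΦ hε η r (wS (GC.pts c))) ∂(GC.PP f₀ ε) = muE ε * DD L hΦ hε f₀ η r := by
  unfold DD
  rw [← mul_assoc, ENNReal.mul_inv_cancel, one_mul]
  · exact (thr_pos (η := 1) hε one_pos).ne' ∘ fun h => by
      rw [one_mul]; exact h
  · exact muE_ne_top

theorem lintegral_fW_eq (η r : ℝ) : ∫⁻ c, fW L hΦ hε (wS (GC.pts c))
    (hz L hΦ hε η r (wS (GC.pts c))) ∂(GC.PP f₀ ε) = muE ε * FF L hΦ hε f₀ η r := by
  unfold FF
  rw [← mul_assoc, ENNReal.mul_inv_cancel, one_mul]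
  · exact (thr_pos (η := 1) hε one_pos).ne' ∘ fun h => by
      rw [one_mul]; exact h
  · exact muE_ne_top

/-- The time integral of the expected exposed energy. -/
theorem lintegral_win_eW (h : GoodDatum f₀ κ) (η s u : ℝ) :
    ∫⁻ c, (∫⁻ r in Icc s u, eW L hΦ hε (wS (GC.pts c)) (hz L hΦ hε η r (wS (GC.pts c))))
      ∂(GC.PP f₀ ε) = muE ε * ∫⁻ r in Icc s u, DD L hΦ hε f₀ η r := by
  have := GC.isProbability_PP (ε := ε) h
  have hm := RM.measurable_eW_conf (L := L) (hΦ := hΦ) (hε := hε) η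
  rw [lintegral_lintegral_swap hm.aemeasurable]
  simp only [lintegral_eW_eq]
  rw [lintegral_const_mul' _ _ muE_ne_top]

/-- The time integral of the expected number of felt trees. -/
theorem lintegral_win_fW (h : GoodDatum f₀ κ) (η s u : ℝ) :
    ∫⁻ c, (∫⁻ r in Icc s u, fW L hΦ hε (wS (GC.pts c)) (hz L hΦ hε η r (wS (GC.pts c))))
      ∂(GC.PP f₀ ε) = muE ε * ∫⁻ r in Icc s u, FF L hΦ hε f₀ η r := by
  have := GC.isProbability_PP (ε := ε) h
  have hm := RM.measurable_fW_conf (L := L) (hΦ := hΦ) (hε := hε) η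
  rw [lintegral_lintegral_swap hm.aemeasurable]
  simp only [lintegral_fW_eq]
  rw [lintegral_const_mul' _ _ muE_ne_top]

theorem ofReal_sq_mul_muE (hε : 0 < ε) (x : ℝ≥0∞) : ENNReal.ofReal (ε ^ 2) * (muE ε * x) = x := by
  rw [← mul_assoc, mul_comm (ENNReal.ofReal (ε ^ 2)), muE_mul hε, one_mul]

variable {b T t l₁ l₂ Bw : ℝ} {a : ℕ → ℝ}

/-- **Direct contact.** -/
theorem Nm_dirS_le (h : GoodDatum f₀ κ) {B : ℝ} (hB : RW.StableWith Φ B) (hb : 0 < b)
    (hT : 0 < T) (htT : t ≤ T) (hBw : ∀ s ∈ Icc 0 t, ∀ n, wgt l₁ l₂ a s n ≤ Bw) {η w : ℝ}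
    (hη : 0 < η) {x : ℝ≥0∞}
    (hx : ∀ s ∈ Icc 0 t, ∫⁻ r in Icc s (min t (s + w)), DD L hΦ hε f₀ η r ≤ x) :
    Nm b T l₁ l₂ a t (dirS L hΦ hε f₀ η t w) ≤ ENNReal.ofReal Bw *
      (Cd (b / 2) * (2 * ENNReal.ofReal (cDD B 0)) *
        (ENNReal.ofReal ε * DD L hΦ hε f₀ η t + x)) := by
  have hP := GC.isProbability_PP (ε := ε) h
  have hb2 : 0 < b / 2 := by positivity
  rcases lt_or_ge t 0 with ht | ht
  · refine Nm_le fun s hs n => ?_
    exact absurd (hs.1.trans hs.2) (not_le.2 ht)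
  refine Nm_quench_le (G := fun s c => ENNReal.ofReal (ε ^ 2) *
    (Cd (b / 2) * (2 * ENNReal.ofReal (cDD B 0))) * (ENNReal.ofReal ε *
      eW L hΦ hε (wS (GC.pts c)) (hz L hΦ hε η t (wS (GC.pts c))) +
      ∫⁻ r in Icc s (min t (s + w)), eW L hΦ hε (wS (GC.pts c))
        (hz L hΦ hε η r (wS (GC.pts c))))) hb hT htT hBw
    (g := fun q : Src × GC.Conf Ph => ind (DirC L hΦ hε η t w (wS (GC.pts q.2)) q.1))
    (RM.measurable_DirC η t w) ?_ ?_
  · intro s hs n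
    filter_upwards [GC.ae_excl f₀ ε] with c hc
    have h1 := cc_flux (L := L) hΦ hB hε (wS_nonneg0 _) (wS_excl hc) (wS_filter _) hb2 s
      (min (hz L hΦ hε η t (wS (GC.pts c))) (s + w))
    refine h1.trans (mul_le_mul_right (add_le_add (mul_le_mul_right ?_ _) ?_) _)
    · exact eW_mono (min_le_left _ _)
    · exact setLIntegral_hz_le hη ht hs.1 fun W r => eW L hΦ hε W r
  · intro s hs
    have hmw : Measurable fun c : GC.Conf Ph => ∫⁻ r in Icc s (min t (s + w)),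
        eW L hΦ hε (wS (GC.pts c)) (hz L hΦ hε η r (wS (GC.pts c))) :=
      (RM.measurable_eW_conf (L := L) (hΦ := hΦ) (hε := hε) η).lintegral_prod_right'
    have hC : ENNReal.ofReal (ε ^ 2) * (Cd (b / 2) * (2 * ENNReal.ofReal (cDD B 0))) ≠ ∞ :=
      ENNReal.mul_ne_top ENNReal.ofReal_ne_top (ENNReal.mul_ne_top (Cd_ne_top _)
        (ENNReal.mul_ne_top (by norm_num) ENNReal.ofReal_ne_top))
    rw [lintegral_const_mul' _ _ hC, lintegral_add_right _ hmw,
      lintegral_const_mul' _ _ ENNReal.ofReal_ne_top, lintegral_eW_eq, lintegral_win_eW h]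
    calc ENNReal.ofReal (ε ^ 2) * (Cd (b / 2) * (2 * ENNReal.ofReal (cDD B 0))) *
          (ENNReal.ofReal ε * (muE ε * DD L hΦ hε f₀ η t) +
            muE ε * ∫⁻ r in Icc s (min t (s + w)), DD L hΦ hε f₀ η r)
        = Cd (b / 2) * (2 * ENNReal.ofReal (cDD B 0)) * (ENNReal.ofReal (ε ^ 2) * (muE ε *
          (ENNReal.ofReal ε * DD L hΦ hε f₀ η t +
            ∫⁻ r in Icc s (min t (s + w)), DD L hΦ hε f₀ η r))) := by ring
      _ = Cd (b / 2) * (2 * ENNReal.ofReal (cDD B 0)) * (ENNReal.ofReal ε * DD L hΦ hε f₀ η t +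
            ∫⁻ r in Icc s (min t (s + w)), DD L hΦ hε f₀ η r) := by
        rw [ofReal_sq_mul_muE hε]
      _ ≤ _ := by
        gcongr
        exact hx s hs

/-- **Hits of felt trees.** -/
theorem Nm_feltS_le (h : GoodDatum f₀ κ) (hb : 0 < b)
    (hT : 0 < T) (htT : t ≤ T) (hBw : ∀ s ∈ Icc 0 t, ∀ n, wgt l₁ l₂ a s n ≤ Bw) {η w : ℝ}
    (hη : 0 < η) {x : ℝ≥0∞}
    (hx : ∀ s ∈ Icc 0 t, ∫⁻ r in Icc s (min t (s + w)), FF L hΦ hε f₀ η r ≤ x) :
    Nm b T l₁ l₂ a t (feltS L hΦ hε f₀ η t w) ≤ ENNReal.ofReal Bw *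
      (ENNReal.ofReal Real.pi * I0 (b / 2) * x) := by
  have hP := GC.isProbability_PP (ε := ε) h
  have hb2 : 0 < b / 2 := by positivity
  rcases lt_or_ge t 0 with ht | ht
  · refine Nm_le fun s hs n => ?_
    exact absurd (hs.1.trans hs.2) (not_le.2 ht)
  refine Nm_quench_le (G := fun s c => ENNReal.ofReal (ε ^ 2) *
    (ENNReal.ofReal Real.pi * I0 (b / 2)) *
      ∫⁻ r in Icc s (min t (s + w)), fW L hΦ hε (wS (GC.pts c))
        (hz L hΦ hε η r (wS (GC.pts c)))) hb hT htT hBw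
    (g := fun q : Src × GC.Conf Ph => ∑ T ∈ trs L (wS (GC.pts q.2)),
      ind (FeltC L hΦ hε η t w (wS (GC.pts q.2)) q.1 T))
    (RM.measurable_FeltC η t w) ?_ ?_
  · intro s hs n
    refine Eventually.of_forall fun c => ?_
    have h1 := felt_flux (L := L) (hΦ := hΦ) (hε := hε) (W := wS (GC.pts c)) hb2 s
      (min (hz L hΦ hε η t (wS (GC.pts c))) (s + w))
    refine h1.trans (mul_le_mul_right ?_ _)
    exact (lintegral_mono_set Ioc_subset_Icc_self).trans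
      (setLIntegral_hz_le hη ht hs.1 fun W r => fW L hΦ hε W r)
  · intro s hs
    have hC : ENNReal.ofReal (ε ^ 2) * (ENNReal.ofReal Real.pi * I0 (b / 2)) ≠ ∞ :=
      ENNReal.mul_ne_top ENNReal.ofReal_ne_top (ENNReal.mul_ne_top ENNReal.ofReal_ne_top
        (I0_ne_top hb2))
    rw [lintegral_const_mul' _ _ hC, lintegral_win_fW h]
    calc ENNReal.ofReal (ε ^ 2) * (ENNReal.ofReal Real.pi * I0 (b / 2)) *
          (muE ε * ∫⁻ r in Icc s (min t (s + w)), FF L hΦ hε f₀ η r)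
        = ENNReal.ofReal Real.pi * I0 (b / 2) * (ENNReal.ofReal (ε ^ 2) * (muE ε *
            ∫⁻ r in Icc s (min t (s + w)), FF L hΦ hε f₀ η r)) := by ring
      _ = ENNReal.ofReal Real.pi * I0 (b / 2) *
            ∫⁻ r in Icc s (min t (s + w)), FF L hΦ hε f₀ η r := by
        rw [ofReal_sq_mul_muE hε]
      _ ≤ _ := by
        gcongr
        exact hx s hs

theorem pairS_eq (h : GoodDatum f₀ κ) (b' : ℝ) (α : ℕ → ℝ≥0∞) (η t w : ℝ) (σ : Src) :
    pairS L hΦ hε f₀ b' α η t w σ = ∫⁻ c, ((∑' n, α n) * ∫⁻ z' : Ph, muE ε * gw b' z'.2 *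
      ind (PairC L hΦ hε η t w (wS (GC.pts c)) σ z')) ∂(GC.PP f₀ ε) := by
  have hP := GC.isProbability_PP (ε := ε) h
  have hm := RM.measurable_PairC (L := L) (hΦ := hΦ) (hε := hε) η t w
  have h1 : Measurable fun q : GC.Conf Ph × Ph => (((σ, q.2), q.1) : (Src × Ph) × GC.Conf Ph) :=
    (measurable_const.prodMk measurable_snd).prodMk measurable_fst
  have h2 : Measurable fun q : GC.Conf Ph × Ph =>
      ind (PairC L hΦ hε η t w (wS (GC.pts q.1)) σ q.2) := hm.comp h1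
  have h3 : Measurable fun q : GC.Conf Ph × Ph => muE ε * gw b' q.2.2 *
      ind (PairC L hΦ hε η t w (wS (GC.pts q.1)) σ q.2) :=
    (((measurable_gw b').comp measurable_snd.snd).const_mul _).mul h2
  have h4 : Measurable fun c : GC.Conf Ph => ∫⁻ z' : Ph, muE ε * gw b' z'.2 *
      ind (PairC L hΦ hε η t w (wS (GC.pts c)) σ z') := h3.lintegral_prod_right'
  rw [lintegral_const_mul _ h4, lintegral_lintegral_swap h3.aemeasurable]
  unfold pairS
  rw [ENNReal.tsum_mul_right, mul_left_comm]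
  congr 1
  have h5 : ∀ z' : Ph, Measurable fun c : GC.Conf Ph =>
      ind (PairC L hΦ hε η t w (wS (GC.pts c)) σ z') := by
    intro z'
    have : Measurable fun c : GC.Conf Ph => ((c, z') : GC.Conf Ph × Ph) :=
      measurable_id.prodMk measurable_const
    exact h2.comp this
  have h6 : ∀ z' : Ph, ∫⁻ c, muE ε * gw b' z'.2 *
      ind (PairC L hΦ hε η t w (wS (GC.pts c)) σ z') ∂(GC.PP f₀ ε) = muE ε * (gw b' z'.2 *
      ∫⁻ c, ind (PairC L hΦ hε η t w (wS (GC.pts c)) σ z') ∂(GC.PP f₀ ε)) := by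
    intro z'
    rw [lintegral_const_mul _ (h5 z'), mul_assoc]
  rw [lintegral_congr h6, lintegral_const_mul' _ _ muE_ne_top]

theorem measurable_int_aux {X Y Z : Type*} [MeasurableSpace X] [MeasurableSpace Y]
    [MeasurableSpace Z] {μ : Measure Z} [SFinite μ] (A : ℝ≥0∞) {k : Z → ℝ≥0∞}
    (hk : Measurable k) {G : X → Y → Z → ℝ≥0∞}
    (hG : Measurable fun q : (X × Z) × Y => G q.1.1 q.2 q.1.2) :
    Measurable fun q : X × Y => A * ∫⁻ z, k z * G q.1 q.2 z ∂μ := by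
  have h1 : Measurable fun q : (X × Y) × Z => (((q.1.1, q.2), q.1.2) : (X × Z) × Y) := by
    fun_prop
  have h2 : Measurable fun q : (X × Y) × Z => G q.1.1 q.1.2 q.2 := hG.comp h1
  have h3 : Measurable fun q : (X × Y) × Z => k q.2 * G q.1.1 q.1.2 q.2 :=
    (hk.comp measurable_snd).mul h2
  exact h3.lintegral_prod_right'.const_mul _

theorem measurable_pairG (b η t w : ℝ) (A : ℝ≥0∞) :
    Measurable fun q : Src × GC.Conf Ph => A * ∫⁻ z' : Ph, muE ε *
      gw b z'.2 * ind (PairC L hΦ hε η t w (wS (GC.pts q.2)) q.1 z') :=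
  measurable_int_aux (G := fun σ c z' => ind (PairC L hΦ hε η t w (wS (GC.pts c)) σ z'))
    (k := fun z' : Ph => muE ε * gw b z'.2) A
    (((measurable_gw b).comp measurable_snd).const_mul _) (RM.measurable_PairC η t w)

/-- **Contact of the pair.** -/
theorem Nm_pairS_le (h : GoodDatum f₀ κ) {B : ℝ} (hB : RW.StableWith Φ B) (hb : 0 < b)
    (hT : 0 < T) (htT : t ≤ T) (hBw : ∀ s ∈ Icc 0 t, ∀ n, wgt l₁ l₂ a s n ≤ Bw)
    {α : ℕ → ℝ≥0∞} (hα : ∑' n, α n ≠ ∞) {η w : ℝ} (hη : 0 < η) {x : ℝ≥0∞}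
    (hx : ∀ s ∈ Icc 0 t, ∫⁻ r in Icc s (min t (s + w)), DD L hΦ hε f₀ η r ≤ x) :
    Nm b T l₁ l₂ a t (pairS L hΦ hε f₀ b α η t w) ≤ ENNReal.ofReal Bw * ((∑' n, α n) *
      (2 * Cp (b / 2) (cS hΦ) T * (2 * ENNReal.ofReal (cDD B 0)) *
        (ENNReal.ofReal ε * DD L hΦ hε f₀ η t + x))) := by
  have hP := GC.isProbability_PP (ε := ε) h
  have hb2 : 0 < b / 2 := by positivity
  rcases lt_or_ge t 0 with ht | ht
  · refine Nm_le fun s hs n => ?_
    exact absurd (hs.1.trans hs.2) (not_le.2 ht)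
  have hfun : pairS L hΦ hε f₀ b α η t w = fun σ => ∫⁻ c, ((∑' n, α n) * ∫⁻ z' : Ph, muE ε *
      gw b z'.2 * ind (PairC L hΦ hε η t w (wS (GC.pts c)) σ z')) ∂(GC.PP f₀ ε) :=
    funext fun σ => pairS_eq h b α η t w σ
  rw [hfun]
  have hgm := measurable_pairG (ε := ε) (L := L) (hΦ := hΦ) (hε := hε) b η t w (∑' n, α n)
  refine Nm_quench_le (G := fun s c => (∑' n, α n) * (ENNReal.ofReal (ε ^ 2) *
    (2 * Cp (b / 2) (cS hΦ) T * (2 * ENNReal.ofReal (cDD B 0))) * (ENNReal.ofReal ε *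
      eW L hΦ hε (wS (GC.pts c)) (hz L hΦ hε η t (wS (GC.pts c))) +
      ∫⁻ r in Icc s (min t (s + w)), eW L hΦ hε (wS (GC.pts c))
        (hz L hΦ hε η r (wS (GC.pts c)))))) hb hT htT hBw
    (g := fun q : Src × GC.Conf Ph => (∑' n, α n) * ∫⁻ z' : Ph, muE ε *
      gw b z'.2 * ind (PairC L hΦ hε η t w (wS (GC.pts q.2)) q.1 z')) hgm ?_ ?_
  · intro s hs n
    filter_upwards [GC.ae_excl f₀ ε] with c hc
    set U := wS (GC.pts c) with hU
    set h' := min (hz L hΦ hε η t U) (s + w) with hh'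
    have hT0 : h' - s ≤ T := by
      have h2 : h' ≤ hz L hΦ hε η t U := min_le_left _ _
      have h3 := hz_le (L := L) (hΦ := hΦ) (hε := hε) (W := U) hη ht
      have h4 := hs.1
      linarith
    have h1 := pc_flux (L := L) hΦ hB hε (W := U) (wS_nonneg0 _) (wS_excl hc) (wS_filter _) hb2
      (s := s) (h := h') hT0
    calc ∫⁻ z : Ph, gw (b / 2) z.2 * ((∑' n, α n) * ∫⁻ z' : Ph, muE ε * gw b z'.2 *
          ind (PairC L hΦ hε η t w U (s, z, n) z'))
        = (∑' n, α n) * ∫⁻ z : Ph, ∫⁻ z' : Ph, gw (b / 2) z.2 * (muE ε * gw b z'.2) *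
          ind (PairC L hΦ hε η t w U (s, z, n) z') := by
          rw [← lintegral_const_mul' _ _ hα]
          refine lintegral_congr fun z => ?_
          have h2 : ∀ z' : Ph, gw (b / 2) z.2 * (muE ε * gw b z'.2) *
              ind (PairC L hΦ hε η t w U (s, z, n) z') = gw (b / 2) z.2 * (muE ε * gw b z'.2 *
              ind (PairC L hΦ hε η t w U (s, z, n) z')) := fun z' => mul_assoc _ _ _
          have h3 : gw (b / 2) z.2 ≠ ∞ := ENNReal.ofReal_ne_top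
          rw [lintegral_congr h2, lintegral_const_mul' _ _ h3]
          ring
      _ ≤ (∑' n, α n) * ∫⁻ z : Ph, ∫⁻ z' : Ph, gw (b / 2) z.2 * (muE ε * gw (b / 2) z'.2) *
          ind (PairC L hΦ hε η t w U (s, z, n) z') := by
          refine mul_le_mul_right (lintegral_mono fun z => lintegral_mono fun z' => ?_) _
          refine mul_le_mul_left (mul_le_mul_right (mul_le_mul_right ?_ _) _) _
          exact gw_anti (by linarith) z'.2
      _ ≤ (∑' n, α n) * (ENNReal.ofReal (ε ^ 2) *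
          (2 * Cp (b / 2) (cS hΦ) T * (2 * ENNReal.ofReal (cDD B 0))) *
          (ENNReal.ofReal ε * eW L hΦ hε U h' + ∫⁻ r in Icc s h', eW L hΦ hε U r)) :=
          mul_le_mul_right h1 _
      _ ≤ _ := by
          refine mul_le_mul_right (mul_le_mul_right (add_le_add (mul_le_mul_right ?_ _) ?_) _) _
          · exact eW_mono (min_le_left _ _)
          · exact setLIntegral_hz_le hη ht hs.1 fun W r => eW L hΦ hε W r
  · intro s hs
    have hmw : Measurable fun c : GC.Conf Ph => ∫⁻ r in Icc s (min t (s + w)),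
        eW L hΦ hε (wS (GC.pts c)) (hz L hΦ hε η r (wS (GC.pts c))) :=
      (RM.measurable_eW_conf (L := L) (hΦ := hΦ) (hε := hε) η).lintegral_prod_right'
    have hC : ENNReal.ofReal (ε ^ 2) *
        (2 * Cp (b / 2) (cS hΦ) T * (2 * ENNReal.ofReal (cDD B 0))) ≠ ∞ :=
      ENNReal.mul_ne_top ENNReal.ofReal_ne_top (ENNReal.mul_ne_top
        (ENNReal.mul_ne_top (by norm_num) (Cp_ne_top _ _ _))
        (ENNReal.mul_ne_top (by norm_num) ENNReal.ofReal_ne_top))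
    rw [lintegral_const_mul' _ _ hα, lintegral_const_mul' _ _ hC, lintegral_add_right _ hmw,
      lintegral_const_mul' _ _ ENNReal.ofReal_ne_top, lintegral_eW_eq, lintegral_win_eW h]
    refine mul_le_mul_right ?_ _
    calc ENNReal.ofReal (ε ^ 2) * (2 * Cp (b / 2) (cS hΦ) T * (2 * ENNReal.ofReal (cDD B 0))) *
          (ENNReal.ofReal ε * (muE ε * DD L hΦ hε f₀ η t) +
            muE ε * ∫⁻ r in Icc s (min t (s + w)), DD L hΦ hε f₀ η r)
        = 2 * Cp (b / 2) (cS hΦ) T * (2 * ENNReal.ofReal (cDD B 0)) *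
          (ENNReal.ofReal (ε ^ 2) * (muE ε *
          (ENNReal.ofReal ε * DD L hΦ hε f₀ η t +
            ∫⁻ r in Icc s (min t (s + w)), DD L hΦ hε f₀ η r))) := by ring
      _ = 2 * Cp (b / 2) (cS hΦ) T * (2 * ENNReal.ofReal (cDD B 0)) *
          (ENNReal.ofReal ε * DD L hΦ hε f₀ η t +
            ∫⁻ r in Icc s (min t (s + w)), DD L hΦ hε f₀ η r) := by
        rw [ofReal_sq_mul_muE hε]
      _ ≤ _ := by
        gcongr
        exact hx s hs

end

end Vale.Agent.P119.PB
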