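import Vale.Agent.P119.PB.DM5
import Vale.Agent.P119.PB.Op9

/-!
# P119, block PROB: norms of the over-depth term and of the atypical term (`helper347`)

* `flux_meas`: flux of a Gaussian line through a measurable family of lines;
* `Y_XI_le`: the spatial integral of `XI`;
* `exists_Nm_overX`: the norm of `overX`;
* `Nm_atyS_le`: the norm of `atyS`.
-/

open MeasureTheory Set Filter Topology Metric ProbabilityTheory
open scoped ENNReal

namespace Vale.Agent.P119.PB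

open KU FL M CTree AU RB FB

variable {Φ : E3 → ℝ} {ε : ℝ}

/-- Flux of a Gaussian line through a measurable family of lines. -/
theorem flux_meas (hε : 0 < ε) {β : ℝ} (hβ : 0 < β) {X : Type*} [MeasurableSpace X]
    {ρ : Measure X} [SFinite ρ] {ℓ : X → Ph} (hℓ : Measurable ℓ) {W : X → ℝ≥0∞}
    (hW : Measurable W) {A : Set ℝ} (hA : MeasurableSet A) :
    ∫⁻ z : Ph, gw β z.2 * ∫⁻ x, ind (Meets ε (z, ℓ x) ∧ hitT ε (z, ℓ x) ∈ A) * W x ∂ρ ≤
      ENNReal.ofReal (ε ^ 2) * (ENNReal.ofReal Real.pi * I0 β) *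
        (volume A * ∫⁻ x, ENNReal.ofReal (1 + ‖(ℓ x).2‖) * W x ∂ρ) := by
  have hq : Measurable fun p : Ph × X => ((p.1, ℓ p.2) : Ph × Ph) :=
    measurable_fst.prodMk (hℓ.comp measurable_snd)
  have hS : MeasurableSet {p : Ph × X | Meets ε (p.1, ℓ p.2) ∧ hitT ε (p.1, ℓ p.2) ∈ A} :=
    (measurableSet_meets.preimage hq).inter ((measurable_hitT.comp hq) hA)
  have hi := measurable_ind hS
  have hgz : Measurable fun z : Ph => gw β z.2 := (measurable_gw _).comp measurable_snd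
  have hf : Measurable fun p : Ph × X => gw β p.1.2 *
      (ind (Meets ε (p.1, ℓ p.2) ∧ hitT ε (p.1, ℓ p.2) ∈ A) * W p.2) :=
    (hgz.comp measurable_fst).mul (hi.mul (hW.comp measurable_snd))
  have hiz : ∀ z : Ph, Measurable fun x : X =>
      ind (Meets ε (z, ℓ x) ∧ hitT ε (z, ℓ x) ∈ A) * W x := fun z =>
    (hi.comp (measurable_const.prodMk measurable_id)).mul hW
  have hv : Measurable fun x : X => ENNReal.ofReal (1 + ‖(ℓ x).2‖) :=
    ((hℓ.snd.norm).const_add 1).ennreal_ofReal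
  calc ∫⁻ z : Ph, gw β z.2 * ∫⁻ x, ind (Meets ε (z, ℓ x) ∧ hitT ε (z, ℓ x) ∈ A) * W x ∂ρ
      = ∫⁻ z : Ph, ∫⁻ x, gw β z.2 * (ind (Meets ε (z, ℓ x) ∧ hitT ε (z, ℓ x) ∈ A) * W x) ∂ρ := by
        refine lintegral_congr fun z => ?_
        rw [lintegral_const_mul _ (hiz z)]
    _ = ∫⁻ x, (∫⁻ z : Ph, gw β z.2 *
          (ind (Meets ε (z, ℓ x) ∧ hitT ε (z, ℓ x) ∈ A) * W x)) ∂ρ :=
        lintegral_lintegral_swap hf.aemeasurable
    _ ≤ ∫⁻ x, ENNReal.ofReal (ε ^ 2) * (ENNReal.ofReal Real.pi * I0 β) *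
        (volume A * (ENNReal.ofReal (1 + ‖(ℓ x).2‖) * W x)) ∂ρ := by
        refine lintegral_mono fun x => ?_
        have h1 := line_flux hε hβ (ℓ x) hA
        have h2 : Measurable fun z : Ph =>
            gw β z.2 * ind (Meets ε (z, ℓ x) ∧ hitT ε (z, ℓ x) ∈ A) := hgz.mul h1.1
        calc ∫⁻ z : Ph, gw β z.2 * (ind (Meets ε (z, ℓ x) ∧ hitT ε (z, ℓ x) ∈ A) * W x)
            = (∫⁻ z : Ph, gw β z.2 * ind (Meets ε (z, ℓ x) ∧ hitT ε (z, ℓ x) ∈ A)) * W x := by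
              rw [← lintegral_mul_const _ h2]
              exact lintegral_congr fun z => (mul_assoc _ _ _).symm
          _ ≤ ENNReal.ofReal (ε ^ 2) * (ENNReal.ofReal Real.pi * I0 β) *
              (ENNReal.ofReal (1 + ‖(ℓ x).2‖) * volume A) * W x := mul_le_mul_left h1.2 _
          _ = _ := by ring
    _ = _ := by
        have hvW : Measurable fun x : X => ENNReal.ofReal (1 + ‖(ℓ x).2‖) * W x := hv.mul hW
        rw [lintegral_const_mul _ (hvW.const_mul _), lintegral_const_mul _ hvW]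

/-- `XI` as an integral over the product space. -/
theorem XI_eq_prod {f₀ : Ph → ℝ} {κ : ℝ} (hg : GoodDatum f₀ κ) (hΦ : IsPotential Φ) (hε : 0 < ε)
    {L : ℕ} {t : ℝ} {H : Finset Src → CTree → ℝ≥0∞}
    (hH : Measurable fun p : CTree × GC.Conf Ph => H (wS (GC.pts p.2)) p.1) (σ : Src) :
    XI f₀ Φ ε L t σ H = ∫⁻ x : GC.Conf Ph × CTree,
      ind (Meets ε (σ.2.1, ln Φ ε x.2) ∧ hitT ε (σ.2.1, ln Φ ε x.2) ∈ Ioc σ.1 t) *
        (ind (alT Φ ε L t (wS (GC.pts x.1)) x.2) * H (wS (GC.pts x.1)) x.2)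
      ∂((GC.PP f₀ ε).prod (tree (GC.inten f₀ ε) L)) := by
  have hfin : IsFiniteMeasure (GC.inten f₀ ε) := GC.isFiniteMeasure_inten hg
  have hP : IsProbabilityMeasure (GC.PP f₀ ε) := GC.isProbability_PP (ε := ε) hg
  have h1 : Measurable fun x : GC.Conf Ph × CTree =>
      ind (alT Φ ε L t (wS (GC.pts x.1)) x.2) * H (wS (GC.pts x.1)) x.2 :=
    meas_swap (F := fun (T : CTree) (c : GC.Conf Ph) =>
      ind (alT Φ ε L t (wS (GC.pts c)) T) * H (wS (GC.pts c)) T)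
      ((measurable_ind (measurableSet_alT' hΦ hε t)).mul hH)
  have hq : Measurable fun x : GC.Conf Ph × CTree => ((σ.2.1, ln Φ ε x.2) : Ph × Ph) :=
    measurable_const.prodMk ((measurable_ln hΦ hε.ne').comp measurable_snd)
  have h2 : Measurable fun x : GC.Conf Ph × CTree =>
      ind (Meets ε (σ.2.1, ln Φ ε x.2) ∧ hitT ε (σ.2.1, ln Φ ε x.2) ∈ Ioc σ.1 t) :=
    measurable_ind ((measurableSet_meets.preimage hq).inter
      ((measurable_hitT.comp hq) measurableSet_Ioc))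
  have h21 : Measurable fun x : GC.Conf Ph × CTree =>
      ind (Meets ε (σ.2.1, ln Φ ε x.2) ∧ hitT ε (σ.2.1, ln Φ ε x.2) ∈ Ioc σ.1 t) *
        (ind (alT Φ ε L t (wS (GC.pts x.1)) x.2) * H (wS (GC.pts x.1)) x.2) := h2.mul h1
  rw [lintegral_prod _ h21.aemeasurable]
  unfold XI XX
  refine lintegral_congr fun c => lintegral_congr fun T => ?_
  have h3 : hitI ε t σ (ln Φ ε T) ↔
      Meets ε (σ.2.1, ln Φ ε T) ∧ hitT ε (σ.2.1, ln Φ ε T) ∈ Ioc σ.1 t := Iff.rfl
  simp only [h3]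
  ring

/-- **The spatial integral of `XI`.** -/
theorem Y_XI_le {f₀ : Ph → ℝ} {κ : ℝ} (hg : GoodDatum f₀ κ) (hΦ : IsPotential Φ) (hε : 0 < ε)
    {b T s t : ℝ} {L : ℕ} (hb : 0 < b) (hT : 0 < T) (hs : s ∈ Icc 0 t) (ht : t ≤ T)
    {H : Finset Src → CTree → ℝ≥0∞}
    (hH : Measurable fun p : CTree × GC.Conf Ph => H (wS (GC.pts p.2)) p.1) (n : ℕ) :
    Y b T (fun σ => XI f₀ Φ ε L t σ H) s n ≤
      ENNReal.ofReal (ε ^ 2) * (ENNReal.ofReal Real.pi * I0 (b / 2)) *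
        (ENNReal.ofReal t * XX Φ ε L f₀ t
          (fun V S => ENNReal.ofReal (1 + ‖(ln Φ ε S).2‖) * H V S)) := by
  have hfin : IsFiniteMeasure (GC.inten f₀ ε) := GC.isFiniteMeasure_inten hg
  have hP : IsProbabilityMeasure (GC.PP f₀ ε) := GC.isProbability_PP (ε := ε) hg
  have h1 : Measurable fun x : GC.Conf Ph × CTree =>
      ind (alT Φ ε L t (wS (GC.pts x.1)) x.2) * H (wS (GC.pts x.1)) x.2 :=
    meas_swap (F := fun (T : CTree) (c : GC.Conf Ph) =>
      ind (alT Φ ε L t (wS (GC.pts c)) T) * H (wS (GC.pts c)) T)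
      ((measurable_ind (measurableSet_alT' hΦ hε t)).mul hH)
  have hln : Measurable fun x : GC.Conf Ph × CTree => ln Φ ε x.2 :=
    (measurable_ln hΦ hε.ne').comp measurable_snd
  have hv : Measurable fun x : GC.Conf Ph × CTree => ENNReal.ofReal (1 + ‖(ln Φ ε x.2).2‖) :=
    ((hln.snd.norm).const_add 1).ennreal_ofReal
  have hβ := le_bt hb hT (hs.2.trans ht)
  unfold Y
  simp only [XI_eq_prod hg hΦ hε hH]
  calc ∫⁻ z : Ph, gw (bt b T s) z.2 * ∫⁻ x : GC.Conf Ph × CTree,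
        ind (Meets ε (z, ln Φ ε x.2) ∧ hitT ε (z, ln Φ ε x.2) ∈ Ioc s t) *
          (ind (alT Φ ε L t (wS (GC.pts x.1)) x.2) * H (wS (GC.pts x.1)) x.2)
        ∂((GC.PP f₀ ε).prod (tree (GC.inten f₀ ε) L))
      ≤ ∫⁻ z : Ph, gw (b / 2) z.2 * ∫⁻ x : GC.Conf Ph × CTree,
        ind (Meets ε (z, ln Φ ε x.2) ∧ hitT ε (z, ln Φ ε x.2) ∈ Ioc s t) *
          (ind (alT Φ ε L t (wS (GC.pts x.1)) x.2) * H (wS (GC.pts x.1)) x.2)
        ∂((GC.PP f₀ ε).prod (tree (GC.inten f₀ ε) L)) :=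
        lintegral_mono fun z => mul_le_mul_left (gw_anti hβ z.2) _
    _ ≤ _ := flux_meas hε (half_pos hb) hln h1 measurableSet_Ioc
    _ ≤ _ := by
        refine mul_le_mul_right (mul_le_mul' ?_ (le_of_eq ?_)) _
        · rw [Real.volume_Ioc]
          exact ENNReal.ofReal_le_ofReal (by linarith [hs.1])
        · have hv1 : Measurable fun x : GC.Conf Ph × CTree =>
              ENNReal.ofReal (1 + ‖(ln Φ ε x.2).2‖) *
              (ind (alT Φ ε L t (wS (GC.pts x.1)) x.2) * H (wS (GC.pts x.1)) x.2) := hv.mul h1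
          rw [lintegral_prod _ hv1.aemeasurable]
          unfold XX
          refine lintegral_congr fun c => lintegral_congr fun S => ?_
          ring

/-! ### The over-depth term -/

/-- The velocity weight is at most Gaussian. -/
theorem one_add_le_eT {c : ℝ} (hc : 0 < c) (S : CTree) :
    ENNReal.ofReal (1 + ‖(ln Φ ε S).2‖) ≤ ENNReal.ofReal (ker c 1) * eT Φ ε c S := by
  unfold eT
  rw [← ENNReal.ofReal_mul (ker_nonneg _ _)]
  apply ENNReal.ofReal_le_ofReal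
  have h := one_add_mul_exp_le (x := ‖(ln Φ ε S).2‖) hc one_pos
  rw [mul_one, neg_mul, Real.exp_neg, ← div_eq_mul_inv, div_le_iff₀ (Real.exp_pos _)] at h
  exact h

/-- The weighted mass of the alive trees in terms of `XX`. -/
theorem XX_le_eT {f₀ : Ph → ℝ} (hΦ : IsPotential Φ) (hε : 0 < ε) {c T₀ t : ℝ} (hc : 0 < c)
    (ht : t ≤ T₀) {L : ℕ} {D : Set CTree} (hD : MeasurableSet D)
    {H : Finset Src → CTree → ℝ≥0∞} (hH : ∀ V S, S.depth ≤ L → H V S ≤ D.indicator 1 S) :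
    XX Φ ε L f₀ t (fun V S => ENNReal.ofReal (1 + ‖(ln Φ ε S).2‖) * H V S) ≤
      ENNReal.ofReal (ker c 1) * ∫⁻ x, ∫⁻ S in Cap.AL Φ ε L T₀ (GC.pts x : Set Ph) ∩ D,
        eT Φ ε c S ∂(tree (GC.inten f₀ ε) L) ∂(GC.PP f₀ ε) := by
  unfold XX
  rw [← lintegral_const_mul' _ _ ENNReal.ofReal_ne_top]
  refine lintegral_mono fun x => ?_
  have hm := (measurableSet_ALc hΦ hε L T₀ x).inter hD
  rw [← lintegral_indicator hm, ← lintegral_const_mul' _ _ ENNReal.ofReal_ne_top]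
  refine lintegral_mono fun S => ?_
  by_cases h : alT Φ ε L t (wS (GC.pts x)) S
  · have h1 := alT_iff.1 h
    have h2 : S ∈ Cap.AL Φ ε L T₀ (GC.pts x : Set Ph) := ⟨h1.1, h1.2.trans ht⟩
    rw [ind_of h, one_mul]
    refine (mul_le_mul' (one_add_le_eT hc S) (hH _ S h.depth)).trans ?_
    by_cases hS : S ∈ D
    · rw [indicator_of_mem hS, indicator_of_mem (show S ∈ Cap.AL Φ ε L T₀
        (GC.pts x : Set Ph) ∩ D from ⟨h2, hS⟩), Pi.one_apply, mul_one]
    · rw [indicator_of_notMem hS, mul_zero]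
      exact zero_le
  · rw [ind_of_not h, zero_mul]
    exact zero_le

/-- The weights of the large depths. -/
noncomputable def wL (l₁ l₂ : ℝ) (a : ℕ → ℝ) (T : ℝ) (n : ℕ) : ℝ :=
  a n * Real.exp ((l₁ * n + l₂) * T)

theorem wL_superExp {α a : ℕ → ℝ} {Q l₁ l₂ T : ℝ} (hw : Wts α a Q) :
    KE.SuperExp (wL l₁ l₂ a T) := by
  intro A hA
  obtain ⟨B, hB⟩ := hw.w3 (l₁ * T + Real.log (2 * (A + 1)))
  have hA1 : 0 < 2 * (A + 1) := by positivity
  have h1 : ∀ n : ℕ, A ^ n * wL l₁ l₂ a T n ≤ B * Real.exp (l₂ * T) * (1 / 2) ^ n := by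
    intro n
    have h2 := hB n
    have h3 : Real.exp ((l₁ * T + Real.log (2 * (A + 1))) * n) =
        Real.exp (l₁ * T * n) * (2 * (A + 1)) ^ n := by
      rw [add_mul, Real.exp_add, mul_comm (Real.log _) (n : ℝ), Real.exp_nat_mul,
        Real.exp_log hA1]
    rw [h3] at h2
    have ha := (hw.apos n).le
    unfold wL
    have h4 : Real.exp ((l₁ * n + l₂) * T) = Real.exp (l₁ * T * n) * Real.exp (l₂ * T) := by
      rw [← Real.exp_add]
      congr 1
      ring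
    rw [h4]
    have h5 : A ^ n ≤ (2 * (A + 1)) ^ n * (1 / 2) ^ n := by
      rw [← mul_pow]
      refine pow_le_pow_left₀ hA ?_ n
      linarith
    calc A ^ n * (a n * (Real.exp (l₁ * T * n) * Real.exp (l₂ * T)))
        ≤ ((2 * (A + 1)) ^ n * (1 / 2) ^ n) *
          (a n * (Real.exp (l₁ * T * n) * Real.exp (l₂ * T))) := by gcongr
      _ = (a n * (Real.exp (l₁ * T * n) * (2 * (A + 1)) ^ n)) * Real.exp (l₂ * T) *
          (1 / 2) ^ n := by ring
      _ ≤ _ := by gcongr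
  have h4 : Tendsto (fun n : ℕ => B * Real.exp (l₂ * T) * (1 / 2 : ℝ) ^ n) atTop (𝓝 0) := by
    have := (tendsto_pow_atTop_nhds_zero_of_lt_one (r := (1 / 2 : ℝ)) (by norm_num)
      (by norm_num)).const_mul (B * Real.exp (l₂ * T))
    rwa [mul_zero] at this
  refine squeeze_zero (fun n => ?_) h1 h4
  have ha := (hw.apos n).le
  unfold wL
  positivity

theorem wgt_le_wL {α a : ℕ → ℝ} {Q l₁ l₂ T s : ℝ} (hw : Wts α a Q) (h₁ : 0 ≤ l₁) (h₂ : 0 ≤ l₂)
    (hs : s ≤ T) (n : ℕ) : wgt l₁ l₂ a s n ≤ wL l₁ l₂ a T n := by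
  unfold wgt wL
  have ha := (hw.apos n).le
  gcongr

open Classical in
/-- **The norm of the over-depth term.** -/
theorem exists_Nm_overX (hΦ : IsPotential Φ) {f₀ : Ph → ℝ} {κ bD T M₀ : ℝ}
    (hg : GoodDatum f₀ κ) (hbD : 0 < bD) (hT : 0 < T) (hM : 0 ≤ M₀)
    (hf : ∀ z, f₀ z ≤ M₀ * Real.exp (-bD * ‖z.2‖ ^ 2))
    (hx : ∀ v : E3, ∫⁻ x : E3, ENNReal.ofReal (f₀ (x, v)) ≤
      ENNReal.ofReal (M₀ * Real.exp (-bD * ‖v‖ ^ 2)))
    {b₁ : ℝ} (hb₁ : 0 < b₁) {α : ℕ → ℝ≥0∞} (hα : ∑' n, α n ≠ ∞)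
    {b l₁ l₂ Q : ℝ} {β a : ℕ → ℝ} (hb : 0 < b) (hw : Wts β a Q) (h₁ : 0 ≤ l₁) (h₂ : 0 ≤ l₂) :
    ∃ cr : ℕ → ℝ, (∀ L, 0 ≤ cr L) ∧ KE.SuperExp cr ∧
      ∀ (L : ℕ) (ν : ℝ → GC.Conf Ph → Measure Src),
        CapL Φ f₀ L T b₁ α ν → Cap.InI1 Φ f₀ L T → ∀ ρ : ℝ, 0 < ρ →
        ∀ᶠ ε in 𝓝[>] (0 : ℝ), ∀ t ∈ Icc 0 T,
          Nm b T l₁ l₂ a t (overX f₀ Φ ε L t) ≤ ENNReal.ofReal (cr L + ρ) := by
  obtain ⟨c, hc, dm, hdm0, hdms, Mt, hMt, hmass⟩ :=
    exists_depth_mass hΦ hg hbD hT hM hf hx hb₁ hα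
  obtain ⟨Bw, hBw, hBw'⟩ := exists_wgt_le (T := T) hw h₁ h₂
  -- the constant of the flux
  set X : ℝ≥0∞ := ENNReal.ofReal Real.pi * I0 (b / 2) * (ENNReal.ofReal T *
    ENNReal.ofReal (ker c 1)) with hX
  have hXt : X ≠ ∞ := ENNReal.mul_ne_top (ENNReal.mul_ne_top ENNReal.ofReal_ne_top
    (I0_ne_top (half_pos hb))) (ENNReal.mul_ne_top ENNReal.ofReal_ne_top ENNReal.ofReal_ne_top)
  set Xr := X.toReal with hXr
  have hXr0 : 0 ≤ Xr := ENNReal.toReal_nonneg
  have hXe : ENNReal.ofReal Xr = X := ENNReal.ofReal_toReal hXt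
  set e := wL l₁ l₂ a T with he
  have he0 : ∀ n, 0 ≤ e n := fun n => by
    have ha := (hw.apos n).le
    rw [he]
    unfold wL
    positivity
  have hes : KE.SuperExp e := wL_superExp hw
  set am := KE.antiMaj e with ham
  have ham0 : ∀ n, 0 ≤ am n := fun n => (he0 n).trans (KE.le_antiMaj hes le_rfl)
  have hams : KE.SuperExp am := KE.antiMaj_superExp hes he0
  refine ⟨fun L => Bw * Xr * dm L + Xr * (Mt + 1) * am L, fun L => ?_, ?_,
    fun L ν hcap hI ρ hρ => ?_⟩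
  · have := hdm0 L
    have := ham0 L
    positivity
  · intro A hA
    have h1 := ((hdms A hA).const_mul (Bw * Xr)).add ((hams A hA).const_mul (Xr * (Mt + 1)))
    rw [mul_zero, mul_zero, add_zero] at h1
    refine h1.congr fun n => ?_
    ring
  -- the choice of the error
  set r : ℝ := min 1 (ρ / (Bw * Xr + 1)) with hr
  have hr0 : 0 < r := lt_min one_pos (by positivity)
  have hr1 : r ≤ 1 := min_le_left _ _
  have hrρ : Bw * Xr * r ≤ ρ := by
    have h3 : r ≤ ρ / (Bw * Xr + 1) := min_le_right _ _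
    calc Bw * Xr * r ≤ (Bw * Xr + 1) * (ρ / (Bw * Xr + 1)) := by
          gcongr
          linarith
      _ = ρ := by field_simp
  filter_upwards [hmass L ν hcap hI r hr0, self_mem_nhdsWithin] with ε hm hε t ht
  have hε : 0 < ε := hε
  obtain ⟨hm1, hm2⟩ := hm
  have hm1 := hm1 L le_rfl
  -- the two parts
  set H₁ : Finset Src → CTree → ℝ≥0∞ := fun _ S => (dep L).indicator 1 S with hH₁
  set H₂ : Finset Src → CTree → ℝ≥0∞ := fun _ _ => 1 with hH₂
  have mH₁ : Measurable fun p : CTree × GC.Conf Ph => H₁ (wS (GC.pts p.2)) p.1 :=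
    (measurable_one.indicator (measurableSet_dep L)).comp measurable_fst
  have mH₂ : Measurable fun p : CTree × GC.Conf Ph => H₂ (wS (GC.pts p.2)) p.1 :=
    measurable_const
  have hflux : ∀ (H : Finset Src → CTree → ℝ≥0∞) (D : Set CTree) (y : ℝ), 0 ≤ y →
      MeasurableSet D → (Measurable fun p : CTree × GC.Conf Ph => H (wS (GC.pts p.2)) p.1) →
      (∀ V S, S.depth ≤ L → H V S ≤ D.indicator 1 S) →
      (∫⁻ x, ∫⁻ S in Cap.AL Φ ε L T (GC.pts x : Set Ph) ∩ D, eT Φ ε c S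
        ∂(tree (GC.inten f₀ ε) L) ∂(GC.PP f₀ ε) ≤ muE ε * ENNReal.ofReal y) →
      ∀ s ∈ Icc 0 t, ∀ n, Y b T (fun σ => XI f₀ Φ ε L t σ H) s n ≤ ENNReal.ofReal (Xr * y) := by
    intro H D y hy hD mH hHD hy' s hs n
    refine (Y_XI_le hg hΦ hε hb hT hs ht.2 mH n).trans ?_
    calc ENNReal.ofReal (ε ^ 2) * (ENNReal.ofReal Real.pi * I0 (b / 2)) *
        (ENNReal.ofReal t * XX Φ ε L f₀ t
          (fun V S => ENNReal.ofReal (1 + ‖(ln Φ ε S).2‖) * H V S))
        ≤ ENNReal.ofReal (ε ^ 2) * (ENNReal.ofReal Real.pi * I0 (b / 2)) *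
        (ENNReal.ofReal T * (ENNReal.ofReal (ker c 1) * (muE ε * ENNReal.ofReal y))) := by
          refine mul_le_mul_right (mul_le_mul' (ENNReal.ofReal_le_ofReal ht.2) ?_) _
          exact (XX_le_eT hΦ hε hc ht.2 hD hHD).trans (mul_le_mul_right hy' _)
      _ = (muE ε * ENNReal.ofReal (ε ^ 2)) * (X * ENNReal.ofReal y) := by rw [hX]; ring
      _ = _ := by rw [muE_mul hε, one_mul, ← hXe, ← ENNReal.ofReal_mul hXr0]
  have hY₁ := hflux H₁ (dep L) (dm L + r) (by have := hdm0 L; linarith) (measurableSet_dep L) mH₁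
    (fun V S _ => le_rfl) hm1
  have hY₂ := hflux H₂ univ (Mt + r) (by linarith) MeasurableSet.univ mH₂
    (fun V S _ => by rw [indicator_univ]; exact le_rfl) (by simpa only [inter_univ] using hm2)
  -- the norm
  refine Nm_le fun s hs n => ?_
  have hle : ∀ σ : Src, overX f₀ Φ ε L t σ ≤
      XI f₀ Φ ε L t σ H₁ + (if L ≤ σ.2.2 then XI f₀ Φ ε L t σ H₂ else 0) := by
    intro σ
    by_cases hn : L ≤ σ.2.2
    · rw [if_pos hn]
      refine le_add_left ?_
      unfold overX XI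
      refine XX_mono fun V S _ => mul_le_mul_right ?_ _
      change ovr L σ S ≤ (1 : ℝ≥0∞)
      unfold ovr
      split_ifs
      · exact le_rfl
      · exact zero_le
    · rw [if_neg hn, add_zero]
      unfold overX XI
      refine XX_mono fun V S hS => mul_le_mul_right ?_ _
      change ovr L σ S ≤ (dep L).indicator 1 S
      unfold ovr
      split_ifs with h3
      · have h4 := hS.depth
        have h5 : S.depth = L := by
          rcases le_total σ.2.2 S.depth with h6 | h6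
          · rw [max_eq_right h6] at h3; omega
          · rw [max_eq_left h6] at h3; omega
        rw [indicator_of_mem (show S ∈ dep L from h5), Pi.one_apply]
      · exact zero_le
  have hwn := hBw' s ⟨hs.1, hs.2.trans ht.2⟩ n
  have ha := (hw.apos n).le
  have hwn0 : 0 ≤ wgt l₁ l₂ a s n := by unfold wgt; positivity
  -- measurability of the first part
  have hfin : IsFiniteMeasure (GC.inten f₀ ε) := GC.isFiniteMeasure_inten hg
  have hP : IsProbabilityMeasure (GC.PP f₀ ε) := GC.isProbability_PP (ε := ε) hg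
  have hYle : Y b T (overX f₀ Φ ε L t) s n ≤ Y b T (fun σ => XI f₀ Φ ε L t σ H₁) s n +
      (if L ≤ n then Y b T (fun σ => XI f₀ Φ ε L t σ H₂) s n else 0) := by
    have mXI : Measurable fun z : Ph => XI f₀ Φ ε L t (s, z, n) H₁ := by
      simp only [XI_eq_prod hg hΦ hε mH₁]
      have h1 : Measurable fun x : GC.Conf Ph × CTree =>
          ind (alT Φ ε L t (wS (GC.pts x.1)) x.2) * H₁ (wS (GC.pts x.1)) x.2 :=
        meas_swap (F := fun (T : CTree) (c : GC.Conf Ph) =>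
          ind (alT Φ ε L t (wS (GC.pts c)) T) * H₁ (wS (GC.pts c)) T)
          ((measurable_ind (measurableSet_alT' hΦ hε t)).mul mH₁)
      have hq : Measurable fun p : Ph × (GC.Conf Ph × CTree) =>
          ((p.1, ln Φ ε p.2.2) : Ph × Ph) :=
        measurable_fst.prodMk ((measurable_ln hΦ hε.ne').comp (measurable_snd.comp measurable_snd))
      have h2 : Measurable fun p : Ph × (GC.Conf Ph × CTree) =>
          ind (Meets ε (p.1, ln Φ ε p.2.2) ∧ hitT ε (p.1, ln Φ ε p.2.2) ∈ Ioc s t) :=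
        measurable_ind ((measurableSet_meets.preimage hq).inter
          ((measurable_hitT.comp hq) measurableSet_Ioc))
      exact (h2.mul (h1.comp measurable_snd)).lintegral_prod_right'
    unfold Y
    have hgz : Measurable fun z : Ph => gw (bt b T s) z.2 := (measurable_gw _).comp measurable_snd
    have h3 : Measurable fun z : Ph => gw (bt b T s) z.2 * XI f₀ Φ ε L t (s, z, n) H₁ :=
      hgz.mul mXI
    by_cases hn : L ≤ n
    · rw [if_pos hn, ← lintegral_add_left h3]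
      refine lintegral_mono fun z => ?_
      rw [← mul_add]
      refine mul_le_mul_right ((hle (s, z, n)).trans (le_of_eq ?_)) _
      rw [if_pos (show L ≤ ((s, z, n) : Src).2.2 from hn)]
    · rw [if_neg hn, add_zero]
      refine lintegral_mono fun z => ?_
      refine mul_le_mul_right ((hle (s, z, n)).trans (le_of_eq ?_)) _
      rw [if_neg (show ¬L ≤ ((s, z, n) : Src).2.2 from hn), add_zero]
  have hsum : ENNReal.ofReal (wgt l₁ l₂ a s n) * Y b T (overX f₀ Φ ε L t) s n ≤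
      ENNReal.ofReal (Bw * (Xr * (dm L + r)) + am L * (Xr * (Mt + r))) := by
    refine (mul_le_mul_right hYle _).trans ?_
    rw [mul_add, ENNReal.ofReal_add (by have := hdm0 L; positivity)
      (by have := ham0 L; positivity)]
    refine add_le_add ?_ ?_
    · rw [ENNReal.ofReal_mul hBw.le]
      exact mul_le_mul' (ENNReal.ofReal_le_ofReal hwn) (hY₁ s hs n)
    · by_cases hn : L ≤ n
      · rw [if_pos hn, ENNReal.ofReal_mul (ham0 L)]
        refine mul_le_mul' (ENNReal.ofReal_le_ofReal ?_) (hY₂ s hs n)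
        exact (wgt_le_wL hw h₁ h₂ (hs.2.trans ht.2) n).trans (KE.le_antiMaj hes hn)
      · rw [if_neg hn, mul_zero]
        exact zero_le
  refine hsum.trans (ENNReal.ofReal_le_ofReal ?_)
  have h6 : am L * (Xr * (Mt + r)) ≤ am L * (Xr * (Mt + 1)) := by
    have := ham0 L
    gcongr
  nlinarith

/-! ### The atypical term -/

/-- **The norm of the atypical term.** -/
theorem Nm_atyS_le {f₀ : Ph → ℝ} {κ : ℝ} (hg : GoodDatum f₀ κ) (hε : 0 < ε)
    {b T t l₁ l₂ Bw : ℝ} {a : ℕ → ℝ} (hb : 0 < b) (hT : 0 < T) (ht : t ≤ T)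
    (hB : ∀ s ∈ Icc 0 t, ∀ n, wgt l₁ l₂ a s n ≤ Bw)
    (ν : Kernel (GC.Conf Ph) Src) [IsSFiniteKernel ν] :
    Nm b T l₁ l₂ a t (atyS (GC.PP f₀ ε) (fun c => ν c) ε t) ≤ ENNReal.ofReal Bw *
      (ENNReal.ofReal Real.pi * I0 (b / 2) * (ENNReal.ofReal T *
        ∫⁻ c, ∫⁻ p : Src, ENNReal.ofReal (1 + ‖p.2.1.2‖) ∂(ν c) ∂(GC.PP f₀ ε))) := by
  have hP : IsProbabilityMeasure (GC.PP f₀ ε) := GC.isProbability_PP (ε := ε) hg
  have hp1 : Measurable fun p : Src => p.2.1 := measurable_fst.comp measurable_snd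
  -- the joint measurability
  have hS : MeasurableSet {q : (Src × GC.Conf Ph) × Src | Meets ε (q.1.1.2.1, q.2.2.1) ∧
      hitT ε (q.1.1.2.1, q.2.2.1) ∈ Ioc q.1.1.1 t} := by
    have h1 : Measurable fun q : (Src × GC.Conf Ph) × Src => q.1.1 :=
      measurable_fst.comp measurable_fst
    have h2 : Measurable fun q : (Src × GC.Conf Ph) × Src =>
        ((q.1.1.2.1, q.2.2.1) : Ph × Ph) :=
      (hp1.comp h1).prodMk (hp1.comp measurable_snd)
    exact (measurableSet_meets.preimage h2).inter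
      ((measurableSet_lt (measurable_fst.comp h1) (measurable_hitT.comp h2)).inter
        (measurableSet_le (measurable_hitT.comp h2) measurable_const))
  have hg1 : Measurable fun q : Src × GC.Conf Ph => muE ε * (ν q.2) {p : Src |
      Meets ε (q.1.2.1, p.2.1) ∧ hitT ε (q.1.2.1, p.2.1) ∈ Ioc q.1.1 t} := by
    have h1 := Kernel.measurable_kernel_prodMk_left
      (κ := ν.comap (Prod.snd : Src × GC.Conf Ph → GC.Conf Ph) measurable_snd) hS
    exact h1.const_mul _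
  have e : (atyS (GC.PP f₀ ε) (fun c => ν c) ε t) = fun σ => ∫⁻ c, muE ε * (ν c) {p : Src |
      Meets ε (σ.2.1, p.2.1) ∧ hitT ε (σ.2.1, p.2.1) ∈ Ioc σ.1 t} ∂(GC.PP f₀ ε) := by
    funext σ
    unfold atyS
    rw [lintegral_const_mul' _ _ muE_ne_top]
    rfl
  rw [e]
  refine Nm_quench_le (P := GC.PP f₀ ε) hb hT ht hB
    (g := fun q => muE ε * (ν q.2) {p : Src |
      Meets ε (q.1.2.1, p.2.1) ∧ hitT ε (q.1.2.1, p.2.1) ∈ Ioc q.1.1 t}) hg1
    (G := fun _ c => ENNReal.ofReal Real.pi * I0 (b / 2) * (ENNReal.ofReal T *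
      ∫⁻ p : Src, ENNReal.ofReal (1 + ‖p.2.1.2‖) ∂(ν c))) ?_ ?_
  · intro s hs n
    refine Eventually.of_forall fun c => ?_
    have h1 := flux_meas hε (half_pos hb) (ρ := ν c) hp1 (W := fun _ => 1) measurable_const
      (A := Ioc s t) measurableSet_Ioc
    have h2 : ∀ z : Ph, (ν c) {p : Src | Meets ε (z, p.2.1) ∧ hitT ε (z, p.2.1) ∈ Ioc s t} =
        ∫⁻ p, ind (Meets ε (z, p.2.1) ∧ hitT ε (z, p.2.1) ∈ Ioc s t) * 1 ∂(ν c) := by
      intro z
      have hm : MeasurableSet {p : Src | Meets ε (z, p.2.1) ∧ hitT ε (z, p.2.1) ∈ Ioc s t} := by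
        have h3 : Measurable fun p : Src => ((z, p.2.1) : Ph × Ph) := measurable_const.prodMk hp1
        exact (measurableSet_meets.preimage h3).inter
          ((measurable_hitT.comp h3) measurableSet_Ioc)
      rw [← lintegral_indicator_one hm]
      refine lintegral_congr fun p => ?_
      rw [mul_one]
      by_cases h : Meets ε (z, p.2.1) ∧ hitT ε (z, p.2.1) ∈ Ioc s t
      · rw [indicator_of_mem (show p ∈ {p : Src | Meets ε (z, p.2.1) ∧
          hitT ε (z, p.2.1) ∈ Ioc s t} from h), ind_of h, Pi.one_apply]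
      · rw [indicator_of_notMem (show p ∉ {p : Src | Meets ε (z, p.2.1) ∧
          hitT ε (z, p.2.1) ∈ Ioc s t} from h), ind_of_not h]
    calc ∫⁻ z : Ph, gw (b / 2) z.2 * (muE ε * (ν c) {p : Src |
          Meets ε (z, p.2.1) ∧ hitT ε (z, p.2.1) ∈ Ioc s t})
        = muE ε * ∫⁻ z : Ph, gw (b / 2) z.2 * ∫⁻ p, ind (Meets ε (z, p.2.1) ∧
          hitT ε (z, p.2.1) ∈ Ioc s t) * 1 ∂(ν c) := by
          rw [← lintegral_const_mul' _ _ muE_ne_top]
          refine lintegral_congr fun z => ?_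
          rw [h2 z]
          ring
      _ ≤ muE ε * (ENNReal.ofReal (ε ^ 2) * (ENNReal.ofReal Real.pi * I0 (b / 2)) *
          (volume (Ioc s t) * ∫⁻ p : Src, ENNReal.ofReal (1 + ‖p.2.1.2‖) * 1 ∂(ν c))) :=
          mul_le_mul_right h1 _
      _ = (muE ε * ENNReal.ofReal (ε ^ 2)) * (ENNReal.ofReal Real.pi * I0 (b / 2) *
          (volume (Ioc s t) * ∫⁻ p : Src, ENNReal.ofReal (1 + ‖p.2.1.2‖) * 1 ∂(ν c))) := by ring
      _ ≤ _ := by
          rw [muE_mul hε, one_mul]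
          simp only [mul_one]
          refine mul_le_mul_right (mul_le_mul_left ?_ _) _
          rw [Real.volume_Ioc]
          exact ENNReal.ofReal_le_ofReal (by linarith [hs.1])
  · intro s _
    have hm : Measurable fun c : GC.Conf Ph =>
        ∫⁻ p : Src, ENNReal.ofReal (1 + ‖p.2.1.2‖) ∂(ν c) :=
      (((hp1.snd.norm).const_add 1).ennreal_ofReal).lintegral_kernel
    rw [lintegral_const_mul _ (hm.const_mul _), lintegral_const_mul _ hm]

end Vale.Agent.P119.PB
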