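import Vale.Agent.P119.PB.TreeMeas
import Vale.Agent.P119.GC.Phase

/-!
# P119, block PROB: extraction of a tree from a configuration (`helper298`)

`extract`, `extract_le`: the expectation of `∑_T F(T, w ∖ T)` over all the collision trees `T` of
depth `≤ L` with distinct leaves in the configuration `w` is the integral of
`E[F(T, w); T compatible with w]` with respect to the measure `tree ν L` (GNZ formula of `helper423`).
-/

open MeasureTheory Filter Topology Set
open scoped ENNReal NNReal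

noncomputable section

namespace Vale.Agent.P119.M

open KU CTree GC

open Classical in
/-- The configuration without the ordinary leaves of `T`. -/
def rem (w : Finset Ph) (T : CTree) : Finset Ph := w.filter fun z => src z ∉ T.leaves

theorem mem_rem {w : Finset Ph} {T : CTree} {z : Ph} : z ∈ rem w T ↔ z ∈ w ∧ src z ∉ T.leaves := by
  classical
  unfold rem
  rw [Finset.mem_filter]

open Classical in
/-- The configuration without the points `z`. -/
def del {α : Type*} {n : ℕ} (w : Finset α) (z : Fin n → α) : Finset α := w \ Finset.univ.image z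

theorem mem_del {α : Type*} {n : ℕ} {w : Finset α} {z : Fin n → α} {x : α} :
    x ∈ del w z ↔ x ∈ w ∧ ¬ ∃ i, z i = x := by
  classical
  unfold del
  rw [Finset.mem_sdiff, Finset.mem_image]
  exact and_congr Iff.rfl (not_congr ⟨fun ⟨i, _, h⟩ => ⟨i, h⟩, fun ⟨i, h⟩ => ⟨i, Finset.mem_univ i, h⟩⟩)

theorem sdiff_eq_del {α : Type*} [DecidableEq α] {n : ℕ} (w : Finset α) (z : Fin n → α) :
    w \ Finset.univ.image z = del w z := by
  ext x
  rw [mem_del, Finset.mem_sdiff, Finset.mem_image]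
  exact and_congr Iff.rfl (not_congr ⟨fun ⟨i, _, h⟩ => ⟨i, h⟩, fun ⟨i, h⟩ => ⟨i, Finset.mem_univ i, h⟩⟩)

theorem pts_rest' {α : Type*} {N n : ℕ} {Z : Fin N → α} (hZ : Function.Injective Z)
    (σ : Fin n ↪ Fin N) : pts (rest σ Z) = del (pts ⟨N, Z⟩) (Z ∘ σ) := pts_rest hZ σ

theorem gnz' {α : Type*} [MeasurableSpace α] {ν : Measure α} [SigmaFinite ν] {C : α → α → Prop}
    (hC : MeasurableSet {p : α × α | C p.1 p.2})
    (hsym : ∀ a b, C a b → C b a) (hirr : ∀ a, ¬ C a a) (n : ℕ)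
    {F : (Fin n → α) → Finset α → ℝ≥0∞}
    (hF : Measurable fun p : (Fin n → α) × Conf α => F p.1 (pts p.2)) :
    ∫⁻ c, ∑ z ∈ tup n (pts c), F z (del (pts c) z) ∂(gc ν C) =
    ∫⁻ z in {z | PW C z}, ∫⁻ c in {c | Cmp C z (pts c)}, F z (pts c) ∂(gc ν C)
      ∂(Measure.pi fun _ : Fin n => ν) := gnz hC hsym hirr n hF

theorem rem_ord (w : Finset Ph) (τ : Shape) (z : Fin τ.card → Ph) :
    rem w (τ.ord z) = del w z := by
  ext x
  rw [mem_rem, mem_del, Shape.leaves_ord]
  refine and_congr Iff.rfl (not_congr ?_)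
  rw [mem_image]
  constructor
  · rintro ⟨y, ⟨i, rfl⟩, h⟩
    exact ⟨i, src_injective h⟩
  · rintro ⟨i, rfl⟩
    exact ⟨_, ⟨i, rfl⟩, rfl⟩

theorem world_rem (w : Finset Ph) (T : CTree) :
    world (rem w T : Set Ph) = world (w : Set Ph) \ T.leaves := by
  ext σ
  constructor
  · rintro ⟨z, hz, rfl⟩
    have h := mem_rem.1 (Finset.mem_coe.1 hz)
    exact ⟨⟨z, h.1, rfl⟩, h.2⟩
  · rintro ⟨⟨z, hz, rfl⟩, h⟩
    exact ⟨z, Finset.mem_coe.2 (mem_rem.2 ⟨hz, h⟩), rfl⟩

/-- The ordinary leaves of the tree are pairwise compatible. -/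
def PWT (C : Ph → Ph → Prop) (T : CTree) : Prop :=
  ∀ z z', src z ∈ T.leaves → src z' ∈ T.leaves → z ≠ z' → C z z'

/-- The ordinary leaves of the tree are compatible with the configuration. -/
def CmpT (C : Ph → Ph → Prop) (T : CTree) (w : Finset Ph) : Prop :=
  ∀ z, src z ∈ T.leaves → ∀ a ∈ w, C z a

theorem pwt_ord {C : Ph → Ph → Prop} {τ : Shape} {z : Fin τ.card → Ph}
    (hz : Function.Injective z) : PWT C (τ.ord z) ↔ PW C z := by
  unfold PWT PW
  rw [Shape.leaves_ord]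
  constructor
  · intro h i j hij
    exact h _ _ ⟨_, ⟨i, rfl⟩, rfl⟩ ⟨_, ⟨j, rfl⟩, rfl⟩ fun e => hij (hz e)
  · rintro h x x' ⟨_, ⟨i, rfl⟩, e⟩ ⟨_, ⟨j, rfl⟩, e'⟩ hne
    rw [← src_injective e, ← src_injective e']
    refine h i j fun hij => hne ?_
    rw [← src_injective e, ← src_injective e', hij]

theorem cmpT_ord {C : Ph → Ph → Prop} {τ : Shape} {z : Fin τ.card → Ph} {w : Finset Ph} :
    CmpT C (τ.ord z) w ↔ Cmp C z w := by
  unfold CmpT Cmp
  rw [Shape.leaves_ord]
  constructor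
  · intro h i a ha
    exact h _ ⟨_, ⟨i, rfl⟩, rfl⟩ a ha
  · rintro h x ⟨_, ⟨i, rfl⟩, e⟩ a ha
    rw [← src_injective e]
    exact h i a ha

variable {Φ : E3 → ℝ} {ε : ℝ} {L : ℕ} {ν : Measure Ph} {C : Ph → Ph → Prop}

theorem measurable_tup_del [SigmaFinite ν] (hC : MeasurableSet {p : Ph × Ph | C p.1 p.2})
    (hirr : ∀ a, ¬ C a a) (n : ℕ) {F : (Fin n → Ph) → Finset Ph → ℝ≥0∞}
    (hF : Measurable fun p : (Fin n → Ph) × Conf Ph => F p.1 (pts p.2)) :
    AEMeasurable (fun c => ∑ z ∈ tup n (pts c), F z (del (pts c) z)) (gc ν C) := by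
  refine ⟨_, measurable_sum_labels (F := fun z c => F z (pts c)) hF, ?_⟩
  filter_upwards [ae_PW (ν := ν) hC] with c hc
  obtain ⟨N, Z⟩ := c
  have hZ : Function.Injective Z := PW.injective hirr hc
  rw [sum_tup hZ]
  exact Finset.sum_congr rfl fun σ _ => by rw [pts_rest' hZ]

open Classical in
theorem measurable_tup_sum [SigmaFinite ν] (hC : MeasurableSet {p : Ph × Ph | C p.1 p.2})
    (hirr : ∀ a, ¬ C a a) (n : ℕ) {F : (Fin n → Ph) → Finset Ph → ℝ≥0∞}
    (hF : Measurable fun p : (Fin n → Ph) × Conf Ph => F p.1 (pts p.2)) :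
    AEMeasurable (fun c => ∑ z ∈ tup n (pts c), F z (pts c \ Finset.univ.image z)) (gc ν C) := by
  simp only [sdiff_eq_del]
  exact measurable_tup_del hC hirr n hF

open Classical in
/-- The sum over the trees of an ordinary configuration, for `F (T, w ∖ T)`. -/
theorem tsum_rem {F : CTree → Finset Ph → ℝ≥0∞}
    (hF0 : ∀ T w, F T w ≠ 0 → ok Φ ε T ∧ T.depth ≤ L) (w : Finset Ph) :
    (∑' T : CTree, if T.leaves ⊆ world (w : Set Ph) then F T (rem w T) else 0) =
      ∑ τ ∈ shapes L, ∑ z ∈ tup τ.card w, F (τ.ord z) (del w z) := by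
  rw [tsum_trees (Φ := Φ) (ε := ε) (L := L) (w := w)]
  · refine Finset.sum_congr rfl fun τ _ => Finset.sum_congr rfl fun z hz => ?_
    rw [if_pos (Shape.leaves_ord_subset.2 (mem_tup.1 hz).1), rem_ord]
  · intro T hT
    by_cases h : T.leaves ⊆ world (w : Set Ph)
    · rw [if_pos h] at hT
      exact ⟨h, hF0 _ _ hT⟩
    · exact absurd (if_neg h) hT

open Classical in
/-- **Extraction of a tree** (equality). -/
theorem extract [IsFiniteMeasure ν] (hC : MeasurableSet {p : Ph × Ph | C p.1 p.2})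
    (hsym : ∀ a b, C a b → C b a) (hirr : ∀ a, ¬ C a a) {F : CTree → Finset Ph → ℝ≥0∞}
    (hF0 : ∀ T w, F T w ≠ 0 → ok Φ ε T ∧ T.depth ≤ L)
    (hF : Measurable fun p : CTree × Conf Ph => F p.1 (pts p.2)) :
    ∫⁻ c, ∑' T : CTree, (if T.leaves ⊆ world (pts c : Set Ph) then F T (rem (pts c) T) else 0)
        ∂(gc ν C) =
      ∑ τ ∈ shapes L, ∫⁻ z in {z | PW C z}, ∫⁻ c in {c | Cmp C z (pts c)}, F (τ.ord z) (pts c)
        ∂(gc ν C) ∂(Measure.pi fun _ : Fin τ.card => ν) := by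
  have hFτ : ∀ τ : Shape, Measurable fun p : (Fin τ.card → Ph) × Conf Ph =>
      F (τ.ord p.1) (pts p.2) := fun τ =>
    hF.comp (((measurable_ord τ).comp measurable_fst).prodMk measurable_snd)
  simp only [tsum_rem hF0]
  rw [lintegral_finsetSum']
  · refine Finset.sum_congr rfl fun τ _ => ?_
    exact gnz' (ν := ν) (C := C) hC hsym hirr τ.card (F := fun z w => F (τ.ord z) w) (hFτ τ)
  · exact fun τ _ => measurable_tup_del hC hirr τ.card (F := fun z w => F (τ.ord z) w) (hFτ τ)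

open Classical in
/-- **Extraction of a tree** (upper bound, without the exclusion). -/
theorem extract_le [IsFiniteMeasure ν] (hC : MeasurableSet {p : Ph × Ph | C p.1 p.2})
    (hsym : ∀ a b, C a b → C b a) (hirr : ∀ a, ¬ C a a) {F : CTree → Finset Ph → ℝ≥0∞}
    (hF0 : ∀ T w, F T w ≠ 0 → ok Φ ε T ∧ T.depth ≤ L)
    (hF : Measurable fun p : CTree × Conf Ph => F p.1 (pts p.2)) :
    ∫⁻ c, ∑' T : CTree, (if T.leaves ⊆ world (pts c : Set Ph) then F T (rem (pts c) T) else 0)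
        ∂(gc ν C) ≤ ∫⁻ T, ∫⁻ c, F T (pts c) ∂(gc ν C) ∂(tree ν L) := by
  rw [extract hC hsym hirr hF0 hF, lintegral_tree L (Measurable.lintegral_prod_right' (ν := gc ν C) hF)]
  refine Finset.sum_le_sum fun τ _ => ?_
  refine (setLIntegral_le_lintegral _ _).trans ?_
  exact lintegral_mono fun z => setLIntegral_le_lintegral _ _

end Vale.Agent.P119.M
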