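import Vale.Agent.P119.RB.Transfer
import Vale.Agent.P119.EN.Inst
import Vale.Agent.P119.PB.Extract
import Vale.Agent.P119.AU.World

/-!
# P119, block PROB: exposed energy, felt trees, stopping times (`helper336`)

* `ex W t` the exposed labels, `eW W t` their energy-weighted number;
* `fl W t T`: the tree `T` of `W` is over and felt by the time `t`; `fW W t` their weighted number;
* `nW = eW + fW`; `hz η t W`: the first time (at most `t`) at which `nW ≥ η μ`;
* `tch η t V W`: `V` and `W` touch each other up to the time `hz η t V`;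
* `theta`, `DD`, `FF`: the probability that a source touches, the expected exposed energy and the
  expected number of felt trees, stopped (inclusive) at `hz`;
* `GG`: second events.
-/

open MeasureTheory Filter Topology Set
open scoped ENNReal NNReal

noncomputable section

namespace Vale.Agent.P119.PB

open M CTree KU FB RB AU

variable {Φ : E3 → ℝ} {ε : ℝ} (L : ℕ) (hΦ : IsPotential Φ) (hε : 0 < ε)

/-! ### Exposed labels -/

open Classical in
/-- The labels of `W` exposed up to the time `t`. -/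
def ex (W : Finset Src) (t : ℝ) : Finset Src := W.filter fun a => (Y Φ ε L hΦ hε).Exp W a t

/-- The energy-weighted number of the exposed labels. -/
def eW (W : Finset Src) (t : ℝ) : ℝ≥0∞ :=
  ∑ c ∈ ex L hΦ hε W t, ENNReal.ofReal (1 + EN.wt Φ ε L W (ex L hΦ hε W) c)

open Classical in
/-- The world `W` without the leaves of `T`. -/
def rm (W : Finset Src) (T : CTree) : Finset Src := W.filter fun a => a ∉ T.leaves

/-- The tree `T` of `W` is over at the time `t`, its root was not exposed before its end, and it is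
felt by `t`: its insertion touches the rest of the world. -/
structure fl (W : Finset Src) (t : ℝ) (T : CTree) : Prop where
  sub : T.leaves ⊆ (W : Set Src)
  depth : T.depth ≤ L
  ext_le : ext Φ ε T ≤ t
  alive : alive Φ ε L (W : Set Src) T (ext Φ ε T)
  root : ∀ s < ext Φ ε T, ¬(Y Φ ε L hΦ hε).Exp W T.root s
  touch : (Y Φ ε L hΦ hε).Touch (rm W T) W t

open Classical in
/-- The weighted number of the felt trees. -/
def fW (W : Finset Src) (t : ℝ) : ℝ≥0∞ :=
  ∑' T : CTree, if fl L hΦ hε W t T then ENNReal.ofReal (1 + ‖(ln Φ ε T).2‖) else 0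

/-- The quantity which is watched by the stopping time. -/
def nW (W : Finset Src) (t : ℝ) : ℝ≥0∞ := eW L hΦ hε W t + fW L hΦ hε W t

/-- The stopping time: the first time, at most `t`, at which `nW` is at least `η μ`. -/
def hz (η t : ℝ) (W : Finset Src) : ℝ :=
  sInf (insert t {s | ENNReal.ofReal (η * mu ε) ≤ nW L hΦ hε W s})

variable {L hΦ hε} {W : Finset Src} {a : Src} {T : CTree} {s t η η' : ℝ}

theorem mem_ex : a ∈ ex L hΦ hε W t ↔ (Y Φ ε L hΦ hε).Exp W a t := by
  classical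
  unfold ex
  rw [Finset.mem_filter]
  exact ⟨fun h => h.2, fun h => ⟨h.mem, h⟩⟩

theorem ex_eq_AX (t : ℝ) : ex L hΦ hε W t = EN.AX Φ ε L hΦ hε W t := by
  ext a
  rw [mem_ex, EN.mem_AX]
  rfl

theorem ex_eq_AX' : ex L hΦ hε W = EN.AX Φ ε L hΦ hε W := funext ex_eq_AX

/-- `eW` is the functional of `helper456`. -/
theorem eW_eq (t : ℝ) : eW L hΦ hε W t = ENNReal.ofReal (EN.DD Φ ε L hΦ hε W t) := by
  unfold eW EN.DD
  rw [ex_eq_AX', ENNReal.ofReal_sum_of_nonneg]
  intro c _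
  have := EN.wt_nonneg (Φ := Φ) (ε := ε) (L := L) W (EN.AX Φ ε L hΦ hε W) c
  linarith

theorem ex_mono (hst : s ≤ t) : ex L hΦ hε W s ⊆ ex L hΦ hε W t := fun a ha => by
  rw [mem_ex] at ha ⊢
  exact ha.mono hst

theorem ex_subset : ex L hΦ hε W t ⊆ W := fun _ ha => (mem_ex.1 ha).mem

theorem mem_rm : a ∈ rm W T ↔ a ∈ W ∧ a ∉ T.leaves := by
  classical
  unfold rm
  rw [Finset.mem_filter]

theorem eW_mono (hst : s ≤ t) : eW L hΦ hε W s ≤ eW L hΦ hε W t :=
  Finset.sum_le_sum_of_subset (ex_mono hst)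

theorem fl.mono (h : fl L hΦ hε W s T) (hst : s ≤ t) : fl L hΦ hε W t T :=
  ⟨h.sub, h.depth, h.ext_le.trans hst, h.alive, h.root, h.touch.mono hst⟩

theorem fl.nonneg (h : fl L hΦ hε W t T) : 0 ≤ t := h.touch.nonneg

theorem fW_mono (hst : s ≤ t) : fW L hΦ hε W s ≤ fW L hΦ hε W t := by
  refine ENNReal.tsum_le_tsum fun T => ?_
  by_cases h : fl L hΦ hε W s T
  · rw [if_pos h, if_pos (h.mono hst)]
  · rw [if_neg h]; exact zero_le

theorem nW_mono (hst : s ≤ t) : nW L hΦ hε W s ≤ nW L hΦ hε W t :=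
  add_le_add (eW_mono hst) (fW_mono hst)

/-- The finite set of the trees of `W`. -/
def trs (L : ℕ) (W : Finset Src) : Finset CTree := (finite_depth W.finite_toSet L).toFinset

theorem mem_trs : T ∈ trs L W ↔ T.leaves ⊆ (W : Set Src) ∧ T.depth ≤ L := by
  unfold trs
  rw [Set.Finite.mem_toFinset]
  rfl

open Classical in
theorem fW_eq : fW L hΦ hε W t = ∑ T ∈ trs L W, if fl L hΦ hε W t T then
    ENNReal.ofReal (1 + ‖(ln Φ ε T).2‖) else 0 := by
  unfold fW
  rw [tsum_eq_sum]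
  intro T hT
  rw [if_neg]
  exact fun h => hT (mem_trs.2 ⟨h.sub, h.depth⟩)

theorem nW_of_neg (ht : t < 0) : nW L hΦ hε W t = 0 := by
  classical
  unfold nW
  have h1 : ex L hΦ hε W t = ∅ := by
    ext a
    simp only [mem_ex, Finset.notMem_empty, iff_false]
    exact fun h => absurd h.nonneg (not_le.2 ht)
  rw [eW, h1, Finset.sum_empty, zero_add, fW_eq]
  refine Finset.sum_eq_zero fun T _ => ?_
  rw [if_neg]
  exact fun h => absurd h.nonneg (not_le.2 ht)

theorem nW_lt_top : nW L hΦ hε W t < ∞ := by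
  classical
  unfold nW
  rw [fW_eq]
  refine ENNReal.add_lt_top.2 ⟨ENNReal.sum_lt_top.2 fun _ _ => ENNReal.ofReal_lt_top,
    ENNReal.sum_lt_top.2 fun T _ => ?_⟩
  split_ifs
  · exact ENNReal.ofReal_lt_top
  · exact ENNReal.zero_lt_top

/-- Sums over decreasing-closed events are right-constant. -/
theorem right_const {ι : Type*} (F : Finset ι) (B : ι → Set ℝ) (hB : ∀ i ∈ F, DClosed (B i))
    (hm : ∀ i ∈ F, ∀ s t, s ≤ t → s ∈ B i → t ∈ B i) (x : ℝ) :
    ∃ δ > 0, ∀ s, x ≤ s → s < x + δ → ∀ i ∈ F, (s ∈ B i ↔ x ∈ B i) := by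
  classical
  induction F using Finset.induction_on with
  | empty => exact ⟨1, one_pos, fun _ _ _ i hi => absurd hi (Finset.notMem_empty i)⟩
  | insert j F hj ih =>
    obtain ⟨δ, hδ, h1⟩ := ih (fun i hi => hB i (Finset.mem_insert_of_mem hi))
      (fun i hi => hm i (Finset.mem_insert_of_mem hi))
    by_cases hx : x ∈ B j
    · refine ⟨δ, hδ, fun s h2 h3 i hi => ?_⟩
      rcases Finset.mem_insert.1 hi with rfl | hi
      · exact iff_of_true (hm i (Finset.mem_insert_self i F) x s h2 hx) hx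
      · exact h1 s h2 h3 i hi
    · obtain ⟨δ', hδ', h4⟩ := right_of_dclosed (hB j (Finset.mem_insert_self j F)) hx
      refine ⟨min δ δ', lt_min hδ hδ', fun s h2 h3 i hi => ?_⟩
      rcases Finset.mem_insert.1 hi with rfl | hi
      · exact iff_of_false (h4 s h2 (h3.trans_le (by linarith [min_le_right δ δ']))) hx
      · exact h1 s h2 (h3.trans_le (by linarith [min_le_left δ δ'])) i hi

theorem dclosed_Ici (c : ℝ) : DClosed {t : ℝ | c ≤ t} := DClosed.of_isClosed isClosed_Ici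

theorem fl_closed (W : Finset Src) (T : CTree) : DClosed {t | fl L hΦ hε W t T} := by
  by_cases h : T.leaves ⊆ (W : Set Src) ∧ T.depth ≤ L ∧ M.alive Φ ε L (W : Set Src) T (ext Φ ε T) ∧
      ∀ s < ext Φ ε T, ¬(Y Φ ε L hΦ hε).Exp W T.root s
  · have e : {t | fl L hΦ hε W t T} = {t | ext Φ ε T ≤ t} ∩
        {t | (Y Φ ε L hΦ hε).Touch (rm W T) W t} := by
      ext t
      exact ⟨fun h' => ⟨h'.ext_le, h'.touch⟩, fun h' => ⟨h.1, h.2.1, h'.1, h.2.2.1, h.2.2.2, h'.2⟩⟩
    rw [e]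
    exact (dclosed_Ici _).inter (FB.Sys.touch_closed _ _)
  · have e : {t | fl L hΦ hε W t T} = ∅ := by
      ext t
      simp only [mem_ofPred_eq, mem_empty_iff_false, iff_false]
      exact fun h' => h ⟨h'.sub, h'.depth, h'.alive, h'.root⟩
    rw [e]
    exact DClosed.empty

/-- `nW` is right-constant. -/
theorem nW_right (W : Finset Src) (x : ℝ) :
    ∃ δ > 0, ∀ s, x ≤ s → s < x + δ → nW L hΦ hε W s = nW L hΦ hε W x := by
  classical
  obtain ⟨δ₁, h1, h2⟩ := right_const W (fun a => {t | (Y Φ ε L hΦ hε).Exp W a t})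
    (fun a _ => FB.Sys.exp_closed W a) (fun a _ s t hst h => FB.Sys.Exp.mono h hst) x
  obtain ⟨δ₂, h3, h4⟩ := right_const (trs L W) (fun T => {t | fl L hΦ hε W t T})
    (fun T _ => fl_closed W T) (fun T _ s t hst h => fl.mono h hst) x
  refine ⟨min δ₁ δ₂, lt_min h1 h3, fun s hs hs' => ?_⟩
  have k1 : s < x + δ₁ := hs'.trans_le (by linarith [min_le_left δ₁ δ₂])
  have k2 : s < x + δ₂ := hs'.trans_le (by linarith [min_le_right δ₁ δ₂])
  have e1 : ex L hΦ hε W s = ex L hΦ hε W x := by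
    ext a
    by_cases ha : a ∈ W
    · rw [mem_ex, mem_ex]
      exact h2 s hs k1 a ha
    · exact iff_of_false (fun h => ha (ex_subset h)) (fun h => ha (ex_subset h))
  unfold nW eW
  rw [e1, fW_eq, fW_eq]
  congr 1
  refine Finset.sum_congr rfl fun T hT => ?_
  have := h4 s hs k2 T hT
  simp only [mem_ofPred_eq] at this
  rw [if_congr this rfl rfl]

theorem nW_closed (W : Finset Src) (c : ℝ≥0∞) : DClosed {s | c ≤ nW L hΦ hε W s} := by
  intro x hx
  obtain ⟨δ, hδ, h1⟩ := nW_right (L := L) (hΦ := hΦ) (hε := hε) W x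
  obtain ⟨s, hs, h2, h3⟩ := hx δ hδ
  have h4 : c ≤ nW L hΦ hε W s := hs
  rw [h1 s h2 h3] at h4
  exact h4

/-! ### The stopping time -/

theorem thr_pos (hε : 0 < ε) (hη : 0 < η) : 0 < ENNReal.ofReal (η * mu ε) := by
  rw [ENNReal.ofReal_pos]
  exact mul_pos hη (GC.mu_pos hε)

theorem hz_set_lb (hη : 0 < η) (ht : 0 ≤ t) :
    ∀ s ∈ insert t {s | ENNReal.ofReal (η * mu ε) ≤ nW L hΦ hε W s}, 0 ≤ s := by
  rintro s (rfl | hs)
  · exact ht
  · by_contra hcon
    have h1 := nW_of_neg (L := L) (hΦ := hΦ) (hε := hε) (W := W) (not_le.1 hcon)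
    have h2 : ENNReal.ofReal (η * mu ε) ≤ nW L hΦ hε W s := hs
    rw [h1] at h2
    exact absurd h2 (not_le.2 (thr_pos hε hη))

theorem hz_le (hη : 0 < η) (ht : 0 ≤ t) : hz L hΦ hε η t W ≤ t :=
  csInf_le ⟨0, fun _ hs => hz_set_lb hη ht _ hs⟩ (mem_insert _ _)

theorem hz_nonneg (hη : 0 < η) (ht : 0 ≤ t) : 0 ≤ hz L hΦ hε η t W :=
  le_csInf ⟨t, mem_insert _ _⟩ fun _ hs => hz_set_lb hη ht _ hs

/-- Before the stopping time the threshold is not reached. -/
theorem nW_lt_of_lt_hz (hη : 0 < η) (ht : 0 ≤ t) (hs : s < hz L hΦ hε η t W) :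
    nW L hΦ hε W s < ENNReal.ofReal (η * mu ε) := by
  by_contra hcon
  have h1 : hz L hΦ hε η t W ≤ s :=
    csInf_le ⟨0, fun _ hs => hz_set_lb hη ht _ hs⟩ (Or.inr (not_lt.1 hcon))
  exact absurd hs (not_lt.2 h1)

theorem le_hz (hst : s ≤ t) (h : ∀ r < s, nW L hΦ hε W r < ENNReal.ofReal (η * mu ε)) :
    s ≤ hz L hΦ hε η t W := by
  refine le_csInf ⟨t, mem_insert _ _⟩ ?_
  rintro r (rfl | hr)
  · exact hst
  · by_contra hcon
    exact absurd hr (not_le.2 (h r (not_le.1 hcon)))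

/-- At the stopping time the threshold is reached (or it is the final time). -/
theorem hz_reached (hη : 0 < η) (ht : 0 ≤ t) : hz L hΦ hε η t W = t ∨
    ENNReal.ofReal (η * mu ε) ≤ nW L hΦ hε W (hz L hΦ hε η t W) := by
  have hc : DClosed (insert t {s | ENNReal.ofReal (η * mu ε) ≤ nW L hΦ hε W s}) := by
    have h1 : DClosed ({t} : Set ℝ) := DClosed.of_isClosed isClosed_singleton
    exact h1.union (nW_closed W _)
  obtain ⟨σ, h1, h2, h3⟩ := hc.first (fun s hs => hz_set_lb hη ht s hs) (mem_insert t _)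
  have h4 : hz L hΦ hε η t W = σ :=
    IsLeast.csInf_eq ⟨h2, fun s hs => not_lt.1 fun h => h3 s h hs⟩
  rw [h4]
  rcases h2 with h2 | h2
  · exact Or.inl h2
  · exact Or.inr h2

theorem hz_mono_left (hη : η ≤ η') (hη0 : 0 < η) (ht : 0 ≤ t) :
    hz L hΦ hε η t W ≤ hz L hΦ hε η' t W := by
  refine le_hz (hz_le hη0 ht) fun r hr => ?_
  refine (nW_lt_of_lt_hz hη0 ht hr).trans_le (ENNReal.ofReal_le_ofReal ?_)
  exact mul_le_mul_of_nonneg_right hη (GC.mu_pos hε).le

theorem hz_mono_right {t' : ℝ} (htt : t ≤ t') (hη0 : 0 < η) (ht : 0 ≤ t) :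
    hz L hΦ hε η t W ≤ hz L hΦ hε η t' W :=
  le_hz ((hz_le hη0 ht).trans htt) fun _ hr => nW_lt_of_lt_hz hη0 ht hr

/-- A time `s ≤ t` before which the threshold is not reached. -/
theorem le_hz_iff (hη : 0 < η) (ht : 0 ≤ t) : s ≤ hz L hΦ hε η t W ↔
    s ≤ t ∧ ∀ r < s, nW L hΦ hε W r < ENNReal.ofReal (η * mu ε) :=
  ⟨fun h => ⟨h.trans (hz_le hη ht), fun _ hr => nW_lt_of_lt_hz hη ht (hr.trans_le h)⟩,
    fun h => le_hz h.1 h.2⟩

/-- If the threshold is reached up to `t` then it is reached at the stopping time. -/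
theorem reached_of_le (hη : 0 < η) (ht : 0 ≤ t)
    (h : ENNReal.ofReal (η * mu ε) ≤ nW L hΦ hε W t) :
    ENNReal.ofReal (η * mu ε) ≤ nW L hΦ hε W (hz L hΦ hε η t W) := by
  rcases hz_reached (L := L) (hΦ := hΦ) (hε := hε) (W := W) hη ht with h1 | h1
  · rw [h1]; exact h
  · exact h1

/-! ### The expectations -/

variable (L hΦ hε)

open Classical in
/-- The indicator of a proposition. -/
def ind (p : Prop) : ℝ≥0∞ := if p then 1 else 0

/-- The source `σ` touches the ordinary world `U` before the stopping time of `U` (and within the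
time `w` after its birth). -/
def TT (η t w : ℝ) (U : Finset Src) (σ : Src) : Prop :=
  (Y Φ ε L hΦ hε).Touch U (insert σ U) (min (hz L hΦ hε η t U) (σ.1 + w))

/-- **First order**: the probability that the source `σ` touches. -/
def theta (f₀ : Ph → ℝ) (η t w : ℝ) (σ : Src) : ℝ≥0∞ :=
  ∫⁻ c, ind (TT L hΦ hε η t w (wS (GC.pts c)) σ) ∂(GC.PP f₀ ε)

/-- The expected exposed energy up to the stopping time (included), divided by `μ`. -/
def DD (f₀ : Ph → ℝ) (η t : ℝ) : ℝ≥0∞ :=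
  (FL.muE ε)⁻¹ * ∫⁻ c, eW L hΦ hε (wS (GC.pts c)) (hz L hΦ hε η t (wS (GC.pts c))) ∂(GC.PP f₀ ε)

/-- The expected number of felt trees up to the stopping time (included), divided by `μ`. -/
def FF (f₀ : Ph → ℝ) (η t : ℝ) : ℝ≥0∞ :=
  (FL.muE ε)⁻¹ * ∫⁻ c, fW L hΦ hε (wS (GC.pts c)) (hz L hΦ hε η t (wS (GC.pts c))) ∂(GC.PP f₀ ε)

/-- **Second events**: `e` touches `V` and `m` touches `V + e`, before the stopping time of
`V + e`. -/
def GG (η t : ℝ) (V : Finset Src) (e m : Src) : Prop :=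
  (Y Φ ε L hΦ hε).Touch V (insert e V) (hz L hΦ hε η t (insert e V)) ∧
    (Y Φ ε L hΦ hε).Touch (insert e V) (insert m (insert e V)) (hz L hΦ hε η t (insert e V))

end Vale.Agent.P119.PB
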