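import Vale.Agent.P119.ML.CrudeX
import Vale.Agent.P119.PB.Def
import Vale.Agent.P119.K1.Inst

/-!
# P119, block PROB: crude bounds of the exposed energy and of the felt trees (`helper758`)

`crude_eW_fW`: the expectations of `eW` and of `fW` at a deterministic time `t ≤ T₀` are at most
`μ M`, with `M` independent of `ε` and `t` (it depends on `L` and `T₀`); `crude_DD_FF`: the same for
`DD` and `FF`, for every threshold.
-/

open MeasureTheory Filter Topology Set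
open scoped ENNReal NNReal

noncomputable section

namespace Vale.Agent.P119.PB

open M CTree KU FB RB AU ML GC

variable {Φ : E3 → ℝ} {ε : ℝ} {L : ℕ} {hΦ : IsPotential Φ} {hε : 0 < ε}

/-! ### The sum over all trees -/

/-- A tree of `W`, of depth `≤ L`, which is over at the time `t`. -/
structure Ct (Φ : E3 → ℝ) (ε : ℝ) (L : ℕ) (W : Set Src) (t : ℝ) (T : CTree) : Prop where
  sub : T.leaves ⊆ W
  ok : T.ok Φ ε
  depth : T.depth ≤ L
  ext_le : ext Φ ε T ≤ t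

open Classical in
/-- The number of all trees with polynomial weights. -/
def cS (Φ : E3 → ℝ) (ε : ℝ) (L : ℕ) (W : Set Src) (t : ℝ) : ℝ≥0∞ :=
  ∑' T : CTree, if Ct Φ ε L W t T then pw 1 (ln Φ ε T).2 else 0

open Classical in
/-- An injective family of trees contributes at most `cS`. -/
theorem sum_le_cS {ι : Type*} {W : Set Src} {t : ℝ} (s : Finset ι) (g : ι → CTree)
    (hg : Set.InjOn g s) (h : ∀ c ∈ s, Ct Φ ε L W t (g c)) :
    ∑ c ∈ s, pw 1 (ln Φ ε (g c)).2 ≤ cS Φ ε L W t := by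
  have h1 : ∑ c ∈ s, pw 1 (ln Φ ε (g c)).2 =
      ∑ T ∈ s.image g, if Ct Φ ε L W t T then pw 1 (ln Φ ε T).2 else 0 := by
    rw [Finset.sum_image hg]
    refine Finset.sum_congr rfl fun c hc => ?_
    rw [if_pos (h c hc)]
  rw [h1]
  exact ENNReal.sum_le_tsum _

/-! ### The felt trees -/

theorem fW_le_cS {W : Finset Src} (t : ℝ) : fW L hΦ hε W t ≤ 2 * cS Φ ε L (W : Set Src) t := by
  classical
  unfold fW cS
  rw [← ENNReal.tsum_mul_left]
  refine ENNReal.tsum_le_tsum fun T => ?_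
  by_cases h : fl L hΦ hε W t T
  · have h1 : Ct Φ ε L (W : Set Src) t T := ⟨h.sub, (alive_pre h.alive).ok, h.depth, h.ext_le⟩
    rw [if_pos h, if_pos h1]
    exact one_add_norm_le_pw _
  · rw [if_neg h]; exact zero_le

/-! ### The exposed energy -/

theorem tau_le {W : Finset Src} {t : ℝ} {c : Src} (h : c ∈ ex L hΦ hε W t) :
    EN.tau (ex L hΦ hε W) c ≤ t := by
  unfold EN.tau
  exact csInf_le ⟨0, fun s hs => (mem_ex.1 hs).nonneg⟩ h

/-- What the weight of an exposed label is made of. -/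
theorem exists_trees (hΦ : IsPotential Φ) (hε : 0 < ε) {W : Finset Src} (hW : ∀ a ∈ W, 0 ≤ a.1)
    (hd : ∀ a ∈ W, a.2.2 ≤ L) {c : Src} (hc : c ∈ W) {t s : ℝ} (hs : s ≤ t) (hb : c.1 ≤ t) :
    ∃ T : CTree, T.root = c ∧ Ct Φ ε L (W : Set Src) t T ∧
      (ENNReal.ofReal (1 + EN.cw Φ ε (EN.ptree Φ ε L (W : Set Src) c s) s) ≤ pw 1 (ln Φ ε T).2 ∨
      ∃ y, lives Φ ε L (W : Set Src) (node y T) (sig Φ ε (node T y)) ∧
        Ct Φ ε L (W : Set Src) t y ∧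
        ENNReal.ofReal (1 + EN.cw Φ ε (EN.ptree Φ ε L (W : Set Src) c s) s) ≤
          pw 1 (ln Φ ε T).2 + pw 1 (ln Φ ε y).2) := by
  classical
  have hfin : (W : Set Src).Finite := W.finite_toSet
  have hleaf : Ct Φ ε L (W : Set Src) t (leaf c) :=
    ⟨fun x hx => by rw [show x = c from hx]; exact hc, hW c hc, hd c hc, hb⟩
  have hlw : ENNReal.ofReal (1 + EN.cw Φ ε (leaf c) s) ≤ pw 1 (ln Φ ε (leaf c)).2 := by
    unfold pw
    rw [pow_one]
    exact le_rfl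
  by_cases hex : ∃ T, EN.PS Φ ε L (W : Set Src) c s T
  · obtain ⟨T, hT⟩ := hex
    rw [EN.ptree_eq hΦ hε hfin hT]
    obtain ⟨hr, hl, hsg⟩ := hT
    cases T with
    | leaf σ =>
      have h1 : σ = c := hr
      subst h1
      exact ⟨leaf σ, rfl, hleaf, Or.inl hlw⟩
    | node x y =>
      have hlt : sig Φ ε (node x y) < s := by
        rcases hsg with h | h
        · cases h
        · exact h
      by_cases hs' : s < ext Φ ε (node x y)
      · have h1 : lives Φ ε L (W : Set Src) (node x y) (sig Φ ε (node x y)) :=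
          hl.lives_of_lt hlt le_rfl
        have h2 := lives_swap hΦ h1 (sig_lt_ext hΦ hε hl.ok)
        have hdx : x.depth ≤ L := (le_max_left x.depth y.depth).trans (Nat.le_of_succ_le hl.depth)
        have hdy : y.depth ≤ L := (le_max_right x.depth y.depth).trans (Nat.le_of_succ_le hl.depth)
        have hex : ext Φ ε x ≤ t := (hl.ok.2.2.2.2.2.1.le.trans hlt.le).trans hs
        have hey : ext Φ ε y ≤ t := (hl.ok.2.2.2.2.2.2.le.trans hlt.le).trans hs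
        refine ⟨x, hr, ⟨fun _ h => hl.sub (Or.inl h), hl.ok.1, hdx, hex⟩, Or.inr ⟨y, h2,
          ⟨fun _ h => hl.sub (Or.inr h), hl.ok.2.1, hdy, hey⟩, ?_⟩⟩
        rw [EN.cw_node_of_lt hs']
        unfold pw
        rw [← ENNReal.ofReal_add (by positivity) (by positivity)]
        apply ENNReal.ofReal_le_ofReal
        linarith
      · refine ⟨node x y, hr, ⟨hl.sub, hl.ok, hl.depth, (not_lt.1 hs').trans hs⟩, Or.inl ?_⟩
        rw [EN.cw_node, if_neg hs']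
        unfold pw
        rw [pow_one]
  · refine ⟨leaf c, rfl, hleaf, Or.inl ?_⟩
    unfold EN.ptree
    rw [dif_neg hex]
    exact hlw

theorem eW_le_cS (hΦ : IsPotential Φ) (hε : 0 < ε) {W : Finset Src} (hW : ∀ a ∈ W, 0 ≤ a.1)
    (hd : ∀ a ∈ W, a.2.2 ≤ L) (t : ℝ) : eW L hΦ hε W t ≤ 2 * cS Φ ε L (W : Set Src) t := by
  classical
  have hfin : (W : Set Src).Finite := W.finite_toSet
  have key : ∀ c : Src, ∃ T : CTree, c ∈ ex L hΦ hε W t → T.root = c ∧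
      Ct Φ ε L (W : Set Src) t T ∧
      (ENNReal.ofReal (1 + EN.wt Φ ε L W (ex L hΦ hε W) c) ≤ pw 1 (ln Φ ε T).2 ∨
      ∃ y, lives Φ ε L (W : Set Src) (node y T) (sig Φ ε (node T y)) ∧
        Ct Φ ε L (W : Set Src) t y ∧
        ENNReal.ofReal (1 + EN.wt Φ ε L W (ex L hΦ hε W) c) ≤
          pw 1 (ln Φ ε T).2 + pw 1 (ln Φ ε y).2) := by
    intro c
    by_cases hc : c ∈ ex L hΦ hε W t
    · obtain ⟨T, hT⟩ := exists_trees (L := L) hΦ hε hW hd (ex_subset hc) (tau_le hc)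
        (RB.exp_birth_le (mem_ex.1 hc))
      exact ⟨T, fun _ => hT⟩
    · exact ⟨leaf c, fun h => absurd h hc⟩
  choose g hg using key
  have key2 : ∀ c : Src, ∃ y : CTree, c ∈ ex L hΦ hε W t →
      ENNReal.ofReal (1 + EN.wt Φ ε L W (ex L hΦ hε W) c) ≤ pw 1 (ln Φ ε (g c)).2 ∨
      (lives Φ ε L (W : Set Src) (node y (g c)) (sig Φ ε (node (g c) y)) ∧
        Ct Φ ε L (W : Set Src) t y ∧
        ENNReal.ofReal (1 + EN.wt Φ ε L W (ex L hΦ hε W) c) ≤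
          pw 1 (ln Φ ε (g c)).2 + pw 1 (ln Φ ε y).2) := by
    intro c
    by_cases hc : c ∈ ex L hΦ hε W t
    · rcases (hg c hc).2.2 with h | ⟨y, h⟩
      · exact ⟨leaf c, fun _ => Or.inl h⟩
      · exact ⟨y, fun _ => Or.inr h⟩
    · exact ⟨leaf c, fun h => absurd h hc⟩
  choose k hk using key2
  set P : Src → Prop := fun c => lives Φ ε L (W : Set Src) (node (k c) (g c))
    (sig Φ ε (node (g c) (k c))) ∧ Ct Φ ε L (W : Set Src) t (k c) with hP
  have hgi : Set.InjOn g (ex L hΦ hε W t) := by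
    intro c hc c' hc' e
    rw [← (hg c hc).1, ← (hg c' hc').1, e]
  have hki : Set.InjOn k ((ex L hΦ hε W t).filter P) := by
    intro c hc c' hc' e
    have h1 := Finset.mem_filter.1 (Finset.mem_coe.1 hc)
    have h2 := Finset.mem_filter.1 (Finset.mem_coe.1 hc')
    have h3 := h1.2.1
    have h4 := h2.2.1.live
    rw [← e] at h4
    have h5 := lives_node_unique hΦ hε hfin h3 h4
    exact hgi h1.1 h2.1 h5
  have h1 : ∀ c ∈ ex L hΦ hε W t, ENNReal.ofReal (1 + EN.wt Φ ε L W (ex L hΦ hε W) c) ≤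
      pw 1 (ln Φ ε (g c)).2 + if P c then pw 1 (ln Φ ε (k c)).2 else 0 := by
    intro c hc
    rcases hk c hc with h | h
    · exact h.trans (le_add_right le_rfl)
    · rw [if_pos (show P c from ⟨h.1, h.2.1⟩)]
      exact h.2.2
  calc eW L hΦ hε W t ≤ ∑ c ∈ ex L hΦ hε W t,
        (pw 1 (ln Φ ε (g c)).2 + if P c then pw 1 (ln Φ ε (k c)).2 else 0) :=
        Finset.sum_le_sum h1
    _ = ∑ c ∈ ex L hΦ hε W t, pw 1 (ln Φ ε (g c)).2 +
        ∑ c ∈ (ex L hΦ hε W t).filter P, pw 1 (ln Φ ε (k c)).2 := by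
        rw [Finset.sum_add_distrib, Finset.sum_filter]
    _ ≤ cS Φ ε L (W : Set Src) t + cS Φ ε L (W : Set Src) t :=
        add_le_add (sum_le_cS _ g hgi fun c hc => (hg c hc).2.1)
          (sum_le_cS _ k hki fun c hc => (Finset.mem_filter.1 hc).2.2)
    _ = _ := by rw [two_mul]

/-! ### The expectation -/

open Classical in
theorem lintegral_cS_le (hΦ : IsPotential Φ) (hε : 0 < ε) {f₀ : Ph → ℝ} {κ : ℝ}
    (hg : GoodDatum f₀ κ) (L : ℕ) (t : ℝ) :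
    ∫⁻ c, cS Φ ε L (wS (pts c) : Set Src) t ∂(PP f₀ ε) ≤
      ∫⁻ T in {T | ok Φ ε T ∧ ext Φ ε T ≤ t}, pw 1 (ln Φ ε T).2 ∂(tree (inten f₀ ε) L) := by
  have hfin : IsFiniteMeasure (inten f₀ ε) := isFiniteMeasure_inten hg
  have hprob : IsProbabilityMeasure (PP f₀ ε) := isProbability_PP hg
  set A : Set CTree := {T | (ok Φ ε T ∧ ext Φ ε T ≤ t) ∧ T.depth ≤ L} with hA
  have hok : MeasurableSet {T | ok Φ ε T ∧ ext Φ ε T ≤ t} :=
    (measurableSet_ok hΦ hε.ne').inter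
      (measurableSet_le (measurable_ext hΦ hε.ne') measurable_const)
  have hAm : MeasurableSet A := hok.inter (M.measurable_depth measurableSet_Iic)
  have hpm : Measurable fun T : CTree => pw 1 (ln Φ ε T).2 :=
    (measurable_pw 1).comp (measurable_ln hΦ hε.ne').snd
  set F : CTree → Finset Ph → ℝ≥0∞ := fun T _ => A.indicator (fun T => pw 1 (ln Φ ε T).2) T with hF
  have hF0 : ∀ T w, F T w ≠ 0 → ok Φ ε T ∧ T.depth ≤ L := by
    intro T w h
    have h1 : T ∈ A := by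
      by_contra hcon
      exact h (indicator_of_notMem hcon _)
    exact ⟨h1.1.1, h1.2⟩
  have hFm : Measurable fun p : CTree × Conf Ph => F p.1 (pts p.2) :=
    (hpm.indicator hAm).comp measurable_fst
  have h1 := extract_le (ν := inten f₀ ε) (measurableSet_Cx ε) (Cx_symm ε) (Cx_irrefl hε.le) hF0 hFm
  have h2 : ∀ c : Conf Ph, cS Φ ε L (wS (pts c) : Set Src) t =
      ∑' T : CTree, if T.leaves ⊆ world (pts c : Set Ph) then F T (rem (pts c) T) else 0 := by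
    intro c
    unfold cS
    refine tsum_congr fun T => ?_
    rw [coe_wS]
    by_cases hc : Ct Φ ε L (world (pts c : Set Ph)) t T
    · rw [if_pos hc, if_pos hc.sub]
      have h3 : F T (rem (pts c) T) = pw 1 (ln Φ ε T).2 :=
        indicator_of_mem (show T ∈ A from ⟨⟨hc.ok, hc.ext_le⟩, hc.depth⟩) _
      exact h3.symm
    · rw [if_neg hc]
      split_ifs with h3
      · have h4 : F T (rem (pts c) T) = 0 :=
          indicator_of_notMem (fun h4 : T ∈ A => hc ⟨h3, h4.1.1, h4.2, h4.1.2⟩) _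
        exact h4.symm
      · rfl
  calc ∫⁻ c, cS Φ ε L (wS (pts c) : Set Src) t ∂(PP f₀ ε)
      = ∫⁻ c, ∑' T : CTree, (if T.leaves ⊆ world (pts c : Set Ph) then F T (rem (pts c) T) else 0)
        ∂(PP f₀ ε) := lintegral_congr h2
    _ ≤ ∫⁻ T, ∫⁻ c, F T (pts c) ∂(PP f₀ ε) ∂(tree (inten f₀ ε) L) := h1
    _ = ∫⁻ T, A.indicator (fun T => pw 1 (ln Φ ε T).2) T ∂(tree (inten f₀ ε) L) := by
        refine lintegral_congr fun T => ?_
        rw [hF]
        simp only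
        rw [lintegral_const, measure_univ, mul_one]
    _ ≤ ∫⁻ T, {T | ok Φ ε T ∧ ext Φ ε T ≤ t}.indicator (fun T => pw 1 (ln Φ ε T).2) T
        ∂(tree (inten f₀ ε) L) :=
        lintegral_mono fun T => indicator_le_indicator_of_subset (fun _ h => h.1)
          (fun _ => zero_le) T
    _ = _ := lintegral_indicator hok _

theorem crude_birth {w : Finset Ph} : ∀ a ∈ wS w, 0 ≤ a.1 := by
  intro a ha
  obtain ⟨z, -, rfl⟩ := mem_wS.1 ha
  exact le_rfl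

theorem crude_depth {w : Finset Ph} (L : ℕ) : ∀ a ∈ wS w, a.2.2 ≤ L := by
  intro a ha
  obtain ⟨z, -, rfl⟩ := mem_wS.1 ha
  exact Nat.zero_le L

theorem muE_inv_mul (hε : 0 < ε) (x : ℝ≥0∞) : (FL.muE ε)⁻¹ * (FL.muE ε * x) = x := by
  rw [← mul_assoc, ENNReal.inv_mul_cancel (muE_ne_zero hε) ENNReal.ofReal_ne_top, one_mul]

/-- **Crude bounds at deterministic times.** -/
theorem crude_eW_fW (hΦ : IsPotential Φ) {f₀ : Ph → ℝ} {κ b M₀ : ℝ} (hg : GoodDatum f₀ κ)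
    (hb : 0 < b) (hM : 0 ≤ M₀) (hf : ∀ z, f₀ z ≤ M₀ * Real.exp (-b * ‖z.2‖ ^ 2))
    (hx : ∀ v : E3, ∫⁻ x : E3, ENNReal.ofReal (f₀ (x, v)) ≤
      ENNReal.ofReal (M₀ * Real.exp (-b * ‖v‖ ^ 2))) (L : ℕ) {T₀ : ℝ} (hT : 0 ≤ T₀) :
    ∃ M : ℝ, 0 ≤ M ∧ ∀ (ε : ℝ) (hε : 0 < ε), ∀ t ≤ T₀,
      (FL.muE ε)⁻¹ * ∫⁻ c, eW L hΦ hε (wS (pts c)) t ∂(PP f₀ ε) ≤ ENNReal.ofReal M ∧
      (FL.muE ε)⁻¹ * ∫⁻ c, fW L hΦ hε (wS (pts c)) t ∂(PP f₀ ε) ≤ ENNReal.ofReal M := by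
  obtain ⟨C, hC, h⟩ := tree_poly_le hΦ hg hb hT hM hf
    (lintegral_pw_law_ne_top hg.meas hb hx) L 1
  refine ⟨(2 * C).toReal, ENNReal.toReal_nonneg, fun ε hε t ht => ?_⟩
  rw [ENNReal.ofReal_toReal (ENNReal.mul_ne_top ENNReal.ofNat_ne_top hC)]
  have h0 : ∀ c : Conf Ph, cS Φ ε L (wS (pts c) : Set Src) t ≤
      cS Φ ε L (wS (pts c) : Set Src) T₀ := by
    classical
    intro c
    unfold cS
    refine ENNReal.tsum_le_tsum fun T => ?_
    by_cases h1 : Ct Φ ε L (wS (pts c) : Set Src) t T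
    · rw [if_pos h1, if_pos (show Ct Φ ε L (wS (pts c) : Set Src) T₀ T from
        ⟨h1.sub, h1.ok, h1.depth, h1.ext_le.trans ht⟩)]
    · rw [if_neg h1]; exact zero_le
  have h1 : ∫⁻ c, cS Φ ε L (wS (pts c) : Set Src) t ∂(PP f₀ ε) ≤ FL.muE ε * C :=
    (lintegral_mono h0).trans ((lintegral_cS_le hΦ hε hg L T₀).trans (h ε hε))
  have h2 : ∀ G : Conf Ph → ℝ≥0∞, (∀ c, G c ≤ 2 * cS Φ ε L (wS (pts c) : Set Src) t) →
      (FL.muE ε)⁻¹ * ∫⁻ c, G c ∂(PP f₀ ε) ≤ 2 * C := by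
    intro G hG
    calc (FL.muE ε)⁻¹ * ∫⁻ c, G c ∂(PP f₀ ε)
        ≤ (FL.muE ε)⁻¹ * ∫⁻ c, 2 * cS Φ ε L (wS (pts c) : Set Src) t ∂(PP f₀ ε) := by
          gcongr with c
          exact hG c
      _ = (FL.muE ε)⁻¹ * (2 * ∫⁻ c, cS Φ ε L (wS (pts c) : Set Src) t ∂(PP f₀ ε)) := by
          rw [lintegral_const_mul' _ _ ENNReal.ofNat_ne_top]
      _ ≤ (FL.muE ε)⁻¹ * (2 * (FL.muE ε * C)) := by gcongr
      _ = (FL.muE ε)⁻¹ * (FL.muE ε * (2 * C)) := by ring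
      _ = 2 * C := muE_inv_mul hε _
  exact ⟨h2 _ fun c => eW_le_cS hΦ hε crude_birth (crude_depth L) t, h2 _ fun c => fW_le_cS t⟩

/-- **Crude bounds of `DD` and `FF`**, for every threshold. -/
theorem crude_DD_FF (hΦ : IsPotential Φ) {f₀ : Ph → ℝ} {κ b M₀ : ℝ} (hg : GoodDatum f₀ κ)
    (hb : 0 < b) (hM : 0 ≤ M₀) (hf : ∀ z, f₀ z ≤ M₀ * Real.exp (-b * ‖z.2‖ ^ 2))
    (hx : ∀ v : E3, ∫⁻ x : E3, ENNReal.ofReal (f₀ (x, v)) ≤
      ENNReal.ofReal (M₀ * Real.exp (-b * ‖v‖ ^ 2))) (L : ℕ) {T₀ : ℝ} (hT : 0 ≤ T₀) :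
    ∃ M : ℝ, 0 ≤ M ∧ ∀ (ε : ℝ) (hε : 0 < ε), ∀ η > 0, ∀ t ∈ Icc 0 T₀,
      DD L hΦ hε f₀ η t ≤ ENNReal.ofReal M ∧ FF L hΦ hε f₀ η t ≤ ENNReal.ofReal M := by
  obtain ⟨M, hM0, h⟩ := crude_eW_fW hΦ hg hb hM hf hx L hT
  refine ⟨M, hM0, fun ε hε η hη t ht => ?_⟩
  obtain ⟨h1, h2⟩ := h ε hε t ht.2
  refine ⟨le_trans ?_ h1, le_trans ?_ h2⟩
  · unfold DD
    gcongr with c
    exact eW_mono (hz_le hη ht.1)
  · unfold FF
    gcongr with c
    exact fW_mono (hz_le hη ht.1)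

end Vale.Agent.P119.PB
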