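import Vale.Agent.P119.PB.AllT
import Vale.Agent.P119.RM.Def
import Vale.Agent.P119.GC.Cmp

/-!
# P119, block PROB: crude bound of the touch probability (`helper185`)

* `sum_tup_one`, `lintegral_EW_le`: first moment of the energy of the gas;
* `Nm_thL_crude`: the norm of the (truncated) touch probability is bounded, uniformly in the scale,
  in the depth `L`, in the stopping level, in the time and in the window.
-/

open MeasureTheory Set Filter Topology Metric ProbabilityTheory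
open scoped ENNReal

namespace Vale.Agent.P119.PB

open M CTree KU FB RB AU FL EN

variable {Φ : E3 → ℝ} {ε : ℝ} {L : ℕ}

/-! ### The energy of the gas -/

theorem sum_tup_one {α M : Type*} [AddCommMonoid M] (w : Finset α) (g : α → M) :
    ∑ z ∈ GC.tup 1 w, g (z 0) = ∑ z ∈ w, g z := by
  refine Finset.sum_bij (fun z _ => z 0) (fun z hz => (GC.mem_tup.1 hz).1 0) (fun z _ z' _ h => ?_)
    (fun z hz => ⟨fun _ => z, GC.mem_tup.2 ⟨fun _ => hz, Function.injective_of_subsingleton _⟩,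
      rfl⟩) (fun z _ => rfl)
  funext i
  rw [Subsingleton.elim i 0]
  exact h

theorem EW_wS (w : Finset Ph) : EW (wS w) = ∑ z ∈ w, (1 + ‖z.2‖ ^ 2) := by
  unfold EW wS
  rw [Finset.sum_map]
  rfl

/-- The second moment of the velocities. -/
noncomputable def m2 (f₀ : Ph → ℝ) : ℝ≥0∞ := ∫⁻ z, ENNReal.ofReal (1 + ‖z.2‖ ^ 2) ∂(law f₀)

theorem lintegral_EW_le {f₀ : Ph → ℝ} {κ : ℝ} (hg : GoodDatum f₀ κ) (hε : 0 ≤ ε) :
    ∫⁻ c, ENNReal.ofReal (EW (wS (GC.pts c))) ∂(GC.PP f₀ ε) ≤ muE ε * m2 f₀ := by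
  have hm : Measurable fun z : Ph => ENNReal.ofReal (1 + ‖z.2‖ ^ 2) := by fun_prop
  have h1 := GC.lintegral_sum_one_le (ε := ε) hg hε hm
  have h2 : ∀ c : GC.Conf Ph, ENNReal.ofReal (EW (wS (GC.pts c))) =
      ∑ z ∈ GC.tup 1 (GC.pts c), ENNReal.ofReal (1 + ‖(z 0).2‖ ^ 2) := by
    intro c
    rw [sum_tup_one (GC.pts c) fun z : Ph => ENNReal.ofReal (1 + ‖z.2‖ ^ 2), EW_wS,
      ENNReal.ofReal_sum_of_nonneg]
    intro z _
    positivity
  simp only [h2]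
  refine h1.trans (le_of_eq ?_)
  unfold GC.inten m2 muE
  rw [lintegral_smul_measure, smul_eq_mul]

/-! ### The touch probability -/

/-- A touching source hits a path. -/
theorem TT.hits {hΦ : IsPotential Φ} {hε : 0 < ε} {W : Finset Src} (h0 : ∀ a ∈ W, a.1 = 0)
    {η t w : ℝ} (hη : 0 < η) (ht : 0 ≤ t) {σ : Src} (hσ : 0 ≤ σ.1) (hd : σ.2.2 ≤ L)
    (h : TT L hΦ hε η t w W σ) :
    ∃ r, σ.1 ≤ r ∧ r ≤ t ∧ ∃ c ∈ W, Hits Φ ε L W c r (KU.free r σ.2.1) := by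
  classical
  have hσW : σ ∉ W := by
    intro hmem
    unfold TT at h
    have h1 : insert σ W = W := Finset.insert_eq_of_mem hmem
    rw [h1] at h
    obtain ⟨a, ha, -⟩ := h
    rw [FB.Sys.D_self] at ha
    exact ha
  obtain ⟨r, h1, h2, h3⟩ := hits_of_touch (fun a ha => (h0 a ha).ge) hσW hσ hd h
  exact ⟨r, h2, (h1.trans (min_le_left _ _)).trans (hz_le hη ht), h3⟩

/-- The truncated indicator of touching. -/
theorem measurable_touchInd (hΦ : IsPotential Φ) (hε : 0 < ε) (L : ℕ) (η t w : ℝ) :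
    Measurable fun p : Src × GC.Conf Ph =>
      if p.1.2.2 ≤ L then ind (TT L hΦ hε η t w (wS (GC.pts p.2)) p.1) else 0 := by
  refine Measurable.ite ?_ ?_ measurable_const
  · have h1 : Measurable fun p : Src × GC.Conf Ph => p.1.2.2 := by fun_prop
    exact measurableSet_le h1 measurable_const
  · exact RM.measurable_ind (RM.measurableSet_TT (RM.rs_wS measurable_snd) measurable_const
      measurable_const measurable_const measurable_fst)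

/-- The bound of the spatial integral, for a fixed world. -/
noncomputable def crG (B b T ε : ℝ) (W : Finset Src) : ℝ≥0∞ :=
  ENNReal.ofReal (ε ^ 2) * (Cd b * (2 * (ENNReal.ofReal ε + ENNReal.ofReal T) *
    ENNReal.ofReal ((2 + 2 * B) * EW W)))

theorem touch_flux (hΦ : IsPotential Φ) {B : ℝ} (hB : RW.StableWith Φ B) (hε : 0 < ε)
    {W : Finset Src} (h0 : ∀ a ∈ W, a.1 = 0)
    (hexcl : ∀ a ∈ W, ∀ a' ∈ W, a ≠ a' → ε ≤ ‖a.2.1.1 - a'.2.1.1‖)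
    {b T η t w s : ℝ} (hb : 0 < b) (hη : 0 < η) (hs : s ∈ Icc 0 t) (htT : t ≤ T) (n : ℕ) :
    ∫⁻ z : Ph, gw b z.2 * (if n ≤ L then ind (TT L hΦ hε η t w W (s, z, n)) else 0) ≤
      crG B b T ε W := by
  refine le_trans ?_ ((all_flux (L := L) (h := t) hΦ hB hε h0 hexcl hb hs.1).trans ?_)
  · refine lintegral_mono fun z => mul_le_mul_right ?_ _
    split_ifs with h1
    · unfold ind
      split_ifs with h2 h3
      · exact le_rfl
      · exact absurd (h2.hits h0 hη (hs.1.trans hs.2) hs.1 h1) h3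
      · exact zero_le
      · exact le_rfl
    · exact zero_le
  · unfold crG
    have h1 : ENNReal.ofReal (t - s) ≤ ENNReal.ofReal T :=
      ENNReal.ofReal_le_ofReal (by linarith [hs.1])
    gcongr

theorem lintegral_crG_le {f₀ : Ph → ℝ} {κ : ℝ} (hg : GoodDatum f₀ κ) (hε : 0 < ε) (hε1 : ε ≤ 1)
    {B b T : ℝ} (hB : 0 ≤ B) :
    ∫⁻ c, crG B b T ε (wS (GC.pts c)) ∂(GC.PP f₀ ε) ≤
      Cd b * (2 * (1 + ENNReal.ofReal T) * ENNReal.ofReal (2 + 2 * B)) * m2 f₀ := by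
  obtain ⟨X, hX⟩ : ∃ X : ℝ≥0∞, X = ENNReal.ofReal (ε ^ 2) * (Cd b *
      (2 * (ENNReal.ofReal ε + ENNReal.ofReal T) * ENNReal.ofReal (2 + 2 * B))) := ⟨_, rfl⟩
  have h1 : ∀ c : GC.Conf Ph, crG B b T ε (wS (GC.pts c)) =
      X * ENNReal.ofReal (EW (wS (GC.pts c))) := by
    intro c
    unfold crG
    rw [ENNReal.ofReal_mul (by positivity), hX]
    ring
  simp only [h1]
  have hXt : X ≠ ∞ := by
    rw [hX]
    exact ENNReal.mul_ne_top ENNReal.ofReal_ne_top (ENNReal.mul_ne_top (Cd_ne_top b)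
      (ENNReal.mul_ne_top (ENNReal.mul_ne_top (by norm_num)
        (ENNReal.add_ne_top.2 ⟨ENNReal.ofReal_ne_top, ENNReal.ofReal_ne_top⟩))
        ENNReal.ofReal_ne_top))
  rw [lintegral_const_mul' _ _ hXt]
  have h2 := lintegral_EW_le (ε := ε) hg hε.le
  have h3 : ENNReal.ofReal ε ≤ 1 := by
    rw [← ENNReal.ofReal_one]
    exact ENNReal.ofReal_le_ofReal hε1
  calc X * ∫⁻ c, ENNReal.ofReal (EW (wS (GC.pts c))) ∂(GC.PP f₀ ε)
      ≤ X * (muE ε * m2 f₀) := by gcongr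
    _ = (muE ε * ENNReal.ofReal (ε ^ 2)) * (Cd b * (2 * (ENNReal.ofReal ε + ENNReal.ofReal T) *
          ENNReal.ofReal (2 + 2 * B)) * m2 f₀) := by rw [hX]; ring
    _ = Cd b * (2 * (ENNReal.ofReal ε + ENNReal.ofReal T) *
          ENNReal.ofReal (2 + 2 * B)) * m2 f₀ := by rw [muE_mul hε, one_mul]
    _ ≤ _ := by gcongr

/-- **Crude bound of the touch probability.** -/
theorem Nm_thL_le (hΦ : IsPotential Φ) {B : ℝ} (hB : RW.StableWith Φ B) (hε : 0 < ε)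
    (hε1 : ε ≤ 1) {f₀ : Ph → ℝ} {κ : ℝ} (hg : GoodDatum f₀ κ) {b T l₁ l₂ Bw : ℝ} {a : ℕ → ℝ}
    (hb : 0 < b) (hT : 0 < T) {t : ℝ} (htT : t ≤ T)
    (hBw : ∀ s ∈ Icc 0 t, ∀ n, wgt l₁ l₂ a s n ≤ Bw) {η : ℝ} (hη : 0 < η) (w : ℝ) :
    Nm b T l₁ l₂ a t (thL L hΦ hε f₀ η t w) ≤ ENNReal.ofReal Bw *
      (Cd (b / 2) * (2 * (1 + ENNReal.ofReal T) * ENNReal.ofReal (2 + 2 * B)) * m2 f₀) := by
  classical
  have hP := GC.isProbability_PP (ε := ε) hg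
  have h1 : thL L hΦ hε f₀ η t w = fun σ => ∫⁻ c,
      (if σ.2.2 ≤ L then ind (TT L hΦ hε η t w (wS (GC.pts c)) σ) else 0) ∂(GC.PP f₀ ε) := by
    funext σ
    unfold thL theta
    split_ifs
    · rfl
    · rw [lintegral_zero]
  rw [h1]
  refine Nm_quench_le (P := GC.PP f₀ ε) (g := fun p : Src × GC.Conf Ph =>
      if p.1.2.2 ≤ L then ind (TT L hΦ hε η t w (wS (GC.pts p.2)) p.1) else 0)
    (G := fun _ c => crG B (b / 2) T ε (wS (GC.pts c)))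
    hb hT htT hBw (measurable_touchInd hΦ hε L η t w) ?_
    (fun s _ => lintegral_crG_le (b := b / 2) (T := T) hg hε hε1 hB.1)
  intro s hs n
  filter_upwards [GC.ae_excl f₀ ε] with c hc
  change ∫⁻ z : Ph, gw (b / 2) z.2 * (if n ≤ L then
    ind (TT L hΦ hε η t w (wS (GC.pts c)) (s, z, n)) else 0) ≤ _
  refine touch_flux hΦ hB hε ?_ ?_ (half_pos hb) hη hs htT n
  · intro a ha
    obtain ⟨z, -, rfl⟩ := mem_wS.1 ha
    rfl
  · intro a ha a' ha' hne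
    obtain ⟨z, hz, rfl⟩ := mem_wS.1 ha
    obtain ⟨z', hz', rfl⟩ := mem_wS.1 ha'
    obtain ⟨i, rfl⟩ := GC.mem_pts.1 hz
    obtain ⟨j, rfl⟩ := GC.mem_pts.1 hz'
    have hij : i ≠ j := fun h => hne (by rw [h])
    exact le_of_lt (hc i j hij)

/-- **Crude bound of the touch probability**, uniform in the scale, the depth, the stopping level,
the time and the window. -/
theorem Nm_thL_crude (hΦ : IsPotential Φ) {B : ℝ} (hB : RW.StableWith Φ B) {f₀ : Ph → ℝ} {κ : ℝ}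
    (hg : GoodDatum f₀ κ) (hm : m2 f₀ < ∞) {b T l₁ l₂ Q : ℝ} {α a : ℕ → ℝ} (hw : Wts α a Q)
    (h₁ : 0 ≤ l₁) (h₂ : 0 ≤ l₂) (hb : 0 < b) (hT : 0 < T) :
    ∃ Mb : ℝ, 0 ≤ Mb ∧ ∀ (L : ℕ) (ε : ℝ) (hε : 0 < ε), ε ≤ 1 → ∀ η : ℝ, 0 < η → ∀ t ∈ Icc 0 T,
      ∀ w : ℝ, Nm b T l₁ l₂ a t (thL L hΦ hε f₀ η t w) ≤ ENNReal.ofReal Mb := by
  obtain ⟨Bw, hBw0, hBw⟩ := exists_wgt_le hw h₁ h₂ (T := T)
  have hfin : ENNReal.ofReal Bw * (Cd (b / 2) * (2 * (1 + ENNReal.ofReal T) *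
      ENNReal.ofReal (2 + 2 * B)) * m2 f₀) ≠ ∞ :=
    ENNReal.mul_ne_top ENNReal.ofReal_ne_top (ENNReal.mul_ne_top (ENNReal.mul_ne_top (Cd_ne_top _)
      (ENNReal.mul_ne_top (ENNReal.mul_ne_top (by norm_num)
        (ENNReal.add_ne_top.2 ⟨ENNReal.one_ne_top, ENNReal.ofReal_ne_top⟩))
        ENNReal.ofReal_ne_top)) hm.ne)
  refine ⟨(ENNReal.ofReal Bw * (Cd (b / 2) * (2 * (1 + ENNReal.ofReal T) *
      ENNReal.ofReal (2 + 2 * B)) * m2 f₀)).toReal, ENNReal.toReal_nonneg,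
    fun L ε hε hε1 η hη t ht w => ?_⟩
  rw [ENNReal.ofReal_toReal hfin]
  exact Nm_thL_le hΦ hB hε hε1 hg hb hT ht.2 (fun s hs n => hBw s ⟨hs.1, hs.2.trans ht.2⟩ n) hη w

/-- The second moment is finite if the velocity marginal is bounded by a Gaussian. -/
theorem m2_lt_top {f₀ : Ph → ℝ} {κ : ℝ} (hg : GoodDatum f₀ κ) {M₀ b : ℝ} (hM : 0 ≤ M₀)
    (hb : 0 < b)
    (h : ∀ v, ∫⁻ x, ENNReal.ofReal (f₀ (x, v)) ≤ ENNReal.ofReal (M₀ * Real.exp (-b * ‖v‖ ^ 2))) :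
    m2 f₀ < ∞ := by
  have hmf : Measurable fun z : Ph => ENNReal.ofReal (f₀ z) := hg.meas.ennreal_ofReal
  have hmv : Measurable fun z : Ph => ENNReal.ofReal (1 + ‖z.2‖ ^ 2) := by fun_prop
  have h1 : m2 f₀ = ∫⁻ z : Ph, ENNReal.ofReal (f₀ z) * ENNReal.ofReal (1 + ‖z.2‖ ^ 2) := by
    unfold m2 law
    rw [lintegral_withDensity_eq_lintegral_mul _ hmf hmv]
    rfl
  have h0 : ∫⁻ z : Ph, ENNReal.ofReal (f₀ z) * ENNReal.ofReal (1 + ‖z.2‖ ^ 2) =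
      ∫⁻ v : E3, ∫⁻ x : E3, ENNReal.ofReal (f₀ (x, v)) * ENNReal.ofReal (1 + ‖v‖ ^ 2) :=
    lintegral_prod_symm' (μ := (volume : Measure E3)) (ν := (volume : Measure E3))
      (fun z : E3 × E3 => ENNReal.ofReal (f₀ z) * ENNReal.ofReal (1 + ‖z.2‖ ^ 2)) (hmf.mul hmv)
  rw [h1, h0]
  have h2 : ∀ v : E3, ∫⁻ x : E3, ENNReal.ofReal (f₀ (x, v)) * ENNReal.ofReal (1 + ‖v‖ ^ 2) ≤
      ENNReal.ofReal (M₀ * (1 + ‖v‖ ^ 2) * Real.exp (-b * ‖v‖ ^ 2)) := by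
    intro v
    rw [lintegral_mul_const' _ _ ENNReal.ofReal_ne_top]
    calc (∫⁻ x, ENNReal.ofReal (f₀ (x, v))) * ENNReal.ofReal (1 + ‖v‖ ^ 2)
        ≤ ENNReal.ofReal (M₀ * Real.exp (-b * ‖v‖ ^ 2)) * ENNReal.ofReal (1 + ‖v‖ ^ 2) := by
          gcongr
          exact h v
      _ = _ := by
          rw [← ENNReal.ofReal_mul (by positivity)]
          congr 1
          ring
  have h3 : ∀ v : E3, M₀ * (1 + ‖v‖ ^ 2) * Real.exp (-b * ‖v‖ ^ 2) ≤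
      M₀ * (1 + 2 / b) * Real.exp (-(b / 2) * ‖v‖ ^ 2) := by
    intro v
    have h4 : (1 + ‖v‖ ^ 2) * Real.exp (-(b / 2) * ‖v‖ ^ 2) ≤ 1 + 2 / b := by
      have h5 : 1 + (b / 2) * ‖v‖ ^ 2 ≤ Real.exp ((b / 2) * ‖v‖ ^ 2) := by
        have := Real.add_one_le_exp ((b / 2) * ‖v‖ ^ 2)
        linarith
      have h6 : 0 < Real.exp ((b / 2) * ‖v‖ ^ 2) := Real.exp_pos _
      rw [neg_mul, Real.exp_neg, ← div_eq_mul_inv, div_le_iff₀ h6]
      have h7 : 1 + ‖v‖ ^ 2 ≤ (1 + 2 / b) * (1 + (b / 2) * ‖v‖ ^ 2) := by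
        have h8 : (1 + 2 / b) * (1 + (b / 2) * ‖v‖ ^ 2) =
            1 + ‖v‖ ^ 2 + (2 / b + b / 2 * ‖v‖ ^ 2) := by
          field_simp
          ring
        rw [h8]
        have : 0 ≤ 2 / b + b / 2 * ‖v‖ ^ 2 := by positivity
        linarith
      exact h7.trans (mul_le_mul_of_nonneg_left h5 (by positivity))
    have h9 : Real.exp (-b * ‖v‖ ^ 2) =
        Real.exp (-(b / 2) * ‖v‖ ^ 2) * Real.exp (-(b / 2) * ‖v‖ ^ 2) := by
      rw [← Real.exp_add]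
      congr 1
      ring
    rw [h9]
    calc M₀ * (1 + ‖v‖ ^ 2) * (Real.exp (-(b / 2) * ‖v‖ ^ 2) * Real.exp (-(b / 2) * ‖v‖ ^ 2))
        = M₀ * ((1 + ‖v‖ ^ 2) * Real.exp (-(b / 2) * ‖v‖ ^ 2)) *
            Real.exp (-(b / 2) * ‖v‖ ^ 2) := by ring
      _ ≤ _ := by gcongr
  refine ((lintegral_mono h2).trans (lintegral_mono fun v =>
    ENNReal.ofReal_le_ofReal (h3 v))).trans_lt ?_
  exact ((integrable_gauss (half_pos hb)).const_mul _).lintegral_lt_top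

end Vale.Agent.P119.PB
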