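import Vale.Agent.P119.AU.Mono
import Vale.Agent.P119.PB.CrudeTheta
import Vale.Agent.P119.PB.CrudeDF
import Vale.Agent.P119.KE.Depth

/-!
# P119, block PROB: the instance of `AU.RawSys` (`helper185`)

The five inequalities P3, P8, P9, P10, P11 of the feedback block, each with its own constants, imply
`RawSys` with common constants, hence `PathENN`.

* `Cst C K cr`: the conditions on the constants;
* `In3`, `In8`, `In9`, `In10`, `In11`: the inequalities (the fields of `RawSys`); they are monotone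
  in the constants;
* `exists_rawSys`: all the fields of `RawSys` for `D = dD`, `Θ = dTh .. T`, `F = dF`,
  `W L δ = dTh .. δ L` and a monotone `SE`;
* `pathENN_of_in`: the conclusion.
-/

open MeasureTheory Filter Topology Set
open scoped ENNReal NNReal

noncomputable section

namespace Vale.Agent.P119.PB

open M RB AU

/-- The conditions on the constants. -/
structure Cst (C K : ℝ) (cr : ℕ → ℝ) : Prop where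
  C0 : 0 ≤ C
  K1 : 1 ≤ K
  cr0 : ∀ L, 0 ≤ cr L
  sup : KE.SuperExp cr

/-- P3 (felt trees). -/
def In3 (T C K : ℝ) (cr : ℕ → ℝ) (Θ F SE : ℕ → ℝ → ℝ → ℝ → ℝ≥0∞) : Prop :=
  ∀ᶠ L in atTop, ∀ η η' : ℝ, 0 < η → η < η' → η' ≤ 1 → ∀ ρ : ℝ, 0 < ρ →
    ∀ᶠ ε in 𝓝[>] (0 : ℝ), ∀ t ∈ Icc 0 T, F L η ε t ≤ ENNReal.ofReal (K ^ L * cr L + ρ) +
      ENNReal.ofReal C * Θ L η' ε t + ENNReal.ofReal (K ^ L) * SE L η' ε t

/-- P9 (contamination). -/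
def In9 (T C K : ℝ) (cr : ℕ → ℝ) (D Θ SE : ℕ → ℝ → ℝ → ℝ → ℝ≥0∞) : Prop :=
  ∀ᶠ L in atTop, ∀ η η' : ℝ, 0 < η → η < η' → η' ≤ 1 → ∀ ρ : ℝ, 0 < ρ →
    ∀ᶠ ε in 𝓝[>] (0 : ℝ), ∀ t ∈ Icc 0 T, D L η ε t ≤ ENNReal.ofReal (K ^ L * cr L + ρ) +
      ENNReal.ofReal C * (∫⁻ s in Icc 0 t, (D L η' ε s + Θ L η' ε s)) +
      ENNReal.ofReal (K ^ L) * SE L η' ε t

/-- P11 (touch probability). -/
def In11 (T C K : ℝ) (cr : ℕ → ℝ) (D Θ F SE : ℕ → ℝ → ℝ → ℝ → ℝ≥0∞) : Prop :=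
  ∀ᶠ L in atTop, ∀ η η' : ℝ, 0 < η → η < η' → η' ≤ 1 → ∀ ρ : ℝ, 0 < ρ →
    ∀ᶠ ε in 𝓝[>] (0 : ℝ), ∀ t ∈ Icc 0 T, Θ L η ε t ≤ ENNReal.ofReal (K ^ L * cr L + ρ) +
      ENNReal.ofReal C * (∫⁻ s in Icc 0 t, (D L η' ε s + F L η' ε s)) +
      ENNReal.ofReal (K ^ L) * SE L η' ε t + ENNReal.ofReal (1 / 2) * Θ L η' ε t

/-- P8 (second events). -/
def In8 (T K : ℝ) (p : ℕ) (cr : ℕ → ℝ) (D Θ F SE : ℕ → ℝ → ℝ → ℝ → ℝ≥0∞)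
    (W : ℕ → ℝ → ℝ → ℝ → ℝ → ℝ≥0∞) : Prop :=
  ∀ᶠ L in atTop, ∀ δ ∈ Ioc (0 : ℝ) 1, ∀ η η' : ℝ, 0 < η → η < η' → η' ≤ 1 →
    ∀ ρ : ℝ, 0 < ρ → ∀ᶠ ε in 𝓝[>] (0 : ℝ), ∀ t ∈ Icc 0 T,
      SE L η ε t ≤ ENNReal.ofReal (K ^ L * cr L + ρ) +
        ENNReal.ofReal (K ^ L * (η' / δ ^ p + δ)) *
          (D L η' ε t + Θ L η' ε t + F L η' ε t) +
        ENNReal.ofReal (K ^ L) * W L δ η' ε t

/-- P10 (window). -/
def In10 (T K : ℝ) (cr : ℕ → ℝ) (D Θ F : ℕ → ℝ → ℝ → ℝ → ℝ≥0∞)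
    (W : ℕ → ℝ → ℝ → ℝ → ℝ → ℝ≥0∞) : Prop :=
  ∀ᶠ L in atTop, ∀ δ ∈ Ioc (0 : ℝ) 1, ∀ η η' : ℝ, 0 < η → η < η' → η' ≤ 1 →
    ∀ ρ : ℝ, 0 < ρ → ∀ᶠ ε in 𝓝[>] (0 : ℝ), ∀ t ∈ Icc 0 T,
      W L δ η ε t ≤ ENNReal.ofReal (K ^ L * cr L + ρ) +
        ENNReal.ofReal (K ^ L * δ) * (D L η' ε t + Θ L η' ε t + F L η' ε t) +
        ENNReal.ofReal (1 / 2) * W L δ η' ε t

section mono

variable {T C C' K K' : ℝ} {p : ℕ} {cr cr' : ℕ → ℝ} {D Θ F SE : ℕ → ℝ → ℝ → ℝ → ℝ≥0∞}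
  {W : ℕ → ℝ → ℝ → ℝ → ℝ → ℝ≥0∞}

theorem kc_le (hK0 : 0 ≤ K) (hK : K ≤ K') (h0 : ∀ L, 0 ≤ cr L) (hcr : ∀ L, cr L ≤ cr' L)
    (L : ℕ) (ρ : ℝ) : ENNReal.ofReal (K ^ L * cr L + ρ) ≤ ENNReal.ofReal (K' ^ L * cr' L + ρ) := by
  refine ENNReal.ofReal_le_ofReal (add_le_add_left ?_ _)
  exact mul_le_mul (pow_le_pow_left₀ hK0 hK L) (hcr L) (h0 L)
    (pow_nonneg (hK0.trans hK) L)

theorem kp_le (hK0 : 0 ≤ K) (hK : K ≤ K') (L : ℕ) :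
    ENNReal.ofReal (K ^ L) ≤ ENNReal.ofReal (K' ^ L) :=
  ENNReal.ofReal_le_ofReal (pow_le_pow_left₀ hK0 hK L)

theorem In3.mono (h : In3 T C K cr Θ F SE) (hC : C ≤ C') (hK0 : 0 ≤ K) (hK : K ≤ K')
    (h0 : ∀ L, 0 ≤ cr L) (hcr : ∀ L, cr L ≤ cr' L) : In3 T C' K' cr' Θ F SE := by
  filter_upwards [h] with L h η η' h1 h2 h3 ρ hρ
  filter_upwards [h η η' h1 h2 h3 ρ hρ] with ε h t ht
  refine (h t ht).trans (add_le_add (add_le_add (kc_le hK0 hK h0 hcr L ρ) ?_) ?_)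
  · exact mul_le_mul_left (ENNReal.ofReal_le_ofReal hC) _
  · exact mul_le_mul_left (kp_le hK0 hK L) _

theorem In9.mono (h : In9 T C K cr D Θ SE) (hC : C ≤ C') (hK0 : 0 ≤ K) (hK : K ≤ K')
    (h0 : ∀ L, 0 ≤ cr L) (hcr : ∀ L, cr L ≤ cr' L) : In9 T C' K' cr' D Θ SE := by
  filter_upwards [h] with L h η η' h1 h2 h3 ρ hρ
  filter_upwards [h η η' h1 h2 h3 ρ hρ] with ε h t ht
  refine (h t ht).trans (add_le_add (add_le_add (kc_le hK0 hK h0 hcr L ρ) ?_) ?_)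
  · exact mul_le_mul_left (ENNReal.ofReal_le_ofReal hC) _
  · exact mul_le_mul_left (kp_le hK0 hK L) _

theorem In11.mono (h : In11 T C K cr D Θ F SE) (hC : C ≤ C') (hK0 : 0 ≤ K) (hK : K ≤ K')
    (h0 : ∀ L, 0 ≤ cr L) (hcr : ∀ L, cr L ≤ cr' L) : In11 T C' K' cr' D Θ F SE := by
  filter_upwards [h] with L h η η' h1 h2 h3 ρ hρ
  filter_upwards [h η η' h1 h2 h3 ρ hρ] with ε h t ht
  refine (h t ht).trans (add_le_add (add_le_add (add_le_add (kc_le hK0 hK h0 hcr L ρ) ?_) ?_)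
    le_rfl)
  · exact mul_le_mul_left (ENNReal.ofReal_le_ofReal hC) _
  · exact mul_le_mul_left (kp_le hK0 hK L) _

theorem In8.mono (h : In8 T K p cr D Θ F SE W) {p' : ℕ} (hp : p ≤ p') (hK0 : 0 ≤ K)
    (hK : K ≤ K') (h0 : ∀ L, 0 ≤ cr L) (hcr : ∀ L, cr L ≤ cr' L) :
    In8 T K' p' cr' D Θ F SE W := by
  filter_upwards [h] with L h δ hδ η η' h1 h2 h3 ρ hρ
  filter_upwards [h δ hδ η η' h1 h2 h3 ρ hρ] with ε h t ht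
  refine (h t ht).trans (add_le_add (add_le_add (kc_le hK0 hK h0 hcr L ρ) ?_) ?_)
  · refine mul_le_mul_left (ENNReal.ofReal_le_ofReal ?_) _
    have hδ0 := hδ.1
    have hη' : 0 < η' := h1.trans h2
    have h4 : η' / δ ^ p ≤ η' / δ ^ p' :=
      div_le_div_of_nonneg_left hη'.le (by positivity) (pow_le_pow_of_le_one hδ0.le hδ.2 hp)
    exact mul_le_mul (pow_le_pow_left₀ hK0 hK L) (add_le_add_left h4 _) (by positivity)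
      (pow_nonneg (hK0.trans hK) L)
  · exact mul_le_mul_left (kp_le hK0 hK L) _

theorem In10.mono (h : In10 T K cr D Θ F W) (hK0 : 0 ≤ K) (hK : K ≤ K')
    (h0 : ∀ L, 0 ≤ cr L) (hcr : ∀ L, cr L ≤ cr' L) : In10 T K' cr' D Θ F W := by
  filter_upwards [h] with L h δ hδ η η' h1 h2 h3 ρ hρ
  filter_upwards [h δ hδ η η' h1 h2 h3 ρ hρ] with ε h t ht
  refine (h t ht).trans (add_le_add (add_le_add (kc_le hK0 hK h0 hcr L ρ) ?_) le_rfl)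
  refine mul_le_mul_left (ENNReal.ofReal_le_ofReal ?_) _
  exact mul_le_mul_of_nonneg_right (pow_le_pow_left₀ hK0 hK L) hδ.1.le

end mono

/-! ### The instance -/

section inst

variable {Φ : E3 → ℝ} {hΦ : IsPotential Φ} {f₀ : Ph → ℝ} {κ : ℝ}

/-- **The inequalities of the feedback block imply `RawSys`.** -/
theorem exists_rawSys {B : ℝ} (hB : RW.StableWith Φ B) (hg : GoodDatum f₀ κ) {T : ℝ} (hT : 0 < T)
    {bD M₀ : ℝ} (hbD : 0 < bD) (hM₀ : 0 ≤ M₀)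
    (hf : ∀ z, f₀ z ≤ M₀ * Real.exp (-bD * ‖z.2‖ ^ 2))
    (hx : ∀ v : E3, ∫⁻ x : E3, ENNReal.ofReal (f₀ (x, v)) ≤
      ENNReal.ofReal (M₀ * Real.exp (-bD * ‖v‖ ^ 2)))
    {b l₁ l₂ Q : ℝ} {α a : ℕ → ℝ} (hb : 0 < b) (hw : Wts α a Q) (h₁ : 0 ≤ l₁) (h₂ : 0 ≤ l₂)
    {SE : ℕ → ℝ → ℝ → ℝ → ℝ≥0∞}
    (monoS : ∀ L a b ε t, 0 < a → a ≤ b → 0 < ε → 0 ≤ t → SE L a ε t ≤ SE L b ε t)
    (h3 : ∃ C K cr, Cst C K cr ∧ In3 T C K cr (dTh b T l₁ l₂ a hΦ f₀ T) (dF hΦ f₀) SE)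
    (h8 : ∃ C K p cr, Cst C K cr ∧ In8 T K p cr (dD hΦ f₀) (dTh b T l₁ l₂ a hΦ f₀ T) (dF hΦ f₀)
      SE fun L δ => dTh b T l₁ l₂ a hΦ f₀ δ L)
    (h9 : ∃ C K cr, Cst C K cr ∧ In9 T C K cr (dD hΦ f₀) (dTh b T l₁ l₂ a hΦ f₀ T) SE)
    (h10 : ∃ C K cr, Cst C K cr ∧ In10 T K cr (dD hΦ f₀) (dTh b T l₁ l₂ a hΦ f₀ T) (dF hΦ f₀)
      fun L δ => dTh b T l₁ l₂ a hΦ f₀ δ L)
    (h11 : ∃ C K cr, Cst C K cr ∧ In11 T C K cr (dD hΦ f₀) (dTh b T l₁ l₂ a hΦ f₀ T)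
      (dF hΦ f₀) SE) :
    ∃ (C K : ℝ) (p : ℕ) (cr Mb : ℕ → ℝ), KE.SuperExp cr ∧
      RawSys T C K p cr Mb (dD hΦ f₀) (dTh b T l₁ l₂ a hΦ f₀ T) (dF hΦ f₀) SE
        fun L δ => dTh b T l₁ l₂ a hΦ f₀ δ L := by
  obtain ⟨C3, K3, c3, s3, i3⟩ := h3
  obtain ⟨C8, K8, p, c8, s8, i8⟩ := h8
  obtain ⟨C9, K9, c9, s9, i9⟩ := h9
  obtain ⟨C10, K10, c10, s10, i10⟩ := h10
  obtain ⟨C11, K11, c11, s11, i11⟩ := h11
  have k3 := s3.K1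
  have k8 := s8.K1
  have k9 := s9.K1
  have k10 := s10.K1
  have k11 := s11.K1
  have z3 := s3.C0
  have z9 := s9.C0
  have z11 := s11.C0
  obtain ⟨cr, hcr⟩ : ∃ cr : ℕ → ℝ, cr = fun L => c3 L + c8 L + c9 L + c10 L + c11 L := ⟨_, rfl⟩
  have hcr' : ∀ L, cr L = c3 L + c8 L + c9 L + c10 L + c11 L := fun L => by rw [hcr]
  have hsup : KE.SuperExp cr := by
    rw [hcr]
    exact (((s3.sup.add s8.sup).add s9.sup).add s10.sup).add s11.sup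
  have e3 := s3.cr0
  have e8 := s8.cr0
  have e9 := s9.cr0
  have e10 := s10.cr0
  have e11 := s11.cr0
  obtain ⟨MΘ, hMΘ0, hMΘ⟩ := Nm_thL_crude hΦ hB hg (m2_lt_top hg hM₀ hbD hx) hw h₁ h₂ hb hT
  choose MD hMD0 hMD using fun L : ℕ => crude_DD_FF hΦ hg hbD hM₀ hf hx L hT.le
  have hε1 : ∀ᶠ ε in 𝓝[>] (0 : ℝ), 0 < ε ∧ ε ≤ 1 := by
    filter_upwards [Ioc_mem_nhdsGT (zero_lt_one' ℝ)] with ε hε
    exact hε
  refine ⟨C3 + C9 + C11, K3 + K8 + K9 + K10 + K11, p, cr, fun L => max (MD L) MΘ, hsup,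
    { C0 := by linarith
      K1 := by linarith
      cr0 := fun L => by rw [hcr']; linarith [e3 L, e8 L, e9 L, e10 L, e11 L]
      monoD := fun L a b ε t => dD_mono L a b ε t
      monoΘ := fun L a b ε t => dTh_mono L a b ε t
      monoF := fun L a b ε t => dF_mono L a b ε t
      monoS := monoS
      bd := ?_
      bdW := ?_
      p3 := ?_
      p9 := ?_
      p11 := ?_
      p8 := ?_
      p10 := ?_ }⟩
  · filter_upwards with L η hη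
    filter_upwards [hε1] with ε hε t ht
    rw [dD_pos hε.1, dF_pos hε.1, dTh_pos hε.1]
    obtain ⟨h4, h5⟩ := hMD L ε hε.1 η hη.1 t ht
    exact ⟨h4.trans (ENNReal.ofReal_le_ofReal (le_max_left _ _)),
      (hMΘ L ε hε.1 hε.2 η hη.1 t ht T).trans (ENNReal.ofReal_le_ofReal (le_max_right _ _)),
      h5.trans (ENNReal.ofReal_le_ofReal (le_max_left _ _))⟩
  · filter_upwards with L δ _ η hη
    filter_upwards [hε1] with ε hε t ht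
    rw [dTh_pos hε.1]
    exact (hMΘ L ε hε.1 hε.2 η hη.1 t ht δ).trans (ENNReal.ofReal_le_ofReal (le_max_right _ _))
  · exact i3.mono (by linarith) (by linarith) (by linarith) e3
      fun L => by rw [hcr']; linarith [e3 L, e8 L, e9 L, e10 L, e11 L]
  · exact i9.mono (by linarith) (by linarith) (by linarith) e9
      fun L => by rw [hcr']; linarith [e3 L, e8 L, e9 L, e10 L, e11 L]
  · exact i11.mono (by linarith) (by linarith) (by linarith) e11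
      fun L => by rw [hcr']; linarith [e3 L, e8 L, e9 L, e10 L, e11 L]
  · exact i8.mono le_rfl (by linarith) (by linarith) e8
      fun L => by rw [hcr']; linarith [e3 L, e8 L, e9 L, e10 L, e11 L]
  · exact i10.mono (by linarith) (by linarith) e10
      fun L => by rw [hcr']; linarith [e3 L, e8 L, e9 L, e10 L, e11 L]

/-- **The inequalities of the feedback block imply `PathENN`.** -/
theorem pathENN_of_in {B : ℝ} (hB : RW.StableWith Φ B) (hg : GoodDatum f₀ κ) {T : ℝ} (hT : 0 < T)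
    {bD M₀ : ℝ} (hbD : 0 < bD) (hM₀ : 0 ≤ M₀)
    (hf : ∀ z, f₀ z ≤ M₀ * Real.exp (-bD * ‖z.2‖ ^ 2))
    (hx : ∀ v : E3, ∫⁻ x : E3, ENNReal.ofReal (f₀ (x, v)) ≤
      ENNReal.ofReal (M₀ * Real.exp (-bD * ‖v‖ ^ 2)))
    {b l₁ l₂ Q : ℝ} {α a : ℕ → ℝ} (hb : 0 < b) (hw : Wts α a Q) (h₁ : 0 ≤ l₁) (h₂ : 0 ≤ l₂)
    {SE : ℕ → ℝ → ℝ → ℝ → ℝ≥0∞}
    (monoS : ∀ L a b ε t, 0 < a → a ≤ b → 0 < ε → 0 ≤ t → SE L a ε t ≤ SE L b ε t)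
    (h3 : ∃ C K cr, Cst C K cr ∧ In3 T C K cr (dTh b T l₁ l₂ a hΦ f₀ T) (dF hΦ f₀) SE)
    (h8 : ∃ C K p cr, Cst C K cr ∧ In8 T K p cr (dD hΦ f₀) (dTh b T l₁ l₂ a hΦ f₀ T) (dF hΦ f₀)
      SE fun L δ => dTh b T l₁ l₂ a hΦ f₀ δ L)
    (h9 : ∃ C K cr, Cst C K cr ∧ In9 T C K cr (dD hΦ f₀) (dTh b T l₁ l₂ a hΦ f₀ T) SE)
    (h10 : ∃ C K cr, Cst C K cr ∧ In10 T K cr (dD hΦ f₀) (dTh b T l₁ l₂ a hΦ f₀ T) (dF hΦ f₀)
      fun L δ => dTh b T l₁ l₂ a hΦ f₀ δ L)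
    (h11 : ∃ C K cr, Cst C K cr ∧ In11 T C K cr (dD hΦ f₀) (dTh b T l₁ l₂ a hΦ f₀ T)
      (dF hΦ f₀) SE) :
    END.PathENN Φ f₀ T (END.AL Φ) (END.MY Φ) := by
  obtain ⟨C, K, p, cr, Mb, h4, h5⟩ := exists_rawSys hB hg hT hbD hM₀ hf hx hb hw h₁ h₂ monoS
    h3 h8 h9 h10 h11
  exact pathENN_of_raw hΦ hg h4 h5

end inst

end Vale.Agent.P119.PB
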