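import Vale.Agent.P119.PB.ContInt
import Vale.Agent.P119.PB.ContCount2
import Vale.Agent.P119.PB.Raw
import Vale.Agent.P119.PB.P3b

/-!
# P119, block PROB, P9 (contamination): the inequality (`helper909`)

* `creS`: the creation terms;
* `DD_le_cont`: the exposed energy is at most the sum of the direct contacts, the second events, the
  exceptional sets and the creation terms;
* `in9_of`: P9 from the bounds of these terms.
-/

open MeasureTheory Filter Topology Set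
open scoped ENNReal NNReal

noncomputable section

namespace Vale.Agent.P119.PB

open M CTree KU FB RB AU TL

variable {Φ : E3 → ℝ} {ε : ℝ} {L : ℕ} {hΦ : IsPotential Φ} {hε : 0 < ε} {f₀ : Ph → ℝ} {κ : ℝ}
  {t η θ : ℝ}

variable (L hΦ hε) in
/-- The creation terms: the energy of the labels which are bad when they are exposed. -/
def creS (f₀ : Ph → ℝ) (η t : ℝ) : ℝ≥0∞ :=
  ∫⁻ c, ∑ T ∈ trs L (wS (GC.pts c)),
    (wq Φ ε T * ind (CEF L hΦ hε (wS (GC.pts c)) (hz L hΦ hε η t (wS (GC.pts c))) T) +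
      onN (fun x y => wqP Φ ε x y *
        ind (CEP L hΦ hε (wS (GC.pts c)) (hz L hΦ hε η t (wS (GC.pts c))) x y)) T) ∂(GC.PP f₀ ε)

theorem wS_dpt {v : Finset Ph} : ∀ a ∈ wS v, a.2.2 ≤ L := by
  intro a ha
  obtain ⟨z, -, rfl⟩ := mem_wS.1 ha
  exact Nat.zero_le _

/-- **The exposed energy**: flying, colliding, created. -/
theorem lintegral_eW_le (h : GoodDatum f₀ κ) (hη : 0 < η) (ht : 0 ≤ t) :
    ∫⁻ c, eW L hΦ hε (wS (GC.pts c)) (hz L hΦ hε η t (wS (GC.pts c))) ∂(GC.PP f₀ ε) ≤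
      XX Φ ε L f₀ t (fun U T => wq Φ ε T * ind (FEi L hΦ hε η t U T)) +
      (XP Φ ε L f₀ t (fun U x y => wqP Φ ε x y * ind (PEi L hΦ hε η t U x y)) +
        creS L hΦ hε f₀ η t) := by
  have hz1 : ∀ {X : Type} [MeasurableSpace X] {W : X → Finset Src},
      (MM.RS fun x => (W x : Set Src)) → Measurable fun x => hz L hΦ hε η t (W x) := fun hW =>
    RM.measurable_hz hW measurable_const measurable_const
  have m1 : Measurable fun c : GC.Conf Ph => ∑ T ∈ trs L (wS (GC.pts c)),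
      ind (FE L hΦ hε (wS (GC.pts c)) (hz L hΦ hε η t (wS (GC.pts c))) T) * wq Φ ε T := by
    have h1 : MM.RS fun p : GC.Conf Ph × CTree => (wS (GC.pts p.1) : Set Src) :=
      RM.rs_wS measurable_fst
    have h2 : Measurable fun p : GC.Conf Ph × CTree =>
        ind (FE L hΦ hε (wS (GC.pts p.1)) (hz L hΦ hε η t (wS (GC.pts p.1))) p.2) *
          wq Φ ε p.2 :=
      (measurable_ind (RM.measurableSet_FE h1 (hz1 h1) measurable_snd)).mul
        ((measurable_wq hΦ hε).comp measurable_snd)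
    exact RM.measurable_sum_trs RM.rs_conf h2
  have m2 : Measurable fun c : GC.Conf Ph => ∑ T ∈ trs L (wS (GC.pts c)), onN (fun x y =>
      ind (PE L hΦ hε (wS (GC.pts c)) (hz L hΦ hε η t (wS (GC.pts c))) x y) * wqP Φ ε x y) T := by
    have h2 : Measurable fun p : GC.Conf Ph × CTree => onN (fun x y =>
        ind (PE L hΦ hε (wS (GC.pts p.1)) (hz L hΦ hε η t (wS (GC.pts p.1))) x y) *
          wqP Φ ε x y) p.2 := by
      refine measurable_onN (F := fun (p : GC.Conf Ph × CTree) x y =>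
        ind (PE L hΦ hε (wS (GC.pts p.1)) (hz L hΦ hε η t (wS (GC.pts p.1))) x y) *
          wqP Φ ε x y) ?_ measurable_snd
      have h1 : MM.RS fun p : (GC.Conf Ph × CTree) × CTree × CTree =>
          (wS (GC.pts p.1.1) : Set Src) := RM.rs_wS (measurable_fst.comp measurable_fst)
      exact (measurable_ind (RM.measurableSet_PE h1 (hz1 h1) (measurable_fst.comp measurable_snd)
        (measurable_snd.comp measurable_snd))).mul (measurable_wqP hΦ hε
          (measurable_fst.comp measurable_snd) (measurable_snd.comp measurable_snd))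
    exact RM.measurable_sum_trs RM.rs_conf h2
  calc ∫⁻ c, eW L hΦ hε (wS (GC.pts c)) (hz L hΦ hε η t (wS (GC.pts c))) ∂(GC.PP f₀ ε)
      ≤ ∫⁻ c, ((∑ T ∈ trs L (wS (GC.pts c)),
          ind (FE L hΦ hε (wS (GC.pts c)) (hz L hΦ hε η t (wS (GC.pts c))) T) * wq Φ ε T) +
        ((∑ T ∈ trs L (wS (GC.pts c)), onN (fun x y =>
          ind (PE L hΦ hε (wS (GC.pts c)) (hz L hΦ hε η t (wS (GC.pts c))) x y) *
            wqP Φ ε x y) T) +
        ∑ T ∈ trs L (wS (GC.pts c)),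
          (wq Φ ε T * ind (CEF L hΦ hε (wS (GC.pts c)) (hz L hΦ hε η t (wS (GC.pts c))) T) +
            onN (fun x y => wqP Φ ε x y *
              ind (CEP L hΦ hε (wS (GC.pts c)) (hz L hΦ hε η t (wS (GC.pts c))) x y)) T)))
          ∂(GC.PP f₀ ε) := by
        refine lintegral_mono fun c => ?_
        refine (eW_le_cont4 wS_bnn wS_dpt _).trans ?_
        rw [← Finset.sum_add_distrib, ← Finset.sum_add_distrib]
        refine Finset.sum_le_sum fun T _ => ?_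
        unfold gT4
        have e1 : onN (fun x y => wqP Φ ε x y *
            ind (PE L hΦ hε (wS (GC.pts c)) (hz L hΦ hε η t (wS (GC.pts c))) x y)) T =
            onN (fun x y => ind (PE L hΦ hε (wS (GC.pts c)) (hz L hΦ hε η t (wS (GC.pts c))) x y) *
              wqP Φ ε x y) T := by
          congr 1
          funext x y
          rw [mul_comm]
        rw [e1, mul_comm (wq Φ ε T) (ind (FE L hΦ hε _ _ T))]
        refine le_of_eq ?_
        ring
    _ = (∫⁻ c, ∑ T ∈ trs L (wS (GC.pts c)),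
          ind (FE L hΦ hε (wS (GC.pts c)) (hz L hΦ hε η t (wS (GC.pts c))) T) * wq Φ ε T
            ∂(GC.PP f₀ ε)) +
        ((∫⁻ c, ∑ T ∈ trs L (wS (GC.pts c)), onN (fun x y =>
          ind (PE L hΦ hε (wS (GC.pts c)) (hz L hΦ hε η t (wS (GC.pts c))) x y) *
            wqP Φ ε x y) T ∂(GC.PP f₀ ε)) + creS L hΦ hε f₀ η t) := by
        rw [lintegral_add_left m1, lintegral_add_left m2]
        rfl
    _ ≤ _ := add_le_add (sum_FE_le h hη ht) (add_le_add (sum_PE_le h hη ht) le_rfl)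

/-- **P9**, before the bounds of the terms. -/
theorem DD_le_cont (h : GoodDatum f₀ κ) (hη : 0 < η) (hθ : 0 ≤ θ) (ht : 0 ≤ t) :
    DD L hΦ hε f₀ η t ≤
      (FL.muE ε)⁻¹ * XX Φ ε L f₀ t (fun U T => wq Φ ε T *
        ind (DirF L hΦ hε U (hz L hΦ hε (η + θ + θ) t U) T)) +
      (FL.muE ε)⁻¹ * XP Φ ε L f₀ t (fun U x y => wqP Φ ε x y *
        ind (DirP L hΦ hε U (hz L hΦ hε (η + θ + θ) t U) x y)) +
      ((FL.muE ε)⁻¹ * XX Φ ε L f₀ t (fun U T => wq Φ ε T *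
          ind (TwoF L hΦ hε (η + θ + θ) t U T)) +
        (FL.muE ε)⁻¹ * XP Φ ε L f₀ t (fun U x y => wqP Φ ε x y *
          ind (TwoP L hΦ hε (η + θ + θ) t U x y))) +
      ((FL.muE ε)⁻¹ * XX Φ ε L f₀ t (fun U T => wq Φ ε T * ind (ExDs L hΦ hε θ t U T)) +
        (FL.muE ε)⁻¹ * XP Φ ε L f₀ t (fun U x y => wqP Φ ε x y *
          ind (ExPs L hΦ hε θ t U x y))) +
      (FL.muE ε)⁻¹ * creS L hΦ hε f₀ η t := by
  have h1 := lintegral_eW_le (L := L) (hΦ := hΦ) (hε := hε) h hη ht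
  have h2 := XX_FEi_le (L := L) (hΦ := hΦ) (hε := hε) h hη hθ ht
  have h3 := XP_PEi_le (L := L) (hΦ := hΦ) (hε := hε) h hη hθ ht
  unfold DD
  refine (mul_le_mul_right (h1.trans (add_le_add h2 (add_le_add h3 le_rfl))) _).trans
    (le_of_eq ?_)
  ring

/-! ### The exceptional sets increase with the time -/

theorem relT_mono {V W : Finset Src} {T : CTree} {ρ s : ℝ} (hst : s ≤ t) :
    relT Φ ε L V T W ρ s ≤ relT Φ ε L V T W ρ t := by
  classical
  unfold relT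
  refine ENNReal.tsum_le_tsum fun S => ?_
  by_cases h : DepT Φ ε L V T W ρ s S
  · have h' : DepT Φ ε L V T W ρ t S :=
      ⟨h.sub, h.depth, h.ext_le.trans hst, h.alive, h.root, fun hi =>
        h.dep ⟨hi.sub, hi.alive, hi.lives, lgood_mono hi.good hst⟩⟩
    rw [if_pos h, if_pos h']
  · rw [if_neg h]
    exact zero_le

theorem ExD_mono {U : Finset Src} {T : CTree} {s : ℝ} (hst : s ≤ t)
    (h : ExD L hΦ hε θ s U T) : ExD L hΦ hε θ t U T := by
  unfold ExD at h ⊢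
  rcases h with h | h | h | ⟨x, hx, h⟩
  · exact Or.inl fun h' => h ⟨h'.disj, h'.inj, h'.good.mono hst⟩
  · exact Or.inr (Or.inl (h.trans_le (relT_mono hst)))
  · exact Or.inr (Or.inr (Or.inl (h.trans_le (relW_mono hst))))
  · exact Or.inr (Or.inr (Or.inr ⟨x, hx, h.trans_le (relW_mono hst)⟩))

theorem ExDs_mono {U : Finset Src} {T : CTree} {s : ℝ} (hst : s ≤ t)
    (h : ExDs L hΦ hε θ s U T) : ExDs L hΦ hε θ t U T := ⟨h.1, ExD_mono hst h.2⟩

theorem relP_mono {U : Finset Src} {x y : CTree} {s : ℝ} (hst : s ≤ t) :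
    relP Φ ε L U x y s ≤ relP Φ ε L U x y t := by
  classical
  unfold relP relI
  refine ENNReal.tsum_le_tsum fun S => ?_
  split_ifs with h1 h2
  · exact le_rfl
  · exact absurd ⟨h1.1, h1.2.1, h1.2.2.1.trans hst, h1.2.2.2.1, h1.2.2.2.2.1, fun hi =>
      h1.2.2.2.2.2 ⟨hi.sub, hi.ax, hi.ay, hi.good.mono hst⟩⟩ h2
  · exact zero_le
  · exact le_rfl

theorem ExP_mono {U : Finset Src} {x y : CTree} {s : ℝ} (hst : s ≤ t)
    (h : ExP L hΦ hε θ s U x y) : ExP L hΦ hε θ t U x y := by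
  unfold ExP at h ⊢
  rcases h with h | h | h | ⟨e, he, h⟩
  · exact Or.inl fun h' => h (h'.mono hst)
  · exact Or.inr (Or.inl (h.trans_le (relP_mono hst)))
  · exact Or.inr (Or.inr (Or.inl (h.trans_le (relW_mono hst))))
  · exact Or.inr (Or.inr (Or.inr ⟨e, he, h.trans_le (relW_mono hst)⟩))

theorem ExPs_mono {U : Finset Src} {x y : CTree} {s : ℝ} (hst : s ≤ t)
    (h : ExPs L hΦ hε θ s U x y) : ExPs L hΦ hε θ t U x y := by
  obtain ⟨h0, u, h1, h2⟩ := h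
  exact ⟨h0, u, h1.trans hst, h2⟩

/-! ### The inequality P9 -/

section final

variable (hΦ) (f₀) in
/-- The bound of the direct contacts, flying case. -/
def BdF (T C : ℝ) : Prop :=
  ∀ᶠ L in atTop, ∀ η : ℝ, 0 < η → η ≤ 1 → ∀ ρ : ℝ, 0 < ρ → ∀ᶠ ε in 𝓝[>] (0 : ℝ), ∀ hε : 0 < ε,
    ∀ t ∈ Icc 0 T, (FL.muE ε)⁻¹ * XX Φ ε L f₀ t (fun U S => wq Φ ε S *
        ind (DirF L hΦ hε U (hz L hΦ hε η t U) S)) ≤
      ENNReal.ofReal ρ + ENNReal.ofReal C * ∫⁻ s in Icc 0 t, DD L hΦ hε f₀ η s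

variable (hΦ) (f₀) in
/-- The bound of the direct contacts, colliding case. -/
def BdP (T C : ℝ) : Prop :=
  ∀ᶠ L in atTop, ∀ η : ℝ, 0 < η → η ≤ 1 → ∀ ρ : ℝ, 0 < ρ → ∀ᶠ ε in 𝓝[>] (0 : ℝ), ∀ hε : 0 < ε,
    ∀ t ∈ Icc 0 T, (FL.muE ε)⁻¹ * XP Φ ε L f₀ t (fun U x y => wqP Φ ε x y *
        ind (DirP L hΦ hε U (hz L hΦ hε η t U) x y)) ≤
      ENNReal.ofReal ρ + ENNReal.ofReal C * ∫⁻ s in Icc 0 t, DD L hΦ hε f₀ η s

variable (hΦ) (f₀) in
/-- The bound of the creation terms. -/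
def BdC (T K : ℝ) (cr : ℕ → ℝ) : Prop :=
  ∀ᶠ L in atTop, ∀ η : ℝ, 0 < η → η ≤ 1 → ∀ ρ : ℝ, 0 < ρ → ∀ᶠ ε in 𝓝[>] (0 : ℝ), ∀ hε : 0 < ε,
    ∀ t ∈ Icc 0 T, (FL.muE ε)⁻¹ * creS L hΦ hε f₀ η t ≤ ENNReal.ofReal (K ^ L * cr L + ρ)

variable (hΦ) (f₀) in
/-- The exceptional sets are negligible. -/
def BdE (T : ℝ) : Prop :=
  ∀ᶠ L in atTop, ∀ θ : ℝ, 0 < θ → ∀ ρ : ℝ, 0 < ρ → ∀ᶠ ε in 𝓝[>] (0 : ℝ), ∀ hε : 0 < ε,
    (FL.muE ε)⁻¹ * XX Φ ε L f₀ T (fun U S => wq Φ ε S * ind (ExDs L hΦ hε θ T U S)) ≤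
      ENNReal.ofReal ρ ∧
    (FL.muE ε)⁻¹ * XP Φ ε L f₀ T (fun U x y => wqP Φ ε x y *
        ind (ExPs L hΦ hε θ T U x y)) ≤ ENNReal.ofReal ρ

/-- **P9**, from the bounds of the direct contacts, of the creation terms and of the exceptional
sets. -/
theorem in9_of (h : GoodDatum f₀ κ) {T CF CP K : ℝ} (hCF : 0 ≤ CF) (hCP : 0 ≤ CP) (hK : 1 ≤ K)
    {cr : ℕ → ℝ} {Θ SE : ℕ → ℝ → ℝ → ℝ → ℝ≥0∞}
    (hSE : ∀ L η ε (hε : 0 < ε) t, 0 < η → 0 ≤ t →
      (FL.muE ε)⁻¹ * XX Φ ε L f₀ t (fun U S => wq Φ ε S * ind (TwoF L hΦ hε η t U S)) +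
        (FL.muE ε)⁻¹ * XP Φ ε L f₀ t (fun U x y => wqP Φ ε x y *
          ind (TwoP L hΦ hε η t U x y)) ≤ SE L η ε t)
    (hF : BdF hΦ f₀ T CF) (hP : BdP hΦ f₀ T CP) (hC : BdC hΦ f₀ T K cr) (hcr : ∀ L, 0 ≤ cr L)
    (hE : BdE hΦ f₀ T) : In9 T (CF + CP) K cr (dD hΦ f₀) Θ SE := by
  filter_upwards [hF, hP, hC, hE] with L hF hP hC hE η η' h0 h1 h2 ρ hρ
  obtain ⟨θ, hθ⟩ : ∃ θ, θ = (η' - η) / 2 := ⟨_, rfl⟩
  have hθ0 : 0 < θ := by rw [hθ]; linarith
  have hη' : 0 < η' := h0.trans h1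
  have he : η + θ + θ = η' := by rw [hθ]; ring
  have hKL : 1 ≤ K ^ L := one_le_pow₀ hK
  filter_upwards [hF η' hη' h2 (ρ / 5) (by positivity), hP η' hη' h2 (ρ / 5) (by positivity),
    hC η h0 (h1.le.trans h2) (ρ / 5) (by positivity), hE θ hθ0 (ρ / 5) (by positivity),
    self_mem_nhdsWithin] with ε eF eP eC eE hε t ht
  have hε : 0 < ε := hε
  have a1 := eF hε t ht
  have a2 := eP hε t ht
  have a3 := eC hε t ht
  obtain ⟨a4, a5⟩ := eE hε
  have a4' : (FL.muE ε)⁻¹ * XX Φ ε L f₀ t (fun U S => wq Φ ε S * ind (ExDs L hΦ hε θ t U S)) ≤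
      ENNReal.ofReal (ρ / 5) :=
    (mul_le_mul_right (XX_le_XX ht.2 fun U S => mul_le_mul_right
      (ind_mono fun hx => ExDs_mono ht.2 hx) _) _).trans a4
  have a5' : (FL.muE ε)⁻¹ * XP Φ ε L f₀ t (fun U x y => wqP Φ ε x y *
      ind (ExPs L hΦ hε θ t U x y)) ≤ ENNReal.ofReal (ρ / 5) :=
    (mul_le_mul_right (XP_le_XP ht.2 fun U x y => mul_le_mul_right
      (ind_mono fun hx => ExPs_mono ht.2 hx) _) _).trans a5
  have a6 := hSE L η' ε hε t hη' ht.1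
  have a7 := DD_le_cont (L := L) (hΦ := hΦ) (hε := hε) h h0 hθ0.le ht.1
  rw [he] at a7
  rw [dD_pos hε]
  obtain ⟨J, hJ⟩ : ∃ J, J = ∫⁻ s in Icc 0 t, DD L hΦ hε f₀ η' s := ⟨_, rfl⟩
  rw [← hJ] at a1 a2
  have hJ2 : J ≤ ∫⁻ s in Icc 0 t, (dD hΦ f₀ L η' ε s + Θ L η' ε s) := by
    rw [hJ]
    refine lintegral_mono fun s => ?_
    simp only [dD_pos hε]
    exact le_self_add
  have hcL : 0 ≤ K ^ L * cr L := mul_nonneg (zero_le_one.trans hKL) (hcr L)
  calc DD L hΦ hε f₀ η t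
      ≤ (ENNReal.ofReal (ρ / 5) + ENNReal.ofReal CF * J) +
        (ENNReal.ofReal (ρ / 5) + ENNReal.ofReal CP * J) + SE L η' ε t +
        (ENNReal.ofReal (ρ / 5) + ENNReal.ofReal (ρ / 5)) +
        ENNReal.ofReal (K ^ L * cr L + ρ / 5) :=
        a7.trans (add_le_add (add_le_add (add_le_add (add_le_add a1 a2) a6)
          (add_le_add a4' a5')) a3)
    _ = (ENNReal.ofReal (ρ / 5) + ENNReal.ofReal (ρ / 5) + (ENNReal.ofReal (ρ / 5) +
          ENNReal.ofReal (ρ / 5)) + ENNReal.ofReal (K ^ L * cr L + ρ / 5)) +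
        (ENNReal.ofReal CF + ENNReal.ofReal CP) * J + 1 * SE L η' ε t := by ring
    _ ≤ _ := by
        refine add_le_add (add_le_add (le_of_eq ?_) ?_) ?_
        · rw [← ENNReal.ofReal_add (by positivity) (by positivity),
            ← ENNReal.ofReal_add (by positivity) (by positivity),
            ← ENNReal.ofReal_add (by positivity) (by positivity)]
          congr 1
          ring
        · rw [← ENNReal.ofReal_add hCF hCP]
          exact mul_le_mul_right hJ2 _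
        · refine mul_le_mul_left ?_ _
          rw [← ENNReal.ofReal_one]
          exact ENNReal.ofReal_le_ofReal hKL

end final

end Vale.Agent.P119.PB
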