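import Vale.Agent.P119.PB.P3d

/-!
# P119, block PROB: the common parameters (`helper423`)

* `Par T b₀ m b l₁ l₂ Q α a`: the conditions on the parameters of the norm `Nm`; `b₀` is the Gaussian
  exponent of the datum (`KinFamily.b`), `m` the depth law of CAP0 (with exponent `b₀ / 2`);
* `exists_par`;
* `CapT`: CAP0, the law of the root sources of the alive trees, in the form of `Cap.cap0_typI`;
* `in3_of_par`: P3.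
-/

open MeasureTheory Filter Topology Set ProbabilityTheory
open scoped ENNReal NNReal

noncomputable section

namespace Vale.Agent.P119.PB

open M CTree KU FB RB AU EX

/-- **The common parameters.** -/
structure Par (T b₀ : ℝ) (m : ℕ → ℝ) (b l₁ l₂ Q : ℝ) (α a : ℕ → ℝ) : Prop where
  T0 : 0 < T
  b₀0 : 0 < b₀
  m0 : ∀ n, 0 ≤ m n
  msup : KE.SuperExp m
  hb : b = b₀ / 64
  hα : ∀ n, α n = (1 + T) * (((n : ℝ) + 1) ^ 2 * (64 ^ n * m n))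
  wts : Wts α a Q
  l₁1 : 1 ≤ l₁
  l₂1 : 1 ≤ l₂
  contr : ∀ (Φ : E3 → ℝ), IsPotential Φ → ∀ ε : ℝ, 0 < ε → ∀ t ≤ T, ∀ θ : Src → ℝ≥0∞,
    Measurable θ → Nm b T l₁ l₂ a t (KOp Φ ε b t (fun n => ENNReal.ofReal (α n)) θ) ≤
      ENNReal.ofReal (1 / 4) * Nm b T l₁ l₂ a t θ

variable {T b₀ b l₁ l₂ Q : ℝ} {m α a : ℕ → ℝ}

theorem Par.b0 (h : Par T b₀ m b l₁ l₂ Q α a) : 0 < b := by
  rw [h.hb]
  have := h.b₀0
  positivity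

theorem Par.l₁0 (h : Par T b₀ m b l₁ l₂ Q α a) : 0 ≤ l₁ := zero_le_one.trans h.l₁1

theorem Par.l₂0 (h : Par T b₀ m b l₁ l₂ Q α a) : 0 ≤ l₂ := zero_le_one.trans h.l₂1

/-- The weights dominate the depth law, with polynomial and geometric factors. -/
theorem Par.le_α (h : Par T b₀ m b l₁ l₂ Q α a) (n : ℕ) {c : ℝ}
    (hc : c ≤ (1 + T) * (((n : ℝ) + 1) ^ 2 * 64 ^ n)) : c * m n ≤ α n := by
  have hT := h.T0
  have hm := h.m0 n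
  rw [h.hα]
  calc c * m n ≤ (1 + T) * (((n : ℝ) + 1) ^ 2 * 64 ^ n) * m n := by gcongr
    _ = _ := by ring

theorem Par.succ_mul_le (h : Par T b₀ m b l₁ l₂ Q α a) (n : ℕ) : (n + 1) * m n ≤ α n := by
  have hT := h.T0
  have hn : (0 : ℝ) ≤ n := Nat.cast_nonneg n
  refine h.le_α n ?_
  have h1 : (1 : ℝ) ≤ 64 ^ n := one_le_pow₀ (by norm_num)
  have h2 : (n : ℝ) + 1 ≤ ((n : ℝ) + 1) ^ 2 := by nlinarith
  calc (n : ℝ) + 1 ≤ ((n : ℝ) + 1) ^ 2 := h2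
    _ = 1 * (((n : ℝ) + 1) ^ 2 * 1) := by ring
    _ ≤ (1 + T) * (((n : ℝ) + 1) ^ 2 * 64 ^ n) := by
        gcongr
        linarith

/-- The contraction for smaller weights. -/
theorem KOp_mono_α {Φ : E3 → ℝ} {ε b t : ℝ} {α α' : ℕ → ℝ≥0∞} (h : ∀ n, α n ≤ α' n)
    (θ : Src → ℝ≥0∞) (σ : Src) : KOp Φ ε b t α θ σ ≤ KOp Φ ε b t α' θ σ := by
  unfold KOp
  exact mul_le_mul_right (ENNReal.tsum_le_tsum fun n => mul_le_mul_left (h n) _) _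

theorem Par.contr_le (h : Par T b₀ m b l₁ l₂ Q α a) {Φ : E3 → ℝ} (hΦ : IsPotential Φ) {ε : ℝ}
    (hε : 0 < ε) {t : ℝ} (ht : t ≤ T) {θ : Src → ℝ≥0∞} (hθ : Measurable θ) {α' : ℕ → ℝ≥0∞}
    (hα' : ∀ n, α' n ≤ ENNReal.ofReal (α n)) :
    Nm b T l₁ l₂ a t (KOp Φ ε b t α' θ) ≤ ENNReal.ofReal (1 / 4) * Nm b T l₁ l₂ a t θ :=
  (Nm_mono fun σ _ => KOp_mono_α hα' θ σ).trans (h.contr Φ hΦ ε hε t ht θ hθ)

theorem superExp_pow_mul {c : ℝ} (hc : 0 ≤ c) (h : KE.SuperExp m) :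
    KE.SuperExp fun n => c ^ n * m n := by
  intro A hA
  refine (h (A * c) (by positivity)).congr fun n => ?_
  rw [mul_pow]
  ring

/-- **Existence of the parameters.** -/
theorem exists_par (hT : 0 < T) (hb₀ : 0 < b₀) (hm0 : ∀ n, 0 ≤ m n) (hm : KE.SuperExp m) :
    ∃ (b l₁ l₂ Q : ℝ) (α a : ℕ → ℝ), Par T b₀ m b l₁ l₂ Q α a := by
  have h1 : KE.SuperExp fun n => (64 : ℝ) ^ n * m n := superExp_pow_mul (by norm_num) hm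
  have h10 : ∀ n, 0 ≤ (64 : ℝ) ^ n * m n := fun n => mul_nonneg (by positivity) (hm0 n)
  have h2 : KE.SuperExp fun n => ((n : ℝ) + 1) * (64 ^ n * m n) := h1.poly h10
  have h20 : ∀ n : ℕ, 0 ≤ ((n : ℝ) + 1) * (64 ^ n * m n) := fun n =>
    mul_nonneg (by positivity) (h10 n)
  have h3 : KE.SuperExp fun n => ((n : ℝ) + 1) * (((n : ℝ) + 1) * (64 ^ n * m n)) := h2.poly h20
  have h4 : KE.SuperExp fun n => (1 + T) * (((n : ℝ) + 1) ^ 2 * (64 ^ n * m n)) := by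
    refine (h3.const_mul (1 + T)).mono (fun n => ?_) fun n => le_of_eq ?_
    · have := h10 n
      positivity
    · ring
  have h40 : ∀ n : ℕ, 0 ≤ (1 + T) * (((n : ℝ) + 1) ^ 2 * (64 ^ n * m n)) := fun n => by
    have := h10 n
    positivity
  obtain ⟨Q, hw⟩ := exists_wts h40 (sExp_of_superExp h4)
  have hb : 0 < b₀ / 64 := by positivity
  obtain ⟨l₁, l₂, hl₁, hl₂, hc⟩ := exists_contraction hb hT hw (by norm_num : (0 : ℝ) < 1 / 4)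
  exact ⟨b₀ / 64, l₁, l₂, Q, _, _, ⟨hT, hb₀, hm0, hm, rfl, fun _ => rfl, hw, hl₁, hl₂, hc⟩⟩

/-! ### CAP0 -/

variable {Φ : E3 → ℝ} {hΦ : IsPotential Φ} {f₀ : Ph → ℝ} {L : ℕ} {κ : ℝ}

/-- **CAP0**: the law of the root sources of the alive trees (the conclusion of
`Cap.cap0_typI`). -/
def CapT (Φ : E3 → ℝ) (f₀ : Ph → ℝ) (L : ℕ) (T b : ℝ) (m : ℕ → ℝ) : Prop :=
  ∃ aty : ℝ → Kernel (GC.Conf Ph) Src, (∀ ε, IsSFiniteKernel (aty ε)) ∧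
    (∀ ε, 0 < ε → ∀ c, ∀ F : Src → ℝ≥0∞, Measurable F →
      ∫⁻ S in Cap.AL Φ ε L T (GC.pts c : Set Ph), F (rsrc Φ ε S) ∂(tree (GC.inten f₀ ε) L) ≤
        FL.muE ε * (typI b T (fun d => ENNReal.ofReal (m d)) F + ∫⁻ σ, F σ ∂(aty ε c))) ∧
    ∀ q : ℕ, Tendsto (fun ε => ∫⁻ c, ∫⁻ σ, Cap.pw q σ.2.1.2 ∂(aty ε c) ∂(GC.PP f₀ ε))
      (𝓝[>] 0) (𝓝 0)

theorem CapT.capH {b : ℝ} {m : ℕ → ℝ} (h : CapT Φ f₀ L T b m) : CapH Φ f₀ L T b m := by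
  obtain ⟨aty, h1, h2, h3⟩ := h
  refine CapH.of_typI (aty := fun ε c => aty ε c) (fun ε _ c => ?_) (fun ε _ q => ?_)
    (fun ε hε => Eventually.of_forall fun c F hF => h2 ε hε c F hF) h3
  · have := h1 ε
    infer_instance
  · have := h1 ε
    exact Measurable.lintegral_kernel (measurable_vp q)

/-- CAP0 from its three inputs; the depth law `m` does not depend on `L`. -/
theorem exists_capT (hΦ : IsPotential Φ) {M₀ : ℝ} (hg : GoodDatum f₀ κ) (hb : 0 < b₀)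
    (hT : 0 ≤ T) (hM : 0 ≤ M₀) (hf : ∀ z, f₀ z ≤ M₀ * Real.exp (-b₀ * ‖z.2‖ ^ 2))
    {n r : ℕ → ℝ} (hn0 : ∀ d, 0 ≤ n d) (hr0 : ∀ j, 0 ≤ r j) (hn : KE.SuperExp n)
    (hr : KE.SuperExp r) :
    ∃ m : ℕ → ℝ, (∀ d, 0 ≤ m d) ∧ KE.SuperExp m ∧ ∀ L, Cap.InI1 Φ f₀ L T →
      Cap.InNd Φ f₀ L T n b₀ → Cap.InR Φ f₀ L T r → CapT Φ f₀ L T (b₀ / 2) m :=
  Cap.cap0_typI hΦ hg hb hT hM hf hn0 hr0 hn hr (Tm := T)

/-- **P3** for the common parameters. -/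
theorem in3_of_par (hP : Par T b₀ m b l₁ l₂ Q α a) (h₀ : GoodDatum f₀ κ) {M₀ : ℝ}
    (hM : 0 ≤ M₀) (hf : ∀ z, f₀ z ≤ M₀ * Real.exp (-b₀ * ‖z.2‖ ^ 2))
    (hcap : ∀ᶠ L in atTop, CapT Φ f₀ L T (b₀ / 2) m) (hI1 : ∀ᶠ L in atTop, Cap.InI1 Φ f₀ L T)
    (hE1 : ∀ᶠ L in atTop, ExcE1 Φ f₀ L T) (hE2 : ∀ᶠ L in atTop, ExcE2 hΦ f₀ L T)
    (SE : ℕ → ℝ → ℝ → ℝ → ℝ≥0∞) :
    ∃ C K cr, Cst C K cr ∧ In3 T C K cr (dTh b T l₁ l₂ a hΦ f₀ T) (dF hΦ f₀) SE := by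
  have hb₀ := hP.b₀0
  refine in3_of (b := b₀ / 2) (b₀ := b₀) hΦ h₀ (by positivity) (by linarith) hM hf hP.T0 hP.l₁0
    hP.l₂0 hP.wts hP.m0 hP.succ_mul_le hP.b0 ?_ (hcap.mono fun L h => h.capH) hI1 hE1 hE2 SE
  rw [hP.hb]
  linarith

end Vale.Agent.P119.PB
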