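import Vale.Agent.P119.PB.Mono
import Vale.Agent.P119.PB.ContX
import Vale.Agent.P119.AU.Mono

/-!
# P119, block PROB: the quantity `SE` of the second events (`helper185`)

* `SE9F`, `SE9P`: the second events of the contamination, of the trees and of the colliding pairs;
* `dSE b T' l₁ l₂ a hΦ f₀ w L η ε t`: the sum of the norm of `secS` (one step) and of `SE9F`, `SE9P`
  (contamination), for all real `ε` (`SE` of `RawSys`, `w = T`);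
* `dSE_mono`: the field `monoS`.
-/

open MeasureTheory Filter Topology Set
open scoped ENNReal NNReal

noncomputable section

namespace Vale.Agent.P119.PB

open M CTree KU FB RB FL

variable {Φ : E3 → ℝ} {ε : ℝ}

section defs

variable (L : ℕ) (hΦ : IsPotential Φ) (hε : 0 < ε)

/-- The second events of the trees. -/
def SE9F (f₀ : Ph → ℝ) (η t : ℝ) : ℝ≥0∞ :=
  (muE ε)⁻¹ * XX Φ ε L f₀ t fun U T => wq Φ ε T * ind (TwoF L hΦ hε η t U T)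

/-- The second events of the colliding pairs. -/
def SE9P (f₀ : Ph → ℝ) (η t : ℝ) : ℝ≥0∞ :=
  (muE ε)⁻¹ * XP Φ ε L f₀ t fun U x y => wqP Φ ε x y * ind (TwoP L hΦ hε η t U x y)

/-- The second events. -/
def sSE (b T' l₁ l₂ : ℝ) (a : ℕ → ℝ) (f₀ : Ph → ℝ) (η t w : ℝ) : ℝ≥0∞ :=
  Nm b T' l₁ l₂ a t (secS L hΦ hε f₀ η t w) + SE9F L hΦ hε f₀ η t + SE9P L hΦ hε f₀ η t

end defs

/-- The second events, for all real `ε`. -/
def dSE (b T' l₁ l₂ : ℝ) (a : ℕ → ℝ) (hΦ : IsPotential Φ) (f₀ : Ph → ℝ) (w : ℝ) (L : ℕ)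
    (η ε t : ℝ) : ℝ≥0∞ := by
  classical
  exact if hε : 0 < ε then sSE L hΦ hε b T' l₁ l₂ a f₀ η t w else 0

variable {L : ℕ} {hΦ : IsPotential Φ} {hε : 0 < ε} {f₀ : Ph → ℝ} {b T' l₁ l₂ η η' t w : ℝ}
  {a : ℕ → ℝ}

theorem dSE_pos (hε : 0 < ε) :
    dSE b T' l₁ l₂ a hΦ f₀ w L η ε t = sSE L hΦ hε b T' l₁ l₂ a f₀ η t w := by
  unfold dSE
  rw [dif_pos hε]

theorem SE9F_mono (h0 : 0 < η) (h : η ≤ η') (ht : 0 ≤ t) :
    SE9F L hΦ hε f₀ η t ≤ SE9F L hΦ hε f₀ η' t := by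
  unfold SE9F
  exact mul_le_mul_right (XX_mono fun _ _ _ => mul_le_mul_right (ind_mono (TwoF_mono h0 h ht)) _) _

theorem SE9P_mono (h0 : 0 < η) (h : η ≤ η') (ht : 0 ≤ t) :
    SE9P L hΦ hε f₀ η t ≤ SE9P L hΦ hε f₀ η' t := by
  unfold SE9P
  exact mul_le_mul_right (XP_mono fun _ _ _ _ =>
    mul_le_mul_right (ind_mono (TwoP_mono h0 h ht)) _) _

theorem sSE_mono (h0 : 0 < η) (h : η ≤ η') (ht : 0 ≤ t) :
    sSE L hΦ hε b T' l₁ l₂ a f₀ η t w ≤ sSE L hΦ hε b T' l₁ l₂ a f₀ η' t w :=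
  add_le_add (add_le_add (Nm_secS_mono h0 h ht) (SE9F_mono h0 h ht)) (SE9P_mono h0 h ht)

/-- **The second events are monotone in the stopping level.** -/
theorem dSE_mono (L : ℕ) (η η' ε t : ℝ) (h0 : 0 < η) (h : η ≤ η') (hε : 0 < ε) (ht : 0 ≤ t) :
    dSE b T' l₁ l₂ a hΦ f₀ w L η ε t ≤ dSE b T' l₁ l₂ a hΦ f₀ w L η' ε t := by
  rw [dSE_pos hε, dSE_pos hε]
  exact sSE_mono h0 h ht

theorem Nm_secS_le_sSE : Nm b T' l₁ l₂ a t (secS L hΦ hε f₀ η t w) ≤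
    sSE L hΦ hε b T' l₁ l₂ a f₀ η t w := by
  unfold sSE
  rw [add_assoc]
  exact le_self_add

theorem SE9F_le_sSE : SE9F L hΦ hε f₀ η t ≤ sSE L hΦ hε b T' l₁ l₂ a f₀ η t w := by
  unfold sSE
  exact le_add_right le_add_self

theorem SE9P_le_sSE : SE9P L hΦ hε f₀ η t ≤ sSE L hΦ hε b T' l₁ l₂ a f₀ η t w := by
  unfold sSE
  exact le_add_self

theorem SE9_le_sSE : SE9F L hΦ hε f₀ η t + SE9P L hΦ hε f₀ η t ≤
    sSE L hΦ hε b T' l₁ l₂ a f₀ η t w := by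
  unfold sSE
  rw [add_assoc]
  exact le_add_self

end Vale.Agent.P119.PB
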