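import Vale.Agent.P119.PB.P9DirR
import Vale.Agent.P119.PB.ContFin
import Vale.Agent.P119.PB.Par
import Vale.Agent.P119.PB.SE

/-!
# P119, block PROB, P9 (contamination): the input `BdF` and the second events (`helper185`)

* `CapT.capL`: CAP0 in the form of `CapL`;
* `bdF_of_par`: the input `BdF` of `in9_of`;
* `in9_of_par`: P9 for `SE = dSE`, from the remaining inputs.
-/

open MeasureTheory Filter Topology Set ProbabilityTheory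
open scoped ENNReal NNReal

noncomputable section

namespace Vale.Agent.P119.PB

open M CTree KU FB RB AU EX

variable {Φ : E3 → ℝ} {hΦ : IsPotential Φ} {f₀ : Ph → ℝ} {L : ℕ} {κ T b₀ b l₁ l₂ Q : ℝ}
  {m α a : ℕ → ℝ}

/-- CAP0 in the form of `CapL`. -/
theorem CapT.capL (h : CapT Φ f₀ L T b m) :
    ∃ ν, CapL Φ f₀ L T b (fun d => ENNReal.ofReal (m d)) ν := by
  obtain ⟨aty, h1, h2, h3⟩ := h
  refine ⟨fun ε c => aty ε c, ⟨h2, fun ε c => ?_, h3⟩⟩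
  have := h1 ε
  infer_instance

/-- The depth law is summable. -/
theorem Par.tsum_ne_top (hP : Par T b₀ m b l₁ l₂ Q α a) : ∑' n, ENNReal.ofReal (m n) ≠ ∞ := by
  have h1 := dmeas_univ_ne_top hP.wts hP.m0 hP.succ_mul_le
  have h2 : dmeas m univ = ∑' n, ENNReal.ofReal (m n) := by
    rw [← lintegral_one, lintegral_dmeas]
    simp only [mul_one]
  rwa [h2] at h1

/-- **The input `BdF`.** -/
theorem bdF_of_par (hP : Par T b₀ m b l₁ l₂ Q α a) {B : ℝ} (hB : RW.StableWith Φ B)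
    (hg : GoodDatum f₀ κ) {M₀ : ℝ} (hM : 0 ≤ M₀)
    (hf : ∀ z, f₀ z ≤ M₀ * Real.exp (-b₀ * ‖z.2‖ ^ 2))
    (hx : ∀ v : E3, ∫⁻ x : E3, ENNReal.ofReal (f₀ (x, v)) ≤
      ENNReal.ofReal (M₀ * Real.exp (-b₀ * ‖v‖ ^ 2)))
    (hcap : ∀ᶠ L in atTop, CapT Φ f₀ L T (b₀ / 2) m) : ∃ C, 0 ≤ C ∧ BdF hΦ f₀ T C := by
  have hb₀ := hP.b₀0
  have hK := Kdir_ne_top (b := b₀ / 2) (B := B) (Tm := T) hP.tsum_ne_top
  refine ⟨(Kdir (b₀ / 2) B T fun d => ENNReal.ofReal (m d)).toReal, ENNReal.toReal_nonneg, ?_⟩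
  unfold BdF
  rw [ENNReal.ofReal_toReal hK]
  filter_upwards [hcap] with L hL η hη _ ρ hρ
  obtain ⟨ν, hν⟩ := hL.capL
  exact dirF_wq hΦ hB hg hP.T0.le hb₀ hM hf hx (by positivity) hP.tsum_ne_top hν hη hρ

/-- **P9** for `SE = dSE`, from the bound of the direct contacts of the colliding pairs, of the
creation terms and of the exceptional sets. -/
theorem in9_of_par (hP : Par T b₀ m b l₁ l₂ Q α a) {B : ℝ} (hB : RW.StableWith Φ B)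
    (hg : GoodDatum f₀ κ) {M₀ : ℝ} (hM : 0 ≤ M₀)
    (hf : ∀ z, f₀ z ≤ M₀ * Real.exp (-b₀ * ‖z.2‖ ^ 2))
    (hx : ∀ v : E3, ∫⁻ x : E3, ENNReal.ofReal (f₀ (x, v)) ≤
      ENNReal.ofReal (M₀ * Real.exp (-b₀ * ‖v‖ ^ 2)))
    (hcap : ∀ᶠ L in atTop, CapT Φ f₀ L T (b₀ / 2) m)
    {CP K : ℝ} {cr : ℕ → ℝ} (hCP : 0 ≤ CP) (hK : 1 ≤ K) (hcr : ∀ L, 0 ≤ cr L)
    (hcs : KE.SuperExp cr) (hbP : BdP hΦ f₀ T CP) (hbC : BdC hΦ f₀ T K cr) (hbE : BdE hΦ f₀ T)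
    {Θ : ℕ → ℝ → ℝ → ℝ → ℝ≥0∞} :
    ∃ C K cr, Cst C K cr ∧ In9 T C K cr (dD hΦ f₀) Θ (dSE b T l₁ l₂ a hΦ f₀ T) := by
  obtain ⟨CF, hCF, hbF⟩ := bdF_of_par (hΦ := hΦ) hP hB hg hM hf hx hcap
  refine ⟨CF + CP, K, cr, ⟨by linarith, hK, hcr, hcs⟩, ?_⟩
  refine in9_of hg hCF hCP hK (fun L η ε hε t hη ht => ?_) hbF hbP hbC hcr hbE
  rw [dSE_pos hε]
  exact SE9_le_sSE

end Vale.Agent.P119.PB
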