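import Vale.Agent.P119.PB.Op5
import Vale.Agent.P119.FL.Front

/-!
# P119, block PROB: quenched source terms of the first-order recursion (`helper347`)

* `Nm_quench_le`: the norm of an expected value over a quenched environment;
* `lctc_family`: a Gaussian line in contact with a finite family of targets, in a time window;
* `felt_flux`: a Gaussian line which hits one of finitely many lines (felt trees);
* `pctc_family`: a Gaussian pair in contact with a finite family of targets after its hit.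
-/

open MeasureTheory Set Filter Topology Metric ProbabilityTheory
open scoped ENNReal

namespace Vale.Agent.P119.PB

open KU FL M

variable {Φ : E3 → ℝ} {ε : ℝ}

/-! ### Expected values over an environment -/

section quench

variable {Ω : Type*} [MeasurableSpace Ω]

theorem measurable_quench {g : Src × Ω → ℝ≥0∞} (hg : Measurable g) (s : ℝ) (n : ℕ) :
    Measurable fun q : Ph × Ω => g ((s, q.1, n), q.2) := by
  have h5 : Measurable fun q : Ph × Ω => ((q.1, n) : Ph × ℕ) :=
    measurable_fst.prodMk measurable_const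
  have h6 : Measurable fun q : Ph × Ω => ((s, q.1, n) : Src) :=
    (measurable_const : Measurable fun _ : Ph × Ω => s).prodMk h5
  exact hg.comp (h6.prodMk measurable_snd)

/-- **The norm of an expected value.** -/
theorem Nm_quench_le {P : Measure Ω} [SFinite P] {b T t l₁ l₂ B : ℝ} {a : ℕ → ℝ} (hb : 0 < b)
    (hT : 0 < T) (htT : t ≤ T) (hB : ∀ s ∈ Icc 0 t, ∀ n, wgt l₁ l₂ a s n ≤ B)
    {g : Src × Ω → ℝ≥0∞} (hg : Measurable g) {G : ℝ → Ω → ℝ≥0∞}
    (hG : ∀ s ∈ Icc 0 t, ∀ n, ∀ᵐ ω ∂P, ∫⁻ z : Ph, gw (b / 2) z.2 * g ((s, z, n), ω) ≤ G s ω)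
    {x : ℝ≥0∞} (hx : ∀ s ∈ Icc 0 t, ∫⁻ ω, G s ω ∂P ≤ x) :
    Nm b T l₁ l₂ a t (fun σ => ∫⁻ ω, g (σ, ω) ∂P) ≤ ENNReal.ofReal B * x := by
  refine Nm_le_of_Y hB fun s hs n => le_trans ?_ (hx s hs)
  have hβ := le_bt hb hT (hs.2.trans htT)
  have hm := measurable_quench hg s n
  have hgz : Measurable fun z : Ph => gw (bt b T s) z.2 := (measurable_gw _).comp measurable_snd
  have hprod : Measurable fun q : Ph × Ω => gw (bt b T s) q.1.2 * g ((s, q.1, n), q.2) :=
    (hgz.comp measurable_fst).mul hm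
  have h1 : Y b T (fun σ => ∫⁻ ω, g (σ, ω) ∂P) s n =
      ∫⁻ ω, (∫⁻ z : Ph, gw (bt b T s) z.2 * g ((s, z, n), ω)) ∂P := by
    rw [← lintegral_lintegral_swap hprod.aemeasurable]
    unfold Y
    refine lintegral_congr fun z => ?_
    have hz : Measurable fun ω : Ω => ((z, ω) : Ph × Ω) := measurable_prodMk_left
    have h3 : Measurable fun ω : Ω => g ((s, z, n), ω) := hm.comp hz
    rw [lintegral_const_mul _ h3]
  rw [h1]
  refine lintegral_mono_ae ?_
  filter_upwards [hG s hs n] with ω hω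
  refine (lintegral_mono fun z => ?_).trans hω
  exact mul_le_mul_left (gw_anti hβ z.2) _

end quench

/-! ### A line in contact with targets -/

/-- A target cut to the window `[s, t']`. -/
noncomputable def _root_.Vale.Agent.P119.FL.Target.cut {t : ℝ} (T : Target t) (s t' : ℝ)
    (h : t' ≤ t) : Target t' where
  Y := T.Y
  a := max T.a s
  y' := T.y'
  cont := T.cont.mono (Icc_subset_Icc (le_max_left _ _) h)
  speed := T.speed.mono (le_max_left _ _) h fun _ _ => le_rfl
  meas := T.meas.mono_set (Icc_subset_Icc (le_max_left _ _) h)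

/-- The lines in contact with the path `Y` in the time window `[max a s, t]`. -/
def lctc (ε s t a : ℝ) (Y : ℝ → E3) : Set Ph :=
  {z | ∃ r ∈ Icc (max a s) t, ‖z.1 + r • z.2 - Y r‖ ≤ ε}

/-- The constant of the flux of a Gaussian line. -/
noncomputable def Cd (b : ℝ) : ℝ≥0∞ := 8 * bv * cF b 1 * ENNReal.ofReal (D2 b)

theorem Cd_ne_top (b : ℝ) : Cd b ≠ ∞ := by
  unfold Cd
  have h1 : bv ≠ ∞ := by
    unfold bv
    exact measure_ball_lt_top.ne
  exact ENNReal.mul_ne_top (ENNReal.mul_ne_top (ENNReal.mul_ne_top (by norm_num) h1) cF_ne_top)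
    ENNReal.ofReal_ne_top

theorem mem_ctc_zero {S : ℕ → Step} {s t a : ℝ} {Y : ℝ → E3} (l : Ph) (p : Fin 0 → Ph) :
    (l, p) ∈ ctc (linePath ε t S 0) s a Y ↔ l ∈ lctc ε s t a Y := by
  unfold ctc lctc
  simp only [mem_setOf_eq, Chain, time, true_and]
  rfl

theorem lctc_eq_empty {s t a : ℝ} {Y : ℝ → E3} (h : t < s) : lctc ε s t a Y = ∅ := by
  ext z
  simp only [lctc, mem_setOf_eq, mem_empty_iff_false, iff_false]
  rintro ⟨r, h1, -⟩
  have := (le_max_right a s).trans (h1.1.trans h1.2)
  linarith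

theorem measurableSet_lctc {s t a : ℝ} {Y : ℝ → E3} (hY : ContinuousOn Y (Icc a t)) :
    MeasurableSet (lctc ε s t a Y) := by
  have h := measurableSet_ctc (good_linePath ε t (fun _ => Step.keep) 0) (s := s) hY
  have h1 : Measurable fun l : Ph => ((l, fun i => i.elim0) : Ph × (Fin 0 → Ph)) :=
    measurable_id.prodMk measurable_const
  refine (h1 h).congr ?_
  ext l
  exact mem_ctc_zero l _

/-- **Flux of a Gaussian line into a family of targets.** -/
theorem lctc_family (hε : 0 < ε) {b s t : ℝ} (hb : 0 < b) {ι : Type*} (I : Finset ι)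
    (T : ι → Target t) :
    ∫⁻ z : Ph, gw b z.2 * ({z : Ph | ∃ i ∈ I, z ∈ lctc ε s t (T i).a (T i).Y}).indicator 1 z ≤
      ENNReal.ofReal (ε ^ 2) * Cd b * ∑ i ∈ I, ((T i).cut s t le_rfl).w ε := by
  rcases lt_or_ge t s with hts | hst
  · have h0 : {z : Ph | ∃ i ∈ I, z ∈ lctc ε s t (T i).a (T i).Y} = ∅ := by
      ext z
      simp only [mem_setOf_eq, mem_empty_iff_false, iff_false]
      rintro ⟨i, -, h⟩
      rw [lctc_eq_empty hts] at h
      exact h
    rw [h0]
    simp
  have h1 := first_flux_family (b := b) hε hb zero_le_one hst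
    (good_linePath ε t (fun _ => Step.keep) 0) I (fun i => (T i).cut s t le_rfl)
    (Ψ := fun l _ => gw b l.2 *
      ({z : Ph | ∃ i ∈ I, z ∈ lctc ε s t (T i).a (T i).Y}).indicator 1 l) (by
      intro l p hne
      by_cases hl : l ∈ {z : Ph | ∃ i ∈ I, z ∈ lctc ε s t (T i).a (T i).Y}
      · obtain ⟨i, hi, h2⟩ := hl
        refine ⟨⟨i, hi, ?_⟩, ?_⟩
        · rw [mem_ctc_zero]
          obtain ⟨r, h3, h4⟩ := h2
          refine ⟨r, ⟨?_, h3.2⟩, h4⟩
          exact max_le (max_le ((le_max_left _ _).trans h3.1) ((le_max_right _ _).trans h3.1))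
            ((le_max_right _ _).trans h3.1)
        · rw [indicator_of_mem (show l ∈ {z : Ph | ∃ i ∈ I, z ∈ lctc ε s t (T i).a (T i).Y} from
            ⟨i, hi, h2⟩)]
          unfold gw FL.wt
          simp
      · exact absurd (by simp only [indicator_of_notMem hl, mul_zero]) hne)
  have h2 : ∀ c : ℝ≥0∞, ∫⁻ _ : Fin 0 → Ph, c = c := by
    intro c
    rw [lintegral_const, volume_pi, Measure.pi_univ]
    simp
  simp only [h2] at h1
  refine h1.trans (le_of_eq ?_)
  unfold Cd
  simp only [pow_zero, Nat.factorial_zero, Nat.cast_one, Real.sqrt_one, div_one, mul_one]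
  ring

end Vale.Agent.P119.PB
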