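import Vale.Agent.P119.PB.Int5b
import Vale.Agent.P119.PB.Op6
import Vale.Agent.P119.PB.ContDef

/-!
# P119, block PROB, P8 (second events): the top reduction (`helper336`)

* `twoG`: the pairs of an exhaust and another outgoing line of a tree (the root line included);
* `frG`: the pairs of an exhaust and a line which is created by the hit of the line `σ`;
* `P2`, `FX`: their integrals over the gas;
* `Nm_secS_le`: the norm of `secS` is bounded by `P2` and `FX`.
-/

open MeasureTheory Filter Topology Set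
open scoped ENNReal NNReal

noncomputable section

namespace Vale.Agent.P119.PB

open M CTree KU FB RB AU FL TL

variable {Φ : E3 → ℝ} {ε : ℝ} {L : ℕ} {hΦ : IsPotential Φ} {hε : 0 < ε} {η t w b : ℝ} {σ : Src}
  {f₀ : Ph → ℝ} {κ : ℝ}

/-! ### The two sums -/

open Classical in
/-- The pairs of an exhaust of `T` and another outgoing line of `T`. -/
def twoG (Φ : E3 → ℝ) (ε : ℝ) (Ψ : Src → Src → ℝ≥0∞) (T : CTree) : ℝ≥0∞ :=
  exsum T fun x => Ψ (rsrc Φ ε x) (rsrc Φ ε T) +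
    exsum T fun y => if x = y then 0 else Ψ (rsrc Φ ε x) (rsrc Φ ε y)

/-- The pairs of an exhaust of `T` and a line which is created by the hit of the line `σ` on the root
line of `T`; `P` is the weight of the pair during the collision. -/
def frG (Φ : E3 → ℝ) (ε : ℝ) (Ψ : Src → Src → ℝ≥0∞) (P : Src → Src → Ph → ℝ≥0∞) (σ : Src)
    (T : CTree) : ℝ≥0∞ :=
  exsum T fun x => Ψ (rsrc Φ ε x)
      (sepT Φ ε (σ.2.1, ln Φ ε T), (sc2 Φ ε (σ.2.1, ln Φ ε T)).1, max σ.2.2 T.depth + 1) +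
    Ψ (rsrc Φ ε x)
      (sepT Φ ε (σ.2.1, ln Φ ε T), (sc2 Φ ε (σ.2.1, ln Φ ε T)).2, max σ.2.2 T.depth + 1) +
    Ψ (rsrc Φ ε x) (hitT ε (σ.2.1, ln Φ ε T), ln Φ ε T, T.depth) +
    P (rsrc Φ ε x) σ (ln Φ ε T)

theorem secN_le {V : Finset Src} {T : CTree} :
    secN L hΦ hε η t w V σ T ≤ frG Φ ε (gI L hΦ hε η t V) (pI L hΦ hε η t w V) σ T +
      twoG Φ ε (gI L hΦ hε η t V) T := by
  unfold secN frG twoG
  rw [exsum_add]
  refine add_le_add le_rfl (exsum_mono fun x _ => ?_)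
  exact le_add_self

theorem frG_mono {Ψ Ψ' : Src → Src → ℝ≥0∞} {P P' : Src → Src → Ph → ℝ≥0∞} {T : CTree}
    (h : ∀ e m, Ψ e m ≤ Ψ' e m) (h' : ∀ e z, P e σ z ≤ P' e σ z) :
    frG Φ ε Ψ P σ T ≤ frG Φ ε Ψ' P' σ T :=
  exsum_mono fun _ _ => add_le_add (add_le_add (add_le_add (h _ _) (h _ _)) (h _ _)) (h' _ _)

theorem twoG_mono {Ψ Ψ' : Src → Src → ℝ≥0∞} {T : CTree}
    (h : ∀ e m, Ψ e m ≤ Ψ' e m) : twoG Φ ε Ψ T ≤ twoG Φ ε Ψ' T := by
  classical
  refine exsum_mono fun x _ => add_le_add (h _ _) (exsum_mono fun y _ => ?_)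
  by_cases hxy : x = y
  · rw [if_pos hxy, if_pos hxy]
  · rw [if_neg hxy, if_neg hxy]; exact h _ _

/-- The birth of the line `σ` can be replaced by an earlier one. -/
theorem PairC_birth {V : Finset Src} {s s' : ℝ} {z z' : Ph} {n n' : ℕ} (hη : 0 < η) (ht : 0 ≤ t)
    (hss : s' ≤ s) (hw : t ≤ s' + w) (h : PairC L hΦ hε η t w V (s, z, n) z') :
    PairC L hΦ hε η t w V (s', z, n') z' := by
  obtain ⟨h1, h2, r, h3, h4, h5⟩ := h
  refine ⟨h1, hss.trans_lt h2, r, h3, le_min (h4.trans (min_le_left _ _)) ?_, h5⟩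
  exact ((h4.trans (min_le_left _ _)).trans (hz_le hη ht)).trans hw

theorem pI_birth {V : Finset Src} {e : Src} {s s' : ℝ} {z z' : Ph} {n n' : ℕ} (hη : 0 < η)
    (ht : 0 ≤ t) (hss : s' ≤ s) (hw : t ≤ s' + w) :
    pI L hΦ hε η t w V e (s, z, n) z' ≤ pI L hΦ hε η t w V e (s', z, n') z' := by
  classical
  unfold pI
  exact ind_mono fun h => ⟨h.1, PairC_birth hη ht hss hw h.2⟩

theorem hitI_birth {s s' : ℝ} {z z' : Ph} {n n' : ℕ} (hss : s' ≤ s)
    (h : hitI ε t (s, z, n) z') : hitI ε t (s', z, n') z' := ⟨h.1, hss.trans_lt h.2.1, h.2.2⟩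

theorem frG_birth {V : Finset Src} {T : CTree} {s s' : ℝ} {z : Ph} {n : ℕ} (hη : 0 < η)
    (ht : 0 ≤ t) (hss : s' ≤ s) (hw : t ≤ s' + w) :
    frG Φ ε (gI L hΦ hε η t V) (pI L hΦ hε η t w V) (s, z, n) T ≤
      frG Φ ε (gI L hΦ hε η t V) (pI L hΦ hε η t w V) (s', z, n) T :=
  exsum_mono fun _ _ => add_le_add le_rfl (pI_birth hη ht hss hw)

/-! ### Measurability -/

open Classical in
theorem measurable_twoG {X : Type} [MeasurableSpace X] {V : X → Finset Src} {T : X → CTree}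
    (hV : MM.RS fun x => (V x : Set Src)) (hT : Measurable T) :
    Measurable fun x => twoG Φ ε (gI L hΦ hε η t (V x)) (T x) := by
  have hV1 : MM.RS fun p : X × CTree => (V p.1 : Set Src) := hV.comp measurable_fst
  have hT1 : Measurable fun p : X × CTree => T p.1 := hT.comp measurable_fst
  have hy : Measurable fun p : X × CTree => p.2 := measurable_snd
  have hr : Measurable fun p : X × CTree => rsrc Φ ε p.2 := RM.meas_rsrc hΦ hε hy
  have hrT : Measurable fun p : X × CTree => rsrc Φ ε (T p.1) := RM.meas_rsrc hΦ hε hT1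
  have c0 : ∀ c : ℝ, Measurable fun _ : X × CTree => c := fun c => measurable_const
  unfold twoG
  refine RM.measurable_exsum' hT (F := fun x y =>
    gI L hΦ hε η t (V x) (rsrc Φ ε y) (rsrc Φ ε (T x)) +
    exsum (T x) fun y' => if y = y' then 0 else
      gI L hΦ hε η t (V x) (rsrc Φ ε y) (rsrc Φ ε y')) ?_
  refine Measurable.add ?_ ?_
  · exact measurable_gI hV1 (c0 η) (c0 t) hr hrT
  · refine RM.measurable_exsum' (X := X × CTree) hT1 (F := fun p y' =>
      if p.2 = y' then 0 else gI L hΦ hε η t (V p.1) (rsrc Φ ε p.2) (rsrc Φ ε y')) ?_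
    refine Measurable.ite (measurableSet_eq_fun measurable_fst.snd measurable_snd)
      measurable_const ?_
    exact measurable_gI (hV1.comp measurable_fst) measurable_const
      measurable_const (hr.comp measurable_fst) (RM.meas_rsrc hΦ hε measurable_snd)

theorem measurable_frG {X : Type} [MeasurableSpace X] {V : X → Finset Src} {T : X → CTree}
    {f : X → Src} (hV : MM.RS fun x => (V x : Set Src)) (hT : Measurable T) (hf : Measurable f) :
    Measurable fun x => frG Φ ε (gI L hΦ hε η t (V x)) (pI L hΦ hε η t w (V x)) (f x) (T x) := by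
  have hV1 : MM.RS fun p : X × CTree => (V p.1 : Set Src) := hV.comp measurable_fst
  have hT1 : Measurable fun p : X × CTree => T p.1 := hT.comp measurable_fst
  have hf1 : Measurable fun p : X × CTree => f p.1 := hf.comp measurable_fst
  have hy : Measurable fun p : X × CTree => p.2 := measurable_snd
  have hr : Measurable fun p : X × CTree => rsrc Φ ε p.2 := RM.meas_rsrc hΦ hε hy
  have hln : Measurable fun p : X × CTree => ln Φ ε (T p.1) :=
    (M.measurable_ln hΦ hε.ne').comp hT1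
  have hq : Measurable fun p : X × CTree => ((f p.1).2.1, ln Φ ε (T p.1)) :=
    (measurable_fst.comp (measurable_snd.comp hf1)).prodMk hln
  have hh : Measurable fun p : X × CTree => hitT ε ((f p.1).2.1, ln Φ ε (T p.1)) :=
    measurable_hitT.comp hq
  have hs : Measurable fun p : X × CTree => sepT Φ ε ((f p.1).2.1, ln Φ ε (T p.1)) :=
    (measurable_sepT hΦ).comp hq
  have hdT : Measurable fun p : X × CTree => (T p.1).depth := M.measurable_depth.comp hT1
  have hd : Measurable fun p : X × CTree => max (f p.1).2.2 (T p.1).depth + 1 :=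
    ((measurable_snd.comp (measurable_snd.comp hf1)).max hdT).add_const 1
  have hsc := (measurable_sc2 hΦ hε.ne').comp hq
  have c0 : ∀ c : ℝ, Measurable fun _ : X × CTree => c := fun c => measurable_const
  unfold frG
  refine RM.measurable_exsum' hT (F := fun x y =>
    (gI L hΦ hε η t (V x) (rsrc Φ ε y)
        (sepT Φ ε ((f x).2.1, ln Φ ε (T x)), (sc2 Φ ε ((f x).2.1, ln Φ ε (T x))).1,
          max (f x).2.2 (T x).depth + 1) +
      gI L hΦ hε η t (V x) (rsrc Φ ε y)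
        (sepT Φ ε ((f x).2.1, ln Φ ε (T x)), (sc2 Φ ε ((f x).2.1, ln Φ ε (T x))).2,
          max (f x).2.2 (T x).depth + 1) +
      gI L hΦ hε η t (V x) (rsrc Φ ε y)
        (hitT ε ((f x).2.1, ln Φ ε (T x)), ln Φ ε (T x), (T x).depth) +
      pI L hΦ hε η t w (V x) (rsrc Φ ε y) (f x) (ln Φ ε (T x)))) ?_
  refine Measurable.add (Measurable.add (Measurable.add ?_ ?_) ?_) ?_
  · exact measurable_gI hV1 (c0 η) (c0 t) hr (hs.prodMk (hsc.fst.prodMk hd))
  · exact measurable_gI hV1 (c0 η) (c0 t) hr (hs.prodMk (hsc.snd.prodMk hd))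
  · exact measurable_gI hV1 (c0 η) (c0 t) hr (hh.prodMk (hln.prodMk hdT))
  · exact measurable_pI hV1 (c0 η) (c0 t) (c0 w) hr hf1 hln

/-! ### The functionals -/

variable (L hΦ hε)

/-- The pairs of outgoing lines of the alive trees. -/
def P2 (f₀ : Ph → ℝ) (η t : ℝ) : ℝ≥0∞ :=
  (muE ε)⁻¹ * XX Φ ε L f₀ t fun V T => ENNReal.ofReal (1 + ‖(ln Φ ε T).2‖ ^ 2) *
    twoG Φ ε (gI L hΦ hε η t V) T

/-- The pairs of an exhaust and a line created by the hit of a free line. -/
def FX (f₀ : Ph → ℝ) (b η t w : ℝ) (n : ℕ) : ℝ≥0∞ :=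
  ∫⁻ z : Ph, gw b z.2 * XX Φ ε L f₀ t fun V T => ind (hitI ε t (0, z, n) (ln Φ ε T)) *
    frG Φ ε (gI L hΦ hε η t V) (pI L hΦ hε η t w V) (0, z, n) T

variable {L hΦ hε}

theorem muE_ne_zero8 (hε : 0 < ε) : muE ε ≠ 0 := by
  have h := muE_mul hε
  intro h1
  rw [h1, zero_mul] at h
  exact zero_ne_one h

theorem flux_hitI (hε : 0 < ε) (hb : 0 < b) (ht : 0 ≤ t) (n : ℕ) (l : Ph) :
    ∫⁻ z : Ph, gw b z.2 * ind (hitI ε t (0, z, n) l) ≤
      (muE ε)⁻¹ * (ENNReal.ofReal Real.pi * I0 b * ENNReal.ofReal t) *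
        ENNReal.ofReal (1 + ‖l.2‖) := by
  have h := lintegral_hitG_le (s := 0) (t := t) hε hb le_rfl (ℓ := fun l : Ph => l)
    (G := fun _ : ℝ × Ph => (1 : ℝ≥0∞)) measurable_const l
  have h1 : ∀ z : Ph, hitG ε 0 t (fun l : Ph => l) (fun _ : ℝ × Ph => (1 : ℝ≥0∞)) z l =
      ind (hitI ε t (0, z, n) l) := by
    intro z
    unfold hitG
    by_cases hz : hitI ε t (0, z, n) l
    · rw [ind_of hz, indicator_of_mem (show l ∈ {x : Ph | Meets ε (z, x) ∧
        hitT ε (z, x) ∈ Ioc 0 t} from ⟨hz.1, hz.2.1, hz.2.2⟩)]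
    · rw [ind_of_not hz, indicator_of_notMem (show l ∉ {x : Ph | Meets ε (z, x) ∧
        hitT ε (z, x) ∈ Ioc 0 t} from fun h => hz ⟨h.1, h.2.1, h.2.2⟩)]
  simp only [h1] at h
  refine h.trans (le_of_eq ?_)
  have h2 : ENNReal.ofReal (ε ^ 2) = (muE ε)⁻¹ :=
    ENNReal.eq_inv_of_mul_eq_one_left (by rw [mul_comm]; exact muE_mul hε)
  rw [h2]
  simp only [lintegral_one, Measure.restrict_apply_univ, Real.volume_Ioc, sub_zero]
  ring

/-- `XX` depends measurably on parameters. -/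
theorem measurable_XX {X : Type} [MeasurableSpace X] (h₀ : GoodDatum f₀ κ) (hΦ : IsPotential Φ)
    (hε : 0 < ε) {H : X → Finset Src → CTree → ℝ≥0∞}
    (hH : Measurable fun p : X × (GC.Conf Ph × CTree) => H p.1 (wS (GC.pts p.2.1)) p.2.2) :
    Measurable fun x => XX Φ ε L f₀ t (H x) := by
  have hfin := GC.isFiniteMeasure_inten (ε := ε) h₀
  have hP := GC.isProbability_PP (ε := ε) h₀
  have hal : Measurable fun p : (X × GC.Conf Ph) × CTree =>
      ind (alT Φ ε L t (wS (GC.pts p.1.2)) p.2) :=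
    measurable_ind (measurableSet_alT hΦ hε (RM.rs_conf.comp measurable_fst.snd) measurable_snd
      measurable_const)
  have hH1 : Measurable fun p : (X × GC.Conf Ph) × CTree => H p.1.1 (wS (GC.pts p.1.2)) p.2 :=
    hH.comp (measurable_fst.fst.prodMk (measurable_fst.snd.prodMk measurable_snd))
  have h1 : Measurable fun p : (X × GC.Conf Ph) × CTree =>
      ind (alT Φ ε L t (wS (GC.pts p.1.2)) p.2) * H p.1.1 (wS (GC.pts p.1.2)) p.2 := hal.mul hH1
  have h2 : Measurable fun p : X × GC.Conf Ph => ∫⁻ T, ind (alT Φ ε L t (wS (GC.pts p.2)) T) *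
      H p.1 (wS (GC.pts p.2)) T ∂(tree (GC.inten f₀ ε) L) := h1.lintegral_prod_right'
  exact h2.lintegral_prod_right'

theorem meas_slice {X Y Z : Type} [MeasurableSpace X] [MeasurableSpace Y] [MeasurableSpace Z]
    {H : (X × Y) × Z → ℝ≥0∞} (h : Measurable H) (c : Y) :
    Measurable fun p : X × Z => H ((p.1, c), p.2) := by
  have h4 : Measurable fun p : X × Z => (((p.1, c), p.2) : (X × Y) × Z) :=
    (measurable_fst.prodMk measurable_const).prodMk measurable_snd
  exact h.comp h4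

theorem meas_slice₂ {X Y Z : Type} [MeasurableSpace X] [MeasurableSpace Y] [MeasurableSpace Z]
    {H : (X × Y) × Z → ℝ≥0∞} (h : Measurable H) (c : Y) (T : Z) :
    Measurable fun x : X => H ((x, c), T) := by
  have h4 : Measurable fun x : X => (((x, c), T) : (X × Y) × Z) :=
    (measurable_id.prodMk measurable_const).prodMk measurable_const
  exact h.comp h4

/-- Tonelli, three variables. -/
theorem lintegral_swap₃ {X Y Z : Type} [MeasurableSpace X] [MeasurableSpace Y] [MeasurableSpace Z]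
    {μ : Measure X} {ν : Measure Y} {ρ : Measure Z} [SFinite μ] [SFinite ν] [SFinite ρ]
    {H : (X × Y) × Z → ℝ≥0∞} (h : Measurable H) :
    ∫⁻ x, ∫⁻ y, ∫⁻ z, H ((x, y), z) ∂ρ ∂ν ∂μ = ∫⁻ y, ∫⁻ z, ∫⁻ x, H ((x, y), z) ∂μ ∂ρ ∂ν := by
  have h2 : Measurable fun p : X × Y => ∫⁻ z, H (p, z) ∂ρ := h.lintegral_prod_right'
  rw [lintegral_lintegral_swap (f := fun x y => ∫⁻ z, H ((x, y), z) ∂ρ) h2.aemeasurable]
  refine lintegral_congr fun y => ?_
  exact lintegral_lintegral_swap (f := fun x z => H ((x, y), z)) (meas_slice h y).aemeasurable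

/-- Tonelli for `XX`. -/
theorem lintegral_XX {X : Type} [MeasurableSpace X] {ν : Measure X} [SFinite ν]
    (h₀ : GoodDatum f₀ κ) (hΦ : IsPotential Φ)
    (hε : 0 < ε) {H : X → Finset Src → CTree → ℝ≥0∞}
    (hH : Measurable fun p : X × (GC.Conf Ph × CTree) => H p.1 (wS (GC.pts p.2.1)) p.2.2) :
    ∫⁻ x, XX Φ ε L f₀ t (H x) ∂ν = XX Φ ε L f₀ t fun V T => ∫⁻ x, H x V T ∂ν := by
  have hfin := GC.isFiniteMeasure_inten (ε := ε) h₀
  have hP := GC.isProbability_PP (ε := ε) h₀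
  have hal : Measurable fun p : (X × GC.Conf Ph) × CTree =>
      ind (alT Φ ε L t (wS (GC.pts p.1.2)) p.2) :=
    measurable_ind (measurableSet_alT hΦ hε (RM.rs_conf.comp measurable_fst.snd) measurable_snd
      measurable_const)
  have hH1 : Measurable fun p : (X × GC.Conf Ph) × CTree => H p.1.1 (wS (GC.pts p.1.2)) p.2 :=
    hH.comp (measurable_fst.fst.prodMk (measurable_fst.snd.prodMk measurable_snd))
  have h1 : Measurable fun p : (X × GC.Conf Ph) × CTree =>
      ind (alT Φ ε L t (wS (GC.pts p.1.2)) p.2) * H p.1.1 (wS (GC.pts p.1.2)) p.2 := hal.mul hH1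
  have e := lintegral_swap₃ (μ := ν) (ν := GC.PP f₀ ε) (ρ := tree (GC.inten f₀ ε) L) h1
  unfold XX
  refine e.trans (lintegral_congr fun c => lintegral_congr fun T => ?_)
  have h3 : Measurable fun x : X => H x (wS (GC.pts c)) T := meas_slice₂ hH1 c T
  change ∫⁻ x, ind (alT Φ ε L t (wS (GC.pts c)) T) * H x (wS (GC.pts c)) T ∂ν =
    ind (alT Φ ε L t (wS (GC.pts c)) T) * ∫⁻ x, H x (wS (GC.pts c)) T ∂ν
  exact lintegral_const_mul _ h3

theorem XX_const_mul (h₀ : GoodDatum f₀ κ) (hΦ : IsPotential Φ) (hε : 0 < ε) {C : ℝ≥0∞}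
    (hC : C ≠ ∞) {H : Finset Src → CTree → ℝ≥0∞} :
    XX Φ ε L f₀ t (fun V T => C * H V T) = C * XX Φ ε L f₀ t H := by
  unfold XX
  rw [← lintegral_const_mul' _ _ hC]
  refine lintegral_congr fun c => ?_
  rw [← lintegral_const_mul' _ _ hC]
  refine lintegral_congr fun T => ?_
  ring

/-- The contribution of the pairs of outgoing lines of the tree which is hit by a free line. -/
theorem lintegral_two_le (h₀ : GoodDatum f₀ κ) (hΦ : IsPotential Φ) (hε : 0 < ε) (hb : 0 < b)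
    (ht : 0 ≤ t) (n : ℕ) {G : Finset Src → CTree → ℝ≥0∞}
    (hG : Measurable fun p : GC.Conf Ph × CTree => G (wS (GC.pts p.1)) p.2) :
    ∫⁻ z : Ph, gw b z.2 * XX Φ ε L f₀ t (fun V T => ind (hitI ε t (0, z, n) (ln Φ ε T)) * G V T) ≤
      (ENNReal.ofReal Real.pi * I0 b * ENNReal.ofReal t) * ((muE ε)⁻¹ * XX Φ ε L f₀ t fun V T =>
        ENNReal.ofReal (1 + ‖(ln Φ ε T).2‖) * G V T) := by
  have hln : Measurable fun T : CTree => ln Φ ε T := M.measurable_ln hΦ hε.ne'
  have hm : Measurable fun p : Ph × (GC.Conf Ph × CTree) =>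
      ind (hitI ε t (0, p.1, n) (ln Φ ε p.2.2)) * G (wS (GC.pts p.2.1)) p.2.2 :=
    (measurable_ind (measurableSet_hitI (measurable_const.prodMk
      (measurable_fst.prodMk measurable_const)) (hln.comp measurable_snd.snd))).mul
      (hG.comp measurable_snd)
  have hgz : Measurable fun z : Ph => gw b z.2 := (measurable_gw _).comp measurable_snd
  have h1 : ∀ z : Ph, gw b z.2 * XX Φ ε L f₀ t (fun V T => ind (hitI ε t (0, z, n) (ln Φ ε T)) *
      G V T) = XX Φ ε L f₀ t fun V T => gw b z.2 * (ind (hitI ε t (0, z, n) (ln Φ ε T)) * G V T) :=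
    fun z => (XX_const_mul h₀ hΦ hε ENNReal.ofReal_ne_top).symm
  simp only [h1]
  rw [lintegral_XX h₀ hΦ hε (H := fun z V T => gw b z.2 *
    (ind (hitI ε t (0, z, n) (ln Φ ε T)) * G V T)) ((hgz.comp measurable_fst).mul hm)]
  have hI0 : ENNReal.ofReal Real.pi * I0 b * ENNReal.ofReal t ≠ ∞ :=
    ENNReal.mul_ne_top (ENNReal.mul_ne_top ENNReal.ofReal_ne_top (I0_ne_top hb))
      ENNReal.ofReal_ne_top
  have hmu : (muE ε)⁻¹ ≠ ∞ := ENNReal.inv_ne_top.2 (muE_ne_zero8 hε)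
  rw [← XX_const_mul h₀ hΦ hε hmu, ← XX_const_mul h₀ hΦ hε hI0]
  refine XX_mono fun V T _ => ?_
  have hzm : Measurable fun z : Ph => gw b z.2 * ind (hitI ε t (0, z, n) (ln Φ ε T)) :=
    hgz.mul (measurable_ind (measurableSet_hitI (measurable_const.prodMk
      (measurable_id.prodMk measurable_const)) measurable_const))
  calc ∫⁻ z : Ph, gw b z.2 * (ind (hitI ε t (0, z, n) (ln Φ ε T)) * G V T)
      = (∫⁻ z : Ph, gw b z.2 * ind (hitI ε t (0, z, n) (ln Φ ε T))) * G V T := by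
        rw [← lintegral_mul_const _ hzm]
        refine lintegral_congr fun z => ?_
        ring
    _ ≤ ((muE ε)⁻¹ * (ENNReal.ofReal Real.pi * I0 b * ENNReal.ofReal t) *
        ENNReal.ofReal (1 + ‖(ln Φ ε T).2‖)) * G V T :=
        mul_le_mul_left (flux_hitI hε hb ht n _) _
    _ = _ := by ring

/-- **The top reduction**: the norm of the second events is bounded by `FX` and `P2`. -/
theorem Nm_secS_le (h₀ : GoodDatum f₀ κ) (hΦ : IsPotential Φ) (hε : 0 < ε) (hη : 0 < η)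
    (hb : 0 < b) {T l₁ l₂ B : ℝ} {a : ℕ → ℝ} (hT : 0 < T) (ht : 0 ≤ t) (htT : t ≤ T)
    (ha : ∀ n, 0 < a n) (h₁ : 0 ≤ l₁) (h₂ : 0 ≤ l₂) (hB : ∀ n, wgt l₁ l₂ a T n ≤ B) :
    Nm b T l₁ l₂ a t (secS L hΦ hε f₀ η t T) ≤
      (⨆ n, ENNReal.ofReal (wgt l₁ l₂ a T n) * FX L hΦ hε f₀ (b / 2) η t T n) +
        ENNReal.ofReal B * (2 * (ENNReal.ofReal Real.pi * I0 (b / 2) * ENNReal.ofReal t) *
          P2 L hΦ hε f₀ η t) := by
  have hwg : ∀ s ∈ Icc 0 t, ∀ n : ℕ, wgt l₁ l₂ a s n ≤ wgt l₁ l₂ a T n := by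
    intro s hs n
    unfold wgt
    refine mul_le_mul_of_nonneg_left (Real.exp_le_exp.2 ?_) (ha n).le
    exact mul_le_mul_of_nonneg_left (hs.2.trans htT) (by positivity)
  refine Nm_le fun s hs n => ?_
  refine (mul_le_mul_left (ENNReal.ofReal_le_ofReal (hwg s hs n)) _).trans ?_
  suffices hY : Y b T (secS L hΦ hε f₀ η t T) s n ≤ FX L hΦ hε f₀ (b / 2) η t T n +
      2 * (ENNReal.ofReal Real.pi * I0 (b / 2) * ENNReal.ofReal t) * P2 L hΦ hε f₀ η t by
    refine (mul_le_mul_right hY _).trans ?_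
    rw [mul_add]
    refine add_le_add (le_iSup (fun n => ENNReal.ofReal (wgt l₁ l₂ a T n) *
      FX L hΦ hε f₀ (b / 2) η t T n) n) (mul_le_mul_left (ENNReal.ofReal_le_ofReal (hB n)) _)
  have hln : Measurable fun T : CTree => ln Φ ε T := M.measurable_ln hΦ hε.ne'
  have hc : MM.RS fun p : GC.Conf Ph × CTree => (wS (GC.pts p.1) : Set Src) :=
    RM.rs_conf.comp measurable_fst
  have hm1 : Measurable fun p : Ph × (GC.Conf Ph × CTree) =>
      ind (hitI ε t (0, p.1, n) (ln Φ ε p.2.2)) * frG Φ ε (gI L hΦ hε η t (wS (GC.pts p.2.1)))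
        (pI L hΦ hε η t T (wS (GC.pts p.2.1))) (0, p.1, n) p.2.2 := by
    refine (measurable_ind (measurableSet_hitI (measurable_const.prodMk
      (measurable_fst.prodMk measurable_const)) (hln.comp measurable_snd.snd))).mul ?_
    exact measurable_frG (hc.comp measurable_snd) measurable_snd.snd
      (measurable_const.prodMk (measurable_fst.prodMk measurable_const))
  have hgz : Measurable fun z : Ph => gw (b / 2) z.2 := (measurable_gw _).comp measurable_snd
  have hmG : Measurable fun p : GC.Conf Ph × CTree =>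
      twoG Φ ε (gI L hΦ hε η t (wS (GC.pts p.1))) p.2 := measurable_twoG hc measurable_snd
  have h1 : ∀ z : Ph, gw (bt b T s) z.2 * secS L hΦ hε f₀ η t T (s, z, n) ≤
      gw (b / 2) z.2 * (XX Φ ε L f₀ t fun V T' => ind (hitI ε t (0, z, n) (ln Φ ε T')) *
        frG Φ ε (gI L hΦ hε η t V) (pI L hΦ hε η t T V) (0, z, n) T') +
      gw (b / 2) z.2 * (XX Φ ε L f₀ t fun V T' => ind (hitI ε t (0, z, n) (ln Φ ε T')) *
        twoG Φ ε (gI L hΦ hε η t V) T') := by
    intro z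
    rw [← mul_add]
    refine mul_le_mul' (gw_anti (le_bt hb hT (hs.2.trans htT)) _) ?_
    have hmz : Measurable fun p : CTree × GC.Conf Ph =>
        ind (hitI ε t (0, z, n) (ln Φ ε p.1)) * frG Φ ε (gI L hΦ hε η t (wS (GC.pts p.2)))
        (pI L hΦ hε η t T (wS (GC.pts p.2))) (0, z, n) p.1 :=
      hm1.comp (measurable_const.prodMk (measurable_snd.prodMk measurable_fst))
    rw [← XX_add hΦ hε hmz h₀]
    unfold secS XI
    refine XX_mono fun V T' _ => ?_
    rw [← mul_add]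
    refine mul_le_mul' (ind_mono (hitI_birth hs.1)) ?_
    unfold secW
    refine (mul_le_of_le_one_left zero_le (ind_le_one _)).trans (secN_le.trans ?_)
    refine add_le_add (frG_birth hη ht hs.1 (by linarith)) le_rfl
  unfold Y
  refine (lintegral_mono h1).trans ?_
  have hm2 : Measurable fun z : Ph => gw (b / 2) z.2 *
      (XX Φ ε L f₀ t fun V T' => ind (hitI ε t (0, z, n) (ln Φ ε T')) *
        frG Φ ε (gI L hΦ hε η t V) (pI L hΦ hε η t T V) (0, z, n) T') :=
    hgz.mul (measurable_XX h₀ hΦ hε (H := fun z V T' =>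
      ind (hitI ε t (0, z, n) (ln Φ ε T')) *
        frG Φ ε (gI L hΦ hε η t V) (pI L hΦ hε η t T V) (0, z, n) T') hm1)
  rw [lintegral_add_left hm2]
  refine add_le_add le_rfl ?_
  refine (lintegral_two_le h₀ hΦ hε (half_pos hb) ht n hmG).trans ?_
  rw [mul_comm 2, mul_assoc (ENNReal.ofReal Real.pi * I0 (b / 2) * ENNReal.ofReal t)]
  refine mul_le_mul' le_rfl ?_
  unfold P2
  rw [mul_left_comm]
  refine mul_le_mul' le_rfl ?_
  rw [← XX_const_mul h₀ hΦ hε (by norm_num : (2 : ℝ≥0∞) ≠ ∞)]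
  refine XX_mono fun V T' _ => ?_
  rw [← mul_assoc]
  refine mul_le_mul' ?_ le_rfl
  have h3 : (1 : ℝ) + ‖(ln Φ ε T').2‖ ≤ 2 * (1 + ‖(ln Φ ε T').2‖ ^ 2) := by
    nlinarith [norm_nonneg (ln Φ ε T').2, sq_nonneg (‖(ln Φ ε T').2‖ - 1)]
  refine (ENNReal.ofReal_le_ofReal h3).trans (le_of_eq ?_)
  rw [ENNReal.ofReal_mul (by norm_num : (0 : ℝ) ≤ 2)]
  congr 1
  norm_num

/-- The second events of a flying particle. -/
theorem TwoF_le {V : Finset Src} {T : CTree} (hT : T.depth ≤ L) :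
    ind (TwoF L hΦ hε η t V T) ≤ twoG Φ ε (gI L hΦ hε η t V) T := by
  classical
  by_cases h : TwoF L hΦ hε η t V T
  swap
  · rw [ind_of_not h]; exact zero_le
  rw [ind_of h]
  obtain ⟨e, he, m, hm, hme, hG⟩ := h
  unfold twoG
  refine le_trans ?_ (le_exsum he _)
  rcases hm with rfl | hm
  · exact le_add_right (one_le_gI hT hG)
  · refine le_add_left (le_trans ?_ (le_exsum hm _))
    rw [if_neg (Ne.symm hme)]
    exact one_le_gI ((exs_depth_le hm).trans hT) hG

theorem SE9F_le : (muE ε)⁻¹ * XX Φ ε L f₀ t (fun V T => ENNReal.ofReal (1 + ‖(ln Φ ε T).2‖ ^ 2) *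
    ind (TwoF L hΦ hε η t V T)) ≤ P2 L hΦ hε f₀ η t := by
  unfold P2
  refine mul_le_mul' le_rfl (XX_mono fun V T h => mul_le_mul' le_rfl (TwoF_le h.depth))

end Vale.Agent.P119.PB
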