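import Vale.Agent.P119.PB.Exc5
import Vale.Agent.P119.PB.Op9
import Vale.Agent.P119.PB.Op10
import Vale.Agent.P119.PB.Top8
import Vale.Agent.P119.PB.P9BdF
import Vale.Agent.P119.PB.ExhW
import Vale.Agent.P119.PB.Raw

/-!
# P119, block PROB: the norm of ONE STEP (`helper347`)

* `Nm_mul_le`, `measurable_XI`, `measurable_secS`, `measurable_overX`, `measurable_atyS_ker`;
* `KOp_anti`, `pairS_anti`: the Gaussian exponent;
* `Nm_step`: the norm of `theta_le_final`;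
* `in11_of_par`, `in10_of_par`: **the inequalities P11 and P10**.
-/

open MeasureTheory Filter Topology Set ProbabilityTheory
open scoped ENNReal NNReal

noncomputable section

namespace Vale.Agent.P119.PB

open M CTree KU FB RB AU FL TL

variable {Φ : E3 → ℝ} {ε : ℝ} {L : ℕ} {hΦ : IsPotential Φ} {hε : 0 < ε} {f₀ : Ph → ℝ} {κ : ℝ}

theorem Nm_mul_le {b T l₁ l₂ t : ℝ} {a : ℕ → ℝ} {c : ℝ≥0∞} (hc : c ≠ ∞) (θ : Src → ℝ≥0∞) :
    Nm b T l₁ l₂ a t (fun σ => c * θ σ) ≤ c * Nm b T l₁ l₂ a t θ := by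
  refine Nm_le fun s hs n => ?_
  have h1 : Y b T (fun σ => c * θ σ) s n = c * Y b T θ s n := by
    unfold Y
    rw [← lintegral_const_mul' _ _ hc]
    refine lintegral_congr fun z => ?_
    ring
  rw [h1, mul_left_comm]
  exact mul_le_mul_right (le_Nm hs n θ) _

/-- `XI` is measurable in the source. -/
theorem measurable_XI (h₀ : GoodDatum f₀ κ) (hΦ : IsPotential Φ) (hε : 0 < ε) {t : ℝ}
    {G : Src → Finset Src → CTree → ℝ≥0∞}
    (hG : Measurable fun p : Src × (GC.Conf Ph × CTree) => G p.1 (wS (GC.pts p.2.1)) p.2.2) :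
    Measurable fun σ => XI f₀ Φ ε L t σ (G σ) := by
  have h1 : Measurable fun p : Src × (GC.Conf Ph × CTree) =>
      ind (hitI ε t p.1 (ln Φ ε p.2.2)) :=
    measurable_ind (measurableSet_hitI measurable_fst
      ((M.measurable_ln hΦ hε.ne').comp measurable_snd.snd))
  exact measurable_XX (X := Src) h₀ hΦ hε
    (H := fun σ V T => ind (hitI ε t σ (ln Φ ε T)) * G σ V T) (h1.mul hG)

theorem measurable_secS (h₀ : GoodDatum f₀ κ) {η t w : ℝ} :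
    Measurable (secS L hΦ hε f₀ η t w) := by
  refine measurable_XI h₀ hΦ hε (G := fun σ V T => secW L hΦ hε η t w V σ T) ?_
  exact measurable_secW (RM.rs_conf.comp measurable_snd.fst) measurable_snd.snd measurable_fst

theorem measurable_overX (h₀ : GoodDatum f₀ κ) (hΦ : IsPotential Φ) (hε : 0 < ε) {t : ℝ} :
    Measurable (overX f₀ Φ ε L t) := by
  refine measurable_XI h₀ hΦ hε (G := fun σ _ T => ovr L σ T) ?_
  unfold ovr
  have h1 : Measurable fun p : Src × (GC.Conf Ph × CTree) => max p.1.2.2 p.2.2.depth + 1 :=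
    ((measurable_fst.snd.snd).max (M.measurable_depth.comp measurable_snd.snd)).add_const 1
  exact Measurable.ite (h1 (measurableSet_Ioi (a := L))) measurable_const measurable_const

theorem measurable_atyS_ker (h₀ : GoodDatum f₀ κ) (ν : Kernel (GC.Conf Ph) Src) [IsSFiniteKernel ν]
    (t : ℝ) : Measurable (atyS (GC.PP f₀ ε) (fun c => ν c) ε t) := by
  have hP : IsProbabilityMeasure (GC.PP f₀ ε) := GC.isProbability_PP (ε := ε) h₀
  have hp1 : Measurable fun p : Src => p.2.1 := measurable_fst.comp measurable_snd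
  have hS : MeasurableSet {q : (Src × GC.Conf Ph) × Src | Meets ε (q.1.1.2.1, q.2.2.1) ∧
      q.1.1.1 < hitT ε (q.1.1.2.1, q.2.2.1) ∧ hitT ε (q.1.1.2.1, q.2.2.1) ≤ t} := by
    have h1 : Measurable fun q : (Src × GC.Conf Ph) × Src => q.1.1 :=
      measurable_fst.comp measurable_fst
    have h2 : Measurable fun q : (Src × GC.Conf Ph) × Src =>
        ((q.1.1.2.1, q.2.2.1) : Ph × Ph) :=
      (hp1.comp h1).prodMk (hp1.comp measurable_snd)
    exact (measurableSet_meets.preimage h2).inter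
      ((measurableSet_lt (measurable_fst.comp h1) (measurable_hitT.comp h2)).inter
        (measurableSet_le (measurable_hitT.comp h2) measurable_const))
  have h1 := Kernel.measurable_kernel_prodMk_left
    (κ := ν.comap (Prod.snd : Src × GC.Conf Ph → GC.Conf Ph) measurable_snd) hS
  have h2 : Measurable fun q : Src × GC.Conf Ph => (ν q.2) {p : Src |
      Meets ε (q.1.2.1, p.2.1) ∧ q.1.1 < hitT ε (q.1.2.1, p.2.1) ∧
        hitT ε (q.1.2.1, p.2.1) ≤ t} := h1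
  unfold atyS
  exact h2.lintegral_prod_right'.const_mul _

/-- The operator for a larger Gaussian exponent. -/
theorem KOp_anti {b b' t : ℝ} (h : b' ≤ b) (α : ℕ → ℝ≥0∞) (θ : Src → ℝ≥0∞) (σ : Src) :
    KOp Φ ε b t α θ σ ≤ KOp Φ ε b' t α θ σ := by
  unfold KOp
  refine mul_le_mul_right (ENNReal.tsum_le_tsum fun n => ?_) _
  refine mul_le_mul_right ?_ _
  refine lintegral_mono fun z' => ?_
  exact mul_le_mul_left (gw_anti h z'.2) _

theorem pairS_anti {b b' η t w : ℝ} (h : b' ≤ b) (α : ℕ → ℝ≥0∞) (σ : Src) :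
    pairS L hΦ hε f₀ b α η t w σ ≤ pairS L hΦ hε f₀ b' α η t w σ := by
  unfold pairS
  refine mul_le_mul_right (ENNReal.tsum_le_tsum fun n => ?_) _
  refine mul_le_mul_right ?_ _
  refine lintegral_mono fun z' => ?_
  exact mul_le_mul_left (gw_anti h z'.2) _

/-- The exceptional term, truncated to the depths `≤ L`. -/
def excL (L : ℕ) (hΦ : IsPotential Φ) (hε : 0 < ε) (f₀ : Ph → ℝ) (θ t : ℝ) (σ : Src) : ℝ≥0∞ :=
  if σ.2.2 ≤ L then
      ∫⁻ c, (ind (Irr Φ ε L (wS (GC.pts c)) σ t) +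
        sumHit Φ ε L t σ (BB L hΦ hε θ t (fun V S => ¬NoExc Φ ε L t σ V S) σ)
          (wS (GC.pts c))) ∂(GC.PP f₀ ε) else 0

variable {T b₀ b l₁ l₂ Q : ℝ} {m α a : ℕ → ℝ}

/-- **The norm of ONE STEP.** -/
theorem Nm_step (hP : Par T b₀ m b l₁ l₂ Q α a) (h₀ : GoodDatum f₀ κ) {η η' t w : ℝ}
    (ht : t ∈ Icc 0 T) (hη : 0 < η) (hηη : η < η') {ν : Kernel (GC.Conf Ph) Src}
    [IsSFiniteKernel ν]
    (hcap : ∀ c, ∀ F : Src → ℝ≥0∞, Measurable F →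
      ∫⁻ T' in Cap.AL Φ ε L T (GC.pts c : Set Ph), F (rsrc Φ ε T') ∂(tree (GC.inten f₀ ε) L) ≤
        muE ε * (typI (b₀ / 2) T (fun d => ENNReal.ofReal (m d)) F + ∫⁻ p, F p ∂(ν c))) :
    Nm b T l₁ l₂ a t (thL L hΦ hε f₀ η t w) ≤
      Nm b T l₁ l₂ a t (dirS L hΦ hε f₀ η t w) +
      (Nm b T l₁ l₂ a t (feltS L hΦ hε f₀ η t w) +
      (Nm b T l₁ l₂ a t (pairS L hΦ hε f₀ b (fun n => ENNReal.ofReal (α n)) η' t w) +
      (ENNReal.ofReal (1 / 4) * Nm b T l₁ l₂ a t (thL L hΦ hε f₀ η' t w) +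
      (4 * Nm b T l₁ l₂ a t (atyS (GC.PP f₀ ε) (fun c => ν c) ε t) +
      (Nm b T l₁ l₂ a t (overX f₀ Φ ε L t) +
      (Nm b T l₁ l₂ a t (secS L hΦ hε f₀ η' t w) +
      Nm b T l₁ l₂ a t (excL L hΦ hε f₀ ((η' - η) / 2) t))))))) := by
  have hPr : IsProbabilityMeasure (GC.PP f₀ ε) := GC.isProbability_PP (ε := ε) h₀
  have hT := hP.T0
  have hb₀ := hP.b₀0
  have hbb : b ≤ b₀ / 2 := by rw [hP.hb]; linarith
  set αm : ℕ → ℝ≥0∞ := fun n => ENNReal.ofReal (m n) * ENNReal.ofReal (1 + T) with hαm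
  have hαle : ∀ n, αm n ≤ ENNReal.ofReal (α n) := by
    intro n
    rw [hαm]
    change ENNReal.ofReal (m n) * ENNReal.ofReal (1 + T) ≤ _
    rw [mul_comm, ← ENNReal.ofReal_mul (by linarith)]
    refine ENNReal.ofReal_le_ofReal (hP.le_α n ?_)
    have h1 : (1 : ℝ) ≤ ((n : ℝ) + 1) ^ 2 * 64 ^ n := by
      have h2 : (1 : ℝ) ≤ 64 ^ n := one_le_pow₀ (by norm_num)
      have h3 : (1 : ℝ) ≤ ((n : ℝ) + 1) ^ 2 := by
        have : (0 : ℝ) ≤ n := Nat.cast_nonneg n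
        nlinarith
      nlinarith
    nlinarith
  have mTh : Measurable (thL L hΦ hε f₀ η' t w) := RM.measurable_thL _ _ _
  -- the pointwise inequality
  have key : ∀ σ : Src, σ.1 ∈ Icc 0 t → thL L hΦ hε f₀ η t w σ ≤
      (dirS L hΦ hε f₀ η t w + (feltS L hΦ hε f₀ η t w +
        (pairS L hΦ hε f₀ b (fun n => ENNReal.ofReal (α n)) η' t w +
        (KOp Φ ε b t (fun n => ENNReal.ofReal (α n)) (thL L hΦ hε f₀ η' t w) +
        ((fun σ => 4 * atyS (GC.PP f₀ ε) (fun c => ν c) ε t σ) +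
        (overX f₀ Φ ε L t + (secS L hΦ hε f₀ η' t w +
          excL L hΦ hε f₀ ((η' - η) / 2) t))))))) σ := by
    intro σ hσ
    by_cases hL : σ.2.2 ≤ L
    · have h1 := theta_le_final (hΦ := hΦ) (hε := hε) (w := w) h₀ ht.1 ht.2 hη hηη hσ.1 hL
        (ν := fun c => ν c) hcap
      have h2 : pairS L hΦ hε f₀ (b₀ / 2) αm η' t w σ ≤
          pairS L hΦ hε f₀ b (fun n => ENNReal.ofReal (α n)) η' t w σ := by
        refine (pairS_anti hbb αm σ).trans ?_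
        unfold pairS
        exact mul_le_mul_right (ENNReal.tsum_le_tsum fun n => mul_le_mul_left (hαle n) _) _
      have h3 : KOp Φ ε (b₀ / 2) t αm (thL L hΦ hε f₀ η' t w) σ ≤
          KOp Φ ε b t (fun n => ENNReal.ofReal (α n)) (thL L hΦ hε f₀ η' t w) σ :=
        (KOp_anti hbb αm _ σ).trans (KOp_mono_α hαle _ σ)
      have h4 : thL L hΦ hε f₀ η t w σ = theta L hΦ hε f₀ η t w σ := if_pos hL
      have h5 : excL L hΦ hε f₀ ((η' - η) / 2) t σ =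
          ∫⁻ c, (ind (Irr Φ ε L (wS (GC.pts c)) σ t) +
            sumHit Φ ε L t σ (BB L hΦ hε ((η' - η) / 2) t (fun V S => ¬NoExc Φ ε L t σ V S) σ)
            (wS (GC.pts c))) ∂(GC.PP f₀ ε) := if_pos hL
      rw [h4]
      simp only [Pi.add_apply]
      rw [h5]
      refine h1.trans (le_trans (add_le_add (add_le_add (add_le_add (add_le_add le_rfl
        (add_le_add (add_le_add h2 h3) le_rfl)) le_rfl) le_rfl) le_rfl) (le_of_eq ?_))
      ring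
    · have h4 : thL L hΦ hε f₀ η t w σ = 0 := if_neg hL
      rw [h4]
      exact zero_le
  refine (Nm_mono key).trans ?_
  refine (Nm_add_le (RM.measurable_dirS _ _ _) _).trans (add_le_add le_rfl ?_)
  refine (Nm_add_le (RM.measurable_feltS _ _ _) _).trans (add_le_add le_rfl ?_)
  refine (Nm_add_le (RM.measurable_pairS _ _ _) _).trans (add_le_add le_rfl ?_)
  refine (Nm_add_le (measurable_KOp hΦ hε.ne' b t _ mTh) _).trans (add_le_add ?_ ?_)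
  · exact hP.contr Φ hΦ ε hε t ht.2 _ mTh
  refine (Nm_add_le ((measurable_atyS_ker h₀ ν t).const_mul 4) _).trans (add_le_add ?_ ?_)
  · exact Nm_mul_le (by norm_num) _
  refine (Nm_add_le (measurable_overX h₀ hΦ hε) _).trans (add_le_add le_rfl ?_)
  exact Nm_add_le (measurable_secS h₀) _

/-! ### Monotonicity in the time -/

theorem DD_mono_time {η η' s t : ℝ} (hη : 0 < η) (hηη : η ≤ η') (hs : 0 ≤ s) (hst : s ≤ t) :
    DD L hΦ hε f₀ η s ≤ DD L hΦ hε f₀ η' t := by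
  unfold DD
  gcongr with c
  exact eW_mono ((hz_mono_right hst hη hs).trans (hz_mono_left hηη hη (hs.trans hst)))

theorem FF_mono_time {η η' s t : ℝ} (hη : 0 < η) (hηη : η ≤ η') (hs : 0 ≤ s) (hst : s ≤ t) :
    FF L hΦ hε f₀ η s ≤ FF L hΦ hε f₀ η' t := by
  unfold FF
  gcongr with c
  exact fW_mono ((hz_mono_right hst hη hs).trans (hz_mono_left hηη hη (hs.trans hst)))

/-- The weights are summable. -/
theorem Wts.tsum_ne_top (hw : Wts α a Q) : ∑' n, ENNReal.ofReal (α n) ≠ ∞ := by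
  obtain ⟨B, hB⟩ := hw.w3 0
  have hB' : ∀ n, a n ≤ B := fun n => by
    have := hB n
    rwa [zero_mul, Real.exp_zero, mul_one] at this
  have h1 : ∑' n, ENNReal.ofReal (α n) ≤ ENNReal.ofReal B * ENNReal.ofReal Q := by
    refine le_trans ?_ (mul_le_mul_right hw.w2 _)
    rw [← ENNReal.tsum_mul_left]
    refine ENNReal.tsum_le_tsum fun n => ?_
    have hB0 : 0 ≤ B := (hw.apos 0).le.trans (hB' 0)
    rw [← ENNReal.ofReal_mul hB0]
    refine ENNReal.ofReal_le_ofReal ?_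
    have h2 := hw.apos n
    have h3 := hw.α0 n
    calc α n = a n * (α n / a n) := by field_simp
      _ ≤ B * (α n / a n) := mul_le_mul_of_nonneg_right (hB' n) (by positivity)
  exact ne_top_of_le_ne_top (ENNReal.mul_ne_top ENNReal.ofReal_ne_top ENNReal.ofReal_ne_top) h1

/-- A finite constant times a small quantity. -/
theorem exists_small {C : ℝ≥0∞} (hC : C ≠ ∞) {M ρ : ℝ} (hM : 0 ≤ M) (hρ : 0 < ρ) :
    ∀ᶠ ε in 𝓝[>] (0 : ℝ), C * (ENNReal.ofReal ε * ENNReal.ofReal M) ≤ ENNReal.ofReal ρ := by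
  have h1 : 0 ≤ C.toReal * M := mul_nonneg ENNReal.toReal_nonneg hM
  have h2 : 0 < ρ / (C.toReal * M + 1) := by positivity
  filter_upwards [Ioc_mem_nhdsGT h2] with ε hε
  rw [← ENNReal.ofReal_toReal hC, ← ENNReal.ofReal_mul hε.1.le,
    ← ENNReal.ofReal_mul ENNReal.toReal_nonneg]
  refine ENNReal.ofReal_le_ofReal ?_
  have h3 := (le_div_iff₀ (by positivity)).1 hε.2
  have h4 := hε.1
  nlinarith

/-- The limit of the atypical terms. -/
theorem exists_small_lim {C : ℝ≥0∞} (hC : C ≠ ∞) {g : ℝ → ℝ≥0∞}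
    (hg : Tendsto g (𝓝[>] 0) (𝓝 0)) {ρ : ℝ} (hρ : 0 < ρ) :
    ∀ᶠ ε in 𝓝[>] (0 : ℝ), C * g ε ≤ ENNReal.ofReal ρ := by
  have h1 : Tendsto (fun ε => C * g ε) (𝓝[>] 0) (𝓝 (C * 0)) :=
    ENNReal.Tendsto.const_mul hg (Or.inr hC)
  rw [mul_zero] at h1
  exact h1.eventually_le_const (ENNReal.ofReal_pos.2 hρ)

/-- **ONE STEP, bound of the first order terms.** -/
theorem exists_step_bound (hΦ : IsPotential Φ) (hP : Par T b₀ m b l₁ l₂ Q α a) {B : ℝ}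
    (hB : RW.StableWith Φ B)
    (hg : GoodDatum f₀ κ) {M₀ : ℝ} (hM : 0 ≤ M₀)
    (hf : ∀ z, f₀ z ≤ M₀ * Real.exp (-b₀ * ‖z.2‖ ^ 2))
    (hx : ∀ v : E3, ∫⁻ x : E3, ENNReal.ofReal (f₀ (x, v)) ≤
      ENNReal.ofReal (M₀ * Real.exp (-b₀ * ‖v‖ ^ 2)))
    (hcap : ∀ᶠ L in atTop, CapT Φ f₀ L T (b₀ / 2) m)
    (hI1 : ∀ᶠ L in atTop, Cap.InI1 Φ f₀ L T)
    (hE5 : ∀ᶠ L in atTop, Exc5 hΦ f₀ L T b l₁ l₂ a) :
    ∃ C : ℝ, 0 ≤ C ∧ ∃ cr : ℕ → ℝ, (∀ L, 0 ≤ cr L) ∧ KE.SuperExp cr ∧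
      ∀ᶠ L in atTop, ∀ η η' : ℝ, 0 < η → η < η' → ∀ ρ : ℝ, 0 < ρ →
        ∀ᶠ ε in 𝓝[>] (0 : ℝ), ∀ hε : 0 < ε, ∀ t ∈ Icc 0 T, ∀ w : ℝ, ∀ x y : ℝ≥0∞,
          (∀ s ∈ Icc 0 t, ∫⁻ r in Icc s (min t (s + w)), DD L hΦ hε f₀ η' r ≤ x) →
          (∀ s ∈ Icc 0 t, ∫⁻ r in Icc s (min t (s + w)), FF L hΦ hε f₀ η' r ≤ y) →
          Nm b T l₁ l₂ a t (thL L hΦ hε f₀ η t w) ≤ ENNReal.ofReal (cr L + ρ) +
            ENNReal.ofReal C * (x + y) + Nm b T l₁ l₂ a t (secS L hΦ hε f₀ η' t w) +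
            ENNReal.ofReal (1 / 4) * Nm b T l₁ l₂ a t (thL L hΦ hε f₀ η' t w) := by
  have hT := hP.T0
  have hb := hP.b0
  have hb₀ := hP.b₀0
  obtain ⟨Bw, hBw, hBw'⟩ := exists_wgt_le (T := T) hP.wts hP.l₁0 hP.l₂0
  obtain ⟨cr, hcr0, hcrs, hover⟩ := exists_Nm_overX hΦ hg hb₀ hT hM hf hx
    (b₁ := b₀ / 2) (by positivity) hP.tsum_ne_top hb hP.wts hP.l₁0 hP.l₂0
  have hα := hP.wts.tsum_ne_top
  set C₁ : ℝ≥0∞ := ENNReal.ofReal Bw * (Cd (b / 2) * (2 * ENNReal.ofReal (cDD B 0))) with hC₁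
  set C₂ : ℝ≥0∞ := ENNReal.ofReal Bw * (ENNReal.ofReal Real.pi * I0 (b / 2)) with hC₂
  set C₃ : ℝ≥0∞ := ENNReal.ofReal Bw * ((∑' n, ENNReal.ofReal (α n)) *
    (2 * Cp (b / 2) (FL.cS hΦ) T * (2 * ENNReal.ofReal (cDD B 0)))) with hC₃
  have hC₁t : C₁ ≠ ∞ := ENNReal.mul_ne_top ENNReal.ofReal_ne_top (ENNReal.mul_ne_top
    (Cd_ne_top _) (ENNReal.mul_ne_top (by norm_num) ENNReal.ofReal_ne_top))
  have hI0 : I0 (b / 2) ≠ ∞ := I0_ne_top (half_pos hb)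
  have hC₂t : C₂ ≠ ∞ := ENNReal.mul_ne_top ENNReal.ofReal_ne_top (ENNReal.mul_ne_top
    ENNReal.ofReal_ne_top hI0)
  have hC₃t : C₃ ≠ ∞ := ENNReal.mul_ne_top ENNReal.ofReal_ne_top (ENNReal.mul_ne_top hα
    (ENNReal.mul_ne_top (ENNReal.mul_ne_top (by norm_num) (Cp_ne_top _ _ _))
      (ENNReal.mul_ne_top (by norm_num) ENNReal.ofReal_ne_top)))
  set C₄ : ℝ≥0∞ := C₁ + C₂ + C₃ with hC₄
  have hC₄t : C₄ ≠ ∞ := ENNReal.add_ne_top.2 ⟨ENNReal.add_ne_top.2 ⟨hC₁t, hC₂t⟩, hC₃t⟩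
  refine ⟨C₄.toReal, ENNReal.toReal_nonneg, cr, hcr0, hcrs, ?_⟩
  rw [ENNReal.ofReal_toReal hC₄t]
  filter_upwards [hcap, hI1, hE5] with L hL hI hE η η' hη hηη ρ hρ
  obtain ⟨aty, a1, a2, a3⟩ := hL
  have hcl : CapL Φ f₀ L T (b₀ / 2) (fun d => ENNReal.ofReal (m d)) (fun ε c => aty ε c) :=
    ⟨a2, fun ε c => by have := a1 ε; infer_instance, a3⟩
  obtain ⟨M, hM0, hMD⟩ := crude_DD_FF hΦ hg hb₀ hM hf hx L hT.le
  have hρ4 : 0 < ρ / 4 := by positivity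
  have e1 := exists_small (C := C₁ + C₃) (ENNReal.add_ne_top.2 ⟨hC₁t, hC₃t⟩) hM0 hρ4
  have e2 := hover L _ hcl hI (ρ / 4) hρ4
  have e3 := hE ((η' - η) / 2) (by linarith) (ρ / 4) hρ4
  have hK : (4 : ℝ≥0∞) * (ENNReal.ofReal Bw * (ENNReal.ofReal Real.pi * I0 (b / 2) *
      ENNReal.ofReal T)) ≠ ∞ :=
    ENNReal.mul_ne_top (by norm_num) (ENNReal.mul_ne_top ENNReal.ofReal_ne_top
      (ENNReal.mul_ne_top (ENNReal.mul_ne_top ENNReal.ofReal_ne_top hI0) ENNReal.ofReal_ne_top))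
  have e4 := exists_small_lim hK (a3 1) hρ4
  filter_upwards [e1, e2, e3, e4] with ε e1 e2 e3 e4 hε t ht w x y hx' hy'
  have := a1 ε
  have hη' : 0 < η' := hη.trans hηη
  have hBt : ∀ s ∈ Icc 0 t, ∀ n, wgt l₁ l₂ a s n ≤ Bw := fun s hs n =>
    hBw' s ⟨hs.1, hs.2.trans ht.2⟩ n
  have hstep := Nm_step (hΦ := hΦ) (hε := hε) (w := w) hP hg ht hη hηη (ν := aty ε)
    (a2 ε hε)
  -- the windows at the level `η`
  have hmD : ∀ s ∈ Icc 0 t, ∫⁻ r in Icc s (min t (s + w)), DD L hΦ hε f₀ η r ≤ x := fun s hs =>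
    (setLIntegral_mono' measurableSet_Icc fun r hr =>
      DD_mono_time hη hηη.le (hs.1.trans hr.1) le_rfl).trans (hx' s hs)
  have hmF : ∀ s ∈ Icc 0 t, ∫⁻ r in Icc s (min t (s + w)), FF L hΦ hε f₀ η r ≤ y := fun s hs =>
    (setLIntegral_mono' measurableSet_Icc fun r hr =>
      FF_mono_time hη hηη.le (hs.1.trans hr.1) le_rfl).trans (hy' s hs)
  have h1 := Nm_dirS_le (L := L) (hΦ := hΦ) (hε := hε) (f₀ := f₀) (w := w) hg hB hb hT ht.2
    hBt hη hmD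
  have h2 := Nm_feltS_le (L := L) (hΦ := hΦ) (hε := hε) (f₀ := f₀) (w := w) hg hb hT ht.2
    hBt hη hmF
  have h3 := Nm_pairS_le (L := L) (hΦ := hΦ) (hε := hε) (f₀ := f₀) (w := w) hg hB hb hT ht.2
    hBt hα hη' hx'
  have h4 := Nm_atyS_le hg hε hb hT ht.2 hBt (aty ε)
  have d1 := (hMD ε hε η hη t ht).1
  have d3 := (hMD ε hε η' hη' t ht).1
  have h1' : Nm b T l₁ l₂ a t (dirS L hΦ hε f₀ η t w) ≤
      C₁ * (ENNReal.ofReal ε * ENNReal.ofReal M) + C₁ * x := by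
    calc _ ≤ ENNReal.ofReal Bw * (Cd (b / 2) * (2 * ENNReal.ofReal (cDD B 0)) *
          (ENNReal.ofReal ε * ENNReal.ofReal M + x)) := h1.trans (by gcongr)
      _ = _ := by rw [hC₁]; ring
  have h2' : Nm b T l₁ l₂ a t (feltS L hΦ hε f₀ η t w) ≤ C₂ * y := by
    refine h2.trans (le_of_eq ?_)
    rw [hC₂]
    ring
  have h3' : Nm b T l₁ l₂ a t (pairS L hΦ hε f₀ b (fun n => ENNReal.ofReal (α n)) η' t w) ≤
      C₃ * (ENNReal.ofReal ε * ENNReal.ofReal M) + C₃ * x := by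
    calc _ ≤ ENNReal.ofReal Bw * ((∑' n, ENNReal.ofReal (α n)) *
          (2 * Cp (b / 2) (FL.cS hΦ) T * (2 * ENNReal.ofReal (cDD B 0)) *
          (ENNReal.ofReal ε * ENNReal.ofReal M + x))) := h3.trans (by gcongr)
      _ = _ := by rw [hC₃]; ring
  have h4' : 4 * Nm b T l₁ l₂ a t (atyS (GC.PP f₀ ε) (fun c => aty ε c) ε t) ≤
      ENNReal.ofReal (ρ / 4) := by
    refine le_trans (mul_le_mul_right h4 _) (le_trans (le_of_eq ?_) e4)
    simp only [Cap.pw, pow_one]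
    ring
  have h5 := e2 t ht
  have h6 : Nm b T l₁ l₂ a t (excL L hΦ hε f₀ ((η' - η) / 2) t) ≤ ENNReal.ofReal (ρ / 4) :=
    e3 hε t ht
  rw [add_mul] at e1
  have hcr := hcr0 L
  refine hstep.trans ?_
  calc _ ≤ (C₁ * (ENNReal.ofReal ε * ENNReal.ofReal M) + C₁ * x) + (C₂ * y +
        ((C₃ * (ENNReal.ofReal ε * ENNReal.ofReal M) + C₃ * x) +
        (ENNReal.ofReal (1 / 4) * Nm b T l₁ l₂ a t (thL L hΦ hε f₀ η' t w) +
        (ENNReal.ofReal (ρ / 4) + (ENNReal.ofReal (cr L + ρ / 4) +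
        (Nm b T l₁ l₂ a t (secS L hΦ hε f₀ η' t w) + ENNReal.ofReal (ρ / 4))))))) := by
        gcongr
    _ = ((C₁ * (ENNReal.ofReal ε * ENNReal.ofReal M) +
          C₃ * (ENNReal.ofReal ε * ENNReal.ofReal M)) + ENNReal.ofReal (ρ / 4) +
          ENNReal.ofReal (cr L + ρ / 4) + ENNReal.ofReal (ρ / 4)) +
        (C₁ * x + C₂ * y + C₃ * x) + Nm b T l₁ l₂ a t (secS L hΦ hε f₀ η' t w) +
        ENNReal.ofReal (1 / 4) * Nm b T l₁ l₂ a t (thL L hΦ hε f₀ η' t w) := by ring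
    _ ≤ _ := by
        refine add_le_add (add_le_add (add_le_add ?_ ?_) le_rfl) le_rfl
        · refine (add_le_add (add_le_add (add_le_add e1 le_rfl) le_rfl) le_rfl).trans
            (le_of_eq ?_)
          rw [← ENNReal.ofReal_add hρ4.le hρ4.le, ← ENNReal.ofReal_add (by positivity)
            (by positivity), ← ENNReal.ofReal_add (by positivity) hρ4.le]
          congr 1
          ring
        · rw [hC₄]
          calc C₁ * x + C₂ * y + C₃ * x ≤ (C₁ * x + C₂ * y + C₃ * x) +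
                (C₁ * y + C₂ * x + C₃ * y) := le_self_add
            _ = (C₁ + C₂ + C₃) * (x + y) := by ring

/-- **The inequality P11.** -/
theorem in11_of_par (hΦ : IsPotential Φ) (hP : Par T b₀ m b l₁ l₂ Q α a) {B : ℝ}
    (hB : RW.StableWith Φ B)
    (hg : GoodDatum f₀ κ) {M₀ : ℝ} (hM : 0 ≤ M₀)
    (hf : ∀ z, f₀ z ≤ M₀ * Real.exp (-b₀ * ‖z.2‖ ^ 2))
    (hx : ∀ v : E3, ∫⁻ x : E3, ENNReal.ofReal (f₀ (x, v)) ≤
      ENNReal.ofReal (M₀ * Real.exp (-b₀ * ‖v‖ ^ 2)))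
    (hcap : ∀ᶠ L in atTop, CapT Φ f₀ L T (b₀ / 2) m)
    (hI1 : ∀ᶠ L in atTop, Cap.InI1 Φ f₀ L T)
    (hE5 : ∀ᶠ L in atTop, Exc5 hΦ f₀ L T b l₁ l₂ a) :
    ∃ C K cr, Cst C K cr ∧ In11 T C K cr (dD hΦ f₀) (dTh b T l₁ l₂ a hΦ f₀ T) (dF hΦ f₀)
      (dSE b T l₁ l₂ a hΦ f₀ T) := by
  obtain ⟨C, hC, cr, hcr0, hcrs, h⟩ := exists_step_bound hΦ hP hB hg hM hf hx hcap hI1 hE5
  refine ⟨C, 1, cr, ⟨hC, le_rfl, hcr0, hcrs⟩, ?_⟩
  filter_upwards [h] with L h η η' hη hηη _ ρ hρ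
  filter_upwards [h η η' hη hηη ρ hρ, self_mem_nhdsWithin] with ε h hε t ht
  have hε' : 0 < ε := hε
  have hη' : 0 < η' := hη.trans hηη
  rw [dTh_pos hε', dTh_pos hε', dSE_pos hε']
  simp only [dD_pos hε', dF_pos hε', one_pow, one_mul, ENNReal.ofReal_one]
  have h1 := h hε' t ht T (∫⁻ r in Icc 0 t, DD L hΦ hε' f₀ η' r)
    (∫⁻ r in Icc 0 t, FF L hΦ hε' f₀ η' r)
    (fun s hs => lintegral_mono_set (Icc_subset_Icc hs.1 (min_le_left _ _)))
    (fun s hs => lintegral_mono_set (Icc_subset_Icc hs.1 (min_le_left _ _)))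
  refine h1.trans (add_le_add (add_le_add (add_le_add le_rfl ?_) ?_) ?_)
  · exact mul_le_mul_right (le_lintegral_add _ _) _
  · exact Nm_secS_le_sSE
  · exact mul_le_mul_left (ENNReal.ofReal_le_ofReal (by norm_num)) _

/-- The integral of a monotone function on a window of length `δ`. -/
theorem lintegral_window_le {f : ℝ → ℝ≥0∞} {x : ℝ≥0∞} {s t δ : ℝ}
    (h : ∀ r ∈ Icc s (min t (s + δ)), f r ≤ x) :
    ∫⁻ r in Icc s (min t (s + δ)), f r ≤ ENNReal.ofReal δ * x := by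
  calc ∫⁻ r in Icc s (min t (s + δ)), f r ≤ ∫⁻ _ in Icc s (min t (s + δ)), x :=
        setLIntegral_mono' measurableSet_Icc h
    _ = x * volume (Icc s (min t (s + δ))) := by
        rw [lintegral_const, Measure.restrict_apply_univ]
    _ ≤ x * ENNReal.ofReal δ := by
        refine mul_le_mul_right ?_ _
        rw [Real.volume_Icc]
        exact ENNReal.ofReal_le_ofReal (by linarith [min_le_right t (s + δ)])
    _ = _ := mul_comm _ _

/-- **The inequality P10.** -/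
theorem in10_of_par (hΦ : IsPotential Φ) (hP : Par T b₀ m b l₁ l₂ Q α a) {B : ℝ}
    (hB : RW.StableWith Φ B)
    (hg : GoodDatum f₀ κ) {M₀ : ℝ} (hM : 0 ≤ M₀)
    (hf : ∀ z, f₀ z ≤ M₀ * Real.exp (-b₀ * ‖z.2‖ ^ 2))
    (hx : ∀ v : E3, ∫⁻ x : E3, ENNReal.ofReal (f₀ (x, v)) ≤
      ENNReal.ofReal (M₀ * Real.exp (-b₀ * ‖v‖ ^ 2)))
    (hcap : ∀ᶠ L in atTop, CapT Φ f₀ L T (b₀ / 2) m)
    (hI1 : ∀ᶠ L in atTop, Cap.InI1 Φ f₀ L T)
    (hE3 : ∀ᶠ L in atTop, EX.ExcE3 hΦ f₀ L T)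
    (hE5 : ∀ᶠ L in atTop, Exc5 hΦ f₀ L T b l₁ l₂ a) :
    ∃ C K cr, Cst C K cr ∧ In10 T K cr (dD hΦ f₀) (dTh b T l₁ l₂ a hΦ f₀ T) (dF hΦ f₀)
      fun L δ => dTh b T l₁ l₂ a hΦ f₀ δ L := by
  have hb₀ := hP.b₀0
  obtain ⟨C, hC, cr, hcr0, hcrs, h⟩ := exists_step_bound hΦ hP hB hg hM hf hx hcap hI1 hE5
  obtain ⟨K₀, hK₀, h'⟩ := EX.Nm_secS_K hΦ hg (b := b₀ / 2) (b₀ := b₀) (b' := b) (by positivity)
    (by linarith) hM hf hP.T0 hP.l₁0 hP.l₂0 hP.wts hP.m0 hP.succ_mul_le hP.b0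
    (by rw [hP.hb]; linarith) (hcap.mono fun L h => h.capH) hI1 hE3
  refine ⟨C, C + K₀, cr, ⟨hC, by linarith, hcr0, hcrs⟩, ?_⟩
  filter_upwards [h, h', eventually_ge_atTop 1] with L h h' hL δ hδ η η' hη hηη hη1 ρ hρ
  obtain ⟨η₁, h1, h2⟩ := exists_between hηη
  have hη₁ : 0 < η₁ := hη.trans h1
  have hη' : 0 < η' := hη.trans hηη
  filter_upwards [h η η₁ hη h1 (ρ / 2) (by positivity), h' δ hδ η₁ η' hη₁ h2 hη1 (ρ / 2)
    (by positivity), self_mem_nhdsWithin] with ε e1 e2 hε t ht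
  have hε' : 0 < ε := hε
  simp only [dTh_pos hε', dD_pos hε', dF_pos hε']
  set D := DD L hΦ hε' f₀ η' t with hD
  set F := FF L hΦ hε' f₀ η' t with hF
  set Θ := Nm b T l₁ l₂ a t (thL L hΦ hε' f₀ η' t T) with hΘ
  set W := Nm b T l₁ l₂ a t (thL L hΦ hε' f₀ η' t δ) with hW
  have h3 := e1 hε' t ht δ (ENNReal.ofReal δ * D) (ENNReal.ofReal δ * F)
    (fun s hs => lintegral_window_le fun r hr => DD_mono_time hη₁ h2.le (hs.1.trans hr.1)
      (hr.2.trans (min_le_left _ _)))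
    (fun s hs => lintegral_window_le fun r hr => FF_mono_time hη₁ h2.le (hs.1.trans hr.1)
      (hr.2.trans (min_le_left _ _)))
  have h4 := e2 hε' t ht
  have h5 : Nm b T l₁ l₂ a t (thL L hΦ hε' f₀ η₁ t δ) ≤ W :=
    Nm_mono' fun σ => thL_mono hη₁ h2.le ht.1 σ
  have hK1 : (1 : ℝ) ≤ C + K₀ := by linarith
  have hKL : (1 : ℝ) ≤ (C + K₀) ^ L := one_le_pow₀ hK1
  have hCK : C + K₀ ^ L ≤ (C + K₀) ^ L := by
    obtain ⟨k, rfl⟩ : ∃ k, L = k + 1 := ⟨L - 1, by omega⟩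
    have hk : K₀ ^ k ≤ (C + K₀) ^ k := pow_le_pow_left₀ (by linarith) (by linarith) k
    have hk1 : 1 ≤ (C + K₀) ^ k := one_le_pow₀ hK1
    have hk2 : 0 ≤ K₀ ^ k := by positivity
    rw [pow_succ, pow_succ]
    nlinarith
  have hcr := hcr0 L
  have hδ0 := hδ.1
  calc Nm b T l₁ l₂ a t (thL L hΦ hε' f₀ η t δ)
      ≤ ENNReal.ofReal (cr L + ρ / 2) +
            ENNReal.ofReal C * (ENNReal.ofReal δ * D + ENNReal.ofReal δ * F) +
            (ENNReal.ofReal (K₀ ^ L * δ) * Θ + ENNReal.ofReal (ρ / 2)) +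
            ENNReal.ofReal (1 / 4) * W := by
        refine h3.trans ?_
        gcongr
    _ = (ENNReal.ofReal (cr L + ρ / 2) + ENNReal.ofReal (ρ / 2)) +
          (ENNReal.ofReal C * ENNReal.ofReal δ * (D + F) +
            ENNReal.ofReal (K₀ ^ L * δ) * Θ) + ENNReal.ofReal (1 / 4) * W := by ring
    _ ≤ ENNReal.ofReal ((C + K₀) ^ L * cr L + ρ) +
          ENNReal.ofReal ((C + K₀) ^ L * δ) * (D + Θ + F) + ENNReal.ofReal (1 / 2) * W := by
        refine add_le_add (add_le_add ?_ ?_) ?_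
        · rw [← ENNReal.ofReal_add (by positivity) (by positivity)]
          refine ENNReal.ofReal_le_ofReal ?_
          nlinarith
        · rw [← ENNReal.ofReal_mul hC]
          have h6 : ENNReal.ofReal (C * δ) ≤ ENNReal.ofReal ((C + K₀) ^ L * δ) :=
            ENNReal.ofReal_le_ofReal (mul_le_mul_of_nonneg_right (by
              have : (0 : ℝ) ≤ K₀ ^ L := by positivity
              linarith) hδ0.le)
          have h7 : ENNReal.ofReal (K₀ ^ L * δ) ≤ ENNReal.ofReal ((C + K₀) ^ L * δ) :=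
            ENNReal.ofReal_le_ofReal (mul_le_mul_of_nonneg_right (by linarith) hδ0.le)
          calc ENNReal.ofReal (C * δ) * (D + F) + ENNReal.ofReal (K₀ ^ L * δ) * Θ
              ≤ ENNReal.ofReal ((C + K₀) ^ L * δ) * (D + F) +
                ENNReal.ofReal ((C + K₀) ^ L * δ) * Θ := by gcongr
            _ = _ := by ring
        · exact mul_le_mul_left (ENNReal.ofReal_le_ofReal (by norm_num)) _

end Vale.Agent.P119.PB
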