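import Vale.Agent.P119.PB.ContDirP
import Vale.Agent.P119.PB.ContFin

/-!
# P119, block PROB, P9: the input `BdP` of `in9_of`, slow collisions in `XP` (`helper384`)
-/

open MeasureTheory Filter Topology Set
open scoped ENNReal NNReal

noncomputable section

namespace Vale.Agent.P119.PB

open M CTree KU FB RB AU FL

variable {Φ : E3 → ℝ} {hΦ : IsPotential Φ} {f₀ : Ph → ℝ} {κ : ℝ}

/-- **The bound of the direct contacts, colliding case**, with any positive constant. -/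
theorem bdP_of {B : ℝ} (hB : RW.StableWith Φ B) (hg : GoodDatum f₀ κ) {T b M₀ : ℝ} (hT : 0 < T)
    (hb : 0 < b) (hM : 0 ≤ M₀) (hf : ∀ z, f₀ z ≤ M₀ * Real.exp (-b * ‖z.2‖ ^ 2))
    (hx : ∀ v : E3, ∫⁻ x : E3, ENNReal.ofReal (f₀ (x, v)) ≤
      ENNReal.ofReal (M₀ * Real.exp (-b * ‖v‖ ^ 2))) {C : ℝ} (hC : 0 < C) :
    BdP hΦ f₀ T C := by
  refine Eventually.of_forall fun L η hη _ ρ hρ => ?_
  filter_upwards [dirP_le hΦ hB hg hb hT hM hf hx L (ρ := ENNReal.ofReal ρ)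
    (c := ENNReal.ofReal C) (ENNReal.ofReal_pos.2 hρ) (ENNReal.ofReal_pos.2 hC)] with ε h hε t ht
  exact h hε η hη t ht

/-- **Slow collisions are negligible**, in the form of `XP`. -/
theorem XP_slow_le (hΦ : IsPotential Φ) (hg : GoodDatum f₀ κ) {T₀ b M₀ : ℝ}
    (hb : 0 < b) (hT : 0 < T₀) (hM : 0 ≤ M₀) (hf : ∀ z, f₀ z ≤ M₀ * Real.exp (-b * ‖z.2‖ ^ 2))
    (hx : ∀ v : E3, ∫⁻ x : E3, ENNReal.ofReal (f₀ (x, v)) ≤
      ENNReal.ofReal (M₀ * Real.exp (-b * ‖v‖ ^ 2))) (L : ℕ) {δ : ℝ} (hδ : 0 < δ)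
    {ρ : ℝ≥0∞} (hρ : 0 < ρ) : ∀ᶠ ε in 𝓝[>] (0 : ℝ), (muE ε)⁻¹ * XP Φ ε L f₀ T₀ (fun _ x y =>
      wqP Φ ε x y * ind (δ < ext Φ ε (node x y) - sig Φ ε (node x y))) ≤ ρ := by
  filter_upwards [slow_le hΦ hg hb hT hM hf hx L hδ hρ, self_mem_nhdsWithin] with ε h1 hε
  have hε : 0 < ε := hε
  have hprob := GC.isProbability_PP (ε := ε) hg
  refine le_trans (mul_le_mul_right ?_ _) h1
  have hm : Measurable fun p : GC.Conf Ph × CTree × CTree => aS Φ ε δ T₀ p.2.1 p.2.2 :=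
    (measurable_aS hΦ hε δ T₀).comp measurable_snd
  refine (XP_le_OKs (L := L) (f₀ := f₀) hΦ hε hg (le_refl T₀)
    (H' := fun _ x y => aS Φ ε δ T₀ x y) hm fun U x y hco => ?_).trans ?_
  · by_cases hD : δ < ext Φ ε (node x y) - sig Φ ε (node x y)
    · have h2 := hco.ok
      have h0 : 0 < hitT ε (ln Φ ε x, ln Φ ε y) := (ext_nonneg hΦ hε h2.1).trans_lt
        h2.2.2.2.2.2.1
      have hs : SlowP Φ ε δ T₀ (ln Φ ε x, ln Φ ε y) := ⟨h2.2.2.2.1, ⟨h0, hco.sig_le⟩, hD⟩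
      unfold aS
      rw [ind_of hs]
      exact mul_le_mul_right (ind_le_one _) _
    · rw [ind_of_not hD, mul_zero]
      exact zero_le
  · rw [lintegral_const, measure_univ, mul_one]
    exact le_rfl

end Vale.Agent.P119.PB
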