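import Vale.Agent.P119.PB.ContFin
import Vale.Agent.P119.PB.Marks2
import Vale.Agent.P119.RM.PGood
import Vale.Agent.P119.RM.Exc2
import Vale.Agent.P119.RM.Good
import Vale.Agent.P119.RM.Rel

/-!
# P119, block PROB, P9 (contamination): the exceptional terms (`helper909`)

* `GdP`: the good inserted pairs, with unexposed roots (`NiceT` for the trees);
* `ExcD1` .. `ExcD4`, `ExcQ1` .. `ExcQ4`: the natural exceptional terms of the flying and of the
  colliding case: interaction of the lines, mean number of related trees (of the good trees and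
  pairs); the horizons of the colliding case are strictly before the end of the collision (`un`);
* `bdE_of`: they imply `BdE`.
-/

open MeasureTheory Filter Topology Set
open scoped ENNReal NNReal

noncomputable section

namespace Vale.Agent.P119.PB

open M CTree KU FB RB AU TL

namespace ContExc

variable {Φ : E3 → ℝ} {ε : ℝ} {L : ℕ} {hΦ : IsPotential Φ} {hε : 0 < ε} {f₀ : Ph → ℝ} {κ : ℝ}
  {t η θ : ℝ}

/-! ### Constants -/

theorem XX_const_mul {H : Finset Src → CTree → ℝ≥0∞} {c : ℝ≥0∞} (hc : c ≠ ∞) :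
    XX Φ ε L f₀ t (fun U T => c * H U T) = c * XX Φ ε L f₀ t H := by
  unfold XX
  rw [← lintegral_const_mul' _ _ hc]
  refine lintegral_congr fun x => ?_
  rw [← lintegral_const_mul' _ _ hc]
  refine lintegral_congr fun T => ?_
  ring

theorem XP_const_mul {H : Finset Src → CTree → CTree → ℝ≥0∞} {c : ℝ≥0∞} (hc : c ≠ ∞) :
    XP Φ ε L f₀ t (fun U x y => c * H U x y) = c * XP Φ ε L f₀ t H := by
  unfold XP
  rw [← lintegral_const_mul' _ _ hc]
  refine lintegral_congr fun z => ?_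
  rw [← lintegral_const_mul' _ _ hc]
  refine lintegral_congr fun T => ?_
  cases T with
  | leaf a => exact (mul_zero c).symm
  | node x y =>
    rw [onN_node, onN_node]
    ring

/-- Markov. -/
theorem ind_lt_le {a r : ℝ≥0∞} (ha0 : a ≠ 0) (ha1 : a ≠ ∞) : ind (a < r) ≤ a⁻¹ * r := by
  by_cases h : a < r
  · rw [ind_of h, ← ENNReal.inv_mul_cancel ha0 ha1]
    exact mul_le_mul_right h.le _
  · rw [ind_of_not h]
    exact zero_le

theorem thr_ne_zero (hε : 0 < ε) (hθ : 0 < θ) : ENNReal.ofReal (θ * mu ε) ≠ 0 :=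
  (ENNReal.ofReal_pos.2 (mul_pos hθ (GC.mu_pos hε))).ne'

theorem thr_inv (hθ : 0 < θ) : (ENNReal.ofReal (θ * mu ε))⁻¹ =
    (ENNReal.ofReal θ)⁻¹ * (FL.muE ε)⁻¹ := by
  rw [ENNReal.ofReal_mul hθ.le, ENNReal.mul_inv]
  · rfl
  · exact Or.inr ENNReal.ofReal_ne_top
  · exact Or.inl ENNReal.ofReal_ne_top

/-! ### The horizons before the end of the collision -/

/-- Horizons before the end of the collision, increasing to it. -/
def un (Φ : E3 → ℝ) (ε t : ℝ) (x y : CTree) (n : ℕ) : ℝ :=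
  min t (ext Φ ε (node x y) - 1 / ((n : ℝ) + 1))

theorem un_le {x y : CTree} {n : ℕ} : un Φ ε t x y n ≤ t := min_le_left _ _

theorem un_lt {x y : CTree} {n : ℕ} : un Φ ε t x y n < ext Φ ε (node x y) := by
  have h1 : (0 : ℝ) < 1 / ((n : ℝ) + 1) := by positivity
  have h2 := min_le_right t (ext Φ ε (node x y) - 1 / ((n : ℝ) + 1))
  unfold un
  linarith

theorem un_mono {x y : CTree} {m n : ℕ} (h : m ≤ n) : un Φ ε t x y m ≤ un Φ ε t x y n := by
  unfold un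
  refine min_le_min_left _ (sub_le_sub_left ?_ _)
  exact Nat.one_div_le_one_div h

theorem exists_un {x y : CTree} {u : ℝ} (h1 : u ≤ t) (h2 : u < ext Φ ε (node x y)) :
    ∃ n, u ≤ un Φ ε t x y n := by
  obtain ⟨n, hn⟩ := exists_nat_one_div_lt (sub_pos.2 h2)
  refine ⟨n, le_min h1 ?_⟩
  linarith

theorem measurable_un (hΦ : IsPotential Φ) (hε : 0 < ε) (t : ℝ) (n : ℕ) :
    Measurable fun p : CTree × CTree => un Φ ε t p.1 p.2 n := by
  unfold un
  exact measurable_const.min (((measurable_ext hΦ hε.ne').comp measurable_node).sub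
    measurable_const)

/-! ### The natural terms -/

variable (L hΦ hε) in
/-- The good inserted pairs: the lines do not interact, the roots are not exposed when they
meet, and the horizon is later than this time. -/
def GdP (t : ℝ) (U : Finset Src) (x y : CTree) : Prop :=
  UnP L hΦ hε U x y ∧ sig Φ ε (node x y) ≤ t ∧ PGood Φ ε L U x y t

variable (Φ f₀) in
/-- Interaction of the lines of a tree. -/
def ExcD1 (L : ℕ) (T : ℝ) : Prop :=
  Tendsto (fun ε => (FL.muE ε)⁻¹ * XX Φ ε L f₀ T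
    (fun U S => wq Φ ε S * ind (¬GoodT Φ ε L U S T))) (𝓝[>] 0) (𝓝 0)

variable (hΦ f₀) in
/-- Trees of the world of lines which are not independent of the tree. -/
def ExcD2 (L : ℕ) (T : ℝ) : Prop :=
  ∀ ρ : ℝ, 0 < ρ → ∀ᶠ ε in 𝓝[>] (0 : ℝ), ∀ hε : 0 < ε, (FL.muE ε)⁻¹ * ((FL.muE ε)⁻¹ *
    XX Φ ε L f₀ T (fun U S => wq Φ ε S * (ind (NiceT L hΦ hε U S T) *
      relT Φ ε L U S (addT U S) (ext Φ ε S) T))) ≤ ENNReal.ofReal ρ

variable (hΦ f₀) in
/-- Trees of `U` which are related to the lines of the tree. -/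
def ExcD3 (L : ℕ) (T : ℝ) : Prop :=
  ∀ ρ : ℝ, 0 < ρ → ∀ᶠ ε in 𝓝[>] (0 : ℝ), ∀ hε : 0 < ε, (FL.muE ε)⁻¹ * ((FL.muE ε)⁻¹ *
    XX Φ ε L f₀ T (fun U S => wq Φ ε S * (ind (NiceT L hΦ hε U S T) *
      relW L hΦ hε (lnw Φ ε U S (ext Φ ε S)) U T))) ≤ ENNReal.ofReal ρ

variable (hΦ f₀) in
/-- Trees of `U + e` which are related to the other lines of the tree. -/
def ExcD4 (L : ℕ) (T : ℝ) : Prop :=
  ∀ ρ : ℝ, 0 < ρ → ∀ᶠ ε in 𝓝[>] (0 : ℝ), ∀ hε : 0 < ε, (FL.muE ε)⁻¹ * ((FL.muE ε)⁻¹ *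
    XX Φ ε L f₀ T (fun U S => wq Φ ε S * (ind (NiceT L hΦ hε U S T) * exsum S (fun x =>
      relW L hΦ hε (lnw Φ ε U S (ext Φ ε S)) (insert (rsrc Φ ε x) U) T)))) ≤ ENNReal.ofReal ρ

variable (hΦ f₀) in
/-- Interaction of the lines of a pair before the end of its collision. -/
def ExcQ1 (L : ℕ) (T : ℝ) : Prop :=
  ∀ ρ : ℝ, 0 < ρ → ∀ᶠ ε in 𝓝[>] (0 : ℝ), ∀ hε : 0 < ε, (FL.muE ε)⁻¹ *
    XP Φ ε L f₀ T (fun U x y => wqP Φ ε x y * ind (BadQ L hΦ hε T U x y)) ≤ ENNReal.ofReal ρ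

variable (hΦ f₀) in
/-- Trees of the world of lines which are not independent of the pair. -/
def ExcQ2 (L : ℕ) (T : ℝ) : Prop :=
  ∀ ρ : ℝ, 0 < ρ → ∀ᶠ ε in 𝓝[>] (0 : ℝ), ∀ hε : 0 < ε, ∀ n : ℕ, (FL.muE ε)⁻¹ * ((FL.muE ε)⁻¹ *
    XP Φ ε L f₀ T (fun U x y => wqP Φ ε x y * (ind (GdP L hΦ hε (un Φ ε T x y n) U x y) *
      relP Φ ε L U x y (un Φ ε T x y n)))) ≤ ENNReal.ofReal ρ

variable (hΦ f₀) in
/-- Trees of `U` which are related to the lines of the pair. -/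
def ExcQ3 (L : ℕ) (T : ℝ) : Prop :=
  ∀ ρ : ℝ, 0 < ρ → ∀ᶠ ε in 𝓝[>] (0 : ℝ), ∀ hε : 0 < ε, ∀ n : ℕ, (FL.muE ε)⁻¹ * ((FL.muE ε)⁻¹ *
    XP Φ ε L f₀ T (fun U x y => wqP Φ ε x y * (ind (GdP L hΦ hε (un Φ ε T x y n) U x y) *
      relW L hΦ hε (lw2 Φ ε U x y) U (un Φ ε T x y n)))) ≤ ENNReal.ofReal ρ

variable (hΦ f₀) in
/-- Trees of `U + e` which are related to the other lines of the pair. -/
def ExcQ4 (L : ℕ) (T : ℝ) : Prop :=
  ∀ ρ : ℝ, 0 < ρ → ∀ᶠ ε in 𝓝[>] (0 : ℝ), ∀ hε : 0 < ε, ∀ n : ℕ, (FL.muE ε)⁻¹ * ((FL.muE ε)⁻¹ *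
    XP Φ ε L f₀ T (fun U x y => wqP Φ ε x y * (ind (GdP L hΦ hε (un Φ ε T x y n) U x y) *
      (exsum x (fun e =>
          relW L hΦ hε (lw2 Φ ε U x y) (insert (rsrc Φ ε e) U) (un Φ ε T x y n)) +
        exsum y (fun e =>
          relW L hΦ hε (lw2 Φ ε U x y) (insert (rsrc Φ ε e) U) (un Φ ε T x y n)))))) ≤
      ENNReal.ofReal ρ

/-! ### Pointwise bounds -/

theorem ind_ExD_le (hε : 0 < ε) (hθ : 0 < θ) {U : Finset Src} {S : CTree} :
    ind (ExD L hΦ hε θ t U S) ≤ ind (¬GoodT Φ ε L U S t) + (ENNReal.ofReal (θ * mu ε))⁻¹ *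
      (ind (GoodT Φ ε L U S t) * relT Φ ε L U S (addT U S) (ext Φ ε S) t +
        (ind (GoodT Φ ε L U S t) * relW L hΦ hε (lnw Φ ε U S (ext Φ ε S)) U t +
          ind (GoodT Φ ε L U S t) * exsum S (fun x =>
            relW L hΦ hε (lnw Φ ε U S (ext Φ ε S)) (insert (rsrc Φ ε x) U) t))) := by
  have h0 := thr_ne_zero hε hθ
  have h1 : ENNReal.ofReal (θ * mu ε) ≠ ∞ := ENNReal.ofReal_ne_top
  by_cases hG : GoodT Φ ε L U S t
  · rw [ind_of hG, one_mul, one_mul, one_mul, mul_add, mul_add]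
    refine le_trans ?_ le_add_self
    unfold ExD
    have e : (¬GoodT Φ ε L U S t ∨
        ENNReal.ofReal (θ * mu ε) < relT Φ ε L U S (addT U S) (ext Φ ε S) t ∨
        ENNReal.ofReal (θ * mu ε) < relW L hΦ hε (lnw Φ ε U S (ext Φ ε S)) U t ∨
        ∃ x ∈ exs S, ENNReal.ofReal (θ * mu ε) <
          relW L hΦ hε (lnw Φ ε U S (ext Φ ε S)) (insert (rsrc Φ ε x) U) t) ↔
        (ENNReal.ofReal (θ * mu ε) < relT Φ ε L U S (addT U S) (ext Φ ε S) t ∨
        ENNReal.ofReal (θ * mu ε) < relW L hΦ hε (lnw Φ ε U S (ext Φ ε S)) U t ∨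
        ∃ x ∈ exs S, ENNReal.ofReal (θ * mu ε) <
          relW L hΦ hε (lnw Φ ε U S (ext Φ ε S)) (insert (rsrc Φ ε x) U) t) :=
      or_iff_right (not_not.2 hG)
    rw [e]
    refine (ind_or_le _ _).trans (add_le_add (ind_lt_le h0 h1) ((ind_or_le _ _).trans
      (add_le_add (ind_lt_le h0 h1) ?_)))
    by_cases h : ∃ x ∈ exs S, ENNReal.ofReal (θ * mu ε) <
        relW L hΦ hε (lnw Φ ε U S (ext Φ ε S)) (insert (rsrc Φ ε x) U) t
    · obtain ⟨x, hx, h2⟩ := h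
      refine (ind_le_one _).trans ?_
      rw [← ind_of h2]
      refine (ind_lt_le h0 h1).trans (mul_le_mul_right ?_ _)
      exact le_exsum hx fun x =>
        relW L hΦ hε (lnw Φ ε U S (ext Φ ε S)) (insert (rsrc Φ ε x) U) t
    · rw [ind_of_not h]
      exact zero_le
  · rw [ind_of (p := ¬GoodT Φ ε L U S t) hG]
    exact (ind_le_one _).trans le_self_add

theorem ind_ExP_le (hε : 0 < ε) (hθ : 0 < θ) {U : Finset Src} {x y : CTree} :
    ind (PGood Φ ε L U x y t ∧ ExP L hΦ hε θ t U x y) ≤ (ENNReal.ofReal (θ * mu ε))⁻¹ *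
      (ind (PGood Φ ε L U x y t) * relP Φ ε L U x y t +
        (ind (PGood Φ ε L U x y t) * relW L hΦ hε (lw2 Φ ε U x y) U t +
        ind (PGood Φ ε L U x y t) *
          (exsum x (fun e => relW L hΦ hε (lw2 Φ ε U x y) (insert (rsrc Φ ε e) U) t) +
          exsum y (fun e => relW L hΦ hε (lw2 Φ ε U x y) (insert (rsrc Φ ε e) U) t)))) := by
  have h0 := thr_ne_zero hε hθ
  have h1 : ENNReal.ofReal (θ * mu ε) ≠ ∞ := ENNReal.ofReal_ne_top
  by_cases hE : PGood Φ ε L U x y t ∧ ExP L hΦ hε θ t U x y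
  · obtain ⟨hG, hE⟩ := hE
    rw [ind_of (p := PGood Φ ε L U x y t) hG, one_mul, one_mul, one_mul, mul_add, mul_add]
    refine (ind_le_one _).trans ?_
    have key : ∀ r : ℝ≥0∞, ENNReal.ofReal (θ * mu ε) < r →
        1 ≤ (ENNReal.ofReal (θ * mu ε))⁻¹ * r := by
      intro r hr
      rw [← ind_of hr]
      exact ind_lt_le h0 h1
    rcases hE with h | h | h | ⟨e, he, h⟩
    · exact absurd hG h
    · exact (key _ h).trans le_self_add
    · exact (key _ h).trans (le_self_add.trans le_add_self)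
    · refine (key _ h).trans (le_trans (mul_le_mul_right ?_ _) (le_add_self.trans le_add_self))
      rcases he with he | he
      · exact (le_exsum he fun e =>
          relW L hΦ hε (lw2 Φ ε U x y) (insert (rsrc Φ ε e) U) t).trans le_self_add
      · exact (le_exsum he fun e =>
          relW L hΦ hε (lw2 Φ ε U x y) (insert (rsrc Φ ε e) U) t).trans le_add_self
  · rw [ind_of_not hE]
    exact zero_le

theorem ind_ExDs_le (hε : 0 < ε) (hθ : 0 < θ) {U : Finset Src} {S : CTree} :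
    ind (ExDs L hΦ hε θ t U S) ≤ ind (¬GoodT Φ ε L U S t) + (ENNReal.ofReal (θ * mu ε))⁻¹ *
      (ind (NiceT L hΦ hε U S t) * relT Φ ε L U S (addT U S) (ext Φ ε S) t +
        (ind (NiceT L hΦ hε U S t) * relW L hΦ hε (lnw Φ ε U S (ext Φ ε S)) U t +
          ind (NiceT L hΦ hε U S t) * exsum S (fun x =>
            relW L hΦ hε (lnw Φ ε U S (ext Φ ε S)) (insert (rsrc Φ ε x) U) t))) := by
  by_cases hU : UnT L hΦ hε U S
  · have e1 : ExDs L hΦ hε θ t U S = ExD L hΦ hε θ t U S := propext (and_iff_right hU)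
    have e2 : NiceT L hΦ hε U S t = GoodT Φ ε L U S t :=
      propext ⟨fun h => h.good, fun h => ⟨h, hU⟩⟩
    rw [e1, e2]
    exact ind_ExD_le hε hθ
  · rw [ind_of_not fun h : ExDs L hΦ hε θ t U S => hU h.1]
    exact zero_le

theorem ind_ExPd_le (hε : 0 < ε) (hθ : 0 < θ) {U : Finset Src} {x y : CTree} :
    ind (GdP L hΦ hε t U x y ∧ ExP L hΦ hε θ t U x y) ≤ (ENNReal.ofReal (θ * mu ε))⁻¹ *
      (ind (GdP L hΦ hε t U x y) * relP Φ ε L U x y t +
        (ind (GdP L hΦ hε t U x y) * relW L hΦ hε (lw2 Φ ε U x y) U t +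
        ind (GdP L hΦ hε t U x y) *
          (exsum x (fun e => relW L hΦ hε (lw2 Φ ε U x y) (insert (rsrc Φ ε e) U) t) +
          exsum y (fun e => relW L hΦ hε (lw2 Φ ε U x y) (insert (rsrc Φ ε e) U) t)))) := by
  by_cases hU : UnP L hΦ hε U x y ∧ sig Φ ε (node x y) ≤ t
  · have e2 : GdP L hΦ hε t U x y = PGood Φ ε L U x y t :=
      propext ⟨fun h => h.2.2, fun h => ⟨hU.1, hU.2, h⟩⟩
    rw [e2]
    exact ind_ExP_le hε hθ
  · rw [ind_of_not fun h : GdP L hΦ hε t U x y ∧ ExP L hΦ hε θ t U x y =>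
      hU ⟨h.1.1, h.1.2.1⟩]
    exact zero_le

variable (L hΦ hε) in
/-- The good pairs, at all the horizons. -/
def PGs (t : ℝ) (U : Finset Src) (x y : CTree) : Prop :=
  UnP L hΦ hε U x y ∧ ¬BadQ L hΦ hε t U x y

theorem PGs.good {U : Finset Src} {x y : CTree} (h : PGs L hΦ hε t U x y) {n : ℕ}
    (hn : sig Φ ε (node x y) ≤ un Φ ε t x y n) : GdP L hΦ hε (un Φ ε t x y n) U x y := by
  refine ⟨h.1, hn, ?_⟩
  by_contra hcon
  exact h.2 ⟨h.1, _, un_le, un_lt, hn, hcon⟩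

/-- `un` is later than the beginning of the collision for large `n`. -/
theorem exists_un2 (hΦ : IsPotential Φ) (hε : 0 < ε) {x y : CTree} {u : ℝ}
    (hok : ok Φ ε (node x y)) (ht : sig Φ ε (node x y) ≤ t) (h1 : u ≤ t)
    (h2 : u < ext Φ ε (node x y)) :
    ∃ n, u ≤ un Φ ε t x y n ∧ sig Φ ε (node x y) ≤ un Φ ε t x y n := by
  obtain ⟨n, hn⟩ := exists_un (u := max u (sig Φ ε (node x y))) (max_le h1 ht)
    (max_lt h2 (sig_lt_ext hΦ hε hok))
  exact ⟨n, (le_max_left _ _).trans hn, (le_max_right _ _).trans hn⟩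

theorem ind_ExPs_le {U : Finset Src} {x y : CTree} (hc : coT Φ ε L t U x y) :
    ind (ExPs L hΦ hε θ t U x y) ≤
      ind (BadQ L hΦ hε t U x y) +
      ⨆ n : ℕ, ind (PGs L hΦ hε t U x y ∧ sig Φ ε (node x y) ≤ un Φ ε t x y n ∧
        ExP L hΦ hε θ (un Φ ε t x y n) U x y) := by
  by_cases hB : BadQ L hΦ hε t U x y
  · rw [ind_of hB]
    exact (ind_le_one _).trans le_self_add
  by_cases hE : ExPs L hΦ hε θ t U x y
  · refine le_trans ?_ le_add_self
    obtain ⟨h0, u, h1, h2, h3⟩ := hE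
    obtain ⟨n, hn, hn'⟩ := exists_un2 hΦ hε hc.ok hc.sig_le h1 h2
    refine le_trans ?_ (le_iSup (fun n : ℕ =>
      ind (PGs L hΦ hε t U x y ∧ sig Φ ε (node x y) ≤ un Φ ε t x y n ∧
        ExP L hΦ hε θ (un Φ ε t x y n) U x y)) n)
    rw [ind_of (p := PGs L hΦ hε t U x y ∧ sig Φ ε (node x y) ≤ un Φ ε t x y n ∧
      ExP L hΦ hε θ (un Φ ε t x y n) U x y) ⟨⟨h0, hB⟩, hn', ExP_mono hn h3⟩]
    exact ind_le_one _
  · rw [ind_of_not hE]
    exact zero_le

/-! ### Integrated bounds -/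

theorem XX_ExDs_le (hε : 0 < ε) (h : GoodDatum f₀ κ) (hθ : 0 < θ) :
    (FL.muE ε)⁻¹ * XX Φ ε L f₀ t (fun U S => wq Φ ε S * ind (ExDs L hΦ hε θ t U S)) ≤
      (FL.muE ε)⁻¹ * XX Φ ε L f₀ t (fun U S => wq Φ ε S * ind (¬GoodT Φ ε L U S t)) +
      (ENNReal.ofReal θ)⁻¹ * ((FL.muE ε)⁻¹ * ((FL.muE ε)⁻¹ * XX Φ ε L f₀ t
          (fun U S => wq Φ ε S * (ind (NiceT L hΦ hε U S t) *
            relT Φ ε L U S (addT U S) (ext Φ ε S) t))) +
        ((FL.muE ε)⁻¹ * ((FL.muE ε)⁻¹ * XX Φ ε L f₀ t (fun U S => wq Φ ε S *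
            (ind (NiceT L hΦ hε U S t) * relW L hΦ hε (lnw Φ ε U S (ext Φ ε S)) U t))) +
          (FL.muE ε)⁻¹ * ((FL.muE ε)⁻¹ * XX Φ ε L f₀ t (fun U S => wq Φ ε S *
            (ind (NiceT L hΦ hε U S t) * exsum S (fun x =>
              relW L hΦ hε (lnw Φ ε U S (ext Φ ε S)) (insert (rsrc Φ ε x) U) t)))))) := by
  have hc : (ENNReal.ofReal (θ * mu ε))⁻¹ ≠ ∞ := ENNReal.inv_ne_top.2 (thr_ne_zero hε hθ)
  have mw : Measurable fun p : CTree × GC.Conf Ph => wq Φ ε p.1 :=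
    (measurable_wq hΦ hε).comp measurable_fst
  have mU : MM.RS fun p : CTree × GC.Conf Ph => ((wS (GC.pts p.2) : Finset Src) : Set Src) :=
    rs_wS_tree
  have me : Measurable fun p : CTree × GC.Conf Ph => ext Φ ε p.1 :=
    (measurable_ext hΦ hε.ne').comp measurable_fst
  have sG : MeasurableSet {p : CTree × GC.Conf Ph | GoodT Φ ε L (wS (GC.pts p.2)) p.1 t} :=
    RM.measurableSet_GoodT hΦ hε mU measurable_fst measurable_const
  have mG : Measurable fun p : CTree × GC.Conf Ph => ind (NiceT L hΦ hε (wS (GC.pts p.2)) p.1 t) :=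
    measurable_ind (measurableSet_NiceT t)
  have m1 : Measurable fun p : CTree × GC.Conf Ph => wq Φ ε p.1 *
      ind (¬GoodT Φ ε L (wS (GC.pts p.2)) p.1 t) :=
    measurable_wq_ind hΦ hε (P := fun c T => ¬GoodT Φ ε L (wS (GC.pts c)) T t) sG.compl
  have ml : MM.RS fun p : CTree × GC.Conf Ph =>
      ((lnw Φ ε (wS (GC.pts p.2)) p.1 (ext Φ ε p.1) : Finset Src) : Set Src) :=
    RM.rs_lnw hΦ hε mU measurable_fst me
  have m2 : Measurable fun p : CTree × GC.Conf Ph => wq Φ ε p.1 *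
      (ind (NiceT L hΦ hε (wS (GC.pts p.2)) p.1 t) *
        relT Φ ε L (wS (GC.pts p.2)) p.1 (addT (wS (GC.pts p.2)) p.1) (ext Φ ε p.1) t) :=
    mw.mul (mG.mul (RM.measurable_relT hΦ hε mU (rs_addT mU measurable_fst) measurable_fst me
      measurable_const))
  have m3 : Measurable fun p : CTree × GC.Conf Ph => wq Φ ε p.1 *
      (ind (NiceT L hΦ hε (wS (GC.pts p.2)) p.1 t) *
        relW L hΦ hε (lnw Φ ε (wS (GC.pts p.2)) p.1 (ext Φ ε p.1)) (wS (GC.pts p.2)) t) :=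
    mw.mul (mG.mul (RM.measurable_relW ml mU measurable_const))
  calc (FL.muE ε)⁻¹ * XX Φ ε L f₀ t (fun U S => wq Φ ε S * ind (ExDs L hΦ hε θ t U S))
      ≤ (FL.muE ε)⁻¹ * XX Φ ε L f₀ t (fun U S => wq Φ ε S * ind (¬GoodT Φ ε L U S t) +
          (ENNReal.ofReal (θ * mu ε))⁻¹ * (wq Φ ε S * (ind (NiceT L hΦ hε U S t) *
              relT Φ ε L U S (addT U S) (ext Φ ε S) t) +
            (wq Φ ε S * (ind (NiceT L hΦ hε U S t) *
                relW L hΦ hε (lnw Φ ε U S (ext Φ ε S)) U t) +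
              wq Φ ε S * (ind (NiceT L hΦ hε U S t) * exsum S (fun x =>
                relW L hΦ hε (lnw Φ ε U S (ext Φ ε S)) (insert (rsrc Φ ε x) U) t))))) := by
        refine mul_le_mul_right (XX_mono fun U S _ => ?_) _
        refine (mul_le_mul_right (ind_ExDs_le hε hθ) _).trans (le_of_eq ?_)
        ring
    _ = (FL.muE ε)⁻¹ * (XX Φ ε L f₀ t (fun U S => wq Φ ε S * ind (¬GoodT Φ ε L U S t)) +
          (ENNReal.ofReal (θ * mu ε))⁻¹ * (XX Φ ε L f₀ t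
            (fun U S => wq Φ ε S * (ind (NiceT L hΦ hε U S t) *
              relT Φ ε L U S (addT U S) (ext Φ ε S) t)) +
            (XX Φ ε L f₀ t (fun U S => wq Φ ε S * (ind (NiceT L hΦ hε U S t) *
              relW L hΦ hε (lnw Φ ε U S (ext Φ ε S)) U t)) +
              XX Φ ε L f₀ t (fun U S => wq Φ ε S * (ind (NiceT L hΦ hε U S t) *
                exsum S (fun x => relW L hΦ hε (lnw Φ ε U S (ext Φ ε S))
                  (insert (rsrc Φ ε x) U) t)))))) := by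
        rw [XX_add hΦ hε m1 h, XX_const_mul hc, XX_add hΦ hε m2 h, XX_add hΦ hε m3 h]
    _ = _ := by
        rw [thr_inv hθ]
        ring

theorem XP_ExPd_le (hε : 0 < ε) (h : GoodDatum f₀ κ) (hθ : 0 < θ)
    {g : CTree → CTree → ℝ} (hg : Measurable fun p : CTree × CTree => g p.1 p.2) :
    (FL.muE ε)⁻¹ * XP Φ ε L f₀ t (fun U x y => wqP Φ ε x y *
        ind (GdP L hΦ hε (g x y) U x y ∧ ExP L hΦ hε θ (g x y) U x y)) ≤
      (ENNReal.ofReal θ)⁻¹ * ((FL.muE ε)⁻¹ * ((FL.muE ε)⁻¹ * XP Φ ε L f₀ t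
          (fun U x y => wqP Φ ε x y * (ind (GdP L hΦ hε (g x y) U x y) *
            relP Φ ε L U x y (g x y)))) +
        ((FL.muE ε)⁻¹ * ((FL.muE ε)⁻¹ * XP Φ ε L f₀ t (fun U x y => wqP Φ ε x y *
            (ind (GdP L hΦ hε (g x y) U x y) * relW L hΦ hε (lw2 Φ ε U x y) U (g x y)))) +
          (FL.muE ε)⁻¹ * ((FL.muE ε)⁻¹ * XP Φ ε L f₀ t (fun U x y => wqP Φ ε x y *
            (ind (GdP L hΦ hε (g x y) U x y) *
            (exsum x (fun e => relW L hΦ hε (lw2 Φ ε U x y) (insert (rsrc Φ ε e) U) (g x y)) +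
              exsum y (fun e =>
                relW L hΦ hε (lw2 Φ ε U x y) (insert (rsrc Φ ε e) U) (g x y)))))))) := by
  have hc : (ENNReal.ofReal (θ * mu ε))⁻¹ ≠ ∞ := ENNReal.inv_ne_top.2 (thr_ne_zero hε hθ)
  have mx : Measurable fun p : (CTree × CTree) × GC.Conf Ph => p.1.1 :=
    measurable_fst.comp measurable_fst
  have my : Measurable fun p : (CTree × CTree) × GC.Conf Ph => p.1.2 :=
    measurable_snd.comp measurable_fst
  have mg : Measurable fun p : (CTree × CTree) × GC.Conf Ph => g p.1.1 p.1.2 :=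
    hg.comp measurable_fst
  have mw : Measurable fun p : (CTree × CTree) × GC.Conf Ph => wqP Φ ε p.1.1 p.1.2 :=
    measurable_wqP hΦ hε mx my
  have mU : MM.RS fun p : (CTree × CTree) × GC.Conf Ph =>
      ((wS (GC.pts p.2) : Finset Src) : Set Src) := rs_wS_pair
  have mG : Measurable fun p : (CTree × CTree) × GC.Conf Ph =>
      ind (GdP L hΦ hε (g p.1.1 p.1.2) (wS (GC.pts p.2)) p.1.1 p.1.2) :=
    measurable_ind (measurableSet_UnP.inter ((measurableSet_le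
      ((measurable_sig hΦ hε.ne').comp (measurable_node.comp measurable_fst)) mg).inter
        (RM.measurableSet_PGood hΦ hε mU mx my mg)))
  have m2 : Measurable fun p : (CTree × CTree) × GC.Conf Ph => wqP Φ ε p.1.1 p.1.2 *
      (ind (GdP L hΦ hε (g p.1.1 p.1.2) (wS (GC.pts p.2)) p.1.1 p.1.2) *
        relP Φ ε L (wS (GC.pts p.2)) p.1.1 p.1.2 (g p.1.1 p.1.2)) :=
    mw.mul (mG.mul (RM.measurable_relP hΦ hε mU mx my mg))
  have m3 : Measurable fun p : (CTree × CTree) × GC.Conf Ph => wqP Φ ε p.1.1 p.1.2 *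
      (ind (GdP L hΦ hε (g p.1.1 p.1.2) (wS (GC.pts p.2)) p.1.1 p.1.2) *
        relW L hΦ hε (lw2 Φ ε (wS (GC.pts p.2)) p.1.1 p.1.2) (wS (GC.pts p.2))
          (g p.1.1 p.1.2)) :=
    mw.mul (mG.mul (RM.measurable_relW (RM.rs_lw2 hΦ hε mU mx my) mU mg))
  calc (FL.muE ε)⁻¹ * XP Φ ε L f₀ t (fun U x y => wqP Φ ε x y *
        ind (GdP L hΦ hε (g x y) U x y ∧ ExP L hΦ hε θ (g x y) U x y))
      ≤ (FL.muE ε)⁻¹ * XP Φ ε L f₀ t (fun U x y =>
          (ENNReal.ofReal (θ * mu ε))⁻¹ * (wqP Φ ε x y * (ind (GdP L hΦ hε (g x y) U x y) *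
              relP Φ ε L U x y (g x y)) +
            (wqP Φ ε x y * (ind (GdP L hΦ hε (g x y) U x y) *
              relW L hΦ hε (lw2 Φ ε U x y) U (g x y)) +
              wqP Φ ε x y * (ind (GdP L hΦ hε (g x y) U x y) *
                (exsum x (fun e =>
                  relW L hΦ hε (lw2 Φ ε U x y) (insert (rsrc Φ ε e) U) (g x y)) +
                exsum y (fun e =>
                  relW L hΦ hε (lw2 Φ ε U x y) (insert (rsrc Φ ε e) U) (g x y))))))) := by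
        refine mul_le_mul_right (XP_mono fun U x y _ => ?_) _
        refine (mul_le_mul_right (ind_ExPd_le hε hθ) _).trans (le_of_eq ?_)
        ring
    _ = (FL.muE ε)⁻¹ * ((ENNReal.ofReal (θ * mu ε))⁻¹ * (XP Φ ε L f₀ t
            (fun U x y => wqP Φ ε x y * (ind (GdP L hΦ hε (g x y) U x y) *
              relP Φ ε L U x y (g x y))) +
            (XP Φ ε L f₀ t (fun U x y => wqP Φ ε x y * (ind (GdP L hΦ hε (g x y) U x y) *
              relW L hΦ hε (lw2 Φ ε U x y) U (g x y))) +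
              XP Φ ε L f₀ t (fun U x y => wqP Φ ε x y * (ind (GdP L hΦ hε (g x y) U x y) *
                (exsum x (fun e =>
                  relW L hΦ hε (lw2 Φ ε U x y) (insert (rsrc Φ ε e) U) (g x y)) +
                exsum y (fun e =>
                  relW L hΦ hε (lw2 Φ ε U x y) (insert (rsrc Φ ε e) U) (g x y)))))))) := by
        rw [XP_const_mul hc, XP_add hΦ hε m2 h, XP_add hΦ hε m3 h]
    _ = _ := by
        rw [thr_inv hθ]
        ring

/-- Monotone convergence for pairs. -/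
theorem XP_iSup_le (hΦ : IsPotential Φ) (hε : 0 < ε) (h : GoodDatum f₀ κ)
    {H : ℕ → Finset Src → CTree → CTree → ℝ≥0∞}
    (hH : ∀ n, Measurable fun p : (CTree × CTree) × GC.Conf Ph =>
      H n (wS (GC.pts p.2)) p.1.1 p.1.2)
    (hm : ∀ U x y, Monotone fun n => H n U x y) {B : ℝ≥0∞} (hB : ∀ n, XP Φ ε L f₀ t (H n) ≤ B) :
    XP Φ ε L f₀ t (fun U x y => ⨆ n, H n U x y) ≤ B := by
  have := GC.isFiniteMeasure_inten (ε := ε) h
  have hmm : ∀ n, Measurable fun p : CTree × GC.Conf Ph =>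
      onN (fun x y => ind (coT Φ ε L t (wS (GC.pts p.2)) x y) *
        H n (wS (GC.pts p.2)) x y) p.1 := fun n => measurable_XPi (L := L) hΦ hε (hH n) t
  have hA : ∀ n, Measurable fun c : GC.Conf Ph => ∫⁻ T, onN (fun x y =>
      ind (coT Φ ε L t (wS (GC.pts c)) x y) * H n (wS (GC.pts c)) x y) T
        ∂(tree (GC.inten f₀ ε) L) := fun n =>
    ((hmm n).comp measurable_swap).lintegral_prod_right'
  have h1 : ∀ (c : GC.Conf Ph) n, Measurable fun T : CTree => onN (fun x y =>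
      ind (coT Φ ε L t (wS (GC.pts c)) x y) * H n (wS (GC.pts c)) x y) T := fun c n =>
    (hmm n).comp (measurable_id.prodMk measurable_const)
  have hmono : ∀ (c : GC.Conf Ph) (T : CTree), Monotone fun n => onN (fun x y =>
      ind (coT Φ ε L t (wS (GC.pts c)) x y) * H n (wS (GC.pts c)) x y) T := by
    intro c T m n hmn
    exact onN_mono (fun x y => mul_le_mul_right (hm _ x y hmn) _) T
  have h2 : ∀ c : GC.Conf Ph, ∫⁻ T, onN (fun x y => ind (coT Φ ε L t (wS (GC.pts c)) x y) *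
      ⨆ n, H n (wS (GC.pts c)) x y) T ∂(tree (GC.inten f₀ ε) L) =
      ⨆ n, ∫⁻ T, onN (fun x y => ind (coT Φ ε L t (wS (GC.pts c)) x y) *
        H n (wS (GC.pts c)) x y) T ∂(tree (GC.inten f₀ ε) L) := by
    intro c
    rw [← lintegral_iSup (h1 c) fun m n hmn T => hmono c T hmn]
    refine lintegral_congr fun T => ?_
    cases T with
    | leaf a => simp only [onN_leaf, iSup_const]
    | node x y => simp only [onN_node, ENNReal.mul_iSup]
  unfold XP
  rw [lintegral_congr h2, lintegral_iSup hA fun m n hmn c =>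
    lintegral_mono fun T => hmono c T hmn]
  exact iSup_le hB

theorem ExP_iff {U : Finset Src} {x y : CTree} : ExP L hΦ hε θ t U x y ↔
    PExc L hΦ hε 0 θ (θ + θ) t U x y := by
  unfold ExP PExc
  rw [sub_zero, add_sub_cancel_left]
  simp only [addT_leaf]

/-- The exceptional event of `ExcQ1` is measurable. -/
theorem measurableSet_BadQ (t : ℝ) :
    MeasurableSet {p : (CTree × CTree) × GC.Conf Ph |
      BadQ L hΦ hε t (wS (GC.pts p.2)) p.1.1 p.1.2} := by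
  have mx : Measurable fun p : (CTree × CTree) × GC.Conf Ph => p.1.1 :=
    measurable_fst.comp measurable_fst
  have my : Measurable fun p : (CTree × CTree) × GC.Conf Ph => p.1.2 :=
    measurable_snd.comp measurable_fst
  have e : {p : (CTree × CTree) × GC.Conf Ph | BadQ L hΦ hε t (wS (GC.pts p.2)) p.1.1 p.1.2} =
      {p : (CTree × CTree) × GC.Conf Ph | UnP L hΦ hε (wS (GC.pts p.2)) p.1.1 p.1.2} ∩
      ⋃ n : ℕ, ({p : (CTree × CTree) × GC.Conf Ph |
          sig Φ ε (node p.1.1 p.1.2) ≤ un Φ ε t p.1.1 p.1.2 n} ∩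
        {p : (CTree × CTree) × GC.Conf Ph |
          PGood Φ ε L (wS (GC.pts p.2)) p.1.1 p.1.2 (un Φ ε t p.1.1 p.1.2 n)}ᶜ) := by
    ext p
    simp only [mem_inter_iff, mem_iUnion, mem_compl_iff]
    constructor
    · rintro ⟨h0, u, h1, h2, h3, h4⟩
      obtain ⟨n, hn⟩ := exists_un h1 h2
      exact ⟨h0, n, h3.trans hn, fun h => h4 (PGood.mono h hn)⟩
    · rintro ⟨h0, n, h3, h4⟩
      exact ⟨h0, _, un_le, un_lt, h3, h4⟩
  rw [e]
  refine measurableSet_UnP.inter (MeasurableSet.iUnion fun n => MeasurableSet.inter ?_ ?_)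
  · exact measurableSet_le ((measurable_sig hΦ hε.ne').comp
      (measurable_node.comp measurable_fst)) ((measurable_un hΦ hε t n).comp measurable_fst)
  · exact (RM.measurableSet_PGood hΦ hε rs_wS_pair mx my
      ((measurable_un hΦ hε t n).comp measurable_fst)).compl

theorem XP_ExPs_le (hε : 0 < ε) (h : GoodDatum f₀ κ) {B : ℝ≥0∞}
    (hB : ∀ n, XP Φ ε L f₀ t (fun U x y => wqP Φ ε x y *
      ind (GdP L hΦ hε (un Φ ε t x y n) U x y ∧
        ExP L hΦ hε θ (un Φ ε t x y n) U x y)) ≤ B) :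
    XP Φ ε L f₀ t (fun U x y => wqP Φ ε x y * ind (ExPs L hΦ hε θ t U x y)) ≤
      XP Φ ε L f₀ t (fun U x y => wqP Φ ε x y * ind (BadQ L hΦ hε t U x y)) + B := by
  have mx : Measurable fun p : (CTree × CTree) × GC.Conf Ph => p.1.1 :=
    measurable_fst.comp measurable_fst
  have my : Measurable fun p : (CTree × CTree) × GC.Conf Ph => p.1.2 :=
    measurable_snd.comp measurable_fst
  have m1 : Measurable fun p : (CTree × CTree) × GC.Conf Ph => wqP Φ ε p.1.1 p.1.2 *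
      ind (BadQ L hΦ hε t (wS (GC.pts p.2)) p.1.1 p.1.2) :=
    measurable_wqP_ind hΦ hε (P := fun c x y => BadQ L hΦ hε t (wS (GC.pts c)) x y)
      (measurableSet_BadQ t)
  have h1 : XP Φ ε L f₀ t (fun U x y => ⨆ n : ℕ, wqP Φ ε x y *
      ind (PGs L hΦ hε t U x y ∧ sig Φ ε (node x y) ≤ un Φ ε t x y n ∧
        ExP L hΦ hε θ (un Φ ε t x y n) U x y)) ≤ B := by
    refine XP_iSup_le hΦ hε h (fun n => ?_) (fun U x y m n hmn => ?_) fun n => ?_
    · refine measurable_wqP_ind hΦ hε (P := fun c x y => PGs L hΦ hε t (wS (GC.pts c)) x y ∧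
        sig Φ ε (node x y) ≤ un Φ ε t x y n ∧
        ExP L hΦ hε θ (un Φ ε t x y n) (wS (GC.pts c)) x y) ?_
      have h2 := RM.measurableSet_PExc (hΦ := hΦ) (hε := hε) (L := L) (η := 0) (η' := θ)
        (η'' := θ + θ) rs_wS_pair mx my ((measurable_un hΦ hε t n).comp measurable_fst)
      have h3 : MeasurableSet {p : (CTree × CTree) × GC.Conf Ph |
          sig Φ ε (node p.1.1 p.1.2) ≤ un Φ ε t p.1.1 p.1.2 n} :=
        measurableSet_le ((measurable_sig hΦ hε.ne').comp (measurable_node.comp measurable_fst))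
          ((measurable_un hΦ hε t n).comp measurable_fst)
      have e : {p : (CTree × CTree) × GC.Conf Ph | PGs L hΦ hε t (wS (GC.pts p.2)) p.1.1 p.1.2 ∧
          sig Φ ε (node p.1.1 p.1.2) ≤ un Φ ε t p.1.1 p.1.2 n ∧
          ExP L hΦ hε θ (un Φ ε t p.1.1 p.1.2 n) (wS (GC.pts p.2)) p.1.1 p.1.2} =
          ({p : (CTree × CTree) × GC.Conf Ph | UnP L hΦ hε (wS (GC.pts p.2)) p.1.1 p.1.2} ∩
          {p : (CTree × CTree) × GC.Conf Ph |
            BadQ L hΦ hε t (wS (GC.pts p.2)) p.1.1 p.1.2}ᶜ) ∩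
          ({p : (CTree × CTree) × GC.Conf Ph |
            sig Φ ε (node p.1.1 p.1.2) ≤ un Φ ε t p.1.1 p.1.2 n} ∩
          {p : (CTree × CTree) × GC.Conf Ph | PExc L hΦ hε 0 θ (θ + θ)
            (un Φ ε t p.1.1 p.1.2 n) (wS (GC.pts p.2)) p.1.1 p.1.2}) := by
        ext p
        exact and_congr Iff.rfl (and_congr Iff.rfl ExP_iff)
      rw [e]
      exact (measurableSet_UnP.inter (measurableSet_BadQ t).compl).inter (h3.inter h2)
    · refine mul_le_mul_right (ind_mono fun h3 => ?_) _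
      exact ⟨h3.1, h3.2.1.trans (un_mono hmn), ExP_mono (un_mono hmn) h3.2.2⟩
    · refine le_trans (XP_mono fun U x y _ => mul_le_mul_right (ind_mono fun h3 => ?_) _) (hB n)
      exact ⟨h3.1.good h3.2.1, h3.2.2⟩
  calc XP Φ ε L f₀ t (fun U x y => wqP Φ ε x y * ind (ExPs L hΦ hε θ t U x y))
      ≤ XP Φ ε L f₀ t (fun U x y => wqP Φ ε x y * ind (BadQ L hΦ hε t U x y) +
        ⨆ n : ℕ, wqP Φ ε x y *
          ind (PGs L hΦ hε t U x y ∧ sig Φ ε (node x y) ≤ un Φ ε t x y n ∧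
            ExP L hΦ hε θ (un Φ ε t x y n) U x y)) := by
        refine XP_mono fun U x y hc => ?_
        rw [← ENNReal.mul_iSup, ← mul_add]
        exact mul_le_mul_right (ind_ExPs_le hc) _
    _ = _ := XP_add hΦ hε m1 h
    _ ≤ _ := add_le_add le_rfl h1

/-- Small terms. -/
theorem eventually_le_of_tendsto {f : ℝ → ℝ≥0∞} (hf : Tendsto f (𝓝[>] 0) (𝓝 0)) {ρ : ℝ}
    (hρ : 0 < ρ) : ∀ᶠ ε in 𝓝[>] (0 : ℝ), f ε ≤ ENNReal.ofReal ρ := by
  have := hf.eventually (Iio_mem_nhds (ENNReal.ofReal_pos.2 hρ))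
  filter_upwards [this] with ε h
  exact h.le

theorem small_aux1 {θ ρ : ℝ} (hθ : 0 < θ) (hρ : 0 < ρ) {b c d : ℝ≥0∞}
    (hb : b ≤ ENNReal.ofReal (θ * ρ / 6))
    (hc : c ≤ ENNReal.ofReal (θ * ρ / 6)) (hd : d ≤ ENNReal.ofReal (θ * ρ / 6)) :
    (ENNReal.ofReal θ)⁻¹ * (b + (c + d)) ≤ ENNReal.ofReal (ρ / 2) := by
  calc (ENNReal.ofReal θ)⁻¹ * (b + (c + d))
      ≤ (ENNReal.ofReal θ)⁻¹ * (ENNReal.ofReal (θ * ρ / 6) +
          (ENNReal.ofReal (θ * ρ / 6) + ENNReal.ofReal (θ * ρ / 6))) := by gcongr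
    _ = ENNReal.ofReal (ρ / 2) := by
        rw [← ENNReal.ofReal_inv_of_pos hθ, ← ENNReal.ofReal_add (by positivity) (by positivity),
          ← ENNReal.ofReal_add (by positivity) (by positivity),
          ← ENNReal.ofReal_mul (by positivity)]
        congr 1
        field_simp
        ring

theorem small_aux {θ ρ : ℝ} (hθ : 0 < θ) (hρ : 0 < ρ) {a b c d : ℝ≥0∞}
    (ha : a ≤ ENNReal.ofReal (ρ / 2)) (hb : b ≤ ENNReal.ofReal (θ * ρ / 6))
    (hc : c ≤ ENNReal.ofReal (θ * ρ / 6)) (hd : d ≤ ENNReal.ofReal (θ * ρ / 6)) :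
    a + (ENNReal.ofReal θ)⁻¹ * (b + (c + d)) ≤ ENNReal.ofReal ρ := by
  refine (add_le_add ha (small_aux1 hθ hρ hb hc hd)).trans (le_of_eq ?_)
  rw [← ENNReal.ofReal_add (by positivity) (by positivity), add_halves]

/-- **The exceptional sets of P9 are negligible**, from the natural terms. -/
theorem bdE_of (h : GoodDatum f₀ κ) {T : ℝ} (d1 : ∀ᶠ L in atTop, ExcD1 Φ f₀ L T)
    (d2 : ∀ᶠ L in atTop, ExcD2 hΦ f₀ L T) (d3 : ∀ᶠ L in atTop, ExcD3 hΦ f₀ L T)
    (d4 : ∀ᶠ L in atTop, ExcD4 hΦ f₀ L T) (q1 : ∀ᶠ L in atTop, ExcQ1 hΦ f₀ L T)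
    (q2 : ∀ᶠ L in atTop, ExcQ2 hΦ f₀ L T) (q3 : ∀ᶠ L in atTop, ExcQ3 hΦ f₀ L T)
    (q4 : ∀ᶠ L in atTop, ExcQ4 hΦ f₀ L T) : BdE hΦ f₀ T := by
  filter_upwards [d1, d2, d3, d4, q1, q2, q3, q4] with L d1 d2 d3 d4 q1 q2 q3 q4 θ hθ ρ hρ
  have h1 : 0 < ρ / 2 := by positivity
  have h2 : 0 < θ * ρ / 6 := by positivity
  filter_upwards [eventually_le_of_tendsto d1 h1, d2 _ h2, d3 _ h2, d4 _ h2,
    q1 _ h1, q2 _ h2, q3 _ h2, q4 _ h2]
    with ε a1 a2 a3 a4 b1 b2 b3 b4 hε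
  refine ⟨(XX_ExDs_le hε h hθ).trans (small_aux hθ hρ a1 (a2 hε) (a3 hε) (a4 hε)), ?_⟩
  have hμ : FL.muE ε ≠ 0 := (ENNReal.ofReal_pos.2 (GC.mu_pos hε)).ne'
  have h3 : ∀ n, XP Φ ε L f₀ T (fun U x y => wqP Φ ε x y *
      ind (GdP L hΦ hε (un Φ ε T x y n) U x y ∧
        ExP L hΦ hε θ (un Φ ε T x y n) U x y)) ≤ FL.muE ε * ENNReal.ofReal (ρ / 2) := by
    intro n
    have h4 := (XP_ExPd_le (L := L) (hΦ := hΦ) (f₀ := f₀) (t := T) hε h hθ
      (measurable_un hΦ hε T n)).trans (small_aux1 hθ hρ (b2 hε n) (b3 hε n) (b4 hε n))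
    rw [ENNReal.inv_mul_le_iff hμ FL.muE_ne_top] at h4
    exact h4
  calc _ ≤ (FL.muE ε)⁻¹ * (XP Φ ε L f₀ T (fun U x y => wqP Φ ε x y *
        ind (BadQ L hΦ hε T U x y)) +
        FL.muE ε * ENNReal.ofReal (ρ / 2)) := mul_le_mul_right (XP_ExPs_le hε h h3) _
    _ ≤ ENNReal.ofReal (ρ / 2) + ENNReal.ofReal (ρ / 2) := by
        rw [mul_add, muE_inv_mul hε]
        exact add_le_add (b1 hε) le_rfl
    _ = ENNReal.ofReal ρ := by
        rw [← ENNReal.ofReal_add (by positivity) (by positivity), add_halves]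

end ContExc

end Vale.Agent.P119.PB
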