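import Vale.Agent.P119.PB.Int5c
import Vale.Agent.P119.PB.Op3

/-!
# P119, block PROB: the exceptional term of ONE STEP (`helper347`)

`Exc5`: the norm of the exceptional terms of `theta_le_final`, the input of P10 and P11.
-/

open MeasureTheory Filter Topology Set
open scoped ENNReal NNReal

noncomputable section

namespace Vale.Agent.P119.PB

open M CTree KU FB RB AU FL TL

/-- **The exceptional terms** of ONE STEP (irregular first contact; first tree not typical; too many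
related trees). -/
def Exc5 {Φ : E3 → ℝ} (hΦ : IsPotential Φ) (f₀ : Ph → ℝ) (L : ℕ) (T b l₁ l₂ : ℝ)
    (a : ℕ → ℝ) : Prop :=
  ∀ θ : ℝ, 0 < θ → ∀ ρ : ℝ, 0 < ρ → ∀ᶠ ε in 𝓝[>] (0 : ℝ), ∀ hε : 0 < ε, ∀ t ∈ Icc 0 T,
    Nm b T l₁ l₂ a t (fun σ => if σ.2.2 ≤ L then
      ∫⁻ c, (ind (Irr Φ ε L (wS (GC.pts c)) σ t) +
        sumHit Φ ε L t σ (BB L hΦ hε θ t (fun V S => ¬NoExc Φ ε L t σ V S) σ)
          (wS (GC.pts c))) ∂(GC.PP f₀ ε) else 0) ≤ ENNReal.ofReal ρ

end Vale.Agent.P119.PB
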