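import Vale.Agent.P119.PB.CreInt3
import Vale.Agent.P119.PB.Op10
import Vale.Agent.P119.PB.P9BdF
import Vale.Agent.P119.PB.Exc5
import Vale.Agent.P119.PB.ContExc

/-!
# P119, block PROB, P9 (contamination): the input `BdC` (`helper456`)

* `ExcQ5`: a third tree near a colliding pair;
* `typI_vp_le_Nm`: the law of the lines and the norm `Nm`;
* `exc5_typI`: the exceptional term of P5 in the law of the lines;
* `bdC_of_par`: **the input `BdC` of `in9_of`**, the creation terms.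
-/

open MeasureTheory Filter Topology Set
open scoped ENNReal NNReal

noncomputable section

namespace Vale.Agent.P119.PB

open M CTree KU RB FB AU FL

variable {Φ : E3 → ℝ} {hΦ : IsPotential Φ} {ε : ℝ} {L : ℕ} {f₀ : Ph → ℝ} {κ b t T b₀ l₁ l₂ Q : ℝ}
  {m α a : ℕ → ℝ}

variable (Φ f₀) in
/-- A third tree near a colliding pair. -/
def ExcQ5 (L : ℕ) (T : ℝ) : Prop :=
  Tendsto (fun ε => (FL.muE ε)⁻¹ * XP Φ ε L f₀ T
    (fun U x y => wqP Φ ε x y * ind (TriP Φ ε L U x y T))) (𝓝[>] 0) (𝓝 0)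

/-! ### The law of the lines and the norm -/

theorem typI_le_of {Tm : ℝ} (hTm : 0 ≤ Tm) {α : ℕ → ℝ≥0∞} {F : Src → ℝ≥0∞} {M : ℕ → ℝ≥0∞}
    (h : ∀ s ∈ Icc 0 Tm, ∀ d : ℕ, ∫⁻ z : Ph, gw b z.2 * F (s, z, d) ≤ M d) :
    typI b Tm α F ≤ ENNReal.ofReal (1 + Tm) * ∑' d, α d * M d := by
  rw [← ENNReal.tsum_mul_left]
  refine ENNReal.tsum_le_tsum fun d => ?_
  rw [mul_left_comm]
  refine mul_le_mul_right ?_ _
  calc (∫⁻ z : Ph, gw b z.2 * F (0, z, d)) + ∫⁻ s in Icc 0 Tm, ∫⁻ z : Ph, gw b z.2 * F (s, z, d)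
      ≤ M d + ∫⁻ _ in Icc 0 Tm, M d := add_le_add (h 0 ⟨le_rfl, hTm⟩ d)
        (setLIntegral_mono' measurableSet_Icc fun s hs => h s hs d)
    _ = ENNReal.ofReal (1 + Tm) * M d := by
        rw [lintegral_const, Measure.restrict_apply_univ, Real.volume_Icc, sub_zero,
          ENNReal.ofReal_add zero_le_one hTm, ENNReal.ofReal_one, add_mul, one_mul,
          mul_comm (M d)]

/-- **The law of the lines and the norm.** -/
theorem typI_vp_le_Nm (hP : Par T b₀ m b l₁ l₂ Q α a) (F : Src → ℝ≥0∞) :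
    typI (b₀ / 2) T (fun d => ENNReal.ofReal (m d)) (fun σ => EX.vp 2 σ * F σ) ≤
      ENNReal.ofReal (1 + T) * (ENNReal.ofReal Q * (ENNReal.ofReal (Cgp (b₀ / 2) 2) *
        Nm b T l₁ l₂ a T F)) := by
  have hb₀ := hP.b₀0
  have hb := hP.b0
  have hT := hP.T0
  have ha := hP.wts.apos
  have hb2 : 0 < b₀ / 2 := by positivity
  have hbb : b ≤ b₀ / 2 / 2 := by
    rw [hP.hb]
    linarith
  refine (typI_le_of hT.le (M := fun d => ENNReal.ofReal (Cgp (b₀ / 2) 2) *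
    (ENNReal.ofReal (1 / a d) * Nm b T l₁ l₂ a T F)) fun s hs d => ?_).trans
    (mul_le_mul_right ?_ _)
  · calc ∫⁻ z : Ph, gw (b₀ / 2) z.2 * (EX.vp 2 (s, z, d) * F (s, z, d))
        ≤ ∫⁻ z : Ph, ENNReal.ofReal (Cgp (b₀ / 2) 2) * (gw (bt b T s) z.2 * F (s, z, d)) := by
          refine lintegral_mono fun z => ?_
          change gw (b₀ / 2) z.2 * (EX.vp 2 (s, z, d) * F (s, z, d)) ≤
            ENNReal.ofReal (Cgp (b₀ / 2) 2) * (gw (bt b T s) z.2 * F (s, z, d))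
          rw [← mul_assoc, ← mul_assoc]
          refine mul_le_mul_left ((gw_mul_vp hb2 2 (s, z, d)).trans (mul_le_mul_right ?_ _)) _
          exact gw_anti ((bt_le hb hT hs.1).trans hbb) z.2
      _ = ENNReal.ofReal (Cgp (b₀ / 2) 2) * Y b T F s d :=
          lintegral_const_mul' _ _ ENNReal.ofReal_ne_top
      _ ≤ ENNReal.ofReal (Cgp (b₀ / 2) 2) *
            (ENNReal.ofReal (1 / wgt l₁ l₂ a s d) * Nm b T l₁ l₂ a T F) :=
          mul_le_mul_right (Y_le_Nm ha hs d F) _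
      _ ≤ _ := by
          refine mul_le_mul_right (mul_le_mul_left (ENNReal.ofReal_le_ofReal ?_) _) _
          exact one_div_le_one_div_of_le (ha d) (wgt_ge ha hP.l₁0 hP.l₂0 hs.1 d)
  · calc ∑' d, ENNReal.ofReal (m d) * (ENNReal.ofReal (Cgp (b₀ / 2) 2) *
          (ENNReal.ofReal (1 / a d) * Nm b T l₁ l₂ a T F))
        ≤ ∑' d, ENNReal.ofReal (α d / a d) * (ENNReal.ofReal (Cgp (b₀ / 2) 2) *
          Nm b T l₁ l₂ a T F) := by
          refine ENNReal.tsum_le_tsum fun d => ?_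
          have h1 : m d ≤ α d := by
            have h2 := hP.succ_mul_le d
            have h3 := hP.m0 d
            have h4 : (0 : ℝ) ≤ d := Nat.cast_nonneg d
            nlinarith
          calc ENNReal.ofReal (m d) * (ENNReal.ofReal (Cgp (b₀ / 2) 2) *
                (ENNReal.ofReal (1 / a d) * Nm b T l₁ l₂ a T F))
              = ENNReal.ofReal (m d * (1 / a d)) * (ENNReal.ofReal (Cgp (b₀ / 2) 2) *
                Nm b T l₁ l₂ a T F) := by
                rw [ENNReal.ofReal_mul (hP.m0 d)]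
                ring
            _ ≤ _ := by
                refine mul_le_mul_left (ENNReal.ofReal_le_ofReal ?_) _
                rw [mul_one_div]
                exact div_le_div_of_nonneg_right h1 (ha d).le
      _ = (∑' d, ENNReal.ofReal (α d / a d)) * (ENNReal.ofReal (Cgp (b₀ / 2) 2) *
          Nm b T l₁ l₂ a T F) := ENNReal.tsum_mul_right
      _ ≤ _ := mul_le_mul_left hP.wts.w2 _

/-! ### The exceptional term of P5 -/

theorem sumHit_mono {σ : Src} {G G' : Finset Src → CTree → ℝ≥0∞}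
    (h : ∀ V S, G V S ≤ G' V S) (U : Finset Src) :
    sumHit Φ ε L t σ G U ≤ sumHit Φ ε L t σ G' U := by
  unfold sumHit
  exact Finset.sum_le_sum fun S _ => mul_le_mul_right (h _ _) _

open Classical in
/-- The exceptional part of the creation by a line. -/
theorem exc5_le (hε : 0 < ε) {θ : ℝ} (σ : Src) :
    ∫⁻ c, (if σ.2.2 ≤ L then EX.vp 2 σ * excN Φ ε L t (wS (GC.pts c)) σ else 0)
      ∂(GC.PP f₀ ε) ≤ EX.vp 2 σ * (if σ.2.2 ≤ L then
      ∫⁻ c, (ind (Irr Φ ε L (wS (GC.pts c)) σ t) +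
        sumHit Φ ε L t σ (BB L hΦ hε θ t (fun V S => ¬NoExc Φ ε L t σ V S) σ)
          (wS (GC.pts c))) ∂(GC.PP f₀ ε) else 0) := by
  by_cases hσ : σ.2.2 ≤ L
  · simp only [if_pos hσ]
    rw [← lintegral_const_mul' _ _ (by unfold EX.vp; exact ENNReal.ofReal_ne_top)]
    refine lintegral_mono fun c => mul_le_mul_right ?_ _
    unfold excN
    refine add_le_add le_rfl (sumHit_mono (fun V S => ?_) _)
    unfold BB
    rw [add_assoc, add_assoc]
    exact le_self_add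
  · simp only [if_neg hσ, lintegral_zero, mul_zero, le_refl]

open Classical in
/-- **The exceptional term of P5** in the law of the lines. -/
theorem exc5_typI (hP : Par T b₀ m b l₁ l₂ Q α a) (h5 : Exc5 hΦ f₀ L T b l₁ l₂ a) {ρ : ℝ}
    (hρ : 0 < ρ) : ∀ᶠ ε in 𝓝[>] (0 : ℝ), ∀ _ : 0 < ε,
    typI (b₀ / 2) T (fun d => ENNReal.ofReal (m d)) (fun σ => ∫⁻ c, (if σ.2.2 ≤ L then
      EX.vp 2 σ * excN Φ ε L T (wS (GC.pts c)) σ else 0) ∂(GC.PP f₀ ε)) ≤ ENNReal.ofReal ρ := by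
  have hT := hP.T0
  obtain ⟨K, hK⟩ : ∃ K, K = (1 + T) * (|Q| * |Cgp (b₀ / 2) 2|) := ⟨_, rfl⟩
  have hK0 : 0 ≤ K := by rw [hK]; positivity
  have hr : 0 < ρ / (K + 1) := by positivity
  filter_upwards [h5 1 one_pos _ hr] with ε h5 hε
  have h6 := h5 hε T ⟨hT.le, le_rfl⟩
  refine (typI_mono fun σ => exc5_le (hΦ := hΦ) hε (θ := 1) σ).trans ?_
  refine (typI_vp_le_Nm hP _).trans ?_
  calc _ ≤ ENNReal.ofReal (1 + T) * (ENNReal.ofReal |Q| * (ENNReal.ofReal |Cgp (b₀ / 2) 2| *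
        ENNReal.ofReal (ρ / (K + 1)))) := by
        refine mul_le_mul_right (mul_le_mul' (ENNReal.ofReal_le_ofReal (le_abs_self _))
          (mul_le_mul' (ENNReal.ofReal_le_ofReal (le_abs_self _)) h6)) _
    _ = ENNReal.ofReal (K * (ρ / (K + 1))) := by
        rw [← ENNReal.ofReal_mul (abs_nonneg _), ← ENNReal.ofReal_mul (abs_nonneg _),
          ← ENNReal.ofReal_mul (by positivity), hK]
        congr 1
        ring
    _ ≤ ENNReal.ofReal ρ := by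
        refine ENNReal.ofReal_le_ofReal ?_
        calc K * (ρ / (K + 1)) ≤ (K + 1) * (ρ / (K + 1)) := by gcongr; linarith
          _ = ρ := by field_simp

/-! ### The masses of maximal depth -/

theorem wq_le_eT {c : ℝ} (hc : 0 < c) (S : CTree) :
    wq Φ ε S ≤ ENNReal.ofReal (1 + 1 / c) * eT Φ ε c S := by
  unfold wq eT
  rw [← ENNReal.ofReal_mul (by positivity)]
  refine ENNReal.ofReal_le_ofReal ?_
  have h1 : c * ‖(ln Φ ε S).2‖ ^ 2 ≤ Real.exp (c * ‖(ln Φ ε S).2‖ ^ 2) := by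
    have := Real.add_one_le_exp (c * ‖(ln Φ ε S).2‖ ^ 2)
    linarith
  have h2 : 1 ≤ Real.exp (c * ‖(ln Φ ε S).2‖ ^ 2) := Real.one_le_exp (by positivity)
  have h3 : ‖(ln Φ ε S).2‖ ^ 2 ≤ 1 / c * Real.exp (c * ‖(ln Φ ε S).2‖ ^ 2) := by
    rw [one_div, ← div_eq_inv_mul, le_div_iff₀ hc, mul_comm]
    exact h1
  linarith

/-- The trees of maximal depth, weighted with the energy. -/
theorem XX_wq_dep_le (hΦ : IsPotential Φ) (hε : 0 < ε) {c : ℝ} (hc : 0 < c) :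
    XX Φ ε L f₀ T (fun _ S => wq Φ ε S * ind (S.depth = L)) ≤
      ENNReal.ofReal (1 + 1 / c) * ∫⁻ x, ∫⁻ S in Cap.AL Φ ε L T (GC.pts x : Set Ph) ∩ dep L,
        eT Φ ε c S ∂(tree (GC.inten f₀ ε) L) ∂(GC.PP f₀ ε) := by
  unfold XX
  rw [← lintegral_const_mul' _ _ ENNReal.ofReal_ne_top]
  refine lintegral_mono fun x => ?_
  have hm := (measurableSet_ALc hΦ hε L T x).inter (measurableSet_dep L)
  rw [← lintegral_indicator hm, ← lintegral_const_mul' _ _ ENNReal.ofReal_ne_top]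
  refine lintegral_mono fun S => ?_
  by_cases h : alT Φ ε L T (wS (GC.pts x)) S
  · have h1 : S ∈ Cap.AL Φ ε L T (GC.pts x : Set Ph) := alT_iff.1 h
    rw [ind_of h, one_mul]
    change wq Φ ε S * ind (S.depth = L) ≤ _
    by_cases hS : S.depth = L
    · rw [ind_of hS, mul_one, indicator_of_mem (show S ∈ Cap.AL Φ ε L T
        (GC.pts x : Set Ph) ∩ dep L from ⟨h1, hS⟩)]
      exact wq_le_eT hc S
    · rw [ind_of_not hS, mul_zero]
      exact zero_le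
  · rw [ind_of_not h, zero_mul]
    exact zero_le

/-- The trees of maximal depth, weighted with the velocity. -/
theorem XX_wln_dep_le (hΦ : IsPotential Φ) (hε : 0 < ε) {c : ℝ} (hc : 0 < c) :
    XX Φ ε L f₀ T (fun _ S => wln Φ ε S * ind (S.depth = L)) ≤
      ENNReal.ofReal (ker c 1) * ∫⁻ x, ∫⁻ S in Cap.AL Φ ε L T (GC.pts x : Set Ph) ∩ dep L,
        eT Φ ε c S ∂(tree (GC.inten f₀ ε) L) ∂(GC.PP f₀ ε) := by
  refine XX_le_eT hΦ hε hc le_rfl (measurableSet_dep L) (H := fun _ S => ind (S.depth = L))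
    fun V S _ => ?_
  by_cases hS : S.depth = L
  · rw [ind_of hS, indicator_of_mem (show S ∈ dep L from hS), Pi.one_apply]
  · rw [ind_of_not hS]
    exact zero_le

/-! ### The laws -/

section laws

variable {X : Type*} [MeasurableSpace X] {P : Measure X} [SFinite P] {F G : X → Src → ℝ≥0∞}

open Classical in
/-- The cut at the depth `L`, with the weight. -/
def vcut (L : ℕ) (F : Src → ℝ≥0∞) (σ : Src) : ℝ≥0∞ :=
  if σ.2.2 ≤ L then EX.vp 2 σ * F σ else 0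

theorem meas_vcut (hF : Measurable fun p : X × Src => F p.1 p.2) (L : ℕ) :
    Measurable fun p : X × Src => vcut L (F p.1) p.2 := by
  unfold vcut
  refine Measurable.ite ?_ (((EX.measurable_vp 2).comp measurable_snd).mul hF) measurable_const
  exact (measurable_snd.comp (measurable_snd.comp measurable_snd)) (measurableSet_Iic (a := L))

theorem typI_vcut_add (hF : Measurable fun p : X × Src => F p.1 p.2) {α : ℕ → ℝ≥0∞} (L : ℕ) :
    typI b T α (fun σ => ∫⁻ x, vcut L (fun σ => min 1 (F x σ + G x σ)) σ ∂P) ≤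
      typI b T α (fun σ => ∫⁻ x, vcut L (F x) σ ∂P) +
      typI b T α (fun σ => ∫⁻ x, vcut L (G x) σ ∂P) := by
  have m1 := meas_vcut hF L
  have m2 : Measurable fun σ : Src => ∫⁻ x, vcut L (F x) σ ∂P := m1.lintegral_prod_left'
  rw [← typI_add m2]
  refine typI_mono fun σ => ?_
  have m3 : Measurable fun x : X => vcut L (F x) σ :=
    meas_left (F := fun (x : X) (σ : Src) => vcut L (F x) σ) m1 σ
  rw [← lintegral_add_left m3]
  refine lintegral_mono fun x => ?_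
  change vcut L (fun σ => min 1 (F x σ + G x σ)) σ ≤ vcut L (F x) σ + vcut L (G x) σ
  unfold vcut
  by_cases hσ : σ.2.2 ≤ L
  · rw [if_pos hσ, if_pos hσ, if_pos hσ, ← mul_add]
    exact mul_le_mul_right (min_le_right _ _) _
  · rw [if_neg hσ]
    exact zero_le

theorem vcut_min_le (F : Src → ℝ≥0∞) (L : ℕ) (σ : Src) :
    vcut L (fun σ => min 1 (F σ)) σ ≤ EX.vp 2 σ := by
  unfold vcut
  by_cases hσ : σ.2.2 ≤ L
  · rw [if_pos hσ]
    exact (mul_le_mul_right (min_le_left _ _) _).trans (le_of_eq (mul_one _))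
  · rw [if_neg hσ]
    exact zero_le

end laws

/-- The creation by the lines in terms of the law of the lines. -/
theorem XX_creG_le (h₀ : GoodDatum f₀ κ) (hΦ : IsPotential Φ) (hε : 0 < ε) {α : ℕ → ℝ≥0∞}
    {ν : ℝ → GC.Conf Ph → Measure Src} (hcap : CapL Φ f₀ L T b α ν) :
    (FL.muE ε)⁻¹ * XX Φ ε L f₀ T (fun U S => creG Φ ε L T U (rsrc Φ ε S)) ≤
      typI b T α (fun σ => ∫⁻ c, vcut L (topN Φ ε L T (wS (GC.pts c))) σ ∂(GC.PP f₀ ε)) +
      typI b T α (fun σ => ∫⁻ c, vcut L (excN Φ ε L T (wS (GC.pts c))) σ ∂(GC.PP f₀ ε)) +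
      ∫⁻ c, ∫⁻ σ : Src, Cap.pw 2 σ.2.1.2 ∂(ν ε c) ∂(GC.PP f₀ ε) := by
  have := GC.isProbability_PP (ε := ε) h₀
  have h1 := XX_src_le (t := T) (Tm := T) h₀ hΦ hε le_rfl (ν := ν ε) (fun c F hF =>
    hcap.law ε hε c F hF) (measurable_creG (L := L) (t := T) hΦ hε)
  refine (mul_le_mul_right h1 _).trans ?_
  rw [muE_inv_mul hε]
  refine add_le_add ?_ ?_
  · exact typI_vcut_add (P := GC.PP f₀ ε) (F := fun c σ => topN Φ ε L T (wS (GC.pts c)) σ)
      (G := fun c σ => excN Φ ε L T (wS (GC.pts c)) σ) (measurable_topN hΦ hε) L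
  · refine lintegral_mono fun c => lintegral_mono fun σ => ?_
    exact vcut_min_le (fun σ => topN Φ ε L T (wS (GC.pts c)) σ +
      excN Φ ε L T (wS (GC.pts c)) σ) L σ

/-! ### The constants -/

/-- The constant of the hits of the trees of maximal depth. -/
def Ktop (b T c : ℝ) (α : ℕ → ℝ≥0∞) : ℝ≥0∞ :=
  (∑' d, α d) * (ENNReal.ofReal (1 + T) * (ENNReal.ofReal (Cgp b 2) *
    ((ENNReal.ofReal Real.pi * I0 (b / 2)) * (ENNReal.ofReal T * ENNReal.ofReal (ker c 1)))))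

theorem Ktop_ne_top {c : ℝ} {α : ℕ → ℝ≥0∞} (hb : 0 < b) (hα : ∑' d, α d ≠ ∞) :
    Ktop b T c α ≠ ∞ :=
  ENNReal.mul_ne_top hα (ENNReal.mul_ne_top ENNReal.ofReal_ne_top
    (ENNReal.mul_ne_top ENNReal.ofReal_ne_top (ENNReal.mul_ne_top
      (ENNReal.mul_ne_top ENNReal.ofReal_ne_top (I0_ne_top (half_pos hb)))
      (ENNReal.mul_ne_top ENNReal.ofReal_ne_top ENNReal.ofReal_ne_top))))

theorem typI_top_le' (h₀ : GoodDatum f₀ κ) (hΦ : IsPotential Φ) (hε : 0 < ε) (hb : 0 < b)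
    (hT : 0 ≤ T) {α : ℕ → ℝ≥0∞} {c y : ℝ} (hc : 0 < c)
    (h : ∫⁻ x, ∫⁻ S in Cap.AL Φ ε L T (GC.pts x : Set Ph) ∩ dep L, eT Φ ε c S
      ∂(tree (GC.inten f₀ ε) L) ∂(GC.PP f₀ ε) ≤ muE ε * ENNReal.ofReal y) :
    typI b T α (fun σ => ∫⁻ c, vcut L (topN Φ ε L T (wS (GC.pts c))) σ ∂(GC.PP f₀ ε)) ≤
      Ktop b T c α * ENNReal.ofReal y := by
  refine (typI_top_le h₀ hΦ hε hb hT α).trans ?_
  have h1 := (XX_wln_dep_le (T := T) hΦ hε hc).trans (mul_le_mul_right h _)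
  calc _ ≤ (∑' d, α d) * (ENNReal.ofReal (1 + T) * (ENNReal.ofReal (Cgp b 2) *
        (ENNReal.ofReal (ε ^ 2) * (ENNReal.ofReal Real.pi * I0 (b / 2)) *
          (ENNReal.ofReal T * (ENNReal.ofReal (ker c 1) *
            (muE ε * ENNReal.ofReal y)))))) := by
        exact mul_le_mul_right (mul_le_mul_right (mul_le_mul_right
          (mul_le_mul_right (mul_le_mul_right h1 _) _) _) _) _
    _ = (muE ε * ENNReal.ofReal (ε ^ 2)) * (Ktop b T c α * ENNReal.ofReal y) := by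
        unfold Ktop
        ring
    _ = _ := by rw [muE_mul hε, one_mul]

theorem sum_seven {x₁ x₂ x₃ x₄ x₅ x₆ x₇ : ℝ} (h₁ : 0 ≤ x₁) (h₂ : 0 ≤ x₂) (h₃ : 0 ≤ x₃)
    (h₄ : 0 ≤ x₄) (h₅ : 0 ≤ x₅) (h₆ : 0 ≤ x₆) (h₇ : 0 ≤ x₇) :
    (ENNReal.ofReal x₁ + ENNReal.ofReal x₂) +
      (ENNReal.ofReal x₃ + ENNReal.ofReal x₄ + ENNReal.ofReal x₅) +
      (ENNReal.ofReal x₆ + ENNReal.ofReal x₇) =
    ENNReal.ofReal ((x₁ + x₂) + (x₃ + x₄ + x₅) + (x₆ + x₇)) := by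
  rw [ENNReal.ofReal_add (by positivity) (by positivity),
    ENNReal.ofReal_add (by positivity) (by positivity), ENNReal.ofReal_add h₁ h₂,
    ENNReal.ofReal_add (by positivity) h₅, ENNReal.ofReal_add h₃ h₄, ENNReal.ofReal_add h₆ h₇]

/-- **The input `BdC` of `in9_of`**: the creation terms. -/
theorem bdC_of_par (hP : Par T b₀ m b l₁ l₂ Q α a) (hg : GoodDatum f₀ κ) {M₀ : ℝ} (hM : 0 ≤ M₀)
    (hf : ∀ z, f₀ z ≤ M₀ * Real.exp (-b₀ * ‖z.2‖ ^ 2))
    (hx : ∀ v : E3, ∫⁻ x : E3, ENNReal.ofReal (f₀ (x, v)) ≤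
      ENNReal.ofReal (M₀ * Real.exp (-b₀ * ‖v‖ ^ 2)))
    (hcap : ∀ᶠ L in atTop, CapT Φ f₀ L T (b₀ / 2) m) (hI1 : ∀ᶠ L in atTop, Cap.InI1 Φ f₀ L T)
    (d1 : ∀ᶠ L in atTop, ContExc.ExcD1 Φ f₀ L T) (q1 : ∀ᶠ L in atTop, ContExc.ExcQ1 hΦ f₀ L T)
    (q5 : ∀ᶠ L in atTop, ExcQ5 Φ f₀ L T) (e5 : ∀ᶠ L in atTop, Exc5 hΦ f₀ L T b l₁ l₂ a) :
    ∃ cr : ℕ → ℝ, (∀ L, 0 ≤ cr L) ∧ KE.SuperExp cr ∧ BdC hΦ f₀ T 1 cr := by
  have hb₀ := hP.b₀0
  have hT := hP.T0
  have hb2 : 0 < b₀ / 2 := by positivity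
  obtain ⟨c, hc, dm, hdm0, hdms, Mt, hMt, hmass⟩ := exists_depth_mass hΦ hg hb₀ hT hM hf hx
    hb2 hP.tsum_ne_top
  obtain ⟨C₁, hC₁⟩ : ∃ C₁ : ℝ, C₁ = 1 + 1 / c := ⟨_, rfl⟩
  have hC₁0 : 0 ≤ C₁ := by rw [hC₁]; positivity
  have hKt := Ktop_ne_top (T := T) (c := c) hb2 hP.tsum_ne_top
  obtain ⟨X, hX⟩ : ∃ X : ℝ, X = (Ktop (b₀ / 2) T c fun d => ENNReal.ofReal (m d)).toReal :=
    ⟨_, rfl⟩
  have hX0 : 0 ≤ X := by rw [hX]; exact ENNReal.toReal_nonneg
  have hXe : (Ktop (b₀ / 2) T c fun d => ENNReal.ofReal (m d)) = ENNReal.ofReal X := by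
    rw [hX, ENNReal.ofReal_toReal hKt]
  refine ⟨fun L => (C₁ + X) * dm L, fun L => mul_nonneg (by positivity) (hdm0 L),
    hdms.const_mul _, ?_⟩
  unfold BdC
  filter_upwards [hcap, hI1, d1, q1, q5, e5] with L hL hI d1 q1 q5 e5 η hη _ ρ hρ
  obtain ⟨ν, hν⟩ := hL.capL
  obtain ⟨r, hr⟩ : ∃ r : ℝ, r = ρ / (6 * (C₁ + X + 1)) := ⟨_, rfl⟩
  have hr0 : 0 < r := by rw [hr]; positivity
  have hrρ : (C₁ + X) * r ≤ ρ / 6 := by
    rw [hr]
    calc (C₁ + X) * (ρ / (6 * (C₁ + X + 1))) ≤ (C₁ + X + 1) * (ρ / (6 * (C₁ + X + 1))) :=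
          mul_le_mul_of_nonneg_right (by linarith) (by positivity)
      _ = ρ / 6 := by field_simp
  have hρ6 : 0 < ρ / 6 := by positivity
  filter_upwards [hmass L ν hν hI r hr0, ContExc.eventually_le_of_tendsto d1 hρ6,
    q1 _ hρ6, ContExc.eventually_le_of_tendsto q5 hρ6,
    exc5_typI hP e5 hρ6, ContExc.eventually_le_of_tendsto (hν.lim 2) hρ6]
    with ε hmε a1 a2 a3 a4 a5 hε t ht
  have hm1 := hmε.1 L le_rfl
  have hyd : 0 ≤ dm L + r := by have := hdm0 L; linarith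
  -- the trees of maximal depth
  have b1 : (FL.muE ε)⁻¹ * XX Φ ε L f₀ T (fun _ S => wq Φ ε S * ind (S.depth = L)) ≤
      ENNReal.ofReal (C₁ * (dm L + r)) := by
    calc _ ≤ (FL.muE ε)⁻¹ * (ENNReal.ofReal (1 + 1 / c) *
          (muE ε * ENNReal.ofReal (dm L + r))) :=
          mul_le_mul_right ((XX_wq_dep_le hΦ hε hc).trans (mul_le_mul_right hm1 _)) _
      _ = (FL.muE ε)⁻¹ * (muE ε * (ENNReal.ofReal (1 + 1 / c) *
          ENNReal.ofReal (dm L + r))) := by ring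
      _ = _ := by
          rw [muE_inv_mul hε, ← hC₁, ← ENNReal.ofReal_mul hC₁0]
  -- the hits
  have b2 := typI_top_le' (L := L) (α := fun d => ENNReal.ofReal (m d)) hg hΦ hε hb2 hT.le hc hm1
  rw [hXe, ← ENNReal.ofReal_mul hX0] at b2
  have b3 := XX_creG_le (T := T) hg hΦ hε hν
  have b4 := b3.trans (add_le_add (add_le_add b2 (a4 hε)) a5)
  have c1 : creS L hΦ hε f₀ η t ≤
      XX Φ ε L f₀ T (fun U T' => wq Φ ε T' * ind (CEF L hΦ hε (addT U T') T T')) +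
      XP Φ ε L f₀ T (fun U x y => wqP Φ ε x y *
        ind (CEP L hΦ hε (addT U (node x y)) T x y)) := by
    refine (creS_le hg hη ht.1).trans (add_le_add ?_ ?_)
    · exact XX_le_XX ht.2 fun U S => mul_le_mul_right (ind_mono fun h => h.mono ht.2) _
    · exact XP_le_XP ht.2 fun U x y => mul_le_mul_right (ind_mono fun h => h.mono ht.2) _
  have c2 := c1.trans (add_le_add (XX_cef_le hg hΦ hε) (XP_cep_le hg))
  refine (mul_le_mul_right c2 _).trans ?_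
  rw [mul_add, mul_add, mul_add, mul_add]
  have e1 : 0 ≤ C₁ * (dm L + r) := mul_nonneg hC₁0 hyd
  have e2 : 0 ≤ X * (dm L + r) := mul_nonneg hX0 hyd
  calc _ ≤ (ENNReal.ofReal (ρ / 6) + ENNReal.ofReal (C₁ * (dm L + r))) +
        (ENNReal.ofReal (X * (dm L + r)) + ENNReal.ofReal (ρ / 6) + ENNReal.ofReal (ρ / 6)) +
        (ENNReal.ofReal (ρ / 6) + ENNReal.ofReal (ρ / 6)) :=
        add_le_add (add_le_add (add_le_add a1 b1) b4) (add_le_add (a2 hε) a3)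
    _ = ENNReal.ofReal ((ρ / 6 + C₁ * (dm L + r)) + (X * (dm L + r) + ρ / 6 + ρ / 6) +
        (ρ / 6 + ρ / 6)) := by
        exact sum_seven hρ6.le e1 e2 hρ6.le hρ6.le hρ6.le hρ6.le
    _ ≤ _ := by
        refine ENNReal.ofReal_le_ofReal ?_
        rw [one_pow, one_mul]
        nlinarith

end Vale.Agent.P119.PB
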