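import Vale.Agent.P119.PB.Int5
import Vale.Agent.P119.PB.ThrTL2
import Vale.Agent.P119.TL.FirstHit
import Vale.Agent.P119.FB.Conc1

/-!
# P119, block PROB: the pointwise ONE STEP inequality (`helper336`)

* `touch_birth`, `CC_of_hits`, `DirC_of_direct`, lower bounds of `sumHit`, `mainN`, `secN`;
* `Frs`, `StepC`: the deterministic alternatives for the first touch `τ` of the line `l`;
* `BB`: the exceptional terms;
* `pt5_of_step`: the pointwise inequality `Pt5` from the deterministic alternatives, with the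
  threshold transfers of `helper185` and `helper456`.
-/

open MeasureTheory Filter Topology Set
open scoped ENNReal NNReal

noncomputable section

namespace Vale.Agent.P119.PB

open M CTree KU FB RB AU FL TL

variable {Φ : E3 → ℝ} {ε : ℝ} {L : ℕ} {hΦ : IsPotential Φ} {hε : 0 < ε}
  {U V W : Finset Src} {m l e : Src} {s t η η' w : ℝ} {T : CTree}

/-! ### Births and touches -/

theorem not_touch_self : ¬(RB.Y Φ ε L hΦ hε).Touch W W t := by
  rintro ⟨a, ha, -⟩
  rw [FB.Sys.D_self] at ha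
  exact ha

open Classical in
/-- An inserted source touches after its birth only. -/
theorem touch_birth (h : (RB.Y Φ ε L hΦ hε).Touch V (insert m V) s) : m.1 ≤ s := by
  by_cases hm : m ∈ V
  · rw [Finset.insert_eq_of_mem hm] at h
    exact absurd h not_touch_self
  by_contra hcon
  obtain ⟨a, ha, he⟩ := h
  have h1 := FB.dlt_subset_single (hΦ := hΦ) (hε := hε) (L := L) (σ := m.1) hm fun r hr b hb =>
      absurd (mcon.birth_le hΦ hε hb).1 (not_le.2 hr)
  have h2 : a ∈ ({m} : Set Src) := h1 ⟨s, not_le.1 hcon, ha⟩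
  have h3 : a = m := h2
  subst h3
  rcases he with he | he
  · exact hm he.mem
  · exact hcon (exp_birth_le he)

/-! ### Contacts -/

/-- Contacts with exposed particles. -/
theorem CC_of_hits {b : Src} {r : ℝ} {p : Ph} (hb : (RB.Y Φ ε L hΦ hε).Exp W b r)
    (h : FB.Hits Φ ε L W b r p) : CC L hΦ hε W r p.1 := by
  refine ⟨b, mem_ex.2 hb, ?_⟩
  rcases h with ⟨-, h⟩ | ⟨S, h1, h2, h3⟩
  · exact Or.inl h.1
  · exact Or.inr ⟨S, h1, h2, h3.1⟩

/-- Direct contact. -/
theorem DirC_of_direct {H : ℝ} (h : FB.Direct Φ ε L hΦ hε U l H)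
    (hH : H ≤ min (hz L hΦ hε η t U) (l.1 + w)) : DirC L hΦ hε η t w U l := by
  obtain ⟨r, hr, h1, b, hb, h2⟩ := h
  have h3 := CC_of_hits hb h2
  have h4 : (KU.free r l.2.1).1 = l.2.1.1 + r • l.2.1.2 := rfl
  rw [h4] at h3
  exact ⟨r, h1, hr.trans hH, h3⟩

/-! ### Lower bounds of the sums -/

theorem ind_le_sumHit {G : Finset Src → CTree → ℝ≥0∞} (hT : T ∈ trs L U)
    (h : HitC Φ ε L t U l T) (hG : 1 ≤ G (rm U T) T) : 1 ≤ sumHit Φ ε L t l G U := by
  unfold sumHit
  refine le_trans ?_ (Finset.single_le_sum (f := fun T => ind (HitC Φ ε L t U l T) *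
    G (rm U T) T) (fun _ _ => zero_le) hT)
  rw [ind_of h, one_mul]
  exact hG

theorem one_le_mainN_pair {z' : Ph} {n : ℕ} (h : PairC L hΦ hε η t w V l z') :
    1 ≤ mainN L hΦ hε η t w V l z' n := by
  unfold mainN
  rw [ind_of h]
  exact le_self_add

theorem one_le_tchL (hm : m.2.2 ≤ L) (h : TT L hΦ hε η t w V m) :
    1 ≤ tchL L hΦ hε η t w V m := by
  unfold tchL
  rw [if_pos hm, ind_of h]

theorem one_le_mainN_out1 {z' : Ph} {n : ℕ} (hn : max l.2.2 n + 1 ≤ L)
    (ht : sepT Φ ε (l.2.1, z') ≤ t)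
    (h : TT L hΦ hε η t w V (sepT Φ ε (l.2.1, z'), (sc2 Φ ε (l.2.1, z')).1, max l.2.2 n + 1)) :
    1 ≤ mainN L hΦ hε η t w V l z' n := by
  unfold mainN fresh
  refine le_trans ?_ (le_add_left (le_add_right (le_add_right (le_refl
    ((Iic t).indicator (fun τ => tchL L hΦ hε η t w V (τ, (sc2 Φ ε (l.2.1, z')).1,
      max l.2.2 n + 1)) (sepT Φ ε (l.2.1, z')))))))
  rw [indicator_of_mem (mem_Iic.2 ht)]
  exact one_le_tchL hn h

theorem one_le_mainN_out2 {z' : Ph} {n : ℕ} (hn : max l.2.2 n + 1 ≤ L)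
    (ht : sepT Φ ε (l.2.1, z') ≤ t)
    (h : TT L hΦ hε η t w V (sepT Φ ε (l.2.1, z'), (sc2 Φ ε (l.2.1, z')).2, max l.2.2 n + 1)) :
    1 ≤ mainN L hΦ hε η t w V l z' n := by
  unfold mainN fresh
  refine le_trans ?_ (le_add_left (le_add_right (le_add_left (le_refl
    ((Iic t).indicator (fun τ => tchL L hΦ hε η t w V (τ, (sc2 Φ ε (l.2.1, z')).2,
      max l.2.2 n + 1)) (sepT Φ ε (l.2.1, z')))))))
  rw [indicator_of_mem (mem_Iic.2 ht)]
  exact one_le_tchL hn h

theorem one_le_mainN_old {z' : Ph} {n : ℕ} (hn : n ≤ L) (ht : hitT ε (l.2.1, z') ≤ t)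
    (h : TT L hΦ hε η t w V (hitT ε (l.2.1, z'), z', n)) :
    1 ≤ mainN L hΦ hε η t w V l z' n := by
  unfold mainN fresh
  refine le_trans ?_ (le_add_left (le_add_left (le_refl
    ((Iic t).indicator (fun τ => tchL L hΦ hε η t w V (τ, z', n)) (hitT ε (l.2.1, z'))))))
  rw [indicator_of_mem (mem_Iic.2 ht)]
  exact one_le_tchL hn h

open Classical in
/-- The second touching line. -/
inductive Snd (L : ℕ) (hΦ : IsPotential Φ) (hε : 0 < ε) (η t w : ℝ) (V : Finset Src) (l : Src)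
    (T x : CTree) : Prop
  | out1 : max l.2.2 T.depth + 1 ≤ L → GG L hΦ hε η t V (rsrc Φ ε x)
      (sepT Φ ε (l.2.1, ln Φ ε T), (sc2 Φ ε (l.2.1, ln Φ ε T)).1, max l.2.2 T.depth + 1) →
      Snd L hΦ hε η t w V l T x
  | out2 : max l.2.2 T.depth + 1 ≤ L → GG L hΦ hε η t V (rsrc Φ ε x)
      (sepT Φ ε (l.2.1, ln Φ ε T), (sc2 Φ ε (l.2.1, ln Φ ε T)).2, max l.2.2 T.depth + 1) →
      Snd L hΦ hε η t w V l T x
  | old : T.depth ≤ L → GG L hΦ hε η t V (rsrc Φ ε x) (hitT ε (l.2.1, ln Φ ε T), ln Φ ε T,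
      T.depth) → Snd L hΦ hε η t w V l T x
  | pair : (RB.Y Φ ε L hΦ hε).Touch V (insert (rsrc Φ ε x) V)
      (hz L hΦ hε η t (insert (rsrc Φ ε x) V)) →
      PairC L hΦ hε η t w (insert (rsrc Φ ε x) V) l (ln Φ ε T) → Snd L hΦ hε η t w V l T x
  | exs (y : CTree) : y.depth ≤ L → y ∈ TL.exs T → x ≠ y →
      GG L hΦ hε η t V (rsrc Φ ε x) (rsrc Φ ε y) → Snd L hΦ hε η t w V l T x

/-- The depth of an exhaust. -/
theorem exs_depth_le {x T : CTree} (hx : x ∈ TL.exs T) : x.depth ≤ T.depth := by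
  obtain ⟨a, b, h1, rfl⟩ := TL.exs_iff.1 hx
  refine le_trans (le_of_eq ?_) h1.depth_le
  change max b.depth a.depth + 1 = max a.depth b.depth + 1
  rw [max_comm]

theorem one_le_gI {V : Finset Src} {e m : Src} (hm : m.2.2 ≤ L) (h : GG L hΦ hε η t V e m) :
    1 ≤ gI L hΦ hε η t V e m := by
  classical
  unfold gI
  rw [if_pos hm, ind_of h]

theorem one_le_secN {x : CTree} (hx : x ∈ TL.exs T) (h : Snd L hΦ hε η t w V l T x) :
    1 ≤ secN L hΦ hε η t w V l T := by
  classical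
  unfold secN
  refine le_trans ?_ (le_exsum hx _)
  rcases h with ⟨hd, h⟩ | ⟨hd, h⟩ | ⟨hd, h⟩ | ⟨h1, h2⟩ | ⟨y, hd, hy, hxy, h⟩
  · exact le_add_right (le_add_right (le_add_right (le_add_right (one_le_gI hd h))))
  · exact le_add_right (le_add_right (le_add_right (le_add_left (one_le_gI hd h))))
  · exact le_add_right (le_add_right (le_add_left (one_le_gI hd h)))
  · exact le_add_right (le_add_left (ind_of (p := _ ∧ _) ⟨h1, h2⟩).ge)
  · refine le_add_left (le_trans ?_ (le_exsum hy _))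
    rw [if_neg hxy]
    exact one_le_gI hd h

/-! ### The deterministic alternatives -/

/-- The three fresh lines. -/
inductive Frs (Φ : E3 → ℝ) (ε : ℝ) (l : Src) (T : CTree) : Src → Prop
  | out1 : Frs Φ ε l T (sepT Φ ε (l.2.1, ln Φ ε T), (sc2 Φ ε (l.2.1, ln Φ ε T)).1,
      max l.2.2 T.depth + 1)
  | out2 : Frs Φ ε l T (sepT Φ ε (l.2.1, ln Φ ε T), (sc2 Φ ε (l.2.1, ln Φ ε T)).2,
      max l.2.2 T.depth + 1)
  | old : Frs Φ ε l T (hitT ε (l.2.1, ln Φ ε T), ln Φ ε T, T.depth)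

/-- Contact of the pair of `l` and `T` with an exposed label of `V` at the time `r`. -/
def PCC (L : ℕ) (hΦ : IsPotential Φ) (hε : 0 < ε) (V : Finset Src) (l : Src) (T : CTree)
    (r : ℝ) : Prop :=
  CC L hΦ hε V r (pairLine Φ ε (l.2.1, ln Φ ε T) r).1.1 ∨
    CC L hΦ hε V r (pairLine Φ ε (l.2.1, ln Φ ε T) r).2.1

open Classical in
/-- **The alternatives of ONE STEP**: `τ` is the first touch of the line `l`, which hits the tree
`T` of `U`. -/
inductive StepC (L : ℕ) (hΦ : IsPotential Φ) (hε : 0 < ε) (t : ℝ) (E : Finset Src → CTree → Prop)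
    (U : Finset Src) (l : Src) (T : CTree) (τ : ℝ) : Prop
  | deep : L < max l.2.2 T.depth + 1 → StepC L hΦ hε t E U l T τ
  | exc : E (rm U T) T → StepC L hΦ hε t E U l T τ
  | felt : fl L hΦ hε U (hitT ε (l.2.1, ln Φ ε T)) T → StepC L hΦ hε t E U l T τ
  | pair (r : ℝ) : hitT ε (l.2.1, ln Φ ε T) ≤ r → r ≤ τ → PCC L hΦ hε (rm U T) l T r →
      (∀ q < r, ¬(RB.Y Φ ε L hΦ hε).Touch (rm U T) U q) → StepC L hΦ hε t E U l T τ
  | new (m : Src) (σ : ℝ) : Frs Φ ε l T m → hitT ε (l.2.1, ln Φ ε T) ≤ m.1 → σ ≤ τ →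
      (RB.Y Φ ε L hΦ hε).Touch (rm U T) (insert m (rm U T)) σ →
      (∀ q < σ, ¬(RB.Y Φ ε L hΦ hε).Touch (rm U T) U q) → StepC L hΦ hε t E U l T τ
  | sec (x : CTree) (σ : ℝ) : x ∈ TL.exs T → hitT ε (l.2.1, ln Φ ε T) < σ → σ ≤ τ →
      TGood Φ ε L hΦ hε (rm U T) T U (hitT ε (l.2.1, ln Φ ε T)) t →
      LGood Φ ε L (rm U T) T (hitT ε (l.2.1, ln Φ ε T)) t →
      (RB.Y Φ ε L hΦ hε).Touch (rm U T) (insert (rsrc Φ ε x) (rm U T)) σ →
      (∀ q < σ, ¬(RB.Y Φ ε L hΦ hε).Touch (insert (rsrc Φ ε x) (rm U T))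
        (lnw Φ ε (rm U T) T (hitT ε (l.2.1, ln Φ ε T))) q) →
      ((∃ m, (Frs Φ ε l T m ∨ ∃ y ∈ TL.exs T, x ≠ y ∧ m = rsrc Φ ε y) ∧
        (RB.Y Φ ε L hΦ hε).Touch (insert (rsrc Φ ε x) (rm U T))
          (insert m (insert (rsrc Φ ε x) (rm U T))) σ) ∨
        ∃ r, hitT ε (l.2.1, ln Φ ε T) ≤ r ∧ r ≤ σ ∧
          PCC L hΦ hε (insert (rsrc Φ ε x) (rm U T)) l T r) → StepC L hΦ hε t E U l T τ

/-- The line `l` hits the tree `T` in the world `V + T`: after the exit of `T`, which is alive. -/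
structure HitA (Φ : E3 → ℝ) (ε : ℝ) (L : ℕ) (l : Src) (V : Finset Src) (T : CTree) : Prop where
  lt : ext Φ ε T < hitT ε (l.2.1, ln Φ ε T)
  alive : M.alive Φ ε L (addT V T : Set Src) T (hitT ε (l.2.1, ln Φ ε T))

/-- The line `l` hits the tree `T`, whose root has not been exposed before. -/
structure HitR (L : ℕ) (hΦ : IsPotential Φ) (hε : 0 < ε) (l : Src) (V : Finset Src)
    (T : CTree) : Prop extends HitA Φ ε L l V T where
  unexp : ∀ s < hitT ε (l.2.1, ln Φ ε T), ¬(RB.Y Φ ε L hΦ hε).Exp (addT V T) T.root s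

open Classical in
/-- The exceptional terms: the event `E`, too many trees which are not independent of `T` or of
the difference of the worlds. -/
def BB (L : ℕ) (hΦ : IsPotential Φ) (hε : 0 < ε) (θ t : ℝ) (E : Finset Src → CTree → Prop)
    (l : Src) (V : Finset Src) (T : CTree) : ℝ≥0∞ :=
  ind (HitA Φ ε L l V T ∧ E V T) +
    ind (HitR L hΦ hε l V T ∧ ENNReal.ofReal (θ * mu ε) < relW L hΦ hε (addT V T) V t) +
    ind (HitR L hΦ hε l V T ∧
      lives Φ ε L (addT V T : Set Src) T (hitT ε (l.2.1, ln Φ ε T)) ∧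
      ENNReal.ofReal (θ * mu ε) <
        relT Φ ε L V T (addT V T) (hitT ε (l.2.1, ln Φ ε T)) t) +
    exsum T fun x => ind (HitR L hΦ hε l V T ∧ ENNReal.ofReal (θ * mu ε) <
      relW L hΦ hε (lnw Φ ε V T (hitT ε (l.2.1, ln Φ ε T))) (insert (rsrc Φ ε x) V) t)


theorem one_le_mainN_new {V : Finset Src} (hT : T.depth ≤ L) (hd : max l.2.2 T.depth + 1 ≤ L)
    (hm : Frs Φ ε l T m) (hmt : m.1 ≤ t) (h : TT L hΦ hε η t w V m) :
    1 ≤ mainN L hΦ hε η t w V l (ln Φ ε T) T.depth := by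
  cases hm with
  | out1 => exact one_le_mainN_out1 hd hmt h
  | out2 => exact one_le_mainN_out2 hd hmt h
  | old => exact one_le_mainN_old hT hmt h

open Classical in
/-- **The pointwise ONE STEP inequality** from the deterministic alternatives. -/
theorem pt5_of_step (hη : 0 < η) (hηη : η < η') (ht : 0 ≤ t) (hU : ∀ a ∈ U, 0 ≤ a.1)
    {E : Finset Src → CTree → Prop} {I : Prop}
    (hstep : ∀ τ, 0 ≤ τ → τ ≤ t → (RB.Y Φ ε L hΦ hε).Touch U (insert l U) τ →
      (∀ s < τ, ¬(RB.Y Φ ε L hΦ hε).Touch U (insert l U) s) →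
      FB.Direct Φ ε L hΦ hε U l τ ∨ I ∨
        ∃ T ∈ trs L U, HitC Φ ε L t U l T ∧ hitT ε (l.2.1, ln Φ ε T) ≤ τ ∧
          HitR L hΦ hε l (rm U T) T ∧ StepC L hΦ hε t E U l T τ) :
    Pt5 L hΦ hε η η' t w U l (ind I) (BB L hΦ hε ((η' - η) / 2) t E l) := by
  unfold Pt5
  by_cases hTT : TT L hΦ hε η t w U l
  swap
  · rw [ind_of_not hTT]; exact zero_le
  rw [ind_of hTT]
  obtain ⟨τ, hτ, h1, h2⟩ := FB.Sys.Touch.first hTT
  have hτh : τ ≤ hz L hΦ hε η t U := hτ.trans (min_le_left _ _)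
  have hτw : τ ≤ l.1 + w := hτ.trans (min_le_right _ _)
  have hτt : τ ≤ t := hτh.trans (hz_le hη ht)
  rcases hstep τ h1.nonneg hτt h1 h2 with h3 | h3 | ⟨T, hT, hH, hs, hHR, hC⟩
  · rw [ind_of (DirC_of_direct h3 hτ)]
    exact le_add_right (le_add_right (le_add_right (le_add_right le_self_add)))
  · rw [ind_of h3]
    exact le_add_left le_self_add
  -- the line hits the tree `T`
  obtain ⟨hTs, hTd⟩ := mem_trs.1 hT
  set V := rm U T with hV
  set S := hitT ε (l.2.1, ln Φ ε T) with hS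
  have hVn : ∀ a ∈ V, 0 ≤ a.1 := rm_nonneg hU
  have hVU : addT V T = U := addT_rm hTs
  have hθ : 0 < (η' - η) / 2 := by linarith
  have hμ := GC.mu_pos hε
  -- the exceptional terms
  by_cases hBB : 1 ≤ BB L hΦ hε ((η' - η) / 2) t E l V T
  · have := ind_le_sumHit (G := BB L hΦ hε ((η' - η) / 2) t E l) hT hH hBB
    exact this.trans (le_add_left le_add_self)
  have hB0 : ¬E V T ∧ relW L hΦ hε U V t ≤ ENNReal.ofReal ((η' - η) / 2 * mu ε) ∧
      (M.lives Φ ε L (U : Set Src) T S →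
        relT Φ ε L V T U S t ≤ ENNReal.ofReal ((η' - η) / 2 * mu ε)) ∧
      ∀ x ∈ TL.exs T, relW L hΦ hε (lnw Φ ε V T S) (insert (rsrc Φ ε x) V) t ≤
        ENNReal.ofReal ((η' - η) / 2 * mu ε) := by
    unfold BB at hBB
    rw [hVU] at hBB
    refine ⟨fun h => hBB ?_, not_lt.1 fun h => hBB ?_, fun hl => not_lt.1 fun h => hBB ?_,
      fun x hx => not_lt.1 fun h => hBB ?_⟩
    · exact le_add_right (le_add_right (le_add_right (ind_of ⟨hHR.toHitA, h⟩).ge))
    · exact le_add_right (le_add_right (le_add_left (ind_of ⟨hHR, h⟩).ge))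
    · exact le_add_right (le_add_left (ind_of ⟨hHR, hl, h⟩).ge)
    · refine le_add_left (le_trans (ind_of ⟨hHR, h⟩).ge (le_exsum hx fun x => ind _))
  obtain ⟨-, hR1, hR2, hR3⟩ := id hB0
  -- threshold transfer to the base
  have tr1 : ∀ σ, σ ≤ τ → (∀ q < σ, ¬(RB.Y Φ ε L hΦ hε).Touch V U q) →
      σ ≤ hz L hΦ hε η' t V := by
    intro σ hσ hq
    refine hz_transfer hU hVn hη ht (fun q hq' h => hq q hq' h.symm) (hR1.trans ?_) hηη.le
      (hσ.trans hτh)
    refine ENNReal.ofReal_le_ofReal (mul_le_mul_of_nonneg_right (by linarith) hμ.le)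
  -- too deep trees
  by_cases hdeep : L < max l.2.2 T.depth + 1
  · have h4 : 1 ≤ ovr L l T := by unfold ovr; rw [if_pos hdeep]
    have := ind_le_sumHit (G := fun _ T => ovr L l T) hT hH h4
    exact le_add_right (le_add_right (le_add_left this))
  have hdL : max l.2.2 T.depth + 1 ≤ L := not_lt.1 hdeep
  cases hC with
  | deep h => exact absurd h hdeep
  | exc h => exact absurd h hB0.1
  | felt h =>
    have h4 : FeltC L hΦ hε η t w U l T := ⟨hH.1, hH.2.1, hs.trans hτ, h⟩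
    have h5 : (1 : ℝ≥0∞) ≤ ∑ T ∈ trs L U, ind (FeltC L hΦ hε η t w U l T) :=
      le_trans (ind_of h4).ge (Finset.single_le_sum
        (f := fun T => ind (FeltC L hΦ hε η t w U l T)) (fun _ _ => zero_le) hT)
    exact le_add_right (le_add_right (le_add_right (le_add_right (le_add_left h5))))
  | pair r hr1 hr2 hr3 hr4 =>
    have h4 : PairC L hΦ hε η' t w V l (ln Φ ε T) :=
      ⟨hH.1, hH.2.1, r, hr1, le_min (tr1 r hr2 hr4) (hr2.trans hτw), hr3⟩
    have := ind_le_sumHit (G := fun V T => mainN L hΦ hε η' t w V l (ln Φ ε T) T.depth) hT hH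
      (one_le_mainN_pair h4)
    exact le_add_right (le_add_right (le_add_right (le_add_left this)))
  | new m σ hm hmS hσ h4 h5 =>
    by_cases hd : max l.2.2 T.depth + 1 ≤ L
    · have hσh := tr1 σ hσ h5
      have hmσ := touch_birth h4
      have h6 : TT L hΦ hε η' t w V m := by
        refine h4.mono (le_min hσh ?_)
        have := hH.2.1
        linarith
      have := ind_le_sumHit (G := fun V T => mainN L hΦ hε η' t w V l (ln Φ ε T) T.depth) hT hH
        (one_le_mainN_new hTd hd hm (hmσ.trans (hσ.trans hτt)) h6)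
      exact le_add_right (le_add_right (le_add_right (le_add_left this)))
    · have h6 : 1 ≤ ovr L l T := by unfold ovr; rw [if_pos (not_le.1 hd)]
      have := ind_le_sumHit (G := fun _ T => ovr L l T) hT hH h6
      exact le_add_right (le_add_right (le_add_left this))
  | sec x σ hx hSσ hσ hTG hLG h4 h5 h6 =>
    -- threshold transfer through the world of lines
    have hη'' : 0 < (η + η') / 2 := by linarith
    have h7 : σ ≤ hz L hΦ hε ((η + η') / 2) t (lnw Φ ε V T S) := by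
      refine hz_lnw hTG hLG hη ht hSσ ((hR2 (hTG.lives.resolve_left hHR.lt.ne')).trans ?_)
        (by linarith) (hσ.trans hτh)
      refine ENNReal.ofReal_le_ofReal (mul_le_mul_of_nonneg_right (by linarith) hμ.le)
    have hen : ∀ a ∈ insert (rsrc Φ ε x) V, 0 ≤ a.1 := by
      intro a ha
      rcases Finset.mem_insert.1 ha with rfl | ha
      · exact ext_nonneg hΦ hε (outs_ok hΦ hTG.ok (Or.inr hx))
      · exact hVn a ha
    have h8 : σ ≤ hz L hΦ hε η' t (insert (rsrc Φ ε x) V) := by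
      refine hz_transfer (lnw_nonneg hTG) hen hη'' ht (fun q hq h => h5 q hq h.symm)
        ((hR3 x hx).trans ?_) (by linarith) h7
      refine ENNReal.ofReal_le_ofReal (mul_le_mul_of_nonneg_right (by linarith) hμ.le)
    have h9 : Snd L hΦ hε η' t w V l T x := by
      rcases h6 with ⟨m, hm, hm'⟩ | ⟨r, hr1, hr2, hr3⟩
      · have hG : GG L hΦ hε η' t V (rsrc Φ ε x) m := ⟨h4.mono h8, hm'.mono h8⟩
        rcases hm with hm | ⟨y, hy, hxy, rfl⟩
        · cases hm with
          | out1 => exact .out1 hdL hG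
          | out2 => exact .out2 hdL hG
          | old => exact .old hTd hG
        · exact .exs y ((exs_depth_le hy).trans hTd) hy hxy hG
      · exact .pair (h4.mono h8) ⟨hH.1, hH.2.1, r, hr1,
          le_min (hr2.trans h8) ((hr2.trans hσ).trans hτw), hr3⟩
    have h10 : 1 ≤ secW L hΦ hε η' t w V l T := by
      unfold secW
      rw [ind_of ⟨hs.trans hτw, (alive_pre hTG.alive).ext_le⟩, one_mul]
      exact one_le_secN hx h9
    have := ind_le_sumHit (G := fun V T => secW L hΦ hε η' t w V l T) hT hH h10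
    exact le_add_right (le_add_left this)

end Vale.Agent.P119.PB
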