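import Vale.Agent.P119.PB.Slow
import Vale.Agent.P119.PB.Op9
import Vale.Agent.P119.PB.Pt5

/-!
# P119, block PROB, P9: direct contact of a colliding pair (`helper384`)

* `pairC_of_dirP`: a fast collision with a direct contact is an event `PairC` in one of the windows
  `[kδ, (k + 2) δ]`;
* **`dirP_le`**: `(muE)⁻¹ XP (wqP * ind DirP) ≤ ρ + c ∫_0^t DD` for `ε` small, for all `ρ, c > 0`.
-/

open MeasureTheory Filter Topology Set
open scoped ENNReal NNReal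

noncomputable section

namespace Vale.Agent.P119.PB

open M CTree KU FB RB AU FL

variable {Φ : E3 → ℝ} {ε : ℝ} {L : ℕ} {hΦ : IsPotential Φ} {hε : 0 < ε} {f₀ : Ph → ℝ}
  {κ η t s δ T₀ : ℝ} {U : Finset Src} {x y : CTree}

/-! ### Windows -/

/-- A direct contact of a pair whose collision is fast. -/
theorem pairC_of_dirP (hδ : 0 < δ) (htT : t ≤ T₀) (hco : coT Φ ε L t U x y)
    (hD : DirP L hΦ hε U (hz L hΦ hε η t U) x y)
    (hs : ¬SlowP Φ ε δ T₀ (ln Φ ε x, ln Φ ε y)) :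
    ∃ k ∈ Finset.range (⌈T₀ / δ⌉₊ + 1),
      PairC L hΦ hε η t (2 * δ) U ((k : ℝ) * δ, ln Φ ε x, 0) (ln Φ ε y) := by
  obtain ⟨h1, h2, -, h4, h5, h6, h7⟩ := hco.ok
  obtain ⟨r, hr, hsr, hrx, b, hb, hh⟩ := hD
  set τ := hitT ε (ln Φ ε x, ln Φ ε y) with hτ
  have h0 : 0 < τ := (ext_nonneg hΦ hε h1).trans_lt h6
  have hτt : τ ≤ t := hco.sig_le
  have hfast : sepT Φ ε (ln Φ ε x, ln Φ ε y) - τ ≤ δ := by
    by_contra hcon
    exact hs ⟨h4, ⟨h0, hτt.trans htT⟩, not_le.1 hcon⟩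
  have hq : 0 < τ / δ := by positivity
  have hpos : 0 < ⌈τ / δ⌉₊ := Nat.ceil_pos.2 hq
  obtain ⟨k, hk⟩ : ∃ k, ⌈τ / δ⌉₊ = k + 1 := ⟨⌈τ / δ⌉₊ - 1, by omega⟩
  have k1 : (k : ℝ) < τ / δ := Nat.lt_ceil.1 (by omega)
  have k2 : τ / δ ≤ k + 1 := by
    have := Nat.le_ceil (τ / δ)
    rw [hk] at this
    exact_mod_cast this
  rw [lt_div_iff₀ hδ] at k1
  rw [div_le_iff₀ hδ] at k2
  refine ⟨k, ?_, h4, k1, r, hsr.le, le_min hr ?_, ?_⟩
  · have k3 : τ / δ ≤ T₀ / δ := div_le_div_of_nonneg_right (hτt.trans htT) hδ.le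
    have k4 := Nat.ceil_mono k3
    exact Finset.mem_range.2 (by omega)
  · have k5 : r ≤ sepT Φ ε (ln Φ ε x, ln Φ ε y) := hrx
    change r ≤ k * δ + 2 * δ
    linarith
  · rcases hh with hh | hh
    · exact Or.inl (CC_of_hits hb hh)
    · right
      have := CC_of_hits hb hh
      rwa [st_swap hΦ x y r] at this

/-- The sum over the windows. -/
theorem sum_windows_le (hδ : 0 < δ) (ht : 0 ≤ t) (N : ℕ) (g : ℝ → ℝ≥0∞) :
    ∑ k ∈ Finset.range N, ∫⁻ r in Icc ((k : ℝ) * δ) (min t (k * δ + 2 * δ)), g r ≤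
      3 * ∫⁻ r in Icc 0 t, g r := by
  have h1 : ∀ (s : Finset ℕ) (F : ℕ → ℝ → ℝ≥0∞), ∑ k ∈ s, ∫⁻ r, F k r ≤ ∫⁻ r, ∑ k ∈ s, F k r := by
    intro s F
    classical
    induction s using Finset.induction_on with
    | empty => simp
    | insert a s ha ih =>
      rw [Finset.sum_insert ha]
      calc (∫⁻ r, F a r) + ∑ k ∈ s, ∫⁻ r, F k r ≤ (∫⁻ r, F a r) + ∫⁻ r, ∑ k ∈ s, F k r :=
            add_le_add le_rfl ih
        _ ≤ ∫⁻ r, (F a r + ∑ k ∈ s, F k r) := le_lintegral_add _ _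
        _ = _ := by simp only [Finset.sum_insert ha]
  have h2 : ∀ k : ℕ, ∫⁻ r in Icc ((k : ℝ) * δ) (min t (k * δ + 2 * δ)), g r =
      ∫⁻ r, (Icc ((k : ℝ) * δ) (min t (k * δ + 2 * δ))).indicator g r := fun k =>
    (lintegral_indicator measurableSet_Icc g).symm
  simp only [h2]
  refine (h1 _ _).trans ?_
  rw [← lintegral_indicator measurableSet_Icc, ← lintegral_const_mul' _ _ (by norm_num)]
  refine lintegral_mono fun r => ?_
  by_cases hr : r ∈ Icc 0 t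
  · rw [indicator_of_mem hr]
    have h3 : ∀ k ∈ Finset.range N, (Icc ((k : ℝ) * δ) (min t (k * δ + 2 * δ))).indicator g r ≤
        if k ∈ Finset.Icc (⌊r / δ⌋₊ - 2) ⌊r / δ⌋₊ then g r else 0 := by
      intro k _
      by_cases hk : r ∈ Icc ((k : ℝ) * δ) (min t (k * δ + 2 * δ))
      · rw [indicator_of_mem hk, if_pos]
        have a1 : (k : ℝ) ≤ r / δ := (le_div_iff₀ hδ).2 hk.1
        have a2 : r / δ ≤ k + 2 := by
          rw [div_le_iff₀ hδ]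
          have := hk.2.trans (min_le_right _ _)
          linarith
        have a3 : k ≤ ⌊r / δ⌋₊ := Nat.le_floor a1
        have a4 : ⌊r / δ⌋₊ ≤ k + 2 := by
          have : ⌊r / δ⌋₊ ≤ ⌊((k + 2 : ℕ) : ℝ)⌋₊ := Nat.floor_mono (by push_cast; exact a2)
          rwa [Nat.floor_natCast] at this
        exact Finset.mem_Icc.2 ⟨by omega, a3⟩
      · rw [indicator_of_notMem hk]
        exact zero_le
    refine (Finset.sum_le_sum h3).trans ?_
    rw [← Finset.sum_filter, Finset.sum_const, nsmul_eq_mul]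
    refine mul_le_mul_left ?_ _
    have h4 : ((Finset.range N).filter fun k => k ∈ Finset.Icc (⌊r / δ⌋₊ - 2) ⌊r / δ⌋₊).card ≤ 3 := by
      refine (Finset.card_le_card (t := Finset.Icc (⌊r / δ⌋₊ - 2) ⌊r / δ⌋₊) fun k hk =>
        (Finset.mem_filter.1 hk).2).trans ?_
      rw [Nat.card_Icc]
      omega
    exact_mod_cast h4
  · rw [indicator_of_notMem hr, mul_zero]
    refine le_of_eq (Finset.sum_eq_zero fun k _ => indicator_of_notMem (fun hk => hr ⟨?_, ?_⟩) _)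
    · exact (by positivity : (0 : ℝ) ≤ k * δ).trans hk.1
    · exact hk.2.trans (min_le_left _ _)

/-- The constant of the flux of a Gaussian pair is linear in the length of the window. -/
theorem Cp_mul (b c₁ : ℝ) (hδ : 0 ≤ δ) : Cp b c₁ (2 * δ) = Cp b c₁ 2 * ENNReal.ofReal δ := by
  unfold Cp
  have h : D2 b * (Kc (b / 2) * (2 * δ)) = D2 b * (Kc (b / 2) * 2) * δ := by ring
  rw [h, ENNReal.ofReal_mul' hδ]
  ring

/-! ### From `XP` to integrals over two trees -/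

/-- The integral over a colliding pair is at most the integral over two trees. -/
theorem XP_le_OKs (hΦ : IsPotential Φ) (hε : 0 < ε) (hg : GoodDatum f₀ κ) (htT : t ≤ T₀)
    {H H' : Finset Src → CTree → CTree → ℝ≥0∞}
    (hH : Measurable fun p : GC.Conf Ph × CTree × CTree => H' (wS (GC.pts p.1)) p.2.1 p.2.2)
    (h : ∀ U x y, coT Φ ε L t U x y → H U x y ≤ H' U x y) :
    XP Φ ε L f₀ t H ≤ ∫⁻ c, ∫⁻ x in OKs Φ ε T₀, ∫⁻ y in OKs Φ ε T₀, H' (wS (GC.pts c)) x y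
      ∂(tree (GC.inten f₀ ε) L) ∂(tree (GC.inten f₀ ε) L) ∂(GC.PP f₀ ε) := by
  classical
  have hfin := GC.isFiniteMeasure_inten (ε := ε) hg
  have hO := measurableSet_OKs (Φ := Φ) hΦ hε.ne' T₀
  have hOk : ∀ U x y, coT Φ ε L t U x y → x ∈ OKs Φ ε T₀ ∧ y ∈ OKs Φ ε T₀ := by
    intro U x y hc
    obtain ⟨h1, h2, -, h4, h5, h6, h7⟩ := hc.ok
    have h8 : hitT ε (ln Φ ε x, ln Φ ε y) ≤ t := hc.sig_le
    exact ⟨⟨h1, by linarith⟩, ⟨h2, by linarith⟩⟩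
  unfold XP
  refine lintegral_mono fun c => ?_
  set U := wS (GC.pts c) with hU
  set G : CTree → CTree → ℝ≥0∞ := fun x y =>
    (OKs Φ ε T₀).indicator (fun x => (OKs Φ ε T₀).indicator (fun y => H' U x y) y) x with hG
  have hm0 : Measurable fun q : CTree × CTree => H' U q.1 q.2 :=
    hH.comp (measurable_const.prodMk measurable_id)
  have hG' : (fun q : CTree × CTree => G q.1 q.2) =
      ((OKs Φ ε T₀) ×ˢ (OKs Φ ε T₀)).indicator fun q => H' U q.1 q.2 := by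
    funext q
    simp only [hG]
    by_cases h1 : q.1 ∈ OKs Φ ε T₀
    · by_cases h2 : q.2 ∈ OKs Φ ε T₀
      · rw [indicator_of_mem h1, indicator_of_mem h2, indicator_of_mem (Set.mem_prod.2 ⟨h1, h2⟩)]
      · rw [indicator_of_mem h1, indicator_of_notMem h2,
          indicator_of_notMem fun h => h2 (Set.mem_prod.1 h).2]
    · rw [indicator_of_notMem h1, indicator_of_notMem fun h => h1 (Set.mem_prod.1 h).1]
  have hGm : Measurable fun q : CTree × CTree => G q.1 q.2 := by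
    rw [hG']
    exact hm0.indicator (hO.prod hO)
  have h1 : ∫⁻ T, onN (fun x y => ind (coT Φ ε L t U x y) * H U x y) T
      ∂(tree (GC.inten f₀ ε) L) ≤ ∫⁻ T, onN G T ∂(tree (GC.inten f₀ ε) L) := by
    refine lintegral_mono fun T => onN_mono (fun x y => ?_) T
    by_cases hT : coT Φ ε L t U x y
    · obtain ⟨hx, hy⟩ := hOk U x y hT
      rw [ind_of hT, one_mul]
      simp only [hG]
      rw [indicator_of_mem hx, indicator_of_mem hy]
      exact h U x y hT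
    · rw [ind_of_not hT, zero_mul]
      exact zero_le
  have hGT : Measurable fun T : CTree => onN G T := by
    refine measurable_onN (X := CTree) (F := fun _ => G) ?_ measurable_id
    exact hGm.comp measurable_snd
  refine h1.trans ((lintegral_tree_le L hGT).trans (le_of_eq ?_))
  have h2 : ∫⁻ z, onN G (CTree.leaf (src z)) ∂(GC.inten f₀ ε) = 0 := by
    simp only [onN_leaf, lintegral_zero]
  rw [h2, zero_add, ← lintegral_indicator hO]
  refine lintegral_congr fun x => ?_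
  simp only [onN_node]
  by_cases hx : x ∈ OKs Φ ε T₀
  · rw [indicator_of_mem hx, ← lintegral_indicator hO]
    refine lintegral_congr fun y => ?_
    simp only [hG]
    rw [indicator_of_mem hx]
  · rw [indicator_of_notMem hx]
    simp only [hG]
    simp only [indicator_of_notMem hx, lintegral_zero]

/-! ### One window, fixed world -/

/-- The Gaussian flux of the pairs with a contact in a window. -/
def pcW (L : ℕ) (hΦ : IsPotential Φ) (hε : 0 < ε) (b η t w s : ℝ) (U : Finset Src) : ℝ≥0∞ :=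
  ∫⁻ l : Ph, ∫⁻ l' : Ph, gw b l.2 * (muE ε * gw b l'.2) * ind (PairC L hΦ hε η t w U (s, l, 0) l')

/-- The measurability of the event `PairC`. -/
theorem measurable_PairC3 (η t w s : ℝ) :
    Measurable fun q : GC.Conf Ph × (Ph × Ph) =>
      ind (PairC L hΦ hε η t w (wS (GC.pts q.1)) (s, q.2.1, 0) q.2.2) := by
  have hm := RM.measurable_PairC (L := L) (hΦ := hΦ) (hε := hε) η t w
  have h1 : Measurable fun q : GC.Conf Ph × (Ph × Ph) =>
      ((((s, q.2.1, 0), q.2.2), q.1) : (Src × Ph) × GC.Conf Ph) :=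
    ((measurable_const.prodMk ((measurable_fst.comp measurable_snd).prodMk
      measurable_const)).prodMk (measurable_snd.comp measurable_snd)).prodMk measurable_fst
  exact hm.comp h1

theorem measurable_PairC2 (η t w s : ℝ) (c : GC.Conf Ph) :
    Measurable fun q : Ph × Ph =>
      ind (PairC L hΦ hε η t w (wS (GC.pts c)) (s, q.1, 0) q.2) :=
  (measurable_PairC3 (L := L) (hΦ := hΦ) (hε := hε) η t w s).comp
    (measurable_const.prodMk measurable_id)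

/-- The law of two inserted trees, in a window. -/
theorem pairs_window_le (hΦ : IsPotential Φ) (hg : GoodDatum f₀ κ) {b M₀ : ℝ}
    (hb : 0 < b) (hT : 0 ≤ T₀) (hM : 0 ≤ M₀) (hf : ∀ z, f₀ z ≤ M₀ * Real.exp (-b * ‖z.2‖ ^ 2))
    (L : ℕ) : ∃ C : ℝ≥0∞, C ≠ ∞ ∧ ∀ (ε : ℝ) (hε : 0 < ε) (η t w s : ℝ) (c : GC.Conf Ph),
      ∫⁻ x in OKs Φ ε T₀, ∫⁻ y in OKs Φ ε T₀, wqP Φ ε x y *
        ind (PairC L hΦ hε η t w (wS (GC.pts c)) (s, ln Φ ε x, 0) (ln Φ ε y))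
        ∂(tree (GC.inten f₀ ε) L) ∂(tree (GC.inten f₀ ε) L) ≤
      muE ε * (C * pcW L hΦ hε (b / 16) η t w s (wS (GC.pts c))) := by
  obtain ⟨C₁, hC₁, h₁⟩ := crude_line hΦ hg hb hT hM hf L
  obtain ⟨C₃, hC₃, h₃⟩ := exists_quad_le (c := b / 16) (by positivity)
  refine ⟨C₁ * C₃ * (C₁ * C₃), ENNReal.mul_ne_top (ENNReal.mul_ne_top hC₁ hC₃)
    (ENNReal.mul_ne_top hC₁ hC₃), fun ε hε η t w s c => ?_⟩
  set U := wS (GC.pts c) with hU
  have hgt : ∀ (c : ℝ) (v : E3), gw c v ≠ ∞ := fun _ _ => ENNReal.ofReal_ne_top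
  have hgq : ∀ v : E3, ENNReal.ofReal (1 + ‖v‖ ^ 2) * gw (b / 2) v ≤ C₃ * gw (b / 16) v := by
    intro v
    refine (h₃ (-(b / 2)) v).trans (mul_le_mul_right ?_ _)
    unfold gw
    apply ENNReal.ofReal_le_ofReal
    apply Real.exp_le_exp.2
    nlinarith [sq_nonneg ‖v‖]
  have hPm := measurable_PairC2 (L := L) (hΦ := hΦ) (hε := hε) η t w s c
  set P : Ph → Ph → ℝ≥0∞ := fun l l' => ind (PairC L hΦ hε η t w U (s, l, 0) l') with hP
  have hPm' : Measurable fun q : Ph × Ph => P q.1 q.2 := hPm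
  set J : Ph → ℝ≥0∞ := fun l => ∫⁻ l' : Ph, gw (b / 16) l'.2 * P l l' with hJ
  have hJm : Measurable J := by
    have : Measurable fun q : Ph × Ph => gw (b / 16) q.2.2 * P q.1 q.2 :=
      ((measurable_gw _).comp (measurable_snd.comp measurable_snd)).mul hPm'
    exact this.lintegral_prod_right'
  have hin : ∀ x : CTree, ∫⁻ y in OKs Φ ε T₀, wqP Φ ε x y * P (ln Φ ε x) (ln Φ ε y)
      ∂(tree (GC.inten f₀ ε) L) ≤ muE ε * (C₁ * C₃) *
        (ENNReal.ofReal (1 + ‖(ln Φ ε x).2‖ ^ 2) * J (ln Φ ε x)) := by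
    intro x
    set l := ln Φ ε x with hl
    have hmF : Measurable fun l' : Ph => ENNReal.ofReal (1 + (‖l.2‖ ^ 2 + ‖l'.2‖ ^ 2)) * P l l' := by
      have a1 : Measurable fun l' : Ph => ENNReal.ofReal (1 + (‖l.2‖ ^ 2 + ‖l'.2‖ ^ 2)) :=
        ENNReal.measurable_ofReal.comp (measurable_const.add
          (measurable_const.add (measurable_snd.norm.pow_const 2)))
      exact a1.mul (hPm'.comp (measurable_const.prodMk measurable_id))
    have k1 := h₁ ε hε _ hmF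
    have k2 : ∫⁻ l' : Ph, gw (b / 2) l'.2 * (ENNReal.ofReal (1 + (‖l.2‖ ^ 2 + ‖l'.2‖ ^ 2)) *
        P l l') ≤ ENNReal.ofReal (1 + ‖l.2‖ ^ 2) * C₃ * J l := by
      simp only [hJ]
      rw [← lintegral_const_mul' _ _ (ENNReal.mul_ne_top ENNReal.ofReal_ne_top hC₃)]
      refine lintegral_mono fun l' => ?_
      calc gw (b / 2) l'.2 * (ENNReal.ofReal (1 + (‖l.2‖ ^ 2 + ‖l'.2‖ ^ 2)) * P l l')
          ≤ gw (b / 2) l'.2 * ((ENNReal.ofReal (1 + ‖l.2‖ ^ 2) *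
            ENNReal.ofReal (1 + ‖l'.2‖ ^ 2)) * P l l') :=
            mul_le_mul_right (mul_le_mul_left wqP_le _) _
        _ = ENNReal.ofReal (1 + ‖l.2‖ ^ 2) * (ENNReal.ofReal (1 + ‖l'.2‖ ^ 2) *
            gw (b / 2) l'.2) * P l l' := by ring
        _ ≤ ENNReal.ofReal (1 + ‖l.2‖ ^ 2) * (C₃ * gw (b / 16) l'.2) * P l l' :=
            mul_le_mul_left (mul_le_mul_right (hgq _) _) _
        _ = _ := by ring
    calc ∫⁻ y in OKs Φ ε T₀, wqP Φ ε x y * P l (ln Φ ε y) ∂(tree (GC.inten f₀ ε) L)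
        ≤ muE ε * (C₁ * ∫⁻ l' : Ph, gw (b / 2) l'.2 *
          (ENNReal.ofReal (1 + (‖l.2‖ ^ 2 + ‖l'.2‖ ^ 2)) * P l l')) := k1
      _ ≤ muE ε * (C₁ * (ENNReal.ofReal (1 + ‖l.2‖ ^ 2) * C₃ * J l)) :=
          mul_le_mul_right (mul_le_mul_right k2 _) _
      _ = _ := by ring
  have hqm : Measurable fun l : Ph => ENNReal.ofReal (1 + ‖l.2‖ ^ 2) * J l :=
    (ENNReal.measurable_ofReal.comp (measurable_const.add (measurable_snd.norm.pow_const 2))).mul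
      hJm
  calc ∫⁻ x in OKs Φ ε T₀, ∫⁻ y in OKs Φ ε T₀, wqP Φ ε x y * P (ln Φ ε x) (ln Φ ε y)
        ∂(tree (GC.inten f₀ ε) L) ∂(tree (GC.inten f₀ ε) L)
      ≤ ∫⁻ x in OKs Φ ε T₀, muE ε * (C₁ * C₃) *
        (ENNReal.ofReal (1 + ‖(ln Φ ε x).2‖ ^ 2) * J (ln Φ ε x)) ∂(tree (GC.inten f₀ ε) L) :=
        lintegral_mono fun x => hin x
    _ = muE ε * (C₁ * C₃) * ∫⁻ x in OKs Φ ε T₀, ENNReal.ofReal (1 + ‖(ln Φ ε x).2‖ ^ 2) *
        J (ln Φ ε x) ∂(tree (GC.inten f₀ ε) L) :=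
        lintegral_const_mul' _ _ (ENNReal.mul_ne_top muE_ne_top (ENNReal.mul_ne_top hC₁ hC₃))
    _ ≤ muE ε * (C₁ * C₃) * (muE ε * (C₁ * ∫⁻ l : Ph, gw (b / 2) l.2 *
        (ENNReal.ofReal (1 + ‖l.2‖ ^ 2) * J l))) := mul_le_mul_right (h₁ ε hε _ hqm) _
    _ ≤ muE ε * (C₁ * C₃) * (muE ε * (C₁ * (C₃ * ∫⁻ l : Ph, gw (b / 16) l.2 * J l))) := by
        refine mul_le_mul_right (mul_le_mul_right (mul_le_mul_right ?_ _) _) _
        rw [← lintegral_const_mul' _ _ hC₃]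
        refine lintegral_mono fun l => ?_
        calc gw (b / 2) l.2 * (ENNReal.ofReal (1 + ‖l.2‖ ^ 2) * J l)
            = (ENNReal.ofReal (1 + ‖l.2‖ ^ 2) * gw (b / 2) l.2) * J l := by ring
          _ ≤ (C₃ * gw (b / 16) l.2) * J l := mul_le_mul_left (hgq _) _
          _ = _ := by ring
    _ = muE ε * (C₁ * C₃ * (C₁ * C₃) * (muE ε * ∫⁻ l : Ph, gw (b / 16) l.2 * J l)) := by ring
    _ = _ := by
        congr 2
        unfold pcW
        rw [← lintegral_const_mul' _ _ muE_ne_top]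
        refine lintegral_congr fun l => ?_
        simp only [hJ, hP]
        rw [← lintegral_const_mul' _ _ (hgt _ _), ← lintegral_const_mul' _ _ muE_ne_top]
        refine lintegral_congr fun l' => ?_
        ring

/-- **The flux of the pairs in a window**, over the gas. -/
theorem lintegral_pcW_le (hg : GoodDatum f₀ κ) {B : ℝ} (hB : RW.StableWith Φ B) {b : ℝ}
    (hb : 0 < b) (hη : 0 < η) (ht : 0 ≤ t) (hs : 0 ≤ s) (hδ : 0 ≤ δ) :
    ∫⁻ c, pcW L hΦ hε b η t (2 * δ) s (wS (GC.pts c)) ∂(GC.PP f₀ ε) ≤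
      2 * (Cp b (FL.cS hΦ) 2 * ENNReal.ofReal δ) * (2 * ENNReal.ofReal (cDD B 0)) *
        (ENNReal.ofReal ε * DD L hΦ hε f₀ η t +
          ∫⁻ r in Icc s (min t (s + 2 * δ)), DD L hΦ hε f₀ η r) := by
  have hP := GC.isProbability_PP (ε := ε) hg
  set A := 2 * (Cp b (FL.cS hΦ) 2 * ENNReal.ofReal δ) * (2 * ENNReal.ofReal (cDD B 0)) with hA
  have hAt : A ≠ ∞ := ENNReal.mul_ne_top (ENNReal.mul_ne_top (by norm_num)
    (ENNReal.mul_ne_top (Cp_ne_top _ _ _) ENNReal.ofReal_ne_top))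
    (ENNReal.mul_ne_top (by norm_num) ENNReal.ofReal_ne_top)
  have h1 : ∫⁻ c, pcW L hΦ hε b η t (2 * δ) s (wS (GC.pts c)) ∂(GC.PP f₀ ε) ≤
      ∫⁻ c, ENNReal.ofReal (ε ^ 2) * A * (ENNReal.ofReal ε *
      eW L hΦ hε (wS (GC.pts c)) (hz L hΦ hε η t (wS (GC.pts c))) +
      ∫⁻ r in Icc s (min t (s + 2 * δ)), eW L hΦ hε (wS (GC.pts c))
        (hz L hΦ hε η r (wS (GC.pts c)))) ∂(GC.PP f₀ ε) := by
    refine lintegral_mono_ae ?_
    filter_upwards [GC.ae_excl f₀ ε] with c hc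
    set U := wS (GC.pts c) with hU
    set h' := min (hz L hΦ hε η t U) (s + 2 * δ) with hh'
    have hT0 : h' - s ≤ 2 * δ := by
      have h2 : h' ≤ s + 2 * δ := min_le_right _ _
      linarith
    have h3 := pc_flux (L := L) hΦ hB hε (W := U) (wS_nonneg0 _) (wS_excl hc) (wS_filter _) hb
      (s := s) (h := h') hT0
    rw [Cp_mul b (FL.cS hΦ) hδ] at h3
    rw [← hA] at h3
    refine h3.trans ?_
    refine mul_le_mul_right (add_le_add (mul_le_mul_right ?_ _) ?_) _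
    · exact eW_mono (min_le_left _ _)
    · exact setLIntegral_hz_le hη ht hs fun W r => eW L hΦ hε W r
  refine h1.trans ?_
  have hmw : Measurable fun c : GC.Conf Ph => ∫⁻ r in Icc s (min t (s + 2 * δ)),
      eW L hΦ hε (wS (GC.pts c)) (hz L hΦ hε η r (wS (GC.pts c))) :=
    (RM.measurable_eW_conf (L := L) (hΦ := hΦ) (hε := hε) η).lintegral_prod_right'
  rw [lintegral_const_mul' _ _ (ENNReal.mul_ne_top ENNReal.ofReal_ne_top hAt),
    lintegral_add_right _ hmw, lintegral_const_mul' _ _ ENNReal.ofReal_ne_top, lintegral_eW_eq,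
    lintegral_win_eW hg]
  calc ENNReal.ofReal (ε ^ 2) * A * (ENNReal.ofReal ε * (muE ε * DD L hΦ hε f₀ η t) +
        muE ε * ∫⁻ r in Icc s (min t (s + 2 * δ)), DD L hΦ hε f₀ η r)
      = A * (ENNReal.ofReal (ε ^ 2) * (muE ε * (ENNReal.ofReal ε * DD L hΦ hε f₀ η t +
          ∫⁻ r in Icc s (min t (s + 2 * δ)), DD L hΦ hε f₀ η r))) := by ring
    _ = _ := by rw [ofReal_sq_mul_muE hε]
    _ ≤ _ := le_rfl

/-! ### Splitting -/

/-- The slow pairs. -/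
def aS (Φ : E3 → ℝ) (ε δ T₀ : ℝ) (x y : CTree) : ℝ≥0∞ :=
  wqP Φ ε x y * ind (SlowP Φ ε δ T₀ (ln Φ ε x, ln Φ ε y))

/-- The pairs with a contact in a window. -/
def aW (L : ℕ) (hΦ : IsPotential Φ) (hε : 0 < ε) (η t w s : ℝ) (U : Finset Src) (x y : CTree) :
    ℝ≥0∞ := wqP Φ ε x y * ind (PairC L hΦ hε η t w U (s, ln Φ ε x, 0) (ln Φ ε y))

theorem measurable_aS (hΦ : IsPotential Φ) (hε : 0 < ε) (δ T₀ : ℝ) :
    Measurable fun q : CTree × CTree => aS Φ ε δ T₀ q.1 q.2 := by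
  have hln := measurable_ln (Φ := Φ) hΦ hε.ne'
  have hll : Measurable fun p : CTree × CTree => ((ln Φ ε p.1, ln Φ ε p.2) : Ph × Ph) :=
    (hln.comp measurable_fst).prodMk (hln.comp measurable_snd)
  exact (measurable_wqP hΦ hε measurable_fst measurable_snd).mul
    (measurable_ind (hll (measurableSet_SlowP hΦ δ T₀)))

theorem measurable_aW (η t w s : ℝ) : Measurable fun p : GC.Conf Ph × CTree × CTree =>
    aW L hΦ hε η t w s (wS (GC.pts p.1)) p.2.1 p.2.2 := by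
  have hln := measurable_ln (Φ := Φ) hΦ hε.ne'
  have hll : Measurable fun p : GC.Conf Ph × CTree × CTree =>
      ((ln Φ ε p.2.1, ln Φ ε p.2.2) : Ph × Ph) :=
    (hln.comp (measurable_fst.comp measurable_snd)).prodMk
      (hln.comp (measurable_snd.comp measurable_snd))
  have h3 := measurable_PairC3 (L := L) (hΦ := hΦ) (hε := hε) η t w s
  exact (measurable_wqP hΦ hε (measurable_fst.comp measurable_snd)
    (measurable_snd.comp measurable_snd)).mul (h3.comp (measurable_fst.prodMk hll))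

theorem dirP_pt (hδ : 0 < δ) (htT : t ≤ T₀) (hco : coT Φ ε L t U x y) :
    wqP Φ ε x y * ind (DirP L hΦ hε U (hz L hΦ hε η t U) x y) ≤
      aS Φ ε δ T₀ x y + ∑ k ∈ Finset.range (⌈T₀ / δ⌉₊ + 1),
        aW L hΦ hε η t (2 * δ) ((k : ℝ) * δ) U x y := by
  by_cases hD : DirP L hΦ hε U (hz L hΦ hε η t U) x y
  · rw [ind_of hD, mul_one]
    by_cases hs : SlowP Φ ε δ T₀ (ln Φ ε x, ln Φ ε y)
    · unfold aS
      rw [ind_of hs, mul_one]
      exact le_self_add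
    · obtain ⟨k, hk, hp⟩ := pairC_of_dirP hδ htT hco hD hs
      refine le_add_left ?_
      refine le_trans ?_ (Finset.single_le_sum
        (f := fun k : ℕ => aW L hΦ hε η t (2 * δ) ((k : ℝ) * δ) U x y) (fun _ _ => zero_le) hk)
      unfold aW
      rw [ind_of hp, mul_one]
  · rw [ind_of_not hD, mul_zero]
    exact zero_le

/-- The expectation splits. -/
theorem split_le (hΦ : IsPotential Φ) (hε : 0 < ε) (hg : GoodDatum f₀ κ) (T₀ : ℝ)
    {F₀ : CTree → CTree → ℝ≥0∞} {F : ℕ → Finset Src → CTree → CTree → ℝ≥0∞} (N : ℕ)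
    (h0 : Measurable fun q : CTree × CTree => F₀ q.1 q.2)
    (hk : ∀ k, Measurable fun p : GC.Conf Ph × CTree × CTree =>
      F k (wS (GC.pts p.1)) p.2.1 p.2.2) :
    ∫⁻ c, ∫⁻ x in OKs Φ ε T₀, ∫⁻ y in OKs Φ ε T₀,
      (F₀ x y + ∑ k ∈ Finset.range N, F k (wS (GC.pts c)) x y)
        ∂(tree (GC.inten f₀ ε) L) ∂(tree (GC.inten f₀ ε) L) ∂(GC.PP f₀ ε) =
      (∫⁻ x in OKs Φ ε T₀, ∫⁻ y in OKs Φ ε T₀, F₀ x y ∂(tree (GC.inten f₀ ε) L)
          ∂(tree (GC.inten f₀ ε) L)) +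
      ∑ k ∈ Finset.range N, ∫⁻ c, ∫⁻ x in OKs Φ ε T₀, ∫⁻ y in OKs Φ ε T₀,
        F k (wS (GC.pts c)) x y ∂(tree (GC.inten f₀ ε) L) ∂(tree (GC.inten f₀ ε) L)
          ∂(GC.PP f₀ ε) := by
  have hfin := GC.isFiniteMeasure_inten (ε := ε) hg
  have hprob := GC.isProbability_PP (ε := ε) hg
  set ν := (tree (GC.inten f₀ ε) L).restrict (OKs Φ ε T₀) with hν
  have gk : ∀ (c : GC.Conf Ph) (k : ℕ), Measurable fun q : CTree × CTree =>
      F k (wS (GC.pts c)) q.1 q.2 := fun c k => (hk k).comp (measurable_const.prodMk measurable_id)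
  have g1 : ∀ (c : GC.Conf Ph) (x : CTree), ∫⁻ y, (F₀ x y + ∑ k ∈ Finset.range N,
      F k (wS (GC.pts c)) x y) ∂ν = (∫⁻ y, F₀ x y ∂ν) +
        ∑ k ∈ Finset.range N, ∫⁻ y, F k (wS (GC.pts c)) x y ∂ν := by
    intro c x
    have m0 : Measurable fun y => F₀ x y := h0.comp (measurable_const.prodMk measurable_id)
    have mk : ∀ k, Measurable fun y => F k (wS (GC.pts c)) x y := fun k =>
      (gk c k).comp (measurable_const.prodMk measurable_id)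
    rw [lintegral_add_left m0, lintegral_finsetSum _ fun k _ => mk k]
  have g2 : ∀ c : GC.Conf Ph, ∫⁻ x, ((∫⁻ y, F₀ x y ∂ν) + ∑ k ∈ Finset.range N,
      ∫⁻ y, F k (wS (GC.pts c)) x y ∂ν) ∂ν = (∫⁻ x, ∫⁻ y, F₀ x y ∂ν ∂ν) +
        ∑ k ∈ Finset.range N, ∫⁻ x, ∫⁻ y, F k (wS (GC.pts c)) x y ∂ν ∂ν := by
    intro c
    have m0 : Measurable fun x => ∫⁻ y, F₀ x y ∂ν := h0.lintegral_prod_right'
    have mk : ∀ k, Measurable fun x => ∫⁻ y, F k (wS (GC.pts c)) x y ∂ν := fun k =>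
      (gk c k).lintegral_prod_right'
    rw [lintegral_add_left m0, lintegral_finsetSum _ fun k _ => mk k]
  have g3 : ∀ k, Measurable fun c : GC.Conf Ph => ∫⁻ x, ∫⁻ y, F k (wS (GC.pts c)) x y ∂ν ∂ν := by
    intro k
    have a1 : Measurable fun q : (GC.Conf Ph × CTree) × CTree =>
        F k (wS (GC.pts q.1.1)) q.1.2 q.2 :=
      (hk k).comp ((measurable_fst.comp measurable_fst).prodMk
        ((measurable_snd.comp measurable_fst).prodMk measurable_snd))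
    have a2 : Measurable fun q : GC.Conf Ph × CTree =>
        ∫⁻ y, F k (wS (GC.pts q.1)) q.2 y ∂ν := a1.lintegral_prod_right'
    exact a2.lintegral_prod_right'
  simp only [g1, g2]
  rw [lintegral_add_left measurable_const, lintegral_const, measure_univ, mul_one,
    lintegral_finsetSum _ fun k _ => g3 k]

/-- The bound for a fixed `ε`. -/
theorem dirP_fixed (hε : 0 < ε) (hg : GoodDatum f₀ κ) {B b M : ℝ} {C : ℝ≥0∞} (hC : C ≠ ∞)
    (hB : RW.StableWith Φ B) (hb : 0 < b)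
    (hpw : ∀ (η t w s : ℝ) (c : GC.Conf Ph), ∫⁻ x in OKs Φ ε T₀, ∫⁻ y in OKs Φ ε T₀,
      aW L hΦ hε η t w s (wS (GC.pts c)) x y
        ∂(tree (GC.inten f₀ ε) L) ∂(tree (GC.inten f₀ ε) L) ≤
      muE ε * (C * pcW L hΦ hε b η t w s (wS (GC.pts c))))
    (hη : 0 < η) (ht : t ∈ Icc 0 T₀) (hδ : 0 < δ) (hM : DD L hΦ hε f₀ η t ≤ ENNReal.ofReal M) :
    (muE ε)⁻¹ * XP Φ ε L f₀ t (fun U x y => wqP Φ ε x y *
        ind (DirP L hΦ hε U (hz L hΦ hε η t U) x y)) ≤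
      (muE ε)⁻¹ * (∫⁻ x in OKs Φ ε T₀, ∫⁻ y in OKs Φ ε T₀, aS Φ ε δ T₀ x y
        ∂(tree (GC.inten f₀ ε) L) ∂(tree (GC.inten f₀ ε) L)) +
      C * (2 * Cp b (FL.cS hΦ) 2 * (2 * ENNReal.ofReal (cDD B 0))) * ENNReal.ofReal δ *
        ((⌈T₀ / δ⌉₊ + 1 : ℕ) * (ENNReal.ofReal ε * ENNReal.ofReal M) +
          3 * ∫⁻ r in Icc 0 t, DD L hΦ hε f₀ η r) := by
  set N := ⌈T₀ / δ⌉₊ + 1 with hN
  set Q : ℝ≥0∞ := C * (2 * Cp b (FL.cS hΦ) 2 * (2 * ENNReal.ofReal (cDD B 0))) with hQ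
  have hmH : Measurable fun p : GC.Conf Ph × CTree × CTree => aS Φ ε δ T₀ p.2.1 p.2.2 +
      ∑ k ∈ Finset.range N, aW L hΦ hε η t (2 * δ) ((k : ℝ) * δ) (wS (GC.pts p.1)) p.2.1 p.2.2 :=
    ((measurable_aS hΦ hε δ T₀).comp measurable_snd).add
      (Finset.measurable_fun_sum _ fun k _ => measurable_aW η t (2 * δ) ((k : ℝ) * δ))
  have h1 := XP_le_OKs (L := L) (f₀ := f₀) (t := t) (T₀ := T₀) hΦ hε hg ht.2
    (H := fun U x y => wqP Φ ε x y * ind (DirP L hΦ hε U (hz L hΦ hε η t U) x y))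
    (H' := fun U x y => aS Φ ε δ T₀ x y + ∑ k ∈ Finset.range N,
      aW L hΦ hε η t (2 * δ) ((k : ℝ) * δ) U x y) hmH
    fun U x y hco => dirP_pt hδ ht.2 hco
  have h2 := split_le (L := L) (f₀ := f₀) hΦ hε hg T₀ N (measurable_aS hΦ hε δ T₀)
    (F := fun k => aW L hΦ hε η t (2 * δ) ((k : ℝ) * δ))
    fun k => measurable_aW η t (2 * δ) ((k : ℝ) * δ)
  rw [h2] at h1
  have h3 : ∀ k : ℕ, ∫⁻ c, ∫⁻ x in OKs Φ ε T₀, ∫⁻ y in OKs Φ ε T₀,
      aW L hΦ hε η t (2 * δ) ((k : ℝ) * δ) (wS (GC.pts c)) x y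
        ∂(tree (GC.inten f₀ ε) L) ∂(tree (GC.inten f₀ ε) L) ∂(GC.PP f₀ ε) ≤
      muE ε * (Q * ENNReal.ofReal δ * (ENNReal.ofReal ε * ENNReal.ofReal M +
        ∫⁻ r in Icc ((k : ℝ) * δ) (min t (k * δ + 2 * δ)), DD L hΦ hε f₀ η r)) := by
    intro k
    have k0 : (0 : ℝ) ≤ k * δ := by positivity
    have k1 := lintegral_pcW_le (L := L) (hΦ := hΦ) (hε := hε) (f₀ := f₀) (η := η) (t := t)
      (s := (k : ℝ) * δ) (δ := δ) hg hB hb hη ht.1 k0 hδ.le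
    calc _ ≤ ∫⁻ c, muE ε * (C * pcW L hΦ hε b η t (2 * δ) ((k : ℝ) * δ) (wS (GC.pts c)))
          ∂(GC.PP f₀ ε) := lintegral_mono fun c => hpw η t (2 * δ) ((k : ℝ) * δ) c
      _ = muE ε * (C * ∫⁻ c, pcW L hΦ hε b η t (2 * δ) ((k : ℝ) * δ) (wS (GC.pts c))
          ∂(GC.PP f₀ ε)) := by
          rw [lintegral_const_mul' _ _ muE_ne_top, lintegral_const_mul' _ _ hC]
      _ ≤ muE ε * (C * (2 * (Cp b (FL.cS hΦ) 2 * ENNReal.ofReal δ) *
          (2 * ENNReal.ofReal (cDD B 0)) * (ENNReal.ofReal ε * DD L hΦ hε f₀ η t +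
          ∫⁻ r in Icc ((k : ℝ) * δ) (min t (k * δ + 2 * δ)), DD L hΦ hε f₀ η r))) :=
          mul_le_mul_right (mul_le_mul_right k1 _) _
      _ = muE ε * (Q * ENNReal.ofReal δ * (ENNReal.ofReal ε * DD L hΦ hε f₀ η t +
          ∫⁻ r in Icc ((k : ℝ) * δ) (min t (k * δ + 2 * δ)), DD L hΦ hε f₀ η r)) := by
          rw [hQ]
          ring
      _ ≤ _ := mul_le_mul_right (mul_le_mul_right (add_le_add (mul_le_mul_right hM _) le_rfl) _) _
  calc _ ≤ (muE ε)⁻¹ * ((∫⁻ x in OKs Φ ε T₀, ∫⁻ y in OKs Φ ε T₀, aS Φ ε δ T₀ x y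
        ∂(tree (GC.inten f₀ ε) L) ∂(tree (GC.inten f₀ ε) L)) +
        ∑ k ∈ Finset.range N, muE ε * (Q * ENNReal.ofReal δ * (ENNReal.ofReal ε *
          ENNReal.ofReal M + ∫⁻ r in Icc ((k : ℝ) * δ) (min t (k * δ + 2 * δ)),
            DD L hΦ hε f₀ η r))) :=
        mul_le_mul_right (h1.trans (add_le_add le_rfl (Finset.sum_le_sum fun k _ => h3 k))) _
    _ = (muE ε)⁻¹ * (∫⁻ x in OKs Φ ε T₀, ∫⁻ y in OKs Φ ε T₀, aS Φ ε δ T₀ x y
        ∂(tree (GC.inten f₀ ε) L) ∂(tree (GC.inten f₀ ε) L)) +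
        Q * ENNReal.ofReal δ * (N * (ENNReal.ofReal ε * ENNReal.ofReal M) +
          ∑ k ∈ Finset.range N, ∫⁻ r in Icc ((k : ℝ) * δ) (min t (k * δ + 2 * δ)),
            DD L hΦ hε f₀ η r) := by
        rw [mul_add, ← Finset.mul_sum, muE_inv_mul hε, ← Finset.mul_sum, Finset.sum_add_distrib,
          Finset.sum_const, Finset.card_range, nsmul_eq_mul]
    _ ≤ _ := add_le_add le_rfl (mul_le_mul_right (add_le_add le_rfl
        (sum_windows_le hδ ht.1 N fun r => DD L hΦ hε f₀ η r)) _)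

/-! ### The bound -/

theorem exists_delta {Q c : ℝ≥0∞} (hQ : Q ≠ ∞) (hc : 0 < c) :
    ∃ δ : ℝ, 0 < δ ∧ Q * ENNReal.ofReal δ * 3 ≤ c := by
  have h1 : 0 < min (c / (Q * 3 + 1)) 1 := lt_min (ENNReal.div_pos hc.ne'
    (ENNReal.add_ne_top.2 ⟨ENNReal.mul_ne_top hQ (by norm_num), ENNReal.one_ne_top⟩)) one_pos
  have h2 : min (c / (Q * 3 + 1)) 1 ≠ ∞ := ne_top_of_le_ne_top ENNReal.one_ne_top (min_le_right _ _)
  refine ⟨(min (c / (Q * 3 + 1)) 1).toReal, ENNReal.toReal_pos h1.ne' h2, ?_⟩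
  rw [ENNReal.ofReal_toReal h2]
  calc Q * min (c / (Q * 3 + 1)) 1 * 3 = (Q * 3) * min (c / (Q * 3 + 1)) 1 := by ring
    _ ≤ (Q * 3 + 1) * (c / (Q * 3 + 1)) := mul_le_mul' le_self_add (min_le_left _ _)
    _ ≤ c := ENNReal.mul_div_le

theorem eventually_err {A ρ : ℝ≥0∞} (hA : A ≠ ∞) (hρ : 0 < ρ) (M : ℝ) (N : ℕ) :
    ∀ᶠ ε in 𝓝[>] (0 : ℝ), A * (N * (ENNReal.ofReal ε * ENNReal.ofReal M)) ≤ ρ := by
  have h1 : Tendsto (fun ε : ℝ => A * (N * (ENNReal.ofReal ε * ENNReal.ofReal M)))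
      (𝓝[>] 0) (𝓝 0) := by
    have h2 : Tendsto (fun ε : ℝ => ENNReal.ofReal ε) (𝓝[>] 0) (𝓝 0) := by
      have h3 := (ENNReal.continuous_ofReal.tendsto (0 : ℝ)).mono_left
        (nhdsWithin_le_nhds (s := Ioi (0 : ℝ)))
      rwa [ENNReal.ofReal_zero] at h3
    have h4 := ENNReal.Tendsto.const_mul (a := A * N * ENNReal.ofReal M) h2
      (Or.inr (ENNReal.mul_ne_top (ENNReal.mul_ne_top hA (ENNReal.natCast_ne_top N))
        ENNReal.ofReal_ne_top))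
    rw [mul_zero] at h4
    refine h4.congr fun ε => ?_
    ring
  exact ENNReal.tendsto_nhds_zero.1 h1 _ hρ

/-- **P9, direct contact of a colliding pair.** -/
theorem dirP_le (hΦ : IsPotential Φ) {B : ℝ} (hB : RW.StableWith Φ B) (hg : GoodDatum f₀ κ)
    {b M₀ : ℝ} (hb : 0 < b) (hT : 0 < T₀) (hM : 0 ≤ M₀)
    (hf : ∀ z, f₀ z ≤ M₀ * Real.exp (-b * ‖z.2‖ ^ 2))
    (hx : ∀ v : E3, ∫⁻ x : E3, ENNReal.ofReal (f₀ (x, v)) ≤
      ENNReal.ofReal (M₀ * Real.exp (-b * ‖v‖ ^ 2))) (L : ℕ) {ρ c : ℝ≥0∞} (hρ : 0 < ρ)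
    (hc : 0 < c) : ∀ᶠ ε in 𝓝[>] (0 : ℝ), ∀ (hε : 0 < ε) (η : ℝ), 0 < η → ∀ t ∈ Icc 0 T₀,
      (muE ε)⁻¹ * XP Φ ε L f₀ t (fun U x y => wqP Φ ε x y *
        ind (DirP L hΦ hε U (hz L hΦ hε η t U) x y)) ≤
      ρ + c * ∫⁻ s in Icc 0 t, DD L hΦ hε f₀ η s := by
  obtain ⟨C, hC, hpw⟩ := pairs_window_le hΦ hg hb hT.le hM hf L
  obtain ⟨M, hM0, hMD⟩ := crude_DD_FF hΦ hg hb hM hf hx L hT.le
  have hb16 : 0 < b / 16 := by positivity
  obtain ⟨Q, hQ⟩ : ∃ Q : ℝ≥0∞, Q = C * (2 * Cp (b / 16) (FL.cS hΦ) 2 *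
    (2 * ENNReal.ofReal (cDD B 0))) := ⟨_, rfl⟩
  have hQt : Q ≠ ∞ := by
    rw [hQ]
    exact ENNReal.mul_ne_top hC (ENNReal.mul_ne_top (ENNReal.mul_ne_top (by norm_num)
      (Cp_ne_top _ _ _)) (ENNReal.mul_ne_top (by norm_num) ENNReal.ofReal_ne_top))
  have hρ2 : 0 < ρ / 2 := ENNReal.half_pos hρ.ne'
  obtain ⟨δ, hδ, hδc⟩ := exists_delta hQt hc
  have hslow := slow_le hΦ hg hb hT hM hf hx L hδ hρ2
  have herr := eventually_err (A := Q * ENNReal.ofReal δ) (ENNReal.mul_ne_top hQt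
    ENNReal.ofReal_ne_top) hρ2 M (⌈T₀ / δ⌉₊ + 1)
  filter_upwards [hslow, herr] with ε h1 h2 hε η hη t ht
  have h3 := dirP_fixed (L := L) (hΦ := hΦ) (T₀ := T₀) hε hg hC hB hb16
    (fun η t w s c => hpw ε hε η t w s c) hη ht hδ (hMD ε hε η hη t ht).1
  rw [← hQ, mul_add] at h3
  refine h3.trans ?_
  calc _ ≤ ρ / 2 + (ρ / 2 + Q * ENNReal.ofReal δ * (3 * ∫⁻ r in Icc 0 t, DD L hΦ hε f₀ η r)) :=
        add_le_add h1 (add_le_add h2 le_rfl)
    _ = ρ + Q * ENNReal.ofReal δ * 3 * ∫⁻ r in Icc 0 t, DD L hΦ hε f₀ η r := by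
        rw [← add_assoc, ENNReal.add_halves, mul_assoc (Q * ENNReal.ofReal δ)]
    _ ≤ _ := add_le_add le_rfl (mul_le_mul_left hδc _)

end Vale.Agent.P119.PB
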