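import Vale.Agent.P119.PB.TriP1
import Vale.Agent.P119.PB.ContDirP
import Vale.Agent.P119.PB.ContCre3

/-!
# P119, block PROB, P9: a third body at a colliding pair (`helper909`)

**`triP_le`**: `(muE)⁻¹ XP (wqP * ind (TriP U x y t)) ≤ ρ` for `ε` small, uniformly in `t ≤ T₀`.
-/

open MeasureTheory Filter Topology Set
open scoped ENNReal NNReal

noncomputable section

namespace Vale.Agent.P119.PB

open M CTree KU FB RB AU FL EN

variable {Φ : E3 → ℝ} {ε : ℝ} {L : ℕ} {hΦ : IsPotential Φ} {hε : 0 < ε} {f₀ : Ph → ℝ}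
  {κ η t s δ T₀ : ℝ} {U : Finset Src} {x y : CTree}

namespace TriP1

/-- A third body at a pair whose collision is fast. -/
theorem exists_win (hδ : 0 < δ) (htT : t ≤ T₀) (h0 : ∀ a ∈ U, a.1 = 0)
    (hco : coT Φ ε L t U x y) (hD : TriP Φ ε L U x y t)
    (hs : ¬SlowP Φ ε δ T₀ (ln Φ ε x, ln Φ ε y)) :
    ∃ k ∈ Finset.range (⌈T₀ / δ⌉₊ + 1),
      (ln Φ ε x, ln Φ ε y) ∈ SA L hΦ hε U ((k : ℝ) * δ) (min t (k * δ + 2 * δ)) := by
  obtain ⟨h1, h2, -, h4, h5, h6, h7⟩ := hco.ok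
  obtain ⟨r, hr, hsr, hrx, S, hS, hh⟩ := hD
  set τ := hitT ε (ln Φ ε x, ln Φ ε y) with hτ
  have h0' : 0 < τ := (ext_nonneg hΦ hε h1).trans_lt h6
  have hτt : τ ≤ t := hco.sig_le
  have hfast : sepT Φ ε (ln Φ ε x, ln Φ ε y) - τ ≤ δ := by
    by_contra hcon
    exact hs ⟨h4, ⟨h0', hτt.trans htT⟩, not_le.1 hcon⟩
  have hq : 0 < τ / δ := by positivity
  have hpos : 0 < ⌈τ / δ⌉₊ := Nat.ceil_pos.2 hq
  obtain ⟨k, hk⟩ : ∃ k, ⌈τ / δ⌉₊ = k + 1 := ⟨⌈τ / δ⌉₊ - 1, by omega⟩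
  have k1 : (k : ℝ) < τ / δ := Nat.lt_ceil.1 (by omega)
  have k2 : τ / δ ≤ k + 1 := by
    have := Nat.le_ceil (τ / δ)
    rw [hk] at this
    exact_mod_cast this
  rw [lt_div_iff₀ hδ] at k1
  rw [div_le_iff₀ hδ] at k2
  have hSU : S.root ∈ U := Finset.mem_coe.1 (hS.sub S.root_mem_leaves)
  refine ⟨k, ?_, mem_SA h0 h4 k1 hsr.le (le_min hr ?_) ⟨S.root, hSU, ?_⟩⟩
  · have k3 : τ / δ ≤ T₀ / δ := div_le_div_of_nonneg_right (hτt.trans htT) hδ.le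
    have k4 := Nat.ceil_mono k3
    exact Finset.mem_range.2 (by omega)
  · have k5 : r ≤ sepT Φ ε (ln Φ ε x, ln Φ ε y) := hrx
    linarith
  · rcases hh with hh | hh
    · exact Or.inl (Or.inr ⟨S, rfl, hS, hh⟩)
    · right
      rw [st_swap hΦ x y r] at hh
      exact Or.inr ⟨S, rfl, hS, hh⟩

/-- The integral over a colliding pair is at most the integral over two trees (measurability for
every fixed world). -/
theorem XP_le_OKs' (hΦ : IsPotential Φ) (hε : 0 < ε) (hg : GoodDatum f₀ κ) (htT : t ≤ T₀)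
    {H H' : Finset Src → CTree → CTree → ℝ≥0∞}
    (hH : ∀ c : GC.Conf Ph, Measurable fun q : CTree × CTree => H' (wS (GC.pts c)) q.1 q.2)
    (h : ∀ (c : GC.Conf Ph) x y, coT Φ ε L t (wS (GC.pts c)) x y →
      H (wS (GC.pts c)) x y ≤ H' (wS (GC.pts c)) x y) :
    XP Φ ε L f₀ t H ≤ ∫⁻ c, ∫⁻ x in OKs Φ ε T₀, ∫⁻ y in OKs Φ ε T₀, H' (wS (GC.pts c)) x y
      ∂(tree (GC.inten f₀ ε) L) ∂(tree (GC.inten f₀ ε) L) ∂(GC.PP f₀ ε) := by
  classical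
  have hfin := GC.isFiniteMeasure_inten (ε := ε) hg
  have hO := measurableSet_OKs (Φ := Φ) hΦ hε.ne' T₀
  have hOk : ∀ U x y, coT Φ ε L t U x y → x ∈ OKs Φ ε T₀ ∧ y ∈ OKs Φ ε T₀ := by
    intro U x y hc
    obtain ⟨h1, h2, -, h4, h5, h6, h7⟩ := hc.ok
    have h8 : hitT ε (ln Φ ε x, ln Φ ε y) ≤ t := hc.sig_le
    exact ⟨⟨h1, by linarith⟩, ⟨h2, by linarith⟩⟩
  unfold XP
  refine lintegral_mono fun c => ?_
  have hm0 : Measurable fun q : CTree × CTree => H' (wS (GC.pts c)) q.1 q.2 := hH c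
  have hc := h c
  set U := wS (GC.pts c) with hU
  set G : CTree → CTree → ℝ≥0∞ := fun x y =>
    (OKs Φ ε T₀).indicator (fun x => (OKs Φ ε T₀).indicator (fun y => H' U x y) y) x with hG
  have hG' : (fun q : CTree × CTree => G q.1 q.2) =
      ((OKs Φ ε T₀) ×ˢ (OKs Φ ε T₀)).indicator fun q => H' U q.1 q.2 := by
    funext q
    simp only [hG]
    by_cases h1 : q.1 ∈ OKs Φ ε T₀
    · by_cases h2 : q.2 ∈ OKs Φ ε T₀
      · rw [indicator_of_mem h1, indicator_of_mem h2, indicator_of_mem (Set.mem_prod.2 ⟨h1, h2⟩)]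
      · rw [indicator_of_mem h1, indicator_of_notMem h2,
          indicator_of_notMem fun h => h2 (Set.mem_prod.1 h).2]
    · rw [indicator_of_notMem h1, indicator_of_notMem fun h => h1 (Set.mem_prod.1 h).1]
  have hGm : Measurable fun q : CTree × CTree => G q.1 q.2 := by
    rw [hG']
    exact hm0.indicator (hO.prod hO)
  have h1 : ∫⁻ T, onN (fun x y => ind (coT Φ ε L t U x y) * H U x y) T
      ∂(tree (GC.inten f₀ ε) L) ≤ ∫⁻ T, onN G T ∂(tree (GC.inten f₀ ε) L) := by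
    refine lintegral_mono fun T => onN_mono (fun x y => ?_) T
    by_cases hT : coT Φ ε L t U x y
    · obtain ⟨hx, hy⟩ := hOk U x y hT
      rw [ind_of hT, one_mul]
      simp only [hG]
      rw [indicator_of_mem hx, indicator_of_mem hy]
      exact hc x y hT
    · rw [ind_of_not hT, zero_mul]
      exact zero_le
  have hGT : Measurable fun T : CTree => onN G T := by
    refine measurable_onN (X := CTree) (F := fun _ => G) ?_ measurable_id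
    exact hGm.comp measurable_snd
  refine h1.trans ((lintegral_tree_le L hGT).trans (le_of_eq ?_))
  have h2 : ∫⁻ z, onN G (CTree.leaf (src z)) ∂(GC.inten f₀ ε) = 0 := by
    simp only [onN_leaf, lintegral_zero]
  rw [h2, zero_add, ← lintegral_indicator hO]
  refine lintegral_congr fun x => ?_
  simp only [onN_node]
  by_cases hx : x ∈ OKs Φ ε T₀
  · rw [indicator_of_mem hx, ← lintegral_indicator hO]
    refine lintegral_congr fun y => ?_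
    simp only [hG]
    rw [indicator_of_mem hx]
  · rw [indicator_of_notMem hx]
    simp only [hG]
    simp only [indicator_of_notMem hx, lintegral_zero]

/-- The law of the lines of two inserted trees. -/
theorem pairs_gen_le (hΦ : IsPotential Φ) (hg : GoodDatum f₀ κ) {b M₀ : ℝ}
    (hb : 0 < b) (hT : 0 ≤ T₀) (hM : 0 ≤ M₀) (hf : ∀ z, f₀ z ≤ M₀ * Real.exp (-b * ‖z.2‖ ^ 2))
    (L : ℕ) : ∃ C : ℝ≥0∞, C ≠ ∞ ∧ ∀ (ε : ℝ) (_ : 0 < ε) (A : Set (Ph × Ph)), MeasurableSet A →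
      ∫⁻ x in OKs Φ ε T₀, ∫⁻ y in OKs Φ ε T₀, wqP Φ ε x y *
        ind ((ln Φ ε x, ln Φ ε y) ∈ A)
        ∂(tree (GC.inten f₀ ε) L) ∂(tree (GC.inten f₀ ε) L) ≤
      muE ε * (C * ∫⁻ l : Ph, ∫⁻ l' : Ph, gw (b / 16) l.2 * (muE ε * gw (b / 16) l'.2) *
        ind ((l, l') ∈ A)) := by
  obtain ⟨C₁, hC₁, h₁⟩ := crude_line hΦ hg hb hT hM hf L
  obtain ⟨C₃, hC₃, h₃⟩ := exists_quad_le (c := b / 16) (by positivity)
  refine ⟨C₁ * C₃ * (C₁ * C₃), ENNReal.mul_ne_top (ENNReal.mul_ne_top hC₁ hC₃)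
    (ENNReal.mul_ne_top hC₁ hC₃), fun ε hε A hA => ?_⟩
  have hgt : ∀ (c : ℝ) (v : E3), gw c v ≠ ∞ := fun _ _ => ENNReal.ofReal_ne_top
  have hgq : ∀ v : E3, ENNReal.ofReal (1 + ‖v‖ ^ 2) * gw (b / 2) v ≤ C₃ * gw (b / 16) v := by
    intro v
    refine (h₃ (-(b / 2)) v).trans (mul_le_mul_right ?_ _)
    unfold gw
    apply ENNReal.ofReal_le_ofReal
    apply Real.exp_le_exp.2
    nlinarith [sq_nonneg ‖v‖]
  have hPm' : Measurable fun q : Ph × Ph => ind (q ∈ A) := measurable_ind hA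
  set P : Ph → Ph → ℝ≥0∞ := fun l l' => ind ((l, l') ∈ A) with hP
  set J : Ph → ℝ≥0∞ := fun l => ∫⁻ l' : Ph, gw (b / 16) l'.2 * P l l' with hJ
  have hJm : Measurable J := by
    have : Measurable fun q : Ph × Ph => gw (b / 16) q.2.2 * P q.1 q.2 :=
      ((measurable_gw _).comp (measurable_snd.comp measurable_snd)).mul hPm'
    exact this.lintegral_prod_right'
  have hin : ∀ x : CTree, ∫⁻ y in OKs Φ ε T₀, wqP Φ ε x y * P (ln Φ ε x) (ln Φ ε y)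
      ∂(tree (GC.inten f₀ ε) L) ≤ muE ε * (C₁ * C₃) *
        (ENNReal.ofReal (1 + ‖(ln Φ ε x).2‖ ^ 2) * J (ln Φ ε x)) := by
    intro x
    set l := ln Φ ε x with hl
    have hmF : Measurable fun l' : Ph => ENNReal.ofReal (1 + (‖l.2‖ ^ 2 + ‖l'.2‖ ^ 2)) * P l l' := by
      have a1 : Measurable fun l' : Ph => ENNReal.ofReal (1 + (‖l.2‖ ^ 2 + ‖l'.2‖ ^ 2)) :=
        ENNReal.measurable_ofReal.comp (measurable_const.add
          (measurable_const.add (measurable_snd.norm.pow_const 2)))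
      exact a1.mul (hPm'.comp (measurable_const.prodMk measurable_id))
    have k1 := h₁ ε hε _ hmF
    have k2 : ∫⁻ l' : Ph, gw (b / 2) l'.2 * (ENNReal.ofReal (1 + (‖l.2‖ ^ 2 + ‖l'.2‖ ^ 2)) *
        P l l') ≤ ENNReal.ofReal (1 + ‖l.2‖ ^ 2) * C₃ * J l := by
      simp only [hJ]
      rw [← lintegral_const_mul' _ _ (ENNReal.mul_ne_top ENNReal.ofReal_ne_top hC₃)]
      refine lintegral_mono fun l' => ?_
      calc gw (b / 2) l'.2 * (ENNReal.ofReal (1 + (‖l.2‖ ^ 2 + ‖l'.2‖ ^ 2)) * P l l')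
          ≤ gw (b / 2) l'.2 * ((ENNReal.ofReal (1 + ‖l.2‖ ^ 2) *
            ENNReal.ofReal (1 + ‖l'.2‖ ^ 2)) * P l l') :=
            mul_le_mul_right (mul_le_mul_left wqP_le _) _
        _ = ENNReal.ofReal (1 + ‖l.2‖ ^ 2) * (ENNReal.ofReal (1 + ‖l'.2‖ ^ 2) *
            gw (b / 2) l'.2) * P l l' := by ring
        _ ≤ ENNReal.ofReal (1 + ‖l.2‖ ^ 2) * (C₃ * gw (b / 16) l'.2) * P l l' :=
            mul_le_mul_left (mul_le_mul_right (hgq _) _) _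
        _ = _ := by ring
    calc ∫⁻ y in OKs Φ ε T₀, wqP Φ ε x y * P l (ln Φ ε y) ∂(tree (GC.inten f₀ ε) L)
        ≤ muE ε * (C₁ * ∫⁻ l' : Ph, gw (b / 2) l'.2 *
          (ENNReal.ofReal (1 + (‖l.2‖ ^ 2 + ‖l'.2‖ ^ 2)) * P l l')) := k1
      _ ≤ muE ε * (C₁ * (ENNReal.ofReal (1 + ‖l.2‖ ^ 2) * C₃ * J l)) :=
          mul_le_mul_right (mul_le_mul_right k2 _) _
      _ = _ := by ring
  have hqm : Measurable fun l : Ph => ENNReal.ofReal (1 + ‖l.2‖ ^ 2) * J l :=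
    (ENNReal.measurable_ofReal.comp (measurable_const.add (measurable_snd.norm.pow_const 2))).mul
      hJm
  calc ∫⁻ x in OKs Φ ε T₀, ∫⁻ y in OKs Φ ε T₀, wqP Φ ε x y * P (ln Φ ε x) (ln Φ ε y)
        ∂(tree (GC.inten f₀ ε) L) ∂(tree (GC.inten f₀ ε) L)
      ≤ ∫⁻ x in OKs Φ ε T₀, muE ε * (C₁ * C₃) *
        (ENNReal.ofReal (1 + ‖(ln Φ ε x).2‖ ^ 2) * J (ln Φ ε x)) ∂(tree (GC.inten f₀ ε) L) :=
        lintegral_mono fun x => hin x
    _ = muE ε * (C₁ * C₃) * ∫⁻ x in OKs Φ ε T₀, ENNReal.ofReal (1 + ‖(ln Φ ε x).2‖ ^ 2) *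
        J (ln Φ ε x) ∂(tree (GC.inten f₀ ε) L) :=
        lintegral_const_mul' _ _ (ENNReal.mul_ne_top muE_ne_top (ENNReal.mul_ne_top hC₁ hC₃))
    _ ≤ muE ε * (C₁ * C₃) * (muE ε * (C₁ * ∫⁻ l : Ph, gw (b / 2) l.2 *
        (ENNReal.ofReal (1 + ‖l.2‖ ^ 2) * J l))) := mul_le_mul_right (h₁ ε hε _ hqm) _
    _ ≤ muE ε * (C₁ * C₃) * (muE ε * (C₁ * (C₃ * ∫⁻ l : Ph, gw (b / 16) l.2 * J l))) := by
        refine mul_le_mul_right (mul_le_mul_right (mul_le_mul_right ?_ _) _) _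
        rw [← lintegral_const_mul' _ _ hC₃]
        refine lintegral_mono fun l => ?_
        calc gw (b / 2) l.2 * (ENNReal.ofReal (1 + ‖l.2‖ ^ 2) * J l)
            = (ENNReal.ofReal (1 + ‖l.2‖ ^ 2) * gw (b / 2) l.2) * J l := by ring
          _ ≤ (C₃ * gw (b / 16) l.2) * J l := mul_le_mul_left (hgq _) _
          _ = _ := by ring
    _ = muE ε * (C₁ * C₃ * (C₁ * C₃) * (muE ε * ∫⁻ l : Ph, gw (b / 16) l.2 * J l)) := by ring
    _ = _ := by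
        congr 2
        rw [← lintegral_const_mul' _ _ muE_ne_top]
        refine lintegral_congr fun l => ?_
        simp only [hJ, hP]
        rw [← lintegral_const_mul' _ _ (hgt _ _), ← lintegral_const_mul' _ _ muE_ne_top]
        refine lintegral_congr fun l' => ?_
        ring

/-- The bound for one world. -/
theorem world_le (hΦ : IsPotential Φ) (hε : 0 < ε) {B b : ℝ} {C : ℝ≥0∞}
    (hB : RW.StableWith Φ B) (hb : 0 < b)
    (hpw : ∀ A : Set (Ph × Ph), MeasurableSet A → ∫⁻ x in OKs Φ ε T₀, ∫⁻ y in OKs Φ ε T₀,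
      wqP Φ ε x y * ind ((ln Φ ε x, ln Φ ε y) ∈ A)
        ∂(tree (GC.inten f₀ ε) L) ∂(tree (GC.inten f₀ ε) L) ≤
      muE ε * (C * ∫⁻ l : Ph, ∫⁻ l' : Ph, gw b l.2 * (muE ε * gw b l'.2) * ind ((l, l') ∈ A)))
    (hδ : 0 < δ) (N : ℕ) {c : GC.Conf Ph} (hc : c.2 ∈ excl ε c.1) :
    ∑ k ∈ Finset.range N, ∫⁻ x in OKs Φ ε T₀, ∫⁻ y in OKs Φ ε T₀, wqP Φ ε x y *
      ind ((ln Φ ε x, ln Φ ε y) ∈
        SA L hΦ hε (wS (GC.pts c)) ((k : ℝ) * δ) (min t (k * δ + 2 * δ)))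
        ∂(tree (GC.inten f₀ ε) L) ∂(tree (GC.inten f₀ ε) L) ≤
      muE ε * (C * (4 * Cp b (FL.cS hΦ) 2 * ENNReal.ofReal (2 + 2 * B))) *
        (N * (ENNReal.ofReal δ * (ENNReal.ofReal ε + ENNReal.ofReal (2 * δ)))) *
        (ENNReal.ofReal (ε ^ 2) * ENNReal.ofReal (EW (wS (GC.pts c)))) := by
  have h0 : ∀ a ∈ wS (GC.pts c), a.1 = 0 := fun a ha => wS_birth0 ha
  have hex : ∀ a ∈ wS (GC.pts c), ∀ a' ∈ wS (GC.pts c), a ≠ a' → ε ≤ ‖a.2.1.1 - a'.2.1.1‖ :=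
    fun a ha a' ha' hne => wS_excl hc a ha a' ha' hne (h0 a ha) (h0 a' ha')
  have h1 : ∀ k : ℕ, ∫⁻ x in OKs Φ ε T₀, ∫⁻ y in OKs Φ ε T₀, wqP Φ ε x y *
      ind ((ln Φ ε x, ln Φ ε y) ∈
        SA L hΦ hε (wS (GC.pts c)) ((k : ℝ) * δ) (min t (k * δ + 2 * δ)))
        ∂(tree (GC.inten f₀ ε) L) ∂(tree (GC.inten f₀ ε) L) ≤
      muE ε * (C * (ENNReal.ofReal (ε ^ 2) * (2 * (Cp b (FL.cS hΦ) 2 * ENNReal.ofReal δ)) *
        (2 * (ENNReal.ofReal ε + ENNReal.ofReal (2 * δ)) *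
          (ENNReal.ofReal (2 + 2 * B) * ENNReal.ofReal (EW (wS (GC.pts c))))))) := by
    intro k
    have k0 : (0 : ℝ) ≤ k * δ := by positivity
    have k1 : min t (k * δ + 2 * δ) - k * δ ≤ 2 * δ := by
      have := min_le_right t ((k : ℝ) * δ + 2 * δ)
      linarith
    refine (hpw _ (measurableSet_SA hΦ hε _ _ _)).trans
      (mul_le_mul_right (mul_le_mul_right ?_ _) _)
    refine (pa_flux hΦ hB hε h0 hex hb k0 k1).trans ?_
    rw [Cp_mul b (FL.cS hΦ) hδ.le, ENNReal.ofReal_mul (by linarith [hB.1] : (0 : ℝ) ≤ 2 + 2 * B)]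
    gcongr
  calc _ ≤ ∑ k ∈ Finset.range N, muE ε * (C * (ENNReal.ofReal (ε ^ 2) *
        (2 * (Cp b (FL.cS hΦ) 2 * ENNReal.ofReal δ)) *
        (2 * (ENNReal.ofReal ε + ENNReal.ofReal (2 * δ)) *
          (ENNReal.ofReal (2 + 2 * B) * ENNReal.ofReal (EW (wS (GC.pts c))))))) :=
        Finset.sum_le_sum fun k _ => h1 k
    _ = _ := by
        rw [Finset.sum_const, Finset.card_range, nsmul_eq_mul]
        ring

/-- The integral splits, for a fixed world. -/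
theorem split2 {μ : Measure CTree} [SFinite μ] {F₀ : CTree → CTree → ℝ≥0∞}
    {F : ℕ → CTree → CTree → ℝ≥0∞} (N : ℕ)
    (h0 : Measurable fun q : CTree × CTree => F₀ q.1 q.2)
    (hk : ∀ k, Measurable fun q : CTree × CTree => F k q.1 q.2) :
    ∫⁻ x, ∫⁻ y, (F₀ x y + ∑ k ∈ Finset.range N, F k x y) ∂μ ∂μ =
      (∫⁻ x, ∫⁻ y, F₀ x y ∂μ ∂μ) + ∑ k ∈ Finset.range N, ∫⁻ x, ∫⁻ y, F k x y ∂μ ∂μ := by
  have g1 : ∀ x : CTree, ∫⁻ y, (F₀ x y + ∑ k ∈ Finset.range N, F k x y) ∂μ =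
      (∫⁻ y, F₀ x y ∂μ) + ∑ k ∈ Finset.range N, ∫⁻ y, F k x y ∂μ := by
    intro x
    have m0 : Measurable fun y => F₀ x y := h0.comp (measurable_const.prodMk measurable_id)
    have mk : ∀ k, Measurable fun y => F k x y := fun k =>
      (hk k).comp (measurable_const.prodMk measurable_id)
    rw [lintegral_add_left m0, lintegral_finsetSum _ fun k _ => mk k]
  simp only [g1]
  have m0 : Measurable fun x => ∫⁻ y, F₀ x y ∂μ := h0.lintegral_prod_right'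
  have mk : ∀ k, Measurable fun x => ∫⁻ y, F k x y ∂μ := fun k =>
    (hk k).lintegral_prod_right'
  rw [lintegral_add_left m0, lintegral_finsetSum _ fun k _ => mk k]

/-- The bound for a fixed `ε`. -/
theorem triP_fixed (hΦ : IsPotential Φ) (hε : 0 < ε) (hg : GoodDatum f₀ κ) {B b : ℝ} {C : ℝ≥0∞}
    (hC : C ≠ ∞) (hB : RW.StableWith Φ B) (hb : 0 < b)
    (hpw : ∀ A : Set (Ph × Ph), MeasurableSet A → ∫⁻ x in OKs Φ ε T₀, ∫⁻ y in OKs Φ ε T₀,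
      wqP Φ ε x y * ind ((ln Φ ε x, ln Φ ε y) ∈ A)
        ∂(tree (GC.inten f₀ ε) L) ∂(tree (GC.inten f₀ ε) L) ≤
      muE ε * (C * ∫⁻ l : Ph, ∫⁻ l' : Ph, gw b l.2 * (muE ε * gw b l'.2) * ind ((l, l') ∈ A)))
    (hδ : 0 < δ) (ht : t ≤ T₀) :
    (muE ε)⁻¹ * XP Φ ε L f₀ t (fun U x y => wqP Φ ε x y * ind (TriP Φ ε L U x y t)) ≤
      (muE ε)⁻¹ * (∫⁻ x in OKs Φ ε T₀, ∫⁻ y in OKs Φ ε T₀, aS Φ ε δ T₀ x y
        ∂(tree (GC.inten f₀ ε) L) ∂(tree (GC.inten f₀ ε) L)) +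
      C * (4 * Cp b (FL.cS hΦ) 2 * ENNReal.ofReal (2 + 2 * B)) * m2 f₀ *
        ((⌈T₀ / δ⌉₊ + 1 : ℕ) * (ENNReal.ofReal δ * (ENNReal.ofReal ε +
          ENNReal.ofReal (2 * δ)))) := by
  have hfin := GC.isFiniteMeasure_inten (ε := ε) hg
  have hprob := GC.isProbability_PP (ε := ε) hg
  have hln := measurable_ln (Φ := Φ) hΦ hε.ne'
  have hll : Measurable fun p : CTree × CTree => ((ln Φ ε p.1, ln Φ ε p.2) : Ph × Ph) :=
    (hln.comp measurable_fst).prodMk (hln.comp measurable_snd)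
  obtain ⟨N, hN⟩ : ∃ N, N = ⌈T₀ / δ⌉₊ + 1 := ⟨_, rfl⟩
  set F : ℕ → Finset Src → CTree → CTree → ℝ≥0∞ := fun k U x y => wqP Φ ε x y *
    ind ((ln Φ ε x, ln Φ ε y) ∈ SA L hΦ hε U ((k : ℝ) * δ) (min t (k * δ + 2 * δ))) with hF
  have mF : ∀ (c : GC.Conf Ph) (k : ℕ), Measurable fun q : CTree × CTree =>
      F k (wS (GC.pts c)) q.1 q.2 := fun c k =>
    (measurable_wqP hΦ hε measurable_fst measurable_snd).mul
      (measurable_ind (hll (measurableSet_SA hΦ hε _ _ _)))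
  have m0 := measurable_aS (Φ := Φ) hΦ hε δ T₀
  have h1 := XP_le_OKs' (L := L) (f₀ := f₀) (t := t) (T₀ := T₀) hΦ hε hg ht
    (H := fun U x y => wqP Φ ε x y * ind (TriP Φ ε L U x y t))
    (H' := fun U x y => aS Φ ε δ T₀ x y + ∑ k ∈ Finset.range N, F k U x y)
    (fun c => m0.add (Finset.measurable_fun_sum _ fun k _ => mF c k)) (fun c x y hco => by
      by_cases hD : TriP Φ ε L (wS (GC.pts c)) x y t
      · rw [ind_of hD, mul_one]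
        by_cases hs : SlowP Φ ε δ T₀ (ln Φ ε x, ln Φ ε y)
        · unfold aS
          rw [ind_of hs, mul_one]
          exact le_self_add
        · obtain ⟨k, hk, hp⟩ := exists_win (hΦ := hΦ) (hε := hε) hδ ht
            (fun a ha => wS_birth0 ha) hco hD hs
          rw [← hN] at hk
          refine le_add_left ?_
          refine le_trans ?_ (Finset.single_le_sum
            (f := fun k : ℕ => F k (wS (GC.pts c)) x y) (fun _ _ => zero_le) hk)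
          simp only [hF]
          rw [ind_of hp, mul_one]
      · rw [ind_of_not hD, mul_zero]
        exact zero_le)
  obtain ⟨I₀, hI⟩ : ∃ I₀, I₀ = ∫⁻ x in OKs Φ ε T₀, ∫⁻ y in OKs Φ ε T₀, aS Φ ε δ T₀ x y
    ∂(tree (GC.inten f₀ ε) L) ∂(tree (GC.inten f₀ ε) L) := ⟨_, rfl⟩
  rw [← hI]
  obtain ⟨K, hK⟩ : ∃ K, K = C * (4 * Cp b (FL.cS hΦ) 2 * ENNReal.ofReal (2 + 2 * B)) := ⟨_, rfl⟩
  have hKt : K ≠ ∞ := by
    rw [hK]
    exact ENNReal.mul_ne_top hC (ENNReal.mul_ne_top (ENNReal.mul_ne_top (by norm_num)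
      (Cp_ne_top _ _ _)) ENNReal.ofReal_ne_top)
  obtain ⟨D, hD⟩ : ∃ D, D = (N : ℝ≥0∞) * (ENNReal.ofReal δ * (ENNReal.ofReal ε +
    ENNReal.ofReal (2 * δ))) := ⟨_, rfl⟩
  have hDt : D ≠ ∞ := by
    rw [hD]
    exact ENNReal.mul_ne_top (ENNReal.natCast_ne_top N) (ENNReal.mul_ne_top ENNReal.ofReal_ne_top
      (ENNReal.add_ne_top.2 ⟨ENNReal.ofReal_ne_top, ENNReal.ofReal_ne_top⟩))
  have h2 : ∀ᵐ c ∂(GC.PP f₀ ε), ∫⁻ x in OKs Φ ε T₀, ∫⁻ y in OKs Φ ε T₀,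
      (aS Φ ε δ T₀ x y + ∑ k ∈ Finset.range N, F k (wS (GC.pts c)) x y)
        ∂(tree (GC.inten f₀ ε) L) ∂(tree (GC.inten f₀ ε) L) ≤
      I₀ + muE ε * K * D * (ENNReal.ofReal (ε ^ 2) * ENNReal.ofReal (EW (wS (GC.pts c)))) := by
    filter_upwards [GC.ae_excl f₀ ε] with c hc
    rw [split2 N m0 fun k => mF c k, ← hI]
    refine add_le_add le_rfl ?_
    rw [hK, hD]
    exact world_le (L := L) (t := t) hΦ hε hB hb hpw hδ N hc
  have h3 : ∫⁻ c, (I₀ + muE ε * K * D * (ENNReal.ofReal (ε ^ 2) *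
      ENNReal.ofReal (EW (wS (GC.pts c))))) ∂(GC.PP f₀ ε) ≤ I₀ + muE ε * (K * m2 f₀ * D) := by
    have hmt : muE ε * K * D ≠ ∞ := ENNReal.mul_ne_top (ENNReal.mul_ne_top muE_ne_top hKt) hDt
    rw [lintegral_add_left measurable_const, lintegral_const, measure_univ, mul_one,
      lintegral_const_mul' _ _ hmt, lintegral_const_mul' _ _ ENNReal.ofReal_ne_top]
    refine add_le_add le_rfl ?_
    calc muE ε * K * D * (ENNReal.ofReal (ε ^ 2) * ∫⁻ c, ENNReal.ofReal (EW (wS (GC.pts c)))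
          ∂(GC.PP f₀ ε)) ≤ muE ε * K * D * (ENNReal.ofReal (ε ^ 2) * (muE ε * m2 f₀)) :=
          mul_le_mul_right (mul_le_mul_right (lintegral_EW_le hg hε.le) _) _
      _ = muE ε * (K * m2 f₀ * D) := by
          rw [ofReal_sq_mul_muE hε]
          ring
  rw [← hN, ← hK, ← hD]
  calc (muE ε)⁻¹ * XP Φ ε L f₀ t (fun U x y => wqP Φ ε x y * ind (TriP Φ ε L U x y t))
      ≤ (muE ε)⁻¹ * (I₀ + muE ε * (K * m2 f₀ * D)) :=
        mul_le_mul_right (h1.trans ((lintegral_mono_ae h2).trans h3)) _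
    _ = _ := by rw [mul_add, muE_inv_mul hε]

theorem exists_delta2 {Q ρ : ℝ≥0∞} (hQ : Q ≠ ∞) (hρ : 0 < ρ) (hT : 0 < T₀) :
    ∃ δ : ℝ, 0 < δ ∧ ∀ ε : ℝ, ε ≤ δ → Q * ((⌈T₀ / δ⌉₊ + 1 : ℕ) * (ENNReal.ofReal δ *
      (ENNReal.ofReal ε + ENNReal.ofReal (2 * δ)))) ≤ ρ := by
  obtain ⟨δ₀, hδ0, hδ⟩ := exists_delta (Q := Q * ENNReal.ofReal (T₀ + 2))
    (ENNReal.mul_ne_top hQ ENNReal.ofReal_ne_top) hρ
  obtain ⟨δ, hδd⟩ : ∃ δ, δ = min δ₀ 1 := ⟨_, rfl⟩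
  have h1 : 0 < δ := by rw [hδd]; exact lt_min hδ0 one_pos
  have h2 : δ ≤ 1 := by rw [hδd]; exact min_le_right _ _
  have h3 : δ ≤ δ₀ := by rw [hδd]; exact min_le_left _ _
  refine ⟨δ, h1, fun ε hε => ?_⟩
  have h4 : ((⌈T₀ / δ⌉₊ + 1 : ℕ) : ℝ≥0∞) * ENNReal.ofReal δ ≤ ENNReal.ofReal (T₀ + 2) := by
    rw [← ENNReal.ofReal_natCast, ← ENNReal.ofReal_mul (by positivity)]
    refine ENNReal.ofReal_le_ofReal ?_
    have h5 : (⌈T₀ / δ⌉₊ : ℝ) < T₀ / δ + 1 := Nat.ceil_lt_add_one (by positivity)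
    push_cast
    have h6 : (T₀ / δ + 1 + 1) * δ = T₀ + 2 * δ := by
      field_simp
      ring
    nlinarith
  calc Q * ((⌈T₀ / δ⌉₊ + 1 : ℕ) * (ENNReal.ofReal δ * (ENNReal.ofReal ε +
        ENNReal.ofReal (2 * δ))))
      = Q * (((⌈T₀ / δ⌉₊ + 1 : ℕ) * ENNReal.ofReal δ) * (ENNReal.ofReal ε +
        ENNReal.ofReal (2 * δ))) := by ring
    _ ≤ Q * (ENNReal.ofReal (T₀ + 2) * (ENNReal.ofReal δ₀ * 3)) := by
        refine mul_le_mul_right (mul_le_mul' h4 ?_) _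
        have h7 : ENNReal.ofReal ε ≤ ENNReal.ofReal δ₀ :=
          ENNReal.ofReal_le_ofReal (hε.trans h3)
        have h8 : ENNReal.ofReal (2 * δ) ≤ 2 * ENNReal.ofReal δ₀ := by
          rw [ENNReal.ofReal_mul (by norm_num), ENNReal.ofReal_ofNat]
          exact mul_le_mul_right (ENNReal.ofReal_le_ofReal h3) _
        calc ENNReal.ofReal ε + ENNReal.ofReal (2 * δ) ≤
            ENNReal.ofReal δ₀ + 2 * ENNReal.ofReal δ₀ := add_le_add h7 h8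
          _ = ENNReal.ofReal δ₀ * 3 := by ring
    _ = Q * ENNReal.ofReal (T₀ + 2) * ENNReal.ofReal δ₀ * 3 := by ring
    _ ≤ ρ := hδ

end TriP1

open TriP1

/-- **A third body at a colliding pair** is negligible. -/
theorem triP_le (hΦ : IsPotential Φ) {B : ℝ} (hB : RW.StableWith Φ B) (hg : GoodDatum f₀ κ)
    {b M₀ : ℝ} (hb : 0 < b) (hT : 0 < T₀) (hM : 0 ≤ M₀)
    (hf : ∀ z, f₀ z ≤ M₀ * Real.exp (-b * ‖z.2‖ ^ 2))
    (hx : ∀ v : E3, ∫⁻ x : E3, ENNReal.ofReal (f₀ (x, v)) ≤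
      ENNReal.ofReal (M₀ * Real.exp (-b * ‖v‖ ^ 2))) (L : ℕ) {ρ : ℝ≥0∞} (hρ : 0 < ρ) :
    ∀ᶠ ε in 𝓝[>] (0 : ℝ), ∀ t ≤ T₀, (muE ε)⁻¹ * XP Φ ε L f₀ t (fun U x y => wqP Φ ε x y *
      ind (TriP Φ ε L U x y t)) ≤ ρ := by
  obtain ⟨C, hC, hpw⟩ := pairs_gen_le hΦ hg hb hT.le hM hf L
  have hb16 : 0 < b / 16 := by positivity
  have hm2 : m2 f₀ ≠ ∞ := (m2_lt_top hg hM hb hx).ne
  obtain ⟨Q, hQ⟩ : ∃ Q : ℝ≥0∞, Q = C * (4 * Cp (b / 16) (FL.cS hΦ) 2 *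
    ENNReal.ofReal (2 + 2 * B)) * m2 f₀ := ⟨_, rfl⟩
  have hQt : Q ≠ ∞ := by
    rw [hQ]
    exact ENNReal.mul_ne_top (ENNReal.mul_ne_top hC (ENNReal.mul_ne_top (ENNReal.mul_ne_top
      (by norm_num) (Cp_ne_top _ _ _)) ENNReal.ofReal_ne_top)) hm2
  have hρ2 : 0 < ρ / 2 := ENNReal.half_pos hρ.ne'
  obtain ⟨δ, hδ, hδQ⟩ := exists_delta2 hQt hρ2 hT
  filter_upwards [slow_le hΦ hg hb hT hM hf hx L hδ hρ2, self_mem_nhdsWithin,
    Ioo_mem_nhdsGT hδ] with ε h1 hε hεδ t ht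
  have hε : 0 < ε := hε
  have h3 := triP_fixed (L := L) (T₀ := T₀) hΦ hε hg hC hB hb16
    (fun A hA => hpw ε hε A hA) hδ ht
  rw [← hQ] at h3
  refine h3.trans ?_
  calc _ ≤ ρ / 2 + ρ / 2 := add_le_add h1 (hδQ ε hεδ.2.le)
    _ = ρ := ENNReal.add_halves ρ

end Vale.Agent.P119.PB
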