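import Vale.Agent.P119.PB.P9BdF
import Vale.Agent.P119.PB.ContDirP2
import Vale.Agent.P119.PB.CreInt4
import Vale.Agent.P119.PB.TriP

/-!
# P119, block PROB: the inequality P9 (contamination) (`helper909`)

* `excQ5`: a third tree near a colliding pair is negligible (unconditional);
* `in9_of_exc`: P9 from the parameters, the capacities and the exceptional laws.
-/

open MeasureTheory Filter Topology Set
open scoped ENNReal NNReal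

noncomputable section

namespace Vale.Agent.P119.PB

open M CTree KU FB RB AU TL

variable {Φ : E3 → ℝ} {hΦ : IsPotential Φ} {f₀ : Ph → ℝ} {κ : ℝ}

/-- **A third tree near a colliding pair** is negligible. -/
theorem excQ5 (hΦ : IsPotential Φ) {B : ℝ} (hB : RW.StableWith Φ B) (hg : GoodDatum f₀ κ)
    {b M₀ T : ℝ} (hb : 0 < b) (hT : 0 < T) (hM : 0 ≤ M₀)
    (hf : ∀ z, f₀ z ≤ M₀ * Real.exp (-b * ‖z.2‖ ^ 2))
    (hx : ∀ v : E3, ∫⁻ x : E3, ENNReal.ofReal (f₀ (x, v)) ≤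
      ENNReal.ofReal (M₀ * Real.exp (-b * ‖v‖ ^ 2))) (L : ℕ) : ExcQ5 Φ f₀ L T := by
  unfold ExcQ5
  rw [ENNReal.tendsto_nhds_zero]
  intro ρ hρ
  filter_upwards [triP_le hΦ hB hg hb hT hM hf hx L hρ] with ε h
  exact h T le_rfl

open ContExc in
/-- **P9** from the parameters, the capacities and the exceptional laws. -/
theorem in9_of_exc {T b₀ b l₁ l₂ Q : ℝ} {m α a : ℕ → ℝ} (hP : Par T b₀ m b l₁ l₂ Q α a)
    {B : ℝ} (hB : RW.StableWith Φ B) (hg : GoodDatum f₀ κ) {M₀ : ℝ} (hM : 0 ≤ M₀)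
    (hf : ∀ z, f₀ z ≤ M₀ * Real.exp (-b₀ * ‖z.2‖ ^ 2))
    (hx : ∀ v : E3, ∫⁻ x : E3, ENNReal.ofReal (f₀ (x, v)) ≤
      ENNReal.ofReal (M₀ * Real.exp (-b₀ * ‖v‖ ^ 2)))
    (hcap : ∀ᶠ L in atTop, CapT Φ f₀ L T (b₀ / 2) m)
    (hI1 : ∀ᶠ L in atTop, Cap.InI1 Φ f₀ L T)
    (d1 : ∀ᶠ L in atTop, ExcD1 Φ f₀ L T) (d2 : ∀ᶠ L in atTop, ExcD2 hΦ f₀ L T)
    (d3 : ∀ᶠ L in atTop, ExcD3 hΦ f₀ L T) (d4 : ∀ᶠ L in atTop, ExcD4 hΦ f₀ L T)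
    (q1 : ∀ᶠ L in atTop, ExcQ1 hΦ f₀ L T) (q2 : ∀ᶠ L in atTop, ExcQ2 hΦ f₀ L T)
    (q3 : ∀ᶠ L in atTop, ExcQ3 hΦ f₀ L T) (q4 : ∀ᶠ L in atTop, ExcQ4 hΦ f₀ L T)
    (e5 : ∀ᶠ L in atTop, Exc5 hΦ f₀ L T b l₁ l₂ a) {Θ : ℕ → ℝ → ℝ → ℝ → ℝ≥0∞} :
    ∃ C K cr, Cst C K cr ∧ In9 T C K cr (dD hΦ f₀) Θ (dSE b T l₁ l₂ a hΦ f₀ T) := by
  have hT : 0 < T := hP.T0
  have hb : 0 < b₀ := hP.b₀0
  obtain ⟨cr, h0, h1, hC⟩ := bdC_of_par (hΦ := hΦ) hP hg hM hf hx hcap hI1 d1 q1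
    (Eventually.of_forall fun L => excQ5 hΦ hB hg hb hT hM hf hx L) e5
  exact in9_of_par hP hB hg hM hf hx hcap zero_le_one le_rfl h0 h1
    (bdP_of hB hg hT hb hM hf hx zero_lt_one) hC (bdE_of hg d1 d2 d3 d4 q1 q2 q3 q4)

end Vale.Agent.P119.PB
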