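import Vale.Agent.P119.PB.TreeLimP
import Vale.Agent.P119.PB.ContExc

/-!
# P119, block PROB: `ExcD3`, `ExcD4` (`helper347`)
-/

open MeasureTheory Filter Topology Set
open scoped ENNReal NNReal

noncomputable section

namespace Vale.Agent.P119.PB

open M CTree KU FB RB AU TL IND GC MM

namespace RLn

variable {Φ : E3 → ℝ} {f₀ : Ph → ℝ} {κ₀ T b M₀ M₁ : ℝ} (h : GoodDatum f₀ κ₀)
  (hΦ : IsPotential Φ) (hb : 0 < b) (hM₀ : 0 ≤ M₀)
  (hf : ∀ z, f₀ z ≤ M₀ * Real.exp (-b * ‖z.2‖ ^ 2)) (hM₁ : 0 ≤ M₁)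
  (hmarg : ∀ v, ∫⁻ x, ENNReal.ofReal (f₀ (x, v)) ≤
      ENNReal.ofReal (M₁ * Real.exp (-b * ‖v‖ ^ 2)))
  (hT : 0 ≤ T) (L : ℕ)

include h hb hM₀ hf hM₁ hmarg hT

/-- **`ExcD3`**: trees related to the lines of a tree, unconditional. -/
theorem excD3 : ContExc.ExcD3 hΦ f₀ L T := by
  intro ρ hρ
  filter_upwards [d3_lim h hb (treeLim h hΦ hb hM₀ hf hM₁ hmarg hT L) ρ hρ] with ε h1 hε
  refine le_trans (mul_le_mul_right (mul_le_mul_right (XX_mono fun U S _ => ?_) _) _) (h1 hε)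
  refine mul_le_mul_right ?_ _
  calc _ ≤ 1 * relW L hΦ hε (lnw Φ ε U S (ext Φ ε S)) U T := mul_le_mul_left (ind_le_one _) _
    _ = _ := one_mul _

/-- **`ExcD4`**: trees related to the other lines of a tree, unconditional. -/
theorem excD4 : ContExc.ExcD4 hΦ f₀ L T := by
  classical
  intro ρ hρ
  filter_upwards [d4_lim h hb (treeLim h hΦ hb hM₀ hf hM₁ hmarg hT L) ρ hρ] with ε h1 hε
  refine le_trans (mul_le_mul_right (mul_le_mul_right (XX_mono fun U S _ => ?_) _) _) (h1 hε)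
  refine mul_le_mul_right ?_ _
  calc _ ≤ 1 * exsum S (fun x => relW L hΦ hε (lnw Φ ε U S (ext Φ ε S))
        (insert (rsrc Φ ε x) U) T) := mul_le_mul_left (ind_le_one _) _
    _ = _ := one_mul _

end RLn

end Vale.Agent.P119.PB
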