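import Vale.Agent.P119.FB.SqLines
import Vale.Agent.P119.TL.Without
import Vale.Agent.P119.PB.ThrTL2

/-!
# P119, block PROB: the trees which are related to an inserted tree (`helper472`)

`T` is an inserted real tree, `R` a tree of the world `U`, `V = rm U R`.

* `Drp Φ ε L V R O r t`: a tree `y`, which is live in `V` and is not live in `V` with one of the lines
  of `R`, is in contact with one of the particles of `O` before the birth of its line;
* `nice_rm`: if the lines of `T` and `R` do not interact over `V` then `T` is nice without `R`,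
  or `Drp`;
* **`indT_cases`**: the conditions of independence `IndT` of `relT`;
* **`rel_cases`**: the trees `R` which are counted in `relW (addT U T) U`.
-/

open MeasureTheory Filter Topology Set
open scoped ENNReal NNReal

noncomputable section

namespace Vale.Agent.P119.PB

open M CTree KU FB RB AU TL IND

variable {Φ : E3 → ℝ} {ε : ℝ} {L : ℕ} {hΦ : IsPotential Φ} {hε : 0 < ε}
  {U V W K : Finset Src} {R T : CTree} {ρ t s : ℝ} {a : Src}

/-- A tree `y` which is live in `V` and is not live in `V` with one of the lines of `R` is in contact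
with one of the particles of `O` before the birth of its line. -/
def Drp (Φ : E3 → ℝ) (ε : ℝ) (L : ℕ) (V : Finset Src) (R : CTree) (O : Set CTree)
    (r : CTree → ℝ) (t : ℝ) : Prop :=
  ∃ z ∈ outs R, ∃ x ∈ O, ∃ y s, s ≤ t ∧ x.root.1 ≤ s ∧ s ≤ r x ∧ Bg Φ ε y s ∧
    live Φ ε L (V : Set Src) y s ∧ ¬live Φ ε L (insert (rsrc Φ ε z) (V : Set Src)) y s ∧
    Ctc ε (st Φ ε y s) (st Φ ε (cur Φ ε x s) s)

/-- The lines of `T`; the root is reborn at the time `ρ`. -/
def krs (Φ : E3 → ℝ) (ε : ℝ) (T : CTree) (ρ : ℝ) : Finset Src := by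
  classical
  exact insert (ρ, ln Φ ε T, T.depth) (exl Φ ε T)

theorem coe_krs (hT : ok Φ ε T) : (krs Φ ε T ρ : Set Src) = msrc Φ ε (rho Φ ε T ρ) '' outs T := by
  classical
  unfold krs outs
  rw [Finset.coe_insert, coe_exl, image_insert_eq, msrc_rho_self]
  congr 1
  exact image_congr fun x hx => (msrc_rho_exs hT hx).symm

theorem mem_krs (hT : ok Φ ε T) : a ∈ krs Φ ε T ρ ↔ ∃ x ∈ outs T,
    msrc Φ ε (rho Φ ε T ρ) x = a := by
  rw [← Finset.mem_coe, coe_krs hT]
  rfl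

theorem krs_ext (hT : ok Φ ε T) : krs Φ ε T (ext Φ ε T) = srcs Φ ε T := by
  apply Finset.coe_injective
  rw [coe_krs hT, coe_srcs]
  exact image_congr fun x hx => msrc_rho hT hx

/-- The world of lines. -/
theorem lnw_eq_krs : lnw Φ ε V T ρ = wF V sgl (krs Φ ε T ρ) := by
  classical
  ext a
  rw [mem_wF_sgl]
  unfold lnw krs
  simp only [Finset.mem_union, Finset.mem_singleton, Finset.mem_insert]
  tauto

theorem coe_wF_krs (hT : ok Φ ε T) : (wF V sgl (krs Φ ε T ρ) : Set Src) =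
    lwd Φ ε (rho Φ ε T ρ) (V : Set Src) T := by
  rw [← lnw_eq_krs, coe_lnw hT]

/-- A tree with unexposed root is nice. -/
theorem TGood.niceT (h : TGood Φ ε L hΦ hε U T W ρ t) (hl : LGood Φ ε L U T ρ t) :
    NiceT Φ ε L (W : Set Src) T (rho Φ ε T ρ) := by
  have hset := h.setup hl
  have hT : M.alive Φ ε L ((U : Set Src) ∪ T.leaves) T ρ := by rw [← h.eq]; exact h.alive
  refine ⟨fun x hx => ?_, fun x hx => ?_, fun x hx s hs hb =>
    not_exp_rho h.eq hT h.unexp x hx s hs (exp_of_badi hb le_rfl)⟩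
  · rw [h.eq]; exact hset.alive x hx
  · rw [h.eq]; exact hset.lives x hx

/-- **The tree `T` without `R`.** -/
theorem nice_rm (hR : R.leaves ⊆ (U : Set Src)) (h : TGood Φ ε L hΦ hε U T W ρ t)
    (hl : LGood Φ ε L U T ρ t) (nR : Nice Φ ε L (lnw Φ ε U T ρ) R)
    (hK : GoodK Φ ε L (rm U R) R (krs Φ ε T ρ) t) :
    (NiceT Φ ε L (rm U R ∪ T.leaves : Set Src) T (rho Φ ε T ρ) ∧
      LGood Φ ε L (rm U R) T ρ t) ∨ Drp Φ ε L (rm U R) R (outs T) (rho Φ ε T ρ) t := by
  classical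
  have hok := h.ok
  have hset := h.setup hl
  have hne : Nonempty Src := ⟨rsrc Φ ε T⟩
  have hVU : (rm U R : Set Src) ⊆ (U : Set Src) := fun a ha => (mem_rm.1 ha).1
  have hKR : ∀ a ∈ krs Φ ε T ρ, a ∉ R.leaves := by
    intro a ha haR
    obtain ⟨x, hx, rfl⟩ := (mem_krs hok).1 ha
    exact hl.fresh x hx (Finset.mem_coe.1 (hR haR))
  have hIs : krs Φ ε T ρ ⊆ srcs Φ ε R ∪ krs Φ ε T ρ := Finset.subset_union_right
  have hNs : srcs Φ ε R ⊆ srcs Φ ε R ∪ krs Φ ε T ρ := Finset.subset_union_left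
  have hw : (lnw Φ ε U T ρ : Set Src) = (wF (rm U R) sgl (krs Φ ε T ρ) : Set Src) ∪ R.leaves := by
    rw [lnw_eq_krs]
    ext a
    rw [mem_union, mem_wF_sgl', mem_wF_sgl', mem_rm]
    constructor
    · rintro (h | h)
      · by_cases h2 : a ∈ R.leaves
        · exact Or.inr h2
        · exact Or.inl (Or.inl ⟨h, h2⟩)
      · exact Or.inl (Or.inr h)
    · rintro ((h | h) | h)
      · exact Or.inl h.1
      · exact Or.inr h
      · exact Or.inl (Finset.mem_coe.1 (hR h))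
  have hdR : Disjoint (wF (rm U R) sgl (krs Φ ε T ρ) : Set Src) R.leaves := by
    refine disjoint_left.2 fun a h1 h2 => ?_
    rcases mem_wF_sgl'.1 h1 with h1 | h1
    · exact (mem_rm.1 h1).2 h2
    · exact hKR a h1 h2
  -- the two replacements
  have hsR : Setup Φ ε L (wF (rm U R) sgl (krs Φ ε T ρ) : Set Src) R
      (rho Φ ε R (ext Φ ε R)) t :=
    setup_of_good hΦ hε (linePk_srcs hK.inj) hNs hIs hK.disj.symm hK.good hdR hw nR
  have hlR : (wF (rm U R) sgl (krs Φ ε T ρ ∪ srcs Φ ε R) : Set Src) =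
      lwd Φ ε (rho Φ ε R (ext Φ ε R)) (wF (rm U R) sgl (krs Φ ε T ρ) : Set Src) R :=
    wF_eq_lwd (linePk_srcs hK.inj) nR.ok
  have htrans : ∀ q s, s ≤ t → q.leaves ⊆ (wF (rm U R) sgl (krs Φ ε T ρ) : Set Src) →
      live Φ ε L (wF (rm U R) sgl (krs Φ ε T ρ ∪ srcs Φ ε R) : Set Src) q s →
      live Φ ε L (W : Set Src) (th Φ ε (rho Φ ε T ρ) T q) s := by
    intro q s hs hq hql
    rw [hlR] at hql
    have h1 := ((TL.live_th hΦ hε hsR hs hql.sub).1 hql).1
    rw [th_of_subset hsR hq, ← hw, coe_lnw hok] at h1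
    have h2 := ((TL.live_th hΦ hε hset hs h1.sub).1 h1).1
    rw [h.eq]
    exact h2
  have hinj := hl.inj
  have hfr : ∀ x ∈ outs T, msrc Φ ε (rho Φ ε T ρ) x ∉ (rm U R : Set Src) := fun x hx hm =>
    hl.fresh x hx (Finset.mem_coe.1 (hVU hm))
  have hdT : Disjoint (rm U R : Set Src) T.leaves := h.disj.mono_left hVU
  have hind : ∀ p y s, s ≤ t → live Φ ε L (lwd Φ ε (rho Φ ε T ρ) (rm U R : Set Src) T) p s →
      alive Φ ε L (lwd Φ ε (rho Φ ε T ρ) (rm U R : Set Src) T) y s → Disjoint p.leaves y.leaves →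
      hit Φ ε p y s → p.leaves ⊆ (rm U R : Set Src) ∨ y.leaves ⊆ (rm U R : Set Src) := by
    refine indep_of_NI hΦ hε (Wc := fun J => (wF (rm U R) sgl J : Set Src)) hK.good.cubeW hK.good.ni
      hIs ?_ (msrc Φ ε (rho Φ ε T ρ)) (fun x hx => ?_) hinj
    · exact (coe_wF_krs hok).symm
    · exact hK.good.idx (hIs ((mem_krs hok).2 ⟨x, hx, rfl⟩)) (Finset.mem_singleton_self _)
  have hDD : ∀ q s, s ≤ t → Bg Φ ε q s →
      live Φ ε L (lwd Φ ε (rho Φ ε T ρ) (rm U R : Set Src) T) q s →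
      live Φ ε L (W : Set Src) (th Φ ε (rho Φ ε T ρ) T q) s ∨
        (live Φ ε L (rm U R : Set Src) q s ∧ ∃ z ∈ outs R,
          ¬live Φ ε L (insert (rsrc Φ ε z) (rm U R : Set Src)) q s) := by
    intro q s hs _ hq
    rw [← coe_wF_krs hok] at hq
    obtain ⟨i, hi⟩ := hK.good.live_dep hΦ hε q hs
    have hu : krs Φ ε T ρ ∪ srcs Φ ε R ⊆ srcs Φ ε R ∪ krs Φ ε T ρ :=
      Finset.union_subset hIs hNs
    by_cases hiN : i ∈ srcs Φ ε R
    · have hiT : i ∉ krs Φ ε T ρ := Finset.disjoint_left.1 hK.disj hiN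
      by_cases hlive : live Φ ε L (wF (rm U R) sgl (krs Φ ε T ρ ∪ srcs Φ ε R) : Set Src) q s
      · exact Or.inl (htrans q s hs hq.sub hlive)
      · right
        have h1 : live Φ ε L (wF (rm U R) sgl ∅ : Set Src) q s := (hi _ _ hIs
          (Finset.empty_subset _) (iff_of_false hiT (Finset.notMem_empty _))).1 hq
        have h2 : ¬live Φ ε L (wF (rm U R) sgl {i} : Set Src) q s := fun h' => hlive
          ((hi {i} _ (Finset.singleton_subset_iff.2 (hNs hiN)) hu
            (iff_of_true (Finset.mem_singleton_self _) (Finset.mem_union_right _ hiN))).1 h')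
        rw [wF_empty] at h1
        obtain ⟨z, hz, rfl⟩ := mem_srcs.1 hiN
        rw [wF_sgl_singleton, Finset.coe_insert] at h2
        exact ⟨h1, z, hz, h2⟩
    · left
      refine htrans q s hs hq.sub ((hi _ _ hIs hu ?_).1 hq)
      rw [Finset.mem_union]
      tauto
  rcases nice_without hΦ hε (V := (rm U R : Set Src)) (W := (W : Set Src)) W.finite_toSet
    (TGood.niceT h hl) (rm U R).finite_toSet hdT hinj hfr hset.le_r
    (fun x hx => (rho_le hΦ hε hok (alive_pre h.alive).ext_le hx).trans h.le) hind hDD with h1 | h1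
  · exact Or.inl ⟨h1, hinj, fun x hx hm => hfr x hx (Finset.mem_coe.2 hm), hind⟩
  · right
    obtain ⟨x, hx, q, s, h1, h2, h3, h4, ⟨h5, z, hz, h6⟩, h7⟩ := h1
    exact ⟨z, hz, x, hx, q, s, h1, h2, h3, h4, h5, h6, h7⟩

/-- **The conditions of independence of `relT`.** -/
theorem indT_cases (hR : R.leaves ⊆ (U : Set Src)) (h : TGood Φ ε L hΦ hε U T W ρ t)
    (hl : LGood Φ ε L U T ρ t) (nR : Nice Φ ε L (lnw Φ ε U T ρ) R)
    (hK : GoodK Φ ε L (rm U R) R (krs Φ ε T ρ) t) :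
    IndT Φ ε L U T W ρ t R ∨ Drp Φ ε L (rm U R) R (outs T) (rho Φ ε T ρ) t := by
  rcases nice_rm hR h hl nR hK with ⟨h1, h2⟩ | h1
  · left
    have e : (rm W R : Set Src) = (rm U R : Set Src) ∪ T.leaves := by
      rw [coe_rm, coe_rm, h.eq, union_sdiff_distrib]
      congr 1
      exact sdiff_eq_left.2 (h.disj.symm.mono_right hR)
    have h3 := h1.alive T (Or.inl rfl)
    have h4 := h1.lives T (Or.inl rfl)
    rw [rho_self] at h3 h4
    refine ⟨hR, ?_, ?_, h2⟩
    · rw [e]; exact h3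
    · rw [e]; exact h4
  · exact Or.inr h1

/-! ### Squares -/

/-- The world with `T` and without `R`. -/
theorem coe_rm_of_disjoint (hR : R.leaves ⊆ (U : Set Src)) (hd : Disjoint (U : Set Src) T.leaves)
    (hW : (W : Set Src) = (U : Set Src) ∪ T.leaves) :
    (rm W R : Set Src) = (rm U R : Set Src) ∪ T.leaves := by
  rw [coe_rm, coe_rm, hW, union_sdiff_distrib]
  congr 1
  exact sdiff_eq_left.2 (hd.symm.mono_right hR)

/-- **Squares with an inserted tree.** -/
theorem square_cases (hR : R.leaves ⊆ (U : Set Src)) (h : TGood Φ ε L hΦ hε U T W (ext Φ ε T) t)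
    (hl : LGood Φ ε L U T (ext Φ ε T) t) (hRt : ext Φ ε R ≤ t) (nU : Nice Φ ε L U R)
    (hA : ∀ a ∈ R.leaves, a ∉ (Y Φ ε L hΦ hε).D U (lnw Φ ε U T (ext Φ ε T)) t)
    (hK : GoodK Φ ε L (rm U R) R (srcs Φ ε T) t) :
    FB.Sys.Square (Y Φ ε L hΦ hε) (rm W R) (rm U R) W U t ∨
      Drp Φ ε L (rm U R) R (outs T) (rho Φ ε T (ext Φ ε T)) t := by
  classical
  have hok := h.ok
  have hokR := nU.ok
  have hset := h.setup hl
  have hVU : (rm U R : Set Src) ⊆ (U : Set Src) := fun a ha => (mem_rm.1 ha).1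
  have nL : Nice Φ ε L (lnw Φ ε U T (ext Φ ε T)) R := nU.congr hΦ hε hRt fun a ha hD =>
    hA a ha (by rw [FB.Sys.D_comm]; exact hD)
  rcases nice_rm hR h hl nL (by rw [krs_ext hok]; exact hK) with ⟨hn, -⟩ | h1
  swap
  · exact Or.inr h1
  left
  have hrmW := coe_rm_of_disjoint hR h.disj h.eq
  rw [← hrmW] at hn
  have hrho : ∀ x ∈ outs T, rho Φ ε T (ext Φ ε T) x = ext Φ ε x := by
    intro x hx
    rcases hx with rfl | hx
    · exact rho_self _
    · exact rho_exs hok hx _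
  have nT : Nice Φ ε L (rm W R) T := by
    refine ⟨?_, fun x hx s hs => hn.good x hx s (by rw [hrho x hx]; exact hs)⟩
    have := hn.alive T (Or.inl rfl)
    rwa [rho_self] at this
  have hNs : srcs Φ ε R ⊆ srcs Φ ε R ∪ srcs Φ ε T := Finset.subset_union_left
  have hTs : srcs Φ ε T ⊆ srcs Φ ε R ∪ srcs Φ ε T := Finset.subset_union_right
  have h0 := Finset.empty_subset (srcs Φ ε R ∪ srcs Φ ε T)
  have hTR : ∀ a ∈ srcs Φ ε T, a ∉ U := by
    intro a ha haU
    obtain ⟨x, hx, rfl⟩ := mem_srcs.1 ha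
    exact hl.fresh x hx (by rw [msrc_rho hok hx]; exact haU)
  have injT : InjOn (rsrc Φ ε) (outs T) := by
    intro x hx x' hx' he
    refine hl.inj hx hx' ?_
    rw [msrc_rho hok hx, msrc_rho hok hx', he]
  have eV : wF (rm U R) sgl ∅ = rm U R := wF_empty
  have hdR : ∀ I, (∀ a ∈ I, a ∉ U) → Disjoint (wF (rm U R) sgl I : Set Src) R.leaves := by
    intro I hI
    refine disjoint_left.2 fun a h1 h2 => ?_
    rcases mem_wF_sgl'.1 h1 with h1 | h1
    · exact (mem_rm.1 h1).2 h2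
    · exact hI a h1 (Finset.mem_coe.1 (hR h2))
  have hwR : ∀ I, (wF U sgl I : Set Src) = (wF (rm U R) sgl I : Set Src) ∪ R.leaves := by
    intro I
    ext a
    rw [mem_union, mem_wF_sgl', mem_wF_sgl', mem_rm]
    constructor
    · rintro (h | h)
      · by_cases h2 : a ∈ R.leaves
        · exact Or.inr h2
        · exact Or.inl (Or.inl ⟨h, h2⟩)
      · exact Or.inl (Or.inr h)
    · rintro ((h | h) | h)
      · exact Or.inl h.1
      · exact Or.inr h
      · exact Or.inl (Finset.mem_coe.1 (hR h))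
  -- the representations
  have r1 : MRep Φ ε L W (lnw Φ ε U T (ext Φ ε T)) (fs Φ ε (rho Φ ε T (ext Φ ε T)) T) t :=
    (h.rep hl).mrep
  have r2 : MRep Φ ε L (lnw Φ ε U T (ext Φ ε T)) (wF (rm U R) sgl (srcs Φ ε T ∪ srcs Φ ε R))
      (fs Φ ε (rho Φ ε R (ext Φ ε R)) R) t := by
    refine mrep_of_good hΦ hε (linePk_srcs hK.inj) hNs hTs hK.disj.symm hK.good hRt (hdR _ hTR) ?_ nL
    rw [lnw_eq hok]
    exact hwR _
  have r3 := r1.trans hΦ hε r2
  have r4 : MRep Φ ε L U (wF (rm U R) sgl (∅ ∪ srcs Φ ε R)) (fs Φ ε (rho Φ ε R (ext Φ ε R)) R) t := by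
    refine mrep_of_good hΦ hε (linePk_srcs hK.inj) hNs h0 (Finset.disjoint_empty_left _) hK.good hRt
      (hdR _ fun a ha => absurd ha (Finset.notMem_empty a)) ?_ nU
    rw [← hwR, wF_empty]
  have r5 : MRep Φ ε L (rm W R) (wF (rm U R) sgl (∅ ∪ srcs Φ ε T))
      (fs Φ ε (rho Φ ε T (ext Φ ε T)) T) t := by
    refine mrep_of_good hΦ hε (linePk_srcs injT) hTs h0 (Finset.disjoint_empty_left _) hK.good h.le
      ?_ ?_ nT
    · rw [eV]
      exact h.disj.mono_left hVU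
    · rw [eV]
      exact hrmW
  have r6 : MRep Φ ε L (rm U R) (wF (rm U R) sgl ∅) leaf t := by
    rw [eV]
    exact MRep.refl fun a ha => (hK.good.birthV a ha).1
  -- the histories
  have fT_U : ∀ a ∈ U, fs Φ ε (rho Φ ε T (ext Φ ε T)) T a = leaf a := fun a ha =>
    fs_of_mem hset (Finset.mem_coe.2 ha)
  have fT_T : ∀ x ∈ outs T, fs Φ ε (rho Φ ε T (ext Φ ε T)) T (rsrc Φ ε x) = x := by
    intro x hx
    rw [← msrc_rho hok hx]
    exact fs_msrc hset hx
  have fR_not : ∀ a, a ∉ srcs Φ ε R → fs Φ ε (rho Φ ε R (ext Φ ε R)) R a = leaf a := by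
    intro a ha
    unfold fs
    rw [dif_neg]
    rintro ⟨z, hz, rfl⟩
    rw [msrc_rho hokR hz] at ha
    exact ha (mem_srcs.2 ⟨z, hz, rfl⟩)
  have hVR : ∀ a ∈ rm U R, a ∉ srcs Φ ε R := fun a ha h' =>
    Finset.disjoint_left.1 (hK.good.disjV a (hNs h')) ha (Finset.mem_singleton_self _)
  have fR_R : ∀ z ∈ outs R, fs Φ ε (rho Φ ε R (ext Φ ε R)) R (rsrc Φ ε z) = z := by
    intro z hz
    have h1 : ∃ z' ∈ outs R, msrc Φ ε (rho Φ ε R (ext Φ ε R)) z' = rsrc Φ ε z :=
      ⟨z, hz, msrc_rho hokR hz⟩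
    unfold fs
    rw [dif_pos h1]
    have h2 := h1.choose_spec
    rw [msrc_rho hokR h2.1] at h2
    exact hK.inj h2.1 hz h2.2
  obtain ⟨f, hf⟩ : ∃ f : Src → CTree, f = fun a => sbs (fs Φ ε (rho Φ ε T (ext Φ ε T)) T)
    (fs Φ ε (rho Φ ε R (ext Φ ε R)) R a) := ⟨_, rfl⟩
  rw [← hf] at r3
  have e4 : ∀ a ∈ wF (rm U R) sgl (∅ ∪ srcs Φ ε R), fs Φ ε (rho Φ ε R (ext Φ ε R)) R a = f a := by
    intro a ha
    rw [hf]
    rcases mem_wF_sgl.1 ha with ha | ha
    · beta_reduce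
      rw [fR_not a (hVR a ha)]
      exact (fT_U a (mem_rm.1 ha).1).symm
    · rw [Finset.empty_union] at ha
      obtain ⟨z, hz, rfl⟩ := mem_srcs.1 ha
      beta_reduce
      rw [fR_R z hz, sbs_congr (g := leaf) fun σ hσ => fT_U σ (Finset.mem_coe.1
        (hR (outs_leaves hz hσ))), sbs_leaf]
  have e5 : ∀ a ∈ wF (rm U R) sgl (∅ ∪ srcs Φ ε T), fs Φ ε (rho Φ ε T (ext Φ ε T)) T a = f a := by
    intro a ha
    rw [hf]
    beta_reduce
    rw [fR_not a]
    · rfl
    · rcases mem_wF_sgl.1 ha with ha | ha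
      · exact hVR a ha
      · rw [Finset.empty_union] at ha
        exact fun h' => Finset.disjoint_left.1 hK.disj h' ha
  have e6 : ∀ a ∈ wF (rm U R) sgl ∅, leaf a = f a := by
    intro a ha
    rw [hf]
    rcases mem_wF_sgl.1 ha with ha | ha
    · beta_reduce
      rw [fR_not a (hVR a ha)]
      exact (fT_U a (mem_rm.1 ha).1).symm
    · exact absurd ha (Finset.notMem_empty a)
  have r4' := r4.congr hΦ hε e4
  have r5' := r5.congr hΦ hε e5
  have r6' := r6.congr hΦ hε e6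
  rw [Finset.empty_union] at r4' r5'
  -- the four worlds
  let Js : Fin 4 → Finset Src := ![srcs Φ ε T, ∅, srcs Φ ε T ∪ srcs Φ ε R, srcs Φ ε R]
  let Wr : Fin 4 → Finset Src := ![rm W R, rm U R, W, U]
  have hJs : ∀ k, Js k ⊆ srcs Φ ε T ∪ srcs Φ ε R := by
    intro k
    fin_cases k
    · exact Finset.subset_union_left
    · exact Finset.empty_subset _
    · exact Finset.Subset.refl _
    · exact Finset.subset_union_right
  have hRr : ∀ k, MRep Φ ε L (Wr k) (wF (rm U R) sgl (Js k)) f t := by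
    intro k
    fin_cases k
    · exact r5'
    · exact r6'
    · exact r3
    · exact r4'
  have hu : srcs Φ ε T ∪ srcs Φ ε R ⊆ srcs Φ ε R ∪ srcs Φ ε T := Finset.union_subset hTs hNs
  have hne : Nonempty Src := ⟨rsrc Φ ε T⟩
  have key := MRep.dep_on (K := srcs Φ ε R ∪ srcs Φ ε T) (Wl := wF (rm U R) sgl) hΦ hε hRr
    (fun k => (hJs k).trans hu)
    (fun k k' b hb b' hb' he => r3.bij.injOn (Finset.mem_coe.2 (wF_mono (hJs k) hb))
      (Finset.mem_coe.2 (wF_mono (hJs k') hb')) he)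
    fun a => hK.good.sta_dep hΦ hε a
  refine square_of_dep (I := srcs Φ ε T) (J := ∅) (N := srcs Φ ε R) hK.disj.symm
    (Finset.disjoint_empty_left _) fun a => ?_
  obtain ⟨i₀, hi₀⟩ := key a
  rw [Finset.empty_union]
  exact ⟨i₀, hi₀ 0 1, hi₀ 0 2, hi₀ 1 3, hi₀ 2 3⟩

/-- **The trees which are related to an inserted tree**: (A) a particle of `R` is altered by a line
of `T`, (B) the lines of `T` and `R` interact over `V`, (D) `Drp`. -/
theorem rel_cases (h : TGood Φ ε L hΦ hε U T W (ext Φ ε T) t)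
    (hl : LGood Φ ε L U T (ext Φ ε T) t) (hR : Rel L hΦ hε W U t R) :
    (∃ a ∈ R.leaves, a ∈ (Y Φ ε L hΦ hε).D U (lnw Φ ε U T (ext Φ ε T)) t) ∨
      ¬GoodK Φ ε L (rm U R) R (srcs Φ ε T) t ∨
        Drp Φ ε L (rm U R) R (outs T) (rho Φ ε T (ext Φ ε T)) t := by
  by_contra hcon
  push Not at hcon
  obtain ⟨h1, h2, h3⟩ := hcon
  exact (square_cases hR.sub h hl hR.ext_le (Nice.of_not_exp hR.alive hR.root) h1 h2).elim hR.rel h3

/-- **The trees which are counted in `relT`**. -/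
theorem depT_cases (h : TGood Φ ε L hΦ hε U T W ρ t) (hl : LGood Φ ε L U T ρ t)
    (hR : DepT Φ ε L U T W ρ t R) (hRU : R.leaves ⊆ (U : Set Src)) :
    ¬GoodK Φ ε L (rm U R) R (krs Φ ε T ρ) t ∨
      Drp Φ ε L (rm U R) R (outs T) (rho Φ ε T ρ) t := by
  by_contra hcon
  push Not at hcon
  exact (indT_cases hRU h hl (Nice.of_not_exp hR.alive (hR.root hΦ hε)) hcon.1).elim hR.dep hcon.2

end Vale.Agent.P119.PB
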