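import Vale.Agent.P119.PB.ExcOne
import Vale.Agent.P119.IND.Irrs

/-!
# P119: the exceptional terms of one real tree, unconditional (`helper350`)

* `irrFam_irrs`: the relations of the irregular contacts;
* `excE1`, `excD1`: the exceptional terms `ExcE1` and `ExcD1`.
-/

open MeasureTheory Filter Topology Set
open scoped ENNReal

set_option linter.unusedSectionVars false

noncomputable section

namespace Vale.Agent.P119.PB.XT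

open KU FL M M.CTree TL GC MM AU PB.CT IND

variable {Φ : E3 → ℝ} {f₀ : Ph → ℝ} {κ₀ b M₀ M₁ T : ℝ}

theorem irrFam_irrs {c : ℝ} (hΦ : IsPotential Φ) (hf : Measurable f₀) (hM₁ : 0 ≤ M₁)
    (hmarg : ∀ v, ∫⁻ x, ENNReal.ofReal (f₀ (x, v)) ≤
      ENNReal.ofReal (M₁ * Real.exp (-b * ‖v‖ ^ 2)))
    (hbc : c < b) (hT : 0 ≤ T) (c₀ : ℕ) : IrrFam Φ f₀ T b c c₀ fun N => irrs hΦ T N c₀ where
  fin N := irrs_finite hΦ T N c₀
  small _ _ hr := irrs_small hΦ hf hM₁ hmarg hbc hT hr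
  sbad _ _ _ _ hε _ _ _ h := h.sbad hΦ hε

/-- **The first exceptional term of P3.** -/
theorem excE1 (h : GoodDatum f₀ κ₀) (hΦ : IsPotential Φ) (hb : 0 < b) (hM₀ : 0 ≤ M₀)
    (hf : ∀ z, f₀ z ≤ M₀ * Real.exp (-b * ‖z.2‖ ^ 2)) (hM₁ : 0 ≤ M₁)
    (hmarg : ∀ v, ∫⁻ x, ENNReal.ofReal (f₀ (x, v)) ≤
      ENNReal.ofReal (M₁ * Real.exp (-b * ‖v‖ ^ 2)))
    (hT : 0 ≤ T) (L : ℕ) : ExcE1 Φ f₀ L T :=
  excE1_of h hΦ hb hM₀ hf hM₁ hmarg hT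
    (irrFam_irrs hΦ h.meas hM₁ hmarg (by linarith) hT 1) L

/-- **The first exceptional term of the flying trees in P9.** -/
theorem excD1 (h : GoodDatum f₀ κ₀) (hΦ : IsPotential Φ) (hb : 0 < b) (hM₀ : 0 ≤ M₀)
    (hf : ∀ z, f₀ z ≤ M₀ * Real.exp (-b * ‖z.2‖ ^ 2)) (hM₁ : 0 ≤ M₁)
    (hmarg : ∀ v, ∫⁻ x, ENNReal.ofReal (f₀ (x, v)) ≤
      ENNReal.ofReal (M₁ * Real.exp (-b * ‖v‖ ^ 2)))
    (hT : 0 ≤ T) (L : ℕ) : ContExc.ExcD1 Φ f₀ L T :=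
  excD1_of h hΦ hb hM₀ hf hM₁ hmarg hT
    (irrFam_irrs hΦ h.meas hM₁ hmarg (by linarith) hT 1) L

end Vale.Agent.P119.PB.XT
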