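import Vale.Agent.P119.PB.RelTree
import Vale.Agent.P119.IND.PairBase

/-!
# P119, block PROB: the base structure of one tree (`helper347`)

* `pbase_tree`, `slab_tree`: the base structure of one tree, one class, no ghost.
-/

open MeasureTheory Filter Topology Set
open scoped ENNReal NNReal

noncomputable section

namespace Vale.Agent.P119.PB

open M CTree KU FB RB AU TL IND

namespace RLn

variable {Φ : E3 → ℝ} {ε : ℝ} {L : ℕ} {S : CTree} {T : ℝ}

/-- **The base structure of one tree.** -/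
theorem pbase_tree (hΦ : IsPotential Φ) (hε : 0 < ε) (hS : CTree.ok Φ ε S)
    (hT : ext Φ ε S ≤ T) : PBase Φ ε T (partsF S) [] ∅ (XS Φ ε S) := by
  refine ⟨Fam.of_tree hΦ hε hS hT, fun g hg => absurd hg List.not_mem_nil,
    fun g hg => absurd hg List.not_mem_nil, fun σ hσ _ => ?_⟩
  rw [← Finset.mem_coe, lab_partsF] at hσ
  obtain ⟨x, hx, rfl⟩ := exists_out hσ
  refine ⟨x, isLast_of_outs hS hx, rfl, ?_, ?_⟩
  · rw [XS_root hS hx]; rfl
  · rw [XS_root hS hx]; rfl

/-- The labels of one tree. -/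
theorem slab_tree (hΦ : IsPotential Φ) (hε : 0 < ε) {S : Fin 1 → CTree}
    (hS : CTree.ok Φ ε (S 0)) (l : Fin 0 → Src) :
    SLab S l (partsF (S 0)) [] 1 {(S 0).root} := by
  have hl : ∀ {σ : Src}, σ ∈ lab (partsF (S 0)) ↔ σ ∈ (S 0).leaves := by
    intro σ
    rw [← Finset.mem_coe, lab_partsF]
  refine ⟨fun σ hσ => Or.inl ⟨0, hl.1 hσ⟩, fun j => ?_, fun j => j.elim0, fun r hr => ?_,
    fun σ hσ => ⟨(S 0).root, Finset.mem_singleton_self _, ?_⟩, by simp, fun r _ => ?_⟩
  · rw [Fin.fin_one_eq_zero j, lab_partsF]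
  · rw [Finset.mem_singleton.1 hr]
    exact hl.2 (S 0).root_mem_leaves
  · exact fj_partsF hΦ hε hS (hl.1 hσ) (S 0).root_mem_leaves
  · rintro ⟨j, -⟩
    exact j.elim0

theorem szB_tree_le (hd : S.depth ≤ L) : szB (partsF S) [] ≤ 2 ^ (L + 3) := by
  have h1 : (lab (partsF S)).card ≤ 2 ^ (L + 2) := (card_lab_le _).trans (card_partsF_le hd)
  have h2 := card_nl_partsF_le (R := S) hd
  have h3 : 2 ^ (L + 3) = 2 ^ (L + 2) + 2 ^ (L + 2) := by rw [pow_succ]; ring
  unfold szB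
  rw [List.length_nil]
  omega

end RLn

end Vale.Agent.P119.PB
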