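import Vale.Agent.P119.PB.ExcRelX
import Vale.Agent.P119.PB.ExcIrrs
import Vale.Agent.P119.PB.RelTreeB
import Vale.Agent.P119.PB.RelCases
import Vale.Agent.P119.IND.NearM
import Vale.Agent.P119.IND.NearDrp

/-!
# P119, block PROB, P9: the trees which are not independent of a real tree (`helper384`)

* `BadD`: the event of two trees `S`, `R`: `R` is counted in `relT`;
* `law_badD`: its alternatives in the laws;
* **`excD2_of`**, **`excD2`**: `ExcD2`.
-/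

open MeasureTheory Filter Topology Set
open scoped ENNReal NNReal

noncomputable section

namespace Vale.Agent.P119.PB.XR

open M CTree KU FL FB RB AU TL GC IND PB.XT PB.RelX

variable {Φ : E3 → ℝ} {ε T : ℝ} {L : ℕ} {S R : CTree} {U V : Finset Src} {f₀ : Ph → ℝ}
  {κ₀ b c M₀ M₁ : ℝ}

theorem addT_rm (hR : R.leaves ⊆ (U : Set Src)) : addT (rm U R) R = U := by
  apply Finset.coe_injective
  rw [coe_addT, coe_rm]
  exact sdiff_union_of_subset hR

theorem rm_addT (hd : Disjoint (V : Set Src) R.leaves) : rm (addT V R) R = V := by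
  apply Finset.coe_injective
  rw [coe_rm, coe_addT, union_sdiff_right]
  exact hd.sdiff_eq_left

variable (L T) in
/-- The tree `R` is counted in `relT` of the inserted tree `S`, in the world with `R`. -/
def BadD (hΦ : IsPotential Φ) (hε : 0 < ε) (S : CTree) (V : Finset Src) (R : CTree) : Prop :=
  alT Φ ε L T (addT V R) S ∧ NiceT L hΦ hε (addT V R) S T ∧
    DepT Φ ε L (addT V R) S (addT (addT V R) S) (ext Φ ε S) T R

theorem measurableSet_BadD (hΦ : IsPotential Φ) (hε : 0 < ε) :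
    MeasurableSet {p : (CTree × CTree) × Conf Ph |
      BadD T L hΦ hε p.1.1 (wS (pts p.2)) p.1.2} := by
  have hV : MM.RS fun p : (CTree × CTree) × Conf Ph =>
      ((wS (pts p.2) : Finset Src) : Set Src) := RM.rs_wS measurable_snd
  have hS : Measurable fun p : (CTree × CTree) × Conf Ph => p.1.1 :=
    measurable_fst.comp measurable_fst
  have hR : Measurable fun p : (CTree × CTree) × Conf Ph => p.1.2 :=
    measurable_snd.comp measurable_fst
  have hU := rs_addT hV hR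
  have h1 := measurableSet_alT (L := L) hΦ hε hU hS (measurable_const (a := T))
  have he : Measurable fun p : (CTree × CTree) × Conf Ph => ext Φ ε p.1.1 :=
    (measurable_ext hΦ hε.ne').comp hS
  have hUS := rs_addT hU hS
  have h2 : MeasurableSet {p : (CTree × CTree) × Conf Ph |
      NiceT L hΦ hε (addT (wS (pts p.2)) p.1.2) p.1.1 T} := by
    have h3 := RM.measurableSet_GoodT (L := L) (t := fun _ => T) hΦ hε hU hS measurable_const
    have h4 := (RM.msys_Y hΦ hε (L := L)).measurableSet_exp_lt hUS (MM.meas_root hS) he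
    convert h3.inter h4.compl using 1
    ext p
    exact ⟨fun h => ⟨h.good, fun ⟨s, hs, he⟩ => h.root s hs he⟩,
      fun h => ⟨h.1, fun s hs he => h.2 ⟨s, hs, he⟩⟩⟩
  have h3 := RM.measurableSet_DepT (L := L) hΦ hε hU hUS hS he
    (measurable_const (a := T)) hR
  exact h1.inter (h2.inter h3)

/-- The sizes. -/
def ND (L J : ℕ) : ℕ := 2 ^ (L + 3) + 2 ^ (L + 3) + 2 * Nb0 L J + 1

/-- **The alternatives of `BadD`.** -/
theorem law_badD (hΦ : IsPotential Φ) (hε : 0 < ε) (hT : 0 ≤ T) {S : Fin 1 → CTree}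
    {l : Fin 0 → Src} {w : Finset Ph} (hS : OKt Φ ε L T (S 0)) (hR : OKt Φ ε L T R)
    (hB : Base Φ ε (Fin.snoc S R : Fin 2 → CTree) l)
    (hzw : ∀ σ ∈ (S 0).leaves, σ ∉ wS w) (hRw : ∀ σ ∈ R.leaves, σ ∉ wS w)
    (hxw : ∀ σ ∈ srcs Φ ε (S 0), σ ∉ wS w) (hRw' : ∀ σ ∈ srcs Φ ε R, σ ∉ wS w)
    (h : BadD T L hΦ hε (S 0) (wS w) R) (J : ℕ) :
    LawC hΦ hε L T J 1 (ND L J) (Fin.snoc S R : Fin 2 → CTree) l w
        (srcs Φ ε R ∪ srcs Φ ε (S 0) : Set Src) ∨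
      Drp Φ ε L (wS w) R (outs (S 0)) (rho Φ ε (S 0) (ext Φ ε (S 0))) T := by
  classical
  obtain ⟨h1, h2, h3⟩ := h
  have hd : Disjoint (wS w : Set Src) R.leaves :=
    disjoint_left.2 fun σ h4 h5 => hRw σ h5 (Finset.mem_coe.1 h4)
  have hRU : R.leaves ⊆ (addT (wS w) R : Set Src) := by
    rw [coe_addT]
    exact subset_union_right
  have hg : TGood Φ ε L hΦ hε (addT (wS w) R) (S 0) (addT (addT (wS w) R) (S 0))
      (ext Φ ε (S 0)) T :=
    tgood_of (fun a ha => (h2.good.good.birthV a ha).1) h2.good.disj h1.alive h1.ext_le h2.root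
  have h4 := depT_cases hg (h2.good.lgood hΦ hε h1.ok) h3 hRU
  rw [rm_addT hd, krs_ext h1.ok] at h4
  have hdis : ∀ σ ∈ lab (partsF (S 0)), σ ∉ R.leaves := by
    intro σ hσ hσR
    rw [← Finset.mem_coe, lab_partsF] at hσ
    have h5 := hB.disj (Fin.castSucc 0) (Fin.last 1) (Fin.castSucc_lt_last 0).ne
    rw [Fin.snoc_castSucc, Fin.snoc_last] at h5
    exact Set.disjoint_left.1 h5 hσ hσR
  refine h4.imp (fun h5 => ?_) id
  have h6 := (RLn.pbase_tree hΦ hε hS.1 hS.2.2).law_not_goodK hΦ hε hT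
    (RLn.slab_tree hΦ hε hS.1 l) hR.1 hR.2.1 hR.2.2 hdis (w := w)
    (fun σ hσ => hzw σ (by rwa [← Finset.mem_coe, lab_partsF] at hσ))
    hd.symm (fun σ hσ _ => hxw _ ((RLn.mem_srcs_XS hS.1).2 ⟨σ, hσ, rfl⟩))
    (Finset.disjoint_left.2 hRw') (K := srcs Φ ε (S 0)) (fun σ hσ => ⟨?_, ?_⟩) le_rfl h5 J
  · rw [Finset.coe_union] at h6
    have h7 := RLn.szB_tree_le hS.2.1
    have h8 : szB (partsF (S 0)) [] + 2 ^ (L + 3) + 2 * Nb0 L J + 1 ≤ ND L J := by
      unfold ND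
      omega
    exact h6.imp id (Or.imp (PrgC.mono le_rfl h8) (Or.imp (PrgO.mono le_rfl h8)
      (IrrO.mono le_rfl h8)))
  · obtain ⟨x, hx, rfl⟩ := mem_srcs.1 hσ
    exact ⟨M.ext_nonneg hΦ hε (outs_ok hΦ hS.1 hx), (outs_depth hx).trans hS.2.1⟩
  · obtain ⟨τ, h7, h8⟩ := (RLn.mem_srcs_XS hS.1).1 hσ
    exact ⟨τ, h7, notMem_empty _, h8⟩

/-- The relations of the laws for one tree and one related tree. -/
def XD (hΦ : IsPotential Φ) (L : ℕ) (T : ℝ) (J : ℕ) : Set Rln :=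
  irrs hΦ T (ND L J) 2 ∪ nears Φ T (ND L J) 1

variable (L T) in
/-- **The law of `Drp`** for one tree and one related tree. -/
def DrpLaw (hΦ : IsPotential Φ) : Prop :=
  ∀ (ε : ℝ) (hε : 0 < ε) (S : Fin 1 → CTree) (R : CTree) (l : Fin 0 → Src) (w : Finset Ph),
    OKt Φ ε L T (S 0) → OKt Φ ε L T R → Disjoint (S 0).leaves R.leaves →
    (∀ σ ∈ (S 0).leaves, σ ∉ wS w) → (∀ σ ∈ R.leaves, σ ∉ wS w) →
    (∀ σ ∈ srcs Φ ε R, σ ∉ wS w) →
    Drp Φ ε L (wS w) R (outs (S 0)) (rho Φ ε (S 0) (ext Φ ε (S 0))) T → ∀ J,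
    LawC hΦ hε L T J 1 (ND L J) (Fin.snoc S R : Fin 2 → CTree) l w (srcs Φ ε R : Set Src) ∨
      PrgN Φ ε T 1 (ND L J) (Fin.snoc S R : Fin 2 → CTree) l w

theorem lawC_out (hΦ : IsPotential Φ) (hε : 0 < ε) {S : Fin 1 → CTree} {l : Fin 0 → Src}
    {w : Finset Ph} {A : Set Src} {J : ℕ}
    (hA : A ⊆ (srcs Φ ε R ∪ srcs Φ ε (S 0) : Set Src))
    (h : LawC hΦ hε L T J 1 (ND L J) (Fin.snoc S R : Fin 2 → CTree) l w A) :
    (∃ x ∈ outs (S 0) ∪ outs R,
        HasClean hΦ hε.ne' L T (T + 1) J (wS w) (ext Φ ε x) (ln Φ ε x)) ∨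
      PrgC Φ ε T 2 (ND L J) (Fin.snoc S R : Fin 2 → CTree) l w ∨
      PrgO Φ ε T 1 (ND L J) (Fin.snoc S R : Fin 2 → CTree) l w ∨
      SBad (XD hΦ L T J) ε (Fin.snoc S R : Fin 2 → CTree) l w := by
  rcases h with ⟨σ, hσ, h1⟩ | h1 | h1 | h1
  · left
    rcases hA hσ with h2 | h2
    · obtain ⟨x, hx, rfl⟩ := mem_srcs.1 (Finset.mem_coe.1 h2)
      exact ⟨x, Or.inr hx, h1⟩
    · obtain ⟨x, hx, rfl⟩ := mem_srcs.1 (Finset.mem_coe.1 h2)
      exact ⟨x, Or.inl hx, h1⟩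
  · exact Or.inr (Or.inl h1)
  · exact Or.inr (Or.inr (Or.inl h1))
  · exact Or.inr (Or.inr (Or.inr ((h1.sbad hΦ hε).mono subset_union_left)))

open Classical in
/-- **`ExcD2`**, from the law of `Drp`. -/
theorem excD2_of (h : GoodDatum f₀ κ₀) (hΦ : IsPotential Φ) (hb : 0 < b)
    (hM₀ : 0 ≤ M₀) (hf : ∀ z, f₀ z ≤ M₀ * Real.exp (-b * ‖z.2‖ ^ 2)) (hM₁ : 0 ≤ M₁)
    (hmarg : ∀ v, ∫⁻ x, ENNReal.ofReal (f₀ (x, v)) ≤
      ENNReal.ofReal (M₁ * Real.exp (-b * ‖v‖ ^ 2)))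
    (hT : 0 ≤ T) (L : ℕ) (hdrp : DrpLaw T L hΦ) : ContExc.ExcD2 hΦ f₀ L T := by
  obtain ⟨Dl, hDl, h1⟩ := XX_rel_le (c := b / 8) h hΦ hb (by positivity) (by linarith) hM₀ hf hM₁
    hmarg L (ND L) hT (X := XD hΦ L T)
    (fun J => (irrs_finite hΦ T _ 2).union (nears_finite Φ T _ 1))
    (fun J r hr => by
      rcases hr with hr | hr
      · exact irrs_small hΦ h.meas hM₁ hmarg (by linarith) hT hr
      · exact nears_small hΦ h.meas hM₁ hmarg (by linarith) hT one_lt_two hr)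
  have h2 : Tendsto (fun ε => ENNReal.ofReal (1 + 8 / b) * Dl ε) (𝓝[>] 0) (𝓝 0) := by
    have h3 := ENNReal.Tendsto.const_mul (a := ENNReal.ofReal (1 + 8 / b)) hDl
      (Or.inr ENNReal.ofReal_ne_top)
    rwa [mul_zero] at h3
  have hev : ∀ᶠ ε : ℝ in 𝓝[>] 0, ε ≤ 1 :=
    (eventually_nhdsWithin_of_eventually_nhds (eventually_le_nhds one_pos))
  intro ρ hρ
  filter_upwards [hev, (ENNReal.tendsto_nhds_zero.1 h2) (ENNReal.ofReal ρ)
    (ENNReal.ofReal_pos.2 hρ)] with ε hε1 hsm hε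
  refine le_trans ?_ hsm
  refine h1 ε hε hε1 (wq Φ ε) (measurable_wq hΦ hε) (ENNReal.ofReal (1 + 8 / b))
    ENNReal.ofReal_ne_top (fun S _ => RLn.wq_exp_le hΦ hε hb S)
    (fun U S => ind (NiceT L hΦ hε U S T) * relT Φ ε L U S (addT U S) (ext Φ ε S) T) ?_
    (fun U S => lnw Φ ε U S (ext Φ ε S))
    (fun U S R => NiceT L hΦ hε U S T ∧ DepT Φ ε L U S (addT U S) (ext Φ ε S) T R) ?_ ?_ ?_
    (fun S V R => BadD T L hΦ hε S V R) (measurableSet_BadD hΦ hε) (fun _ _ _ => False) ?_ ?_ ?_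
  · -- measurability
    have mU : MM.RS fun p : CTree × Conf Ph => ((wS (pts p.2) : Finset Src) : Set Src) :=
      rs_wS_tree
    exact (measurable_ind (measurableSet_NiceT T)).mul
      (RM.measurable_relT hΦ hε mU (rs_addT mU measurable_fst) measurable_fst
        ((measurable_ext hΦ hε.ne').comp measurable_fst) measurable_const)
  · intro U S hS _
    by_cases hN : NiceT L hΦ hε U S T
    · rw [ind_of hN, one_mul]
      unfold relT
      refine ENNReal.tsum_le_tsum fun R => ?_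
      by_cases hR : DepT Φ ε L U S (addT U S) (ext Φ ε S) T R
      · rw [if_pos hR, if_pos ⟨hN, hR⟩]
        exact le_rfl
      · rw [if_neg hR]
        exact zero_le
    · rw [ind_of_not hN, zero_mul]
      exact zero_le
  · intro U S R _ hP
    exact ⟨hP.2.alive, hP.2.ext_le⟩
  · intro U S a ha
    rw [mem_Bof]
    unfold lnw at ha
    simp only [Finset.mem_union, Finset.mem_singleton] at ha
    rcases ha with (ha | ha) | ha
    · exact Or.inl ha
    · right; left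
      obtain ⟨z, hz, rfl⟩ := mem_exl.1 ha
      exact mem_srcs.2 ⟨z, Or.inr hz, rfl⟩
    · right; left
      rw [ha]
      exact mem_srcs.2 ⟨S, Or.inl rfl, rfl⟩
  · intro U S R hS _ hP hR
    right
    refine ⟨?_, ?_, ?_⟩
    · rw [addT_rm hR]; exact hS
    · rw [addT_rm hR]; exact hP.1
    · rw [addT_rm hR]; exact hP.2
  · intro U S a _ _ _ hA
    exact hA.elim
  · intro J S R l hS hR hB
    have h3 := XT.ae_forall_notMem_wS (ε := ε) h hε.le
      (A := ((S 0).leaves ∪ R.leaves) ∪ ((srcs Φ ε (S 0) : Set Src) ∪ (srcs Φ ε R : Set Src)))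
      (((S 0).leaves_finite.union R.leaves_finite).union
        ((srcs Φ ε (S 0)).finite_toSet.union (srcs Φ ε R).finite_toSet))
    filter_upwards [h3] with w hw hbad
    have hd : Disjoint (S 0).leaves R.leaves := by
      have h5 := hB.disj (Fin.castSucc 0) (Fin.last 1) (Fin.castSucc_lt_last 0).ne
      rwa [Fin.snoc_castSucc, Fin.snoc_last] at h5
    rcases law_badD hΦ hε hT hS hR hB (fun σ hσ => hw σ (Or.inl (Or.inl hσ)))
      (fun σ hσ => hw σ (Or.inl (Or.inr hσ))) (fun σ hσ => hw σ (Or.inr (Or.inl hσ)))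
      (fun σ hσ => hw σ (Or.inr (Or.inr hσ))) hbad J with h4 | h4
    · exact lawC_out hΦ hε (Subset.refl _) h4
    · rcases hdrp ε hε S R l (pts w) hS hR hd (fun σ hσ => hw σ (Or.inl (Or.inl hσ)))
        (fun σ hσ => hw σ (Or.inl (Or.inr hσ))) (fun σ hσ => hw σ (Or.inr (Or.inr hσ))) h4 J
        with h5 | h5
      · exact lawC_out hΦ hε subset_union_left h5
      · exact Or.inr (Or.inr (Or.inr (h5.sbad.mono subset_union_right)))

theorem drpLaw (hΦ : IsPotential Φ) (L : ℕ) (T : ℝ) : DrpLaw T L hΦ := by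
  intro ε hε S R l w hS hR hd hzw hRw hRw' h J
  have hlab : ∀ {σ : Src}, σ ∈ lab (partsF (S 0)) ↔ σ ∈ (S 0).leaves := by
    intro σ
    rw [← Finset.mem_coe, lab_partsF]
  have h1 := (Fam.of_tree hΦ hε hS.1 hS.2.2).law_drp hΦ hε (RLn.slab_tree hΦ hε hS.1 l) hR.1
    hR.2.1 hR.2.2 (fun σ hσ => Set.disjoint_left.1 hd (hlab.1 hσ))
    (fun σ hσ => hzw σ (hlab.1 hσ))
    (disjoint_left.2 fun σ h4 h5 => hRw σ h4 (Finset.mem_coe.1 h5))
    (Finset.disjoint_left.2 hRw') (O := outs (S 0)) (fun x hx => ⟨outs_ok hΦ hS.1 hx,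
      fun a ha => ⟨hlab.2 (outs_leaves hx ha), fj_partsF hΦ hε hS.1 (outs_leaves hx ha)
        (outs_leaves hx x.root_mem_leaves)⟩⟩) le_rfl h J
  have h7 := RLn.szB_tree_le hS.2.1
  have h8 : szB (partsF (S 0)) [] + 2 ^ (L + 3) + 2 * Nb0 L J + 1 ≤ ND L J := by
    unfold ND
    omega
  exact h1.imp (fun h2 => h2.imp id (Or.imp (PrgC.mono le_rfl h8) (Or.imp (PrgO.mono le_rfl h8)
      (IrrO.mono le_rfl h8)))) (PrgN.mono le_rfl h8)

/-- **`ExcD2`**. -/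
theorem excD2 (h : GoodDatum f₀ κ₀) (hΦ : IsPotential Φ) (hb : 0 < b)
    (hM₀ : 0 ≤ M₀) (hf : ∀ z, f₀ z ≤ M₀ * Real.exp (-b * ‖z.2‖ ^ 2)) (hM₁ : 0 ≤ M₁)
    (hmarg : ∀ v, ∫⁻ x, ENNReal.ofReal (f₀ (x, v)) ≤
      ENNReal.ofReal (M₁ * Real.exp (-b * ‖v‖ ^ 2)))
    (hT : 0 ≤ T) (L : ℕ) : ContExc.ExcD2 hΦ f₀ L T :=
  excD2_of h hΦ hb hM₀ hf hM₁ hmarg hT L (drpLaw hΦ L T)

end Vale.Agent.P119.PB.XR
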