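import Vale.Agent.P119.PB.RelCount
import Vale.Agent.P119.PB.X

/-!
# P119, block PROB: the number of the related trees (`helper423`)

`P`: a set of trees which are alive in the world `W₂` at their exits (the trees which are related to
something).  `V`: an ordinary world with `W₂ ⊆ V ∪ B`.  Suppose that every tree `R ⊆ V` of `P` has a
particle `a` with `Alt a`, or satisfies `Bad (V ∖ R) R`, and that `Alt a` implies
`Bad (V ∖ a) (leaf a)`.  Then the weighted number of the trees of `P` is at most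
`C (1 + K) (#B + N) + (C / K) EW W₂`, where `N = NB Bad V` is the weighted number of the trees
`R ⊆ V` with `Bad (V ∖ R) R` (`tsum_rel_le`); the expectation of `N` is at most
`∫ tree(dR) wln R PP{Bad V R}` (`lintegral_NB_le`).
-/

open MeasureTheory Filter Topology Set
open scoped ENNReal NNReal

noncomputable section

namespace Vale.Agent.P119.PB

open M CTree KU FB RB AU

namespace RelX

variable {Φ : E3 → ℝ} {ε : ℝ} {L : ℕ} {f₀ : Ph → ℝ} {κ : ℝ}
  {U V W W₁ W₂ B : Finset Src} {R S T : CTree} {s t K : ℝ} {a : Src}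

/-- A possible tree which is over at the time `t`. -/
def OKt (Φ : E3 → ℝ) (ε : ℝ) (L : ℕ) (t : ℝ) (R : CTree) : Prop :=
  ok Φ ε R ∧ R.depth ≤ L ∧ ext Φ ε R ≤ t

open Classical in
/-- The weighted number of the trees `R ⊆ V` with `Bad (V ∖ R) R`. -/
def NB (Φ : E3 → ℝ) (ε : ℝ) (L : ℕ) (t : ℝ) (Bad : Finset Src → CTree → Prop) (V : Finset Src) :
    ℝ≥0∞ :=
  ∑' R : CTree, if R.leaves ⊆ (V : Set Src) then
    ind (OKt Φ ε L t R) * (wln Φ ε R * ind (Bad (rm V R) R)) else 0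

/-- The integral of a bad event over one more tree. -/
def QB (Φ : E3 → ℝ) (ε : ℝ) (L : ℕ) (f₀ : Ph → ℝ) (t : ℝ) (Bad : Finset Src → CTree → Prop) :
    ℝ≥0∞ :=
  ∫⁻ R, ind (OKt Φ ε L t R) * (wln Φ ε R * ∫⁻ c, ind (Bad (wS (GC.pts c)) R) ∂(GC.PP f₀ ε))
    ∂(tree (GC.inten f₀ ε) L)

theorem one_le_wln : 1 ≤ wln Φ ε R := by
  unfold wln
  rw [← ENNReal.ofReal_one]
  exact ENNReal.ofReal_le_ofReal (by linarith [norm_nonneg (ln Φ ε R).2])

theorem rm_leaf : rm V (leaf a) = V.erase a := by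
  ext b
  rw [mem_rm, Finset.mem_erase, and_comm]
  exact Iff.rfl

theorem okt_leaf (h : 0 ≤ a.1 ∧ a.1 ≤ t ∧ a.2.2 ≤ L) : OKt Φ ε L t (leaf a) :=
  ⟨h.1, h.2.2, h.2.1⟩

open Classical in
/-- The number of the altered particles. -/
theorem card_alt_le_NB {Bad : Finset Src → CTree → Prop} {Alt : Src → Prop}
    (hV : ∀ a ∈ V, 0 ≤ a.1 ∧ a.1 ≤ t ∧ a.2.2 ≤ L)
    (h2 : ∀ a ∈ V, Alt a → Bad (rm V (leaf a)) (leaf a)) :
    ((V.filter Alt).card : ℝ≥0∞) ≤ NB Φ ε L t Bad V := by
  set F : CTree → ℝ≥0∞ := fun R => if R.leaves ⊆ (V : Set Src) then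
    ind (OKt Φ ε L t R) * (wln Φ ε R * ind (Bad (rm V R) R)) else 0 with hF
  have h3 : ∀ a ∈ V.filter Alt, (1 : ℝ≥0∞) ≤ F (leaf a) := by
    intro a ha
    rw [Finset.mem_filter] at ha
    have h4 : (leaf a).leaves ⊆ (V : Set Src) := by
      rintro b (rfl : b = a)
      exact Finset.mem_coe.2 ha.1
    rw [hF]
    beta_reduce
    rw [if_pos h4, ind_of (okt_leaf (hV a ha.1)), ind_of (h2 a ha.1 ha.2), one_mul, mul_one]
    exact one_le_wln
  calc ((V.filter Alt).card : ℝ≥0∞) = ∑ a ∈ V.filter Alt, (1 : ℝ≥0∞) := by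
        rw [Finset.sum_const, nsmul_eq_mul, mul_one]
    _ ≤ ∑ a ∈ V.filter Alt, F (leaf a) := Finset.sum_le_sum h3
    _ ≤ ∑' a : Src, F (leaf a) := ENNReal.sum_le_tsum _
    _ ≤ ∑' R : CTree, F R := ENNReal.tsum_comp_le_tsum_of_injective
        (fun a b h => by injection h) F
    _ = NB Φ ε L t Bad V := rfl

open Classical in
/-- **The weighted number of the related trees.** -/
theorem tsum_rel_le (hΦ : IsPotential Φ) (hε : 0 < ε) (hK : 1 ≤ K) {P : CTree → Prop}
    (hP : ∀ R, P R → alive Φ ε L (W₂ : Set Src) R (ext Φ ε R) ∧ ext Φ ε R ≤ t)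
    (hW : ∀ a ∈ W₂, a ∈ V ∨ a ∈ B) (hV : ∀ a ∈ V, 0 ≤ a.1 ∧ a.1 ≤ t ∧ a.2.2 ≤ L)
    {Bad : Finset Src → CTree → Prop} {Alt : Src → Prop}
    (h1 : ∀ R, P R → R.leaves ⊆ (V : Set Src) →
      (∃ a ∈ R.leaves, Alt a) ∨ Bad (rm V R) R)
    (h2 : ∀ a ∈ V, Alt a → Bad (rm V (leaf a)) (leaf a)) :
    (∑' R : CTree, if P R then wln Φ ε R else 0) ≤
      ENNReal.ofReal ((1 + K) * 2 ^ (L + 1)) * (B.card + NB Φ ε L t Bad V) +
        (NB Φ ε L t Bad V + ENNReal.ofReal (2 * (L + 1) / K) * ENNReal.ofReal (EW W₂)) := by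
  -- the trees with a particle in `B` or altered
  set B' : Finset Src := B ∪ V.filter Alt with hB'
  obtain ⟨P1, hP1⟩ : ∃ P1 : CTree → Prop, ∀ R, P1 R ↔ (P R ∧ ∃ b ∈ B', b ∈ R.leaves) :=
    ⟨_, fun R => Iff.rfl⟩
  have key : ∀ R : CTree, (if P R then wln Φ ε R else 0) ≤ (if P1 R then wln Φ ε R else 0) +
      (if R.leaves ⊆ (V : Set Src) then
        ind (OKt Φ ε L t R) * (wln Φ ε R * ind (Bad (rm V R) R)) else 0) := by
    intro R
    by_cases hPR : P R
    swap
    · rw [if_neg hPR]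
      exact zero_le
    rw [if_pos hPR]
    by_cases h3 : P1 R
    · rw [if_pos h3]
      exact le_self_add
    · have h4 : R.leaves ⊆ (V : Set Src) := by
        intro b hb
        have h5 := (alive_pre (hP R hPR).1).sub hb
        rcases hW b (Finset.mem_coe.1 h5) with h6 | h6
        · exact Finset.mem_coe.2 h6
        · exact absurd ((hP1 R).2 ⟨hPR, b, Finset.mem_union_left _ h6, hb⟩) h3
      rcases h1 R hPR h4 with ⟨b, hb, hbA⟩ | h5
      · exact absurd ((hP1 R).2 ⟨hPR, b, Finset.mem_union_right _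
          (Finset.mem_filter.2 ⟨Finset.mem_coe.1 (h4 hb), hbA⟩), hb⟩) h3
      · have h6 := alive_pre (hP R hPR).1
        have h7 : OKt Φ ε L t R := ⟨h6.ok, h6.depth, (hP R hPR).2⟩
        rw [if_pos h4, ind_of h5, ind_of h7, one_mul, mul_one]
        exact le_add_self
  have hc : (B'.card : ℝ≥0∞) ≤ B.card + NB Φ ε L t Bad V := by
    calc (B'.card : ℝ≥0∞) ≤ ((B.card + (V.filter Alt).card : ℕ) : ℝ≥0∞) := by
          exact_mod_cast Finset.card_union_le _ _
      _ = (B.card : ℝ≥0∞) + (V.filter Alt).card := by push_cast; rfl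
      _ ≤ _ := add_le_add le_rfl (card_alt_le_NB hV h2)
  calc (∑' R : CTree, if P R then wln Φ ε R else 0)
      ≤ ∑' R : CTree, ((if P1 R then wln Φ ε R else 0) + (if R.leaves ⊆ (V : Set Src) then
        ind (OKt Φ ε L t R) * (wln Φ ε R * ind (Bad (rm V R) R)) else 0)) :=
        ENNReal.tsum_le_tsum key
    _ = (∑' R : CTree, if P1 R then wln Φ ε R else 0) + NB Φ ε L t Bad V := ENNReal.tsum_add
    _ ≤ (ENNReal.ofReal ((1 + K) * 2 ^ (L + 1)) * B'.card +
          ENNReal.ofReal (2 * (L + 1) / K) * ENNReal.ofReal (EW W₂)) + NB Φ ε L t Bad V := by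
        refine add_le_add (tsum_wln_leaf_le hΦ hε L W₂ hK B' (P := P1) (fun R hR => ?_)
          fun R hR => ((hP1 R).1 hR).2) le_rfl
        exact mem_alt.2 (hP R ((hP1 R).1 hR).1).1
    _ ≤ (ENNReal.ofReal ((1 + K) * 2 ^ (L + 1)) * (B.card + NB Φ ε L t Bad V) +
          ENNReal.ofReal (2 * (L + 1) / K) * ENNReal.ofReal (EW W₂)) + NB Φ ε L t Bad V := by
        gcongr
    _ = _ := by ring

/-! ### Expectations -/

open Classical in
/-- **Extraction of the bad tree.** -/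
theorem lintegral_NB_le (hΦ : IsPotential Φ) (h : GoodDatum f₀ κ) (hε : 0 < ε)
    {Bad : Finset Src → CTree → Prop}
    (hB : MeasurableSet {p : CTree × GC.Conf Ph | Bad (wS (GC.pts p.2)) p.1}) :
    ∫⁻ c, NB Φ ε L t Bad (wS (GC.pts c)) ∂(GC.PP f₀ ε) ≤ QB Φ ε L f₀ t Bad := by
  have hfin := GC.isFiniteMeasure_inten (ε := ε) h
  have hprob := GC.isProbability_PP (ε := ε) h
  have mo : MeasurableSet {p : CTree × GC.Conf Ph | OKt Φ ε L t p.1} := by
    have h1 : MeasurableSet {T : CTree | OKt Φ ε L t T} :=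
      (measurableSet_ok hΦ hε.ne').inter
        ((M.measurable_depth (measurableSet_Iic (a := L))).inter
          (measurableSet_le (measurable_ext hΦ hε.ne') measurable_const))
    exact measurable_fst h1
  have hm1 : Measurable fun p : CTree × GC.Conf Ph => ind (Bad (wS (GC.pts p.2)) p.1) :=
    measurable_ind hB
  have hm : Measurable fun p : CTree × GC.Conf Ph =>
      ind (OKt Φ ε L t p.1) * (wln Φ ε p.1 * ind (Bad (wS (GC.pts p.2)) p.1)) :=
    (measurable_ind mo).mul (((measurable_wln hΦ hε).comp measurable_fst).mul hm1)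
  have h1 := extract_le (Φ := Φ) (ε := ε) (L := L) (ν := GC.inten f₀ ε) (C := GC.Cx ε)
    (GC.measurableSet_Cx ε) (GC.Cx_symm ε) (GC.Cx_irrefl hε.le)
    (F := fun T w => ind (OKt Φ ε L t T) * (wln Φ ε T * ind (Bad (wS w) T))) (fun T w hne => by
      by_cases hT : OKt Φ ε L t T
      · exact ⟨hT.1, hT.2.1⟩
      · rw [ind_of_not hT, zero_mul] at hne
        exact absurd rfl hne) hm
  refine le_trans (le_of_eq ?_) (h1.trans (le_of_eq ?_))
  · refine lintegral_congr fun c => ?_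
    unfold NB
    refine tsum_congr fun T => ?_
    rw [coe_wS]
    by_cases hT : T.leaves ⊆ world (GC.pts c : Set Ph)
    · rw [if_pos hT, if_pos hT, wS_rem]
    · rw [if_neg hT, if_neg hT]
  · unfold QB
    refine lintegral_congr fun T => ?_
    have hmT : Measurable fun c : GC.Conf Ph => ind (Bad (wS (GC.pts c)) T) :=
      hm1.comp measurable_prodMk_left
    rw [← lintegral_const_mul _ hmT, ← lintegral_const_mul _ (hmT.const_mul _)]
    rfl

end RelX

end Vale.Agent.P119.PB
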