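import Vale.Agent.P119.FB.SqLines
import Vale.Agent.P119.PB.RelX

/-!
# P119, block PROB: trees related to inserted lines, classification (`helper347`)

The worlds `wF V sgl I`, `wF V sgl J` are the ordinary world `V` with the inserted lines `I`, `J ⊆ K`.

* `rel_old`: a tree `R ⊆ V` which is related to the difference has an altered particle, or
  `¬GoodK (V ∖ R) R K`;
* `alt_bad`: an altered particle `a` of `V` satisfies `¬GoodK (V ∖ a) (leaf a) K`;
* `relW_lines_le`: the weighted number of the related trees (with `RelX.tsum_rel_le` of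
  `helper423`).
-/

open MeasureTheory Filter Topology Set
open scoped ENNReal NNReal

noncomputable section

namespace Vale.Agent.P119.PB

open M CTree KU FB RB AU TL

namespace RLn

variable {Φ : E3 → ℝ} {ε : ℝ} {L : ℕ} {hΦ : IsPotential Φ} {hε : 0 < ε}
  {U V W W₁ W₂ K I J : Finset Src} {R S T : CTree} {s t : ℝ} {a : Src}

/-- **A related tree of the ordinary world**: an altered particle, or its lines interact with the
inserted lines over the rest of the world. -/
theorem rel_old (hI : I ⊆ K) (hJ : J ⊆ K) (hK : ∀ a ∈ K, a ∉ V)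
    (h : Rel L hΦ hε (wF V sgl I) (wF V sgl J) t R) (hR : R.leaves ⊆ (V : Set Src)) :
    (∃ a ∈ R.leaves, a ∈ (RB.Y Φ ε L hΦ hε).D (wF V sgl I) (wF V sgl J) t) ∨
      ¬GoodK Φ ε L (rm V R) R K t := by
  by_contra hcon
  push Not at hcon
  obtain ⟨h1, h2⟩ := hcon
  have n₂ : Nice Φ ε L (wF V sgl J) R := Nice.of_not_exp h.alive h.root
  exact h.rel (square_of_goodK hR hI hJ (fun a ha h3 => hK a ha (Finset.mem_coe.1 (hR h3)))
    h.ext_le h2 (n₂.congr hΦ hε h.ext_le h1) n₂)

theorem rsrc_leaf : rsrc Φ ε (leaf a) = a := rfl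

theorem outs_leaf : outs (leaf a) = {leaf a} := by
  unfold outs
  rw [show exs (leaf a) = (∅ : Set CTree) from rfl]
  simp

theorem srcs_leaf : srcs Φ ε (leaf a) = {a} := by
  ext b
  rw [mem_srcs, outs_leaf, Finset.mem_singleton]
  constructor
  · rintro ⟨x, hx, rfl⟩
    rw [mem_singleton_iff.1 hx]
    rfl
  · rintro rfl
    exact ⟨leaf b, rfl, rfl⟩

/-- **An altered particle of the ordinary world.** -/
theorem alt_bad (hI : I ⊆ K) (hJ : J ⊆ K) (ha : a ∈ V)
    (h : a ∈ (RB.Y Φ ε L hΦ hε).D (wF V sgl I) (wF V sgl J) t) :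
    ¬GoodK Φ ε L (rm V (leaf a)) (leaf a) K t := by
  classical
  intro hg
  have hgood := hg.good
  rw [srcs_leaf] at hgood
  have haK : a ∉ K := by
    have h1 := hg.disj
    rw [srcs_leaf] at h1
    exact Finset.disjoint_singleton_left.1 h1
  -- the index of the particle
  have key : ∀ I', I' ⊆ K → (wF V sgl I' : Set Src) =
      (wF (rm V (leaf a)) sgl ({a} ∪ I') : Set Src) := by
    intro I' _
    ext b
    rw [mem_wF_sgl', mem_wF_sgl', mem_rm, Finset.mem_union, Finset.mem_singleton]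
    constructor
    · rintro (h | h)
      · by_cases hb : b = a
        · exact Or.inr (Or.inl hb)
        · exact Or.inl ⟨h, fun h' => hb h'⟩
      · exact Or.inr (Or.inr h)
    · rintro (h | h | h)
      · exact Or.inl h.1
      · rw [h]; exact Or.inl ha
      · exact Or.inr h
  obtain ⟨s, hs, hne⟩ := h
  obtain ⟨i, hi⟩ := hgood.sta_dep hΦ hε a
  refine hne ?_
  change sta Φ ε L (wF V sgl I : Set Src) a s = sta Φ ε L (wF V sgl J : Set Src) a s
  rw [key I hI, key J hJ]
  -- the index is `a` itself: compare the worlds with and without `a`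
  have hia : i = a := by
    by_contra hia
    have h1 := hi ∅ {a} (Finset.empty_subset _) (Finset.subset_union_left)
      (by simp [hia]) s hs
    have h2 : a ∈ wF (rm V (leaf a)) sgl {a} :=
      mem_wF_sgl.2 (Or.inr (Finset.mem_singleton_self a))
    have h3 : a ∉ wF (rm V (leaf a)) sgl ∅ := by
      intro h4
      rcases mem_wF_sgl.1 h4 with h5 | h5
      · exact (mem_rm.1 h5).2 rfl
      · exact absurd h5 (Finset.notMem_empty _)
    exact sta_ne_of_mem (t := s)
      (fun h4 => h3 (Finset.mem_coe.1 (h4.2 (Finset.mem_coe.2 h2)))) h1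
  refine hi _ _ (Finset.union_subset_union_right hI) (Finset.union_subset_union_right hJ) ?_ s hs
  rw [hia]
  simp

/-- The bad event of a second tree. -/
def BadK (Φ : E3 → ℝ) (ε : ℝ) (L : ℕ) (K : Finset Src) (t : ℝ) (V : Finset Src) (R : CTree) :
    Prop := ¬GoodK Φ ε L V R K t

theorem BadK.mono_K {K' : Finset Src} (hK : K' ⊆ K) (h : BadK Φ ε L K' t V R) :
    BadK Φ ε L K t V R := fun hg => h (hg.subset hK)

/-- **The weighted number of the trees related to inserted lines.** -/
theorem relW_lines_le (hε : 0 < ε) {C : ℝ} (hC : 1 ≤ C) (hI : I ⊆ K) (hJ : J ⊆ K)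
    (hK : ∀ a ∈ K, a ∉ V) (hV : ∀ a ∈ V, 0 ≤ a.1 ∧ a.1 ≤ t ∧ a.2.2 ≤ L) :
    relW L hΦ hε (wF V sgl I) (wF V sgl J) t ≤
      ENNReal.ofReal ((1 + C) * 2 ^ (L + 1)) * (J.card + RelX.NB Φ ε L t (BadK Φ ε L K t) V) +
        (RelX.NB Φ ε L t (BadK Φ ε L K t) V +
          ENNReal.ofReal (2 * (L + 1) / C) * ENNReal.ofReal (EW (wF V sgl J))) := by
  classical
  refine le_trans (le_of_eq ?_) (RelX.tsum_rel_le hΦ hε hC (P := fun R =>
    Rel L hΦ hε (wF V sgl I) (wF V sgl J) t R) (V := V) (B := J) (W₂ := wF V sgl J)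
    (Bad := BadK Φ ε L K t)
    (Alt := fun a => a ∈ (RB.Y Φ ε L hΦ hε).D (wF V sgl I) (wF V sgl J) t)
    (fun R h => ⟨h.alive, h.ext_le⟩) (fun a ha => mem_wF_sgl.1 ha) hV
    (fun R h hR => rel_old hI hJ hK h hR) fun a ha h => alt_bad hI hJ ha h)
  unfold relW
  rfl

end RLn

end Vale.Agent.P119.PB
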