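import Vale.Agent.P119.PB.RelTreeX
import Vale.Agent.P119.PB.RelCases
import Vale.Agent.P119.PB.RLines
import Vale.Agent.P119.PB.ExcIrrs
import Vale.Agent.P119.IND.PairBase
import Vale.Agent.P119.IND.NearM
import Vale.Agent.P119.IND.NearDrp
import Vale.Agent.P119.RM.Exc2
import Vale.Agent.P119.RM.Root

/-!
# P119, block PROB, P3: the second exceptional term (`helper423`)

* `measurableSet_GoodK`;
* `pbase_tree`: the base structure of one tree;
* `law_goodK`: the failures of `GoodK` for a tree `R` and the lines of an inserted tree `S`;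
* `excE2_of`: `ExcE2` from the law of `Drp`; **`excE2`** (with `Fam.law_drp` of helper498).  The bad event of a second tree `R` over `V` is
  formulated in the world `V + R` (helper295), so that no measurability of `Drp` is needed.
-/

open MeasureTheory Filter Topology Set
open scoped ENNReal NNReal

set_option linter.unusedSectionVars false

noncomputable section

namespace Vale.Agent.P119.PB

open M CTree KU FB RB AU FL GC MM IND TL PB.CT

namespace RelX

variable {Φ : E3 → ℝ} {ε : ℝ} {L : ℕ} {f₀ : Ph → ℝ} {κ₀ b c M₀ M₁ T : ℝ}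

/-! ### Measurability -/

theorem measurableSet_GoodK {X : Type} [MeasurableSpace X] {V : X → Finset Src} {R : X → CTree}
    {K : X → Finset Src} (hΦ : IsPotential Φ) (hε : 0 < ε) (hV : MM.RS fun x => (V x : Set Src))
    (hR : Measurable R) (hK : MM.RS fun x => (K x : Set Src)) (t : ℝ) :
    MeasurableSet {x | GoodK Φ ε L (V x) (R x) (K x) t} := by
  classical
  have h1 := RM.measurableSet_inj_rsrc hΦ hε hR
  have hS := RM.rs_srcs hΦ hε hR
  have h2 : MeasurableSet {x | ∀ a ∈ (srcs Φ ε (R x) : Set Src),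
      (x, a) ∈ {p : X × Src | p.2 ∈ (K p.1 : Set Src)}ᶜ} :=
    hS.measurableSet_forall hK.measurableSet_mem.compl
  have hU : MM.RS fun x => ((srcs Φ ε (R x) ∪ K x : Finset Src) : Set Src) :=
    (hS.union hK).congr fun x => Finset.coe_union _ _
  have h3 := RM.measurableSet_MGood_sgl (L := L) hΦ hε hV hU (measurable_const (a := t))
  convert h1.inter (h2.inter h3) using 1
  ext x
  exact ⟨fun h => ⟨h.inj, fun a ha hk => Finset.disjoint_left.1 h.disj (Finset.mem_coe.1 ha)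
    (Finset.mem_coe.1 hk), h.good⟩, fun h => ⟨h.1, Finset.disjoint_left.2 fun a ha hk =>
      h.2.1 a (Finset.mem_coe.2 ha) (Finset.mem_coe.2 hk), h.2.2⟩⟩

/-! ### The law of the failures of `GoodK` -/

/-- The base structure of one tree, without injectivity. -/
theorem pbase_tree {S : CTree} (hΦ : IsPotential Φ) (hε : 0 < ε) (hS : CTree.ok Φ ε S)
    (hT : ext Φ ε S ≤ T) : PBase Φ ε T (partsF S) [] ∅ (XT.XS Φ ε S) := by
  refine ⟨Fam.of_tree hΦ hε hS hT, fun g hg => absurd hg List.not_mem_nil,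
    fun g hg => absurd hg List.not_mem_nil, fun σ hσ _ => ?_⟩
  obtain ⟨x, hx, rfl⟩ := exists_out (XT.mem_lab_partsF.1 hσ)
  refine ⟨x, isLast_of_outs hS hx, rfl, ?_, ?_⟩
  · rw [XT.XS_eq hS hx]; rfl
  · rw [XT.XS_eq hS hx]; rfl

/-- The number of labels. -/
def NK (L J : ℕ) : ℕ := 2 * 2 ^ (L + 2) + 2 ^ (L + 3) + 2 * Nb0 L J + 1

theorem disj_snoc {S : Fin 1 → CTree} {R : CTree} {l : Fin 0 → Src}
    (h : Base Φ ε (Fin.snoc S R : Fin (1 + 1) → CTree) l) : Disjoint (S 0).leaves R.leaves := by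
  have h1 := h.disj (Fin.castSucc (0 : Fin 1)) (Fin.last 1) (Fin.castSucc_lt_last 0).ne
  rwa [Fin.snoc_castSucc, Fin.snoc_last] at h1

/-- **The failures of `GoodK`** for a tree `R` and the lines of a tree `S`. -/
theorem law_goodK (hΦ : IsPotential Φ) (hε : 0 < ε) (hT : 0 ≤ T) {S : Fin 1 → CTree} {R : CTree}
    (hS : OKt Φ ε L T (S 0)) (hR : OKt Φ ε L T R) (l : Fin 0 → Src)
    (hB : Base Φ ε (Fin.snoc S R : Fin (1 + 1) → CTree) l) {w : Finset Ph}
    (h1 : ∀ σ ∈ (S 0).leaves, σ ∉ wS w) (h2 : ∀ σ ∈ R.leaves, σ ∉ wS w)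
    (h3 : ∀ σ ∈ (srcs Φ ε (S 0) : Set Src), σ ∉ wS w)
    (h4 : ∀ σ ∈ (srcs Φ ε R : Set Src), σ ∉ wS w)
    (hg : ¬GoodK Φ ε L (wS w) R (srcs Φ ε (S 0)) T) (J : ℕ) :
    LawC hΦ hε L T J 1 (NK L J) (Fin.snoc S R : Fin (1 + 1) → CTree) l w
      (srcs Φ ε R ∪ srcs Φ ε (S 0) : Finset Src) := by
  have h5 := (pbase_tree hΦ hε hS.1 hS.2.2).law_not_goodK hΦ hε hT (XT.slab_tree hΦ hε hS.1 l)
    hR.1 hR.2.1 hR.2.2 (fun σ hσ => Set.disjoint_left.1 (disj_snoc hB) (XT.mem_lab_partsF.1 hσ))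
    (fun σ hσ => h1 σ (XT.mem_lab_partsF.1 hσ))
    (Set.disjoint_left.2 fun σ hσ hw => h2 σ hσ (Finset.mem_coe.1 hw))
    (fun σ hσ _ => by
      obtain ⟨x, hx, rfl⟩ := exists_out (XT.mem_lab_partsF.1 hσ)
      rw [XT.XS_eq hS.1 hx]
      exact h3 _ (Finset.mem_coe.2 (mem_srcs.2 ⟨x, hx, rfl⟩)))
    (Finset.disjoint_left.2 fun σ hσ hw => h4 σ (Finset.mem_coe.2 hσ) hw)
    (K := srcs Φ ε (S 0))
    (fun σ hσ => by
      obtain ⟨x, hx, rfl⟩ := mem_srcs.1 hσ
      exact ⟨⟨XT.ext_nonneg_of_ok hΦ hε (outs_ok hΦ hS.1 hx), (outs_depth hx).trans hS.2.1⟩,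
        x.root, XT.mem_lab_partsF.2 (outs_leaves hx x.root_mem_leaves), notMem_empty _,
        XT.XS_eq hS.1 hx⟩)
    le_rfl hg J
  have h6 := XT.szB_tree_le (S := S 0) hS.2.1
  have h7 : szB (partsF (S 0)) [] + 2 ^ (L + 3) + 2 * Nb0 L J + 1 ≤ NK L J := by
    unfold NK
    omega
  exact h5.imp id (Or.imp (PrgC.mono le_rfl h7) (Or.imp (PrgO.mono le_rfl h7)
    (IrrO.mono le_rfl h7)))

/-! ### ExcE2 -/

/-- The event `Drp` for a second tree `R` and an inserted tree `S`. -/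
def DrE (Φ : E3 → ℝ) (ε : ℝ) (L : ℕ) (T : ℝ) (V : Finset Src) (R S : CTree) : Prop :=
  Drp Φ ε L V R (outs S) (rho Φ ε S (ext Φ ε S)) T

open Classical in
/-- The counted trees. -/
theorem relW_eq {hΦ : IsPotential Φ} {hε : 0 < ε} {W₁ W₂ : Finset Src} {t : ℝ} :
    relW L hΦ hε W₁ W₂ t = ∑' R : CTree, if Rel L hΦ hε W₁ W₂ t R then wln Φ ε R else 0 := rfl

/-- The related trees of `ExcE2`. -/
def PE2 (hΦ : IsPotential Φ) (L : ℕ) (T ε : ℝ) (U : Finset Src) (S R : CTree) : Prop :=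
  ∃ hε : 0 < ε, alT Φ ε L T U S ∧ NiceT L hΦ hε U S T ∧ Rel L hΦ hε (addT U S) U T R

theorem measurable_PE2 (hΦ : IsPotential Φ) (hε : 0 < ε) :
    Measurable fun p : CTree × Conf Ph =>
      ind (alT Φ ε L T (wS (pts p.2)) p.1) * (ind (NiceT L hΦ hε (wS (pts p.2)) p.1 T) *
        relW L hΦ hε (addT (wS (pts p.2)) p.1) (wS (pts p.2)) T) := by
  have h0 : MM.RS fun p : CTree × Conf Ph => ((wS (pts p.2) : Finset Src) : Set Src) := rs_wS_tree
  exact (measurable_ind (measurableSet_alT' hΦ hε T)).mul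
    ((measurable_ind (measurableSet_NiceT T)).mul
      (measurable_relW (rs_addT h0 measurable_fst) h0 measurable_const))

open Classical in
theorem tsum_PE2 (hΦ : IsPotential Φ) (hε : 0 < ε) (U : Finset Src) (S : CTree) :
    (∑' R : CTree, if PE2 hΦ L T ε U S R then wln Φ ε R else 0) =
      ind (alT Φ ε L T U S) * (ind (NiceT L hΦ hε U S T) *
        relW L hΦ hε (addT U S) U T) := by
  by_cases h1 : alT Φ ε L T U S ∧ NiceT L hΦ hε U S T
  · rw [ind_of h1.1, ind_of h1.2, one_mul, one_mul, relW_eq]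
    refine tsum_congr fun R => ?_
    by_cases h2 : Rel L hΦ hε (addT U S) U T R
    · rw [if_pos h2, if_pos (show PE2 hΦ L T ε U S R from ⟨hε, h1.1, h1.2, h2⟩)]
    · rw [if_neg h2, if_neg fun h3 => h2 h3.2.2.2]
  · have h2 : ind (alT Φ ε L T U S) * (ind (NiceT L hΦ hε U S T) *
        relW L hΦ hε (addT U S) U T) = 0 := by
      by_cases h3 : alT Φ ε L T U S
      · rw [ind_of_not fun h4 => h1 ⟨h3, h4⟩, zero_mul, mul_zero]
      · rw [ind_of_not h3, zero_mul]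
    rw [h2]
    refine ENNReal.tsum_eq_zero.2 fun R => if_neg fun h3 => h1 ⟨h3.2.1, h3.2.2.1⟩

theorem wF_sgl_empty (U : Finset Src) : wF U sgl ∅ = U := by
  ext a
  rw [mem_wF_sgl]
  exact ⟨fun h => h.elim id fun h' => absurd h' (Finset.notMem_empty a), Or.inl⟩

/-- The altered particles of `ExcE2`. -/
def AltE (hΦ : IsPotential Φ) (L : ℕ) (T ε : ℝ) (U : Finset Src) (S : CTree) (a : Src) : Prop :=
  ∃ hε : 0 < ε, a ∈ (RB.Y Φ ε L hΦ hε).D U (wF U sgl (srcs Φ ε S)) T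

/-- The bad event of `ExcE2`. -/
def BadE (hΦ : IsPotential Φ) (L : ℕ) (T ε : ℝ) (S : CTree) (V : Finset Src) (R : CTree) : Prop :=
  ¬GoodK Φ ε L V R (srcs Φ ε S) T ∨
    (PE2 hΦ L T ε (addT V R) S R ∧ ∀ a ∈ R.leaves, ¬AltE hΦ L T ε (addT V R) S a)

theorem measurableSet_BadE (hΦ : IsPotential Φ) (hε : 0 < ε) :
    MeasurableSet {p : (CTree × CTree) × Conf Ph |
      BadE hΦ L T ε p.1.1 (wS (pts p.2)) p.1.2} := by
  have h0 : MM.RS fun p : (CTree × CTree) × Conf Ph =>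
      ((wS (pts p.2) : Finset Src) : Set Src) := RM.rs_wS measurable_snd
  have hS : Measurable fun p : (CTree × CTree) × Conf Ph => p.1.1 :=
    measurable_fst.comp measurable_fst
  have hR : Measurable fun p : (CTree × CTree) × Conf Ph => p.1.2 :=
    measurable_snd.comp measurable_fst
  have hU := rs_addT h0 hR
  have hU2 := rs_addT hU hS
  have h1 := (measurableSet_GoodK (L := L) hΦ hε h0 hR (RM.rs_srcs hΦ hε hS) T).compl
  have h2 := measurableSet_alT (L := L) hΦ hε hU hS (measurable_const (a := T))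
  have h3 := RM.measurableSet_GoodT (L := L) hΦ hε hU hS (measurable_const (a := T))
  have h4 := RM.measurableSet_unexp' (L := L) hΦ hε hU2 (MM.meas_root hS)
    ((measurable_ext hΦ hε.ne').comp hS)
  have h5 := RM.measurableSet_Rel (hΦ := hΦ) (hε := hε) (L := L) hU2 hU
    (measurable_const (a := T)) hR
  have hW : MM.RS fun p : (CTree × CTree) × Conf Ph =>
      ((wF (addT (wS (pts p.2)) p.1.2) sgl (srcs Φ ε p.1.1) : Finset Src) : Set Src) :=
    (hU.union (RM.rs_srcs hΦ hε hS)).congr fun p => by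
      ext a
      rw [Finset.mem_coe, mem_wF_sgl]
      exact Iff.rfl
  have h6 : MeasurableSet {p : ((CTree × CTree) × Conf Ph) × Src |
      p.2 ∈ (RB.Y Φ ε L hΦ hε).D (addT (wS (pts p.1.2)) p.1.1.2)
        (wF (addT (wS (pts p.1.2)) p.1.1.2) sgl (srcs Φ ε p.1.1.1)) T} :=
    RM.measurableSet_mem_DY (hU.comp measurable_fst) (hW.comp measurable_fst) measurable_snd
      measurable_const
  have h7 := (MM.RS.leaves hR).measurableSet_forall h6.compl
  convert h1.union ((h2.inter (h3.inter (h4.inter h5))).inter h7) using 1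
  ext p
  constructor
  · rintro (h | ⟨⟨hε', ha, hn, hr⟩, h8⟩)
    · exact Or.inl h
    · exact Or.inr ⟨⟨ha, hn.good, hn.root, hr⟩, fun a h9 h10 => h8 a h9 ⟨hε, h10⟩⟩
  · rintro (h | ⟨⟨ha, hg, hn, hr⟩, h8⟩)
    · exact Or.inl h
    · exact Or.inr ⟨⟨hε, ha, ⟨hg, hn⟩, hr⟩, fun a h9 h10 => h8 a h9 h10.2⟩

theorem addT_birth {V : Finset Src} {R : CTree} (hV : ∀ a ∈ V, 0 ≤ a.1) (hR : CTree.ok Φ ε R) :
    ∀ a ∈ addT V R, 0 ≤ a.1 := by
  intro a ha
  rcases mem_addT.1 ha with h | h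
  · exact hV a h
  · exact birth_leaf hR a h

/-- **The cases** of the bad event. -/
theorem BadE.cases (hΦ : IsPotential Φ) {S R : CTree} {V : Finset Src}
    (hV : ∀ a ∈ V, 0 ≤ a.1) (hR : CTree.ok Φ ε R) (hd : Disjoint (V : Set Src) R.leaves)
    (h : BadE hΦ L T ε S V R) : ¬GoodK Φ ε L V R (srcs Φ ε S) T ∨ DrE Φ ε L T V R S := by
  rcases h with h | ⟨⟨hε, hal, hn, hrel⟩, h⟩
  · exact Or.inl h
  · have h2 : TGood Φ ε L hΦ hε (addT V R) S (addT (addT V R) S) (ext Φ ε S) T :=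
      tgood_of (addT_birth hV hR) hn.good.disj hal.alive hal.ext_le hn.root
    rcases rel_cases h2 (hn.good.lgood hΦ hε hal.ok) hrel with ⟨a, ha, h3⟩ | h3 | h3
    · rw [lnw_eq_krs, krs_ext hal.ok] at h3
      exact absurd ⟨hε, h3⟩ (h a ha)
    · rw [rm_addT hd] at h3
      exact Or.inl h3
    · rw [rm_addT hd] at h3
      exact Or.inr h3

open Classical in
/-- **The second exceptional term of P3**, from the law of `Drp`. -/
theorem excE2_of (h : GoodDatum f₀ κ₀) (hΦ : IsPotential Φ) (hb : 0 < b) (hM₀ : 0 ≤ M₀)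
    (hf : ∀ z, f₀ z ≤ M₀ * Real.exp (-b * ‖z.2‖ ^ 2)) (hM₁ : 0 ≤ M₁)
    (hmarg : ∀ v, ∫⁻ x, ENNReal.ofReal (f₀ (x, v)) ≤
      ENNReal.ofReal (M₁ * Real.exp (-b * ‖v‖ ^ 2)))
    (hT : 0 ≤ T) (L : ℕ) (ND : ℕ → ℕ)
    (hD : ∀ J, ∀ (ε : ℝ) (hε : 0 < ε), ε ≤ 1 → ∀ (S : Fin 1 → CTree) (R : CTree)
      (l : Fin 0 → Src), OKt Φ ε L T (S 0) → OKt Φ ε L T R →
      Base Φ ε (Fin.snoc S R : Fin (1 + 1) → CTree) l → ∀ w : Finset Ph,
      (∀ σ ∈ (S 0).leaves, σ ∉ wS w) → (∀ σ ∈ R.leaves, σ ∉ wS w) →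
      (∀ σ ∈ (srcs Φ ε (S 0) : Set Src), σ ∉ wS w) →
      (∀ σ ∈ (srcs Φ ε R : Set Src), σ ∉ wS w) → InjOn (rsrc Φ ε) (outs R) →
      DrE Φ ε L T (wS w) R (S 0) →
      LawC hΦ hε L T J 1 (ND J) (Fin.snoc S R : Fin (1 + 1) → CTree) l w (srcs Φ ε R) ∨
        PrgN Φ ε T 1 (ND J) (Fin.snoc S R : Fin (1 + 1) → CTree) l w) :
    ExcE2 hΦ f₀ L T := by
  have hX : XT.IrrFam Φ f₀ T b (b / 4) 2 fun N => irrs hΦ T N 2 :=
    XT.irrFam_irrs hΦ h.meas hM₁ hmarg (by linarith) hT 2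
  obtain ⟨Dl, hDl, h1⟩ := rel_tree_le (L := L) (nB := 0) (N := fun J => max (NK L J) (ND J))
    (X := fun J => irrs hΦ T (max (NK L J) (ND J)) 2 ∪ nears Φ T (max (NK L J) (ND J)) 1)
    (g := fun ε S => wln Φ ε S) (c := b / 8) h hΦ hb (by positivity) (by linarith) hM₀ hf hM₁ hmarg
    hT (fun J => (hX.fin _).union (nears_finite _ _ _ _))
    (fun J r hr => by
      rw [show b / 8 + b / 8 = b / 4 by ring]
      rcases hr with hr | hr
      · exact hX.small _ r hr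
      · exact nears_small hΦ h.meas hM₁ hmarg (by linarith) hT one_lt_two hr)
    (CW := ENNReal.ofReal (2 * (1 + 1 / (b / 8)))) ENNReal.ofReal_ne_top
    (fun _ hε => measurable_wln hΦ hε)
    (fun ε hε S _ => XT.wln_le_exp hΦ hε (by positivity) S)
    (P := PE2 hΦ L T) (W₂ := fun _ U _ => U) (B := fun _ _ => ∅)
    (fun ε hε => by
      have e : (fun p : CTree × Conf Ph => ∑' R : CTree,
          if PE2 hΦ L T ε (wS (pts p.2)) p.1 R then wln Φ ε R else 0) = fun p =>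
          ind (alT Φ ε L T (wS (pts p.2)) p.1) * (ind (NiceT L hΦ hε (wS (pts p.2)) p.1 T) *
            relW L hΦ hε (addT (wS (pts p.2)) p.1) (wS (pts p.2)) T) :=
        funext fun p => tsum_PE2 hΦ hε _ _
      rw [e]
      exact measurable_PE2 hΦ hε)
    (fun ε hε U S R _ hR => ⟨hR.2.2.2.alive, hR.2.2.2.ext_le⟩)
    (fun ε hε U S a ha => Or.inl ha)
    (fun ε hε S _ => by simp [EW])
    (fun ε hε U S R hR => hR.2.2.1.good.disj.symm)
    (Bad := fun ε S V R => BadE hΦ L T ε S V R)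
    (fun ε hε => measurableSet_BadE hΦ hε)
    (Alt := fun ε U S a => AltE hΦ L T ε U S a)
    (fun ε hε w S R hS _ hR hsub => by
      by_cases h2 : ∃ a ∈ R.leaves, AltE hΦ L T ε (wS (pts w)) S a
      · exact Or.inl h2
      · push Not at h2
        refine Or.inr (Or.inr ?_)
        rw [addT_rm hsub]
        exact ⟨hR, h2⟩)
    (fun ε hε w S hS _ a ha hA => by
      obtain ⟨hε', hA⟩ := hA
      exact Or.inl (RLn.alt_bad (hΦ := hΦ) (hε := hε) (Finset.empty_subset _) subset_rfl ha (by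
        rw [wF_sgl_empty]
        exact hA)))
    (fun J ε hε hε1 S R l hS _ hR hB => by
      filter_upwards [XT.ae_forall_notMem_wS h hε.le (S 0).leaves_finite,
        XT.ae_forall_notMem_wS h hε.le R.leaves_finite,
        XT.ae_forall_notMem_wS h hε.le (srcs Φ ε (S 0)).finite_toSet,
        XT.ae_forall_notMem_wS h hε.le (srcs Φ ε R).finite_toSet] with w w1 w2 w3 w4 hbad
      have hbad' := hbad.cases hΦ wS_birth3 hR.1
        (Set.disjoint_left.2 fun a ha ha' => w2 a ha' (Finset.mem_coe.1 ha))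
      have key : LawC hΦ hε L T J 1 (max (NK L J) (ND J))
          (Fin.snoc S R : Fin (1 + 1) → CTree) l (pts w)
          (srcs Φ ε R ∪ srcs Φ ε (S 0) : Finset Src) ∨
          PrgN Φ ε T 1 (max (NK L J) (ND J)) (Fin.snoc S R : Fin (1 + 1) → CTree) l (pts w) := by
        by_cases hg : GoodK Φ ε L (wS (pts w)) R (srcs Φ ε (S 0)) T
        · rcases hD J ε hε hε1 S R l hS hR hB (pts w) w1 w2 w3 w4 hg.inj
            (hbad'.resolve_left (not_not.2 hg)) with h3 | h3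
          · refine Or.inl ?_
            rcases h3 with ⟨σ, hσ, h4⟩ | h4 | h4 | h4
            · exact Or.inl ⟨σ, Finset.mem_coe.2 (Finset.mem_union_left _ (Finset.mem_coe.1 hσ)),
                h4⟩
            · exact Or.inr (Or.inl (h4.mono le_rfl (le_max_right _ _)))
            · exact Or.inr (Or.inr (Or.inl (h4.mono le_rfl (le_max_right _ _))))
            · exact Or.inr (Or.inr (Or.inr (h4.mono le_rfl (le_max_right _ _))))
          · exact Or.inr (h3.mono le_rfl (le_max_right _ _))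
        · rcases law_goodK hΦ hε hT hS hR l hB w1 w2 w3 w4 hg J with h4 | h4 | h4 | h4
          · exact Or.inl (Or.inl h4)
          · exact Or.inl (Or.inr (Or.inl (h4.mono le_rfl (le_max_left _ _))))
          · exact Or.inl (Or.inr (Or.inr (Or.inl (h4.mono le_rfl (le_max_left _ _)))))
          · exact Or.inl (Or.inr (Or.inr (Or.inr (h4.mono le_rfl (le_max_left _ _)))))
      rcases key with (⟨σ, hσ, h4⟩ | h4 | h4 | h4) | h4
      · left
        rcases Finset.mem_union.1 (Finset.mem_coe.1 hσ) with h5 | h5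
        · obtain ⟨x, hx, rfl⟩ := mem_srcs.1 h5
          exact ⟨x, Or.inr hx, h4⟩
        · obtain ⟨x, hx, rfl⟩ := mem_srcs.1 h5
          exact ⟨x, Or.inl hx, h4⟩
      · exact Or.inr (Or.inl h4)
      · exact Or.inr (Or.inr (Or.inl h4))
      · exact Or.inr (Or.inr (Or.inr ((hX.sbad _ ε hε _ l _ h4).mono subset_union_left)))
      · exact Or.inr (Or.inr (Or.inr (h4.sbad.mono subset_union_right))))
  intro ρ hρ
  have hev : ∀ᶠ ε : ℝ in 𝓝[>] 0, ε ≤ 1 :=
    (eventually_nhdsWithin_of_eventually_nhds (eventually_le_nhds one_pos))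
  filter_upwards [hDl.eventually (ge_mem_nhds (ENNReal.ofReal_pos.2 hρ)), hev] with ε h2 h3 hε
  refine le_trans (mul_le_mul_right (mul_le_mul_right (XX_mono fun U S hS => ?_) _) _)
    ((h1 ε hε h3).trans h2)
  rw [tsum_PE2 hΦ hε, ind_of hS, one_mul]

/-- **The second exceptional term of P3.** -/
theorem excE2 (h : GoodDatum f₀ κ₀) (hΦ : IsPotential Φ) (hb : 0 < b) (hM₀ : 0 ≤ M₀)
    (hf : ∀ z, f₀ z ≤ M₀ * Real.exp (-b * ‖z.2‖ ^ 2)) (hM₁ : 0 ≤ M₁)
    (hmarg : ∀ v, ∫⁻ x, ENNReal.ofReal (f₀ (x, v)) ≤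
      ENNReal.ofReal (M₁ * Real.exp (-b * ‖v‖ ^ 2)))
    (hT : 0 ≤ T) (L : ℕ) : ExcE2 hΦ f₀ L T := by
  refine excE2_of h hΦ hb hM₀ hf hM₁ hmarg hT L (NK L)
    fun J ε hε _ S R l hS hR hB w w1 w2 w3 w4 _ hD => ?_
  have h6 := XT.szB_tree_le (S := S 0) hS.2.1
  have h7 : szB (partsF (S 0)) [] + 2 ^ (L + 3) + 2 * Nb0 L J + 1 ≤ NK L J := by
    unfold NK
    omega
  have h8 := Fam.law_drp (L := L) (T := T) (t := T) (T₀ := S) (l := l) (w := w)
    (O := outs (S 0)) (r := rho Φ ε (S 0) (ext Φ ε (S 0))) hΦ hε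
    (Fam.of_tree hΦ hε hS.1 hS.2.2) (XT.slab_tree hΦ hε hS.1 l) hR.1 hR.2.1 hR.2.2
    (fun σ hσ => Set.disjoint_left.1 (disj_snoc hB) (XT.mem_lab_partsF.1 hσ))
    (fun σ hσ => w1 σ (XT.mem_lab_partsF.1 hσ))
    (Set.disjoint_left.2 fun σ hσ hw => w2 σ hσ (Finset.mem_coe.1 hw))
    (Finset.disjoint_left.2 fun σ hσ hw => w4 σ (Finset.mem_coe.2 hσ) hw)
    (fun x hx => ⟨outs_ok hΦ hS.1 hx, fun a ha => ⟨XT.mem_lab_partsF.2 (outs_leaves hx ha),
      fj_partsF hΦ hε hS.1 (outs_leaves hx ha) (outs_leaves hx x.root_mem_leaves)⟩⟩)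
    le_rfl hD J
  exact h8.imp (fun h' => h'.mono_N h7) fun h' => h'.mono le_rfl h7

end RelX

end Vale.Agent.P119.PB
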