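import Vale.Agent.P119.PB.IrrLim
import Vale.Agent.P119.PB.Exc5R

/-!
# P119, block PROB: `ExcIrr` (`helper758`)

The row `ExcIrr` of the exceptional terms, from `irr_small`.
-/

open MeasureTheory Set Filter Topology
open scoped ENNReal

namespace Vale.Agent.P119.PB

open KU

/-- **Irregular first contact of a Gaussian line**: the input `ExcIrr` of `exc5_of`. -/
theorem excIrr {Φ : E3 → ℝ} (hΦ : IsPotential Φ) {f₀ : Ph → ℝ} {κ : ℝ} (hg : GoodDatum f₀ κ)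
    {b₀ T M₀ β : ℝ} (hb₀ : 0 < b₀) (hT : 0 < T) (hM : 0 ≤ M₀)
    (hf : ∀ z, f₀ z ≤ M₀ * Real.exp (-b₀ * ‖z.2‖ ^ 2))
    (hx : ∀ v : E3, ∫⁻ x : E3, ENNReal.ofReal (f₀ (x, v)) ≤
      ENNReal.ofReal (M₀ * Real.exp (-b₀ * ‖v‖ ^ 2)))
    (hβ : 0 < β) (L : ℕ) : ExcIrr Φ f₀ L T β := by
  intro ρ hρ
  have hmom : ∀ k : ℕ, ∫⁻ z, ML.pw k z.2 ∂(law f₀) ≠ ∞ :=
    ML.lintegral_pw_law_ne_top hg.meas hb₀ hx
  filter_upwards [irr_small hΦ hg hb₀ hT hM hf hmom L hβ hρ] with ε h s _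
  exact h T le_rfl s 0

end Vale.Agent.P119.PB
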