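import Vale.Agent.P119.PB.ExcOne

/-!
# P119, block PROB: exceptional events of one real colliding pair (`helper667`)

* `prgO_of_slab`: the program of a base structure (`SLab` of `helper810`);
* `fam_pr`, `slab_pair`: the base structure of a colliding pair, with the ghost of its collision;
* `tendsto_XP`: **the limit of the exceptional events of one colliding pair**.
-/

open MeasureTheory Filter Topology Set
open scoped ENNReal NNReal

noncomputable section

namespace Vale.Agent.P119.PB.XT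

open M CTree KU FL FB RB AU TL GC IND

variable {Φ : E3 → ℝ} {ε T : ℝ} {L : ℕ} {f₀ : Ph → ℝ} {κ₀ b c M₀ M₁ : ℝ}

/-! ### The program of a base structure -/

/-- **The program of a base structure.** -/
theorem prgO_of_slab (hΦ : IsPotential Φ) (hε : 0 < ε) {F₀ : Finset CTree} {G₀ : List Gh}
    (h : IND.Fam Φ ε T F₀ G₀) {m q c₀ : ℕ} {T₀ : Fin m → CTree} {l : Fin q → Src}
    {R₀ : Finset Src} (hl : SLab T₀ l F₀ G₀ c₀ R₀) (w : Finset Ph) :
    PrgO Φ ε T c₀ (szB F₀ G₀) T₀ l w := by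
  have hB : SBase Φ ε T F₀ G₀ univ id := by
    refine ⟨h, fun g _ => mem_univ _, fun g _ hg => absurd (mem_univ _) hg,
      fun σ _ hσ => absurd (mem_univ _) hσ, ?_⟩
    rintro σ ⟨-, hσ⟩
    exact absurd (mem_univ _) hσ
  obtain ⟨κ, i1, i2, z, x, D, Q, R, h1, h2, h3, h4, -⟩ := hB.exists_base hΦ hε hl
  obtain ⟨R', h5, h6, h7⟩ := exists_trans (jn_equivalence Q) R h2.cov
  refine PrgO.of_fintype (ι := κ) (z := z) (P := Q.map Prod.fst) (Rs := R') (by omega)
    (by rw [List.length_map]; omega) ⟨h1.inj, fun i => ?_, h3.trees, h3.lines⟩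
    ⟨fun i => ?_, fun r hr r' hr' hj => h7 r hr r' hr' ((jn_pl T Q).1 hj)⟩
    ((Finset.card_le_card h5).trans h2.card) (fun i hi => h2.ord i (h5 hi))
    (h1.run.run hΦ hε h1.nonneg)
  · rcases h3.mem i with h8 | h8
    · exact Or.inl h8
    · exact Or.inr (Or.inl h8)
  · obtain ⟨r, hr, hj⟩ := h6 i
    exact ⟨r, hr, (jn_pl T Q).2 hj⟩

/-! ### The base structure of a colliding pair -/

/-- The ghost of the collision of the pair. -/
def ghP (Φ : E3 → ℝ) (ε : ℝ) (x y : CTree) : List Gh := [(x, y, sig Φ ε (node x y))]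

open Classical in
/-- The histories of the pair before its collision. -/
def famP (x y : CTree) : Finset CTree := partsF x ∪ partsF y

theorem mem_lab_famP {x y : CTree} {σ : Src} : σ ∈ lab (famP x y) ↔ σ ∈ (node x y).leaves := by
  classical
  unfold famP
  rw [mem_lab_union, mem_lab_partsF, mem_lab_partsF]
  rfl

theorem slab_pair (hΦ : IsPotential Φ) (hε : 0 < ε) {S : Fin 1 → CTree} {x y : CTree}
    (e : S 0 = node x y) (hS : CTree.ok Φ ε (node x y)) (l : Fin 0 → Src) :
    SLab S l (famP x y) (ghP Φ ε x y) 1 {x.root} := by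
  classical
  have h1 := (fam_pair hΦ hε hS le_rfl).2.1
  have h2 : x.root ∈ lab (famP x y) := mem_lab_famP.2 (Or.inl x.root_mem_leaves)
  refine ⟨fun σ hσ => Or.inl ⟨0, by rw [e]; exact mem_lab_famP.1 hσ⟩, fun j σ hσ => ?_,
    fun j => j.elim0, fun r hr => ?_, fun σ hσ => ⟨_, Finset.mem_singleton_self _, ?_⟩,
    le_of_eq (Finset.card_singleton _), fun r _ => fun ⟨j, _⟩ => j.elim0⟩
  · rw [Fin.fin_one_eq_zero j, e] at hσ
    exact Finset.mem_coe.2 (mem_lab_famP.2 hσ)
  · rw [Finset.mem_singleton.1 hr]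
    exact h2
  · exact h1 σ hσ x.root h2

theorem szB_pair_le {x y : CTree} (hd : (node x y).depth ≤ L) :
    szB (famP x y) (ghP Φ ε x y) ≤ 5 * 2 ^ (L + 2) := by
  classical
  have hdx : x.depth ≤ L := by
    have : (node x y).depth = max x.depth y.depth + 1 := rfl
    omega
  have hdy : y.depth ≤ L := by
    have : (node x y).depth = max x.depth y.depth + 1 := rfl
    omega
  unfold szB
  have h1 := card_lab_le (famP x y)
  have h2 := card_nl_le (famP x y)
  have h3 : (famP x y).card ≤ (partsF x).card + (partsF y).card := Finset.card_union_le _ _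
  have h4 := card_partsF_le hdx
  have h5 := card_partsF_le hdy
  have h6 : (ghP Φ ε x y).length = 1 := rfl
  have h7 : 1 ≤ 2 ^ (L + 2) := Nat.one_le_two_pow
  omega

/-- The program of the base structure of a pair. -/
theorem prgO_pair (hΦ : IsPotential Φ) (hε : 0 < ε) {S : Fin 1 → CTree} {x y : CTree}
    (e : S 0 = node x y) (hS : CTree.ok Φ ε (node x y)) (hd : (node x y).depth ≤ L)
    (hT : sig Φ ε (node x y) ≤ T) (l : Fin 0 → Src) (w : Finset Ph) :
    PrgO Φ ε T 1 (5 * 2 ^ (L + 2)) S l w := by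
  classical
  have h1 : IND.Fam Φ ε T (famP x y) (ghP Φ ε x y) := by
    have h2 := (fam_pair hΦ hε hS hT).1
    unfold famP ghP
    convert h2 using 1
  exact (prgO_of_slab hΦ hε h1 (slab_pair hΦ hε e hS l) w).mono le_rfl (szB_pair_le hd)

/-! ### The law of one colliding pair -/

section Lim

variable {g : ℝ → CTree → CTree → ℝ≥0∞} {CW : ℝ≥0∞}
  {bad : ℝ → Finset Src → CTree → CTree → Prop} {N : ℕ → ℕ} {X : ℕ → Set Rln}

/-- The lines of the particles of a pair, with their births. -/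
def AlnP (Φ : E3 → ℝ) (ε : ℝ) : CTree → Finset (ℝ × Ph)
  | leaf _ => ∅
  | node x y => by
    classical
    exact Aln Φ ε x ∪ Aln Φ ε y

theorem mem_AlnP {x y : CTree} {σ : ℝ × Ph} :
    σ ∈ AlnP Φ ε (node x y) ↔ ∃ z ∈ outs x ∪ outs y, σ = (ext Φ ε z, ln Φ ε z) := by
  classical
  change σ ∈ Aln Φ ε x ∪ Aln Φ ε y ↔ _
  rw [Finset.mem_union, mem_Aln, mem_Aln]
  constructor
  · rintro (⟨z, hz, h⟩ | ⟨z, hz, h⟩)
    · exact ⟨z, Or.inl hz, h⟩
    · exact ⟨z, Or.inr hz, h⟩
  · rintro ⟨z, hz | hz, h⟩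
    · exact Or.inl ⟨z, hz, h⟩
    · exact Or.inr ⟨z, hz, h⟩

theorem card_AlnP_le {x y : CTree} (hd : (node x y).depth ≤ L) :
    (AlnP Φ ε (node x y)).card ≤ 2 * 2 ^ (L + 2) := by
  classical
  have hdx : x.depth ≤ L := by
    have : (node x y).depth = max x.depth y.depth + 1 := rfl
    omega
  have hdy : y.depth ≤ L := by
    have : (node x y).depth = max x.depth y.depth + 1 := rfl
    omega
  have h1 : (AlnP Φ ε (node x y)).card ≤ (Aln Φ ε x).card + (Aln Φ ε y).card :=
    Finset.card_union_le _ _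
  have h2 := card_Aln_le (Φ := Φ) (ε := ε) hdx
  have h3 := card_Aln_le (Φ := Φ) (ε := ε) hdy
  omega

/-- The weight of one pair. -/
def WtP (Φ : E3 → ℝ) (ε T : ℝ) (L : ℕ) (g : CTree → CTree → ℝ≥0∞) (S : CTree) : ℝ≥0∞ :=
  onN (fun x y => ind (CTree.ok Φ ε (node x y) ∧ (node x y).depth ≤ L ∧
    sig Φ ε (node x y) ≤ T) * g x y) S

theorem measurable_WtP (hΦ : IsPotential Φ) (hε : 0 < ε) {g : CTree → CTree → ℝ≥0∞}
    (hg : Measurable fun p : CTree × CTree => g p.1 p.2) : Measurable (WtP Φ ε T L g) := by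
  unfold WtP
  refine measurable_onN (X := CTree) (F := fun _ x y => ind (CTree.ok Φ ε (node x y) ∧
    (node x y).depth ≤ L ∧ sig Φ ε (node x y) ≤ T) * g x y) (T := id) ?_ measurable_id
  have hn : Measurable fun p : CTree × CTree × CTree => node p.2.1 p.2.2 :=
    measurable_node.comp measurable_snd
  refine (measurable_ind ?_).mul (hg.comp measurable_snd)
  exact (hn (measurableSet_ok hΦ hε.ne')).inter (((measurable_depth.comp hn) measurableSet_Iic).inter
    (measurableSet_le ((measurable_sig hΦ hε.ne').comp hn) measurable_const))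

theorem WtP_ne_zero {g : CTree → CTree → ℝ≥0∞} {S : CTree} (h : WtP Φ ε T L g S ≠ 0) :
    ∃ x y, S = node x y ∧ CTree.ok Φ ε (node x y) ∧ (node x y).depth ≤ L ∧
      sig Φ ε (node x y) ≤ T := by
  cases S with
  | leaf a => exact absurd rfl h
  | node x y =>
    refine ⟨x, y, rfl, ?_⟩
    by_contra hcon
    unfold WtP at h
    rw [onN_node, ind_of_not hcon, zero_mul] at h
    exact h rfl

theorem outs_pair_le (hΦ : IsPotential Φ) (hε : 0 < ε) {x y z : CTree}
    (hS : CTree.ok Φ ε (node x y)) (hz : z ∈ outs x ∪ outs y) :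
    CTree.ok Φ ε z ∧ ext Φ ε z < sig Φ ε (node x y) ∧ ‖(ln Φ ε z).2‖ ^ 2 ≤ enT (node x y) := by
  have hxe : enT x ≤ enT (node x y) := enT_sub (Sub.left y (Sub.refl x))
  have hye : enT y ≤ enT (node x y) := enT_sub (Sub.right x (Sub.refl y))
  rcases hz with hz | hz
  · exact ⟨outs_ok hΦ hS.1 hz, (ext_outs_le hΦ hε hS.1 hz).trans_lt hS.2.2.2.2.2.1,
      (ln_sq_le_enT_outs hΦ hε.ne' hz).trans hxe⟩
  · exact ⟨outs_ok hΦ hS.2.1 hz, (ext_outs_le hΦ hε hS.2.1 hz).trans_lt hS.2.2.2.2.2.2,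
      (ln_sq_le_enT_outs hΦ hε.ne' hz).trans hye⟩

theorem measurableSet_onNode {X : Type*} [MeasurableSpace X] {p : X → CTree → CTree → Prop}
    (hp : MeasurableSet {q : X × CTree × CTree | p q.1 q.2.1 q.2.2}) {T : X → CTree}
    (hT : Measurable T) : MeasurableSet {q | ∃ x y, T q = node x y ∧ p q x y} := by
  have h1 : Measurable fun q => onN (fun x y => ind (p q x y)) (T q) :=
    measurable_onN (F := fun q x y => ind (p q x y)) (measurable_ind hp) hT
  have e : {q | ∃ x y, T q = node x y ∧ p q x y} =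
      (fun q => onN (fun x y => ind (p q x y)) (T q)) ⁻¹' {1} := by
    ext q
    rw [mem_preimage, mem_singleton_iff]
    constructor
    · rintro ⟨x, y, h2, h3⟩
      simp only [h2, onN_node]
      exact ind_of h3
    · intro h2
      cases h3 : T q with
      | leaf a =>
        rw [h3, onN_leaf] at h2
        exact absurd h2.symm one_ne_zero
      | node x y =>
        refine ⟨x, y, h3, ?_⟩
        by_contra hcon
        rw [h3, onN_node, ind_of_not hcon] at h2
        exact absurd h2.symm one_ne_zero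
  rw [e]
  exact h1 (measurableSet_singleton 1)

/-- **The exceptional events of one colliding pair.** -/
theorem tendsto_XP (h : GoodDatum f₀ κ₀) (hΦ : IsPotential Φ) (hb : 0 < b) (hc : 0 ≤ c)
    (hcb : c + b / 4 < b) (hM₀ : 0 ≤ M₀) (hf : ∀ z, f₀ z ≤ M₀ * Real.exp (-b * ‖z.2‖ ^ 2))
    (hM₁ : 0 ≤ M₁)
    (hmarg : ∀ v, ∫⁻ x, ENNReal.ofReal (f₀ (x, v)) ≤
      ENNReal.ofReal (M₁ * Real.exp (-b * ‖v‖ ^ 2)))
    (hT : 0 ≤ T) (hX : ∀ J, (X J).Finite) (hXs : ∀ J, ∀ r ∈ X J, r.Small f₀ b c 1)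
    (hCW : CW ≠ ∞) (hg : ∀ ε, 0 < ε → Measurable fun p : CTree × CTree => g ε p.1 p.2)
    (hgb : ∀ ε, 0 < ε → ∀ x y, CTree.ok Φ ε (node x y) →
      g ε x y ≤ CW * ENNReal.ofReal (Real.exp (c * enT (node x y))))
    (hbm : ∀ ε, 0 < ε → MeasurableSet {p : (CTree × CTree) × Conf Ph |
      bad ε (wS (pts p.2)) p.1.1 p.1.2})
    (hbad : ∀ J, ∀ (ε : ℝ) (hε : 0 < ε), ε ≤ 1 → ∀ (S : Fin 1 → CTree) (x y : CTree),
      S 0 = node x y → CTree.ok Φ ε (node x y) → (node x y).depth ≤ L →
      sig Φ ε (node x y) ≤ T → ∀ l : Fin 0 → Src, ∀ᵐ w ∂(PP f₀ ε),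
      coT Φ ε L T (wS (pts w)) x y → bad ε (wS (pts w)) x y →
      (∃ z ∈ outs x ∪ outs y,
        HasClean hΦ hε.ne' L T (T + 1) J (wS (pts w)) (ext Φ ε z) (ln Φ ε z)) ∨
        PrgC Φ ε T 1 (N J) S l (pts w) ∨ SBad (X J) ε S l (pts w)) :
    Tendsto (fun ε => (muE ε)⁻¹ * XP Φ ε L f₀ T (fun U x y => g ε x y * ind (bad ε U x y)))
      (𝓝[>] 0) (𝓝 0) := by
  obtain ⟨Dl, hDl, h1⟩ := exc_lim_prog h hΦ hb hc hcb hM₀ hf hM₁ hmarg 1 0 L (2 * 2 ^ (L + 2)) 1
    (5 * 2 ^ (L + 2)) one_pos N hT hX hXs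
  have h2 : Tendsto (fun ε => CW * Dl ε) (𝓝[>] 0) (𝓝 0) := by
    have h3 := ENNReal.Tendsto.const_mul (a := CW) hDl (Or.inr hCW)
    rwa [mul_zero] at h3
  have hev : ∀ᶠ ε : ℝ in 𝓝[>] 0, ε ≤ 1 :=
    (eventually_nhdsWithin_of_eventually_nhds (eventually_le_nhds one_pos))
  refine tendsto_of_tendsto_of_tendsto_of_le_of_le' tendsto_const_nhds h2
    (Eventually.of_forall fun _ => zero_le) ?_
  filter_upwards [self_mem_nhdsWithin, hev] with ε hε hε1
  rw [mem_Ioi] at hε
  have hfin : IsFiniteMeasure (inten f₀ ε) := isFiniteMeasure_inten h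
  have hprob := isProbability_PP (ε := ε) h
  -- the measurability
  have hH : Measurable fun p : (CTree × CTree) × Conf Ph =>
      g ε p.1.1 p.1.2 * ind (bad ε (wS (pts p.2)) p.1.1 p.1.2) :=
    ((hg ε hε).comp measurable_fst).mul (measurable_ind (hbm ε hε))
  have hm := measurable_XPi (L := L) hΦ hε
    (H := fun U x y => g ε x y * ind (bad ε U x y)) hH T
  have hbm' : MeasurableSet {p : CTree × Conf Ph | ∃ x y, p.1 = node x y ∧
      (coT Φ ε L T (wS (pts p.2)) x y ∧ bad ε (wS (pts p.2)) x y)} := by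
    refine measurableSet_onNode (p := fun (q : CTree × Conf Ph) x y =>
      coT Φ ε L T (wS (pts q.2)) x y ∧ bad ε (wS (pts q.2)) x y) ?_ measurable_fst
    have h3 : MM.RS fun p : (CTree × Conf Ph) × CTree × CTree => (wS (pts p.1.2) : Set Src) :=
      RM.rs_wS (measurable_snd.comp measurable_fst)
    have h4 : Measurable fun p : (CTree × Conf Ph) × CTree × CTree =>
        (((p.2.1, p.2.2), p.1.2) : (CTree × CTree) × Conf Ph) :=
      measurable_snd.prodMk (measurable_snd.comp measurable_fst)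
    exact (measurableSet_coT hΦ hε h3 (measurable_fst.comp measurable_snd)
      (measurable_snd.comp measurable_snd) measurable_const).inter (h4 (hbm ε hε))
  -- the exchange of the integrals
  have h4 : XP Φ ε L f₀ T (fun U x y => g ε x y * ind (bad ε U x y)) =
      ∫⁻ S, WtP Φ ε T L (g ε) S * (PP f₀ ε) {w | ∃ x y, S = node x y ∧
        (coT Φ ε L T (wS (pts w)) x y ∧ bad ε (wS (pts w)) x y)}
        ∂(tree (inten f₀ ε) L) := by
    unfold XP
    rw [← lintegral_lintegral_swap hm.aemeasurable]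
    refine lintegral_congr fun S => ?_
    have h5 : MeasurableSet {w : Conf Ph | ∃ x y, S = node x y ∧
        (coT Φ ε L T (wS (pts w)) x y ∧ bad ε (wS (pts w)) x y)} :=
      (measurable_const.prodMk measurable_id : Measurable fun w : Conf Ph => (S, w)) hbm'
    rw [← lintegral_indicator_one h5, ← lintegral_const_mul _ (measurable_one.indicator h5)]
    refine lintegral_congr fun w => ?_
    beta_reduce
    cases S with
    | leaf a =>
      rw [onN_leaf]
      unfold WtP
      rw [onN_leaf, zero_mul]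
    | node x y =>
      rw [onN_node]
      have e1 : (w ∈ {w : Conf Ph | ∃ x' y', node x y = node x' y' ∧
          (coT Φ ε L T (wS (pts w)) x' y' ∧ bad ε (wS (pts w)) x' y')}) ↔
          (coT Φ ε L T (wS (pts w)) x y ∧ bad ε (wS (pts w)) x y) := by
        constructor
        · rintro ⟨x', y', he, h6⟩
          injection he with h7 h8
          subst h7 h8
          exact h6
        · exact fun h6 => ⟨x, y, rfl, h6⟩
      by_cases h6 : coT Φ ε L T (wS (pts w)) x y
      · by_cases h7 : bad ε (wS (pts w)) x y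
        · rw [indicator_of_mem (e1.2 ⟨h6, h7⟩)]
          unfold WtP
          rw [onN_node, ind_of h6, ind_of h7, ind_of ⟨h6.ok, h6.depth, h6.sig_le⟩]
          simp
        · rw [indicator_of_notMem (fun h => h7 (e1.1 h).2), ind_of_not h7]
          simp
      · rw [indicator_of_notMem (fun h => h6 (e1.1 h).1), ind_of_not h6]
        simp
  have h8 := h1 ε hε hε1 T (T + 1) le_rfl le_rfl (default : Fin 0 → ℝ) (fun j => j.elim0)
    (default : Fin 0 → ℕ) (fun S _ => WtP Φ ε T L (g ε) (S 0))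
    ((measurable_WtP hΦ hε (hg ε hε)).comp ((measurable_pi_apply 0).comp measurable_fst)) CW hCW
    (fun S l => by
      rw [enB_one]
      by_cases hS : WtP Φ ε T L (g ε) (S 0) = 0
      · rw [hS]; exact zero_le
      · obtain ⟨x, y, e, hok, -, -⟩ := WtP_ne_zero hS
        rw [e]
        refine le_trans ?_ (hgb ε hε x y hok)
        unfold WtP
        rw [onN_node]
        calc _ ≤ 1 * g ε x y := mul_le_mul_left (ind_le_one _) _
          _ = _ := one_mul _)
    (fun S l hS => by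
      obtain ⟨x, y, e, hok, -, -⟩ := WtP_ne_zero hS
      exact base_one (by rw [e]; exact hok) _)
    (fun S l hS => by
      obtain ⟨x, y, e, hok, hd, hs⟩ := WtP_ne_zero hS
      exact prgO_pair hΦ hε e hok hd hs _ _)
    (fun S _ => AlnP Φ ε (S 0))
    (fun S l hS => by
      obtain ⟨x, y, e, hok, hd, hs⟩ := WtP_ne_zero hS
      rw [e]
      refine ⟨card_AlnP_le hd, fun σ hσ => ?_⟩
      obtain ⟨z, hz, rfl⟩ := mem_AlnP.1 hσ
      obtain ⟨h9, h10, h11⟩ := outs_pair_le hΦ hε hok hz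
      refine ⟨ext_nonneg_of_ok hΦ hε h9, (h10.le.trans hs).trans (by linarith), ?_⟩
      rw [enB_one, e]
      exact h11)
    (fun S _ w => ∃ x y, S 0 = node x y ∧
      (coT Φ ε L T (wS (pts w)) x y ∧ bad ε (wS (pts w)) x y))
    (fun J S l hS => by
      obtain ⟨x, y, e, hok, hd, hs⟩ := WtP_ne_zero hS
      filter_upwards [hbad J ε hε hε1 S x y e hok hd hs (lns default default l)] with w hw hb'
      obtain ⟨x', y', e', hb1, hb2⟩ := hb'
      rw [e] at e'
      injection e' with h7 h8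
      subst h7 h8
      rcases hw hb1 hb2 with ⟨z, hz, h12⟩ | h12 | h12
      · refine Or.inl ⟨(ext Φ ε z, ln Φ ε z), ?_, ?_⟩
        · rw [e]
          exact mem_AlnP.2 ⟨z, hz, rfl⟩
        · rw [coe_wS] at h12
          exact h12
      · exact Or.inr (Or.inl h12)
      · exact Or.inr (Or.inr (Or.inr h12)))
  rw [lintegral_pi_one] at h8
  simp only [lintegral_fin_zero, pow_zero, one_mul, Finset.univ_eq_empty, Finset.prod_empty,
    pow_one] at h8
  rw [h4]
  refine (mul_le_mul_right h8 _).trans (le_of_eq ?_)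
  rw [mul_left_comm, ← mul_assoc (muE ε)⁻¹, ENNReal.inv_mul_cancel, one_mul]
  · exact (ENNReal.ofReal_pos.2 (GC.mu_pos hε)).ne'
  · exact muE_ne_top

end Lim

end Vale.Agent.P119.PB.XT
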