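import Vale.Agent.P119.PB.Op5
import Vale.Agent.P119.FL.Path
import Vale.Agent.P119.KT.Pair

/-!
# P119, block PROB: iteration of the collision operator (`helper178`)

* `KOp_mono`, `KOp_add_le`, `KOp_tsum`...: the operator `KOp` of `helper347` is monotone and
  subadditive; `iter_le`: a recursive family `θ j ≤ A j + KOp (θ (j + 1))` is bounded by
  `∑_{j < J} KOp^j (A j) + KOp^J (θ J)`;
* `Gc`: the iterates written with line functions `F s l`; `KOp_iter_le`;
* `Gc_eq`: the unrolled form, a sum over the types `Fin j → Fin 3` (first outgoing line, second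
  outgoing line, undeflected partner) of integrals over `FL.Chain`s.
-/

open MeasureTheory Set Filter Topology Metric ProbabilityTheory
open scoped ENNReal

namespace Vale.Agent.P119.PB

open KU FL M

variable {Φ : E3 → ℝ} {ε b t : ℝ} {α : ℕ → ℝ≥0∞}

theorem indicator_le_indicator_of {β : Type*} {S : Set β} {f g : β → ℝ≥0∞} {x : β}
    (h : x ∈ S → f x ≤ g x) : S.indicator f x ≤ S.indicator g x := by
  by_cases hx : x ∈ S
  · rw [indicator_of_mem hx, indicator_of_mem hx]; exact h hx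
  · rw [indicator_of_notMem hx, indicator_of_notMem hx]

theorem fresh_mono {θ θ' : Src → ℝ≥0∞} (h : ∀ σ, θ σ ≤ θ' σ) (σ : Src) (z' : Ph) (n : ℕ) :
    fresh Φ ε t θ σ z' n ≤ fresh Φ ε t θ' σ z' n := by
  unfold fresh
  refine add_le_add (add_le_add ?_ ?_) ?_ <;> exact indicator_le_indicator_of fun _ => h _

theorem fresh_add (θ θ' : Src → ℝ≥0∞) (σ : Src) (z' : Ph) (n : ℕ) :
    fresh Φ ε t (fun σ => θ σ + θ' σ) σ z' n = fresh Φ ε t θ σ z' n + fresh Φ ε t θ' σ z' n := by
  unfold fresh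
  have h : ∀ (f g : ℝ → ℝ≥0∞) (x : ℝ), (Iic t).indicator (fun τ => f τ + g τ) x =
      (Iic t).indicator f x + (Iic t).indicator g x := by
    intro f g x
    by_cases hx : x ∈ Iic t
    · rw [indicator_of_mem hx, indicator_of_mem hx, indicator_of_mem hx]
    · rw [indicator_of_notMem hx, indicator_of_notMem hx, indicator_of_notMem hx, add_zero]
  rw [h, h, h]
  ring

theorem KOp_mono {θ θ' : Src → ℝ≥0∞} (h : ∀ σ, θ σ ≤ θ' σ) (σ : Src) :
    KOp Φ ε b t α θ σ ≤ KOp Φ ε b t α θ' σ := by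
  unfold KOp
  refine mul_le_mul' le_rfl (ENNReal.tsum_le_tsum fun n => mul_le_mul' le_rfl ?_)
  exact lintegral_mono fun z' => mul_le_mul' le_rfl (fresh_mono h σ z' n)

theorem lint_add {μ : Measure Ph} {f g h : Ph → ℝ≥0∞} (hf : Measurable f)
    (e : ∀ z, h z = f z + g z) : ∫⁻ z, h z ∂μ = ∫⁻ z, f z ∂μ + ∫⁻ z, g z ∂μ := by
  rw [← lintegral_add_left hf]
  exact lintegral_congr e

theorem KOp_add (hΦ : IsPotential Φ) (hε : ε ≠ 0) {θ θ' : Src → ℝ≥0∞} (hθ : Measurable θ)
    (σ : Src) : KOp Φ ε b t α (fun σ => θ σ + θ' σ) σ =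
      KOp Φ ε b t α θ σ + KOp Φ ε b t α θ' σ := by
  have hq : Measurable fun z' : Ph => ((σ, z') : Src × Ph) := measurable_const.prodMk measurable_id
  have hm : ∀ n, Measurable fun z' : Ph => gw b z'.2 * fresh Φ ε t θ σ z' n := fun n => by
    have h0 := measurable_fresh (ε := ε) hΦ hε t hθ n
    have h1 := h0.comp hq
    simp only [Function.comp_def] at h1
    exact ((measurable_gw b).comp measurable_snd).mul h1
  have h1 : ∀ n, ∫⁻ z' in {z' : Ph | Meets ε (σ.2.1, z') ∧ σ.1 < hitT ε (σ.2.1, z')},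
      gw b z'.2 * fresh Φ ε t (fun σ => θ σ + θ' σ) σ z' n =
      (∫⁻ z' in {z' : Ph | Meets ε (σ.2.1, z') ∧ σ.1 < hitT ε (σ.2.1, z')},
        gw b z'.2 * fresh Φ ε t θ σ z' n) +
      ∫⁻ z' in {z' : Ph | Meets ε (σ.2.1, z') ∧ σ.1 < hitT ε (σ.2.1, z')},
        gw b z'.2 * fresh Φ ε t θ' σ z' n := fun n =>
    lint_add (hm n) fun z' => by rw [fresh_add, mul_add]
  unfold KOp
  rw [← mul_add, ← ENNReal.tsum_add]
  congr 1
  refine tsum_congr fun n => ?_
  rw [h1 n, mul_add]

/-- The iterates of the operator. -/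
noncomputable def KIt (Φ : E3 → ℝ) (ε b t : ℝ) (α : ℕ → ℝ≥0∞) : ℕ → (Src → ℝ≥0∞) → Src → ℝ≥0∞
  | 0, θ => θ
  | j + 1, θ => KOp Φ ε b t α (KIt Φ ε b t α j θ)

theorem KIt_zero (θ : Src → ℝ≥0∞) : KIt Φ ε b t α 0 θ = θ := rfl

theorem KIt_succ (j : ℕ) (θ : Src → ℝ≥0∞) :
    KIt Φ ε b t α (j + 1) θ = KOp Φ ε b t α (KIt Φ ε b t α j θ) := rfl

theorem KIt_mono (j : ℕ) {θ θ' : Src → ℝ≥0∞} (h : ∀ σ, θ σ ≤ θ' σ) (σ : Src) :
    KIt Φ ε b t α j θ σ ≤ KIt Φ ε b t α j θ' σ := by
  induction j generalizing σ with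
  | zero => exact h σ
  | succ j ih => exact KOp_mono ih σ

theorem measurable_KIt (hΦ : IsPotential Φ) (hε : ε ≠ 0) (j : ℕ) {θ : Src → ℝ≥0∞}
    (hθ : Measurable θ) : Measurable (KIt Φ ε b t α j θ) := by
  induction j with
  | zero => exact hθ
  | succ j ih => exact measurable_KOp hΦ hε b t α ih

theorem KIt_succ' (j : ℕ) (θ : Src → ℝ≥0∞) :
    KIt Φ ε b t α (j + 1) θ = KIt Φ ε b t α j (KOp Φ ε b t α θ) := by
  induction j with
  | zero => rfl
  | succ j ih => rw [KIt_succ, ih, ← KIt_succ]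

theorem KIt_add (hΦ : IsPotential Φ) (hε : ε ≠ 0) (j : ℕ) {θ θ' : Src → ℝ≥0∞}
    (hθ : Measurable θ) (σ : Src) : KIt Φ ε b t α j (fun σ => θ σ + θ' σ) σ =
      KIt Φ ε b t α j θ σ + KIt Φ ε b t α j θ' σ := by
  induction j generalizing σ with
  | zero => rfl
  | succ j ih =>
    have e : KIt Φ ε b t α j (fun σ => θ σ + θ' σ) =
        fun σ => KIt Φ ε b t α j θ σ + KIt Φ ε b t α j θ' σ := funext ih
    rw [KIt_succ, e, KOp_add hΦ hε (measurable_KIt hΦ hε j hθ)]
    rfl

/-- **Iteration** of `θ j ≤ A j + KOp (θ (j + 1))`. -/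
theorem iter_le (hΦ : IsPotential Φ) (hε : ε ≠ 0) {θ A : ℕ → Src → ℝ≥0∞}
    (hA : ∀ j, Measurable (A j)) (J : ℕ)
    (h : ∀ j < J, ∀ σ, θ j σ ≤ A j σ + KOp Φ ε b t α (θ (j + 1)) σ) (σ : Src) :
    θ 0 σ ≤ (∑ j ∈ Finset.range J, KIt Φ ε b t α j (A j) σ) + KIt Φ ε b t α J (θ J) σ := by
  induction J with
  | zero => simp [KIt_zero]
  | succ J ih =>
    refine (ih fun j hj => h j (by omega)).trans ?_
    rw [Finset.sum_range_succ, add_assoc]
    refine add_le_add le_rfl ?_
    calc KIt Φ ε b t α J (θ J) σ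
        ≤ KIt Φ ε b t α J (fun σ => A J σ + KOp Φ ε b t α (θ (J + 1)) σ) σ :=
          KIt_mono J (h J (Nat.lt_succ_self J)) σ
      _ = KIt Φ ε b t α J (A J) σ + KIt Φ ε b t α J (KOp Φ ε b t α (θ (J + 1))) σ :=
          KIt_add hΦ hε J (hA J) σ
      _ = _ := by rw [← KIt_succ']

/-! ### Line functions -/

/-- The three types of new lines. -/
noncomputable def stp (hΦ : IsPotential Φ) (hε : ε ≠ 0) (o : Fin 3) : Step :=
  if o = 0 then Step.out1 hΦ hε else if o = 1 then Step.out2 hΦ hε else Step.old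

theorem stp_zero (hΦ : IsPotential Φ) (hε : ε ≠ 0) : stp hΦ hε 0 = Step.out1 hΦ hε := by
  simp [stp]

theorem stp_one (hΦ : IsPotential Φ) (hε : ε ≠ 0) : stp hΦ hε 1 = Step.out2 hΦ hε := by
  simp [stp]

theorem stp_two (hΦ : IsPotential Φ) (hε : ε ≠ 0) : stp hΦ hε 2 = Step.old := by
  simp [stp]

/-- The hits of the line `l` after `s` and before `t'`. -/
def hitO (ε t' s : ℝ) (l : Ph) : Set Ph :=
  {z' | Meets ε (l, z') ∧ s < hitT ε (l, z') ∧ hitT ε (l, z') < t'}

theorem measurableSet_hitO3 (t' : ℝ) : MeasurableSet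
    {q : (ℝ × Ph) × Ph | q.2 ∈ hitO ε t' q.1.1 q.1.2} := by
  have hq : Measurable fun q : (ℝ × Ph) × Ph => ((q.1.2, q.2) : Ph × Ph) := by fun_prop
  have hh : Measurable fun q : (ℝ × Ph) × Ph => hitT ε (q.1.2, q.2) := measurable_hitT.comp hq
  exact (hq measurableSet_meets).inter ((measurableSet_lt (measurable_fst.comp measurable_fst)
    hh).inter (measurableSet_lt hh measurable_const))

theorem measurableSet_hitO (t' s : ℝ) (l : Ph) : MeasurableSet (hitO ε t' s l) := by
  have h := measurableSet_hitO3 (ε := ε) t'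
  exact measurable_prodMk_left (x := ((s, l) : ℝ × Ph)) h

/-- The iterates for line functions. -/
noncomputable def Gc (hΦ : IsPotential Φ) (hε : ε ≠ 0) (b t' : ℝ) :
    ℕ → (ℝ → Ph → ℝ≥0∞) → ℝ → Ph → ℝ≥0∞
  | 0, F => F
  | j + 1, F => fun s l => ∑ o : Fin 3, ∫⁻ z' in hitO ε t' s l, muE ε * gw b z'.2 *
      Gc hΦ hε b t' j F (hitT ε (l, z')) ((stp hΦ hε o).f (l, z'))

theorem Gc_succ (hΦ : IsPotential Φ) (hε : ε ≠ 0) (b t' : ℝ) (j : ℕ) (F : ℝ → Ph → ℝ≥0∞)
    (s : ℝ) (l : Ph) : Gc hΦ hε b t' (j + 1) F s l =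
      ∑ o : Fin 3, ∫⁻ z' in hitO ε t' s l, muE ε * gw b z'.2 *
        Gc hΦ hε b t' j F (hitT ε (l, z')) ((stp hΦ hε o).f (l, z')) := rfl

theorem measurable_Gc (hΦ : IsPotential Φ) (hε : ε ≠ 0) (b t' : ℝ) (j : ℕ)
    {F : ℝ → Ph → ℝ≥0∞} (hF : Measurable fun q : ℝ × Ph => F q.1 q.2) :
    Measurable fun q : ℝ × Ph => Gc hΦ hε b t' j F q.1 q.2 := by
  induction j with
  | zero => exact hF
  | succ j ih =>
    have e : (fun q : ℝ × Ph => Gc hΦ hε b t' (j + 1) F q.1 q.2) = fun q : ℝ × Ph =>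
        ∑ o : Fin 3, ∫⁻ z' : Ph, ({r : (ℝ × Ph) × Ph | r.2 ∈ hitO ε t' r.1.1 r.1.2}).indicator
          (fun r => muE ε * gw b r.2.2 *
            Gc hΦ hε b t' j F (hitT ε (r.1.2, r.2)) ((stp hΦ hε o).f (r.1.2, r.2))) (q, z') := by
      funext q
      rw [Gc_succ]
      refine Finset.sum_congr rfl fun o _ => ?_
      rw [← lintegral_indicator (measurableSet_hitO t' q.1 q.2)]
      rfl
    rw [e]
    refine Finset.measurable_sum _ fun o _ => Measurable.lintegral_prod_right' ?_
    have hq : Measurable fun r : (ℝ × Ph) × Ph => ((r.1.2, r.2) : Ph × Ph) := by fun_prop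
    refine Measurable.indicator ?_ (measurableSet_hitO3 t')
    refine (((measurable_gw b).comp measurable_snd.snd).const_mul _).mul ?_
    exact ih.comp ((measurable_hitT.comp hq).prodMk ((stp hΦ hε o).meas.comp hq))

theorem Gc_anti (hΦ : IsPotential Φ) (hε : ε ≠ 0) (b t' : ℝ) (j : ℕ)
    {F : ℝ → Ph → ℝ≥0∞} (hF : ∀ s s' l, s ≤ s' → F s' l ≤ F s l) (s s' : ℝ) (l : Ph)
    (hs : s ≤ s') : Gc hΦ hε b t' j F s' l ≤ Gc hΦ hε b t' j F s l := by
  cases j with
  | zero => exact hF s s' l hs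
  | succ j =>
    rw [Gc_succ, Gc_succ]
    refine Finset.sum_le_sum fun o _ => lintegral_mono_set ?_
    rintro z' ⟨h1, h2, h3⟩
    exact ⟨h1, hs.trans_lt h2, h3⟩

theorem Gc_mono (hΦ : IsPotential Φ) (hε : ε ≠ 0) (b t' : ℝ) (j : ℕ)
    {F F' : ℝ → Ph → ℝ≥0∞} (hF : ∀ s l, F s l ≤ F' s l) (s : ℝ) (l : Ph) :
    Gc hΦ hε b t' j F s l ≤ Gc hΦ hε b t' j F' s l := by
  induction j generalizing s l with
  | zero => exact hF s l
  | succ j ih =>
    rw [Gc_succ, Gc_succ]
    exact Finset.sum_le_sum fun o _ => lintegral_mono fun z' => mul_le_mul' le_rfl (ih _ _)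

/-- Almost every partner of a given line is scattered. -/
theorem ae_exits_left (hΦ : IsPotential Φ) (hε : ε ≠ 0) (l : Ph) :
    ∀ᵐ z' : Ph, Exits Φ (KU.rel ε (l, z')) := by
  have h1 : ∀ᵐ p : Ph, Exits Φ (KT.dil ε⁻¹ p) := KT.ae_dil (inv_ne_zero hε) (ae_exits hΦ)
  have h2 : MeasurePreserving (fun z' : Ph => ((l.1 - z'.1, l.2 - z'.2) : Ph)) volume volume := by
    rw [Measure.volume_eq_prod]
    exact (Measure.measurePreserving_sub_left (volume : Measure E3) l.1).prod
      (Measure.measurePreserving_sub_left (volume : Measure E3) l.2)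
  exact h2.quasiMeasurePreserving.ae h1

/-- Weights of the depths for which the operator is bounded. -/
structure DW (α : ℕ → ℝ≥0∞) (f : ℕ → ℝ≥0∞) (M : ℝ≥0∞) : Prop where
  out : ∀ d, ∑' n, α n * f (max d n + 1) ≤ M * f d
  old : ∀ d, ∑' n, α n * f n ≤ M * f d

theorem dw_one (α : ℕ → ℝ≥0∞) : DW α (fun _ => 1) (∑' n, α n) :=
  ⟨fun _ => by simp, fun _ => by simp⟩

/-- Powers of the depth: the constant is finite for superexponential `α`. -/
theorem dw_pow (α : ℕ → ℝ≥0∞) {A : ℝ≥0∞} (hA : 1 ≤ A) :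
    DW α (fun d => A ^ d) (A * (∑' n, α n + ∑' n, α n * A ^ n)) := by
  have h1 : ∀ d, (1 : ℝ≥0∞) ≤ A ^ d := fun d => one_le_pow₀ hA
  constructor
  · intro d
    calc ∑' n, α n * A ^ (max d n + 1) ≤ ∑' n, (A * A ^ d * α n + A * (α n * A ^ n)) := by
          refine ENNReal.tsum_le_tsum fun n => ?_
          rw [pow_succ]
          rcases le_total d n with h | h
          · rw [max_eq_right h]
            calc α n * (A ^ n * A) = A * (α n * A ^ n) := by ring
              _ ≤ _ := le_add_self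
          · rw [max_eq_left h]
            calc α n * (A ^ d * A) = A * A ^ d * α n := by ring
              _ ≤ _ := le_self_add
      _ = A * A ^ d * (∑' n, α n) + A * ∑' n, α n * A ^ n := by
          rw [ENNReal.tsum_add, ENNReal.tsum_mul_left, ENNReal.tsum_mul_left]
      _ ≤ A * A ^ d * (∑' n, α n) + A * (∑' n, α n * A ^ n) * A ^ d := by
          refine add_le_add le_rfl ?_
          calc A * ∑' n, α n * A ^ n = A * (∑' n, α n * A ^ n) * 1 := (mul_one _).symm
            _ ≤ _ := mul_le_mul' le_rfl (h1 d)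
      _ = _ := by ring
  · intro d
    calc ∑' n, α n * A ^ n ≤ 1 * (∑' n, α n + ∑' n, α n * A ^ n) * 1 := by
          rw [one_mul, mul_one]; exact le_add_self
      _ ≤ _ := mul_le_mul' (mul_le_mul' hA le_rfl) (h1 d)

/-- One step for line functions. -/
theorem KOp_le_line (hΦ : IsPotential Φ) (hε : 0 < ε) {t' : ℝ} (ht : t < t')
    {H : ℝ → Ph → ℝ≥0∞} (hH : Measurable fun q : ℝ × Ph => H q.1 q.2)
    (hanti : ∀ s s' l, s ≤ s' → H s' l ≤ H s l) {f : ℕ → ℝ≥0∞} {M : ℝ≥0∞} (hf : DW α f M)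
    {c : ℝ≥0∞} {θ : Src → ℝ≥0∞} (hθ : ∀ σ, θ σ ≤ c * f σ.2.2 * H σ.1 σ.2.1) (σ : Src) :
    KOp Φ ε b t α θ σ ≤ c * M * f σ.2.2 * ∑ o : Fin 3, ∫⁻ z' in hitO ε t' σ.1 σ.2.1,
      muE ε * gw b z'.2 * H (hitT ε (σ.2.1, z')) ((stp hΦ hε.ne' o).f (σ.2.1, z')) := by
  set l := σ.2.1 with hl
  set d := σ.2.2 with hd
  set g : Fin 3 → Ph → ℝ≥0∞ := fun o z' => H (hitT ε (l, z')) ((stp hΦ hε.ne' o).f (l, z')) with hg
  set fo : Fin 3 → ℕ → ℝ≥0∞ := fun o n => if o = 2 then f n else f (max d n + 1) with hfo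
  have hq : Measurable fun z' : Ph => ((l, z') : Ph × Ph) := by fun_prop
  have hgm : ∀ o, Measurable (g o) := fun o =>
    hH.comp ((measurable_hitT.comp hq).prodMk ((stp hΦ hε.ne' o).meas.comp hq))
  have hgw : Measurable fun z' : Ph => gw b z'.2 := (measurable_gw b).comp measurable_snd
  have fo0 : ∀ n, fo 0 n = f (max d n + 1) := fun n => by
    rw [hfo]; simp only; rw [if_neg (by decide)]
  have fo1 : ∀ n, fo 1 n = f (max d n + 1) := fun n => by
    rw [hfo]; simp only; rw [if_neg (by decide)]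
  have fo2 : ∀ n, fo 2 n = f n := fun n => by rw [hfo]; simp
  -- the pointwise bound
  have hpt : ∀ n, ∀ᵐ z' : Ph, Meets ε (l, z') →
      fresh Φ ε t θ σ z' n ≤
        c * ∑ o : Fin 3, fo o n * (if hitT ε (l, z') < t' then g o z' else 0) := by
    intro n
    filter_upwards [ae_exits_left hΦ hε.ne' l] with z' hz' hM
    have hlt : hitT ε (l, z') < sepT Φ ε (l, z') := hitT_lt_sepT hΦ hε hz' hM.2
    rw [Fin.sum_univ_three, mul_add, mul_add, fo0, fo1, fo2]
    unfold fresh
    refine add_le_add (add_le_add ?_ ?_) ?_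
    · by_cases h : sepT Φ ε (l, z') ∈ Iic t
      · rw [indicator_of_mem h, if_pos ((hlt.trans_le h).trans ht), ← mul_assoc]
        refine (hθ _).trans (mul_le_mul' le_rfl ?_)
        refine (hanti _ _ _ hlt.le).trans ?_
        rw [hg]; simp only
        rw [stp_zero]
        exact le_rfl
      · rw [indicator_of_notMem h]; exact zero_le
    · by_cases h : sepT Φ ε (l, z') ∈ Iic t
      · rw [indicator_of_mem h, if_pos ((hlt.trans_le h).trans ht), ← mul_assoc]
        refine (hθ _).trans (mul_le_mul' le_rfl ?_)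
        refine (hanti _ _ _ hlt.le).trans ?_
        rw [hg]; simp only
        rw [stp_one]
        exact le_rfl
      · rw [indicator_of_notMem h]; exact zero_le
    · by_cases h : hitT ε (l, z') ∈ Iic t
      · rw [indicator_of_mem h, if_pos ((show hitT ε (l, z') ≤ t from h).trans_lt ht),
          ← mul_assoc]
        refine (hθ _).trans (mul_le_mul' le_rfl ?_)
        rw [hg]; simp only
        rw [stp_two]
        exact le_rfl
      · rw [indicator_of_notMem h]; exact zero_le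
  have hS : MeasurableSet {z' : Ph | Meets ε (l, z') ∧ σ.1 < hitT ε (l, z')} :=
    measurable_prodMk_left (x := σ) measurableSet_hit
  have h1 : ∀ n, ∫⁻ z' in {z' : Ph | Meets ε (l, z') ∧ σ.1 < hitT ε (l, z')},
      gw b z'.2 * fresh Φ ε t θ σ z' n ≤
      c * ∑ o : Fin 3, fo o n * ∫⁻ z' in hitO ε t' σ.1 l, gw b z'.2 * g o z' := by
    intro n
    have hm0 : ∀ o, Measurable fun z' =>
        gw b z'.2 * (if hitT ε (l, z') < t' then g o z' else 0) :=
      fun o => hgw.mul (Measurable.ite (measurableSet_lt (measurable_hitT.comp hq)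
        measurable_const) (hgm o) measurable_const)
    have hm : ∀ o, Measurable fun z' =>
        fo o n * (gw b z'.2 * (if hitT ε (l, z') < t' then g o z' else 0)) :=
      fun o => (hm0 o).const_mul _
    calc ∫⁻ z' in {z' : Ph | Meets ε (l, z') ∧ σ.1 < hitT ε (l, z')},
        gw b z'.2 * fresh Φ ε t θ σ z' n
        ≤ ∫⁻ z' in {z' : Ph | Meets ε (l, z') ∧ σ.1 < hitT ε (l, z')},
          c * ∑ o : Fin 3, fo o n * (gw b z'.2 * (if hitT ε (l, z') < t' then g o z' else 0)) := by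
          refine lintegral_mono_ae ?_
          rw [ae_restrict_iff' hS]
          filter_upwards [hpt n] with z' hz' hz
          calc _ ≤ gw b z'.2 * (c * ∑ o : Fin 3, fo o n *
                (if hitT ε (l, z') < t' then g o z' else 0)) := mul_le_mul' le_rfl (hz' hz.1)
            _ = _ := by
                rw [mul_left_comm, Finset.mul_sum]
                congr 1
                refine Finset.sum_congr rfl fun o _ => ?_
                rw [mul_left_comm]
      _ = c * ∑ o : Fin 3, fo o n * ∫⁻ z' in {z' : Ph | Meets ε (l, z') ∧ σ.1 < hitT ε (l, z')},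
          gw b z'.2 * (if hitT ε (l, z') < t' then g o z' else 0) := by
          rw [lintegral_const_mul _ (Finset.measurable_sum _ fun o _ => hm o),
            lintegral_finsetSum _ fun o _ => hm o]
          congr 1
          exact Finset.sum_congr rfl fun o _ => lintegral_const_mul _ (hm0 o)
      _ = _ := by
          congr 1
          refine Finset.sum_congr rfl fun o _ => ?_
          congr 1
          rw [← lintegral_indicator hS, ← lintegral_indicator (measurableSet_hitO t' σ.1 l)]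
          refine lintegral_congr fun z' => ?_
          by_cases hz : z' ∈ hitO ε t' σ.1 l
          · rw [indicator_of_mem hz, indicator_of_mem (show z' ∈ {z' : Ph | Meets ε (l, z') ∧
              σ.1 < hitT ε (l, z')} from ⟨hz.1, hz.2.1⟩), if_pos hz.2.2]
          · rw [indicator_of_notMem hz]
            by_cases hz2 : z' ∈ {z' : Ph | Meets ε (l, z') ∧ σ.1 < hitT ε (l, z')}
            · rw [indicator_of_mem hz2, if_neg (fun h => hz ⟨hz2.1, hz2.2, h⟩), mul_zero]
            · rw [indicator_of_notMem hz2]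
  have h2 : ∀ o, ∑' n, α n * fo o n ≤ M * f d := by
    intro o
    by_cases ho : o = 2
    · subst ho
      simp only [fo2]
      exact hf.old d
    · have : ∀ n, fo o n = f (max d n + 1) := fun n => by
        rw [hfo]; simp only; rw [if_neg ho]
      simp only [this]
      exact hf.out d
  set I : Fin 3 → ℝ≥0∞ := fun o => ∫⁻ z' in hitO ε t' σ.1 l, gw b z'.2 * g o z' with hI
  unfold KOp
  calc _ ≤ muE ε * ∑' n, α n * (c * ∑ o : Fin 3, fo o n * I o) :=
        mul_le_mul' le_rfl (ENNReal.tsum_le_tsum fun n => mul_le_mul' le_rfl (h1 n))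
    _ = muE ε * (c * ∑ o : Fin 3, (∑' n, α n * fo o n) * I o) := by
        congr 1
        rw [Fin.sum_univ_three, ← ENNReal.tsum_mul_right, ← ENNReal.tsum_mul_right,
          ← ENNReal.tsum_mul_right, ← ENNReal.tsum_add, ← ENNReal.tsum_add,
          ← ENNReal.tsum_mul_left]
        refine tsum_congr fun n => ?_
        rw [Fin.sum_univ_three]
        ring
    _ ≤ muE ε * (c * ∑ o : Fin 3, (M * f d) * I o) := by
        refine mul_le_mul' le_rfl (mul_le_mul' le_rfl (Finset.sum_le_sum fun o _ =>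
          mul_le_mul' (h2 o) le_rfl))
    _ = c * M * f d * ∑ o : Fin 3, muE ε * I o := by
        rw [← Finset.mul_sum, ← Finset.mul_sum]
        ring
    _ = _ := by
        congr 1
        refine Finset.sum_congr rfl fun o _ => ?_
        have hm : Measurable fun z' : Ph => gw b z'.2 * g o z' := hgw.mul (hgm o)
        rw [hI]
        simp only
        rw [← lintegral_const_mul _ hm]
        refine lintegral_congr fun z' => ?_
        rw [mul_assoc]

/-- **The iterates of the operator are bounded by the iterates for line functions**, with weights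
of the depth. -/
theorem KIt_le_Gc (hΦ : IsPotential Φ) (hε : 0 < ε) {t' : ℝ} (ht : t < t') (j : ℕ)
    {F : ℝ → Ph → ℝ≥0∞} (hF : Measurable fun q : ℝ × Ph => F q.1 q.2)
    (hanti : ∀ s s' l, s ≤ s' → F s' l ≤ F s l) {f : ℕ → ℝ≥0∞} {M : ℝ≥0∞} (hf : DW α f M)
    {θ : Src → ℝ≥0∞} (hθ : ∀ σ, θ σ ≤ f σ.2.2 * F σ.1 σ.2.1) (σ : Src) :
    KIt Φ ε b t α j θ σ ≤ M ^ j * f σ.2.2 * Gc hΦ hε.ne' b t' j F σ.1 σ.2.1 := by
  induction j generalizing σ with
  | zero => simpa [KIt_zero, Gc] using hθ σ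
  | succ j ih =>
    rw [KIt_succ]
    refine (KOp_le_line hΦ hε ht (measurable_Gc hΦ hε.ne' b t' j hF)
      (fun s s' l hs => Gc_anti hΦ hε.ne' b t' j hanti s s' l hs) hf ih σ).trans (le_of_eq ?_)
    rw [Gc_succ, pow_succ]

/-! ### The unrolled form -/

/-- The steps of a chain of type `o`. -/
noncomputable def stps (hΦ : IsPotential Φ) (hε : ε ≠ 0) {j : ℕ} (o : Fin j → Fin 3) : ℕ → Step :=
  fun n => if h : n < j then stp hΦ hε (o ⟨n, h⟩) else Step.old

theorem stps_zero (hΦ : IsPotential Φ) (hε : ε ≠ 0) {j : ℕ} (o : Fin (j + 1) → Fin 3) :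
    stps hΦ hε o 0 = stp hΦ hε (o 0) := by
  unfold stps
  rw [dif_pos (Nat.succ_pos j)]
  rfl

theorem stps_shift (hΦ : IsPotential Φ) (hε : ε ≠ 0) {j : ℕ} (o : Fin (j + 1) → Fin 3) :
    (fun n => stps hΦ hε o (n + 1)) = stps hΦ hε fun i : Fin j => o i.succ := by
  funext n
  unfold stps
  by_cases h : n < j
  · rw [dif_pos h, dif_pos (Nat.succ_lt_succ h)]
    rfl
  · rw [dif_neg h, dif_neg (fun h' => h (Nat.lt_of_succ_lt_succ h'))]

/-- The integrand of the unrolled form. -/
noncomputable def chI (hΦ : IsPotential Φ) (hε : ε ≠ 0) (b t' : ℝ) {j : ℕ} (o : Fin j → Fin 3)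
    (F : ℝ → Ph → ℝ≥0∞) (s : ℝ) (l : Ph) (p : Fin j → Ph) : ℝ≥0∞ :=
  {p | Chain ε t' (stps hΦ hε o) j s l p}.indicator (fun p => FL.wt b ε j p *
    F (time ε (stps hΦ hε o) j s l p) (line (stps hΦ hε o) j l p)) p

theorem measurable_chI (hΦ : IsPotential Φ) (hε : ε ≠ 0) (b t' : ℝ) {j : ℕ}
    (o : Fin j → Fin 3) {F : ℝ → Ph → ℝ≥0∞} (hF : Measurable fun q : ℝ × Ph => F q.1 q.2) :
    Measurable fun q : ℝ × Ph × (Fin j → Ph) => chI hΦ hε b t' o F q.1 q.2.1 q.2.2 := by
  have e : (fun q : ℝ × Ph × (Fin j → Ph) => chI hΦ hε b t' o F q.1 q.2.1 q.2.2) =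
      {q : ℝ × Ph × (Fin j → Ph) | Chain ε t' (stps hΦ hε o) j q.1 q.2.1 q.2.2}.indicator
        (fun q => FL.wt b ε j q.2.2 * F (time ε (stps hΦ hε o) j q.1 q.2.1 q.2.2)
          (line (stps hΦ hε o) j q.2.1 q.2.2)) := by
    funext q
    rfl
  rw [e]
  refine Measurable.indicator ?_ (measurableSet_chain j _)
  refine ((FL.measurable_wt b ε j).comp (measurable_snd.comp measurable_snd)).mul ?_
  exact hF.comp ((measurable_time j _).prodMk ((measurable_line j _).comp measurable_snd))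

/-- **The unrolled form of the iterates.** -/
theorem Gc_eq (hΦ : IsPotential Φ) (hε : ε ≠ 0) (b t' : ℝ) (j : ℕ)
    {F : ℝ → Ph → ℝ≥0∞} (hF : Measurable fun q : ℝ × Ph => F q.1 q.2) (s : ℝ) (l : Ph) :
    Gc hΦ hε b t' j F s l = ∑ o : Fin j → Fin 3, ∫⁻ p, chI hΦ hε b t' o F s l p := by
  induction j generalizing s l with
  | zero =>
    have h1 : ∀ o : Fin 0 → Fin 3, ∫⁻ p, chI hΦ hε b t' o F s l p = F s l := by
      intro o
      have h2 : ∀ p : Fin 0 → Ph, chI hΦ hε b t' o F s l p = F s l := by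
        intro p
        unfold chI
        rw [indicator_of_mem (show p ∈ {p | Chain ε t' (stps hΦ hε o) 0 s l p} from trivial),
          wt_zero, one_mul]
        rfl
      simp only [h2]
      rw [lintegral_const]
      have h3 : (volume : Measure (Fin 0 → Ph)) univ = 1 := by
        simp [volume_pi]
      rw [h3, mul_one]
    rw [Finset.sum_congr rfl fun o _ => h1 o]
    simp [Gc]
  | succ j ih =>
    rw [Gc_succ]
    have h2 : ∑ o : Fin (j + 1) → Fin 3, ∫⁻ p, chI hΦ hε b t' o F s l p =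
        ∑ a : Fin 3, ∑ o : Fin j → Fin 3, ∫⁻ p, chI hΦ hε b t' (Fin.cons a o : Fin (j + 1) → Fin 3)
          F s l p := by
      rw [← Fintype.sum_prod_type']
      exact (Fintype.sum_equiv (Fin.consEquiv fun _ : Fin (j + 1) => Fin 3) _ _ fun p => rfl).symm
    rw [h2]
    refine Finset.sum_congr rfl fun a _ => ?_
    have h3 : ∀ o : Fin j → Fin 3, ∫⁻ p, chI hΦ hε b t' (Fin.cons a o : Fin (j + 1) → Fin 3) F s l p =
        ∫⁻ z' in hitO ε t' s l, muE ε * gw b z'.2 *
          ∫⁻ q, chI hΦ hε b t' o F (hitT ε (l, z')) ((stp hΦ hε a).f (l, z')) q := by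
      intro o
      have hm := (measurable_chI hΦ hε b t' (Fin.cons a o : Fin (j + 1) → Fin 3) hF).comp
        ((measurable_const (a := s)).prodMk ((measurable_const (a := l)).prodMk
          (measurable_id (α := Fin (j + 1) → Ph))))
      have hm' : Measurable fun p : Fin (j + 1) → Ph =>
        chI hΦ hε b t' (Fin.cons a o : Fin (j + 1) → Fin 3) F s l p := hm
      rw [lintegral_cons hm', ← lintegral_indicator (measurableSet_hitO t' s l)]
      refine lintegral_congr fun z' => ?_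
      have hmq : Measurable fun q : Fin j → Ph =>
          chI hΦ hε b t' o F (hitT ε (l, z')) ((stp hΦ hε a).f (l, z')) q :=
        (measurable_chI hΦ hε b t' o hF).comp (measurable_const.prodMk
          (measurable_const.prodMk measurable_id))
      have e1 : stps hΦ hε (Fin.cons a o : Fin (j + 1) → Fin 3) 0 = stp hΦ hε a := by
        rw [stps_zero]; rfl
      have e2 : (fun n => stps hΦ hε (Fin.cons a o : Fin (j + 1) → Fin 3) (n + 1)) =
          stps hΦ hε o := by
        rw [stps_shift]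
        rfl
      have hch : ∀ q : Fin j → Ph, (Chain ε t' (stps hΦ hε (Fin.cons a o : Fin (j + 1) → Fin 3))
          (j + 1) s l (Fin.cons z' q) ↔ z' ∈ hitO ε t' s l ∧
            Chain ε t' (stps hΦ hε o) j (hitT ε (l, z')) ((stp hΦ hε a).f (l, z')) q) := by
        intro q
        have : Chain ε t' (stps hΦ hε (Fin.cons a o : Fin (j + 1) → Fin 3)) (j + 1) s l
            (Fin.cons z' q) ↔ Meets ε (l, z') ∧ s < hitT ε (l, z') ∧ hitT ε (l, z') < t' ∧
            Chain ε t' (fun n => stps hΦ hε (Fin.cons a o : Fin (j + 1) → Fin 3) (n + 1)) j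
              (hitT ε (l, z')) ((stps hΦ hε (Fin.cons a o : Fin (j + 1) → Fin 3) 0).f (l, z'))
              q := Iff.rfl
        rw [this, e1, e2]
        unfold hitO
        simp only [mem_ofPred_eq]
        tauto
      by_cases hz : z' ∈ hitO ε t' s l
      · rw [indicator_of_mem hz, ← lintegral_const_mul _ hmq]
        refine lintegral_congr fun q => ?_
        unfold chI
        by_cases hq : Chain ε t' (stps hΦ hε o) j (hitT ε (l, z')) ((stp hΦ hε a).f (l, z')) q
        · rw [indicator_of_mem (show (Fin.cons z' q : Fin (j + 1) → Ph) ∈ {p | Chain ε t'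
            (stps hΦ hε (Fin.cons a o : Fin (j + 1) → Fin 3)) (j + 1) s l p} from
              (hch q).2 ⟨hz, hq⟩), indicator_of_mem (show q ∈ {p | Chain ε t' (stps hΦ hε o) j
              (hitT ε (l, z')) ((stp hΦ hε a).f (l, z')) p} from hq), wt_cons]
          have e3 : time ε (stps hΦ hε (Fin.cons a o : Fin (j + 1) → Fin 3)) (j + 1) s l
              (Fin.cons z' q) = time ε (stps hΦ hε o) j (hitT ε (l, z'))
                ((stp hΦ hε a).f (l, z')) q := by
            have : time ε (stps hΦ hε (Fin.cons a o : Fin (j + 1) → Fin 3)) (j + 1) s l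
              (Fin.cons z' q) = time ε (fun n => stps hΦ hε (Fin.cons a o : Fin (j + 1) → Fin 3)
                (n + 1)) j (hitT ε (l, z'))
                ((stps hΦ hε (Fin.cons a o : Fin (j + 1) → Fin 3) 0).f (l, z')) q := rfl
            rw [this, e1, e2]
          have e4 : line (stps hΦ hε (Fin.cons a o : Fin (j + 1) → Fin 3)) (j + 1) l
              (Fin.cons z' q) = line (stps hΦ hε o) j ((stp hΦ hε a).f (l, z')) q := by
            have : line (stps hΦ hε (Fin.cons a o : Fin (j + 1) → Fin 3)) (j + 1) l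
              (Fin.cons z' q) = line (fun n => stps hΦ hε (Fin.cons a o : Fin (j + 1) → Fin 3)
                (n + 1)) j ((stps hΦ hε (Fin.cons a o : Fin (j + 1) → Fin 3) 0).f (l, z')) q := rfl
            rw [this, e1, e2]
          rw [e3, e4, mul_assoc]
          rfl
        · rw [indicator_of_notMem (show (Fin.cons z' q : Fin (j + 1) → Ph) ∉ {p | Chain ε t'
            (stps hΦ hε (Fin.cons a o : Fin (j + 1) → Fin 3)) (j + 1) s l p} from
              fun h => hq ((hch q).1 h).2), indicator_of_notMem (show q ∉ {p | Chain ε t'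
              (stps hΦ hε o) j (hitT ε (l, z')) ((stp hΦ hε a).f (l, z')) p} from hq), mul_zero]
      · rw [indicator_of_notMem hz]
        have : ∀ q : Fin j → Ph, chI hΦ hε b t' (Fin.cons a o : Fin (j + 1) → Fin 3) F s l
            (Fin.cons z' q) = 0 := fun q => by
          unfold chI
          exact indicator_of_notMem (show (Fin.cons z' q : Fin (j + 1) → Ph) ∉ {p | Chain ε t'
            (stps hΦ hε (Fin.cons a o : Fin (j + 1) → Fin 3)) (j + 1) s l p} from
              fun h => hz ((hch q).1 h).1) _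
        simp only [this, lintegral_zero]
    rw [Finset.sum_congr rfl fun o _ => h3 o]
    have hGm : ∀ o : Fin j → Fin 3, Measurable fun z' : Ph =>
        ∫⁻ q, chI hΦ hε b t' o F (hitT ε (l, z')) ((stp hΦ hε a).f (l, z')) q := by
      intro o
      have hq : Measurable fun z' : Ph => ((l, z') : Ph × Ph) := by fun_prop
      have h5 : Measurable fun r : Ph × (Fin j → Ph) =>
          chI hΦ hε b t' o F (hitT ε (l, r.1)) ((stp hΦ hε a).f (l, r.1)) r.2 :=
        (measurable_chI hΦ hε b t' o hF).comp (((measurable_hitT.comp hq).comp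
          measurable_fst).prodMk ((((stp hΦ hε a).meas.comp hq).comp measurable_fst).prodMk
            measurable_snd))
      exact h5.lintegral_prod_right'
    have hGm' : ∀ o : Fin j → Fin 3, Measurable fun z' : Ph => muE ε * gw b z'.2 *
        ∫⁻ q, chI hΦ hε b t' o F (hitT ε (l, z')) ((stp hΦ hε a).f (l, z')) q := fun o =>
      (((measurable_gw b).comp measurable_snd).const_mul _).mul (hGm o)
    rw [← lintegral_finsetSum _ fun o _ => hGm' o]
    refine lintegral_congr fun z' => ?_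
    rw [← Finset.mul_sum, ih]

/-- The mass of the iterates. -/
theorem Gc_const_le (hΦ : IsPotential Φ) (hε : 0 < ε) (hb : 0 < b) {t' : ℝ} (j : ℕ) (c : ℝ≥0∞)
    {s : ℝ} (hs : s ≤ t') (l : Ph) :
    Gc hΦ hε.ne' b t' j (fun _ _ => c) s l ≤ c * (3 ^ j * ENNReal.ofReal
      ((Kc b * (t' - s)) ^ j / √(j.factorial : ℝ) * Real.exp (b / 2 * ‖l.2‖ ^ 2))) := by
  rw [Gc_eq hΦ hε.ne' b t' j measurable_const]
  have h1 : ∀ o : Fin j → Fin 3, ∫⁻ p, chI hΦ hε.ne' b t' o (fun _ _ => c) s l p ≤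
      c * ENNReal.ofReal ((Kc b * (t' - s)) ^ j / √(j.factorial : ℝ) *
        Real.exp (b / 2 * ‖l.2‖ ^ 2)) := by
    intro o
    have hS : MeasurableSet {p : Fin j → Ph | Chain ε t' (stps hΦ hε.ne' o) j s l p} := by
      have h3 : Measurable fun p : Fin j → Ph => ((s, l, p) : ℝ × Ph × (Fin j → Ph)) :=
        measurable_const.prodMk (measurable_const.prodMk measurable_id)
      exact h3 (measurableSet_chain (ε := ε) (t := t') j (stps hΦ hε.ne' o))
    have h2 := chain_mass hε hb j (stps hΦ hε.ne' o) s l hs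
    calc ∫⁻ p, chI hΦ hε.ne' b t' o (fun _ _ => c) s l p
        = ∫⁻ p, c * {p | Chain ε t' (stps hΦ hε.ne' o) j s l p}.indicator (FL.wt b ε j) p := by
          refine lintegral_congr fun p => ?_
          unfold chI
          by_cases hp : p ∈ {p : Fin j → Ph | Chain ε t' (stps hΦ hε.ne' o) j s l p}
          · rw [indicator_of_mem hp, indicator_of_mem hp, mul_comm]
          · rw [indicator_of_notMem hp, indicator_of_notMem hp, mul_zero]
      _ = c * ∫⁻ p, {p | Chain ε t' (stps hΦ hε.ne' o) j s l p}.indicator (FL.wt b ε j) p :=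
          lintegral_const_mul _ ((FL.measurable_wt b ε j).indicator hS)
      _ ≤ _ := mul_le_mul' le_rfl h2
  refine (Finset.sum_le_sum fun o _ => h1 o).trans (le_of_eq ?_)
  rw [Finset.sum_const, Finset.card_univ, Fintype.card_fun, Fintype.card_fin, Fintype.card_fin,
    nsmul_eq_mul]
  push_cast
  ring

end Vale.Agent.P119.PB
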