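import Vale.Agent.P119.PB.ExcNE1
import Vale.Agent.P119.PB.ExcPair
import Vale.Agent.P119.PB.ExcIrrs
import Vale.Agent.P119.PB.Exc5R
import Vale.Agent.P119.PB.Iter
import Vale.Agent.P119.IND.L2Norm

/-!
# P119, block PROB: the exceptional event `¬NoExc` is negligible (`helper119`)

* `wN`: the weight of the structure law of a tree and a line which collide;
* `lintegral_XI_le_wN`: the integral of `XI` over the Gaussian lines;
* **`excNE`**: `ExcNE`, without hypothesis.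
-/

open MeasureTheory Filter Topology Set
open scoped ENNReal NNReal

noncomputable section

namespace Vale.Agent.P119.PB.NE

open M CTree KU FL FB RB AU TL GC IND XT PB.CT

variable {Φ : E3 → ℝ} {ε T : ℝ} {L : ℕ} {f₀ : Ph → ℝ} {κ₀ b s t : ℝ} {n : ℕ}

/-- The line `(s, z, n)` and the tree `R` collide, before `t`. -/
structure OkN (Φ : E3 → ℝ) (ε : ℝ) (L : ℕ) (t s : ℝ) (n : ℕ) (R : CTree) (z : Ph) : Prop where
  ok : CTree.ok Φ ε (node R (leaf (s, z, n)))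
  depth : R.depth ≤ L
  sig_le : sig Φ ε (node R (leaf (s, z, n))) ≤ t

theorem famA (hΦ : IsPotential Φ) (hε : 0 < ε) {S : CTree} {l : Src}
    (hok : CTree.ok Φ ε (node S (leaf l))) (hsg : sig Φ ε (node S (leaf l)) ≤ T) :
    IND.Fam Φ ε T (FA S l) (GA Φ ε S l) := by
  classical
  unfold FA GA
  exact (fam_pair hΦ hε (ok_swap hΦ hok) ((sig_swap _ _).le.trans hsg)).1

/-- The weight of the structure law. -/
def wN (Φ : E3 → ℝ) (ε : ℝ) (L : ℕ) (t s : ℝ) (n : ℕ) (R : Fin 1 → CTree) (l : Fin 1 → Ph) :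
    ℝ≥0∞ := PB.ind (OkN Φ ε L t s n (R 0) (l 0))

theorem wN_ne_zero {R : Fin 1 → CTree} {l : Fin 1 → Ph} (h : wN Φ ε L t s n R l ≠ 0) :
    OkN Φ ε L t s n (R 0) (l 0) := by
  by_contra hcon
  exact h (ind_of_not hcon)

theorem wN_le_one (R : Fin 1 → CTree) (l : Fin 1 → Ph) : wN Φ ε L t s n R l ≤ 1 := ind_le_one _

theorem base_wN {R : Fin 1 → CTree} {l : Fin 1 → Ph} (h : wN Φ ε L t s n R l ≠ 0) :
    Base Φ ε R (lns (fun _ => s) (fun _ => n) l) := by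
  have h1 := wN_ne_zero h
  refine ⟨fun j => ?_, fun i j hij => absurd (Subsingleton.elim i j) hij,
    Function.injective_of_subsingleton _, fun i j => ?_⟩
  · rw [Subsingleton.elim j 0]
    exact h1.ok.1
  · rw [Subsingleton.elim i 0, Subsingleton.elim j 0]
    exact notMem_leaves h1.ok

theorem measurable_wN (hΦ : IsPotential Φ) (hε : 0 < ε) (L : ℕ) (t s : ℝ) (n : ℕ) :
    Measurable fun p : (Fin 1 → CTree) × (Fin 1 → Ph) => wN Φ ε L t s n p.1 p.2 := by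
  refine PB.measurable_ind ?_
  have hR : Measurable fun p : (Fin 1 → CTree) × (Fin 1 → Ph) => p.1 0 :=
    (measurable_pi_apply 0).comp measurable_fst
  have hz : Measurable fun p : (Fin 1 → CTree) × (Fin 1 → Ph) => p.2 0 :=
    (measurable_pi_apply 0).comp measurable_snd
  have hl : Measurable fun p : (Fin 1 → CTree) × (Fin 1 → Ph) => leaf (s, p.2 0, n) :=
    measurable_leaf.comp (measurable_const.prodMk (hz.prodMk measurable_const))
  have hT : Measurable fun p : (Fin 1 → CTree) × (Fin 1 → Ph) =>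
      node (p.1 0) (leaf (s, p.2 0, n)) := measurable_node.comp (hR.prodMk hl)
  have h1 := hT (M.measurableSet_ok hΦ hε.ne')
  have h2 : MeasurableSet {p : (Fin 1 → CTree) × (Fin 1 → Ph) | (p.1 0).depth ≤ L} :=
    (M.measurable_depth.comp hR) (measurableSet_Iic (a := L))
  have h3 : MeasurableSet {p : (Fin 1 → CTree) × (Fin 1 → Ph) |
      sig Φ ε (node (p.1 0) (leaf (s, p.2 0, n))) ≤ t} :=
    measurableSet_le ((measurable_sig hΦ hε.ne').comp hT) measurable_const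
  have e : {p : (Fin 1 → CTree) × (Fin 1 → Ph) | OkN Φ ε L t s n (p.1 0) (p.2 0)} =
      (fun p : (Fin 1 → CTree) × (Fin 1 → Ph) => node (p.1 0) (leaf (s, p.2 0, n))) ⁻¹'
        {R | CTree.ok Φ ε R} ∩ ({p | (p.1 0).depth ≤ L} ∩
        {p | sig Φ ε (node (p.1 0) (leaf (s, p.2 0, n))) ≤ t}) := by
    ext p
    exact ⟨fun h => ⟨h.1, h.2, h.3⟩, fun h => ⟨h.1, h.2.1, h.2.2⟩⟩
  rw [e]
  exact h1.inter (h2.inter h3)

/-- **The integral of `XI` over the Gaussian lines**, for an event which contains `HitA`. -/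
theorem lintegral_XI_le_wN (h₀ : GoodDatum f₀ κ₀) (hΦ : IsPotential Φ) (hε : 0 < ε) (L : ℕ)
    (b t : ℝ) (hs : 0 ≤ s) (n : ℕ) {E : Src → Finset Src → CTree → Prop}
    (hE : MeasurableSet {p : (Ph × CTree) × Conf Ph | E (s, p.1.1, n) (wS (pts p.2)) p.1.2})
    (hA : ∀ l V R, E l V R → ext Φ ε R < hitT ε (l.2.1, ln Φ ε R)) :
    ∫⁻ z : Ph, PB.gw b z.2 * XI f₀ Φ ε L t (s, z, n) (fun V R => PB.ind (E (s, z, n) V R)) ≤
      ∫⁻ R, ∫⁻ l : Fin 1 → Ph, (∏ j, g1 b (l j).2) * (wN Φ ε L t s n R l *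
        (PP f₀ ε) {w | L2.bad2 Φ ε L t s n E R l w}) ∂volume
        ∂(Measure.pi fun _ : Fin 1 => tree (inten f₀ ε) L) := by
  refine (L2.lintegral_XI_le h₀ hΦ hε L b t s n hE).trans (lintegral_mono fun R => ?_)
  have hae : ∀ᵐ l : Fin 1 → Ph, Exits Φ (KU.rel ε (ln Φ ε (R 0), l 0)) := by
    have h1 := ae_exits_left hΦ hε.ne' (ln Φ ε (R 0))
    exact (measurePreserving_funUnique (volume : Measure Ph) (Fin 1)).quasiMeasurePreserving.ae h1
  refine lintegral_mono_ae ?_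
  filter_upwards [hae] with l hl
  refine mul_le_mul_right ?_ _
  by_cases h0 : {w : Conf Ph | L2.bad2 Φ ε L t s n E R l w} = ∅
  · rw [h0, measure_empty, mul_zero, mul_zero]
  obtain ⟨w, hw⟩ := nonempty_iff_ne_empty.2 h0
  refine mul_le_mul_left (ind_mono fun h2 => ?_) _
  have h3 : hitT ε (ln Φ ε (R 0), l 0) = hitT ε (l 0, ln Φ ε (R 0)) :=
    hitT_swap (l 0, ln Φ ε (R 0))
  have h4 := hA _ _ _ hw.2
  refine ⟨⟨h2.ok, hs, Set.disjoint_singleton_right.2 h2.notMem,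
    (meets_swap (l 0, ln Φ ε (R 0))).2 h2.hit.1, hl, ?_, ?_⟩, h2.depth, ?_⟩
  · change ext Φ ε (R 0) < hitT ε (ln Φ ε (R 0), l 0)
    rw [h3]
    exact h4
  · change s < hitT ε (ln Φ ε (R 0), l 0)
    rw [h3]
    exact h2.hit.2.1
  · change hitT ε (ln Φ ε (R 0), l 0) ≤ t
    rw [h3]
    exact h2.hit.2.2

/-! ### The lines -/

/-- The lines which are seen by the gas. -/
def AN (Φ : E3 → ℝ) (ε T : ℝ) (S : CTree) (l : Src) : Finset (ℝ × Ph) := by
  classical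
  exact ((kA Φ ε S l ∪ kB Φ ε S l).filter fun a => a.1 ≤ T).image fun a => (a.1, a.2.1)

theorem mem_AN {S : CTree} {l : Src} {σ : ℝ × Ph} :
    σ ∈ AN Φ ε T S l ↔ ∃ a ∈ kT Φ ε T S l, (a.1, a.2.1) = σ := by
  classical
  unfold AN kT
  simp only [Finset.mem_image, Finset.mem_filter, Finset.mem_union, mem_ofPred_eq]

theorem card_exl_le {S : CTree} (hd : S.depth ≤ L) : (exl Φ ε S).card ≤ 2 ^ (L + 2) := by
  classical
  have h1 : exl Φ ε S ⊆ (partsF S).image (rsrc Φ ε) := by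
    intro a ha
    rw [← Finset.mem_coe, coe_exl] at ha
    obtain ⟨x, hx, rfl⟩ := ha
    exact Finset.mem_image.2 ⟨x, mem_partsF.2 (Or.inr hx), rfl⟩
  exact (Finset.card_le_card h1).trans (Finset.card_image_le.trans (XT.card_partsF_le hd))

theorem card_AN_le {S : CTree} {l : Src} (hd : S.depth ≤ L) :
    (AN Φ ε T S l).card ≤ 2 * 2 ^ (L + 2) + 3 := by
  classical
  have h1 := card_exl_le (Φ := Φ) (ε := ε) hd
  have h2 : (kA Φ ε S l).card ≤ 2 ^ (L + 2) + 1 := by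
    unfold kA
    exact (Finset.card_insert_le _ _).trans (by omega)
  have h3 : (kB Φ ε S l).card ≤ 2 ^ (L + 2) + 2 := by
    unfold kB
    refine (Finset.card_insert_le _ _).trans ?_
    have := Finset.card_insert_le (rsrc Φ ε (node (leaf l) S)) (exl Φ ε S)
    omega
  unfold AN
  refine Finset.card_image_le.trans ((Finset.card_filter_le _ _).trans
    ((Finset.card_union_le _ _).trans ?_))
  omega

theorem enB_two (R : Fin 1 → CTree) (l : Fin 1 → Ph) :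
    enB R l = enT (R 0) + ‖(l 0).2‖ ^ 2 := by
  unfold enB
  rw [Fin.sum_univ_one, Fin.sum_univ_one]

/-- The births and the velocities of the lines. -/
theorem AN_ok (hΦ : IsPotential Φ) (hε : 0 < ε) {S : CTree} {l : Src}
    (hok : CTree.ok Φ ε (node S (leaf l))) {σ : ℝ × Ph} (hσ : σ ∈ AN Φ ε T S l) :
    0 ≤ σ.1 ∧ σ.1 ≤ T ∧ ‖σ.2.2‖ ^ 2 ≤ enT S + ‖l.2.1.2‖ ^ 2 := by
  obtain ⟨a, ⟨ha, haT⟩, rfl⟩ := mem_AN.1 hσ
  have hS := hok.1
  have hexl : ∀ a ∈ exl Φ ε S, 0 ≤ a.1 ∧ ‖a.2.1.2‖ ^ 2 ≤ enT S + ‖l.2.1.2‖ ^ 2 := by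
    intro a ha
    rw [← Finset.mem_coe, coe_exl] at ha
    obtain ⟨x, hx, rfl⟩ := ha
    refine ⟨ext_nonneg_of_ok hΦ hε (outs_ok hΦ hS (Or.inr hx)), ?_⟩
    have h1 := ln_sq_le_enT_outs hΦ hε.ne' (Or.inr hx : x ∈ outs S)
    have h2 : ‖(rsrc Φ ε x).2.1.2‖ ^ 2 ≤ enT S := h1
    nlinarith [sq_nonneg ‖l.2.1.2‖]
  have hen : enT (node S (leaf l)) = enT S + ‖l.2.1.2‖ ^ 2 := rfl
  have hen' : enT (node (leaf l) S) = enT S + ‖l.2.1.2‖ ^ 2 := add_comm _ _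
  have key : 0 ≤ a.1 ∧ ‖a.2.1.2‖ ^ 2 ≤ enT S + ‖l.2.1.2‖ ^ 2 := by
    rcases ha with ha | ha
    · rcases mem_kA.1 ha with rfl | ha
      · refine ⟨(ext_nonneg_of_ok hΦ hε hS).trans (hok.2.2.2.2.2.1).le, ?_⟩
        have h1 := ln_sq_le_enT hΦ hε.ne' S
        have h2 : ‖(kcS Φ ε S l).2.1.2‖ ^ 2 ≤ enT S := h1
        nlinarith [sq_nonneg ‖l.2.1.2‖]
      · exact hexl a ha
    · rcases mem_kB.1 ha with rfl | rfl | ha
      · refine ⟨ext_nonneg_of_ok hΦ hε hok, ?_⟩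
        rw [← hen]
        exact ln_sq_le_enT hΦ hε.ne' _
      · refine ⟨ext_nonneg_of_ok hΦ hε (ok_swap hΦ hok), ?_⟩
        rw [← hen']
        exact ln_sq_le_enT hΦ hε.ne' _
      · exact hexl a ha
  exact ⟨key.1, haT, key.2⟩

/-! ### The limit -/

/-- **The exceptional event `¬NoExc` is negligible.** -/
theorem excNE_of (h : GoodDatum f₀ κ₀) (hΦ : IsPotential Φ) {b M₀ M₁ : ℝ} (hb : 0 < b)
    (hM₀ : 0 ≤ M₀) (hf : ∀ z, f₀ z ≤ M₀ * Real.exp (-b * ‖z.2‖ ^ 2)) (hM₁ : 0 ≤ M₁)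
    (hmarg : ∀ v, ∫⁻ x, ENNReal.ofReal (f₀ (x, v)) ≤
      ENNReal.ofReal (M₁ * Real.exp (-b * ‖v‖ ^ 2)))
    (hT : 0 ≤ T) (L : ℕ) : ExcNE Φ f₀ L T b := by
  obtain ⟨Dl, hDl, h1⟩ := exc_lim_prog h hΦ hb (half_pos hb).le
    (show b / 2 + b / 4 < b by linarith) hM₀ hf hM₁ hmarg 1 1 L (2 * 2 ^ (L + 2) + 3) 1
    (8 * 2 ^ (L + 3)) one_pos (fun J => Nn L J) hT (X := fun J => irrs hΦ T (Nn L J) 1)
    (fun J => irrs_finite hΦ T (Nn L J) 1)
    (fun J r hr => irrs_small hΦ h.meas hM₁ hmarg (by linarith) hT hr)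
  intro ρ hρ
  have hev : ∀ᶠ ε : ℝ in 𝓝[>] 0, ε ≤ 1 :=
    (eventually_nhdsWithin_of_eventually_nhds (eventually_le_nhds one_pos))
  have hρ' : (0 : ℝ≥0∞) < ENNReal.ofReal ρ := ENNReal.ofReal_pos.2 hρ
  filter_upwards [self_mem_nhdsWithin, hev, hDl.eventually (ge_mem_nhds hρ')]
    with ε hε hε1 hDρ s hs n hn
  rw [mem_Ioi] at hε
  refine le_trans ?_ hDρ
  set E : Src → Finset Src → CTree → Prop := fun l V R =>
    HitA Φ ε L l V R ∧ ¬NoExc Φ ε L T l V R with hE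
  have h2 := lintegral_XI_le_wN (E := E) h hΦ hε L b T hs.1 n (meas_NE hΦ hε T s n)
    fun l V R hR => hR.1.lt
  refine h2.trans ?_
  have h3 := h1 ε hε hε1 T (T + 1) le_rfl le_rfl (fun _ => s) (fun _ => hs.1) (fun _ => n)
    (wN Φ ε L T s n) (measurable_wN hΦ hε L T s n) 1 ENNReal.one_ne_top
    (fun R l => by
      rw [one_mul]
      refine (wN_le_one R l).trans ?_
      rw [← ENNReal.ofReal_one]
      exact ENNReal.ofReal_le_ofReal (Real.one_le_exp (mul_nonneg (half_pos hb).le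
        (enB_nonneg R l))))
    (fun R l hW => base_wN hW)
    (fun R l hW => by
      obtain ⟨hok, hd, hsg⟩ := wN_ne_zero hW
      have hok' : CTree.ok Φ ε (node (R 0) (leaf (lns (fun _ => s) (fun _ => n) l 0))) := hok
      have h4 := slabA (T := T) (S := R) (l := lns (fun _ => s) (fun _ => n) l) hΦ hε hok' hsg
      exact (prgO_of_slab hΦ hε (famA hΦ hε hok' hsg) h4 ∅).mono le_rfl (szA_le hd hn))
    (fun R l => AN Φ ε T (R 0) (s, l 0, n))
    (fun R l hW => by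
      obtain ⟨hok, hd, hsg⟩ := wN_ne_zero hW
      refine ⟨card_AN_le hd, fun σ hσ => ?_⟩
      obtain ⟨h4, h5, h6⟩ := AN_ok hΦ hε hok hσ
      refine ⟨h4, h5.trans (by linarith), ?_⟩
      rw [enB_two]
      exact h6)
    (fun R l w => L2.bad2 Φ ε L T s n E R l w)
    (fun J R l hW => by
      obtain ⟨hok, hd, hsg⟩ := wN_ne_zero hW
      filter_upwards [ae_forall_notMem_wS h hε.le (R 0).leaves_finite,
        ae_notMem_wS h hε.le (s, l 0, n),
        ae_forall_notMem_wS h hε.le (kA Φ ε (R 0) (s, l 0, n)).finite_toSet,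
        ae_forall_notMem_wS h hε.le (kB Φ ε (R 0) (s, l 0, n)).finite_toSet]
        with w hw1 hw2 hw3 hw4 hbad
      obtain ⟨-, hH, hNE⟩ := hbad
      have hal : alive Φ ε L (addT (wS (pts w)) (R 0) : Set Src) (R 0)
          (sig Φ ε (node (R 0) (leaf (s, l 0, n)))) := by
        have h4 := hH.alive
        have h5 : hitT ε (l 0, ln Φ ε (R 0)) = sig Φ ε (node (R 0) (leaf (s, l 0, n))) :=
          (hitT_swap (l 0, ln Φ ε (R 0))).symm
        change alive Φ ε L (addT (wS (pts w)) (R 0) : Set Src) (R 0)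
          (hitT ε (l 0, ln Φ ε (R 0))) at h4
        rwa [h5] at h4
      have h6 := not_noExc (S := R) (l := lns (fun _ => s) (fun _ => n) l) hΦ hε hok hd hn hsg
        hw2 hw1 (fun σ hσ => hw3 σ (Finset.mem_coe.2 hσ))
        (fun σ hσ => hw4 σ (Finset.mem_coe.2 hσ)) hal hNE J
      rcases h6 with ⟨σ, hσ, h7⟩ | h7 | h7 | h7
      · refine Or.inl ⟨(σ.1, σ.2.1), mem_AN.2 ⟨σ, hσ, rfl⟩, ?_⟩
        rw [coe_wS] at h7
        exact h7
      · exact Or.inr (Or.inl h7)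
      · exact Or.inr (Or.inr (Or.inl h7))
      · exact Or.inr (Or.inr (Or.inr (h7.sbad hΦ hε))))
  rw [pow_one, one_mul] at h3
  exact (ENNReal.mul_le_mul_iff_right (ENNReal.ofReal_pos.2 (GC.mu_pos hε)).ne' muE_ne_top).1 h3

theorem ExcNE.mono_weight {β β' : ℝ} (hβ : β ≤ β') (h : ExcNE Φ f₀ L T β) :
    ExcNE Φ f₀ L T β' := by
  intro ρ hρ
  filter_upwards [h ρ hρ] with ε hε s hs n hn
  refine le_trans (lintegral_mono fun z => ?_) (hε s hs n hn)
  exact mul_le_mul_left (gw_anti hβ _) _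

/-- **The exceptional event `¬NoExc` is negligible**, for every Gaussian weight. -/
theorem excNE (h : GoodDatum f₀ κ₀) (hΦ : IsPotential Φ) {b₀ β M₀ M₁ : ℝ} (hb₀ : 0 < b₀)
    (hM₀ : 0 ≤ M₀) (hf : ∀ z, f₀ z ≤ M₀ * Real.exp (-b₀ * ‖z.2‖ ^ 2)) (hM₁ : 0 ≤ M₁)
    (hmarg : ∀ v, ∫⁻ x, ENNReal.ofReal (f₀ (x, v)) ≤
      ENNReal.ofReal (M₁ * Real.exp (-b₀ * ‖v‖ ^ 2)))
    (hT : 0 ≤ T) (hβ : 0 < β) (L : ℕ) : ExcNE Φ f₀ L T β := by
  have hle : ∀ v : E3, Real.exp (-b₀ * ‖v‖ ^ 2) ≤ Real.exp (-(min b₀ β) * ‖v‖ ^ 2) := by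
    intro v
    refine Real.exp_le_exp.2 ?_
    have h1 := mul_le_mul_of_nonneg_right (min_le_left b₀ β) (sq_nonneg ‖v‖)
    linarith
  refine ExcNE.mono_weight (min_le_right b₀ β) (excNE_of h hΦ (lt_min hb₀ hβ) hM₀
    (fun z => (hf z).trans (mul_le_mul_of_nonneg_left (hle z.2) hM₀)) hM₁
    (fun v => (hmarg v).trans (ENNReal.ofReal_le_ofReal
      (mul_le_mul_of_nonneg_left (hle v) hM₁))) hT L)

end Vale.Agent.P119.PB.NE
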