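import Vale.Agent.P119.PB.ExcQ1
import Vale.Agent.P119.IND.PairW

/-!
# P119, block PROB, P9: the lines of a colliding pair interact, unconditional (`helper667`)

* `qDet`: the deterministic part (`RP.pairOut` of `helper621`);
* **`excQ1`**: the exceptional term `ExcQ1`.
-/

open MeasureTheory Filter Topology Set
open scoped ENNReal NNReal

noncomputable section

namespace Vale.Agent.P119.PB.XT

open M CTree KU FL FB RB AU TL GC IND ContExc

variable {Φ : E3 → ℝ} {T : ℝ} {f₀ : Ph → ℝ} {κ₀ b M₀ M₁ : ℝ}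

/-- The deterministic part of `ExcQ1`. -/
theorem qDet (hΦ : IsPotential Φ) (L : ℕ) (T : ℝ) : QDet hΦ L T := by
  intro ε hε x y w u J hc hun hzw hxw hinj _ _ hue hg
  have hRP : RP Φ ε L hΦ hε (wS w) (addT (wS w) (node x y)) x y := by
    refine ⟨coe_addT _ _, fun a ha => ?_, disjoint_left.2 fun σ h2 h3 =>
      hzw σ h3 (Finset.mem_coe.1 h2), hinj, hxw, hc.live, hun.1, hun.2⟩
    obtain ⟨z, hz, rfl⟩ := mem_wS.1 ha
    exact ⟨le_rfl, Nat.zero_le _⟩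
  have h1 := hRP.pairOut (V₀ := (wS w : Set Src)) (Subset.refl _) hue le_rfl hg J
  have e : {σ | ∃ A ∈ pks Φ ε x y, σ ∈ A} = {σ | ∃ z ∈ outs x ∪ outs y, rsrc Φ ε z = σ} := by
    ext σ
    exact mem_pks_iff
  rw [e]
  exact h1

/-- **The lines of a colliding pair interact**: the exceptional term `ExcQ1`. -/
theorem excQ1 (h : GoodDatum f₀ κ₀) (hΦ : IsPotential Φ) (hb : 0 < b) (hM₀ : 0 ≤ M₀)
    (hf : ∀ z, f₀ z ≤ M₀ * Real.exp (-b * ‖z.2‖ ^ 2)) (hM₁ : 0 ≤ M₁)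
    (hmarg : ∀ v, ∫⁻ x, ENNReal.ofReal (f₀ (x, v)) ≤
      ENNReal.ofReal (M₁ * Real.exp (-b * ‖v‖ ^ 2)))
    (hT : 0 ≤ T) (L : ℕ) : ContExc.ExcQ1 hΦ f₀ L T :=
  excQ1_of h hΦ hb hM₀ hf hM₁ hmarg hT L (qDet hΦ L T)

end Vale.Agent.P119.PB.XT
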