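import Vale.Agent.P119.PB.RLines
import Vale.Agent.P119.PB.PairGood

/-!
# P119, block PROB: trees related to inserted packets, classification (`helper758`)

Packet version of `PB/RLines` (`helper347`).  The worlds `wF V id I`, `wF V id J` are the ordinary
world `V` with the inserted packets `I`, `J ⊆ P` (for a pair `x`, `y`: `P = pks x y`, the lines of
`x` and `y` form one packet, the exhausts are singletons).

* `GoodP`: the lines of the tree `R` and the packets of `P` are distinct and do not interact;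
* `rel_old`: a tree `R ⊆ V` which is related to the difference has an altered particle, or
  `¬GoodP (V ∖ R) R P`;
* `alt_bad`: an altered particle `a` of `V` satisfies `¬GoodP (V ∖ a) (leaf a) P`;
* `relW_pk_le`: the weighted number of the related trees (with `RelX.tsum_rel_le` of `helper423`).
-/

open MeasureTheory Filter Topology Set
open scoped ENNReal NNReal

noncomputable section

namespace Vale.Agent.P119.PB

open M CTree KU FB RB AU TL

variable {Φ : E3 → ℝ} {ε : ℝ} {L : ℕ} {hΦ : IsPotential Φ} {hε : 0 < ε}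
  {U V W W₁ W₂ : Finset Src} {P P' I J : Finset (Finset Src)} {R S T : CTree} {s t : ℝ} {a : Src}

open Classical in
/-- The packets of the lines of `R`. -/
def spk (Φ : E3 → ℝ) (ε : ℝ) (R : CTree) : Finset (Finset Src) := (srcs Φ ε R).image sgl

theorem mem_spk {A : Finset Src} : A ∈ spk Φ ε R ↔ ∃ x ∈ outs R, sgl (rsrc Φ ε x) = A := by
  classical
  unfold spk
  rw [Finset.mem_image]
  constructor
  · rintro ⟨b, hb, rfl⟩
    obtain ⟨x, hx, rfl⟩ := mem_srcs.1 hb
    exact ⟨x, hx, rfl⟩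
  · rintro ⟨x, hx, rfl⟩
    exact ⟨_, mem_srcs.2 ⟨x, hx, rfl⟩, rfl⟩

open Classical in
/-- The lines of `R` and the packets of `P` are distinct, and they do not interact over `V`. -/
structure GoodP (Φ : E3 → ℝ) (ε : ℝ) (L : ℕ) (V : Finset Src) (R : CTree)
    (P : Finset (Finset Src)) (t : ℝ) : Prop where
  /-- distinct lines -/
  inj : InjOn (rsrc Φ ε) (outs R)
  /-- distinct packets -/
  disj : Disjoint (spk Φ ε R) P
  /-- no interaction -/
  good : Good Φ ε L V id (spk Φ ε R ∪ P) t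

theorem GoodP.mono (h : GoodP Φ ε L V R P t) (hst : s ≤ t) : GoodP Φ ε L V R P s :=
  ⟨h.inj, h.disj, h.good.mono hst⟩

theorem GoodP.subset (h : GoodP Φ ε L V R P t) (hI : I ⊆ P) : GoodP Φ ε L V R I t := by
  classical
  exact ⟨h.inj, h.disj.mono_right hI, h.good.subset (Finset.union_subset_union_right hI)⟩

theorem linePk_spk (hi : InjOn (rsrc Φ ε) (outs R)) :
    LinePk Φ ε R id (spk Φ ε R) (fun x => sgl (rsrc Φ ε x)) :=
  ⟨fun x hx => mem_spk.2 ⟨x, hx, rfl⟩, fun _ hk => mem_spk.1 hk, fun _ _ => rfl,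
    fun _ hx _ hy he => hi hx hy (Finset.singleton_injective he)⟩

namespace RPk

theorem mem_wF_id : a ∈ (wF U id I : Set Src) ↔ a ∈ U ∨ ∃ A ∈ I, a ∈ A := mem_wF

/-- The worlds without `R`. -/
theorem rm_wF_id (hI : ∀ A ∈ I, ∀ a ∈ A, a ∉ R.leaves) : rm (wF U id I) R = wF (rm U R) id I := by
  ext a
  rw [mem_rm, mem_wF, mem_wF, mem_rm]
  constructor
  · rintro ⟨h | h, h2⟩
    · exact Or.inl ⟨h, h2⟩
    · exact Or.inr h
  · rintro (h | ⟨A, hA, h⟩)
    · exact ⟨Or.inl h.1, h.2⟩
    · exact ⟨Or.inr ⟨A, hA, h⟩, hI A hA a h⟩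

/-- **Squares from the lines of `R`**, `R ⊆ U`. -/
theorem square_of_goodP (hT : R.leaves ⊆ (U : Set Src)) (hI : I ⊆ P) (hJ : J ⊆ P)
    (hP : ∀ A ∈ P, ∀ a ∈ A, a ∉ R.leaves) (ht : ext Φ ε R ≤ t) (hg : GoodP Φ ε L (rm U R) R P t)
    (n₁ : Nice Φ ε L (wF U id I) R) (n₂ : Nice Φ ε L (wF U id J) R) :
    FB.Sys.Square (RB.Y Φ ε L hΦ hε) (rm (wF U id I) R) (rm (wF U id J) R) (wF U id I)
      (wF U id J) t := by
  classical
  rw [rm_wF_id fun A hA => hP A (hI hA), rm_wF_id fun A hA => hP A (hJ hA)]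
  have hdis : ∀ I', I' ⊆ P → Disjoint (wF (rm U R) id I' : Set Src) R.leaves := by
    intro I' hI'
    refine disjoint_left.2 fun a h1 h2 => ?_
    rcases mem_wF_id.1 h1 with h1 | ⟨A, hA, h1⟩
    · exact (mem_rm.1 h1).2 h2
    · exact hP A (hI' hA) a h1 h2
  have heq : ∀ I', (wF U id I' : Set Src) = (wF (rm U R) id I' : Set Src) ∪ R.leaves := by
    intro I'
    ext a
    rw [mem_union, mem_wF_id, mem_wF_id, mem_rm]
    constructor
    · rintro (h | h)
      · by_cases h2 : a ∈ R.leaves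
        · exact Or.inr h2
        · exact Or.inl (Or.inl ⟨h, h2⟩)
      · exact Or.inl (Or.inr h)
    · rintro ((h | h) | h)
      · exact Or.inl h.1
      · exact Or.inr h
      · exact Or.inl (Finset.mem_coe.1 (hT h))
  exact square_of_lines (K := spk Φ ε R ∪ P) (linePk_spk hg.inj) Finset.subset_union_left
    (hI.trans Finset.subset_union_right) (hJ.trans Finset.subset_union_right)
    (hg.disj.mono_right hI).symm (hg.disj.mono_right hJ).symm hg.good ht (hdis I hI) (hdis J hJ)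
    (heq I) (heq J) n₁ n₂

/-- **A related tree of the ordinary world**: an altered particle, or its lines interact with the
inserted packets over the rest of the world. -/
theorem rel_old (hI : I ⊆ P) (hJ : J ⊆ P) (hP : ∀ A ∈ P, ∀ a ∈ A, a ∉ V)
    (h : Rel L hΦ hε (wF V id I) (wF V id J) t R) (hR : R.leaves ⊆ (V : Set Src)) :
    (∃ a ∈ R.leaves, a ∈ (RB.Y Φ ε L hΦ hε).D (wF V id I) (wF V id J) t) ∨
      ¬GoodP Φ ε L (rm V R) R P t := by
  by_contra hcon
  push Not at hcon
  obtain ⟨h1, h2⟩ := hcon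
  have n₂ : Nice Φ ε L (wF V id J) R := Nice.of_not_exp h.alive h.root
  exact h.rel (square_of_goodP hR hI hJ (fun A hA a ha h3 => hP A hA a ha (Finset.mem_coe.1 (hR h3)))
    h.ext_le h2 (n₂.congr hΦ hε h.ext_le h1) n₂)

theorem spk_leaf : spk Φ ε (leaf a) = {sgl a} := by
  ext A
  rw [mem_spk, RLn.outs_leaf, Finset.mem_singleton]
  constructor
  · rintro ⟨x, hx, rfl⟩
    rw [mem_singleton_iff.1 hx]
    rfl
  · rintro rfl
    exact ⟨leaf a, rfl, rfl⟩

/-- **An altered particle of the ordinary world.** -/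
theorem alt_bad (hI : I ⊆ P) (hJ : J ⊆ P) (ha : a ∈ V)
    (h : a ∈ (RB.Y Φ ε L hΦ hε).D (wF V id I) (wF V id J) t) :
    ¬GoodP Φ ε L (rm V (leaf a)) (leaf a) P t := by
  classical
  intro hg
  have hgood := hg.good
  rw [spk_leaf] at hgood
  have haP : sgl a ∉ P := by
    have h1 := hg.disj
    rw [spk_leaf] at h1
    exact Finset.disjoint_singleton_left.1 h1
  have hsgl : ∀ b : Src, b ∈ sgl a ↔ b = a := fun b => Finset.mem_singleton
  -- the index of the particle
  have key : ∀ I', I' ⊆ P → (wF V id I' : Set Src) =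
      (wF (rm V (leaf a)) id ({sgl a} ∪ I') : Set Src) := by
    intro I' _
    ext b
    rw [mem_wF_id, mem_wF_id, mem_rm]
    constructor
    · rintro (h | ⟨A, hA, h⟩)
      · by_cases hb : b = a
        · exact Or.inr ⟨sgl a, Finset.mem_union_left _ (Finset.mem_singleton_self _),
            (hsgl b).2 hb⟩
        · exact Or.inl ⟨h, fun h' => hb h'⟩
      · exact Or.inr ⟨A, Finset.mem_union_right _ hA, h⟩
    · rintro (h | ⟨A, hA, h⟩)
      · exact Or.inl h.1
      · rcases Finset.mem_union.1 hA with hA | hA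
        · rw [Finset.mem_singleton.1 hA, hsgl] at h
          rw [h]
          exact Or.inl ha
        · exact Or.inr ⟨A, hA, h⟩
  obtain ⟨s, hs, hne⟩ := h
  obtain ⟨i, hi⟩ := hgood.sta_dep hΦ hε a
  refine hne ?_
  change sta Φ ε L (wF V id I : Set Src) a s = sta Φ ε L (wF V id J : Set Src) a s
  rw [key I hI, key J hJ]
  -- the index is `sgl a` itself: compare the worlds with and without `a`
  have hia : i = sgl a := by
    by_contra hia
    have h1 := hi ∅ {sgl a} (Finset.empty_subset _) (Finset.subset_union_left)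
      (by simp [hia]) s hs
    have h2 : a ∈ wF (rm V (leaf a)) id {sgl a} :=
      mem_wF.2 (Or.inr ⟨sgl a, Finset.mem_singleton_self _, (hsgl a).2 rfl⟩)
    have h3 : a ∉ wF (rm V (leaf a)) id ∅ := by
      intro h4
      rcases mem_wF.1 h4 with h5 | ⟨A, hA, -⟩
      · exact (mem_rm.1 h5).2 rfl
      · exact absurd hA (Finset.notMem_empty _)
    exact sta_ne_of_mem (t := s)
      (fun h4 => h3 (Finset.mem_coe.1 (h4.2 (Finset.mem_coe.2 h2)))) h1
  refine hi _ _ (Finset.union_subset_union_right hI) (Finset.union_subset_union_right hJ) ?_ s hs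
  rw [hia]
  simp

end RPk

/-- The bad event of a second tree. -/
def BadP (Φ : E3 → ℝ) (ε : ℝ) (L : ℕ) (P : Finset (Finset Src)) (t : ℝ) (V : Finset Src)
    (R : CTree) : Prop := ¬GoodP Φ ε L V R P t

theorem BadP.mono_P (hP : P' ⊆ P) (h : BadP Φ ε L P' t V R) :
    BadP Φ ε L P t V R := fun hg => h (hg.subset hP)

theorem BadP.mono (hst : s ≤ t) (h : BadP Φ ε L P s V R) : BadP Φ ε L P t V R :=
  fun hg => h (hg.mono hst)

namespace RPk

/-- **The weighted number of the trees related to inserted packets.** -/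
theorem relW_pk_le (hε : 0 < ε) {C : ℝ} (hC : 1 ≤ C) (hI : I ⊆ P) (hJ : J ⊆ P)
    (hP : ∀ A ∈ P, ∀ a ∈ A, a ∉ V) (hV : ∀ a ∈ V, 0 ≤ a.1 ∧ a.1 ≤ t ∧ a.2.2 ≤ L)
    {B : Finset Src} (hB : ∀ A ∈ J, ∀ a ∈ A, a ∈ B) :
    relW L hΦ hε (wF V id I) (wF V id J) t ≤
      ENNReal.ofReal ((1 + C) * 2 ^ (L + 1)) * (B.card + RelX.NB Φ ε L t (BadP Φ ε L P t) V) +
        (RelX.NB Φ ε L t (BadP Φ ε L P t) V +
          ENNReal.ofReal (2 * (L + 1) / C) * ENNReal.ofReal (EW (wF V id J))) := by
  classical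
  refine le_trans (le_of_eq ?_) (RelX.tsum_rel_le hΦ hε hC (P := fun R =>
    Rel L hΦ hε (wF V id I) (wF V id J) t R) (V := V) (B := B) (W₂ := wF V id J)
    (Bad := BadP Φ ε L P t)
    (Alt := fun a => a ∈ (RB.Y Φ ε L hΦ hε).D (wF V id I) (wF V id J) t)
    (fun R h => ⟨h.alive, h.ext_le⟩) (fun a ha => ?_) hV
    (fun R h hR => rel_old hI hJ hP h hR) fun a ha h => alt_bad hI hJ ha h)
  · unfold relW
    rfl
  · rcases mem_wF.1 ha with h | ⟨A, hA, h⟩
    · exact Or.inl h
    · exact Or.inr (hB A hA a h)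

end RPk

end Vale.Agent.P119.PB
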