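import Vale.Agent.P119.PB.GoodPLaw
import Vale.Agent.P119.RM.GoodP

/-!
# P119, block PROB, P9: the trees related to the lines of a colliding pair (`helper758`)

* `BadG`: the tree `R` is nice in the world of lines, and its lines interact with those of the pair;
* `relPk_small`: the law of the trees which are related to the difference between the world `lw2` and
  the world of some of the packets of the pair (arbitrary choice);
* **`excQ3`**, **`excQ4`**.
-/

open MeasureTheory Filter Topology Set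
open scoped ENNReal NNReal

noncomputable section

namespace Vale.Agent.P119.PB.XR

open M CTree KU FL FB RB AU TL GC IND PB.XT PB.RelX PB.PL ContExc

variable {Φ : E3 → ℝ} {ε T t u : ℝ} {L : ℕ} {S R x y z : CTree} {U V W : Finset Src} {f₀ : Ph → ℝ}
  {κ₀ b c M₀ M₁ : ℝ} {a : Src} {hΦ : IsPotential Φ} {hε : 0 < ε}

/-! ### Particles -/

/-- A particle has no history before its birth. -/
theorem stat_none_of_lt (hΦ : IsPotential Φ) (hε : 0 < ε) {s : ℝ} (h : s < a.1) :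
    stat Φ ε L (W : Set Src) a s = none := by
  refine Option.eq_none_iff_forall_ne_some.2 fun T hT => ?_
  obtain ⟨h1, h2⟩ := (stat_eq_some_iff hΦ hε W.finite_toSet).1 hT
  have h3 := (root_birth_le_sig hΦ hε h2.ok).trans h2.sig_le
  rw [h1] at h3
  exact absurd h3 (not_le.2 h)

/-- An altered particle is born. -/
theorem birth_le_of_D {W₁ W₂ : Finset Src} (h1 : a ∈ W₁) (h2 : a ∈ W₂)
    (h : a ∈ (RB.Y Φ ε L hΦ hε).D W₁ W₂ t) : a.1 ≤ t := by
  obtain ⟨s, hs, hne⟩ := h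
  by_contra hcon
  have hsa : s < a.1 := hs.trans_lt (not_le.1 hcon)
  refine hne ?_
  change RB.sta Φ ε L (W₁ : Set Src) a s = RB.sta Φ ε L (W₂ : Set Src) a s
  have hb : ∀ W : Finset Src, ¬badc Φ ε L (W : Set Src) a s := fun W h3 =>
    absurd h3.birth_le (not_le.2 hsa)
  unfold RB.sta
  rw [stat_none_of_lt hΦ hε hsa, stat_none_of_lt hΦ hε hsa]
  have e1 : (a ∈ (W₁ : Set Src)) = (a ∈ (W₂ : Set Src)) :=
    propext ⟨fun _ => Finset.mem_coe.2 h2, fun _ => Finset.mem_coe.2 h1⟩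
  have e2 : badc Φ ε L (W₁ : Set Src) a s = badc Φ ε L (W₂ : Set Src) a s :=
    propext ⟨fun h => absurd h (hb W₁), fun h => absurd h (hb W₂)⟩
  rw [e1, e2]

/-- A particle at its birth. -/
theorem nice_leafP (hΦ : IsPotential Φ) (hε : 0 < ε) (ha : a ∈ V) (h : 0 ≤ a.1 ∧ a.2.2 ≤ L) :
    Nice Φ ε L V (leaf a) := by
  refine ⟨(alive_iff hΦ hε V.finite_toSet).2 ⟨⟨?_, h.1, h.2, le_rfl⟩, fun T' s hs hh _ => ?_⟩,
    fun x hx s hs hb => ?_⟩
  · intro c hc
    rw [show c = a from hc]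
    exact ha
  · exact absurd hh.1 (not_le.2 hs)
  · rcases hx with rfl | hx
    · exact absurd hb.2.2.1 (not_le.2 hs)
    · exact absurd hx (notMem_empty _)

/-! ### The bad event -/

variable (T L) in
/-- The tree `R` is nice in the world of lines and its lines interact with those of the pair, in the
world with `R`. -/
def BadG (hΦ : IsPotential Φ) (hε : 0 < ε) (u : ℝ) (x y : CTree) (V : Finset Src) (R : CTree) :
    Prop :=
  coT Φ ε L T (addT V R) x y ∧ GdP L hΦ hε u (addT V R) x y ∧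
    Nice Φ ε L (lw2 Φ ε (addT V R) x y) R ∧ ext Φ ε R ≤ u ∧ ¬GoodP Φ ε L V R (pks Φ ε x y) u

theorem measurableSet_BadG (hΦ : IsPotential Φ) (hε : 0 < ε) {g : CTree → CTree → ℝ}
    (hg : Measurable fun p : CTree × CTree => g p.1 p.2) :
    MeasurableSet {p : ((CTree × CTree) × CTree) × Conf Ph |
      BadG T L hΦ hε (g p.1.1.1 p.1.1.2) p.1.1.1 p.1.1.2 (wS (pts p.2)) p.1.2} := by
  have hV : MM.RS fun p : ((CTree × CTree) × CTree) × Conf Ph =>
      ((wS (pts p.2) : Finset Src) : Set Src) := RM.rs_wS measurable_snd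
  have hx : Measurable fun p : ((CTree × CTree) × CTree) × Conf Ph => p.1.1.1 := by fun_prop
  have hy : Measurable fun p : ((CTree × CTree) × CTree) × Conf Ph => p.1.1.2 := by fun_prop
  have hR : Measurable fun p : ((CTree × CTree) × CTree) × Conf Ph => p.1.2 := by fun_prop
  have hu : Measurable fun p : ((CTree × CTree) × CTree) × Conf Ph => g p.1.1.1 p.1.1.2 :=
    hg.comp (by fun_prop : Measurable fun p : ((CTree × CTree) × CTree) × Conf Ph =>
      (p.1.1.1, p.1.1.2))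
  have hU := rs_addT hV hR
  have hn : Measurable fun p : ((CTree × CTree) × CTree) × Conf Ph => node p.1.1.1 p.1.1.2 :=
    measurable_node.comp (hx.prodMk hy)
  have hUS := rs_addT hU hn
  have hs : Measurable fun p : ((CTree × CTree) × CTree) × Conf Ph =>
      sig Φ ε (node p.1.1.1 p.1.1.2) := MM.meas_sig hΦ hε.ne' hn
  have h1 := measurableSet_coT (L := L) hΦ hε hU hx hy (measurable_const (a := T))
  have h2 : MeasurableSet {p : ((CTree × CTree) × CTree) × Conf Ph |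
      GdP L hΦ hε (g p.1.1.1 p.1.1.2) (addT (wS (pts p.2)) p.1.2) p.1.1.1 p.1.1.2} :=
    (((RM.msys_Y hΦ hε).measurableSet_exp hUS (MM.meas_root hx) hs).compl.inter
      ((RM.msys_Y hΦ hε).measurableSet_exp hUS (MM.meas_root hy) hs).compl).inter
      ((measurableSet_le hs hu).inter (RM.measurableSet_PGood (L := L) hΦ hε hU hx hy hu))
  have h3 := RM.measurableSet_Nice (L := L) hΦ hε (RM.rs_lw2 hΦ hε hU hx hy) hR
  have h4 : MeasurableSet {p : ((CTree × CTree) × CTree) × Conf Ph |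
      ext Φ ε p.1.2 ≤ g p.1.1.1 p.1.1.2} :=
    measurableSet_le ((measurable_ext hΦ hε.ne').comp hR) hu
  have h5 := RM.measurableSet_GoodP (L := L) hΦ hε hV hx hy hR hu
  exact h1.inter (h2.inter (h3.inter (h4.inter h5.compl)))

/-- An altered particle of the pair `x`, `y`. -/
def AltG (L : ℕ) (T : ℝ) (hΦ : IsPotential Φ) (hε : 0 < ε) (u : ℝ) (x y : CTree)
    (U : Finset Src) (a : Src) : Prop :=
  coT Φ ε L T U x y ∧ GdP L hΦ hε u U x y ∧ ∃ J ⊆ pks Φ ε x y,
    a ∈ (RB.Y Φ ε L hΦ hε).D (lw2 Φ ε U x y) (wF U id J) u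

theorem mem_pks_notMem (hP : PGood Φ ε L U x y u) : ∀ A ∈ pks Φ ε x y, ∀ a ∈ A, a ∉ U :=
  fun A hA _ ha hU => Finset.disjoint_left.1 (hP.good.disjV A hA) hU ha

/-- **A related tree.** -/
theorem rel_badG (hc : coT Φ ε L T U x y) (hG : GdP L hΦ hε u U x y)
    {J : Finset (Finset Src)} (hJ : J ⊆ pks Φ ε x y)
    (hR : Rel L hΦ hε (lw2 Φ ε U x y) (wF U id J) u R) (hRU : R.leaves ⊆ (U : Set Src)) :
    (∃ a ∈ R.leaves, AltG L T hΦ hε u x y U a) ∨ BadG T L hΦ hε u x y (rm U R) R := by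
  by_cases halt : ∃ a ∈ R.leaves, a ∈ (RB.Y Φ ε L hΦ hε).D (lw2 Φ ε U x y) (wF U id J) u
  · obtain ⟨a, ha, h1⟩ := halt
    exact Or.inl ⟨a, ha, hc, hG, J, hJ, h1⟩
  right
  have hn := halt
  push Not at hn
  have n₂ : Nice Φ ε L (wF U id J) R := Nice.of_not_exp hR.alive hR.root
  have n₁ : Nice Φ ε L (lw2 Φ ε U x y) R := n₂.congr hΦ hε hR.ext_le hn
  have h1 := (RPk.rel_old (I := pks Φ ε x y) (P := pks Φ ε x y) (Finset.Subset.refl _) hJ
    (mem_pks_notMem hG.2.2) hR hRU).resolve_left halt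
  refine ⟨?_, ?_, ?_, hR.ext_le, h1⟩
  · rw [XR.addT_rm hRU]; exact hc
  · rw [XR.addT_rm hRU]; exact hG
  · rw [XR.addT_rm hRU]; exact n₁

/-- **An altered particle.** -/
theorem alt_badG (ha : a ∈ U) (h : AltG L T hΦ hε u x y U a) :
    BadG T L hΦ hε u x y (rm U (leaf a)) (leaf a) := by
  obtain ⟨hc, hG, J, hJ, h1⟩ := h
  have hRU : (leaf a).leaves ⊆ (U : Set Src) := singleton_subset_iff.2 (Finset.mem_coe.2 ha)
  have ha1 : a ∈ lw2 Φ ε U x y := mem_lw2.2 (Or.inl ha)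
  have ha2 : a ∈ wF U id J := mem_wF.2 (Or.inl ha)
  have h2 := RPk.alt_bad (I := pks Φ ε x y) (P := pks Φ ε x y) (Finset.Subset.refl _) hJ ha h1
  refine ⟨?_, ?_, ?_, birth_le_of_D ha1 ha2 h1, h2⟩
  · rw [XR.addT_rm hRU]; exact hc
  · rw [XR.addT_rm hRU]; exact hG
  · rw [XR.addT_rm hRU]
    exact nice_leafP hΦ hε ha1 (hG.2.2.good.birthV a ha)

/-! ### The limit -/

/-- The relations. -/
def XG (hΦ : IsPotential Φ) (L : ℕ) (T : ℝ) (J : ℕ) : Set Rln := irrs hΦ T (NP L J) 2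

open Classical in
/-- **The law of the trees related to the lines of one colliding pair**, uniformly in the choice of
the packets. -/
theorem relPk_small (h : GoodDatum f₀ κ₀) (hΦ : IsPotential Φ) (hb : 0 < b)
    (hM₀ : 0 ≤ M₀) (hf : ∀ z, f₀ z ≤ M₀ * Real.exp (-b * ‖z.2‖ ^ 2)) (hM₁ : 0 ≤ M₁)
    (hmarg : ∀ v, ∫⁻ x, ENNReal.ofReal (f₀ (x, v)) ≤
      ENNReal.ofReal (M₁ * Real.exp (-b * ‖v‖ ^ 2)))
    (hT : 0 ≤ T) (L : ℕ) :
    ∃ Dl : ℝ → ℝ≥0∞, Tendsto Dl (𝓝[>] 0) (𝓝 0) ∧ ∀ (ε : ℝ) (hε : 0 < ε), ε ≤ 1 → ∀ n : ℕ,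
      ∀ k : ℝ≥0∞, k ≠ ∞ → ∀ J : Finset Src → CTree → CTree → Finset (Finset Src),
      (∀ U x y, J U x y ⊆ pks Φ ε x y) → ∀ Q : Finset Src → CTree → CTree → ℝ≥0∞,
      (Measurable fun p : (CTree × CTree) × Conf Ph => Q (wS (pts p.2)) p.1.1 p.1.2) →
      (∀ U x y, coT Φ ε L T U x y → Q U x y ≤ ind (GdP L hΦ hε (un Φ ε T x y n) U x y) *
        relW L hΦ hε (lw2 Φ ε U x y) (wF U id (J U x y)) (un Φ ε T x y n)) →
      (muE ε)⁻¹ * ((muE ε)⁻¹ * XP Φ ε L f₀ T (fun U x y => (k * wqP Φ ε x y) * Q U x y)) ≤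
        k * Dl ε := by
  obtain ⟨Dl, hDl, h1⟩ := XP_rel_le (c := b / 8) h hΦ hb (by positivity) (by linarith) hM₀ hf hM₁
    hmarg L (fun J => NP L J) hT (X := XG hΦ L T)
    (fun J => irrs_finite hΦ T _ 2)
    (fun J r hr => irrs_small hΦ h.meas hM₁ hmarg (by linarith) hT hr)
  refine ⟨fun ε => ENNReal.ofReal (1 + 8 / b) * Dl ε, ?_, ?_⟩
  · have h3 := ENNReal.Tendsto.const_mul (a := ENNReal.ofReal (1 + 8 / b)) hDl
      (Or.inr ENNReal.ofReal_ne_top)
    rwa [mul_zero] at h3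
  intro ε hε hε1 n k hk J hJ Q hQm hQ
  have hun := measurable_un hΦ hε T n
  refine le_trans ?_ (le_of_eq (mul_assoc k (ENNReal.ofReal (1 + 8 / b)) (Dl ε)))
  refine h1 ε hε hε1 (k * ENNReal.ofReal (1 + 8 / b)) (ENNReal.mul_ne_top hk
      ENNReal.ofReal_ne_top) (fun x y => k * wqP Φ ε x y)
    ((measurable_wqP hΦ hε measurable_fst measurable_snd).const_mul k) (fun x y _ => ?_)
    (fun x y => ENNReal.mul_ne_top hk ENNReal.ofReal_ne_top)
    (fun U x y R => GdP L hΦ hε (un Φ ε T x y n) U x y ∧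
      Rel L hΦ hε (lw2 Φ ε U x y) (wF U id (J U x y)) (un Φ ε T x y n) R) Q hQm ?_
    (fun U x y => wF U id (J U x y)) ?_ ?_
    (fun x y V R => BadG T L hΦ hε (un Φ ε T x y n) x y V R) 
    (measurableSet_BadG (g := fun x y => un Φ ε T x y n) hΦ hε hun)
    (fun x y U a => AltG L T hΦ hε (un Φ ε T x y n) x y U a) ?_ ?_ ?_
  · rw [mul_assoc]
    exact mul_le_mul_right (wqP_exp_le hΦ hε hb) _
  · intro U x y hco _
    refine (hQ U x y hco).trans ?_
    by_cases hN : GdP L hΦ hε (un Φ ε T x y n) U x y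
    · rw [ind_of hN, one_mul]
      unfold relW
      refine ENNReal.tsum_le_tsum fun R => ?_
      by_cases hR : Rel L hΦ hε (lw2 Φ ε U x y) (wF U id (J U x y)) (un Φ ε T x y n) R
      · rw [if_pos hR, if_pos ⟨hN, hR⟩]
        exact le_rfl
      · rw [if_neg hR]
        exact zero_le
    · rw [ind_of_not hN, zero_mul]
      exact zero_le
  · intro U x y _ R hP
    exact ⟨hP.2.alive, hP.2.ext_le.trans un_le⟩
  · intro U x y _ a ha
    rcases mem_wF.1 ha with h2 | ⟨A, hA, h2⟩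
    · exact Or.inl h2
    · exact mem_lw2.1 (mem_wF.2 (Or.inr ⟨A, hJ U x y hA, h2⟩))
  · intro U x y hco _ R hP hR
    exact rel_badG hco hP.1 (hJ U x y) hP.2 hR
  · intro U x y _ a ha hA
    exact alt_badG ha hA
  · intro J' x y R hxy hR l hB
    have h3 := XT.ae_forall_notMem_wS (ε := ε) h hε.le
      (A := ((node x y).leaves ∪ R.leaves) ∪ (msrc Φ ε (ext Φ ε) '' (outs x ∪ outs y) ∪
        (srcs Φ ε R : Set Src)))
      (((node x y).leaves_finite.union R.leaves_finite).union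
        ((((outs_finite x).union (outs_finite y)).image _).union (srcs Φ ε R).finite_toSet))
    filter_upwards [h3] with w hw hbad
    have hzw : ∀ σ ∈ (node x y).leaves, σ ∉ wS (pts w) := fun σ hσ => hw σ (Or.inl (Or.inl hσ))
    have hRw : ∀ σ ∈ R.leaves, σ ∉ wS (pts w) := fun σ hσ => hw σ (Or.inl (Or.inr hσ))
    have hRw' : ∀ σ ∈ srcs Φ ε R, σ ∉ wS (pts w) := fun σ hσ => hw σ (Or.inr (Or.inr hσ))
    obtain ⟨g1, g2, g3, g4, g5⟩ := hbad
    have h4 := goodPLaw hΦ hT L ε hε x y R l (pts w) _ hxy hR hB hzw hRw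
      (fun z hz => hw _ (Or.inr (Or.inl ⟨z, hz, rfl⟩))) hRw' g1 g2 un_le un_lt g3 g4 g5 J'
    rcases h4 with ⟨σ, hσ, h5⟩ | h5 | h5 | h5
    · left
      obtain ⟨z, hz, rfl⟩ := hσ
      exact ⟨z, hz, h5⟩
    · exact Or.inr (Or.inl h5)
    · exact Or.inr (Or.inr (Or.inl h5))
    · exact Or.inr (Or.inr (Or.inr (h5.sbad hΦ hε)))

theorem ev_le_one : ∀ᶠ ε : ℝ in 𝓝[>] 0, ε ≤ 1 :=
  eventually_nhdsWithin_of_eventually_nhds (eventually_le_nhds one_pos)

theorem measurableSet_GdP_un (hΦ : IsPotential Φ) (hε : 0 < ε) (n : ℕ) :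
    MeasurableSet {p : (CTree × CTree) × Conf Ph |
      GdP L hΦ hε (un Φ ε T p.1.1 p.1.2 n) (wS (pts p.2)) p.1.1 p.1.2} := by
  have mU : MM.RS fun p : (CTree × CTree) × Conf Ph => ((wS (pts p.2) : Finset Src) : Set Src) :=
    rs_wS_pair
  have mx : Measurable fun p : (CTree × CTree) × Conf Ph => p.1.1 := by fun_prop
  have my : Measurable fun p : (CTree × CTree) × Conf Ph => p.1.2 := by fun_prop
  have mu : Measurable fun p : (CTree × CTree) × Conf Ph => un Φ ε T p.1.1 p.1.2 n :=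
    (measurable_un hΦ hε T n).comp measurable_fst
  have hn : Measurable fun p : (CTree × CTree) × Conf Ph => node p.1.1 p.1.2 :=
    measurable_node.comp (mx.prodMk my)
  have hs : Measurable fun p : (CTree × CTree) × Conf Ph => sig Φ ε (node p.1.1 p.1.2) :=
    MM.meas_sig hΦ hε.ne' hn
  exact measurableSet_UnP.inter ((measurableSet_le hs mu).inter
    (RM.measurableSet_PGood (L := L) hΦ hε mU mx my mu))

open Classical in
/-- **`ExcQ3`.** -/
theorem excQ3 (h : GoodDatum f₀ κ₀) (hΦ : IsPotential Φ) (hb : 0 < b)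
    (hM₀ : 0 ≤ M₀) (hf : ∀ z, f₀ z ≤ M₀ * Real.exp (-b * ‖z.2‖ ^ 2)) (hM₁ : 0 ≤ M₁)
    (hmarg : ∀ v, ∫⁻ x, ENNReal.ofReal (f₀ (x, v)) ≤
      ENNReal.ofReal (M₁ * Real.exp (-b * ‖v‖ ^ 2)))
    (hT : 0 ≤ T) (L : ℕ) : ContExc.ExcQ3 hΦ f₀ L T := by
  obtain ⟨Dl, hDl, h1⟩ := relPk_small h hΦ hb hM₀ hf hM₁ hmarg hT L
  intro ρ hρ
  filter_upwards [ev_le_one, (ENNReal.tendsto_nhds_zero.1 hDl) (ENNReal.ofReal ρ)
    (ENNReal.ofReal_pos.2 hρ)] with ε hε1 hsm hε n
  have mU : MM.RS fun p : (CTree × CTree) × Conf Ph => ((wS (pts p.2) : Finset Src) : Set Src) :=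
    rs_wS_pair
  have mx : Measurable fun p : (CTree × CTree) × Conf Ph => p.1.1 := by fun_prop
  have my : Measurable fun p : (CTree × CTree) × Conf Ph => p.1.2 := by fun_prop
  have mu : Measurable fun p : (CTree × CTree) × Conf Ph => un Φ ε T p.1.1 p.1.2 n :=
    (measurable_un hΦ hε T n).comp measurable_fst
  have h2 := h1 ε hε hε1 n 1 ENNReal.one_ne_top (fun _ _ _ => ∅)
    (fun _ _ _ => Finset.empty_subset _)
    (fun U x y => ind (GdP L hΦ hε (un Φ ε T x y n) U x y) *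
      relW L hΦ hε (lw2 Φ ε U x y) U (un Φ ε T x y n))
    ((measurable_ind (measurableSet_GdP_un hΦ hε n)).mul
      (RM.measurable_relW (RM.rs_lw2 hΦ hε mU mx my) mU mu))
    (fun U x y _ => le_of_eq (by rw [wF_empty]))
  simp only [one_mul] at h2
  exact h2.trans hsm

open Classical in
/-- The maximum over the exhausts. -/
theorem exists_packet (f : Finset Src → ℝ≥0∞) (hd : (node x y).depth ≤ L) :
    ∃ J ⊆ pks Φ ε x y, exsum x (fun e => f (insert (rsrc Φ ε e) U)) +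
      exsum y (fun e => f (insert (rsrc Φ ε e) U)) ≤ 2 ^ (L + 1) * f (wF U id J) := by
  have hdx : x.depth ≤ L := (le_max_left x.depth y.depth).trans (Nat.le_of_succ_le hd)
  have hdy : y.depth ≤ L := (le_max_right x.depth y.depth).trans (Nat.le_of_succ_le hd)
  obtain ⟨g, hg⟩ : ∃ g : CTree → ℝ≥0∞, ∀ e, g e = f (insert (rsrc Φ ε e) U) := ⟨_, fun _ => rfl⟩
  have hfin : (exs x ∪ exs y).Finite := (exs_finite x).union (exs_finite y)
  have hg' : (fun e => f (insert (rsrc Φ ε e) U)) = g := funext fun e => (hg e).symm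
  rw [hg']
  rcases (exs x ∪ exs y).eq_empty_or_nonempty with h0 | hne
  · refine ⟨∅, Finset.empty_subset _, ?_⟩
    rw [union_empty_iff] at h0
    have e0 : ∀ T : CTree, exs T = ∅ → exsum T g = 0 := by
      intro T hT
      unfold exsum
      rw [hT]
      simp
    rw [e0 x h0.1, e0 y h0.2, add_zero]
    exact zero_le
  · obtain ⟨e, he, hmax⟩ := hfin.toFinset.exists_max_image g
      ((hfin.toFinset_nonempty).2 hne)
    rw [hfin.mem_toFinset] at he
    refine ⟨{sgl (rsrc Φ ε e)}, Finset.singleton_subset_iff.2 (sgl_mem_pks he), ?_⟩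
    have e1 : wF U id {sgl (rsrc Φ ε e)} = insert (rsrc Φ ε e) U := by
      ext a
      rw [mem_wF, Finset.mem_insert]
      constructor
      · rintro (h | ⟨A, hA, h⟩)
        · exact Or.inr h
        · rw [Finset.mem_singleton.1 hA] at h
          exact Or.inl (Finset.mem_singleton.1 h)
      · rintro (h | h)
        · exact Or.inr ⟨_, Finset.mem_singleton_self _, Finset.mem_singleton.2 h⟩
        · exact Or.inl h
    rw [e1, ← hg e]
    have key : ∀ T : CTree, T.depth ≤ L → (∀ z ∈ exs T, g z ≤ g e) →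
        exsum T g ≤ 2 ^ L * g e := by
      intro T hT hz
      refine (exsum_mono (ψ := fun _ => g e * ind True) fun z hz' => ?_).trans ?_
      · rw [ind_of trivial, mul_one]
        exact hz z hz'
      · rw [EX.exsum_mul_left, mul_comm]
        refine mul_le_mul_left ((EX.exsum_const_le hT True).trans ?_) _
        rw [ind_of trivial, mul_one]
    refine (add_le_add (key x hdx fun z hz => hmax z (hfin.mem_toFinset.2 (Or.inl hz)))
      (key y hdy fun z hz => hmax z (hfin.mem_toFinset.2 (Or.inr hz)))).trans (le_of_eq ?_)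
    rw [pow_succ]
    ring

open Classical in
/-- **`ExcQ4`.** -/
theorem excQ4 (h : GoodDatum f₀ κ₀) (hΦ : IsPotential Φ) (hb : 0 < b)
    (hM₀ : 0 ≤ M₀) (hf : ∀ z, f₀ z ≤ M₀ * Real.exp (-b * ‖z.2‖ ^ 2)) (hM₁ : 0 ≤ M₁)
    (hmarg : ∀ v, ∫⁻ x, ENNReal.ofReal (f₀ (x, v)) ≤
      ENNReal.ofReal (M₁ * Real.exp (-b * ‖v‖ ^ 2)))
    (hT : 0 ≤ T) (L : ℕ) : ContExc.ExcQ4 hΦ f₀ L T := by
  obtain ⟨Dl, hDl, h1⟩ := relPk_small h hΦ hb hM₀ hf hM₁ hmarg hT L
  obtain ⟨k, hk⟩ : ∃ k : ℝ≥0∞, k = 2 ^ (L + 1) := ⟨_, rfl⟩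
  have hk0 : k ≠ 0 := by rw [hk]; positivity
  have hkt : k ≠ ∞ := by rw [hk]; exact ENNReal.pow_ne_top ENNReal.ofNat_ne_top
  have hDl' : Tendsto (fun ε => k * Dl ε) (𝓝[>] 0) (𝓝 0) := by
    have h3 := ENNReal.Tendsto.const_mul (a := k) hDl (Or.inr hkt)
    rwa [mul_zero] at h3
  intro ρ hρ
  filter_upwards [ev_le_one, (ENNReal.tendsto_nhds_zero.1 hDl') (ENNReal.ofReal ρ)
    (ENNReal.ofReal_pos.2 hρ)] with ε hε1 hsm hε n
  have mU : MM.RS fun p : (CTree × CTree) × Conf Ph => ((wS (pts p.2) : Finset Src) : Set Src) :=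
    rs_wS_pair
  have mx : Measurable fun p : (CTree × CTree) × Conf Ph => p.1.1 := by fun_prop
  have my : Measurable fun p : (CTree × CTree) × Conf Ph => p.1.2 := by fun_prop
  have mu : Measurable fun p : (CTree × CTree) × Conf Ph => un Φ ε T p.1.1 p.1.2 n :=
    (measurable_un hΦ hε T n).comp measurable_fst
  -- the packet with the largest value
  have hex : ∀ (U : Finset Src) (x y : CTree), ∃ J ⊆ pks Φ ε x y, (node x y).depth ≤ L →
      exsum x (fun e => relW L hΦ hε (lw2 Φ ε U x y) (insert (rsrc Φ ε e) U) (un Φ ε T x y n)) +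
        exsum y (fun e => relW L hΦ hε (lw2 Φ ε U x y) (insert (rsrc Φ ε e) U)
          (un Φ ε T x y n)) ≤
      2 ^ (L + 1) * relW L hΦ hε (lw2 Φ ε U x y) (wF U id J) (un Φ ε T x y n) := by
    intro U x y
    by_cases hd : (node x y).depth ≤ L
    · obtain ⟨J, hJ, h2⟩ := exists_packet (Φ := Φ) (ε := ε) (U := U)
        (fun W => relW L hΦ hε (lw2 Φ ε U x y) W (un Φ ε T x y n)) hd
      exact ⟨J, hJ, fun _ => h2⟩
    · exact ⟨∅, Finset.empty_subset _, fun h => absurd h hd⟩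
  choose J hJ hJm using hex
  have hF : Measurable fun q : ((CTree × CTree) × Conf Ph) × CTree =>
      relW L hΦ hε (lw2 Φ ε (wS (pts q.1.2)) q.1.1.1 q.1.1.2)
        (insert (rsrc Φ ε q.2) (wS (pts q.1.2))) (un Φ ε T q.1.1.1 q.1.1.2 n) :=
    RM.measurable_relW (RM.rs_lw2 hΦ hε (mU.comp measurable_fst) (mx.comp measurable_fst)
      (my.comp measurable_fst)) (RM.rs_insert_rsrc hΦ hε (mU.comp measurable_fst) measurable_snd)
      (mu.comp measurable_fst)
  have h2 := h1 ε hε hε1 n k hkt J hJ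
    (fun U x y => k⁻¹ * (ind (GdP L hΦ hε (un Φ ε T x y n) U x y) *
      (exsum x (fun e =>
          relW L hΦ hε (lw2 Φ ε U x y) (insert (rsrc Φ ε e) U) (un Φ ε T x y n)) +
        exsum y (fun e =>
          relW L hΦ hε (lw2 Φ ε U x y) (insert (rsrc Φ ε e) U) (un Φ ε T x y n)))))
    (((measurable_ind (measurableSet_GdP_un hΦ hε n)).mul
      ((RM.measurable_exsum' mx hF).add (RM.measurable_exsum' my hF))).const_mul _)
    (fun U x y hco => ?_)
  swap
  · rw [← mul_assoc, mul_comm k⁻¹, mul_assoc]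
    refine mul_le_mul_right ?_ _
    rw [ENNReal.inv_mul_le_iff hk0 hkt, hk]
    exact hJm U x y hco.depth
  refine le_trans (le_of_eq ?_) (h2.trans hsm)
  congr 3
  funext U x y
  rw [mul_comm k, mul_assoc (wqP Φ ε x y), ← mul_assoc k, ENNReal.mul_inv_cancel hk0 hkt, one_mul]

end Vale.Agent.P119.PB.XR
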