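import Vale.Agent.P119.PB.HitInt
import Vale.Agent.P119.PB.ExcIrrs

/-!
# P119, block PROB: `ExcRL` (`helper347`)

Trees related to the lines of the tree which is hit by a Gaussian line.
-/

open MeasureTheory Filter Topology Set
open scoped ENNReal NNReal

noncomputable section

namespace Vale.Agent.P119.PB

open M CTree KU FB RB AU TL IND GC PB.CT

namespace RLn

variable {Φ : E3 → ℝ} {ε : ℝ} {L : ℕ} {hΦ : IsPotential Φ} {hε : 0 < ε} {f₀ : Ph → ℝ} {κ₀ : ℝ}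
  {S : CTree} {T b β s : ℝ} {n : ℕ}

theorem card_krs_le (hd : S.depth ≤ L) (ρ : ℝ) : (krs Φ ε S ρ).card ≤ 2 ^ (L + 2) + 1 := by
  classical
  unfold krs
  refine (Finset.card_insert_le _ _).trans (Nat.add_le_add_right ?_ 1)
  have h1 : exl Φ ε S ⊆ (partsF S).image (rsrc Φ ε) := by
    intro a ha
    obtain ⟨x, hx, rfl⟩ := mem_exl.1 ha
    exact Finset.mem_image.2 ⟨x, mem_partsF.2 (Or.inr hx), rfl⟩
  exact (Finset.card_le_card h1).trans (Finset.card_image_le.trans (XT.card_partsF_le hd))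

theorem krs_energy (hΦ : IsPotential Φ) (hε : 0 < ε) (hS : CTree.ok Φ ε S) {ρ : ℝ} {a : Src}
    (ha : a ∈ krs Φ ε S ρ) : ‖a.2.1.2‖ ^ 2 ≤ enT S := by
  obtain ⟨x, hx, rfl⟩ := (mem_krs hS).1 ha
  exact ln_sq_le_enT_outs hΦ hε.ne' hx

theorem rs_krs (hΦ : IsPotential Φ) (hε : 0 < ε) {X : Type*} [MeasurableSpace X]
    {S : X → CTree} {ρ : X → ℝ} (hS : Measurable S) (hρ : Measurable ρ) :
    MM.RS fun x => (krs Φ ε (S x) (ρ x) : Set Src) := by
  classical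
  have h1 : Measurable fun x => ((ρ x, ln Φ ε (S x), (S x).depth) : Src) :=
    hρ.prodMk (((M.measurable_ln hΦ hε.ne').comp hS).prodMk (measurable_depth.comp hS))
  refine ((MM.RS.singleton h1).union (RM.rs_exl hΦ hε hS)).congr fun x => ?_
  unfold krs
  rw [Finset.coe_insert, Set.insert_eq]

open Classical in
/-- **`ExcRL`**: trees related to the lines of the tree which is hit by a Gaussian line, from the
irregular relations. -/
theorem excRL_of {b₀ M₀ M₁ β : ℝ} (h : GoodDatum f₀ κ₀) (hΦ : IsPotential Φ) (hb₀ : 0 < b₀)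
    (hβ : 0 < β) (hM₀ : 0 ≤ M₀) (hf : ∀ z, f₀ z ≤ M₀ * Real.exp (-b₀ * ‖z.2‖ ^ 2))
    (hM₁ : 0 ≤ M₁) (hmarg : ∀ v, ∫⁻ x, ENNReal.ofReal (f₀ (x, v)) ≤
      ENNReal.ofReal (M₁ * Real.exp (-b₀ * ‖v‖ ^ 2)))
    (hT : 0 ≤ T) {X : ℕ → Set Rln} (hX : XT.IrrFam Φ f₀ T (min b₀ (2 * β)) (min b₀ (2 * β) / 2 +
      min b₀ (2 * β) / 8) 2 X) (L : ℕ) : ExcRL hΦ f₀ L T β := by
  obtain ⟨b, hbd⟩ : ∃ b, b = min b₀ (2 * β) := ⟨_, rfl⟩
  rw [← hbd] at hX
  have hb : 0 < b := by rw [hbd]; exact lt_min hb₀ (by linarith)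
  have hbb : b ≤ b₀ := by rw [hbd]; exact min_le_left _ _
  have hbβ : b ≤ 2 * β := by rw [hbd]; exact min_le_right _ _
  have hexp : ∀ v : E3, Real.exp (-b₀ * ‖v‖ ^ 2) ≤ Real.exp (-b * ‖v‖ ^ 2) := fun v =>
    Real.exp_le_exp.2 (by nlinarith [sq_nonneg ‖v‖])
  have hf' : ∀ z, f₀ z ≤ M₀ * Real.exp (-b * ‖z.2‖ ^ 2) := fun z =>
    (hf z).trans (mul_le_mul_of_nonneg_left (hexp _) hM₀)
  have hmarg' : ∀ v, ∫⁻ x, ENNReal.ofReal (f₀ (x, v)) ≤
      ENNReal.ofReal (M₁ * Real.exp (-b * ‖v‖ ^ 2)) := fun v =>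
    (hmarg v).trans (ENNReal.ofReal_le_ofReal (mul_le_mul_of_nonneg_left (hexp _) hM₁))
  obtain ⟨Dl, hDl, hlim⟩ := lines_lim (c := b / 2) h hΦ hb (by positivity) le_rfl hM₀ hf' hM₁
    hmarg' 1 1 L (2 ^ (L + 2) + 1) 1 (2 * 2 ^ (L + 2) + 3) hT hX
  intro ρ hρ
  have h2 : Tendsto (fun ε => 2 ^ L * Dl ε) (𝓝[>] 0) (𝓝 0) := by
    have h3 := ENNReal.Tendsto.const_mul (a := 2 ^ L) hDl
      (Or.inr (ENNReal.pow_ne_top ENNReal.ofNat_ne_top))
    rwa [mul_zero] at h3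
  have hev : ∀ᶠ ε : ℝ in 𝓝[>] 0, ε ≤ 1 :=
    (eventually_nhdsWithin_of_eventually_nhds (eventually_le_nhds one_pos))
  filter_upwards [hev, (ENNReal.tendsto_nhds_zero.1 h2) (ENNReal.ofReal ρ)
    (ENNReal.ofReal_pos.2 hρ)] with ε hε1 hsm hε s hs
  have hprob := GC.isProbability_PP (ε := ε) h
  have hfin : IsFiniteMeasure (GC.inten f₀ ε) := GC.isFiniteMeasure_inten h
  -- the terms
  obtain ⟨φ, hφ⟩ : ∃ φ : CTree → Ph → CTree → ℝ≥0∞, φ = fun S z x =>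
    ∫⁻ c, relW L hΦ hε (lnw Φ ε (wS (GC.pts c)) S (hitT ε (z, ln Φ ε S)))
      (insert (rsrc Φ ε x) (wS (GC.pts c))) T ∂(GC.PP f₀ ε) := ⟨_, rfl⟩
  -- the choice of the exhaust
  have hch : ∀ (S : CTree) (z : Ph), ∃ J ⊆ krs Φ ε S (hitT ε (z, ln Φ ε S)),
      HL.Hst Φ ε T L (s, z, 0) S → exsum S (φ S z) ≤ 2 ^ L * ∫⁻ c, relW L hΦ hε
        (wF (wS (GC.pts c)) sgl (krs Φ ε S (hitT ε (z, ln Φ ε S)))) (wF (wS (GC.pts c)) sgl J) T
          ∂(GC.PP f₀ ε) := by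
    intro S z
    by_cases hH : HL.Hst Φ ε T L (s, z, 0) S
    · rcases exsum_le_max hH.depth (φ S z) with h0 | ⟨x, hx, h0⟩
      · refine ⟨∅, Finset.empty_subset _, fun _ => ?_⟩
        rw [h0]
        exact zero_le
      · refine ⟨{rsrc Φ ε x}, ?_, fun _ => h0.trans (le_of_eq ?_)⟩
        · rw [Finset.singleton_subset_iff]
          unfold krs
          exact Finset.mem_insert_of_mem (mem_exl.2 ⟨x, hx, rfl⟩)
        · rw [hφ]
          congr 1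
          refine lintegral_congr fun c => ?_
          rw [← insert_rsrc_eq, lnw_eq_krs]
    · exact ⟨∅, Finset.empty_subset _, fun h' => absurd h' hH⟩
  choose J hJ hJle using hch
  -- the structure law
  have h5 := LI_le_struct (T := T) (L := L) (β := β) (n := 0) h hΦ hε hbβ hs.1 (G := fun z V S =>
    ind (HitR L hΦ hε (s, z, 0) V S) * exsum S fun x =>
      relW L hΦ hε (lnw Φ ε V S (hitT ε (z, ln Φ ε S))) (insert (rsrc Φ ε x) V) T)
    (meas_R4 T s) (fun z V S hlt => by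
      rw [ind_of_not fun h' => hlt h'.lt, zero_mul])
    (N := fun S z => 2 ^ L * ∫⁻ c, relW L hΦ hε
        (wF (wS (GC.pts c)) sgl (krs Φ ε S (hitT ε (z, ln Φ ε S))))
        (wF (wS (GC.pts c)) sgl (J S z)) T ∂(GC.PP f₀ ε)) (fun S z hH => by
      refine le_trans ?_ (hJle S z hH)
      calc ∫⁻ c, ind (HitR L hΦ hε (s, z, 0) (wS (GC.pts c)) S) * (exsum S fun x =>
            relW L hΦ hε (lnw Φ ε (wS (GC.pts c)) S (hitT ε (z, ln Φ ε S)))
              (insert (rsrc Φ ε x) (wS (GC.pts c))) T) ∂(GC.PP f₀ ε)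
          ≤ ∫⁻ c, (exsum S fun x =>
            relW L hΦ hε (lnw Φ ε (wS (GC.pts c)) S (hitT ε (z, ln Φ ε S)))
              (insert (rsrc Φ ε x) (wS (GC.pts c))) T) ∂(GC.PP f₀ ε) :=
            lintegral_mono fun c => (mul_le_mul_left (ind_le_one _) _).trans (one_mul _).le
        _ = exsum S (φ S z) := by
            rw [hφ]
            refine lintegral_exsum' S fun x => ?_
            exact RM.measurable_relW (RM.rs_lnw hΦ hε (RM.rs_wS measurable_id) measurable_const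
              measurable_const) (RM.rs_insert_rsrc hΦ hε (RM.rs_wS measurable_id)
                measurable_const) measurable_const)
  have h6 := hlim ε hε hε1 T hT le_rfl (fun _ => s) (fun _ => hs.1) (fun _ => 0)
    (fun S l => WH Φ ε T L b s 0 (S 0) (l 0))
    (measurable_WH hΦ hε ((measurable_pi_apply 0).comp measurable_fst)
      ((measurable_pi_apply 0).comp measurable_snd)) 1 ENNReal.one_ne_top
    (fun S l => by
      rw [one_mul]
      unfold WH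
      refine (mul_le_mul_right (ind_le_one _) _).trans ?_
      rw [mul_one]
      refine ENNReal.ofReal_le_ofReal (Real.exp_le_exp.2 ?_)
      refine mul_le_mul_of_nonneg_left ?_ (by positivity)
      unfold enB
      have h7 : ∑ j : Fin 1, ‖(l j).2‖ ^ 2 = ‖(l 0).2‖ ^ 2 := by simp
      have h8 : 0 ≤ ∑ j : Fin 1, enT (S j) := Finset.sum_nonneg fun j _ => enT_nonneg _
      linarith)
    (fun S l hne => (WH_ne_zero hne).base rfl rfl)
    (fun S l => krs Φ ε (S 0) (hitT ε (l 0, ln Φ ε (S 0))))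
    (fun S l => krs Φ ε (S 0) (hitT ε (l 0, ln Φ ε (S 0))))
    (fun S l => J (S 0) (l 0))
    (rs_krs hΦ hε ((measurable_pi_apply 0).comp measurable_fst) (measurable_hitT.comp
      (((measurable_pi_apply 0).comp measurable_snd).prodMk ((M.measurable_ln hΦ hε.ne').comp
        ((measurable_pi_apply 0).comp measurable_fst)))))
    (fun S l hne => by
      have hH := WH_ne_zero hne
      exact ⟨_, _, _, _, _, hH.kbase hΦ hε, hH.slab hΦ hε rfl rfl, hH.szB_le, fun a ha =>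
        hH.krs_mem hΦ hε ha⟩)
    (fun S l hne => by
      have hH := WH_ne_zero hne
      refine ⟨card_krs_le hH.depth _, fun a ha => ?_⟩
      have h7 := krs_energy hΦ hε hH.ok ha
      unfold enB
      have h8 : 0 ≤ ∑ j : Fin 1, ‖(l j).2‖ ^ 2 := Finset.sum_nonneg fun j _ => sq_nonneg _
      have h9 : ∑ j : Fin 1, enT (S j) = enT (S 0) := by simp
      linarith)
    (fun S l hne => ⟨Finset.Subset.refl _, hJ _ _⟩)
  rw [pow_one, XT.lintegral_pi_one] at h6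
  simp only [lintegral_fin_one, Finset.univ_unique, Finset.prod_singleton] at h6
  have hμ : FL.muE ε ≠ 0 := (ENNReal.ofReal_pos.2 (GC.mu_pos hε)).ne'
  have hμ' : FL.muE ε ≠ ∞ := FL.muE_ne_top
  have h10 : (2 : ℝ≥0∞) ^ L ≠ ∞ := ENNReal.pow_ne_top ENNReal.ofNat_ne_top
  -- the constant
  have h11 : ∫⁻ S, ∫⁻ z : Ph, g1 b z.2 * (WH Φ ε T L b s 0 S z * (2 ^ L * ∫⁻ c, relW L hΦ hε
        (wF (wS (GC.pts c)) sgl (krs Φ ε S (hitT ε (z, ln Φ ε S))))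
        (wF (wS (GC.pts c)) sgl (J S z)) T ∂(GC.PP f₀ ε))) ∂volume ∂(tree (GC.inten f₀ ε) L) =
      2 ^ L * ∫⁻ S, ∫⁻ z : Ph, g1 b z.2 * (WH Φ ε T L b s 0 S z * ∫⁻ c, relW L hΦ hε
        (wF (wS (GC.pts c)) sgl (krs Φ ε S (hitT ε (z, ln Φ ε S))))
        (wF (wS (GC.pts c)) sgl (J S z)) T ∂(GC.PP f₀ ε)) ∂volume ∂(tree (GC.inten f₀ ε) L) := by
    rw [← lintegral_const_mul' _ _ h10]
    refine lintegral_congr fun S => ?_
    rw [← lintegral_const_mul' _ _ h10]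
    refine lintegral_congr fun z => ?_
    ring
  rw [h11] at h5
  have h12 : (FL.muE ε)⁻¹ * LI f₀ Φ ε L β T s 0 (fun z V S =>
    ind (HitR L hΦ hε (s, z, 0) V S) * exsum S fun x =>
      relW L hΦ hε (lnw Φ ε V S (hitT ε (z, ln Φ ε S))) (insert (rsrc Φ ε x) V) T) ≤
      2 ^ L * Dl ε := by
    refine (mul_le_mul_right h5 _).trans ?_
    have h13 : ∫⁻ S, ∫⁻ z : Ph, g1 b z.2 * (WH Φ ε T L b s 0 S z * ∫⁻ c, relW L hΦ hε
        (wF (wS (GC.pts c)) sgl (krs Φ ε S (hitT ε (z, ln Φ ε S))))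
        (wF (wS (GC.pts c)) sgl (J S z)) T ∂(GC.PP f₀ ε)) ∂volume ∂(tree (GC.inten f₀ ε) L) ≤
        FL.muE ε * Dl ε := by
      have h14 := mul_le_mul_right h6 (FL.muE ε)⁻¹
      rw [← mul_assoc, ENNReal.inv_mul_cancel hμ hμ', one_mul] at h14
      refine h14.trans (le_of_eq ?_)
      rw [one_mul]
      calc (FL.muE ε)⁻¹ * (FL.muE ε ^ (1 + 1) * Dl ε) =
            ((FL.muE ε)⁻¹ * FL.muE ε) * (FL.muE ε * Dl ε) := by ring
        _ = _ := by rw [ENNReal.inv_mul_cancel hμ hμ', one_mul]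
    calc (FL.muE ε)⁻¹ * (2 ^ L * ∫⁻ S, ∫⁻ z : Ph, g1 b z.2 * (WH Φ ε T L b s 0 S z *
          ∫⁻ c, relW L hΦ hε (wF (wS (GC.pts c)) sgl (krs Φ ε S (hitT ε (z, ln Φ ε S))))
        (wF (wS (GC.pts c)) sgl (J S z)) T ∂(GC.PP f₀ ε)) ∂volume ∂(tree (GC.inten f₀ ε) L))
        ≤ (FL.muE ε)⁻¹ * (2 ^ L * (FL.muE ε * Dl ε)) :=
          mul_le_mul_right (mul_le_mul_right h13 _) _
      _ = ((FL.muE ε)⁻¹ * FL.muE ε) * (2 ^ L * Dl ε) := by ring
      _ = _ := by rw [ENNReal.inv_mul_cancel hμ hμ', one_mul]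
  exact h12.trans hsm

/-- **`ExcRL`**: trees related to the lines of the tree which is hit by a Gaussian line,
unconditional. -/
theorem excRL {b₀ M₀ M₁ β : ℝ} (h : GoodDatum f₀ κ₀) (hΦ : IsPotential Φ) (hb₀ : 0 < b₀)
    (hβ : 0 < β) (hM₀ : 0 ≤ M₀) (hf : ∀ z, f₀ z ≤ M₀ * Real.exp (-b₀ * ‖z.2‖ ^ 2))
    (hM₁ : 0 ≤ M₁) (hmarg : ∀ v, ∫⁻ x, ENNReal.ofReal (f₀ (x, v)) ≤
      ENNReal.ofReal (M₁ * Real.exp (-b₀ * ‖v‖ ^ 2)))
    (hT : 0 ≤ T) (L : ℕ) : ExcRL hΦ f₀ L T β := by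
  have hb : 0 < min b₀ (2 * β) := lt_min hb₀ (by linarith)
  refine excRL_of h hΦ hb₀ hβ hM₀ hf hM₁ hmarg hT (XT.irrFam_irrs hΦ h.meas hM₁
    (fun v => (hmarg v).trans (ENNReal.ofReal_le_ofReal (mul_le_mul_of_nonneg_left
      (Real.exp_le_exp.2 ?_) hM₁))) (by linarith) hT 2) L
  nlinarith [sq_nonneg ‖v‖, min_le_left b₀ (2 * β)]

end RLn

end Vale.Agent.P119.PB
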