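import Vale.Agent.P119.PB.ExcTree
import Vale.Agent.P119.PB.ContExc
import Vale.Agent.P119.PB.P3c
import Vale.Agent.P119.IND.DetLaw
import Vale.Agent.P119.IND.Inj
import Vale.Agent.P119.GC.Cmp

/-!
# P119, block PROB: the interactions of the lines of one tree (`helper667`)

* `ae_notMem_wS`: given sources are not in the gas;
* `sbase_tree`, `slab_tree`: the base structure of one tree (`SBase`, `SLab` of `helper810`);
* `not_goodT`: the failures of `GoodT` give the alternatives of the laws;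
* `IrrFam`: the family of relations of the irregular contacts (`helper350`);
* `tendsto_goodT`: the limit of the exceptional events `¬GoodT`, for a general weight;
* **`excE1`, `excD1`**.
-/

open MeasureTheory Filter Topology Set
open scoped ENNReal NNReal

noncomputable section

namespace Vale.Agent.P119.PB.XT

open M CTree KU FL FB RB AU TL GC IND

variable {Φ : E3 → ℝ} {ε T : ℝ} {L : ℕ} {S : CTree} {f₀ : Ph → ℝ} {κ₀ b c M₀ M₁ : ℝ}

/-! ### Given points are not in the gas -/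

theorem vol_Ph_singleton (p : Ph) : (volume : Measure Ph) {p} = 0 := by
  have e : ({p} : Set Ph) = {p.1} ×ˢ {p.2} := by
    rw [Set.singleton_prod_singleton]
  rw [e, Measure.volume_eq_prod, Measure.prod_prod, measure_singleton, zero_mul]

theorem inten_singleton (p : Ph) : inten f₀ ε {p} = 0 := by
  unfold inten
  rw [Measure.smul_apply, smul_eq_mul]
  have h1 : law f₀ {p} = 0 := by
    unfold law
    rw [withDensity_apply _ (measurableSet_singleton p)]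
    exact setLIntegral_measure_zero _ _ (vol_Ph_singleton p)
  rw [h1, mul_zero]

theorem ae_notMem_pts (h : GoodDatum f₀ κ₀) (hε : 0 ≤ ε) (p : Ph) :
    ∀ᵐ w ∂(PP f₀ ε), p ∉ pts w := by
  classical
  have hg : Measurable (({p} : Set Ph).indicator fun _ => (1 : ℝ≥0∞)) :=
    measurable_const.indicator (measurableSet_singleton p)
  have h1 := lintegral_sum_one_le (ε := ε) h hε hg
  have h2 : ∫⁻ x, ({p} : Set Ph).indicator (fun _ => (1 : ℝ≥0∞)) x ∂(inten f₀ ε) = 0 := by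
    rw [lintegral_indicator (measurableSet_singleton p), lintegral_one,
      Measure.restrict_apply_univ, inten_singleton]
  rw [h2] at h1
  have h3 := (lintegral_eq_zero_iff' (aemeasurable_sum_one hε hg)).1 (le_antisymm h1 zero_le)
  filter_upwards [h3] with w hw hp
  have h4 : (fun _ : Fin 1 => p) ∈ tup 1 (pts w) :=
    mem_tup.2 ⟨fun _ => hp, fun _ _ _ => Subsingleton.elim _ _⟩
  have h5 := Finset.sum_eq_zero_iff.1 hw _ h4
  simp at h5

theorem ae_notMem_wS (h : GoodDatum f₀ κ₀) (hε : 0 ≤ ε) (σ : Src) :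
    ∀ᵐ w ∂(PP f₀ ε), σ ∉ wS (pts w) := by
  filter_upwards [ae_notMem_pts h hε σ.2.1] with w hw hσ
  obtain ⟨z, hz, rfl⟩ := mem_wS.1 hσ
  exact hw hz

theorem ae_forall_notMem_wS (h : GoodDatum f₀ κ₀) (hε : 0 ≤ ε) {A : Set Src} (hA : A.Finite) :
    ∀ᵐ w ∂(PP f₀ ε), ∀ σ ∈ A, σ ∉ wS (pts w) :=
  (ae_ball_iff hA.countable).2 fun σ _ => ae_notMem_wS h hε σ

/-! ### The base structure of one tree -/

open Classical in
/-- The source of a particle of the tree. -/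
def XS (Φ : E3 → ℝ) (ε : ℝ) (S : CTree) (σ : Src) : Src :=
  if h : σ ∈ S.leaves then rsrc Φ ε (outOf S ⟨σ, h⟩) else σ

theorem XS_eq (hS : CTree.ok Φ ε S) {x : CTree} (hx : x ∈ outs S) :
    XS Φ ε S x.root = rsrc Φ ε x := by
  have h1 : x.root ∈ S.leaves := outs_leaves hx x.root_mem_leaves
  unfold XS
  rw [dif_pos h1, outOf_eq hS hx rfl]

theorem mem_lab_partsF {σ : Src} : σ ∈ lab (partsF S) ↔ σ ∈ S.leaves := by
  rw [← Finset.mem_coe, lab_partsF]

theorem isLast_partsF (hS : CTree.ok Φ ε S) {x : CTree} (hx : IsLast (partsF S) x) :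
    x ∈ outs S := by
  obtain ⟨y, hy, hr⟩ := exists_out (parts_root_mem (mem_partsF.1 hx.mem))
  have h1 := isLast_of_outs hS hy
  have h2 := h1.last x hx.mem hr.symm
  have h3 := hx.last y h1.mem hr
  rwa [h2.antisymm h3]

/-- **The base structure of one tree.** -/
theorem sbase_tree (hΦ : IsPotential Φ) (hε : 0 < ε) (hS : CTree.ok Φ ε S)
    (hT : ext Φ ε S ≤ T) (hinj : InjOn (rsrc Φ ε) (outs S)) :
    SBase Φ ε T (partsF S) [] ∅ (XS Φ ε S) := by
  refine ⟨Fam.of_tree hΦ hε hS hT, fun g hg => absurd hg List.not_mem_nil,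
    fun g hg => absurd hg List.not_mem_nil, fun σ hσ _ => ?_, ?_⟩
  · obtain ⟨x, hx, rfl⟩ := exists_out (mem_lab_partsF.1 hσ)
    refine ⟨x, isLast_of_outs hS hx, rfl, ?_, ?_⟩
    · rw [XS_eq hS hx]; rfl
    · rw [XS_eq hS hx]; exact le_rfl
  · rintro σ ⟨hσ, -⟩ τ ⟨hτ, -⟩ h
    obtain ⟨x, hx, rfl⟩ := exists_out (mem_lab_partsF.1 (Finset.mem_coe.1 hσ))
    obtain ⟨y, hy, rfl⟩ := exists_out (mem_lab_partsF.1 (Finset.mem_coe.1 hτ))
    rw [XS_eq hS hx, XS_eq hS hy] at h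
    rw [hinj hx hy h]

/-- The labels of the base structure of one tree. -/
theorem slab_tree (hΦ : IsPotential Φ) (hε : 0 < ε) {S : Fin 1 → CTree}
    (hS : CTree.ok Φ ε (S 0)) (l : Fin 0 → Src) :
    SLab S l (partsF (S 0)) [] 1 {(S 0).root} := by
  refine ⟨fun σ hσ => Or.inl ⟨0, mem_lab_partsF.1 hσ⟩, fun j σ hσ => ?_, fun j => j.elim0,
    fun r hr => ?_, fun σ hσ => ⟨_, Finset.mem_singleton_self _, ?_⟩,
    le_of_eq (Finset.card_singleton _), fun r _ => fun ⟨j, _⟩ => j.elim0⟩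
  · rw [Fin.fin_one_eq_zero j] at hσ
    exact Finset.mem_coe.2 (mem_lab_partsF.2 hσ)
  · rw [Finset.mem_singleton.1 hr]
    exact mem_lab_partsF.2 (S 0).root_mem_leaves
  · exact fj_partsF hΦ hε hS (mem_lab_partsF.1 hσ) (S 0).root_mem_leaves

theorem szB_tree_le (hd : S.depth ≤ L) : szB (partsF S) [] ≤ 2 * 2 ^ (L + 2) := by
  unfold szB
  have h1 := card_lab_le (partsF S)
  have h2 := card_nl_le (partsF S)
  have h3 := card_partsF_le hd
  simp only [List.length_nil]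
  omega

/-- The number of labels. -/
def Nt (L J : ℕ) : ℕ := 2 * 2 ^ (L + 2) + 2 * Nb0 L J

/-- **The failures of `GoodT`.** -/
theorem not_goodT (hΦ : IsPotential Φ) (hε : 0 < ε) {S : Fin 1 → CTree}
    (hS : CTree.ok Φ ε (S 0)) (hd : (S 0).depth ≤ L) (hT : ext Φ ε (S 0) ≤ T)
    (l : Fin 0 → Src) {w : Finset Ph} (hzw : ∀ σ ∈ (S 0).leaves, σ ∉ wS w)
    (hxw : ∀ σ ∈ (srcs Φ ε (S 0) : Set Src), σ ∉ wS w)
    (hinj : InjOn (rsrc Φ ε) (outs (S 0))) (hg : ¬GoodT Φ ε L (wS w) (S 0) T) (J : ℕ) :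
    LawC hΦ hε L T J 0 (Nt L J) S l w (srcs Φ ε (S 0)) := by
  have hg' : ¬M.Good Φ ε L (wS w) PB.sgl (srcs Φ ε (S 0)) T := fun h' =>
    hg ⟨Set.disjoint_left.2 fun σ h1 h2 => hzw σ h2 h1, hinj, h'⟩
  have h1 := (sbase_tree hΦ hε hS hT hinj).not_good hΦ hε (slab_tree hΦ hε hS l)
    (fun σ hσ => hzw σ (mem_lab_partsF.1 hσ))
    (fun σ hσ _ => by
      obtain ⟨x, hx, rfl⟩ := exists_out (mem_lab_partsF.1 hσ)
      rw [XS_eq hS hx]
      exact hxw _ (Finset.mem_coe.2 (mem_srcs.2 ⟨x, hx, rfl⟩)))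
    (fun x hx _ => by
      rw [XS_eq hS (isLast_partsF hS hx)]
      rfl)
    (K := srcs Φ ε (S 0))
    (fun σ hσ => by
      obtain ⟨x, hx, rfl⟩ := mem_srcs.1 hσ
      refine ⟨⟨ext_nonneg_of_ok hΦ hε (outs_ok hΦ hS hx), (outs_depth hx).trans hd⟩, x.root,
        mem_lab_partsF.2 (outs_leaves hx x.root_mem_leaves), notMem_empty _, XS_eq hS hx⟩)
    le_rfl hg' J
  have h2 := szB_tree_le hd
  have h3 : szB (partsF (S 0)) [] + 2 * Nb0 L J ≤ Nt L J := by
    unfold Nt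
    omega
  exact h1.imp id (Or.imp (PrgC.mono le_rfl h3) (Or.imp (PrgO.mono le_rfl h3)
    (IrrO.mono le_rfl h3)))

/-! ### The limits -/

/-- The relations of the irregular contacts (`helper350`). -/
structure IrrFam (Φ : E3 → ℝ) (f₀ : Ph → ℝ) (T b c : ℝ) (c₀ : ℕ) (X : ℕ → Set Rln) : Prop where
  fin : ∀ N, (X N).Finite
  small : ∀ N, ∀ r ∈ X N, r.Small f₀ b c c₀
  sbad : ∀ (N : ℕ) {m q : ℕ} (ε : ℝ), 0 < ε → ∀ (S : Fin m → CTree) (l : Fin q → Src)
    (w : Finset Ph), IrrO Φ ε T c₀ N S l w → SBad (X N) ε S l w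

/-- **The exceptional events `¬GoodT`**, for a general weight. -/
theorem tendsto_goodT (h : GoodDatum f₀ κ₀) (hΦ : IsPotential Φ) (hb : 0 < b) (hc : 0 ≤ c)
    (hcb : c + b / 4 < b) (hM₀ : 0 ≤ M₀) (hf : ∀ z, f₀ z ≤ M₀ * Real.exp (-b * ‖z.2‖ ^ 2))
    (hM₁ : 0 ≤ M₁)
    (hmarg : ∀ v, ∫⁻ x, ENNReal.ofReal (f₀ (x, v)) ≤
      ENNReal.ofReal (M₁ * Real.exp (-b * ‖v‖ ^ 2)))
    (hT : 0 ≤ T) {X : ℕ → Set Rln} (hX : IrrFam Φ f₀ T b c 1 X)
    {g : ℝ → CTree → ℝ≥0∞} {CW : ℝ≥0∞} (hCW : CW ≠ ∞) (hg : ∀ ε, 0 < ε → Measurable (g ε))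
    (hgb : ∀ ε, 0 < ε → ∀ S, CTree.ok Φ ε S →
      g ε S ≤ CW * ENNReal.ofReal (Real.exp (c * enT S))) :
    Tendsto (fun ε => (muE ε)⁻¹ * XX Φ ε L f₀ T
      (fun U S => g ε S * ind (¬GoodT Φ ε L U S T))) (𝓝[>] 0) (𝓝 0) := by
  refine tendsto_XX (bad := fun ε U S => ¬GoodT Φ ε L U S T) (N := fun J => Nt L J)
    (X := fun J => X (Nt L J)) h hΦ hb hc hcb hM₀ hf hM₁ hmarg hT (fun J => hX.fin _)
    (fun J => hX.small _) hCW hg hgb (fun ε hε => ?_) ?_
  · exact (RM.measurableSet_GoodT hΦ hε rs_wS_tree measurable_fst measurable_const).compl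
  · intro J ε hε hε1 S h1 h2 h3 l
    filter_upwards [ae_forall_notMem_wS h hε.le (S 0).leaves_finite,
      ae_forall_notMem_wS h hε.le (srcs Φ ε (S 0)).finite_toSet] with w hw1 hw2 hal hbad
    by_cases hi : InjOn (rsrc Φ ε) (outs (S 0))
    · rcases not_goodT hΦ hε h1 h2 h3 l hw1 hw2 hi hbad J with ⟨σ, hσ, h4⟩ | h4 | h4 | h4
      · obtain ⟨x, hx, rfl⟩ := mem_srcs.1 (Finset.mem_coe.1 hσ)
        exact Or.inl ⟨x, hx, h4⟩
      · exact Or.inr (Or.inl h4)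
      · exfalso
        obtain ⟨n, hn, z, P, Rs, h5, h6, h7, h8, h9, -⟩ := h4
        have h10 : Rs = ∅ := Finset.card_eq_zero.1 (Nat.le_zero.1 h8)
        obtain ⟨σ, hσ⟩ := (S 0).leaves_nonempty
        obtain ⟨i, -⟩ := h6.trees 0 hσ
        obtain ⟨r, hr, -⟩ := h7.cov i
        rw [h10] at hr
        exact absurd hr (Finset.notMem_empty r)
      · exact Or.inr (Or.inr (hX.sbad _ ε hε S l _ h4))
    · have h4 : PrgBad Φ ε T (2 * 2 ^ (L + 2)) S l (pts w) :=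
        PrgBad.of_not_inj hΦ hε h1 h2 h3 (fun j => by rw [Fin.fin_one_eq_zero j])
          (fun j => j.elim0) (fun x hx => Or.inl ⟨0, hx⟩) hi
      refine Or.inr (Or.inl ((h4.prgC one_pos (base_one h1 l)).mono le_rfl ?_))
      unfold Nt
      omega

/-! ### The weights -/

/-- The polynomial weights are at most exponentials of the energy. -/
theorem one_add_le_exp (hc : 0 < c) (x : ℝ) (hx : 0 ≤ x) :
    1 + x ≤ (1 + 1 / c) * Real.exp (c * x) := by
  have h1 : 1 + c * x ≤ Real.exp (c * x) := by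
    have := Real.add_one_le_exp (c * x)
    linarith
  have h2 : 0 ≤ c * x := by positivity
  calc 1 + x ≤ (1 + 1 / c) * (1 + c * x) := by
        have h3 : (1 + 1 / c) * (1 + c * x) = 1 + x + (1 / c + c * x) := by
          field_simp
          ring
        rw [h3]
        have h4 : 0 ≤ 1 / c := by positivity
        linarith
    _ ≤ _ := by gcongr

theorem wq_le_exp (hΦ : IsPotential Φ) (hε : 0 < ε) (hc : 0 < c) (S : CTree) :
    wq Φ ε S ≤ ENNReal.ofReal (2 * (1 + 1 / c)) * ENNReal.ofReal (Real.exp (c * enT S)) := by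
  have h1 := ln_sq_le_enT hΦ hε.ne' S
  unfold wq
  rw [← ENNReal.ofReal_mul (by positivity)]
  refine ENNReal.ofReal_le_ofReal ?_
  have h2 := one_add_le_exp hc (enT S) (enT_nonneg S)
  have h3 : 0 ≤ (1 + 1 / c) * Real.exp (c * enT S) := by positivity
  nlinarith

theorem wln_le_exp (hΦ : IsPotential Φ) (hε : 0 < ε) (hc : 0 < c) (S : CTree) :
    wln Φ ε S ≤ ENNReal.ofReal (2 * (1 + 1 / c)) * ENNReal.ofReal (Real.exp (c * enT S)) := by
  have h1 := ln_sq_le_enT hΦ hε.ne' S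
  unfold wln
  rw [← ENNReal.ofReal_mul (by positivity)]
  refine ENNReal.ofReal_le_ofReal ?_
  have h2 := one_add_le_exp hc (enT S) (enT_nonneg S)
  have h3 : 0 ≤ (1 + 1 / c) * Real.exp (c * enT S) := by positivity
  nlinarith [sq_nonneg (‖(ln Φ ε S).2‖ - 1)]

theorem measurable_wln' (hΦ : IsPotential Φ) (hε : 0 < ε) : Measurable (wln Φ ε) := by
  unfold wln
  exact ENNReal.measurable_ofReal.comp (measurable_const.add
    ((M.measurable_ln hΦ hε.ne').snd.norm))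

/-! ### ExcE1, ExcD1 -/

section Final

variable (h : GoodDatum f₀ κ₀) (hΦ : IsPotential Φ) (hb : 0 < b) (hM₀ : 0 ≤ M₀)
  (hf : ∀ z, f₀ z ≤ M₀ * Real.exp (-b * ‖z.2‖ ^ 2)) (hM₁ : 0 ≤ M₁)
  (hmarg : ∀ v, ∫⁻ x, ENNReal.ofReal (f₀ (x, v)) ≤
      ENNReal.ofReal (M₁ * Real.exp (-b * ‖v‖ ^ 2)))
  (hT : 0 ≤ T) {X : ℕ → Set Rln} (hX : IrrFam Φ f₀ T b (b / 2) 1 X) (L : ℕ)

include h hΦ hb hM₀ hf hM₁ hmarg hT hX

/-- **The first exceptional term of P3.** -/
theorem excE1_of : ExcE1 Φ f₀ L T :=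
  tendsto_goodT h hΦ hb (by positivity) (by linarith) hM₀ hf hM₁ hmarg hT hX
    ENNReal.ofReal_ne_top (fun _ hε => measurable_wln' hΦ hε)
    fun _ hε S _ => wln_le_exp hΦ hε (half_pos hb) S

/-- **The first exceptional term of the flying trees in P9.** -/
theorem excD1_of : ContExc.ExcD1 Φ f₀ L T :=
  tendsto_goodT h hΦ hb (by positivity) (by linarith) hM₀ hf hM₁ hmarg hT hX
    ENNReal.ofReal_ne_top (fun _ hε => measurable_wq hΦ hε)
    fun _ hε S _ => wq_le_exp hΦ hε (half_pos hb) S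

end Final

end Vale.Agent.P119.PB.XT
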