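import Vale.Agent.P119.PB.RelLim
import Vale.Agent.P119.IND.MassProg0
import Vale.Agent.P119.IND.AddTree

/-!
# P119, block REL: related trees over a structure law (`helper423`)

`rel_lim` = `rel_lim_aux` (PB/RelLim) with the mass of the base from `IND.mass_prog` (755) and the
program of the base with one more tree from `PrgO.add_tree` (388).
-/

open MeasureTheory Filter Topology Set
open scoped ENNReal NNReal

set_option linter.unusedSectionVars false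

noncomputable section

namespace Vale.Agent.P119.PB

open M CTree KU FB RB AU FL GC MM IND PB.CT

namespace RelX

variable {Φ : E3 → ℝ} {f₀ : Ph → ℝ} {κ₀ b c : ℝ}

open Classical in
/-- **The related trees over a structure law.** -/
theorem rel_lim {M₀ M₁ : ℝ} (h : GoodDatum f₀ κ₀) (hΦ : IsPotential Φ) (hb : 0 < b)
    (hc : 0 ≤ c) (hcb : c ≤ b / 2) (hM₀ : 0 ≤ M₀)
    (hf : ∀ z, f₀ z ≤ M₀ * Real.exp (-b * ‖z.2‖ ^ 2)) (hM₁ : 0 ≤ M₁)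
    (hmarg : ∀ v, ∫⁻ x, ENNReal.ofReal (f₀ (x, v)) ≤
      ENNReal.ofReal (M₁ * Real.exp (-b * ‖v‖ ^ 2)))
    (m q L nA nB c₀ N₀ : ℕ) (N : ℕ → ℕ) {T₀ : ℝ} (hT₀ : 0 ≤ T₀) {X : ℕ → Set Rln}
    (hX : ∀ J, (X J).Finite) (hXs : ∀ J, ∀ r ∈ X J, r.Small f₀ b (c + b / 8) (c₀ + 1)) :
    ∃ Dl : ℝ → ℝ≥0∞, Tendsto Dl (𝓝[>] 0) (𝓝 0) ∧ ∀ (ε : ℝ) (hε : 0 < ε), ε ≤ 1 →
      ∀ t t₁ t₂ : ℝ, 0 ≤ t → t ≤ T₀ → t₁ ≤ T₀ → t₂ ≤ T₀ + 1 →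
      ∀ s : Fin q → ℝ, (∀ j, 0 ≤ s j) →
      ∀ (dl : Fin q → ℕ) (W : (Fin m → CTree) → (Fin q → Ph) → ℝ≥0∞),
      (Measurable fun p : (Fin m → CTree) × (Fin q → Ph) => W p.1 p.2) → ∀ CW : ℝ≥0∞, CW ≠ ∞ →
      (∀ T l, W T l ≤ CW * ENNReal.ofReal (Real.exp (c * enB T l))) →
      (∀ T l, W T l ≠ 0 → Base Φ ε T (lns s dl l)) →
      (∀ T l, W T l ≠ 0 → PrgO Φ ε T₀ c₀ N₀ T (lns s dl l) ∅) →
      ∀ B : (Fin m → CTree) → (Fin q → Ph) → Finset Src,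
      (∀ T l, W T l ≠ 0 → (B T l).card ≤ nB ∧ EW (B T l) ≤ nB * (1 + enB T l)) →
      ∀ (W₂ : (Fin m → CTree) → (Fin q → Ph) → Conf Ph → Finset Src)
        (P : (Fin m → CTree) → (Fin q → Ph) → Conf Ph → CTree → Prop),
      (∀ T l, W T l ≠ 0 → ∀ w R, P T l w R →
        alive Φ ε L (W₂ T l w : Set Src) R (ext Φ ε R) ∧ ext Φ ε R ≤ t) →
      (∀ T l, W T l ≠ 0 → ∀ w, ∀ a ∈ W₂ T l w, a ∈ wS (pts w) ∨ a ∈ B T l) →
      (∀ T l, W T l ≠ 0 → ∀ w R, P T l w R → (∀ j, Disjoint (T j).leaves (wS (pts w) : Set Src)) ∧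
        ∀ j, lns s dl l j ∉ wS (pts w)) →
      ∀ Bad : (Fin m → CTree) → (Fin q → Ph) → Finset Src → CTree → Prop,
      MeasurableSet {p : (((Fin m → CTree) × (Fin q → Ph)) × CTree) × Conf Ph |
        Bad p.1.1.1 p.1.1.2 (wS (pts p.2)) p.1.2} →
      ∀ Alt : (Fin m → CTree) → (Fin q → Ph) → Conf Ph → Src → Prop,
      (∀ T l, W T l ≠ 0 → ∀ w R, P T l w R → R.leaves ⊆ (wS (pts w) : Set Src) →
        (∃ a ∈ R.leaves, Alt T l w a) ∨ Bad T l (rm (wS (pts w)) R) R) →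
      (∀ T l, W T l ≠ 0 → ∀ w, ∀ a ∈ wS (pts w), Alt T l w a →
        Bad T l (rm (wS (pts w)) (leaf a)) (leaf a)) →
      ∀ A : (Fin (m + 1) → CTree) → (Fin q → Ph) → Finset (ℝ × Ph),
      (∀ T l R, W T l ≠ 0 → OKt Φ ε L t R →
        Base Φ ε (Fin.snoc T R : Fin (m + 1) → CTree) (lns s dl l) →
        (A (Fin.snoc T R) l).card ≤ nA ∧ ∀ σ ∈ A (Fin.snoc T R) l, 0 ≤ σ.1 ∧ σ.1 ≤ t₂ ∧
          ‖σ.2.2‖ ^ 2 ≤ enB (Fin.snoc T R : Fin (m + 1) → CTree) l) →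
      (∀ J, ∀ T l R, W T l ≠ 0 → OKt Φ ε L t R →
        Base Φ ε (Fin.snoc T R : Fin (m + 1) → CTree) (lns s dl l) →
        ∀ᵐ w ∂(PP f₀ ε), Bad T l (wS (pts w)) R →
        (∃ σ ∈ A (Fin.snoc T R) l,
          HasClean hΦ hε.ne' L t₁ t₂ J (world (pts w : Set Ph)) σ.1 σ.2) ∨
          PrgC Φ ε T₀ (c₀ + 1) (N J) (Fin.snoc T R : Fin (m + 1) → CTree) (lns s dl l) (pts w) ∨
          PrgO Φ ε T₀ c₀ (N J) (Fin.snoc T R : Fin (m + 1) → CTree) (lns s dl l) (pts w) ∨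
          SBad (X J) ε (Fin.snoc T R : Fin (m + 1) → CTree) (lns s dl l) (pts w)) →
      muE ε ^ q * ∫⁻ T, ∫⁻ l : Fin q → Ph, (∏ j, g1 b (l j).2) * (W T l *
        ∫⁻ w, (∑' R : CTree, if P T l w R then wln Φ ε R else 0) ∂(PP f₀ ε)) ∂volume
          ∂(Measure.pi fun _ : Fin m => tree (inten f₀ ε) L) ≤
      CW * (muE ε ^ (c₀ + 1) * Dl ε) := by
  have hmass : MassB Φ f₀ b (c + b / 8) m q L c₀ N₀ T₀ :=
    mass_prog (c := c + b / 8) h hΦ (by positivity) (by linarith) hM₀ hf hM₁ hmarg m q L c₀ N₀ hT₀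
  obtain ⟨Dl, h1, h2⟩ := rel_lim_aux h hΦ hb hc hcb hM₀ hf hM₁ hmarg m q L nA nB c₀ N₀
    (N₀ + 2 ^ (L + 2)) N hT₀ hX hXs hmass
  refine ⟨Dl, h1, ?_⟩
  intro ε hε hε1 t t₁ t₂ ht htT ht₁ ht₂ s hs dl W hW CW hCW hWb hbase hbase' B hB W₂ P hP hW₂ hfr
    Bad hBm Alt hA1 hA2 A hA hbad
  refine h2 ε hε hε1 t t₁ t₂ ht ht₁ ht₂ s hs dl W hW CW hCW hWb hbase hbase' ?_ B hB W₂ P hP hW₂
    hfr Bad hBm Alt hA1 hA2 A hA hbad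
  intro T l R hne hR hB'
  exact PrgO.add_tree hΦ hε hB' hs (hbase' T l hne) (hR.2.2.trans htT) hR.2.1

end RelX

end Vale.Agent.P119.PB
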