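import Vale.Agent.P119.IND.PairBase
import Vale.Agent.P119.PB.RelLim2
import Vale.Agent.P119.PB.RLines
import Vale.Agent.P119.PB.ExcOne
import Vale.Agent.P119.RM.Good

/-!
# P119, block PROB: trees related to inserted lines, over the structure laws (`helper185`)

* `HasBase Φ ε T L c₀ NB T₀ l K`: the trees `T₀` and the lines `l` have a base structure with `c₀`
  classes (`IND.KBase`), whose lines contain the sources `K`; `HasBase.prgO`;
* **`lines_lim`**: the expected weighted number of the trees which are related to the difference of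
  the worlds `V + I` and `V + J`, where `I, J ⊆ K` are lines of the base, integrated over a structure
  law: `o(μ^{c₀ + 1 - q})` (`RelX.rel_lim` of `helper423`, `rel_old`, `alt_bad` of `helper347`).
-/

open MeasureTheory Filter Topology Set
open scoped ENNReal NNReal

set_option linter.unusedSectionVars false

noncomputable section

namespace Vale.Agent.P119.PB

open M CTree KU FB RB AU FL GC MM IND PB.CT TL RelX

variable {Φ : E3 → ℝ} {ε T t : ℝ} {L : ℕ} {f₀ : Ph → ℝ} {κ₀ b c : ℝ} {m q c₀ NB : ℕ}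

/-! ### Base structures -/

/-- The trees `T₀` and the lines `l` have a base structure with `c₀` classes, whose lines contain
the sources `K`. -/
def HasBase (Φ : E3 → ℝ) (ε T : ℝ) (L c₀ NB : ℕ) {m q : ℕ} (T₀ : Fin m → CTree)
    (l : Fin q → Src) (K : Finset Src) : Prop :=
  ∃ (F₀ : Finset CTree) (G₀ : List Gh) (D₀ : Set Src) (X : Src → Src) (R₀ : Finset Src),
    KBase Φ ε T F₀ G₀ D₀ X ∧ SLab T₀ l F₀ G₀ c₀ R₀ ∧ szB F₀ G₀ ≤ NB ∧
    ∀ σ ∈ K, (0 ≤ σ.1 ∧ σ.2.2 ≤ L) ∧ ∃ τ ∈ lab F₀, τ ∉ D₀ ∧ X τ = σ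

theorem _root_.Vale.Agent.P119.IND.PBase.hasBase {F₀ : Finset CTree} {G₀ : List Gh} {D₀ : Set Src} {X : Src → Src}
    {T₀ : Fin m → CTree} {l : Fin q → Src} {R₀ : Finset Src} {K : Finset Src}
    (h : PBase Φ ε T F₀ G₀ D₀ X) (hl : SLab T₀ l F₀ G₀ c₀ R₀) (hs : szB F₀ G₀ ≤ NB)
    (hK : ∀ σ ∈ K, (0 ≤ σ.1 ∧ σ.2.2 ≤ L) ∧ ∃ τ ∈ lab F₀, τ ∉ D₀ ∧ X τ = σ) :
    HasBase Φ ε T L c₀ NB T₀ l K := ⟨F₀, G₀, D₀, X, R₀, h.kbase, hl, hs, hK⟩

/-- The program of a base, without a world. -/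
theorem prgO_of_baseP (hΦ : IsPotential Φ) (hε : 0 < ε) {κ : Type} [Fintype κ] [DecidableEq κ]
    {z x : κ → Src} {D : Set κ} {Q : List (Ev κ × ℝ)} {T₀ : Fin m → CTree} {l : Fin q → Src}
    {R₀ : Finset κ} {N : ℕ} (hB : BaseP Φ ε T z x D Q) (hR : CovB z Q l c₀ R₀)
    (hL : BLab T₀ l z) (hN : Fintype.card κ + Q.length ≤ N) (w : Finset Ph) :
    PrgO Φ ε T c₀ N T₀ l w := by
  obtain ⟨R', h1, h2, h3⟩ := exists_trans (jn_equivalence Q) R₀ hR.cov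
  have hJ : ∀ i k, Jn (pl T (Q.map Prod.fst)) i k ↔ Jn Q i k := fun i k => jn_fst (pl_fst T Q)
  refine PrgO.of_fintype (z := z) (P := Q.map Prod.fst) (Rs := R') (by omega)
    (by rw [List.length_map]; omega) ⟨hB.inj, fun i => ?_, hL.trees, hL.lines⟩ ⟨fun i => ?_,
    fun r hr r' hr' hj => h3 r hr r' hr' ((hJ r r').1 hj)⟩
    ((Finset.card_le_card h1).trans hR.card) (fun i hi => hR.ord i (h1 hi))
    (hB.run.run hΦ hε hB.nonneg)
  · rcases hL.mem i with h | h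
    · exact Or.inl h
    · exact Or.inr (Or.inl h)
  · obtain ⟨r, hr, hj⟩ := h2 i
    exact ⟨r, hr, (hJ i r).2 hj⟩

theorem HasBase.prgO (hΦ : IsPotential Φ) (hε : 0 < ε) {T₀ : Fin m → CTree} {l : Fin q → Src}
    {K : Finset Src} (h : HasBase Φ ε T L c₀ NB T₀ l K) (w : Finset Ph) :
    PrgO Φ ε T c₀ NB T₀ l w := by
  obtain ⟨F₀, G₀, D₀, X, R₀, hB, hl, hs, -⟩ := h
  have h1 : SBase Φ ε T F₀ G₀ univ X := (hB.mono_D (subset_univ _)).sbase (by
    rw [Set.sdiff_eq_empty.2 (subset_univ _)]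
    exact fun x hx => absurd hx (notMem_empty _))
  obtain ⟨κ, i1, i2, z, x, D, Q, R, h2, h3, h4, h5, -⟩ := h1.exists_base hΦ hε hl
  exact prgO_of_baseP hΦ hε h2 h3 h4 (h5.trans hs) w

/-- Fewer lines. -/
theorem HasBase.subset {T₀ : Fin m → CTree} {l : Fin q → Src} {K K' : Finset Src}
    (h : HasBase Φ ε T L c₀ NB T₀ l K) (hK : K' ⊆ K) : HasBase Φ ε T L c₀ NB T₀ l K' := by
  obtain ⟨F₀, G₀, D₀, X, R₀, h1, h2, h3, h4⟩ := h
  exact ⟨F₀, G₀, D₀, X, R₀, h1, h2, h3, fun σ hσ => h4 σ (hK hσ)⟩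

/-- The births of the lines. -/
theorem HasBase.le {T₀ : Fin m → CTree} {l : Fin q → Src} {K : Finset Src}
    (h : HasBase Φ ε T L c₀ NB T₀ l K) {σ : Src} (hσ : σ ∈ K) : 0 ≤ σ.1 ∧ σ.1 ≤ T := by
  obtain ⟨F₀, G₀, D₀, X, R₀, h1, h2, h3, h4⟩ := h
  obtain ⟨h5, τ, h6, h7, rfl⟩ := h4 σ hσ
  obtain ⟨S, h8, -, -, h9⟩ := h1.lst τ h6 h7
  rcases h9 with h9 | ⟨g, hg, -, h10, -⟩
  · exact ⟨h5.1, h9.trans_le (h1.fam.ext_le S h8.mem)⟩
  · exact ⟨h5.1, h10 ▸ (h1.fam.gh g hg).2.2.2.2.2.1⟩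

/-! ### Measurability -/

theorem measurableSet_BadK {X : Type*} [MeasurableSpace X] (hΦ : IsPotential Φ) (hε : 0 < ε)
    {V : X → Finset Src} {R : X → CTree} {K : X → Finset Src} {t : X → ℝ}
    (hV : MM.RS fun x => (V x : Set Src)) (hR : Measurable R)
    (hK : MM.RS fun x => (K x : Set Src)) (ht : Measurable t) :
    MeasurableSet {x | RLn.BadK Φ ε L (K x) (t x) (V x) (R x)} := by
  classical
  have hs := RM.rs_srcs hΦ hε hR
  have h1 := RM.measurableSet_inj_rsrc hΦ hε hR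
  have h2 := hs.measurableSet_disjoint hK
  have hZ : MM.RS fun p : X × Src => ((sgl p.2 : Finset Src) : Set Src) := by
    refine (MM.RS.singleton (measurable_snd (α := X) (β := Src))).congr fun p => ?_
    unfold sgl
    exact Finset.coe_singleton _
  have hu : MM.RS fun x => ((srcs Φ ε (R x) ∪ K x : Finset Src) : Set Src) :=
    (hs.union hK).congr fun x => Finset.coe_union _ _
  have h3 := RM.measurableSet_MGood_rs (L := L) hΦ hε (V := V) (Z := fun _ => sgl) hV hZ hu ht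
  have e : {x | RLn.BadK Φ ε L (K x) (t x) (V x) (R x)} =
      ({x | InjOn (rsrc Φ ε) (outs (R x))} ∩ ({x | Disjoint (srcs Φ ε (R x) : Set Src) (K x)} ∩
        {x | M.Good Φ ε L (V x) sgl (srcs Φ ε (R x) ∪ K x) (t x)}))ᶜ := by
    ext x
    rw [mem_compl_iff]
    exact not_congr ⟨fun h => ⟨h.inj, Finset.disjoint_coe.2 h.disj, h.good⟩,
      fun h => ⟨h.1, Finset.disjoint_coe.1 h.2.1, h.2.2⟩⟩
  rw [e]
  exact (h1.inter (h2.inter h3)).compl

/-! ### The limit -/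

/-- The labels of the structure and the sources `K` are not in the world. -/
def FrK {m q : ℕ} (T : Fin m → CTree) (l : Fin q → Src) (K : Finset Src) (w : Conf Ph) : Prop :=
  (∀ j, Disjoint (T j).leaves (wS (pts w) : Set Src)) ∧ (∀ j, l j ∉ wS (pts w)) ∧
    ∀ a ∈ K, a ∉ wS (pts w)

theorem ae_frK (h : GoodDatum f₀ κ₀) (hε : 0 ≤ ε) (T : Fin m → CTree) (l : Fin q → Src)
    (K : Finset Src) : ∀ᵐ w ∂(PP f₀ ε), FrK T l K w := by
  have h1 := XT.ae_forall_notMem_wS (ε := ε) h hε (A := (⋃ j, (T j).leaves) ∪ (range l ∪ K))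
    ((finite_iUnion fun j => (T j).leaves_finite).union
      ((finite_range l).union K.finite_toSet))
  filter_upwards [h1] with w hw
  refine ⟨fun j => Set.disjoint_left.2 fun a ha hb => ?_, fun j => ?_, fun a ha => ?_⟩
  · exact hw a (Or.inl (mem_iUnion.2 ⟨j, ha⟩)) (Finset.mem_coe.1 hb)
  · exact hw _ (Or.inr (Or.inl ⟨j, rfl⟩))
  · exact hw a (Or.inr (Or.inr (Finset.mem_coe.2 ha)))

theorem card_srcs_R_le {R : CTree} (hR : CTree.ok Φ ε R) (hd : R.depth ≤ L) :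
    (srcs Φ ε R).card ≤ 2 ^ (L + 2) := by
  classical
  have h1 : srcs Φ ε R ⊆ (partsF R).image (rsrc Φ ε) := by
    intro σ hσ
    obtain ⟨x, hx, rfl⟩ := mem_srcs.1 hσ
    exact Finset.mem_image.2 ⟨x, (isLast_of_outs hR hx).mem, rfl⟩
  exact (Finset.card_le_card h1).trans (Finset.card_image_le.trans (card_partsF_le hd))

/-- **The trees related to inserted lines**, over a structure law. -/
theorem lines_lim {M₀ M₁ : ℝ} (h : GoodDatum f₀ κ₀) (hΦ : IsPotential Φ) (hb : 0 < b)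
    (hc : 0 ≤ c) (hcb : c ≤ b / 2) (hM₀ : 0 ≤ M₀)
    (hf : ∀ z, f₀ z ≤ M₀ * Real.exp (-b * ‖z.2‖ ^ 2)) (hM₁ : 0 ≤ M₁)
    (hmarg : ∀ v, ∫⁻ x, ENNReal.ofReal (f₀ (x, v)) ≤
      ENNReal.ofReal (M₁ * Real.exp (-b * ‖v‖ ^ 2)))
    (m q L nK c₀ NB : ℕ) {T₀ : ℝ} (hT₀ : 0 ≤ T₀) {X : ℕ → Set Rln}
    (hX : XT.IrrFam Φ f₀ T₀ b (c + b / 8) (c₀ + 1) X) :
    ∃ Dl : ℝ → ℝ≥0∞, Tendsto Dl (𝓝[>] 0) (𝓝 0) ∧ ∀ (ε : ℝ) (hε : 0 < ε), ε ≤ 1 →
      ∀ t : ℝ, 0 ≤ t → t ≤ T₀ → ∀ s : Fin q → ℝ, (∀ j, 0 ≤ s j) →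
      ∀ (dl : Fin q → ℕ) (W : (Fin m → CTree) → (Fin q → Ph) → ℝ≥0∞),
      (Measurable fun p : (Fin m → CTree) × (Fin q → Ph) => W p.1 p.2) → ∀ CW : ℝ≥0∞, CW ≠ ∞ →
      (∀ T l, W T l ≤ CW * ENNReal.ofReal (Real.exp (c * enB T l))) →
      (∀ T l, W T l ≠ 0 → Base Φ ε T (lns s dl l)) →
      ∀ K I J : (Fin m → CTree) → (Fin q → Ph) → Finset Src,
      (MM.RS fun p : (Fin m → CTree) × (Fin q → Ph) => (K p.1 p.2 : Set Src)) →
      (∀ T l, W T l ≠ 0 → HasBase Φ ε T₀ L c₀ NB T (lns s dl l) (K T l)) →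
      (∀ T l, W T l ≠ 0 → (K T l).card ≤ nK ∧ ∀ a ∈ K T l, ‖a.2.1.2‖ ^ 2 ≤ enB T l) →
      (∀ T l, W T l ≠ 0 → I T l ⊆ K T l ∧ J T l ⊆ K T l) →
      muE ε ^ q * ∫⁻ T, ∫⁻ l : Fin q → Ph, (∏ j, g1 b (l j).2) * (W T l *
        ∫⁻ w, relW L hΦ hε (wF (wS (pts w)) sgl (I T l)) (wF (wS (pts w)) sgl (J T l)) t
          ∂(PP f₀ ε)) ∂volume ∂(Measure.pi fun _ : Fin m => tree (inten f₀ ε) L) ≤
      CW * (muE ε ^ (c₀ + 1) * Dl ε) := by
  classical
  obtain ⟨Dl, hDl, h1⟩ := rel_lim h hΦ hb hc hcb hM₀ hf hM₁ hmarg m q L (2 ^ (L + 2) + nK) nK c₀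
    NB (fun J => NB + 2 ^ (L + 3) + 2 * Nb0 L J + 1) hT₀
    (X := fun J => X (NB + 2 ^ (L + 3) + 2 * Nb0 L J + 1)) (fun J => hX.fin _)
    (fun J r hr => hX.small _ r hr)
  refine ⟨Dl, hDl, fun ε hε hε1 t ht htT s hs dl W hW CW hCW hWb hbase K I J hKm hK hKe hIJ => ?_⟩
  have h2 := h1 ε hε hε1 t T₀ (T₀ + 1) ht htT le_rfl le_rfl s hs dl W hW CW hCW hWb hbase
    (fun T l hne => (hK T l hne).prgO hΦ hε ∅) J (fun T l hne => ?_)
    (fun T l w => wF (wS (pts w)) sgl (J T l))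
    (fun T l w R => FrK T (lns s dl l) (K T l) w ∧
      Rel L hΦ hε (wF (wS (pts w)) sgl (I T l)) (wF (wS (pts w)) sgl (J T l)) t R)
    (fun T l _ w R hR => ⟨hR.2.alive, hR.2.ext_le⟩) (fun T l _ w a ha => mem_wF_sgl.1 ha)
    (fun T l _ w R hR => ⟨hR.1.1, hR.1.2.1⟩)
    (fun T l V R => RLn.BadK Φ ε L (K T l) t V R) ?_
    (fun T l w a => FrK T (lns s dl l) (K T l) w ∧
      a ∈ (RB.Y Φ ε L hΦ hε).D (wF (wS (pts w)) sgl (I T l)) (wF (wS (pts w)) sgl (J T l)) t)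
    (fun T l hne w R hR hRw => ?_) (fun T l hne w a ha hA => ?_)
    (fun T l => (srcs Φ ε (T (Fin.last m)) ∪ K (Fin.init T) l).image fun σ => (σ.1, σ.2.1))
    (fun T l R hne hR hB => ?_) (fun Jn T l R hne hR hB => ?_)
  · refine le_trans (le_of_eq ?_) h2
    congr 1
    refine lintegral_congr fun T => lintegral_congr fun l => ?_
    by_cases h0 : W T l = 0
    · simp only [h0, zero_mul]
    congr 2
    refine lintegral_congr_ae ?_
    filter_upwards [ae_frK h hε.le T (lns s dl l) (K T l)] with w hw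
    unfold relW
    refine tsum_congr fun R => ?_
    by_cases hR : Rel L hΦ hε (wF (wS (pts w)) sgl (I T l)) (wF (wS (pts w)) sgl (J T l)) t R
    · rw [if_pos hR, if_pos ⟨hw, hR⟩]
      rfl
    · rw [if_neg hR, if_neg fun h3 => hR h3.2]
  · have h3 := hKe T l hne
    have h4 := (hIJ T l hne).2
    have h5 : (J T l).card ≤ nK := (Finset.card_le_card h4).trans h3.1
    refine ⟨h5, ?_⟩
    unfold EW
    calc ∑ a ∈ J T l, (1 + ‖a.2.1.2‖ ^ 2) ≤ ∑ a ∈ J T l, (1 + enB T l) :=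
          Finset.sum_le_sum fun a ha => by
            have := h3.2 a (h4 ha)
            linarith
      _ = (J T l).card * (1 + enB T l) := by rw [Finset.sum_const, nsmul_eq_mul]
      _ ≤ _ := by
        have h6 : (0 : ℝ) ≤ 1 + enB T l := by linarith [enB_nonneg T l]
        gcongr
  · exact measurableSet_BadK hΦ hε (RM.rs_wS measurable_snd)
      (measurable_snd.comp measurable_fst)
      (hKm.comp (measurable_fst.comp measurable_fst)) measurable_const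
  · rcases RLn.rel_old (hIJ T l hne).1 (hIJ T l hne).2 hR.1.2.2 hR.2 hRw with ⟨a, ha, h3⟩ | h3
    · exact Or.inl ⟨a, ha, hR.1, h3⟩
    · exact Or.inr h3
  · exact RLn.alt_bad (hIJ T l hne).1 (hIJ T l hne).2 ha hA.2
  · rw [Fin.snoc_last, Fin.init_snoc, enB_snoc]
    refine ⟨Finset.card_image_le.trans ((Finset.card_union_le _ _).trans
      (add_le_add (card_srcs_R_le hR.1 hR.2.1) (hKe T l hne).1)), fun σ hσ => ?_⟩
    obtain ⟨a, ha, rfl⟩ := Finset.mem_image.1 hσ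
    rcases Finset.mem_union.1 ha with ha | ha
    · obtain ⟨x, hx, rfl⟩ := mem_srcs.1 ha
      have hxo := outs_ok hΦ hR.1 hx
      refine ⟨M.ext_nonneg hΦ hε hxo, ?_, ?_⟩
      · have h3 : ext Φ ε x ≤ ext Φ ε R := out_ext_le hΦ hε hR.1 hx
        exact (h3.trans (hR.2.2.trans htT)).trans (by linarith)
      · have h3 : ‖(ln Φ ε x).2‖ ^ 2 ≤ enT R := ln_sq_le_enT_outs hΦ hε.ne' hx
        exact h3.trans (by linarith [enB_nonneg T l])
    · have h3 := (hK T l hne).le ha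
      exact ⟨h3.1, h3.2.trans (by linarith), ((hKe T l hne).2 a ha).trans
        (by linarith [enT_nonneg R])⟩
  · obtain ⟨F₀, G₀, D₀, X₀, R₀, g1, g2, g3, g4⟩ := hK T l hne
    have h3 := XT.ae_forall_notMem_wS (ε := ε) h hε.le
      (A := (lab F₀ : Set Src) ∪ (R.leaves ∪ (X₀ '' (lab F₀ : Set Src) ∪ (srcs Φ ε R : Set Src))))
      ((lab F₀).finite_toSet.union (R.leaves_finite.union
        (((lab F₀).finite_toSet.image X₀).union (srcs Φ ε R).finite_toSet)))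
    filter_upwards [h3] with w hw hbad
    have hd : ∀ σ ∈ lab F₀, σ ∉ R.leaves := by
      intro σ hσ hσR
      rcases g2.mem σ hσ with ⟨j, hj⟩ | ⟨j, rfl⟩
      · have h5 := hB.disj j.castSucc (Fin.last m) (Fin.castSucc_lt_last j).ne
        rw [Fin.snoc_castSucc, Fin.snoc_last] at h5
        exact Set.disjoint_left.1 h5 hj hσR
      · have h5 := hB.notMem (Fin.last m) j
        rw [Fin.snoc_last] at h5
        exact h5 hσR
    have h5 := g1.law_not_goodK hΦ hε hT₀ g2 hR.1 hR.2.1 (hR.2.2.trans htT) hd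
      (w := pts w) (fun σ hσ => hw σ (Or.inl (Finset.mem_coe.2 hσ)))
      (Set.disjoint_left.2 fun σ h6 h7 => hw σ (Or.inr (Or.inl h6)) (Finset.mem_coe.1 h7))
      (fun σ hσ _ => hw _ (Or.inr (Or.inr (Or.inl ⟨σ, Finset.mem_coe.2 hσ, rfl⟩))))
      (Finset.disjoint_left.2 fun σ h6 h7 => hw σ (Or.inr (Or.inr (Or.inr
        (Finset.mem_coe.2 h6)))) h7) g4 htT hbad Jn
    rcases h5 with ⟨σ, hσ, h5⟩ | h5 | h5 | h5
    · left
      rw [Fin.snoc_last, Fin.init_snoc]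
      refine ⟨(σ.1, σ.2.1), Finset.mem_image.2 ⟨σ, Finset.mem_coe.1 hσ, rfl⟩, ?_⟩
      rw [coe_wS] at h5
      exact h5
    · exact Or.inr (Or.inl (h5.mono le_rfl (by omega)))
    · exact Or.inr (Or.inr (Or.inl (h5.mono le_rfl (by omega))))
    · exact Or.inr (Or.inr (Or.inr (hX.sbad _ ε hε _ _ _ (h5.mono le_rfl (by omega)))))

end Vale.Agent.P119.PB
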