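import Vale.Agent.P119.IND.NearDrp
import Vale.Agent.P119.IND.NearM
import Vale.Agent.P119.IND.Irrs
import Vale.Agent.P119.PB.LinesLim
import Vale.Agent.P119.PB.ExcPair
import Vale.Agent.P119.PB.RelCases

/-!
# P119, block PROB: trees related to an inserted real tree, over the structure laws (`helper256`)

* `HasBaseK Φ ε T L c₀ NB T₀ l K O`: the trees `T₀` and the lines `l` have a base structure with `c₀`
  classes (`IND.KBase`), whose lines contain the sources `K`; the histories `O` are histories of the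
  base;
* **`real_lim`**: the expected weighted number of the trees `R` such that `Bd (V ∖ R) R`, where `Bd`
  is a measurable event which implies `¬GoodK (V ∖ R) R K` or `Drp (V ∖ R) R O r`, integrated over a
  structure law: `o(μ^{c₀ + 1 - q})` (`RelX.rel_lim` of `helper423`, `law_not_goodK` of `helper185`,
  `law_drp` of `helper498`, `lines_lim` of `helper185`).
-/

open MeasureTheory Filter Topology Set
open scoped ENNReal NNReal

set_option linter.unusedSectionVars false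

noncomputable section

namespace Vale.Agent.P119.PB

open M CTree KU FB RB AU FL GC MM IND PB.CT TL RelX

variable {Φ : E3 → ℝ} {ε T t : ℝ} {L : ℕ} {f₀ : Ph → ℝ} {κ₀ b c : ℝ} {m q c₀ NB : ℕ}

/-! ### Base structures -/

/-- The trees `T₀` and the lines `l` have a base structure with `c₀` classes, whose lines contain
the sources `K`; every element of `O` is a history of particles of the base, which are joined. -/
def HasBaseK (Φ : E3 → ℝ) (ε T : ℝ) (L c₀ NB : ℕ) {m q : ℕ} (T₀ : Fin m → CTree)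
    (l : Fin q → Src) (K : Finset Src) (O : Set CTree) : Prop :=
  ∃ (F₀ : Finset CTree) (G₀ : List Gh) (D₀ : Set Src) (X : Src → Src) (R₀ : Finset Src),
    KBase Φ ε T F₀ G₀ D₀ X ∧ SLab T₀ l F₀ G₀ c₀ R₀ ∧ szB F₀ G₀ ≤ NB ∧
    (∀ σ ∈ K, (0 ≤ σ.1 ∧ σ.2.2 ≤ L) ∧ ∃ τ ∈ lab F₀, τ ∉ D₀ ∧ X τ = σ) ∧
    ∀ x ∈ O, CTree.ok Φ ε x ∧ ∀ σ ∈ x.leaves, σ ∈ lab F₀ ∧ FJ F₀ G₀ σ x.root

theorem HasBaseK.prgO (hΦ : IsPotential Φ) (hε : 0 < ε) {T₀ : Fin m → CTree} {l : Fin q → Src}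
    {K : Finset Src} {O : Set CTree} (h : HasBaseK Φ ε T L c₀ NB T₀ l K O) (w : Finset Ph) :
    PrgO Φ ε T c₀ NB T₀ l w := by
  obtain ⟨F₀, G₀, D₀, X, R₀, hB, hl, hs, -⟩ := h
  exact (XT.prgO_of_slab hΦ hε hB.fam hl w).mono le_rfl hs

/-- The births of the lines. -/
theorem HasBaseK.le {T₀ : Fin m → CTree} {l : Fin q → Src} {K : Finset Src} {O : Set CTree}
    (h : HasBaseK Φ ε T L c₀ NB T₀ l K O) {σ : Src} (hσ : σ ∈ K) : 0 ≤ σ.1 ∧ σ.1 ≤ T := by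
  obtain ⟨F₀, G₀, D₀, X, R₀, h1, h2, h3, h4, -⟩ := h
  obtain ⟨h5, τ, h6, h7, rfl⟩ := h4 σ hσ
  refine ⟨h5.1, ?_⟩
  obtain ⟨S, h8, -, -, h9⟩ := h1.lst τ h6 h7
  rcases h9 with h9 | ⟨g, hg, -, h9, -⟩
  · exact h9.trans_le (h1.fam.ext_le S h8.mem)
  · rw [← h9]
    exact (h1.fam.gh g hg).2.2.2.2.2.1

/-- The number of labels and events. -/
def NJ (NB L J : ℕ) : ℕ := NB + 2 ^ (L + 3) + 2 * Nb0 L J + 1

open Classical in
/-- **The trees related to an inserted real tree**, over a structure law. -/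
theorem real_lim {M₀ M₁ : ℝ} (h : GoodDatum f₀ κ₀) (hΦ : IsPotential Φ) (hb : 0 < b)
    (hc : 0 ≤ c) (hcb : c ≤ b / 2) (hM₀ : 0 ≤ M₀)
    (hf : ∀ z, f₀ z ≤ M₀ * Real.exp (-b * ‖z.2‖ ^ 2)) (hM₁ : 0 ≤ M₁)
    (hmarg : ∀ v, ∫⁻ x, ENNReal.ofReal (f₀ (x, v)) ≤
      ENNReal.ofReal (M₁ * Real.exp (-b * ‖v‖ ^ 2)))
    (m q L nK nB c₀ NB : ℕ) {T₀ : ℝ} (hT₀ : 0 ≤ T₀) :
    ∃ Dl : ℝ → ℝ≥0∞, Tendsto Dl (𝓝[>] 0) (𝓝 0) ∧ ∀ (ε : ℝ) (hε : 0 < ε), ε ≤ 1 →
      ∀ t : ℝ, 0 ≤ t → t ≤ T₀ → ∀ s : Fin q → ℝ, (∀ j, 0 ≤ s j) →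
      ∀ (dl : Fin q → ℕ) (W : (Fin m → CTree) → (Fin q → Ph) → ℝ≥0∞),
      (Measurable fun p : (Fin m → CTree) × (Fin q → Ph) => W p.1 p.2) → ∀ CW : ℝ≥0∞, CW ≠ ∞ →
      (∀ T l, W T l ≤ CW * ENNReal.ofReal (Real.exp (c * enB T l))) →
      (∀ T l, W T l ≠ 0 → Base Φ ε T (lns s dl l)) →
      -- the base, its lines and its histories
      ∀ (K : (Fin m → CTree) → (Fin q → Ph) → Finset Src)
        (O : (Fin m → CTree) → (Fin q → Ph) → Set CTree)
        (r : (Fin m → CTree) → (Fin q → Ph) → CTree → ℝ),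
      (∀ T l, W T l ≠ 0 → HasBaseK Φ ε T₀ L c₀ NB T (lns s dl l) (K T l) (O T l)) →
      (∀ T l, W T l ≠ 0 → (K T l).card ≤ nK ∧ ∀ a ∈ K T l, ‖a.2.1.2‖ ^ 2 ≤ enB T l) →
      -- the event
      ∀ Bd : (Fin m → CTree) → (Fin q → Ph) → Finset Src → CTree → Prop,
      (MeasurableSet {p : (((Fin m → CTree) × (Fin q → Ph)) × CTree) × Conf Ph |
        Bd p.1.1.1 p.1.1.2 (wS (pts p.2)) p.1.2}) →
      (∀ T l, W T l ≠ 0 → ∀ w R, FrK T (lns s dl l) (K T l) w → OKt Φ ε L t R →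
        Base Φ ε (Fin.snoc T R : Fin (m + 1) → CTree) (lns s dl l) →
        Disjoint R.leaves (wS (pts w) : Set Src) → (∀ σ ∈ srcs Φ ε R, σ ∉ wS (pts w)) →
        Bd T l (wS (pts w)) R → ¬GoodK Φ ε L (wS (pts w)) R (K T l) t ∨
          Drp Φ ε L (wS (pts w)) R (O T l) (r T l) t) →
      -- the trees which are counted
      ∀ B : (Fin m → CTree) → (Fin q → Ph) → Finset Src,
      (∀ T l, W T l ≠ 0 → (B T l).card ≤ nB ∧ EW (B T l) ≤ nB * (1 + enB T l)) →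
      ∀ (W₂ : (Fin m → CTree) → (Fin q → Ph) → Conf Ph → Finset Src)
        (P : (Fin m → CTree) → (Fin q → Ph) → Conf Ph → CTree → Prop),
      (∀ T l, W T l ≠ 0 → ∀ w R, FrK T (lns s dl l) (K T l) w → P T l w R →
        alive Φ ε L (W₂ T l w : Set Src) R (ext Φ ε R) ∧ ext Φ ε R ≤ t) →
      (∀ T l, W T l ≠ 0 → ∀ w, ∀ a ∈ W₂ T l w, a ∈ wS (pts w) ∨ a ∈ B T l) →
      ∀ Alt : (Fin m → CTree) → (Fin q → Ph) → Conf Ph → Src → Prop,
      (∀ T l, W T l ≠ 0 → ∀ w R, FrK T (lns s dl l) (K T l) w → P T l w R →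
        R.leaves ⊆ (wS (pts w) : Set Src) →
        (∃ a ∈ R.leaves, Alt T l w a) ∨ Bd T l (rm (wS (pts w)) R) R) →
      (∀ T l, W T l ≠ 0 → ∀ w, FrK T (lns s dl l) (K T l) w → ∀ a ∈ wS (pts w), Alt T l w a →
        Bd T l (rm (wS (pts w)) (leaf a)) (leaf a)) →
      muE ε ^ q * ∫⁻ T, ∫⁻ l : Fin q → Ph, (∏ j, g1 b (l j).2) * (W T l *
        ∫⁻ w, (∑' R : CTree, if P T l w R then wln Φ ε R else 0) ∂(PP f₀ ε)) ∂volume
          ∂(Measure.pi fun _ : Fin m => tree (inten f₀ ε) L) ≤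
      CW * (muE ε ^ (c₀ + 1) * Dl ε) := by
  have hbc : c + b / 8 < b := by linarith
  obtain ⟨Dl, hDl, h1⟩ := rel_lim h hΦ hb hc hcb hM₀ hf hM₁ hmarg m q L (2 ^ (L + 2) + nK) nB c₀
    NB (NJ NB L) hT₀ (X := fun J => irrs hΦ T₀ (NJ NB L J) (c₀ + 1) ∪ nears Φ T₀ (NJ NB L J) c₀)
    (fun J => (irrs_finite hΦ T₀ _ _).union (nears_finite Φ T₀ _ _))
    (fun J r hr => by
      rcases hr with hr | hr
      · exact irrs_small hΦ h.meas hM₁ hmarg hbc hT₀ hr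
      · exact nears_small hΦ h.meas hM₁ hmarg hbc hT₀ (Nat.lt_succ_self c₀) hr)
  refine ⟨Dl, hDl, fun ε hε hε1 t ht htT s hs dl W hW CW hCW hWb hbase K O r hK hKe Bd hBm hBd
    B hB W₂ P hP hW₂ Alt hA1 hA2 => ?_⟩
  have h2 := h1 ε hε hε1 t T₀ (T₀ + 1) ht htT le_rfl le_rfl s hs dl W hW CW hCW hWb hbase
    (fun T l hne => (hK T l hne).prgO hΦ hε ∅) B hB W₂
    (fun T l w R => FrK T (lns s dl l) (K T l) w ∧ P T l w R)
    (fun T l hne w R hR => hP T l hne w R hR.1 hR.2) hW₂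
    (fun T l _ w R hR => ⟨hR.1.1, hR.1.2.1⟩) Bd hBm
    (fun T l w a => FrK T (lns s dl l) (K T l) w ∧ Alt T l w a)
    (fun T l hne w R hR hRw => ?_)
    (fun T l hne w a ha hA => hA2 T l hne w hA.1 a ha hA.2)
    (fun T l => (srcs Φ ε (T (Fin.last m)) ∪ K (Fin.init T) l).image fun σ => (σ.1, σ.2.1))
    (fun T l R hne hR hB => ?_) (fun Jn T l R hne hR hB => ?_)
  · refine le_trans (le_of_eq ?_) h2
    congr 1
    refine lintegral_congr fun T => lintegral_congr fun l => ?_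
    by_cases h0 : W T l = 0
    · simp only [h0, zero_mul]
    congr 2
    refine lintegral_congr_ae ?_
    filter_upwards [ae_frK h hε.le T (lns s dl l) (K T l)] with w hw
    refine tsum_congr fun R => ?_
    by_cases hR : P T l w R
    · rw [if_pos hR, if_pos ⟨hw, hR⟩]
    · rw [if_neg hR, if_neg fun h3 => hR h3.2]
  · rcases hA1 T l hne w R hR.1 hR.2 hRw with ⟨a, ha, h3⟩ | h3
    · exact Or.inl ⟨a, ha, hR.1, h3⟩
    · exact Or.inr h3
  · rw [Fin.snoc_last, Fin.init_snoc, enB_snoc]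
    refine ⟨Finset.card_image_le.trans ((Finset.card_union_le _ _).trans
      (add_le_add (card_srcs_R_le hR.1 hR.2.1) (hKe T l hne).1)), fun σ hσ => ?_⟩
    obtain ⟨a, ha, rfl⟩ := Finset.mem_image.1 hσ
    rcases Finset.mem_union.1 ha with ha | ha
    · obtain ⟨x, hx, rfl⟩ := mem_srcs.1 ha
      have hxo := outs_ok hΦ hR.1 hx
      refine ⟨M.ext_nonneg hΦ hε hxo, ?_, ?_⟩
      · have h3 : ext Φ ε x ≤ ext Φ ε R := out_ext_le hΦ hε hR.1 hx
        exact (h3.trans (hR.2.2.trans htT)).trans (by linarith)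
      · have h3 : ‖(ln Φ ε x).2‖ ^ 2 ≤ enT R := ln_sq_le_enT_outs hΦ hε.ne' hx
        exact h3.trans (by linarith [enB_nonneg T l])
    · have h3 := (hK T l hne).le ha
      exact ⟨h3.1, h3.2.trans (by linarith), ((hKe T l hne).2 a ha).trans
        (by linarith [enT_nonneg R])⟩
  · have hKTl := hK T l hne
    obtain ⟨F₀, G₀, D₀, X₀, R₀, g1, g2, g3, g4, g5⟩ := hKTl
    have h3 := XT.ae_forall_notMem_wS (ε := ε) h hε.le
      (A := (lab F₀ : Set Src) ∪ (R.leaves ∪ (X₀ '' (lab F₀ : Set Src) ∪ (srcs Φ ε R : Set Src))))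
      ((lab F₀).finite_toSet.union (R.leaves_finite.union
        (((lab F₀).finite_toSet.image X₀).union (srcs Φ ε R).finite_toSet)))
    filter_upwards [h3, ae_frK h hε.le T (lns s dl l) (K T l)] with w hw hfr hbad'
    have hRw : Disjoint R.leaves (wS (pts w) : Set Src) :=
      Set.disjoint_left.2 fun σ h6 h7 => hw σ (Or.inr (Or.inl h6)) (Finset.mem_coe.1 h7)
    have hRw' : ∀ σ ∈ srcs Φ ε R, σ ∉ wS (pts w) := fun σ h6 => hw σ (Or.inr (Or.inr (Or.inr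
          (Finset.mem_coe.2 h6))))
    have hbad := hBd T l hne w R hfr hR hB hRw hRw' hbad'
    have hd : ∀ σ ∈ lab F₀, σ ∉ R.leaves := by
      intro σ hσ hσR
      rcases g2.mem σ hσ with ⟨j, hj⟩ | ⟨j, rfl⟩
      · have h5 := hB.disj j.castSucc (Fin.last m) (Fin.castSucc_lt_last j).ne
        rw [Fin.snoc_castSucc, Fin.snoc_last] at h5
        exact Set.disjoint_left.1 h5 hj hσR
      · have h5 := hB.notMem (Fin.last m) j
        rw [Fin.snoc_last] at h5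
        exact h5 hσR
    have hN : szB F₀ G₀ + 2 ^ (L + 3) + 2 * Nb0 L Jn + 1 ≤ NJ NB L Jn := by
      unfold NJ
      omega
    have hfin : ∀ A : Finset Src, A ⊆ srcs Φ ε R ∪ K T l →
        LawC hΦ hε L T₀ Jn c₀ (szB F₀ G₀ + 2 ^ (L + 3) + 2 * Nb0 L Jn + 1)
          (Fin.snoc T R : Fin (m + 1) → CTree) (lns s dl l) (pts w) (A : Set Src) →
        (∃ σ ∈ (srcs Φ ε ((Fin.snoc T R : Fin (m + 1) → CTree) (Fin.last m)) ∪
            K (Fin.init (Fin.snoc T R : Fin (m + 1) → CTree)) l).image fun σ => (σ.1, σ.2.1),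
          HasClean hΦ hε.ne' L T₀ (T₀ + 1) Jn (world (pts w : Set Ph)) σ.1 σ.2) ∨
          PrgC Φ ε T₀ (c₀ + 1) (NJ NB L Jn) (Fin.snoc T R : Fin (m + 1) → CTree) (lns s dl l)
            (pts w) ∨
          PrgO Φ ε T₀ c₀ (NJ NB L Jn) (Fin.snoc T R : Fin (m + 1) → CTree) (lns s dl l) (pts w) ∨
          SBad (irrs hΦ T₀ (NJ NB L Jn) (c₀ + 1) ∪ nears Φ T₀ (NJ NB L Jn) c₀) ε
            (Fin.snoc T R : Fin (m + 1) → CTree) (lns s dl l) (pts w) := by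
      intro A hA h5
      rcases h5 with ⟨σ, hσ, h5⟩ | h5 | h5 | h5
      · left
        rw [Fin.snoc_last, Fin.init_snoc]
        refine ⟨(σ.1, σ.2.1), Finset.mem_image.2 ⟨σ, hA (Finset.mem_coe.1 hσ), rfl⟩, ?_⟩
        rw [coe_wS] at h5
        exact h5
      · exact Or.inr (Or.inl (h5.mono le_rfl hN))
      · exact Or.inr (Or.inr (Or.inl (h5.mono le_rfl hN)))
      · exact Or.inr (Or.inr (Or.inr (((h5.mono le_rfl hN).sbad hΦ hε).mono
          Set.subset_union_left)))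
    rcases hbad with hbad | hbad
    · exact hfin _ (Finset.Subset.refl _) (g1.law_not_goodK hΦ hε hT₀ g2 hR.1 hR.2.1
        (hR.2.2.trans htT) hd (w := pts w) (fun σ hσ => hw σ (Or.inl (Finset.mem_coe.2 hσ))) hRw
        (fun σ hσ _ => hw _ (Or.inr (Or.inr (Or.inl ⟨σ, Finset.mem_coe.2 hσ, rfl⟩))))
        (Finset.disjoint_left.2 hRw') g4 htT hbad Jn)
    · rcases g1.fam.law_drp hΦ hε g2 hR.1 hR.2.1 (hR.2.2.trans htT) hd (w := pts w)
        (fun σ hσ => hw σ (Or.inl (Finset.mem_coe.2 hσ))) hRw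
        (Finset.disjoint_left.2 hRw') g5 htT hbad Jn with h5 | h5
      · exact hfin _ Finset.subset_union_left h5
      · exact Or.inr (Or.inr (Or.inr ((h5.mono le_rfl hN).sbad.mono Set.subset_union_right)))

end Vale.Agent.P119.PB
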