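import Vale.Agent.P119.PB.HitLaw2
import Vale.Agent.P119.PB.RealLim

/-!
# P119, block PROB: trees related to the tree which is hit by a Gaussian line (`helper256`)

* `BadR`: the tree `R` is counted in `relT` of the tree which is hit, in the world with `R`;
* `badR_cases`: the alternatives (`depT_cases` of `helper472`);
* `Hst.hasBaseK`: the base structure;
* **`excRT`**: `ExcRT` (`real_lim`, `LI_le_law`).
-/

open MeasureTheory Filter Topology Set
open scoped ENNReal NNReal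

noncomputable section

namespace Vale.Agent.P119.PB.HL

open M CTree KU FL FB RB AU TL GC MM IND XT PB.CT

variable {Φ : E3 → ℝ} {ε T ρ : ℝ} {L : ℕ} {S R : CTree} {σ : Src} {f₀ : Ph → ℝ}
  {κ₀ b c β t s M₀ M₁ : ℝ} {n : ℕ}

/-- The tree `R` is counted in `relT` of the tree which is hit, in the world with `R`. -/
def BadR (L : ℕ) (hΦ : IsPotential Φ) (hε : 0 < ε) (T s : ℝ) (z : Ph) (S : CTree) (V : Finset Src)
    (R : CTree) : Prop :=
  alT Φ ε L T (addT V R) S ∧ HitL L hΦ hε T (s, z, 0) (addT V R) S ∧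
    DepT Φ ε L (addT V R) S (addT (addT V R) S) (hitT ε (z, ln Φ ε S)) T R

theorem measurableSet_HitL (hΦ : IsPotential Φ) (hε : 0 < ε) {X : Type} [MeasurableSpace X]
    {V : X → Finset Src} {S : X → CTree} {z : X → Ph} (T s : ℝ)
    (hV : MM.RS fun x => (V x : Set Src)) (hS : Measurable S) (hz : Measurable z) :
    MeasurableSet {x | HitL L hΦ hε T (s, z x, 0) (V x) (S x)} := by
  have hh : Measurable fun x => hitT ε (z x, ln Φ ε (S x)) :=
    measurable_hitT.comp (hz.prodMk ((M.measurable_ln hΦ hε.ne').comp hS))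
  have h2 := rs_addT hV hS
  exact (measurableSet_HitR hV hS (measurable_const.prodMk (hz.prodMk measurable_const))).inter
    ((MM.measurableSet_tree_lives hΦ hε h2 (fun _ => Finset.finite_toSet _) hS hh).inter
    (RM.measurableSet_LGood hΦ hε hV hS hh measurable_const))

theorem measurableSet_BadR (hΦ : IsPotential Φ) (hε : 0 < ε) (T s : ℝ) :
    MeasurableSet {p : (((Fin 1 → CTree) × (Fin 1 → Ph)) × CTree) × Conf Ph |
      BadR L hΦ hε T s (p.1.1.2 0) (p.1.1.1 0) (wS (pts p.2)) p.1.2} := by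
  have hS : Measurable fun p : (((Fin 1 → CTree) × (Fin 1 → Ph)) × CTree) × Conf Ph =>
      p.1.1.1 0 := (measurable_pi_apply 0).comp (measurable_fst.comp
        (measurable_fst.comp measurable_fst))
  have hz : Measurable fun p : (((Fin 1 → CTree) × (Fin 1 → Ph)) × CTree) × Conf Ph =>
      p.1.1.2 0 := (measurable_pi_apply 0).comp (measurable_snd.comp
        (measurable_fst.comp measurable_fst))
  have hR : Measurable fun p : (((Fin 1 → CTree) × (Fin 1 → Ph)) × CTree) × Conf Ph => p.1.2 :=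
    measurable_snd.comp measurable_fst
  have hV : MM.RS fun p : (((Fin 1 → CTree) × (Fin 1 → Ph)) × CTree) × Conf Ph =>
      ((wS (pts p.2) : Finset Src) : Set Src) := RM.rs_wS measurable_snd
  have hU := rs_addT hV hR
  have hh : Measurable fun p : (((Fin 1 → CTree) × (Fin 1 → Ph)) × CTree) × Conf Ph =>
      hitT ε (p.1.1.2 0, ln Φ ε (p.1.1.1 0)) :=
    measurable_hitT.comp (hz.prodMk ((M.measurable_ln hΦ hε.ne').comp hS))
  exact (measurableSet_alT hΦ hε hU hS measurable_const).inter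
    ((measurableSet_HitL hΦ hε T s hU hS hz).inter
      (RM.measurableSet_DepT hΦ hε hU (rs_addT hU hS) hS hh measurable_const hR))

/-- **The alternatives of `BadR`.** -/
theorem badR_cases {hΦ : IsPotential Φ} {hε : 0 < ε} {z : Ph} {w : Finset Ph}
    (h : Hst Φ ε T L (s, z, 0) S) (hR : CTree.ok Φ ε R) (hSw : Disjoint S.leaves (wS w : Set Src))
    (hRw : Disjoint R.leaves (wS w : Set Src)) (hSR : Disjoint S.leaves R.leaves)
    (hB : BadR L hΦ hε T s z S (wS w) R) :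
    ¬GoodK Φ ε L (wS w) R (krs Φ ε S (hitT ε (z, ln Φ ε S))) T ∨
      Drp Φ ε L (wS w) R (outs S) (rho Φ ε S (hitT ε (z, ln Φ ε S))) T := by
  obtain ⟨h1, h2, h3⟩ := hB
  have hsub : R.leaves ⊆ (addT (wS w) R : Set Src) := by
    rw [coe_addT]
    exact subset_union_right
  have hg : TGood Φ ε L hΦ hε (addT (wS w) R) S (addT (addT (wS w) R) S)
      (hitT ε (z, ln Φ ε S)) T := by
    refine ⟨?_, coe_addT _ _, addT_nonneg (addT_nonneg (EX.wS_birth w) (birth_of_ok hR))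
      (birth_of_ok h.ok), h2.1.alive, Or.inr h2.2.1, h2.1.unexp, h.le⟩
    rw [coe_addT, disjoint_union_left]
    exact ⟨hSw.symm, hSR.symm⟩
  have h4 := depT_cases hg h2.2.2 h3 hsub
  rwa [rm_addT hRw.symm] at h4

/-- **The base structure** with the lines of the tree. -/
theorem Hst.hasBaseK (hΦ : IsPotential Φ) (hε : 0 < ε) (h : Hst Φ ε T L σ S) {S' : Fin 1 → CTree}
    {l : Fin 1 → Src} (hS : S' 0 = S) (hl : l 0 = σ) :
    HasBaseK Φ ε T L 1 (2 * 2 ^ (L + 2) + 3) S' l (krs Φ ε S (hitT ε (σ.2.1, ln Φ ε S)))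
      (outs S) := by
  refine ⟨FH S σ, GH Φ ε S σ, {σ}, XH Φ ε S (hitT ε (σ.2.1, ln Φ ε S)), {S.root},
    h.kbase hΦ hε, h.slab hΦ hε hS hl, h.szB_le, fun a ha => h.krs_mem hΦ hε ha,
    fun x hx => ⟨outs_ok hΦ h.ok hx, fun a ha => ?_⟩⟩
  have h1 : a ∈ lab (FH S σ) := mem_lab_FH.2 (Or.inl (outs_leaves hx ha))
  have h2 : x.root ∈ lab (FH S σ) := mem_lab_FH.2 (Or.inl (outs_leaves hx x.root_mem_leaves))
  exact ⟨h1, (h.joined hΦ hε h1).trans (h.joined hΦ hε h2).symm⟩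

theorem enB_one (S : Fin 1 → CTree) (l : Fin 1 → Ph) : enB S l = enT (S 0) + ‖(l 0).2‖ ^ 2 := by
  unfold enB
  simp only [Fin.sum_univ_one]

open Classical in
/-- **The law of the trees related to the tree which is hit.** -/
theorem rT_lim (h : GoodDatum f₀ κ₀) (hΦ : IsPotential Φ) (hb : 0 < b)
    (hM₀ : 0 ≤ M₀) (hf : ∀ z, f₀ z ≤ M₀ * Real.exp (-b * ‖z.2‖ ^ 2)) (hM₁ : 0 ≤ M₁)
    (hmarg : ∀ v, ∫⁻ x, ENNReal.ofReal (f₀ (x, v)) ≤
      ENNReal.ofReal (M₁ * Real.exp (-b * ‖v‖ ^ 2))) (hT : 0 ≤ T) (L : ℕ) :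
    ∃ Dl : ℝ → ℝ≥0∞, Tendsto Dl (𝓝[>] 0) (𝓝 0) ∧ ∀ (ε : ℝ) (hε : 0 < ε), ε ≤ 1 →
      ∀ s : ℝ, 0 ≤ s →
      (muE ε)⁻¹ * LI f₀ Φ ε L (b - b / 2) T s 0 (fun z V S =>
        ind (HitL L hΦ hε T (s, z, 0) V S) *
          relT Φ ε L V S (addT V S) (hitT ε (z, ln Φ ε S)) T) ≤ Dl ε := by
  obtain ⟨Dl, hDl, h1⟩ := real_lim (c := b / 2) h hΦ hb (by linarith) le_rfl hM₀ hf hM₁ hmarg
    1 1 L (2 ^ (L + 2) + 1) (2 ^ (L + 2) + 1) 1 (2 * 2 ^ (L + 2) + 3) hT
  refine ⟨Dl, hDl, fun ε hε hε1 s hs => ?_⟩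
  have h2 := LI_le_law (Φ := Φ) (L := L) (b := b) (c := b / 2) (t := T) (s := s) (n := 0)
    (G := fun z V S => ind (HitL L hΦ hε T (s, z, 0) V S) *
      relT Φ ε L V S (addT V S) (hitT ε (z, ln Φ ε S)) T) h hΦ hε hs (meas_R3 T s)
    (fun z V S _ _ hne => by
      by_contra hcon
      rw [ind_of_not (fun h' : HitL L hΦ hε T (s, z, 0) V S => hcon h'.1.lt), zero_mul] at hne
      exact hne rfl)
  have h3 := h1 ε hε hε1 T hT le_rfl (fun _ => s) (fun _ => hs) (fun _ => 0)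
    (WH Φ ε T L (b / 2) s 0) (measurable_WH hΦ hε) 1 ENNReal.one_ne_top
    (fun S l => WH_le (by linarith) S l)
    (fun S l hne => (WH_ne_zero hne).base rfl rfl)
    (fun S l => krs Φ ε (S 0) (hitT ε (l 0, ln Φ ε (S 0)))) (fun S _ => outs (S 0))
    (fun S l => rho Φ ε (S 0) (hitT ε (l 0, ln Φ ε (S 0))))
    (fun S l hne => (WH_ne_zero hne).hasBaseK hΦ hε rfl rfl)
    (fun S l hne => ⟨card_krs_le (WH_ne_zero hne).depth, fun a ha => ?_⟩)
    (fun S l V R => BadR L hΦ hε T s (l 0) (S 0) V R) (measurableSet_BadR hΦ hε T s)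
    (fun S l hne w R hfr hR hB hRw _ hBd => badR_cases (WH_ne_zero hne) hR.1 (hfr.1 0) hRw ?_ hBd)
    (fun S l => krs Φ ε (S 0) (hitT ε (l 0, ln Φ ε (S 0))))
    (fun S l hne => ⟨card_krs_le (WH_ne_zero hne).depth,
      (EW_krs_le hΦ hε (WH_ne_zero hne).ok (WH_ne_zero hne).depth).trans ?_⟩)
    (fun S l w => lnw Φ ε (wS (pts w)) (S 0) (hitT ε (l 0, ln Φ ε (S 0))))
    (fun S l w R => alT Φ ε L T (wS (pts w)) (S 0) ∧
      HitL L hΦ hε T (s, l 0, 0) (wS (pts w)) (S 0) ∧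
      DepT Φ ε L (wS (pts w)) (S 0) (addT (wS (pts w)) (S 0)) (hitT ε (l 0, ln Φ ε (S 0))) T R)
    (fun S l _ w R _ hP => ⟨hP.2.2.alive, hP.2.2.ext_le⟩)
    (fun S l _ w a ha => ?_)
    (fun _ _ _ _ => False)
    (fun S l _ w R _ hP hRw => Or.inr ?_)
    (fun _ _ _ _ _ _ _ hA => hA.elim)
  · rw [one_mul, pow_one] at h3
    have hμ0 : muE ε ≠ 0 := (ENNReal.ofReal_pos.2 (GC.mu_pos hε)).ne'
    have hμt : muE ε ≠ ∞ := ENNReal.ofReal_ne_top
    have h4 : muE ε * LI f₀ Φ ε L (b - b / 2) T s 0 (fun z V S =>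
        ind (HitL L hΦ hε T (s, z, 0) V S) *
          relT Φ ε L V S (addT V S) (hitT ε (z, ln Φ ε S)) T) ≤ muE ε ^ (1 + 1) * Dl ε := by
      refine le_trans (mul_le_mul_right (h2.trans ?_) _) h3
      refine lintegral_mono fun S => lintegral_mono fun l => mul_le_mul_right
        (mul_le_mul_right (lintegral_mono fun w => ?_) _) _
      calc _ ≤ 1 * (ind (alT Φ ε L T (wS (pts w)) (S 0)) *
            (ind (HitL L hΦ hε T (s, l 0, 0) (wS (pts w)) (S 0)) *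
              relT Φ ε L (wS (pts w)) (S 0) (addT (wS (pts w)) (S 0))
                (hitT ε (l 0, ln Φ ε (S 0))) T)) := mul_le_mul_left (ind_le_one _) _
        _ ≤ _ := by
          rw [one_mul]
          by_cases g1 : alT Φ ε L T (wS (pts w)) (S 0)
          swap
          · rw [ind_of_not g1, zero_mul]; exact zero_le
          by_cases g2 : HitL L hΦ hε T (s, l 0, 0) (wS (pts w)) (S 0)
          swap
          · rw [ind_of_not g2, zero_mul, mul_zero]; exact zero_le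
          rw [ind_of g1, ind_of g2, one_mul, one_mul]
          unfold relT
          refine ENNReal.tsum_le_tsum fun R => ?_
          by_cases g3 : DepT Φ ε L (wS (pts w)) (S 0) (addT (wS (pts w)) (S 0))
              (hitT ε (l 0, ln Φ ε (S 0))) T R
          · rw [if_pos g3, if_pos ⟨g1, g2, g3⟩]
            exact le_rfl
          · rw [if_neg g3]
            exact zero_le
    calc _ = (muE ε)⁻¹ * ((muE ε)⁻¹ * (muE ε * LI f₀ Φ ε L (b - b / 2) T s 0 (fun z V S =>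
        ind (HitL L hΦ hε T (s, z, 0) V S) *
          relT Φ ε L V S (addT V S) (hitT ε (z, ln Φ ε S)) T))) := by
          rw [← mul_assoc (muE ε)⁻¹ (muE ε), ENNReal.inv_mul_cancel hμ0 hμt, one_mul]
      _ ≤ (muE ε)⁻¹ * ((muE ε)⁻¹ * (muE ε ^ (1 + 1) * Dl ε)) :=
          mul_le_mul_right (mul_le_mul_right h4 _) _
      _ = (((muE ε)⁻¹ * muE ε) * ((muE ε)⁻¹ * muE ε)) * Dl ε := by ring
      _ = Dl ε := by rw [ENNReal.inv_mul_cancel hμ0 hμt, one_mul, one_mul]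
  · obtain ⟨x, hx, rfl⟩ := (mem_krs (WH_ne_zero hne).ok).1 ha
    have h5 : ‖(ln Φ ε x).2‖ ^ 2 ≤ enT (S 0) := ln_sq_le_enT_outs hΦ hε.ne' hx
    rw [enB_one]
    exact h5.trans (by linarith [sq_nonneg ‖(l 0).2‖])
  · have h5 := hB.disj (Fin.castSucc 0) (Fin.last 1) (Fin.castSucc_lt_last 0).ne
    rwa [Fin.snoc_castSucc, Fin.snoc_last] at h5
  · rw [enB_one]
    exact mul_le_mul_of_nonneg_left (by linarith [sq_nonneg ‖(l 0).2‖]) (Nat.cast_nonneg _)
  · rw [lnw_eq_krs, mem_wF_sgl] at ha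
    exact ha
  · refine ⟨?_, ?_, ?_⟩
    · rw [addT_rm hRw]; exact hP.1
    · rw [addT_rm hRw]; exact hP.2.1
    · rw [addT_rm hRw]; exact hP.2.2

/-- **Trees related to the tree which is hit by a Gaussian line**: the input `ExcRT` of
`exc5_of`. -/
theorem excRT (h : GoodDatum f₀ κ₀) (hΦ : IsPotential Φ) (hb : 0 < b)
    (hM₀ : 0 ≤ M₀) (hf : ∀ z, f₀ z ≤ M₀ * Real.exp (-b * ‖z.2‖ ^ 2)) (hM₁ : 0 ≤ M₁)
    (hmarg : ∀ v, ∫⁻ x, ENNReal.ofReal (f₀ (x, v)) ≤
      ENNReal.ofReal (M₁ * Real.exp (-b * ‖v‖ ^ 2))) (hT : 0 ≤ T) (L : ℕ) (hβ : 0 < β) :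
    ExcRT hΦ f₀ L T β := by
  -- a smaller exponent
  obtain ⟨b₁, hb₁⟩ : ∃ b₁ : ℝ, b₁ = min b (2 * β) := ⟨_, rfl⟩
  have h1 : 0 < b₁ := by rw [hb₁]; exact lt_min hb (by linarith)
  have h2 : b₁ ≤ b := by rw [hb₁]; exact min_le_left _ _
  have h3 : b₁ - b₁ / 2 ≤ β := by
    have h4 : b₁ ≤ 2 * β := by rw [hb₁]; exact min_le_right _ _
    linarith
  have hexp : ∀ v : E3, Real.exp (-b * ‖v‖ ^ 2) ≤ Real.exp (-b₁ * ‖v‖ ^ 2) := fun v =>
    Real.exp_le_exp.2 (by nlinarith [sq_nonneg ‖v‖])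
  obtain ⟨Dl, hDl, h5⟩ := rT_lim (Φ := Φ) (b := b₁) h hΦ h1 hM₀
    (fun z => (hf z).trans (mul_le_mul_of_nonneg_left (hexp z.2) hM₀)) hM₁
    (fun v => (hmarg v).trans (ENNReal.ofReal_le_ofReal
      (mul_le_mul_of_nonneg_left (hexp v) hM₁))) hT L
  intro ρ hρ
  have hev : ∀ᶠ ε : ℝ in 𝓝[>] 0, ε ≤ 1 :=
    (eventually_nhdsWithin_of_eventually_nhds (eventually_le_nhds one_pos))
  filter_upwards [hev, (ENNReal.tendsto_nhds_zero.1 hDl) (ENNReal.ofReal ρ)
    (ENNReal.ofReal_pos.2 hρ)] with ε hε1 hsm hε s hs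
  refine le_trans ?_ ((h5 ε hε hε1 s hs.1).trans hsm)
  refine mul_le_mul_right ?_ _
  unfold LI
  exact lintegral_mono fun z => mul_le_mul_left (gw_anti h3 _) _

end Vale.Agent.P119.PB.HL
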