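import Vale.Agent.P119.PB.RelCasesP
import Vale.Agent.P119.IND.PairDet

/-!
# P119, block PROB: no third tree touches the two lines of the pair (`helper472`)

`T = node x y` is a colliding pair of the world `W = U + T`, `R` a tree of `U`, `V = rm U R`; the
lines of `R` and of the pair do not interact before `r ≤ sig T`.

* `not_hit_of_times`, `indep_of_times`: no interaction at the times of `allTimes` is sufficient;
* `not_ctc_line`: in a world of lines a third tree is not in contact with the line of a particle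
  which is not exposed;
* **`pair_free`**: the field `free` of `IND.PL` and `IND.PK`.
-/

open MeasureTheory Filter Topology Set
open scoped ENNReal NNReal

noncomputable section

namespace Vale.Agent.P119.PB

open M CTree KU FB RB AU TL IND

variable {Φ : E3 → ℝ} {ε : ℝ} {L : ℕ} {hΦ : IsPotential Φ} {hε : 0 < ε}
  {U V W : Finset Src} {R x y z : CTree} {r t s u : ℝ} {a b c : Src}

/-! ### No interaction at the times of `allTimes` -/

section times

variable {ι : Type*} [DecidableEq ι] {Wc : Finset ι → Set Src} {K J : Finset ι} {i j : ι}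
  {σ σ' : Src} {p q : CTree}

/-- Trees of different indices do not hit each other. -/
theorem not_hit_of_times (hΦ : IsPotential Φ) (hε : 0 < ε) (hC : CubeW Wc K)
    (hs : ∀ e ∈ allTimes Φ ε L (Wc K), e < r → NI Φ ε L Wc K e) (hJ : J ⊆ K) (hsr : s < r)
    (hp : live Φ ε L (Wc J) p s) (hq : M.alive Φ ε L (Wc J) q s) (hσ : σ ∈ p.leaves)
    (hi : Idx Wc K i σ) (hσ' : σ' ∈ q.leaves) (hj : Idx Wc K j σ') (hij : i ≠ j) :
    ¬hit Φ ε p q s := by
  intro hh
  have h1 := fh_hit hΦ hε hp.ok hh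
  have h2 := fh_le hΦ hε hp.ok hh
  have h3 := alive_anti hq h2 (hit_ext_le h1)
  have h4 : fh Φ ε p q = s := by
    rcases h2.lt_or_eq with h5 | h5
    · exact absurd h3 (hp.nohit q _ h5 h1)
    · exact h5
  have hmem : s ∈ allTimes Φ ε L (Wc K) := by
    refine Or.inr ⟨(p, q), ⟨⟨hp.sub.trans (hC.mono J hJ), hp.depth⟩,
      ⟨(alive_pre hq).sub.trans (hC.mono J hJ), (alive_pre hq).depth⟩⟩, h4⟩
  exact not_hit_of_NI hΦ hε hC (hs s hmem hsr) hJ le_rfl hp hq hσ hi hσ' hj hij hh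

end times

theorem idx_wF {K : Finset (Finset Src)} (hdV : ∀ k ∈ K, Disjoint V k)
    (hdK : ∀ i ∈ K, ∀ j ∈ K, i ≠ j → Disjoint i j) {k : Finset Src} (hk : k ∈ K) (ha : a ∈ k) :
    Idx (fun J => (wF V id J : Set Src)) K k a := by
  intro J hJ hJa
  rcases mem_wF.1 (Finset.mem_coe.1 hJa) with h1 | ⟨j, hj, h1⟩
  · exact absurd ha (Finset.disjoint_left.1 (hdV k hk) h1)
  · by_cases hij : k = j
    · rw [hij]; exact hj
    · exact absurd h1 (Finset.disjoint_left.1 (hdK k hk j (hJ hj) hij) ha)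

/-! ### The line of an unexposed particle -/

/-- **In a world of lines a third tree is not in contact with the line of an unexposed particle**
until it is hit. -/
theorem not_ctc_line {f : Src → CTree} {h : ℝ} {z' B : CTree} {c' : Src}
    (hrep : Rep Φ ε L hΦ hε W V f u) (hz : M.alive Φ ε L (W : Set Src) z h)
    (hz' : M.alive Φ ε L (W : Set Src) z' h) (hzz : hit Φ ε z z' h)
    (hex : ∀ s ≤ h, ¬(RB.Y Φ ε L hΦ hε).Exp W z.root s) (hc : c ∈ V) (hfc : f c = z)
    (hc1 : c.1 = ext Φ ε z) (hc0 : 0 ≤ c.1) (hcd : c.2.2 ≤ L) (hc' : c' ∈ V) (hfc' : f c' = z')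
    (hhu : h ≤ u) (hr : r ≤ h) (hB : live Φ ε L (V : Set Src) B r) (hBc : B.root ≠ c)
    (hBc' : B.root ≠ c') (hcr : c.1 ≤ r) : ¬Ctc ε (st Φ ε B r) (KU.free r c.2.1) := by
  intro hctc
  have hru : r ≤ u := hr.trans hhu
  have h0 : 0 ≤ r := hc0.trans hcr
  have hzl := (alive_iff_live hΦ hε W.finite_toSet).1 hz
  -- the line of `z` is live
  have hcl : live Φ ε L (V : Set Src) (leaf c) r := by
    rcases hcr.lt_or_eq with h1 | h1
    · refine live_of_lives_before h1 fun q hq hqr => ?_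
      have hq : c.1 ≤ q := hq
      have h2 : stat Φ ε L (W : Set Src) z.root q = some z :=
        (stat_eq_some_iff hΦ hε W.finite_toSet).2 ⟨rfl, hzl.1.lives_of_lt (hqr.trans_le hr)
          ((sig_le_ext hΦ hε hzl.1.ok).trans (hc1 ▸ hq))⟩
      have h3 := hrep.lines.stat c hc q (hqr.le.trans hru) hq
      beta_reduce at h3
      rw [hfc, h2] at h3
      rcases h4 : stat Φ ε L (V : Set Src) c q with _ | Z
      · rw [h4] at h3
        cases h3
      · rw [h4, Option.map_some, Option.some_inj] at h3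
        obtain ⟨h5, h6⟩ := (stat_eq_some_iff hΦ hε V.finite_toSet).1 h4
        cases Z with
        | leaf σ =>
          have h7 : σ = c := h5
          rw [← h7]
          exact h6
        | node p q' =>
          exfalso
          have h7 : c ∈ p.leaves := by
            have h8 : p.root = c := h5
            rw [← h8]
            exact p.root_mem_leaves
          have h8 : Sub (f c) (sbs f p) := sub_sbs h7
          rw [hfc, h3] at h8
          exact not_sub_left (sbs f p) (sbs f q') h8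
    · refine (live_leaf_iff h1.ge).2 ⟨Finset.mem_coe.2 hc, hc0, hcd, hcr⟩
  have hBV : B.root ∈ V := Finset.mem_coe.1 (hB.sub B.root_mem_leaves)
  have hBr : B.root.1 ≤ r := (root_birth_le_sig hΦ hε hB.ok).trans hB.sig_le
  have hbad : badi Φ ε L (V : Set Src) c r := by
    refine ⟨Finset.mem_coe.2 hc, h0, hcr, Or.inr ⟨B.root, ⟨hBc.symm, leaf c, B, rfl, rfl, hcl, hB,
      hctc.symm⟩, fun hpart => ?_⟩⟩
    have h1 := (hrep.lines.part c hc B.root hBV r hru hcr hBr).1 hpart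
    beta_reduce at h1
    rw [hfc] at h1
    obtain ⟨T₁, T₂, h2, h3, h4⟩ := h1
    rw [stat_eq_some_iff hΦ hε W.finite_toSet] at h2 h3
    obtain ⟨w, rfl, rfl, h5, h6⟩ := partner_of_alive hΦ hε W.finite_toSet
      (alive_anti hz hr (hc1 ▸ hcr)) h2.1 h2.2 h4
    have h7 := hit_sig hΦ hε h2.2.ok
    rcases hr.lt_or_eq with h8 | h8
    · rw [h5] at h7
      exact no_hit hΦ hε W.finite_toSet hz h8 h7 h6
    · rw [← h8] at hz' hzz
      refine h2.2.nohit z' r le_rfl (Or.inl ⟨h5.ge, Or.inl ⟨hzz, fun hcon => ?_⟩⟩) hz'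
      have h9 : (f B.root).root = (f c').root := by
        rw [hfc', hcon.1]
        exact h3.1.symm
      exact hBc' (hrep.lines.bij.injOn (Finset.mem_coe.2 hBV) (Finset.mem_coe.2 hc') h9)
  have hexp : (RB.Y Φ ε L hΦ hε).Exp V c r := exp_of_badi hbad le_rfl
  have h1 := (hrep.lines.exp c hc r hru).1 hexp
  beta_reduce at h1
  rw [hfc] at h1
  exact hex r hr h1

/-! ### The pair -/

theorem sig_lines : s2 Φ ε (rsrc Φ ε x) (rsrc Φ ε y) = sig Φ ε (node x y) := rfl

open Classical in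
/-- **No third tree is in contact with the two lines of the pair before their collision.** -/
theorem pair_free (hP : PGood Φ ε L U x y u)
    (hW : (W : Set Src) = (U : Set Src) ∪ (node x y).leaves) (h0 : ∀ a ∈ W, 0 ≤ a.1)
    (hl : live Φ ε L (W : Set Src) (node x y) (sig Φ ε (node x y)))
    (hux : ∀ s ≤ sig Φ ε (node x y), ¬(RB.Y Φ ε L hΦ hε).Exp W x.root s)
    (huy : ∀ s ≤ sig Φ ε (node x y), ¬(RB.Y Φ ε L hΦ hε).Exp W y.root s)
    (h1 : sig Φ ε (node x y) ≤ u) (hRU : R.leaves ⊆ (U : Set Src))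
    (nR : Nice Φ ε L (lw2 Φ ε U x y) R) (hi : InjOn (rsrc Φ ε) (outs R))
    (hd : Disjoint (spk Φ ε R) (pks Φ ε x y))
    (hdV : ∀ k ∈ spk Φ ε R ∪ pks Φ ε x y, Disjoint (rm U R) k)
    (hdK : ∀ i ∈ spk Φ ε R ∪ pks Φ ε x y, ∀ j ∈ spk Φ ε R ∪ pks Φ ε x y, i ≠ j → Disjoint i j)
    (hr : r ≤ sig Φ ε (node x y))
    (hs : ∀ e ∈ allTimes Φ ε L (wF (rm U R) id (spk Φ ε R ∪ pks Φ ε x y) : Set Src), e < r →
      NI Φ ε L (fun J => (wF (rm U R) id J : Set Src)) (spk Φ ε R ∪ pks Φ ε x y) e)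
    {B : CTree} (hBg : Bg Φ ε B r)
    (hB : live Φ ε L (wF (rm U R) id (spk Φ ε R ∪ pks Φ ε x y) : Set Src) B r)
    (hBx : B.root ≠ rsrc Φ ε x) (hBy : B.root ≠ rsrc Φ ε y) :
    ((rsrc Φ ε x).1 ≤ r → ¬Ctc ε (st Φ ε B r) (KU.free r (rsrc Φ ε x).2.1)) ∧
      ((rsrc Φ ε y).1 ≤ r → ¬Ctc ε (st Φ ε B r) (KU.free r (rsrc Φ ε y).2.1)) := by
  have hne : Nonempty (Finset Src) := ⟨∅⟩
  have hok := hl.ok
  have hax := live_left hΦ hε W.finite_toSet hl
  have hay := live_right hΦ hε W.finite_toSet hl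
  have hx1 : ext Φ ε x < sig Φ ε (node x y) := hok.2.2.2.2.2.1
  have hy1 : ext Φ ε y < sig Φ ε (node x y) := hok.2.2.2.2.2.2
  have hA : PAl Φ ε L hΦ hε W x y := ⟨hok.2.2.1, alive_anti hax hx1.le le_rfl,
    alive_anti hay hy1.le le_rfl, fun s hs => hux s (hs.trans hx1).le,
    fun s hs => huy s (hs.trans hy1).le⟩
  have hrep := hP.rep h0 hW hA (hx1.le.trans h1) (hy1.le.trans h1)
  -- the lines of `R`
  have hC : CubeW (fun J => (wF (rm U R) id J : Set Src)) (spk Φ ε R ∪ pks Φ ε x y) :=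
    cubeW_wF hdK
  have hN : spk Φ ε R ⊆ spk Φ ε R ∪ pks Φ ε x y := Finset.subset_union_left
  have hP' : pks Φ ε x y ⊆ spk Φ ε R ∪ pks Φ ε x y := Finset.subset_union_right
  have hpksU : ∀ A ∈ pks Φ ε x y, ∀ a ∈ A, a ∉ U := by
    intro A hA' a ha
    have h2 : a ∈ lw2 Φ ε U x y := mem_wF.2 (Or.inr ⟨A, hA', ha⟩)
    rcases pks_cases hA' with rfl | hA'
    · rcases mem_prk.1 ha with rfl | rfl
      · exact hP.fresh left_mem_outs
      · exact hP.fresh right_mem_outs
    · obtain ⟨z, hz, rfl⟩ := mem_epk.1 hA'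
      rw [show a = rsrc Φ ε z from Finset.mem_singleton.1 ha]
      exact hP.fresh (exs_sub_outs hz)
  have eU : (lw2 Φ ε U x y : Set Src) =
      (wF (rm U R) id (pks Φ ε x y) : Set Src) ∪ R.leaves := by
    unfold lw2
    ext a
    rw [mem_union, RPk.mem_wF_id, RPk.mem_wF_id, mem_rm]
    constructor
    · rintro (h | h)
      · by_cases h2 : a ∈ R.leaves
        · exact Or.inr h2
        · exact Or.inl (Or.inl ⟨h, h2⟩)
      · exact Or.inl (Or.inr h)
    · rintro ((h | h) | h)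
      · exact Or.inl h.1
      · exact Or.inr h
      · exact Or.inl (Finset.mem_coe.1 (hRU h))
  have hdR : Disjoint (wF (rm U R) id (pks Φ ε x y) : Set Src) R.leaves := by
    refine disjoint_left.2 fun a h2 h3 => ?_
    rcases RPk.mem_wF_id.1 h2 with h2 | ⟨A, hA', h2⟩
    · exact (mem_rm.1 h2).2 h3
    · exact hpksU A hA' a h2 (Finset.mem_coe.1 (hRU h3))
  have hLR := linePkR_spk (Φ := Φ) (ε := ε) (R := R) hi
  have hK : ((wF (rm U R) id (spk Φ ε R ∪ pks Φ ε x y) : Finset Src) : Set Src) =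
      TL.lwd Φ ε (ext Φ ε) (wF (rm U R) id (pks Φ ε x y) : Set Src) R := by
    rw [Finset.union_comm]
    exact hLR.wF_eq
  have hidx : ∀ z ∈ outs R, Idx (fun J => (wF (rm U R) id J : Set Src))
      (spk Φ ε R ∪ pks Φ ε x y) (sgl (rsrc Φ ε z)) (msrc Φ ε (ext Φ ε) z) := fun z hz =>
    idx_wF hdV hdK (hN (mem_spk.2 ⟨z, hz, rfl⟩)) (Finset.mem_singleton_self _)
  have sR : TSetup Φ ε L (wF (rm U R) id (pks Φ ε x y) : Set Src) R (ext Φ ε) r := by
    refine NiceH.tsetup hΦ hε ?_ (Finset.finite_toSet _) hdR (fun z hz z' hz' he => hi hz hz' he)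
      (fun z hz hm => ?_) (fun _ _ => le_rfl) (fun p q s hsr hp hq hdis hh => ?_)
    · rw [← eU]
      exact nR.niceH hΦ hε
    · have h2 := hidx z hz _ hP' hm
      exact Finset.disjoint_left.1 hd (mem_spk.2 ⟨z, hz, rfl⟩) h2
    · by_contra hcon
      rw [not_or, not_subset, not_subset] at hcon
      obtain ⟨⟨σ, h2, h3⟩, σ', h4, h5⟩ := hcon
      obtain ⟨z, hz, rfl⟩ := (hp.sub h2).resolve_left h3
      obtain ⟨z', hz', rfl⟩ := ((alive_pre hq).sub h4).resolve_left h5
      have hzz : z ≠ z' := by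
        rintro rfl
        exact disjoint_left.1 hdis h2 h4
      rw [← hK] at hp hq
      exact not_hit_of_times (J := spk Φ ε R ∪ pks Φ ε x y) hΦ hε hC hs (Finset.Subset.refl _) hsr
        hp hq h2 (hidx z hz) h4 (hidx z' hz')
        (fun he => hzz (hi hz hz' (Finset.singleton_injective he))) hh
  -- the tree `B` in the world `lw2`
  have hbef : Tr.Bef Φ ε r B := by
    intro p q hpq
    rcases hBg with h2 | h2
    · exact h2
    · rw [hpq] at h2
      cases h2
  have hB' := hB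
  rw [hK] at hB'
  have h2 := ((Tr.live_th_bef hΦ hε sR le_rfl hB'.sub hbef).1 hB').1
  have h3 : st Φ ε (th Φ ε (ext Φ ε) R B) r = st Φ ε B r :=
    Tr.th_st hΦ hε sR hB'.sub hB'.sig_le
  rw [← eU] at h2
  -- its root
  have hroot : (th Φ ε (ext Φ ε) R B).root = B.root ∨ (th Φ ε (ext Φ ε) R B).root ∈ U := by
    have h4 : (th Φ ε (ext Φ ε) R B).root = (fs Φ ε (ext Φ ε) R B.root).root := sbs_root B
    rw [h4]
    rcases hB'.sub B.root_mem_leaves with h5 | ⟨z, hz, h5⟩
    · left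
      rw [Tr.fs_of_mem sR h5]
      rfl
    · right
      rw [← h5, Tr.fs_msrc sR hz]
      exact Finset.mem_coe.1 (hRU (outs_leaves hz z.root_mem_leaves))
  have hnx : (th Φ ε (ext Φ ε) R B).root ≠ rsrc Φ ε x := by
    rcases hroot with h4 | h4
    · rw [h4]; exact hBx
    · exact fun h5 => hP.fresh left_mem_outs (h5 ▸ h4)
  have hny : (th Φ ε (ext Φ ε) R B).root ≠ rsrc Φ ε y := by
    rcases hroot with h4 | h4
    · rw [h4]; exact hBy
    · exact fun h5 => hP.fresh right_mem_outs (h5 ▸ h4)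
  have hxV : rsrc Φ ε x ∈ lw2 Φ ε U x y := mem_lw2.2 (Or.inr ⟨x, left_mem_outs, rfl⟩)
  have hyV : rsrc Φ ε y ∈ lw2 Φ ε U x y := mem_lw2.2 (Or.inr ⟨y, right_mem_outs, rfl⟩)
  have hbx := hP.bd _ hxV
  have hby := hP.bd _ hyV
  have hfx : TF.fs Φ ε (ext Φ ε) {x, y} (rsrc Φ ε x) = x := hP.fs_rsrc left_mem_outs
  have hfy : TF.fs Φ ε (ext Φ ε) {x, y} (rsrc Φ ε y) = y := hP.fs_rsrc right_mem_outs
  rw [← h3]
  exact ⟨fun hc => not_ctc_line hrep hax hay (hit_sig hΦ hε hok) hux hxV hfx rfl hbx.1 hbx.2 hyV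
      hfy h1 hr h2 hnx hny hc,
    fun hc => not_ctc_line hrep hay hax (hit_sig' hΦ hε hok) huy hyV hfy rfl hby.1 hby.2 hxV
      hfx h1 hr h2 hny hnx hc⟩

end Vale.Agent.P119.PB
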