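import Vale.Agent.P119.PB.ExcDepP
import Vale.Agent.P119.PB.PairFree
import Vale.Agent.P119.IND.PairLaw

/-!
# P119, block PROB, P9: the law of the interaction of the lines of a tree and of a pair (`helper758`)

* `okL`: the two free lines of a colliding pair collide;
* `pk_of`: the packets of the pair and of a further tree `R`, as a structure `PK` of `helper621`;
* **`goodPLaw`**: the hypothesis `XR.GoodPLaw` of `XR.excQ2_of` (`helper384`): the failures of `GoodP`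
  give the alternatives `LawC` of the laws, over a base structure with the colliding pair and the
  tree `R` (`PPair.law` of `helper667`, `PK.pairOut` of `helper621`, `pair_free` of `helper472`);
* **`excQ2`**: `ExcQ2`.
-/

open MeasureTheory Filter Topology Set
open scoped ENNReal NNReal

noncomputable section

namespace Vale.Agent.P119.PB.XR

open M CTree KU FL FB RB AU TL GC IND PB.XT PB.RelX PB.PL ContExc

variable {Φ : E3 → ℝ} {ε T t u : ℝ} {L : ℕ} {S R x y z : CTree} {U V : Finset Src} {f₀ : Ph → ℝ}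
  {κ₀ b c M₀ M₁ : ℝ}

/-- The two free lines of a colliding pair collide. -/
theorem okL (hΦ : IsPotential Φ) (hε : 0 < ε) (hok : ok Φ ε (node x y))
    (hne : rsrc Φ ε x ≠ rsrc Φ ε y) : ok Φ ε (node (leaf (rsrc Φ ε x)) (leaf (rsrc Φ ε y))) := by
  obtain ⟨h1, h2, h3, h4, h5, h6, h7⟩ := hok
  exact ⟨M.ext_nonneg hΦ hε h1, M.ext_nonneg hΦ hε h2,
    disjoint_singleton.2 hne, h4, h5, h6, h7⟩

open Classical in
/-- **The packets of a colliding pair and of a tree `R`.** -/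
theorem pk_of (hΦ : IsPotential Φ) (hε : 0 < ε) (hc : coT Φ ε L T U x y)
    (hG : GdP L hΦ hε u U x y) (hR : R.leaves ⊆ (U : Set Src))
    (nR : Nice Φ ε L (lw2 Φ ε U x y) R) (hVR : ∀ z ∈ outs R, rsrc Φ ε z ∉ rm U R)
    (hinj : InjOn (rsrc Φ ε) (outs x ∪ outs y ∪ outs R))
    (hne : ∀ z ∈ outs x ∪ outs y, ∀ z' ∈ outs R, z ≠ z') :
    PK Φ ε L (rm U R) (spk Φ ε R ∪ pks Φ ε x y) (prk Φ ε x y) (rsrc Φ ε x) (rsrc Φ ε y) := by
  classical
  have hP := hG.2.2
  have hok := hc.ok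
  have hx : x ∈ outs x ∪ outs y := left_mem_outs
  have hy : y ∈ outs x ∪ outs y := right_mem_outs
  have hxy : x ≠ y := by
    rintro rfl
    exact disjoint_left.1 hok.2.2.1 x.root_mem_leaves x.root_mem_leaves
  have hnxy : rsrc Φ ε x ≠ rsrc Φ ε y := fun he => hxy (hP.inj hx hy he)
  have hi : InjOn (rsrc Φ ε) (outs R) := hinj.mono subset_union_right
  have hVU : ∀ a ∈ rm U R, a ∈ U := fun a ha => (mem_rm.1 ha).1
  -- the members of the packets
  have key : ∀ A ∈ spk Φ ε R, ∀ a ∈ A, ∃ z ∈ outs R, rsrc Φ ε z = a ∧ A = sgl a := by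
    intro A hA a ha
    obtain ⟨z, hz, rfl⟩ := mem_spk.1 hA
    have h1 : a = rsrc Φ ε z := Finset.mem_singleton.1 ha
    exact ⟨z, hz, h1.symm, by rw [h1]⟩
  have key2 : ∀ A ∈ pks Φ ε x y, ∀ a ∈ A, ∃ z ∈ outs x ∪ outs y, rsrc Φ ε z = a := by
    intro A hA a ha
    rcases pks_cases hA with rfl | hA
    · rcases mem_prk.1 ha with rfl | rfl
      · exact ⟨x, hx, rfl⟩
      · exact ⟨y, hy, rfl⟩
    · obtain ⟨z, hz, rfl⟩ := mem_epk.1 hA
      exact ⟨z, exs_sub_outs hz, (Finset.mem_singleton.1 ha).symm⟩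
  have hdA : ∀ A ∈ spk Φ ε R, ∀ B ∈ pks Φ ε x y, Disjoint A B := by
    intro A hA B hB
    refine Finset.disjoint_left.2 fun a ha hb => ?_
    obtain ⟨z, hz, h1, -⟩ := key A hA a ha
    obtain ⟨z', hz', h2⟩ := key2 B hB a hb
    exact hne z' hz' z hz (hinj (Or.inl hz') (Or.inr hz) (h2.trans h1.symm))
  have hd : Disjoint (spk Φ ε R) (pks Φ ε x y) := by
    refine Finset.disjoint_left.2 fun A hA hA' => ?_
    obtain ⟨z, hz, h1⟩ := mem_spk.1 hA
    have h2 : rsrc Φ ε z ∈ A := h1 ▸ Finset.mem_singleton_self _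
    exact Finset.disjoint_left.1 (hdA A hA A hA') h2 h2
  have hbK : ∀ A ∈ spk Φ ε R ∪ pks Φ ε x y, ∀ a ∈ A, 0 ≤ a.1 ∧ a.2.2 ≤ L := by
    intro A hA a ha
    rcases Finset.mem_union.1 hA with hA | hA
    · obtain ⟨z, hz, h1, -⟩ := key A hA a ha
      rw [← h1]
      exact ⟨M.ext_nonneg hΦ hε (outs_ok hΦ nR.ok hz), (outs_depth hz).trans (alive_pre nR.alive).depth⟩
    · exact hP.good.birth A hA a ha
  have hdV : ∀ A ∈ spk Φ ε R ∪ pks Φ ε x y, Disjoint (rm U R) A := by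
    intro A hA
    refine Finset.disjoint_left.2 fun a ha hb => ?_
    rcases Finset.mem_union.1 hA with hA | hA
    · obtain ⟨z, hz, h1, -⟩ := key A hA a hb
      exact hVR z hz (h1 ▸ ha)
    · obtain ⟨z, hz, h1⟩ := key2 A hA a hb
      exact hP.fresh hz (h1 ▸ hVU a ha)
  have hdK : ∀ A ∈ spk Φ ε R ∪ pks Φ ε x y, ∀ B ∈ spk Φ ε R ∪ pks Φ ε x y, A ≠ B →
      Disjoint A B := by
    intro A hA B hB hAB
    rcases Finset.mem_union.1 hA with hA | hA <;> rcases Finset.mem_union.1 hB with hB | hB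
    · refine Finset.disjoint_left.2 fun a ha hb => hAB ?_
      obtain ⟨z, hz, h1, h2⟩ := key A hA a ha
      obtain ⟨z', hz', h3, h4⟩ := key B hB a hb
      rw [h2, h4]
    · exact hdA A hA B hB
    · exact (hdA B hB A hA).symm
    · exact hP.good.disj A hA B hB hAB
  refine ⟨okL hΦ hε hok hnxy, Finset.mem_union_right _ prk_mem, fun a => mem_prk, hdV, hdK,
    fun a ha => hP.good.birthV a (hVU a ha), hbK, ?_⟩
  intro r hr0 hgood B hBg hB hBx hBy
  exact pair_free (W := addT U (node x y)) hP (coe_addT _ _)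
    (addT_nonneg (fun a ha => (hP.good.birthV a ha).1) (birth_of_ok hok)) hc.live
    (fun s hs => hG.1.left hs) (fun s hs => hG.1.right hs) hG.2.1 hR nR hi hd hdV hdK hr0
    (fun e he her => (hgood e he her).ni) hBg hB hBx hBy

/-- **The law of the interaction of the lines.** -/
theorem goodPLaw (hΦ : IsPotential Φ) (hT : 0 ≤ T) (L : ℕ) :
    GoodPLaw T L hΦ (fun J => NP L J) := by
  classical
  intro ε hε x y R l w u hxy hR hB hzw hRw hxw hRw' hco hG huT huE hN _ hGP J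
  have hok := hxy.1
  have hd : Disjoint (wS w : Set Src) R.leaves :=
    disjoint_left.2 fun σ h4 h5 => hRw σ h5 (Finset.mem_coe.1 h4)
  have hRU : R.leaves ⊆ (addT (wS w) R : Set Src) := by
    rw [coe_addT]
    exact subset_union_right
  have hdxR : Disjoint (node x y).leaves R.leaves := by
    have h5 := hB.disj 0 1 (by decide)
    rwa [sn_zero, sn_one] at h5
  have hdl : ∀ σ ∈ lab (famP x y), σ ∉ R.leaves := fun σ hσ =>
    disjoint_left.1 hdxR (mem_lab_famP.1 hσ)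
  have hlR : ∀ {σ : Src}, σ ∈ lab (partsF R) ↔ σ ∈ R.leaves := fun {σ} => by
    rw [← Finset.mem_coe, lab_partsF]
  have hbase : PPair Φ ε T (famP x y ∪ partsF R) (∅ \ R.leaves)
      (IND.XR Φ ε (IND.XR Φ ε (IND.XR Φ ε id y) x) R) x y :=
    (PPair.of_pair hΦ hε hok hxy.2.2).add_tree hΦ hε hR.1 hR.2.2 hdl
  have hSL : SLab (sn (node x y) R) l (famP x y ∪ partsF R) (ghP Φ ε x y) (1 + 1)
      (insert R.root {x.root}) :=
    (slab_pair (S := fun _ : Fin 1 => node x y) hΦ hε rfl hok l).add_tree hΦ hε hR.1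
      fun j => j.elim0
  -- the labels and the lines
  have hzl : ∀ z ∈ outs x ∪ outs y, z.root ∈ (node x y).leaves := by
    rintro z (hz | hz)
    · exact Or.inl (outs_leaves hz z.root_mem_leaves)
    · exact Or.inr (outs_leaves hz z.root_mem_leaves)
  have hX1 : ∀ z ∈ outs x ∪ outs y,
      IND.XR Φ ε (IND.XR Φ ε (IND.XR Φ ε id y) x) R z.root = rsrc Φ ε z := by
    intro z hz
    rw [XR_of_notMem (disjoint_left.1 hdxR (hzl z hz))]
    exact PPair.XR_pair hok hz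
  have hX2 : ∀ z ∈ outs R,
      IND.XR Φ ε (IND.XR Φ ε (IND.XR Φ ε id y) x) R z.root = rsrc Φ ε z := fun z hz =>
    XR_out hR.1 hz
  have hl1 : ∀ z ∈ outs x ∪ outs y, z.root ∈ lab (famP x y ∪ partsF R) := fun z hz =>
    mem_lab_union.2 (Or.inl (mem_lab_famP.2 (hzl z hz)))
  have hl2 : ∀ z ∈ outs R, z.root ∈ lab (famP x y ∪ partsF R) := fun z hz =>
    mem_lab_union.2 (Or.inr (hlR.2 (outs_leaves hz z.root_mem_leaves)))
  have hD : ∀ σ : Src, σ ∉ (∅ \ R.leaves : Set Src) := fun σ h => h.1.elim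
  have hln : ∀ σ, (∃ A ∈ spk Φ ε R ∪ pks Φ ε x y, σ ∈ A) →
      ∃ z ∈ outs x ∪ outs y ∪ outs R, rsrc Φ ε z = σ := by
    rintro σ ⟨A, hA, hσ⟩
    rcases Finset.mem_union.1 hA with hA | hA
    · obtain ⟨z, hz, rfl⟩ := mem_spk.1 hA
      exact ⟨z, Or.inr hz, (Finset.mem_singleton.1 hσ).symm⟩
    · rcases pks_cases hA with rfl | hA
      · rcases mem_prk.1 hσ with rfl | rfl
        · exact ⟨x, Or.inl left_mem_outs, rfl⟩
        · exact ⟨y, Or.inl right_mem_outs, rfl⟩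
      · obtain ⟨z, hz, rfl⟩ := mem_epk.1 hA
        exact ⟨z, Or.inl (exs_sub_outs hz), (Finset.mem_singleton.1 hσ).symm⟩
  have hfind : ∀ z ∈ outs x ∪ outs y ∪ outs R, ∃ τ ∈ lab (famP x y ∪ partsF R),
      τ ∉ (∅ \ R.leaves : Set Src) ∧
        IND.XR Φ ε (IND.XR Φ ε (IND.XR Φ ε id y) x) R τ = rsrc Φ ε z := by
    rintro z (hz | hz)
    · exact ⟨z.root, hl1 z hz, hD _, hX1 z hz⟩
    · exact ⟨z.root, hl2 z hz, hD _, hX2 z hz⟩
  have h1 := hbase.law hΦ hε hT hSL (w := w) (L := L) (J := J) (N := Nb0 L J)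
    (ins := {σ | ∃ A ∈ spk Φ ε R ∪ pks Φ ε x y, σ ∈ A})
    (all := (wF (wS w) id (spk Φ ε R ∪ pks Φ ε x y) : Set Src)) (t := u)
    (fun σ hσ => ?_) (fun σ hσ _ => ?_) huT (fun σ hσ => ?_) (fun σ hσ => ?_)
    (fun σ hσ => Finset.mem_coe.2 (mem_wF.2 (Or.inr hσ))) (fun hi => ?_)
  · have h2 := szB_union_le (G₀ := ghP Φ ε x y) (F₀ := famP x y) (R := R) hR.2.1
    have h3 := szB_pair_le (Φ := Φ) (ε := ε) hxy.2.1
    have h4 : szB (famP x y ∪ partsF R) [(x, y, sig Φ ε (node x y))] + 2 * Nb0 L J + 1 ≤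
        NP L J := by
      have h5 : szB (famP x y ∪ partsF R) [(x, y, sig Φ ε (node x y))] =
        szB (famP x y ∪ partsF R) (ghP Φ ε x y) := rfl
      unfold NP
      omega
    rcases h1 with ⟨σ, hσ, h1⟩ | h1
    · left
      obtain ⟨z, hz, h5⟩ := hln σ hσ
      exact ⟨σ, ⟨z, hz, h5⟩, h1⟩
    · exact Or.inr (h1.imp (PrgC.mono le_rfl h4) (Or.imp (PrgO.mono le_rfl h4)
        (IrrO.mono le_rfl h4)))
  · rcases mem_lab_union.1 hσ with h2 | h2
    · exact hzw σ (mem_lab_famP.1 h2)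
    · exact hRw σ (hlR.1 h2)
  · rcases mem_lab_union.1 hσ with h2 | h2
    · have h3 := mem_lab_famP.1 h2
      have h4 : ∃ z ∈ outs x ∪ outs y, z.root = σ := by
        rcases h3 with h3 | h3
        · obtain ⟨z, hz, h5⟩ := TL.exists_out h3
          exact ⟨z, Or.inl hz, h5⟩
        · obtain ⟨z, hz, h5⟩ := TL.exists_out h3
          exact ⟨z, Or.inr hz, h5⟩
      obtain ⟨z, hz, rfl⟩ := h4
      rw [hX1 z hz]
      exact hxw z hz
    · obtain ⟨z, hz, rfl⟩ := TL.exists_out (hlR.1 h2)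
      rw [hX2 z hz]
      exact hRw' _ (mem_srcs.2 ⟨z, hz, rfl⟩)
  · rcases mem_wF.1 (Finset.mem_coe.1 hσ) with h2 | h2
    · exact Or.inl h2
    · obtain ⟨z, hz, h3⟩ := hln σ h2
      rw [← h3]
      exact Or.inr (hfind z hz)
  · obtain ⟨z, hz, h3⟩ := hln σ hσ
    rw [← h3]
    exact hfind z hz
  · have hinj : InjOn (rsrc Φ ε) (outs x ∪ outs y ∪ outs R) := by
      intro z hz z' hz' he
      have e1 : ∀ z ∈ outs x ∪ outs y ∪ outs R, z.root ∈ lab (famP x y ∪ partsF R) ∧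
          IND.XR Φ ε (IND.XR Φ ε (IND.XR Φ ε id y) x) R z.root = rsrc Φ ε z := by
        rintro z (hz | hz)
        · exact ⟨hl1 z hz, hX1 z hz⟩
        · exact ⟨hl2 z hz, hX2 z hz⟩
      have h2 : z.root = z'.root := hi ⟨Finset.mem_coe.2 (e1 z hz).1, hD _⟩
        ⟨Finset.mem_coe.2 (e1 z' hz').1, hD _⟩ (by rw [(e1 z hz).2, (e1 z' hz').2, he])
      have hrt : ∀ {T z z' : CTree}, ok Φ ε T → z ∈ outs T → z' ∈ outs T → z.root = z'.root →
          z = z' := fun hT h1 h2 h3 => outs_root_inj hT h1 h2 h3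
      have hdd : ∀ {A B z z' : CTree}, Disjoint A.leaves B.leaves → z ∈ outs A → z' ∈ outs B →
          z.root = z'.root → False := fun hAB h1 h2 h3 =>
        disjoint_left.1 hAB (outs_leaves h1 (CTree.root_mem_leaves _))
          (h3 ▸ outs_leaves h2 (CTree.root_mem_leaves _))
      have hxR : Disjoint x.leaves R.leaves := hdxR.mono_left subset_union_left
      have hyR : Disjoint y.leaves R.leaves := hdxR.mono_left subset_union_right
      rcases hz with (hz | hz) | hz <;> rcases hz' with (hz' | hz') | hz'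
      · exact hrt hok.1 hz hz' h2
      · exact (hdd hok.2.2.1 hz hz' h2).elim
      · exact (hdd hxR hz hz' h2).elim
      · exact (hdd hok.2.2.1 hz' hz h2.symm).elim
      · exact hrt hok.2.1 hz hz' h2
      · exact (hdd hyR hz hz' h2).elim
      · exact (hdd hxR hz' hz h2.symm).elim
      · exact (hdd hyR hz' hz h2.symm).elim
      · exact hrt hR.1 hz hz' h2
    have hne : ∀ z ∈ outs x ∪ outs y, ∀ z' ∈ outs R, z ≠ z' := by
      rintro z hz z' hz' rfl
      exact disjoint_left.1 hdxR (hzl z hz) (outs_leaves hz' z.root_mem_leaves)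
    have hPK := pk_of hΦ hε hco hG hRU hN (fun z hz h => ?_) hinj hne
    swap
    · rw [XR.rm_addT hd] at h
      exact hRw' _ (mem_srcs.2 ⟨z, hz, rfl⟩) h
    rw [XR.rm_addT hd] at hPK
    have hnG : ¬M.Good Φ ε L (wS w) id (spk Φ ε R ∪ pks Φ ε x y) u := by
      intro hg
      refine hGP ⟨hinj.mono subset_union_right, ?_, hg⟩
      refine Finset.disjoint_left.2 fun A hA hA' => ?_
      obtain ⟨z, hz, h5⟩ := mem_spk.1 hA
      have h6 : rsrc Φ ε z ∈ A := h5 ▸ Finset.mem_singleton_self _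
      have h7 : ∃ z' ∈ outs x ∪ outs y, rsrc Φ ε z' = rsrc Φ ε z := by
        rcases pks_cases hA' with rfl | hA'
        · rcases mem_prk.1 h6 with h6 | h6
          · exact ⟨x, left_mem_outs, h6.symm⟩
          · exact ⟨y, right_mem_outs, h6.symm⟩
        · obtain ⟨z', hz', rfl⟩ := mem_epk.1 hA'
          exact ⟨z', exs_sub_outs hz', (Finset.mem_singleton.1 h6).symm⟩
      obtain ⟨z', hz', h8⟩ := h7
      exact hne z' hz' z hz (hinj (Or.inl hz') (Or.inr hz) h8)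
    obtain ⟨s, hs, h5⟩ := hPK.pairOut hΦ hε (V₀ := (wS w : Set Src)) (t := u) (Subset.refl _)
      huE le_rfl hnG J
    refine ⟨s, hs, ?_⟩
    rw [hX1 x left_mem_outs, hX1 y right_mem_outs]
    exact h5

/-- **`ExcQ2`.** -/
theorem excQ2 (h : GoodDatum f₀ κ₀) (hΦ : IsPotential Φ) (hb : 0 < b)
    (hM₀ : 0 ≤ M₀) (hf : ∀ z, f₀ z ≤ M₀ * Real.exp (-b * ‖z.2‖ ^ 2)) (hM₁ : 0 ≤ M₁)
    (hmarg : ∀ v, ∫⁻ x, ENNReal.ofReal (f₀ (x, v)) ≤
      ENNReal.ofReal (M₁ * Real.exp (-b * ‖v‖ ^ 2)))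
    (hT : 0 ≤ T) (L : ℕ) : ContExc.ExcQ2 hΦ f₀ L T :=
  excQ2_of h hΦ hb hM₀ hf hM₁ hmarg hT L (goodPLaw hΦ hT L)

end Vale.Agent.P119.PB.XR
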