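import Vale.Agent.P119.PB.Marks2
import Vale.Agent.P119.PB.ContX

/-!
# P119: the exhausts as measurable marks (`helper909`)

* `exA p T`: the exhaust of `T` at the address `p`; `isA p T`: the address is valid;
* `adr n`: the addresses of length less than `n`;
* `exsum_le_adr`: the sum over the exhausts is at most the sum over the addresses.
-/

open MeasureTheory Filter Topology Set
open scoped ENNReal NNReal

noncomputable section

namespace Vale.Agent.P119.PB.EA

open M CTree KU FB RB AU TL

/-- The exhaust at an address. -/
def exA : List Bool → CTree → CTree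
  | [], .node a b => .node b a
  | [], .leaf s => .leaf s
  | false :: p, .node a _ => exA p a
  | true :: p, .node _ b => exA p b
  | _ :: _, .leaf s => .leaf s

/-- The addresses of the exhausts of a tree. -/
def isA : List Bool → CTree → Prop
  | [], .node _ _ => True
  | [], .leaf _ => False
  | false :: p, .node a _ => isA p a
  | true :: p, .node _ b => isA p b
  | _ :: _, .leaf _ => False

theorem exA_mem : ∀ {p : List Bool} {T : CTree}, isA p T → exA p T ∈ exs T
  | [], .node _ _, _ => mem_exs_node.2 (Or.inr (Or.inr rfl))
  | [], .leaf _, h => h.elim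
  | false :: _, .node _ _, h => mem_exs_node.2 (Or.inl (exA_mem (p := _) h))
  | true :: _, .node _ _, h => mem_exs_node.2 (Or.inr (Or.inl (exA_mem (p := _) h)))
  | false :: _, .leaf _, h => False.elim h
  | true :: _, .leaf _, h => False.elim h

theorem exists_exA : ∀ {T x : CTree}, x ∈ exs T →
    ∃ p : List Bool, isA p T ∧ exA p T = x ∧ p.length < T.depth
  | .leaf _, _, h => h.elim
  | .node a b, x, h => by
    rcases mem_exs_node.1 h with h | h | rfl
    · obtain ⟨p, h1, h2, h3⟩ := exists_exA h
      refine ⟨false :: p, h1, h2, ?_⟩
      change p.length + 1 < max a.depth b.depth + 1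
      have := le_max_left a.depth b.depth
      omega
    · obtain ⟨p, h1, h2, h3⟩ := exists_exA h
      refine ⟨true :: p, h1, h2, ?_⟩
      change p.length + 1 < max a.depth b.depth + 1
      have := le_max_right a.depth b.depth
      omega
    · exact ⟨[], trivial, rfl, Nat.succ_pos _⟩

/-- The exhausts are the trees at the valid addresses. -/
theorem mem_exs_iff_exA {T x : CTree} : x ∈ exs T ↔ ∃ p : List Bool, isA p T ∧ exA p T = x := by
  constructor
  · intro h
    obtain ⟨p, h1, h2, -⟩ := exists_exA h
    exact ⟨p, h1, h2⟩
  · rintro ⟨p, h1, rfl⟩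
    exact exA_mem h1

/-- The addresses of length less than `n`. -/
def adr : ℕ → Finset (List Bool)
  | 0 => ∅
  | n + 1 => insert [] ((adr n).image (fun p => false :: p) ∪ (adr n).image fun p => true :: p)

theorem mem_adr : ∀ {n : ℕ} {p : List Bool}, p ∈ adr n ↔ p.length < n
  | 0, _ => by simp [adr]
  | n + 1, [] => by simp [adr]
  | n + 1, b :: p => by
    have h : b :: p ∈ adr (n + 1) ↔ p ∈ adr n := by
      cases b <;> simp [adr]
    rw [h, mem_adr (n := n) (p := p), List.length_cons]
    omega

/-- **The sum over the exhausts is at most the sum over the addresses.** -/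
theorem exsum_le_adr {L : ℕ} {T : CTree} (hd : T.depth ≤ L) (f : CTree → ℝ≥0∞) :
    exsum T f ≤ ∑ p ∈ adr L, ind (isA p T) * f (exA p T) := by
  classical
  unfold exsum
  have h0 : ∀ x : CTree, (if x ∈ TL.exs T then f x else 0) ≤
      ∑ p ∈ adr L, if x = exA p T then ind (isA p T) * f x else 0 := by
    intro x
    by_cases hx : x ∈ TL.exs T
    · rw [if_pos hx]
      obtain ⟨p, h1, h2, h3⟩ := exists_exA hx
      refine le_trans (le_of_eq ?_) (Finset.single_le_sum
        (f := fun p => if x = exA p T then ind (isA p T) * f x else 0)
        (fun _ _ => zero_le) (mem_adr.2 (h3.trans_le hd)))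
      simp only [if_pos h2.symm, ind_of h1, one_mul]
    · rw [if_neg hx]
      exact zero_le
  refine (ENNReal.tsum_le_tsum h0).trans ?_
  rw [Summable.tsum_finsetSum fun _ _ => ENNReal.summable]
  refine Finset.sum_le_sum fun p _ => ?_
  rw [tsum_eq_single (exA p T) fun x hx => if_neg hx, if_pos rfl]

theorem exsum_le_card {T : CTree} {f : CTree → ℝ≥0∞} {L : ℕ} (hd : T.depth ≤ L) {B : ℝ≥0∞}
    (h : ∀ p ∈ adr L, isA p T → f (exA p T) ≤ B) : exsum T f ≤ (adr L).card * B := by
  refine (exsum_le_adr hd f).trans ?_
  rw [← nsmul_eq_mul]
  refine Finset.sum_le_card_nsmul _ _ _ fun p hp => ?_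
  by_cases h1 : isA p T
  · rw [ind_of h1, one_mul]
    exact h p hp h1
  · rw [ind_of_not h1, zero_mul]
    exact zero_le

theorem measurable_exA : ∀ p : List Bool, Measurable (exA p)
  | [] => measurable_cases (f := exA []) (g := fun q => CTree.node q.2 q.1) (h := CTree.leaf)
      (measurable_node.comp (measurable_snd.prodMk measurable_fst)) measurable_leaf
      (fun _ => rfl) fun _ _ => rfl
  | false :: p => measurable_cases (f := exA (false :: p)) (g := fun q => exA p q.1)
      (h := CTree.leaf) ((measurable_exA p).comp measurable_fst) measurable_leaf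
      (fun _ => rfl) fun _ _ => rfl
  | true :: p => measurable_cases (f := exA (true :: p)) (g := fun q => exA p q.2)
      (h := CTree.leaf) ((measurable_exA p).comp measurable_snd) measurable_leaf
      (fun _ => rfl) fun _ _ => rfl

theorem measurable_isA : ∀ p : List Bool, Measurable (isA p)
  | [] => measurable_cases (f := isA []) (g := fun _ => True) (h := fun _ => False)
      measurable_const measurable_const (fun _ => rfl) fun _ _ => rfl
  | false :: p => measurable_cases (f := isA (false :: p)) (g := fun q => isA p q.1)
      (h := fun _ => False) ((measurable_isA p).comp measurable_fst) measurable_const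
      (fun _ => rfl) fun _ _ => rfl
  | true :: p => measurable_cases (f := isA (true :: p)) (g := fun q => isA p q.2)
      (h := fun _ => False) ((measurable_isA p).comp measurable_snd) measurable_const
      (fun _ => rfl) fun _ _ => rfl

theorem measurableSet_isA (p : List Bool) : MeasurableSet {T : CTree | isA p T} :=
  (measurable_isA p).setOf

/-- The depth of an exhaust. -/
theorem depth_exA {p : List Bool} {T : CTree} (h : isA p T) : (exA p T).depth ≤ T.depth :=
  TL.outs_depth (Or.inr (exA_mem h))

end Vale.Agent.P119.PB.EA
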