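import Vale.Agent.P119.PB.Top8b
import Vale.Agent.P119.PB.SE

/-!
# P119, block PROB, P8: the functionals of the pairs of outgoing lines (`helper336`)

* `P2g ψ`: pairs of outgoing lines of an alive tree;
* `FXg ψ n`: an exhaust and one of the lines which are created by the hit of a free line (of depth `n`)
  on an alive tree; `FXp φ`: an exhaust and the pair of the free line and the root line;
* `Nm_secS_le'`, `SE9F_le'`: the terms of `dSE` are bounded by these functionals.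
-/

open MeasureTheory Filter Topology Set
open scoped ENNReal NNReal

noncomputable section

namespace Vale.Agent.P119.PB

open M CTree KU FB RB AU FL TL

variable {Φ : E3 → ℝ} {ε : ℝ} {L : ℕ} {hΦ : IsPotential Φ} {hε : 0 < ε} {η t w b T : ℝ} {σ : Src}
  {f₀ : Ph → ℝ} {κ : ℝ}

/-- The quadratic weight of the root line. -/
def wr (Φ : E3 → ℝ) (ε : ℝ) (S : CTree) : ℝ≥0∞ := ENNReal.ofReal (1 + ‖(ln Φ ε S).2‖ ^ 2)

/-- The line `z` hits the root line of the flying tree `S`, not after `t`. -/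
def hitF (Φ : E3 → ℝ) (ε t : ℝ) (z : Ph) (S : CTree) : Prop :=
  hitI ε t (0, z, 0) (ln Φ ε S) ∧ ext Φ ε S ≤ hitT ε (z, ln Φ ε S)

/-- The pairs of outgoing lines of an alive tree. -/
def P2g (Φ : E3 → ℝ) (ε : ℝ) (L : ℕ) (f₀ : Ph → ℝ) (t : ℝ)
    (ψ : Finset Src → Src → Src → ℝ≥0∞) : ℝ≥0∞ :=
  (muE ε)⁻¹ * XX Φ ε L f₀ t fun V S => wr Φ ε S * twoG Φ ε (ψ V) S

/-- The integrand of `FXg`. -/
def fxgI (Φ : E3 → ℝ) (ε t : ℝ) (ψ : Finset Src → Src → Src → ℝ≥0∞) (n : ℕ) (z : Ph)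
    (V : Finset Src) (S : CTree) : ℝ≥0∞ :=
  ind (hitF Φ ε t z S) *
    exsum S fun x => frS Φ ε (ψ V (rsrc Φ ε x)) (0, z, n) (ln Φ ε S) S.depth

/-- The integrand of `FXp`. -/
def fxpI (Φ : E3 → ℝ) (ε t : ℝ) (φ : Finset Src → Src → Src → Ph → ℝ≥0∞) (z : Ph)
    (V : Finset Src) (S : CTree) : ℝ≥0∞ :=
  ind (hitF Φ ε t z S) * exsum S fun x => φ V (rsrc Φ ε x) (0, z, 0) (ln Φ ε S)

/-- An exhaust and a line which is created by the hit of a free line of depth `n`. -/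
def FXg (Φ : E3 → ℝ) (ε : ℝ) (L : ℕ) (f₀ : Ph → ℝ) (b t : ℝ)
    (ψ : Finset Src → Src → Src → ℝ≥0∞) (n : ℕ) : ℝ≥0∞ :=
  ∫⁻ z : Ph, gw b z.2 * XX Φ ε L f₀ t (fxgI Φ ε t ψ n z)

/-- An exhaust and the colliding pair of a free line and the root line. -/
def FXp (Φ : E3 → ℝ) (ε : ℝ) (L : ℕ) (f₀ : Ph → ℝ) (b t : ℝ)
    (φ : Finset Src → Src → Src → Ph → ℝ≥0∞) : ℝ≥0∞ :=
  ∫⁻ z : Ph, gw b z.2 * XX Φ ε L f₀ t (fxpI Φ ε t φ z)

/-- Measurability of an integrand. -/
def MW (ψ : Finset Src → Src → Src → ℝ≥0∞) : Prop :=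
  Measurable fun q : GC.Conf Ph × Src × Src => ψ (wS (GC.pts q.1)) q.2.1 q.2.2

/-- Measurability of an integrand. -/
def MWp (φ : Finset Src → Src → Src → Ph → ℝ≥0∞) : Prop :=
  Measurable fun q : GC.Conf Ph × Src × Src × Ph => φ (wS (GC.pts q.1)) q.2.1 q.2.2.1 q.2.2.2

theorem MW.comp {ψ : Finset Src → Src → Src → ℝ≥0∞} (h : MW ψ) {X : Type} [MeasurableSpace X]
    {c : X → GC.Conf Ph} {e m : X → Src} (hc : Measurable c) (he : Measurable e)
    (hm : Measurable m) : Measurable fun x => ψ (wS (GC.pts (c x))) (e x) (m x) := by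
  have h1 : Measurable fun x => ((c x, e x, m x) : GC.Conf Ph × Src × Src) :=
    hc.prodMk (he.prodMk hm)
  exact Measurable.comp (g := fun q : GC.Conf Ph × Src × Src => ψ (wS (GC.pts q.1)) q.2.1 q.2.2)
    h h1

theorem MWp.comp {φ : Finset Src → Src → Src → Ph → ℝ≥0∞} (h : MWp φ) {X : Type}
    [MeasurableSpace X] {c : X → GC.Conf Ph} {e m : X → Src} {z : X → Ph} (hc : Measurable c)
    (he : Measurable e) (hm : Measurable m) (hz : Measurable z) :
    Measurable fun x => φ (wS (GC.pts (c x))) (e x) (m x) (z x) := by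
  have h1 : Measurable fun x => ((c x, e x, m x, z x) : GC.Conf Ph × Src × Src × Ph) :=
    hc.prodMk (he.prodMk (hm.prodMk hz))
  exact Measurable.comp (g := fun q : GC.Conf Ph × Src × Src × Ph =>
    φ (wS (GC.pts q.1)) q.2.1 q.2.2.1 q.2.2.2) h h1

theorem MW_gI : MW (gI L hΦ hε η t) :=
  measurable_gI (RM.rs_conf.comp measurable_fst) measurable_const measurable_const
    measurable_snd.fst measurable_snd.snd

theorem MWp_pI : MWp (pI L hΦ hε η t w) :=
  measurable_pI (RM.rs_conf.comp measurable_fst) measurable_const measurable_const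
    measurable_const measurable_snd.fst measurable_snd.snd.fst measurable_snd.snd.snd

theorem measurable_wr (hΦ : IsPotential Φ) (hε : ε ≠ 0) : Measurable (wr Φ ε) :=
  ((((M.measurable_ln hΦ hε).snd.norm.pow_const 2).const_add 1)).ennreal_ofReal

theorem measurableSet_hitF (hΦ : IsPotential Φ) (hε : ε ≠ 0) (t : ℝ) :
    MeasurableSet {q : Ph × CTree | hitF Φ ε t q.1 q.2} := by
  have hln : Measurable fun q : Ph × CTree => ln Φ ε q.2 :=
    (M.measurable_ln hΦ hε).comp measurable_snd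
  have hq : Measurable fun q : Ph × CTree => ((q.1, ln Φ ε q.2) : Ph × Ph) :=
    measurable_fst.prodMk hln
  exact (measurableSet_hitI (measurable_const.prodMk (measurable_fst.prodMk measurable_const))
    hln).inter (measurableSet_le ((measurable_ext hΦ hε).comp measurable_snd)
      (measurable_hitT.comp hq))

open Classical in
/-- Measurability of the pairs of outgoing lines. -/
theorem MW.twoG {ψ : Finset Src → Src → Src → ℝ≥0∞} (h : MW ψ) (hΦ : IsPotential Φ) (hε : 0 < ε)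
    {X : Type} [MeasurableSpace X] {c : X → GC.Conf Ph} {S : X → CTree} (hc : Measurable c)
    (hS : Measurable S) : Measurable fun x => twoG Φ ε (ψ (wS (GC.pts (c x)))) (S x) := by
  have hr : ∀ {Y : Type} [MeasurableSpace Y] {y : Y → CTree}, Measurable y →
      Measurable fun q => rsrc Φ ε (y q) := fun hy => RM.meas_rsrc hΦ hε hy
  unfold PB.twoG
  refine RM.measurable_exsum' hS (F := fun x y =>
    ψ (wS (GC.pts (c x))) (rsrc Φ ε y) (rsrc Φ ε (S x)) +
    exsum (S x) fun y' => if y = y' then 0 else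
      ψ (wS (GC.pts (c x))) (rsrc Φ ε y) (rsrc Φ ε y')) ?_
  refine Measurable.add ?_ ?_
  · exact h.comp (hc.comp measurable_fst) (hr measurable_snd) (hr (hS.comp measurable_fst))
  · refine RM.measurable_exsum' (X := X × CTree) (hS.comp measurable_fst) (F := fun p y' =>
      if p.2 = y' then 0 else ψ (wS (GC.pts (c p.1))) (rsrc Φ ε p.2) (rsrc Φ ε y')) ?_
    refine Measurable.ite (measurableSet_eq_fun measurable_fst.snd measurable_snd)
      measurable_const ?_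
    exact h.comp (hc.comp measurable_fst.fst) (hr measurable_fst.snd) (hr measurable_snd)

/-- Measurability of the created lines. -/
theorem MW.frS {ψ : Finset Src → Src → Src → ℝ≥0∞} (h : MW ψ) (hΦ : IsPotential Φ) (hε : 0 < ε)
    {X : Type} [MeasurableSpace X] {c : X → GC.Conf Ph} {e f : X → Src} {z' : X → Ph}
    {D : X → ℕ} (hc : Measurable c) (he : Measurable e) (hf : Measurable f) (hz : Measurable z')
    (hD : Measurable D) :
    Measurable fun x => frS Φ ε (ψ (wS (GC.pts (c x))) (e x)) (f x) (z' x) (D x) := by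
  have hq : Measurable fun x => ((f x).2.1, z' x) :=
    (measurable_fst.comp (measurable_snd.comp hf)).prodMk hz
  have hh : Measurable fun x => hitT ε ((f x).2.1, z' x) := measurable_hitT.comp hq
  have hs : Measurable fun x => sepT Φ ε ((f x).2.1, z' x) := (measurable_sepT hΦ).comp hq
  have hd : Measurable fun x => max (f x).2.2 (D x) + 1 :=
    ((measurable_snd.comp (measurable_snd.comp hf)).max hD).add_const 1
  have hsc := (measurable_sc2 hΦ hε.ne').comp hq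
  unfold PB.frS
  refine Measurable.add (Measurable.add ?_ ?_) ?_
  · exact h.comp hc he (hs.prodMk (hsc.fst.prodMk hd))
  · exact h.comp hc he (hs.prodMk (hsc.snd.prodMk hd))
  · exact h.comp hc he (hh.prodMk (hz.prodMk hD))

theorem frS_mono {ψ ψ' : Src → ℝ≥0∞} (h : ∀ m, ψ m ≤ ψ' m) (z' : Ph) (D : ℕ) :
    frS Φ ε ψ σ z' D ≤ frS Φ ε ψ' σ z' D := by
  unfold frS
  exact add_le_add (add_le_add (h _) (h _)) (h _)

theorem hitF_of {z : Ph} {S : CTree} {s : ℝ} {n : ℕ} (hs : 0 ≤ s)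
    (h : hitI ε t (s, z, n) (ln Φ ε S)) (h' : ext Φ ε S ≤ hitT ε (z, ln Φ ε S)) :
    hitF Φ ε t z S := ⟨hitI_birth hs h, h'⟩

/-- The integrand of `FXg` is measurable. -/
theorem MW.fxg {ψ : Finset Src → Src → Src → ℝ≥0∞} (h : MW ψ) (hΦ : IsPotential Φ) (hε : 0 < ε)
    (n : ℕ) : Measurable fun q : Ph × (GC.Conf Ph × CTree) =>
      fxgI Φ ε t ψ n q.1 (wS (GC.pts q.2.1)) q.2.2 := by
  unfold fxgI
  have hln : Measurable fun T : CTree => ln Φ ε T := M.measurable_ln hΦ hε.ne'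
  refine (measurable_ind ((measurable_fst.prodMk measurable_snd.snd :
    Measurable fun q : Ph × (GC.Conf Ph × CTree) => ((q.1, q.2.2) : Ph × CTree))
      (measurableSet_hitF hΦ hε.ne' t))).mul ?_
  refine RM.measurable_exsum' measurable_snd.snd (F := fun (q : Ph × (GC.Conf Ph × CTree)) x =>
    PB.frS Φ ε (ψ (wS (GC.pts q.2.1)) (rsrc Φ ε x)) (0, q.1, n) (ln Φ ε q.2.2) q.2.2.depth) ?_
  exact h.frS hΦ hε measurable_fst.snd.fst (RM.meas_rsrc hΦ hε measurable_snd)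
    (measurable_const.prodMk (measurable_fst.fst.prodMk measurable_const))
    (hln.comp measurable_fst.snd.snd) (M.measurable_depth.comp measurable_fst.snd.snd)

/-- The integrand of `FXp` is measurable. -/
theorem MWp.fxp {φ : Finset Src → Src → Src → Ph → ℝ≥0∞} (h : MWp φ) (hΦ : IsPotential Φ)
    (hε : 0 < ε) : Measurable fun q : Ph × (GC.Conf Ph × CTree) =>
      fxpI Φ ε t φ q.1 (wS (GC.pts q.2.1)) q.2.2 := by
  unfold fxpI
  have hln : Measurable fun T : CTree => ln Φ ε T := M.measurable_ln hΦ hε.ne'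
  refine (measurable_ind ((measurable_fst.prodMk measurable_snd.snd :
    Measurable fun q : Ph × (GC.Conf Ph × CTree) => ((q.1, q.2.2) : Ph × CTree))
      (measurableSet_hitF hΦ hε.ne' t))).mul ?_
  refine RM.measurable_exsum' measurable_snd.snd (F := fun (q : Ph × (GC.Conf Ph × CTree)) x =>
    φ (wS (GC.pts q.2.1)) (rsrc Φ ε x) (0, q.1, 0) (ln Φ ε q.2.2)) ?_
  exact h.comp measurable_fst.snd.fst (RM.meas_rsrc hΦ hε measurable_snd)
    (measurable_const.prodMk (measurable_fst.fst.prodMk measurable_const))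
    (hln.comp measurable_fst.snd.snd)

/-- Slices. -/
theorem meas_H {X : Type} [MeasurableSpace X] {H : X → Finset Src → CTree → ℝ≥0∞}
    (h : Measurable fun q : X × (GC.Conf Ph × CTree) => H q.1 (wS (GC.pts q.2.1)) q.2.2) (z : X) :
    Measurable fun p : CTree × GC.Conf Ph => H z (wS (GC.pts p.2)) p.1 := by
  have hz : Measurable fun p : CTree × GC.Conf Ph => ((z, p.2, p.1) : X × GC.Conf Ph × CTree) :=
    measurable_const.prodMk (measurable_snd.prodMk measurable_fst)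
  exact h.comp hz

/-- The birth and the depth of the free line in the pair terms. -/
theorem pI_zero {V : Finset Src} {e : Src} {s : ℝ} {z z' : Ph} {n : ℕ} (hη : 0 < η)
    (ht : 0 ≤ t) (hs : 0 ≤ s) (hw : t ≤ w) :
    pI L hΦ hε η t w V e (s, z, n) z' ≤ pI L hΦ hε η t w V e (0, z, 0) z' :=
  pI_birth hη ht hs (by linarith)

theorem frS_birth {ψ : Src → ℝ≥0∞} {s s' : ℝ} {z z' : Ph} {n D : ℕ} :
    frS Φ ε ψ (s, z, n) z' D = frS Φ ε ψ (s', z, n) z' D := rfl

/-- The second events of a line, split. -/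
theorem secS_split (h₀ : GoodDatum f₀ κ) {T s : ℝ} {z : Ph} {n : ℕ} (hη : 0 < η)
    (ht : 0 ≤ t) (htT : t ≤ T) (hs : 0 ≤ s)
    (h1 : Measurable fun p : CTree × GC.Conf Ph =>
      fxgI Φ ε t (gI L hΦ hε η t) n z (wS (GC.pts p.2)) p.1)
    (h2 : Measurable fun p : CTree × GC.Conf Ph =>
      fxpI Φ ε t (pI L hΦ hε η t T) z (wS (GC.pts p.2)) p.1) :
    secS L hΦ hε f₀ η t T (s, z, n) ≤ XX Φ ε L f₀ t (fxgI Φ ε t (gI L hΦ hε η t) n z) +
      XX Φ ε L f₀ t (fxpI Φ ε t (pI L hΦ hε η t T) z) +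
      XX Φ ε L f₀ t fun V S => ind (hitI ε t (0, z, n) (ln Φ ε S)) *
        twoG Φ ε (gI L hΦ hε η t V) S := by
  rw [← XX_add hΦ hε h1 h₀, ← XX_add hΦ hε (h1.add h2) h₀]
  unfold secS XI
  refine XX_mono fun V S _ => ?_
  by_cases hH : hitI ε t (s, z, n) (ln Φ ε S)
  swap
  · rw [ind_of_not hH, zero_mul]; exact zero_le
  rw [ind_of hH, one_mul, ind_of (hitI_birth hs hH), one_mul]
  unfold secW fxgI fxpI
  beta_reduce
  by_cases hE : ext Φ ε S ≤ hitT ε (z, ln Φ ε S)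
  swap
  · rw [ind_of_not fun h => hE h.2, zero_mul]
    exact bot_le
  rw [ind_of (hitF_of hs hH hE), one_mul, one_mul]
  refine (mul_le_mul' (ind_le_one _) le_rfl).trans ((one_mul _).le.trans (secN_le.trans ?_))
  refine add_le_add ?_ le_rfl
  rw [← exsum_add, frG_eq]
  refine exsum_mono fun x _ => add_le_add (le_of_eq rfl) ?_
  exact pI_zero hη ht hs htT

/-- **The top reduction**, with the functionals `P2g`, `FXg`, `FXp`. -/
theorem Nm_secS_le' (h₀ : GoodDatum f₀ κ) (hΦ : IsPotential Φ) (hε : 0 < ε) (hη : 0 < η)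
    (hb : 0 < b) {T l₁ l₂ B : ℝ} {a : ℕ → ℝ} (hT : 0 < T) (ht : 0 ≤ t) (htT : t ≤ T)
    (ha : ∀ n, 0 < a n) (h₁ : 0 ≤ l₁) (h₂ : 0 ≤ l₂) (hB : ∀ n, wgt l₁ l₂ a T n ≤ B) :
    Nm b T l₁ l₂ a t (secS L hΦ hε f₀ η t T) ≤
      (∑' n, ENNReal.ofReal (wgt l₁ l₂ a T n) *
        FXg Φ ε L f₀ (b / 2) t (gI L hΦ hε η t) n) +
      ENNReal.ofReal B * FXp Φ ε L f₀ (b / 2) t (pI L hΦ hε η t T) +
      ENNReal.ofReal B * (2 * (ENNReal.ofReal Real.pi * I0 (b / 2) * ENNReal.ofReal t) *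
          P2g Φ ε L f₀ t (gI L hΦ hε η t)) := by
  have hwg : ∀ s ∈ Icc 0 t, ∀ n : ℕ, wgt l₁ l₂ a s n ≤ wgt l₁ l₂ a T n := by
    intro s hs n
    unfold wgt
    refine mul_le_mul_of_nonneg_left (Real.exp_le_exp.2 ?_) (ha n).le
    exact mul_le_mul_of_nonneg_left (hs.2.trans htT) (by positivity)
  refine Nm_le fun s hs n => ?_
  refine (mul_le_mul_left (ENNReal.ofReal_le_ofReal (hwg s hs n)) _).trans ?_
  suffices hY : Y b T (secS L hΦ hε f₀ η t T) s n ≤
      FXg Φ ε L f₀ (b / 2) t (gI L hΦ hε η t) n +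
      FXp Φ ε L f₀ (b / 2) t (pI L hΦ hε η t T) +
      2 * (ENNReal.ofReal Real.pi * I0 (b / 2) * ENNReal.ofReal t) *
        P2g Φ ε L f₀ t (gI L hΦ hε η t) by
    refine (mul_le_mul_right hY _).trans ?_
    rw [mul_add, mul_add]
    refine add_le_add (add_le_add ?_ ?_) ?_
    · exact ENNReal.le_tsum (f := fun n => ENNReal.ofReal (wgt l₁ l₂ a T n) *
        FXg Φ ε L f₀ (b / 2) t (gI L hΦ hε η t) n) n
    · exact mul_le_mul_left (ENNReal.ofReal_le_ofReal (hB n)) _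
    · exact mul_le_mul_left (ENNReal.ofReal_le_ofReal (hB n)) _
  have hgz : Measurable fun z : Ph => gw (b / 2) z.2 := (measurable_gw _).comp measurable_snd
  have hmg := (MW_gI (L := L) (hΦ := hΦ) (hε := hε) (η := η) (t := t)).fxg (t := t) hΦ hε n
  have hmp := (MWp_pI (L := L) (hΦ := hΦ) (hε := hε) (η := η) (t := t) (w := T)).fxp (t := t)
    hΦ hε
  have hmG : Measurable fun p : GC.Conf Ph × CTree =>
      twoG Φ ε (gI L hΦ hε η t (wS (GC.pts p.1))) p.2 :=
    (MW_gI (L := L) (hΦ := hΦ) (hε := hε) (η := η) (t := t)).twoG hΦ hε measurable_fst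
      measurable_snd
  have h1 : ∀ z : Ph, gw (bt b T s) z.2 * secS L hΦ hε f₀ η t T (s, z, n) ≤
      gw (b / 2) z.2 * XX Φ ε L f₀ t (fxgI Φ ε t (gI L hΦ hε η t) n z) +
      gw (b / 2) z.2 * XX Φ ε L f₀ t (fxpI Φ ε t (pI L hΦ hε η t T) z) +
      gw (b / 2) z.2 * (XX Φ ε L f₀ t fun V S => ind (hitI ε t (0, z, n) (ln Φ ε S)) *
        twoG Φ ε (gI L hΦ hε η t V) S) := by
    intro z
    rw [← mul_add, ← mul_add]
    refine mul_le_mul' (gw_anti (le_bt hb hT (hs.2.trans htT)) _) ?_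
    exact secS_split h₀ hη ht htT hs.1 (meas_H hmg z) (meas_H hmp z)
  unfold Y
  refine (lintegral_mono h1).trans ?_
  have hm2 : Measurable fun z : Ph => gw (b / 2) z.2 *
      XX Φ ε L f₀ t (fxgI Φ ε t (gI L hΦ hε η t) n z) :=
    hgz.mul (measurable_XX h₀ hΦ hε hmg)
  have hm3 : Measurable fun z : Ph => gw (b / 2) z.2 *
      XX Φ ε L f₀ t (fxpI Φ ε t (pI L hΦ hε η t T) z) :=
    hgz.mul (measurable_XX h₀ hΦ hε hmp)
  have hm23 : Measurable fun z : Ph => gw (b / 2) z.2 *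
      XX Φ ε L f₀ t (fxgI Φ ε t (gI L hΦ hε η t) n z) +
      gw (b / 2) z.2 * XX Φ ε L f₀ t (fxpI Φ ε t (pI L hΦ hε η t T) z) := hm2.add hm3
  rw [lintegral_add_left hm23, lintegral_add_left hm2]
  refine add_le_add le_rfl ?_
  refine (lintegral_two_le h₀ hΦ hε (half_pos hb) ht n hmG).trans ?_
  rw [mul_comm 2, mul_assoc (ENNReal.ofReal Real.pi * I0 (b / 2) * ENNReal.ofReal t)]
  refine mul_le_mul' le_rfl ?_
  unfold P2g
  rw [mul_left_comm]
  refine mul_le_mul' le_rfl ?_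
  rw [← XX_const_mul h₀ hΦ hε (by norm_num : (2 : ℝ≥0∞) ≠ ∞)]
  refine XX_mono fun V S _ => ?_
  rw [← mul_assoc]
  refine mul_le_mul' ?_ le_rfl
  have h3 : (1 : ℝ) + ‖(ln Φ ε S).2‖ ≤ 2 * (1 + ‖(ln Φ ε S).2‖ ^ 2) := by
    nlinarith [norm_nonneg (ln Φ ε S).2, sq_nonneg (‖(ln Φ ε S).2‖ - 1)]
  unfold wr
  refine (ENNReal.ofReal_le_ofReal h3).trans (le_of_eq ?_)
  rw [ENNReal.ofReal_mul (by norm_num : (0 : ℝ) ≤ 2)]
  congr 1
  norm_num

/-- The second events of a flying particle. -/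
theorem SE9F_le' : SE9F L hΦ hε f₀ η t ≤ P2g Φ ε L f₀ t (gI L hΦ hε η t) := SE9F_le

end Vale.Agent.P119.PB
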