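import Vale.Agent.P119.PB.Felt
import Vale.Agent.P119.PB.Marks2
import Vale.Agent.P119.RM.Def

/-!
# P119, block PROB, P3: the number of felt trees (`helper423`)

* `measurableSet_exists_exs`, `measurableSet_exists_outs`;
* `FF_le_XX`: the expected number of felt trees is at most the integral over an inserted tree;
* `FF_le`: **the F-step**: it is at most the sum over the lines of the inserted tree of the
  probability that the line touches, and the probability of the exceptional set `ExF`.
-/

open MeasureTheory Filter Topology Set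
open scoped ENNReal NNReal

noncomputable section

namespace Vale.Agent.P119.PB

open M CTree KU FB RB AU TL

variable {Φ : E3 → ℝ} {ε : ℝ} {L : ℕ} {hΦ : IsPotential Φ} {hε : 0 < ε}

/-! ### Measurability -/

theorem measurableSet_prod_ctree {X : Type*} [MeasurableSpace X] {S : Set (X × CTree)} :
    MeasurableSet S ↔ ∀ τ : Shape, MeasurableSet {p : X × (Fin τ.card → Src) |
      (p.1, Shape.mk τ p.2) ∈ S} := by
  classical
  constructor
  · intro h τ
    have h1 : Measurable fun p : X × (Fin τ.card → Src) => (p.1, Shape.mk τ p.2) :=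
      measurable_fst.prodMk ((measurable_smk τ).comp measurable_snd)
    exact h1 h
  · intro h
    have h1 : Measurable (S.indicator fun _ => (1 : ℝ≥0∞)) := by
      rw [measurable_prod_ctree]
      intro τ
      have e : (fun p : X × (Fin τ.card → Src) => S.indicator (fun _ => (1 : ℝ≥0∞))
          (p.1, Shape.mk τ p.2)) = {p : X × (Fin τ.card → Src) |
            (p.1, Shape.mk τ p.2) ∈ S}.indicator fun _ => (1 : ℝ≥0∞) := rfl
      rw [e]
      exact measurable_const.indicator (h τ)
    have h2 := h1 (measurableSet_singleton (1 : ℝ≥0∞))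
    convert h2 using 1
    ext p
    simp only [mem_preimage, mem_singleton_iff]
    by_cases hp : p ∈ S
    · rw [indicator_of_mem hp]
      exact iff_of_true hp rfl
    · rw [indicator_of_notMem hp]
      exact iff_of_false hp zero_ne_one

/-- An exhaust with a measurable property. -/
theorem measurableSet_exists_exs {X : Type*} [MeasurableSpace X] {P : X → CTree → Prop}
    (hP : MeasurableSet {p : X × CTree | P p.1 p.2}) :
    MeasurableSet {p : X × CTree | ∃ x ∈ exs p.2, P p.1 x} := by
  rw [measurableSet_prod_ctree]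
  intro τ
  induction τ with
  | leaf =>
    have e : {p : X × (Fin Shape.leaf.card → Src) | (p.1, Shape.mk Shape.leaf p.2) ∈
        {p : X × CTree | ∃ x ∈ exs p.2, P p.1 x}} = ∅ := by
      ext p
      simp only [mem_ofPred_eq, mem_empty_iff_false, iff_false]
      rintro ⟨x, hx, -⟩
      exact absurd hx (notMem_empty x)
    rw [e]
    exact MeasurableSet.empty
  | node a b iha ihb =>
    have hA : Measurable fun p : X × (Fin (Shape.node a b).card → Src) =>
        (p.1, fun i => p.2 (Fin.castAdd b.card i)) :=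
      measurable_fst.prodMk (measurable_pi_iff.2 fun i =>
        (measurable_pi_apply _).comp measurable_snd)
    have hB : Measurable fun p : X × (Fin (Shape.node a b).card → Src) =>
        (p.1, fun i => p.2 (Fin.natAdd a.card i)) :=
      measurable_fst.prodMk (measurable_pi_iff.2 fun i =>
        (measurable_pi_apply _).comp measurable_snd)
    have hC : Measurable fun p : X × (Fin (Shape.node a b).card → Src) => (p.1,
        CTree.node (Shape.mk b fun i => p.2 (Fin.natAdd a.card i))
          (Shape.mk a fun i => p.2 (Fin.castAdd b.card i))) :=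
      measurable_fst.prodMk (measurable_node.comp (((measurable_smk b).comp
        (measurable_pi_iff.2 fun i => (measurable_pi_apply _).comp measurable_snd)).prodMk
        ((measurable_smk a).comp
        (measurable_pi_iff.2 fun i => (measurable_pi_apply _).comp measurable_snd))))
    have e : {p : X × (Fin (Shape.node a b).card → Src) | (p.1, Shape.mk (Shape.node a b) p.2) ∈
        {p : X × CTree | ∃ x ∈ exs p.2, P p.1 x}} =
        (fun p : X × (Fin (Shape.node a b).card → Src) =>
          (p.1, fun i => p.2 (Fin.castAdd b.card i))) ⁻¹' {p : X × (Fin a.card → Src) |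
            (p.1, Shape.mk a p.2) ∈ {p : X × CTree | ∃ x ∈ exs p.2, P p.1 x}} ∪
        ((fun p : X × (Fin (Shape.node a b).card → Src) =>
          (p.1, fun i => p.2 (Fin.natAdd a.card i))) ⁻¹' {p : X × (Fin b.card → Src) |
            (p.1, Shape.mk b p.2) ∈ {p : X × CTree | ∃ x ∈ exs p.2, P p.1 x}} ∪
        (fun p : X × (Fin (Shape.node a b).card → Src) => (p.1,
          CTree.node (Shape.mk b fun i => p.2 (Fin.natAdd a.card i))
          (Shape.mk a fun i => p.2 (Fin.castAdd b.card i)))) ⁻¹' {p : X × CTree | P p.1 p.2}) := by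
      ext p
      simp only [mem_ofPred_eq, mem_union, mem_preimage]
      change (∃ x ∈ exs (CTree.node (Shape.mk a fun i => p.2 (Fin.castAdd b.card i))
        (Shape.mk b fun i => p.2 (Fin.natAdd a.card i))), P p.1 x) ↔ _
      constructor
      · rintro ⟨x, hx, h⟩
        rcases mem_exs_node.1 hx with hx | hx | rfl
        · exact Or.inl ⟨x, hx, h⟩
        · exact Or.inr (Or.inl ⟨x, hx, h⟩)
        · exact Or.inr (Or.inr h)
      · rintro (⟨x, hx, h⟩ | ⟨x, hx, h⟩ | h)
        · exact ⟨x, mem_exs_node.2 (Or.inl hx), h⟩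
        · exact ⟨x, mem_exs_node.2 (Or.inr (Or.inl hx)), h⟩
        · exact ⟨_, mem_exs_node.2 (Or.inr (Or.inr rfl)), h⟩
    rw [e]
    exact (hA iha).union ((hB ihb).union (hC hP))

/-- A line with a measurable property. -/
theorem measurableSet_exists_outs {X : Type*} [MeasurableSpace X] {P : X → CTree → Prop}
    (hP : MeasurableSet {p : X × CTree | P p.1 p.2}) :
    MeasurableSet {p : X × CTree | ∃ x ∈ outs p.2, P p.1 x} := by
  have e : {p : X × CTree | ∃ x ∈ outs p.2, P p.1 x} =
      {p : X × CTree | P p.1 p.2} ∪ {p : X × CTree | ∃ x ∈ exs p.2, P p.1 x} := by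
    ext p
    constructor
    · rintro ⟨x, rfl | hx, h⟩
      · exact Or.inl h
      · exact Or.inr ⟨x, hx, h⟩
    · rintro (h | ⟨x, hx, h⟩)
      · exact ⟨_, Or.inl rfl, h⟩
      · exact ⟨x, Or.inr hx, h⟩
  rw [e]
  exact hP.union (measurableSet_exists_exs hP)

/-! ### Felt trees as inserted trees -/

variable {f₀ : Ph → ℝ} {κ t η η' w : ℝ}

variable (L hΦ hε) in
/-- The inserted tree `T` is felt up to the stopping time. -/
def Fe (η t : ℝ) (U : Finset Src) (T : CTree) : Prop :=
  fl L hΦ hε (addT U T) (hz L hΦ hε η t (addT U T)) T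

theorem measurableSet_Fe : MeasurableSet {p : CTree × GC.Conf Ph |
    Fe L hΦ hε η t (wS (GC.pts p.2)) p.1} := by
  have h1 : MM.RS fun p : CTree × GC.Conf Ph => ((addT (wS (GC.pts p.2)) p.1 : Finset Src) : Set Src) :=
    rs_addT rs_wS_tree measurable_fst
  exact RM.measurableSet_fl h1 measurable_fst
    (RM.measurable_hz h1 measurable_const measurable_const)

/-- The weight of a tree. -/
def wln (Φ : E3 → ℝ) (ε : ℝ) (T : CTree) : ℝ≥0∞ := ENNReal.ofReal (1 + ‖(ln Φ ε T).2‖)

theorem measurable_wln (hΦ : IsPotential Φ) (hε : 0 < ε) : Measurable (wln Φ ε) :=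
  RM.measurable_lnv' hΦ hε

theorem measurable_wln_ind (hΦ : IsPotential Φ) (hε : 0 < ε)
    {P : GC.Conf Ph → CTree → Prop} (hP : MeasurableSet {p : CTree × GC.Conf Ph | P p.2 p.1}) :
    Measurable fun p : CTree × GC.Conf Ph => wln Φ ε p.1 * ind (P p.2 p.1) := by
  have h1 : Measurable fun p : CTree × GC.Conf Ph => wln Φ ε p.1 :=
    (measurable_wln hΦ hε).comp measurable_fst
  have h2 : Measurable fun p : CTree × GC.Conf Ph => ind (P p.2 p.1) := measurable_ind hP
  exact h1.mul h2

/-- **The number of felt trees** is at most an integral over an inserted tree. -/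
theorem FF_le_XX (h : GoodDatum f₀ κ) (hη : 0 < η) (ht : 0 ≤ t) : FF L hΦ hε f₀ η t ≤
    (FL.muE ε)⁻¹ * XX Φ ε L f₀ t (fun U T => wln Φ ε T * ind (Fe L hΦ hε η t U T)) := by
  classical
  unfold FF
  refine mul_le_mul_right ?_ _
  refine le_trans (lintegral_mono fun c => ?_) (gibbs hΦ h hε
    (measurable_wln_ind hΦ hε (P := fun c T => Fe L hΦ hε η t (wS (GC.pts c)) T)
      measurableSet_Fe))
  unfold fW
  refine ENNReal.tsum_le_tsum fun T => ?_
  by_cases hf : fl L hΦ hε (wS (GC.pts c)) (hz L hΦ hε η t (wS (GC.pts c))) T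
  · have hadd := addT_rm hf.sub
    have hal : alT Φ ε L t (rm (wS (GC.pts c)) T) T := by
      refine ⟨(alive_pre hf.alive).ok, hf.depth, hf.ext_le.trans (hz_le hη ht), ?_⟩
      rw [hadd]
      exact hf.alive
    have hFe : Fe L hΦ hε η t (rm (wS (GC.pts c)) T) T := by
      unfold Fe
      rw [hadd]
      exact hf
    rw [if_pos hf, if_pos hf.sub, ind_of hal, ind_of hFe, one_mul, mul_one]
    exact le_rfl
  · rw [if_neg hf]
    exact zero_le

variable (L hΦ hε) in
/-- The lines of the inserted tree `T` do not interact over `U`, and its root was not exposed. -/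
structure NiceT (U : Finset Src) (T : CTree) (t : ℝ) : Prop where
  good : GoodT Φ ε L U T t
  root : ∀ s < ext Φ ε T, ¬(Y Φ ε L hΦ hε).Exp (addT U T) T.root s

variable (L hΦ hε) in
/-- The exceptional set: the lines of `T` interact over `U`, or there are many trees which are
related to `T`. -/
def ExF (η η' t : ℝ) (U : Finset Src) (T : CTree) : Prop :=
  ¬GoodT Φ ε L U T t ∨ (NiceT L hΦ hε U T t ∧
    ENNReal.ofReal ((η' - η) * mu ε) < relW L hΦ hε (addT U T) U t)

variable (L hΦ hε) in
/-- A line of `T` touches `U`. -/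
def ExO (η' t w : ℝ) (U : Finset Src) (T : CTree) : Prop :=
  ∃ x ∈ outs T, TT L hΦ hε η' t w U (rsrc Φ ε x)

theorem measurableSet_ExO : MeasurableSet {p : CTree × GC.Conf Ph |
    ExO L hΦ hε η' t w (wS (GC.pts p.2)) p.1} := by
  have h1 : MeasurableSet {p : GC.Conf Ph × CTree |
      TT L hΦ hε η' t w (wS (GC.pts p.1)) (rsrc Φ ε p.2)} :=
    RM.measurableSet_TT (RM.rs_wS measurable_fst) measurable_const measurable_const
      measurable_const ((measurable_rsrc hΦ hε.ne').comp measurable_snd)
  exact measurable_swap (measurableSet_exists_outs (X := GC.Conf Ph)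
    (P := fun c x => TT L hΦ hε η' t w (wS (GC.pts c)) (rsrc Φ ε x)) h1)

/-- Births of the particles of ordinary worlds. -/
theorem wS_birth3 {v : Finset Ph} : ∀ a ∈ wS v, (0 : ℝ) ≤ a.1 := by
  intro a ha
  obtain ⟨z, -, rfl⟩ := mem_wS.1 ha
  exact le_rfl

/-- Pointwise: a felt tree has a line which touches, or is exceptional. -/
theorem exO_of_fe (hη : 0 < η) (hηη : η ≤ η') (ht : 0 ≤ t) (hw : t ≤ w) {U : Finset Src}
    {T : CTree} (h0 : ∀ a ∈ U, 0 ≤ a.1) (hf : Fe L hΦ hε η t U T) :
    ExO L hΦ hε η' t w U T ∨ ExF L hΦ hε η η' t U T := by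
  by_cases h1 : ExF L hΦ hε η η' t U T
  · exact Or.inr h1
  · left
    unfold ExF at h1
    rw [not_or, not_not, not_and, not_lt] at h1
    obtain ⟨x, hx, h2⟩ := touch_of_felt h0 h1.1 hη hηη ht (h1.2 ⟨h1.1, hf.root⟩) hf
    refine ⟨x, hx, ?_⟩
    unfold TT
    have h3 := ext_nonneg hΦ hε (outs_ok hΦ (alive_pre hf.alive).ok hx)
    have h4 := hz_le (L := L) (hΦ := hΦ) (hε := hε) (W := U) (hη.trans_le hηη) ht
    rw [min_eq_left]
    · exact h2
    · change _ ≤ ext Φ ε x + w
      linarith

/-- The sum over the lines of `T`. -/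
def linesum (Φ : E3 → ℝ) (ε : ℝ) (T : CTree) (G : Src → ℝ≥0∞) : ℝ≥0∞ :=
  G (rsrc Φ ε T) + exsum T fun x => G (rsrc Φ ε x)

theorem ind_exO_le {U : Finset Src} {T : CTree} : ind (ExO L hΦ hε η' t w U T) ≤
    linesum Φ ε T fun σ => ind (TT L hΦ hε η' t w U σ) := by
  by_cases h : ExO L hΦ hε η' t w U T
  · rw [ind_of h]
    obtain ⟨x, rfl | hx, h1⟩ := h
    · refine le_trans ?_ le_self_add
      exact (ind_of h1).ge
    · refine le_trans ?_ le_add_self
      refine le_trans ?_ (le_exsum hx _)
      exact (ind_of h1).ge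
  · rw [ind_of_not h]
    exact zero_le

/-- **P3, the F-step.** -/
theorem FF_le (h : GoodDatum f₀ κ) (hη : 0 < η) (hηη : η ≤ η') (ht : 0 ≤ t) (hw : t ≤ w) :
    FF L hΦ hε f₀ η t ≤
      (FL.muE ε)⁻¹ * XX Φ ε L f₀ t (fun U T => wln Φ ε T *
        linesum Φ ε T fun σ => ind (TT L hΦ hε η' t w U σ)) +
      (FL.muE ε)⁻¹ * XX Φ ε L f₀ t (fun U T => wln Φ ε T * ind (ExF L hΦ hε η η' t U T)) := by
  refine (FF_le_XX h hη ht).trans ?_
  rw [← mul_add]
  refine mul_le_mul_right ?_ _
  have h1 : XX Φ ε L f₀ t (fun U T => wln Φ ε T * ind (Fe L hΦ hε η t U T)) ≤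
      XX Φ ε L f₀ t (fun U T => wln Φ ε T * ind (ExO L hΦ hε η' t w U T) +
        wln Φ ε T * ind (Fe L hΦ hε η t U T ∧ ¬ExO L hΦ hε η' t w U T)) := by
    refine XX_mono fun U T _ => ?_
    rw [← mul_add]
    refine mul_le_mul_right ?_ _
    by_cases h2 : ExO L hΦ hε η' t w U T
    · rw [ind_of h2]
      exact (ind_le_one _).trans le_self_add
    · refine le_trans (ind_mono fun h3 => ⟨h3, h2⟩) le_add_self
  refine h1.trans ?_
  rw [XX_add hΦ hε (measurable_wln_ind hΦ hε
    (P := fun c T => ExO L hΦ hε η' t w (wS (GC.pts c)) T) measurableSet_ExO) h]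
  refine add_le_add (XX_mono fun U T _ => mul_le_mul_right ind_exO_le _) ?_
  unfold XX
  refine lintegral_mono fun c => lintegral_mono fun T => ?_
  refine mul_le_mul_right (mul_le_mul_right (ind_mono fun h2 => ?_) _) _
  exact (exO_of_fe hη hηη ht hw wS_birth3 h2.1).resolve_left h2.2

end Vale.Agent.P119.PB
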