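import Vale.Agent.P119.PB.Exh3
import Vale.Agent.P119.PB.P3

/-!
# P119, block PROB: sums over the exhausts, integrated over the gas (`helper776`)
-/

open MeasureTheory Set Filter Topology Metric ProbabilityTheory
open scoped ENNReal

namespace Vale.Agent.P119.PB.EX

open KU FL M CTree AU

variable {Φ : E3 → ℝ}

/-- The trees which are alive at their end in the world `U` with their leaves. -/
def Als (Φ : E3 → ℝ) (ε : ℝ) (L : ℕ) (t : ℝ) (U : Finset Src) : Set CTree :=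
  {T | alT Φ ε L t U T}

theorem measurableSet_Als (hΦ : IsPotential Φ) {ε : ℝ} (hε : 0 < ε) (L : ℕ) (t : ℝ)
    (c : GC.Conf Ph) : MeasurableSet (Als Φ ε L t (wS (GC.pts c))) := by
  have h := measurableSet_alT' (L := L) hΦ hε t
  have h1 : Measurable fun T : CTree => ((T, c) : CTree × GC.Conf Ph) :=
    measurable_id.prodMk measurable_const
  exact h1 h

theorem lintegral_ind_Als (hΦ : IsPotential Φ) {ε : ℝ} (hε : 0 < ε) (L : ℕ) (t : ℝ)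
    (c : GC.Conf Ph) (ν : Measure Ph) (H : CTree → ℝ≥0∞) :
    ∫⁻ T, ind (alT Φ ε L t (wS (GC.pts c)) T) * H T ∂(tree ν L) =
      ∫⁻ T in Als Φ ε L t (wS (GC.pts c)), H T ∂(tree ν L) := by
  rw [← lintegral_indicator (measurableSet_Als hΦ hε L t c)]
  refine lintegral_congr fun T => ?_
  by_cases h : alT Φ ε L t (wS (GC.pts c)) T
  · rw [ind_of h, one_mul, indicator_of_mem (show T ∈ Als Φ ε L t (wS (GC.pts c)) from h)]
  · rw [ind_of_not h, zero_mul, indicator_of_notMem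
      (show T ∉ Als Φ ε L t (wS (GC.pts c)) from h)]

/-- **EXH, integrated over the gas.** -/
theorem exh_XX (hΦ : IsPotential Φ) {b t : ℝ} (hb : 0 < b) (ht : 0 ≤ t) (q : ℕ) {N : ℝ}
    (hN0 : 0 ≤ N) :
    ∃ C : ℝ≥0∞, C ≠ ∞ ∧ ∀ (L : ℕ) (Ccr : ℝ≥0∞), Ccr ≠ ∞ → ∃ C' : ℝ≥0∞, C' ≠ ∞ ∧
      ∀ (f₀ : Ph → ℝ) (κ₀ : ℝ), GoodDatum f₀ κ₀ → ∀ ε : ℝ, 0 < ε →
      ∀ (κ : Measure ℕ) [IsFiniteMeasure κ], ENNReal.ofReal (1 + t) * κ univ ≤ ENNReal.ofReal N →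
      ∀ aty : GC.Conf Ph → Measure Src, (∀ c, SFinite (aty c)) →
      Measurable (fun c => ∫⁻ σ, vp (q + L) σ ∂(aty c)) →
      (∀ᵐ c ∂(GC.PP f₀ ε), ∀ F : Src → ℝ≥0∞, Measurable F →
        ∫⁻ T in Als Φ ε L t (wS (GC.pts c)), F (rsrc Φ ε T) ∂(tree (GC.inten f₀ ε) L) ≤
        muE ε * (∫⁻ σ, F σ ∂(refM b t κ) + ∫⁻ σ, F σ ∂(aty c))) →
      (∀ᵐ c ∂(GC.PP f₀ ε), ∀ F : Src → ℝ≥0∞, Measurable F →
        ∫⁻ T in Als Φ ε L t (wS (GC.pts c)), F (rsrc Φ ε T) ∂(tree (GC.inten f₀ ε) L) ≤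
        muE ε * (Ccr * ∫⁻ σ, F σ ∂(refM (b / 2) t (cL L)))) →
      ∀ g : Finset Src → Src → ℝ≥0∞,
      (Measurable fun p : GC.Conf Ph × Src => g (wS (GC.pts p.1)) p.2) →
      (∀ U σ, g U σ ≤ 1) →
        XX Φ ε L f₀ t (fun U T => vp q (rsrc Φ ε T) * linesum Φ ε T (g U)) ≤
          muE ε * (C * (∫⁻ σ, (∫⁻ c, g (wS (GC.pts c)) σ ∂(GC.PP f₀ ε)) ∂(refM (b / 2) t κ) +
            ∫⁻ σ, (∫⁻ c, g (wS (GC.pts c)) σ ∂(GC.PP f₀ ε)) ∂(refM (b / 2) t (kap κ)))) +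
          C' * (muE ε * ∫⁻ c, (∫⁻ σ, vp (q + L) σ ∂(aty c)) ∂(GC.PP f₀ ε) +
            XX Φ ε L f₀ t (fun U T => vp (q + L) (rsrc Φ ε T) *
              ind (T ∈ Bad1 (Als Φ ε L t U)))) := by
  obtain ⟨C, hC, h⟩ := exh hΦ hb ht q hN0
  refine ⟨C, hC, fun L Ccr hCcr => ?_⟩
  obtain ⟨C', hC', h'⟩ := h L Ccr hCcr
  refine ⟨C', hC', ?_⟩
  intro f₀ κ₀ hg ε hε κ _ hN aty haty hatym hlam hcr g hgm hg1
  have hfin := GC.isFiniteMeasure_inten (ε := ε) hg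
  have hP := GC.isProbability_PP (ε := ε) hg
  have hκ : SFinite (kap κ) := by unfold kap; infer_instance
  have hr := measurable_rsrc hΦ hε.ne' (Φ := Φ) (ε := ε)
  have hgc : ∀ c, Measurable fun σ => g (wS (GC.pts c)) σ := fun c =>
    hgm.comp (measurable_const.prodMk measurable_id)
  have hRm : ∀ (m : Measure Src) [SFinite m], Measurable fun c => ∫⁻ σ, g (wS (GC.pts c)) σ ∂m :=
    fun m _ => hgm.lintegral_prod_right'
  -- pointwise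
  have h1 : ∀ᵐ c ∂(GC.PP f₀ ε), ∫⁻ T, ind (alT Φ ε L t (wS (GC.pts c)) T) *
      (vp q (rsrc Φ ε T) * linesum Φ ε T (g (wS (GC.pts c)))) ∂(tree (GC.inten f₀ ε) L) ≤
      muE ε * (C * (∫⁻ σ, g (wS (GC.pts c)) σ ∂(refM (b / 2) t κ) +
        ∫⁻ σ, g (wS (GC.pts c)) σ ∂(refM (b / 2) t (kap κ)))) +
      C' * (muE ε * ∫⁻ σ, vp (q + L) σ ∂(aty c) +
        ∫⁻ T, ind (alT Φ ε L t (wS (GC.pts c)) T) * (vp (q + L) (rsrc Φ ε T) *
          ind (T ∈ Bad1 (Als Φ ε L t (wS (GC.pts c))))) ∂(tree (GC.inten f₀ ε) L)) := by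
    filter_upwards [hlam, hcr] with c hl hc
    have := haty c
    rw [lintegral_ind_Als hΦ hε, lintegral_ind_Als hΦ hε]
    refine (h' ε hε (GC.inten f₀ ε) κ hN (aty c) (Als Φ ε L t (wS (GC.pts c)))
      (measurableSet_Als hΦ hε L t c) (fun T hT => ⟨hT.ok, hT.ext_le⟩) hl hc
      (g (wS (GC.pts c))) (hgc c) (hg1 _)).trans ?_
    refine add_le_add le_rfl (mul_le_mul' le_rfl (add_le_add le_rfl ?_))
    have hB := measurableSet_Bad1 (measurableSet_Als hΦ hε L t c)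
    rw [← lintegral_indicator hB, ← lintegral_indicator (measurableSet_Als hΦ hε L t c)]
    refine lintegral_mono fun T => ?_
    by_cases hT : T ∈ Bad1 (Als Φ ε L t (wS (GC.pts c)))
    · rw [indicator_of_mem hT, indicator_of_mem hT.1, ind_of hT, mul_one]
    · rw [indicator_of_notMem hT]
      exact zero_le
  unfold XX
  refine (lintegral_mono_ae h1).trans ?_
  have m1 : Measurable fun c => muE ε * (C * (∫⁻ σ, g (wS (GC.pts c)) σ ∂(refM (b / 2) t κ) +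
        ∫⁻ σ, g (wS (GC.pts c)) σ ∂(refM (b / 2) t (kap κ)))) :=
    (((hRm _).add (hRm _)).const_mul _).const_mul _
  rw [lintegral_add_left m1, lintegral_const_mul' _ _ muE_ne_top, lintegral_const_mul' _ _ hC,
    lintegral_add_left (hRm _), lintegral_const_mul' _ _ hC',
    lintegral_add_left (hatym.const_mul _), lintegral_const_mul' _ _ muE_ne_top]
  have s1 : ∀ (m : Measure Src) [SFinite m], ∫⁻ c, ∫⁻ σ, g (wS (GC.pts c)) σ ∂m ∂(GC.PP f₀ ε) =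
      ∫⁻ σ, ∫⁻ c, g (wS (GC.pts c)) σ ∂(GC.PP f₀ ε) ∂m := fun m _ =>
    lintegral_lintegral_swap hgm.aemeasurable
  rw [s1, s1]

end Vale.Agent.P119.PB.EX
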