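import Vale.Agent.P119.PB.Pairs

/-!
# P119, block PROB: sums over the exhausts of two alive trees (`helper298`)

* `hitI2`: the two lines hit each other up to the time `t`; `hit_mass`: the mass of the trees whose
  line hits a line;
* `sumX`: the sum over a marked node in each of two trees, with independent pieces;
* `prod_le`: **sums over the exhausts `e` of `x` and `m` of `y`, for `x`, `y` in `Al` whose lines hit
  each other**, are at most `sumX`, up to an error.
-/

open MeasureTheory Filter Topology Set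
open scoped ENNReal NNReal

noncomputable section

namespace Vale.Agent.P119.M

open KU CTree FL PB Cap

variable {Φ : E3 → ℝ} {ε b t : ℝ} {ν : Measure Ph} {L : ℕ} {Al : Set CTree} {g : CTree → ℝ≥0∞}

/-! ### Hits -/

/-- The lines hit each other in the time interval `[0,t]`. -/
def hit2 (ε t : ℝ) : Set (Ph × Ph) := {q | Meets ε q ∧ 0 ≤ hitT ε q ∧ hitT ε q ≤ t}

theorem measurableSet_hit2 : MeasurableSet (hit2 ε t) :=
  measurableSet_meets.inter ((measurableSet_le measurable_const measurable_hitT).inter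
    (measurableSet_le measurable_hitT measurable_const))

theorem hit2_swap {q : Ph × Ph} : q.swap ∈ hit2 ε t ↔ q ∈ hit2 ε t := by
  unfold hit2
  simp only [mem_ofPred_eq, meets_swap, hitT_swap]

/-- The indicator of `hit2`. -/
def hI (ε t : ℝ) (q : Ph × Ph) : ℝ≥0∞ := (hit2 ε t).indicator (fun _ => 1) q

theorem measurable_hI : Measurable (hI ε t) := measurable_const.indicator measurableSet_hit2

theorem hI_swap (q : Ph × Ph) : hI ε t q.swap = hI ε t q := by
  classical
  unfold hI
  by_cases h : q ∈ hit2 ε t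
  · rw [indicator_of_mem h, indicator_of_mem (hit2_swap.2 h)]
  · rw [indicator_of_notMem h, indicator_of_notMem fun h' => h (hit2_swap.1 h')]

/-- The constant of `hit_mass`. -/
def CH (b t : ℝ) (q : ℕ) : ℝ≥0∞ :=
  ENNReal.ofReal (Cgp b q) * (ENNReal.ofReal (Real.pi * (t + 1 - (-1))) * I0 (b / 2))

theorem hit_mass_line (hε : 0 < ε) (hb : 0 < b) (q : ℕ) (z : Ph) :
    ∫⁻ a : Ph, muE ε * gw b a.2 * (hI ε t (z, a) * pw q a.2) ≤ CH b t q * pw 1 z.2 := by
  have h1 : ∀ a : Ph, muE ε * gw b a.2 * (hI ε t (z, a) * pw q a.2) ≤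
      ENNReal.ofReal (Cgp b q) * {a : Ph | Meets ε (z, a) ∧ -1 < hitT ε (z, a) ∧
        hitT ε (z, a) < t + 1}.indicator (fun a => muE ε * gw (b / 2) a.2) a := by
    intro a
    by_cases h : (z, a) ∈ hit2 ε t
    · rw [indicator_of_mem (show a ∈ {a : Ph | Meets ε (z, a) ∧ -1 < hitT ε (z, a) ∧
        hitT ε (z, a) < t + 1} from ⟨h.1, by linarith [h.2.1], by linarith [h.2.2]⟩)]
      unfold hI
      rw [indicator_of_mem h, one_mul]
      calc muE ε * gw b a.2 * pw q a.2 = muE ε * (gw b a.2 * pw q a.2) := mul_assoc _ _ _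
        _ ≤ muE ε * (ENNReal.ofReal (Cgp b q) * gw (b / 2) a.2) :=
            mul_le_mul_right (gw_mul_pw hb q a.2) _
        _ = _ := by ring
    · unfold hI
      rw [indicator_of_notMem h, zero_mul, mul_zero]
      exact zero_le
  refine (lintegral_mono h1).trans ?_
  rw [lintegral_const_mul' _ _ ENNReal.ofReal_ne_top]
  refine (mul_le_mul_right (lintegral_hits_le hε (half_pos hb) z (-1) (t + 1)) _).trans
    (le_of_eq ?_)
  unfold CH
  ring

/-- **The trees whose line hits a line.** -/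
theorem hit_mass (hε : 0 < ε) (hb : 0 < b) {K : ℝ≥0∞} {Θ : Measure CTree}
    (hK : LineLaw Φ ε b K (Θ.restrict (okT Φ ε t L))) (q : ℕ) (z : Ph) :
    ∫⁻ y in okT Φ ε t L, hI ε t (z, ln Φ ε y) * pw q (ln Φ ε y).2 ∂Θ ≤
      K * CH b t q * pw 1 z.2 := by
  have hm : Measurable fun a : Ph => hI ε t (z, a) * pw q a.2 :=
    (measurable_hI.comp measurable_prodMk_left).mul ((measurable_pw' q).comp measurable_snd)
  refine (hK _ hm).trans ?_
  rw [mul_assoc]
  exact mul_le_mul_right (hit_mass_line hε hb q z) _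

/-! ### The sum with independent pieces -/

/-- The sum over a marked node in each of two trees, with independent pieces. -/
def sumX (Φ : E3 → ℝ) (ε t : ℝ) (L : ℕ) (Θ : Measure CTree)
    (F : CTree → CTree → CTree → CTree → ℝ≥0∞) : ℝ≥0∞ :=
  ∑' i, ∑' i', ∫⁻ q : Mk CTree i, ∫⁻ q' : Mk CTree i',
    (okT Φ ε t L).indicator (fun _ => (okT Φ ε t L).indicator
      (fun _ => F (top q) (top q') (exh q) (exh q')) (top q')) (top q) ∂(mkM Θ i') ∂(mkM Θ i)

/-- The integral over the pairs of trees of the sum over the pairs of nodes. -/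
theorem lintegral_marks_marks_le [IsFiniteMeasure ν] (L' : ℕ)
    {F : (i i' : ℕ) → Mk CTree i → Mk CTree i' → ℝ≥0∞}
    (hF : ∀ i i', Measurable fun p : Mk CTree i × Mk CTree i' => F i i' p.1 p.2) :
    ∫⁻ x, ∫⁻ y, marks x (fun i a b r => marks y fun i' a' b' r' =>
        F i i' (a, b, r) (a', b', r')) ∂(tree ν L') ∂(tree ν L') ≤
      ∑' i, ∑' i', ∫⁻ q : Mk CTree i, ∫⁻ q' : Mk CTree i', F i i' q q'
        ∂(mkM (tree ν L') i') ∂(mkM (tree ν L') i) := by
  have h1 : ∀ i, Measurable fun p : Mk CTree i × CTree =>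
      marks p.2 fun i' a' b' r' => F i i' p.1 (a', b', r') := fun i => by
    have h2 := measurable_marks (X := Mk CTree i) (F := fun i' a' b' r' q =>
      F i i' q (a', b', r')) fun i' => (hF i i').comp (measurable_snd.prodMk measurable_fst)
    exact h2.comp measurable_swap
  refine (lintegral_marks_param_le (X := CTree) L' (F := fun i a b r y =>
    marks y fun i' a' b' r' => F i i' (a, b, r) (a', b', r')) h1).trans ?_
  refine ENNReal.tsum_le_tsum fun i => ?_
  have h3 : ∀ i', Measurable fun q : Mk CTree i =>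
      ∫⁻ q' : Mk CTree i', F i i' q q' ∂(mkM (tree ν L') i') := fun i' =>
    (hF i i').lintegral_prod_right'
  rw [← lintegral_tsum fun i' => (h3 i').aemeasurable]
  refine lintegral_mono fun q => ?_
  exact lintegral_marks_le' L' (F := fun i' a' b' r' => F i i' q (a', b', r'))
    fun i' => (hF i i').comp measurable_prodMk_left

/-- The weights of two marked nodes are densities. -/
theorem lintegral_mkM_mkM_withDensity (Θ : Measure CTree) [IsFiniteMeasure Θ]
    (h : SplitData Φ ε t L Al g) {i i' : ℕ} {F : Mk CTree i → Mk CTree i' → ℝ≥0∞}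
    (hF : Measurable fun p : Mk CTree i × Mk CTree i' => F p.1 p.2) :
    ∫⁻ q : Mk CTree i, ∫⁻ q' : Mk CTree i', GM Al g q * (GM Al g q' * F q q')
        ∂(mkM Θ i') ∂(mkM Θ i) =
      ∫⁻ q : Mk CTree i, ∫⁻ q' : Mk CTree i', F q q' ∂(mkM (typT Al g Θ) i')
        ∂(mkM (typT Al g Θ) i) := by
  have hfin := h.isFiniteMeasure Θ
  have m1 : ∀ q : Mk CTree i, Measurable fun q' : Mk CTree i' => F q q' := fun q =>
    hF.comp measurable_prodMk_left
  have e1 : ∀ q : Mk CTree i, ∫⁻ q' : Mk CTree i', F q q' ∂(mkM (typT Al g Θ) i') =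
      ∫⁻ q' : Mk CTree i', GM Al g q' * F q q' ∂(mkM Θ i') := fun q =>
    lintegral_mkM_withDensity Θ h.measurable_Gp h.Gp_le i' (m1 q)
  have m2 : Measurable fun p : Mk CTree i × Mk CTree i' => GM Al g p.2 * F p.1 p.2 :=
    ((h.measurable_GM i').comp measurable_snd).mul hF
  have m3 : Measurable fun q : Mk CTree i =>
      ∫⁻ q' : Mk CTree i', GM Al g q' * F q q' ∂(mkM Θ i') := m2.lintegral_prod_right'
  simp only [e1]
  refine Eq.trans ?_ (lintegral_mkM_withDensity Θ h.measurable_Gp h.Gp_le i m3).symm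
  refine lintegral_congr fun q => ?_
  have m4 : Measurable fun q' : Mk CTree i' => GM Al g q' * F q q' :=
    m2.comp measurable_prodMk_left
  rw [lintegral_const_mul _ m4]
  rfl

/-- The chi sum. -/
def chS (Al : Set CTree) (g : CTree → ℝ≥0∞) (T : CTree) : ℝ≥0∞ := msub T fun _ X _ => chi Al g X

theorem GM_le {i : ℕ} (h : SplitData Φ ε t L Al g) (q : Mk CTree i) : GM Al g q ≤ 1 := by
  unfold GM
  exact mul_le_one' (h.Gp_le _) (mul_le_one' (h.Gp_le _)
    (Finset.prod_le_one' fun j _ => h.Gp_le _))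

theorem prod_pt (h : SplitData Φ ε t L Al g) {H : (i i' : ℕ) → Mk CTree i → Mk CTree i' → ℝ≥0∞}
    {x y : CTree} (hx : x ∈ Al) (hy : y ∈ Al) :
    marks x (fun i a b r => marks y fun i' a' b' r' => H i i' (a, b, r) (a', b', r')) ≤
      marks x (fun i a b r => marks y fun i' a' b' r' => GM Al g (a, b, r) *
        (GM Al g (a', b', r') * (okT Φ ε t L).indicator (fun _ => (okT Φ ε t L).indicator
          (fun _ => H i i' (a, b, r) (a', b', r')) (top (a', b', r'))) (top (a, b, r)))) +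
      (L + 1 : ℕ) * ((chS Al g x + chS Al g y) *
        marks x (fun i a b r => marks y fun i' a' b' r' => H i i' (a, b, r) (a', b', r'))) := by
  rw [← mul_assoc, ← marks_mul, ← marks_add]
  refine marks_mono fun i a b r hr => ?_
  rw [← marks_mul, ← marks_add]
  refine marks_mono fun i' a' b' r' hr' => ?_
  have hx' := h.sub hx
  have hy' := h.sub hy
  have h1 := pieces_M (Al := Al) (L := L) (i := i) (q := (a, b, r)) h.g1
    (by change plug i (node a b) r ∈ Al; rw [hr]; exact hx)
    (by change (plug i (node a b) r).depth ≤ L; rw [hr]; exact hx'.2.2)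
  change 1 ≤ GM Al g (a, b, r) + (L + 1 : ℕ) *
    msub (plug i (node a b) r) (fun _ X _ => chi Al g X) at h1
  rw [hr] at h1
  have h2 := pieces_M (Al := Al) (L := L) (i := i') (q := (a', b', r')) h.g1
    (by change plug i' (node a' b') r' ∈ Al; rw [hr']; exact hy)
    (by change (plug i' (node a' b') r').depth ≤ L; rw [hr']; exact hy'.2.2)
  change 1 ≤ GM Al g (a', b', r') + (L + 1 : ℕ) *
    msub (plug i' (node a' b') r') (fun _ X _ => chi Al g X) at h2
  rw [hr'] at h2
  have e1 : top (a, b, r) = x := hr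
  have e2 : top (a', b', r') = y := hr'
  rw [e1, e2, indicator_of_mem hx', indicator_of_mem hy']
  set A : ℝ≥0∞ := GM Al g (a, b, r) with hA
  set B : ℝ≥0∞ := GM Al g (a', b', r') with hB
  set X : ℝ≥0∞ := H i i' (a, b, r) (a', b', r') with hX
  have h3 : (1 : ℝ≥0∞) ≤ A * B + (L + 1 : ℕ) * (chS Al g x + chS Al g y) := by
    calc (1 : ℝ≥0∞) ≤ A + (L + 1 : ℕ) * chS Al g x := h1
      _ = A * 1 + (L + 1 : ℕ) * chS Al g x := by rw [mul_one]
      _ ≤ A * (B + (L + 1 : ℕ) * chS Al g y) + (L + 1 : ℕ) * chS Al g x :=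
          add_le_add (mul_le_mul_right h2 _) le_rfl
      _ = A * B + (A * ((L + 1 : ℕ) * chS Al g y) + (L + 1 : ℕ) * chS Al g x) := by ring
      _ ≤ A * B + (1 * ((L + 1 : ℕ) * chS Al g y) + (L + 1 : ℕ) * chS Al g x) :=
          add_le_add le_rfl (add_le_add (mul_le_mul_left (GM_le h _) _) le_rfl)
      _ = _ := by ring
  calc X = 1 * X := (one_mul X).symm
    _ ≤ (A * B + (L + 1 : ℕ) * (chS Al g x + chS Al g y)) * X := mul_le_mul_left h3 _
    _ = _ := by ring

theorem measurable_marks_marks {F : (i i' : ℕ) → Mk CTree i → Mk CTree i' → ℝ≥0∞}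
    (hF : ∀ i i', Measurable fun p : Mk CTree i × Mk CTree i' => F i i' p.1 p.2) :
    Measurable fun p : CTree × CTree => marks p.1 fun i a b r => marks p.2 fun i' a' b' r' =>
      F i i' (a, b, r) (a', b', r') := by
  have h1 : ∀ i, Measurable fun p : Mk CTree i × CTree =>
      marks p.2 fun i' a' b' r' => F i i' p.1 (a', b', r') := fun i => by
    have h2 := measurable_marks (X := Mk CTree i) (F := fun i' a' b' r' q =>
      F i i' q (a', b', r')) fun i' => (hF i i').comp (measurable_snd.prodMk measurable_fst)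
    exact h2.comp measurable_swap
  exact measurable_marks (X := CTree) (F := fun i a b r y =>
    marks y fun i' a' b' r' => F i i' (a, b, r) (a', b', r')) h1

theorem marks_marks_le {Al : Set CTree} (hAl : ∀ T ∈ Al, T.depth ≤ L)
    {H : (i i' : ℕ) → Mk CTree i → Mk CTree i' → ℝ≥0∞} {x y : CTree} (hx : x ∈ Al) (hy : y ∈ Al)
    {c : ℝ≥0∞} (h : ∀ i i' (q : Mk CTree i) (q' : Mk CTree i'), top q = x → top q' = y →
      H i i' q q' ≤ c) :
    marks x (fun i a b r => marks y fun i' a' b' r' => H i i' (a, b, r) (a', b', r')) ≤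
      2 ^ L * (2 ^ L * c) := by
  have h2 : ∀ T ∈ Al, (2 : ℝ≥0∞) ^ T.depth ≤ 2 ^ L := fun T hT =>
    pow_le_pow_right₀ (by norm_num) (hAl T hT)
  refine (marks_le_const (c := 2 ^ L * c) fun i a b r hr => ?_).trans
    (mul_le_mul_left (h2 x hx) _)
  refine (marks_le_const (c := c) fun i' a' b' r' hr' => ?_).trans (mul_le_mul_left (h2 y hy) _)
  exact h i i' (a, b, r) (a', b', r') hr hr'

/-- The error on the first tree. -/
theorem prod_err [IsFiniteMeasure ν] (h : SplitData Φ ε t L Al g) (hb : 0 < b) {K : ℝ≥0∞}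
    {L' : ℕ} (hK : LineLaw Φ ε b K ((tree ν L').restrict (okT Φ ε t L))) {q₀ : ℕ} {c : ℝ≥0∞}
    {M : CTree → CTree → ℝ≥0∞}
    (hM : ∀ x ∈ Al, ∀ y ∈ Al, M x y ≤
      c * (hI ε t (ln Φ ε x, ln Φ ε y) * (pw q₀ (ln Φ ε x).2 * pw q₀ (ln Φ ε y).2)))
    {α : Measure Ph} (hα : ∀ F : Ph → ℝ≥0∞, Measurable F →
      ∫⁻ T in Al, (1 - g T) * F (ln Φ ε T) ∂(tree ν L') ≤ ∫⁻ z, F z ∂α) :
    ∫⁻ x in Al, ∫⁻ y in Al, chS Al g x * M x y ∂(tree ν L') ∂(tree ν L') ≤
      c * (K * CH b t q₀) * (errC b t K (q₀ + 1) L *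
        (∫⁻ T in bad1 Al, pw (q₀ + 1 + L) (ln Φ ε T).2 ∂(tree ν L') +
          ∫⁻ z, pw (q₀ + 1 + L) z.2 ∂α)) := by
  have hlm := measurable_ln h.pot h.eps.ne'
  have hpm : ∀ q, Measurable fun T : CTree => pw q (ln Φ ε T).2 := fun q =>
    (measurable_pw' q).comp (measurable_snd.comp hlm)
  have h1 : ∀ x ∈ Al, ∫⁻ y in Al, chS Al g x * M x y ∂(tree ν L') ≤
      chS Al g x * (c * (K * CH b t q₀) * pw (q₀ + 1) (ln Φ ε x).2) := by
    intro x hx
    have hm : Measurable fun y : CTree => hI ε t (ln Φ ε x, ln Φ ε y) * pw q₀ (ln Φ ε y).2 :=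
      (measurable_hI.comp (measurable_const.prodMk hlm)).mul (hpm q₀)
    calc ∫⁻ y in Al, chS Al g x * M x y ∂(tree ν L')
        ≤ ∫⁻ y in Al, chS Al g x * (c * pw q₀ (ln Φ ε x).2) *
          (hI ε t (ln Φ ε x, ln Φ ε y) * pw q₀ (ln Φ ε y).2) ∂(tree ν L') := by
          refine setLIntegral_mono' h.meas fun y hy => ?_
          calc chS Al g x * M x y ≤ chS Al g x * _ := mul_le_mul_right (hM x hx y hy) _
            _ = _ := by ring
      _ = chS Al g x * (c * pw q₀ (ln Φ ε x).2) *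
          ∫⁻ y in Al, hI ε t (ln Φ ε x, ln Φ ε y) * pw q₀ (ln Φ ε y).2 ∂(tree ν L') :=
          lintegral_const_mul _ hm
      _ ≤ chS Al g x * (c * pw q₀ (ln Φ ε x).2) * (K * CH b t q₀ * pw 1 (ln Φ ε x).2) :=
          mul_le_mul_right ((lintegral_mono_set h.sub).trans
            (hit_mass h.eps hb hK q₀ (ln Φ ε x))) _
      _ = _ := by rw [pw_add]; ring
  refine (setLIntegral_mono' h.meas h1).trans ?_
  exact error_le h hb hK (q₀ + 1) (Ψ := fun x => c * (K * CH b t q₀) *
    pw (q₀ + 1) (ln Φ ε x).2) (fun T _ => le_rfl) hα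

theorem measurable_chS (h : SplitData Φ ε t L Al g) : Measurable (chS Al g) :=
  measurable_msub' fun _ => h.measurable_chi.comp measurable_fst

/-- **Sums over the exhausts of two trees of `Al` whose lines hit each other.** -/
theorem prod_le [IsFiniteMeasure ν] (h : SplitData Φ ε t L Al g) (hb : 0 < b) {K : ℝ≥0∞}
    {L' : ℕ} (hK : LineLaw Φ ε b K ((tree ν L').restrict (okT Φ ε t L))) {q₀ : ℕ}
    {F : CTree → CTree → CTree → CTree → ℝ≥0∞}
    (hFm : Measurable fun p : (CTree × CTree) × CTree × CTree => F p.1.1 p.1.2 p.2.1 p.2.2)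
    (hF : ∀ x ∈ Al, ∀ y ∈ Al, ∀ e m, F x y e m ≤
      hI ε t (ln Φ ε x, ln Φ ε y) * (pw q₀ (ln Φ ε x).2 * pw q₀ (ln Φ ε y).2))
    {α : Measure Ph} (hα : ∀ F : Ph → ℝ≥0∞, Measurable F →
      ∫⁻ T in Al, (1 - g T) * F (ln Φ ε T) ∂(tree ν L') ≤ ∫⁻ z, F z ∂α) :
    ∫⁻ x in Al, ∫⁻ y in Al, exsum x (fun e => exsum y fun m => F x y e m)
        ∂(tree ν L') ∂(tree ν L') ≤
      sumX Φ ε t L (typT Al g (tree ν L')) F +
      (L + 1 : ℕ) * (2 * (2 ^ L * 2 ^ L * (K * CH b t q₀) * (errC b t K (q₀ + 1) L *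
        (∫⁻ T in bad1 Al, pw (q₀ + 1 + L) (ln Φ ε T).2 ∂(tree ν L') +
          ∫⁻ z, pw (q₀ + 1 + L) z.2 ∂α)))) := by
  set Θ := tree ν L' with hΘ
  have hfin := h.isFiniteMeasure Θ
  have hokm : MeasurableSet (okT Φ ε t L) := measurableSet_okT h.pot h.eps.ne' L
  set H : (i i' : ℕ) → Mk CTree i → Mk CTree i' → ℝ≥0∞ := fun i i' q q' =>
    F (top q) (top q') (exh q) (exh q') with hH
  set H' : (i i' : ℕ) → Mk CTree i → Mk CTree i' → ℝ≥0∞ := fun i i' q q' =>
    (okT Φ ε t L).indicator (fun _ => (okT Φ ε t L).indicator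
      (fun _ => H i i' q q') (top q')) (top q) with hH'
  have hHm : ∀ i i', Measurable fun p : Mk CTree i × Mk CTree i' => H i i' p.1 p.2 :=
    fun i i' => hFm.comp ((((measurable_top i).comp measurable_fst).prodMk
      ((measurable_top i').comp measurable_snd)).prodMk
      (((measurable_exh i).comp measurable_fst).prodMk ((measurable_exh i').comp measurable_snd)))
  have hHm' : ∀ i i', Measurable fun p : Mk CTree i × Mk CTree i' => H' i i' p.1 p.2 := by
    intro i i'
    have e1 : (fun p : Mk CTree i × Mk CTree i' => (okT Φ ε t L).indicator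
        (fun _ => H i i' p.1 p.2) (top p.2)) =
        ((fun p : Mk CTree i × Mk CTree i' => top p.2) ⁻¹' okT Φ ε t L).indicator
          fun p => H i i' p.1 p.2 :=
      funext fun p => indicator_pre (okT Φ ε t L) (fun p : Mk CTree i × Mk CTree i' => top p.2)
        (fun p => H i i' p.1 p.2) p
    have m1 : Measurable fun p : Mk CTree i × Mk CTree i' => (okT Φ ε t L).indicator
        (fun _ => H i i' p.1 p.2) (top p.2) := by
      rw [e1]
      exact (hHm i i').indicator (((measurable_top i').comp measurable_snd) hokm)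
    have e2 : (fun p : Mk CTree i × Mk CTree i' => H' i i' p.1 p.2) =
        ((fun p : Mk CTree i × Mk CTree i' => top p.1) ⁻¹' okT Φ ε t L).indicator
          fun p => (okT Φ ε t L).indicator (fun _ => H i i' p.1 p.2) (top p.2) :=
      funext fun p => indicator_pre (okT Φ ε t L) (fun p : Mk CTree i × Mk CTree i' => top p.1)
        (fun p => (okT Φ ε t L).indicator (fun _ => H i i' p.1 p.2) (top p.2)) p
    rw [e2]
    exact m1.indicator (((measurable_top i).comp measurable_fst) hokm)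
  set M : CTree → CTree → ℝ≥0∞ := fun x y => marks x fun i a b r => marks y fun i' a' b' r' =>
    H i i' (a, b, r) (a', b', r') with hMdef
  have hMm : Measurable fun p : CTree × CTree => M p.1 p.2 := measurable_marks_marks hHm
  set A : CTree → CTree → ℝ≥0∞ := fun x y => marks x fun i a b r => marks y fun i' a' b' r' =>
    GM Al g (a, b, r) * (GM Al g (a', b', r') * H' i i' (a, b, r) (a', b', r')) with hAdef
  have hG : ∀ i i', Measurable fun p : Mk CTree i × Mk CTree i' =>
      GM Al g p.1 * (GM Al g p.2 * H' i i' p.1 p.2) := fun i i' =>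
    ((h.measurable_GM i).comp measurable_fst).mul
      (((h.measurable_GM i').comp measurable_snd).mul (hHm' i i'))
  have hAm : Measurable fun p : CTree × CTree => A p.1 p.2 :=
    measurable_marks_marks (F := fun i i' q q' => GM Al g q * (GM Al g q' * H' i i' q q')) hG
  -- the bound of the marked sums
  have hMle : ∀ x ∈ Al, ∀ y ∈ Al, M x y ≤ 2 ^ L * 2 ^ L *
      (hI ε t (ln Φ ε x, ln Φ ε y) * (pw q₀ (ln Φ ε x).2 * pw q₀ (ln Φ ε y).2)) := by
    intro x hx y hy
    rw [mul_assoc]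
    refine marks_marks_le (Al := Al) (fun T hT => (h.sub hT).2.2) hx hy fun i i' q q' e1 e2 => ?_
    change F (top q) (top q') (exh q) (exh q') ≤ _
    rw [e1, e2]
    exact hF x hx y hy _ _
  have hMle' : ∀ x ∈ Al, ∀ y ∈ Al, M y x ≤ 2 ^ L * 2 ^ L *
      (hI ε t (ln Φ ε x, ln Φ ε y) * (pw q₀ (ln Φ ε x).2 * pw q₀ (ln Φ ε y).2)) := by
    intro x hx y hy
    refine (hMle y hy x hx).trans (le_of_eq ?_)
    rw [← hI_swap (ln Φ ε y, ln Φ ε x)]
    change _ * (hI ε t (ln Φ ε x, ln Φ ε y) * _) = _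
    ring
  set E : ℝ≥0∞ := 2 ^ L * 2 ^ L * (K * CH b t q₀) * (errC b t K (q₀ + 1) L *
        (∫⁻ T in bad1 Al, pw (q₀ + 1 + L) (ln Φ ε T).2 ∂Θ +
          ∫⁻ z, pw (q₀ + 1 + L) z.2 ∂α)) with hE
  have hc := measurable_chS h
  have E1 : ∫⁻ x in Al, ∫⁻ y in Al, chS Al g x * M x y ∂Θ ∂Θ ≤ E :=
    prod_err h hb hK hMle hα
  have E2 : ∫⁻ x in Al, ∫⁻ y in Al, chS Al g y * M x y ∂Θ ∂Θ ≤ E := by
    have hm : Measurable fun p : CTree × CTree => chS Al g p.2 * M p.1 p.2 :=
      (hc.comp measurable_snd).mul hMm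
    have e := lintegral_lintegral_swap (μ := Θ.restrict Al) (ν := Θ.restrict Al)
      (f := fun x y => chS Al g y * M x y) hm.aemeasurable
    rw [e]
    exact prod_err h hb hK (M := fun x y => M y x) hMle' hα
  have m1 : ∀ x, Measurable fun y => A x y := fun x => hAm.comp measurable_prodMk_left
  have m2 : Measurable fun x => ∫⁻ y in Al, A x y ∂Θ := hAm.lintegral_prod_right'
  have hCm : Measurable fun p : CTree × CTree => chS Al g p.1 * M p.1 p.2 :=
    (hc.comp measurable_fst).mul hMm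
  have m3 : ∀ x, Measurable fun y => chS Al g x * M x y := fun x =>
    hCm.comp measurable_prodMk_left
  have m4 : Measurable fun x => ∫⁻ y in Al, chS Al g x * M x y ∂Θ := hCm.lintegral_prod_right'
  have hmain : ∫⁻ x in Al, ∫⁻ y in Al, A x y ∂Θ ∂Θ ≤ sumX Φ ε t L (typT Al g Θ) F := by
    refine (setLIntegral_le_lintegral _ _).trans ((lintegral_mono fun x =>
      setLIntegral_le_lintegral Al (fun y => A x y)).trans ?_)
    refine (lintegral_marks_marks_le L' (F := fun i i' q q' =>
      GM Al g q * (GM Al g q' * H' i i' q q')) hG).trans (le_of_eq ?_)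
    unfold sumX
    refine tsum_congr fun i => tsum_congr fun i' => ?_
    exact lintegral_mkM_mkM_withDensity Θ h (hHm' i i')
  calc ∫⁻ x in Al, ∫⁻ y in Al, exsum x (fun e => exsum y fun m => F x y e m) ∂Θ ∂Θ
      ≤ ∫⁻ x in Al, ∫⁻ y in Al, (A x y + (L + 1 : ℕ) *
          (chS Al g x * M x y + chS Al g y * M x y)) ∂Θ ∂Θ := by
        refine setLIntegral_mono' h.meas fun x hx => setLIntegral_mono' h.meas fun y hy => ?_
        have h1 : exsum x (fun e => exsum y fun m => F x y e m) ≤ M x y := by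
          refine (exsum_le _).trans (marks_mono fun i a b r hr => ?_)
          refine (exsum_le _).trans (marks_mono fun i' a' b' r' hr' => le_of_eq ?_)
          change F x y (node b a) (node b' a') =
            F (plug i (node a b) r) (plug i' (node a' b') r') (node b a) (node b' a')
          rw [hr, hr']
        refine h1.trans ((prod_pt h hx hy).trans (le_of_eq ?_))
        rw [← add_mul]
    _ = ∫⁻ x in Al, ∫⁻ y in Al, A x y ∂Θ ∂Θ + (L + 1 : ℕ) *
          (∫⁻ x in Al, ∫⁻ y in Al, chS Al g x * M x y ∂Θ ∂Θ +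
            ∫⁻ x in Al, ∫⁻ y in Al, chS Al g y * M x y ∂Θ ∂Θ) := by
        have e1 : ∀ x, ∫⁻ y in Al, (A x y + (L + 1 : ℕ) *
            (chS Al g x * M x y + chS Al g y * M x y)) ∂Θ =
            ∫⁻ y in Al, A x y ∂Θ + (L + 1 : ℕ) * (∫⁻ y in Al, chS Al g x * M x y ∂Θ +
              ∫⁻ y in Al, chS Al g y * M x y ∂Θ) := fun x => by
          rw [lintegral_add_left (m1 x), lintegral_const_mul' _ _ (ENNReal.natCast_ne_top _),
            lintegral_add_left (m3 x)]
        simp only [e1]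
        rw [lintegral_add_left m2, lintegral_const_mul' _ _ (ENNReal.natCast_ne_top _),
          lintegral_add_left m4]
    _ ≤ _ := by
        refine add_le_add hmain (mul_le_mul_right ?_ _)
        rw [two_mul]
        exact add_le_add E1 E2

end Vale.Agent.P119.M
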