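import Vale.Agent.P119.PB.Top8
import Vale.Agent.P119.PB.ContDirP
import Vale.Agent.P119.PB.PairsX
import Vale.Agent.P119.PB.Exh4
import Vale.Agent.P119.PB.SE

/-!
# P119, block PROB, P8/P9: the second events of the colliding pairs, split (`helper776`)

* `SE9P_le`: `SE9P` is bounded by the pairs which are not both alive (`BadP`), and by `P9a` (both
  exhausts in one tree), `P9b` (one exhaust in each tree), `P9c` (one exhaust and the pair), which
  are integrals over two alive trees whose lines hit each other.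
-/

open MeasureTheory Filter Topology Set
open scoped ENNReal NNReal

noncomputable section

namespace Vale.Agent.P119.PB

open M CTree KU FB RB AU FL EX

variable {Φ : E3 → ℝ} {ε : ℝ} {L : ℕ} {hΦ : IsPotential Φ} {hε : 0 < ε} {f₀ : Ph → ℝ}
  {κ η t w : ℝ} {V : Finset Src} {x y : CTree}

/-! ### The three sums -/

open Classical in
/-- Both exhausts in `x`. -/
def aE (Φ : E3 → ℝ) (ε : ℝ) (Ψ : Src → Src → ℝ≥0∞) (x : CTree) : ℝ≥0∞ :=
  exsum x fun e => exsum x fun m => if e = m then 0 else Ψ (rsrc Φ ε e) (rsrc Φ ε m)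

/-- One exhaust in each of the two trees, in both orders. -/
def bE (Φ : E3 → ℝ) (ε : ℝ) (Ψ : Src → Src → ℝ≥0∞) (x y : CTree) : ℝ≥0∞ :=
  exsum x fun e => exsum y fun m =>
    Ψ (rsrc Φ ε e) (rsrc Φ ε m) + Ψ (rsrc Φ ε m) (rsrc Φ ε e)

/-- One exhaust of `x`, and the pair. -/
def cE (Φ : E3 → ℝ) (ε : ℝ) (P : Src → Src → Ph → ℝ≥0∞) (x y : CTree) : ℝ≥0∞ :=
  exsum x fun e => P (rsrc Φ ε e) (rsrc Φ ε x) (ln Φ ε y)

theorem dirP_swap (hΦ : IsPotential Φ) (hε : 0 < ε) {U : Finset Src} {h : ℝ}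
    (hD : DirP L hΦ hε U h x y) : DirP L hΦ hε U h y x := by
  obtain ⟨r, h1, h2, h3, b, h4, h5⟩ := hD
  refine ⟨r, h1, ?_, ?_, b, h4, h5.symm⟩
  · rw [sig_swap]; exact h2
  · rw [ext_swap hΦ]; exact h3

/-- A direct contact is an event `PairC`. -/
theorem pairC_of_dirP' (hη : 0 < η) (ht : 0 ≤ t) (hw : t ≤ w) {U : Finset Src}
    (hk : ok Φ ε (node x y)) (hD : DirP L hΦ hε U (hz L hΦ hε η t U) x y) :
    PairC L hΦ hε η t w U (rsrc Φ ε x) (ln Φ ε y) := by
  obtain ⟨r, hr, hsr, hrx, b, hb, hh⟩ := hD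
  obtain ⟨h1, h2, -, h4, h5, h6, h7⟩ := hk
  refine ⟨h4, h6, r, hsr.le, le_min hr ?_, ?_⟩
  · have h8 := hr.trans (hz_le hη ht)
    have h9 : 0 ≤ ext Φ ε x := ext_nonneg hΦ hε h1
    change r ≤ ext Φ ε x + w
    linarith
  · rcases hh with hh | hh
    · exact Or.inl (CC_of_hits hb hh)
    · right
      have := CC_of_hits hb hh
      rwa [st_swap hΦ x y r] at this

theorem one_le_aE {Ψ : Src → Src → ℝ≥0∞} {e m : CTree} (he : e ∈ TL.exs x) (hm : m ∈ TL.exs x)
    (hne : m ≠ e) (h : 1 ≤ Ψ (rsrc Φ ε e) (rsrc Φ ε m)) : 1 ≤ aE Φ ε Ψ x := by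
  classical
  unfold aE
  refine le_trans (le_trans ?_ (le_exsum hm _)) (le_exsum he _)
  rw [if_neg (Ne.symm hne)]
  exact h

theorem one_le_bE {Ψ : Src → Src → ℝ≥0∞} {e m : CTree} (he : e ∈ TL.exs x) (hm : m ∈ TL.exs y)
    (h : 1 ≤ Ψ (rsrc Φ ε e) (rsrc Φ ε m) ∨ 1 ≤ Ψ (rsrc Φ ε m) (rsrc Φ ε e)) :
    1 ≤ bE Φ ε Ψ x y := by
  have h1 : 1 ≤ Ψ (rsrc Φ ε e) (rsrc Φ ε m) + Ψ (rsrc Φ ε m) (rsrc Φ ε e) :=
    h.elim (fun h => le_add_right h) fun h => le_add_left h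
  exact (h1.trans (le_exsum hm fun m =>
    Ψ (rsrc Φ ε e) (rsrc Φ ε m) + Ψ (rsrc Φ ε m) (rsrc Φ ε e))).trans
    (le_exsum he fun e => exsum y fun m =>
      Ψ (rsrc Φ ε e) (rsrc Φ ε m) + Ψ (rsrc Φ ε m) (rsrc Φ ε e))

theorem one_le_cE {P : Src → Src → Ph → ℝ≥0∞} {e : CTree} (he : e ∈ TL.exs x)
    (h : 1 ≤ P (rsrc Φ ε e) (rsrc Φ ε x) (ln Φ ε y)) : 1 ≤ cE Φ ε P x y :=
  h.trans (le_exsum he fun e => P (rsrc Φ ε e) (rsrc Φ ε x) (ln Φ ε y))

/-- **The second events of a colliding pair.** -/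
theorem TwoP_le (hη : 0 < η) (ht : 0 ≤ t) (hw : t ≤ w) (hco : coT Φ ε L t V x y) :
    ind (TwoP L hΦ hε η t V x y) ≤ bE Φ ε (gI L hΦ hε η t V) x y +
      ((aE Φ ε (gI L hΦ hε η t V) x + cE Φ ε (pI L hΦ hε η t w V) x y) +
      (aE Φ ε (gI L hΦ hε η t V) y + cE Φ ε (pI L hΦ hε η t w V) y x)) := by
  classical
  have hd : x.depth ≤ L ∧ y.depth ≤ L := by
    have h : max x.depth y.depth + 1 ≤ L := hco.depth
    exact ⟨(le_max_left x.depth y.depth).trans (by omega),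
      (le_max_right x.depth y.depth).trans (by omega)⟩
  by_cases h : TwoP L hΦ hε η t V x y
  swap
  · rw [ind_of_not h]; exact zero_le
  rw [ind_of h]
  obtain ⟨e, he, hE⟩ := h
  have hc : ∀ {x y : CTree}, ok Φ ε (node x y) → e ∈ TL.exs x →
      (RB.Y Φ ε L hΦ hε).Touch V (insert (rsrc Φ ε e) V)
        (hz L hΦ hε η t (insert (rsrc Φ ε e) V)) →
      DirP L hΦ hε (insert (rsrc Φ ε e) V) (hz L hΦ hε η t (insert (rsrc Φ ε e) V)) x y →
      1 ≤ cE Φ ε (pI L hΦ hε η t w V) x y := by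
    intro x y hk he hT hD
    refine one_le_cE he ?_
    unfold pI
    exact (ind_of (p := _ ∧ _) ⟨hT, pairC_of_dirP' hη ht hw hk hD⟩).ge
  have hg : ∀ {x : CTree}, x.depth ≤ L → ∀ {m : CTree}, m ∈ TL.exs x →
      GG L hΦ hε η t V (rsrc Φ ε e) (rsrc Φ ε m) →
      1 ≤ gI L hΦ hε η t V (rsrc Φ ε e) (rsrc Φ ε m) := fun hx m hm hG =>
    one_le_gI ((exs_depth_le hm).trans hx) hG
  rcases he with he | he
  · rcases hE with ⟨m, hm, hne, hG⟩ | ⟨hT, hD⟩
    · rcases hm with hm | hm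
      · exact le_add_left (le_add_right (le_add_right (one_le_aE he hm hne (hg hd.1 hm hG))))
      · exact le_add_right (one_le_bE he hm (Or.inl (hg hd.2 hm hG)))
    · exact le_add_left (le_add_right (le_add_left (hc hco.ok he hT hD)))
  · rcases hE with ⟨m, hm, hne, hG⟩ | ⟨hT, hD⟩
    · rcases hm with hm | hm
      · exact le_add_right (one_le_bE hm he (Or.inr (hg hd.1 hm hG)))
      · exact le_add_left (le_add_left (le_add_right (one_le_aE he hm hne (hg hd.2 hm hG))))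
    · exact le_add_left (le_add_left (le_add_left
        (hc (ok_swap hΦ hco.ok) he hT (dirP_swap hΦ hε hD))))

/-! ### Measurability -/

section meas

variable {X : Type} [MeasurableSpace X] {W : X → Finset Src} {f g : X → CTree}

open Classical in
theorem measurable_aE (hW : MM.RS fun q => (W q : Set Src)) (hf : Measurable f) :
    Measurable fun q => aE Φ ε (gI L hΦ hε η t (W q)) (f q) := by
  have hW1 : MM.RS fun p : X × CTree => (W p.1 : Set Src) := hW.comp measurable_fst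
  have hf1 : Measurable fun p : X × CTree => f p.1 := hf.comp measurable_fst
  have hr : Measurable fun p : X × CTree => rsrc Φ ε p.2 := RM.meas_rsrc hΦ hε measurable_snd
  unfold aE
  refine RM.measurable_exsum' hf (F := fun q e => exsum (f q) fun m => if e = m then 0 else
    gI L hΦ hε η t (W q) (rsrc Φ ε e) (rsrc Φ ε m)) ?_
  refine RM.measurable_exsum' (X := X × CTree) hf1 (F := fun p m => if p.2 = m then 0 else
    gI L hΦ hε η t (W p.1) (rsrc Φ ε p.2) (rsrc Φ ε m)) ?_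
  refine Measurable.ite (measurableSet_eq_fun measurable_fst.snd measurable_snd)
    measurable_const ?_
  exact measurable_gI (hW1.comp measurable_fst) measurable_const measurable_const
    (hr.comp measurable_fst) (RM.meas_rsrc hΦ hε measurable_snd)

theorem measurable_bE (hW : MM.RS fun q => (W q : Set Src)) (hf : Measurable f)
    (hg : Measurable g) : Measurable fun q => bE Φ ε (gI L hΦ hε η t (W q)) (f q) (g q) := by
  have hW1 : MM.RS fun p : X × CTree => (W p.1 : Set Src) := hW.comp measurable_fst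
  have hg1 : Measurable fun p : X × CTree => g p.1 := hg.comp measurable_fst
  have hr : Measurable fun p : X × CTree => rsrc Φ ε p.2 := RM.meas_rsrc hΦ hε measurable_snd
  unfold bE
  refine RM.measurable_exsum' hf (F := fun q e => exsum (g q) fun m =>
    gI L hΦ hε η t (W q) (rsrc Φ ε e) (rsrc Φ ε m) +
      gI L hΦ hε η t (W q) (rsrc Φ ε m) (rsrc Φ ε e)) ?_
  refine RM.measurable_exsum' (X := X × CTree) hg1 (F := fun p m =>
    gI L hΦ hε η t (W p.1) (rsrc Φ ε p.2) (rsrc Φ ε m) +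
      gI L hΦ hε η t (W p.1) (rsrc Φ ε m) (rsrc Φ ε p.2)) ?_
  exact (measurable_gI (hW1.comp measurable_fst) measurable_const measurable_const
    (hr.comp measurable_fst) (RM.meas_rsrc hΦ hε measurable_snd)).add
    (measurable_gI (hW1.comp measurable_fst) measurable_const measurable_const
    (RM.meas_rsrc hΦ hε measurable_snd) (hr.comp measurable_fst))

theorem measurable_cE (hW : MM.RS fun q => (W q : Set Src)) (hf : Measurable f)
    (hg : Measurable g) : Measurable fun q => cE Φ ε (pI L hΦ hε η t w (W q)) (f q) (g q) := by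
  have hW1 : MM.RS fun p : X × CTree => (W p.1 : Set Src) := hW.comp measurable_fst
  have hf1 : Measurable fun p : X × CTree => f p.1 := hf.comp measurable_fst
  have hg1 : Measurable fun p : X × CTree => g p.1 := hg.comp measurable_fst
  have hln := M.measurable_ln hΦ hε.ne'
  have hr : Measurable fun p : X × CTree => rsrc Φ ε p.2 := RM.meas_rsrc hΦ hε measurable_snd
  unfold cE
  refine RM.measurable_exsum' hf (F := fun q e =>
    pI L hΦ hε η t w (W q) (rsrc Φ ε e) (rsrc Φ ε (f q)) (ln Φ ε (g q))) ?_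
  exact measurable_pI hW1 measurable_const measurable_const measurable_const hr
    (RM.meas_rsrc hΦ hε hf1) (hln.comp hg1)

end meas

/-! ### From `XP` to integrals over two alive trees -/

/-- **The weight of a colliding pair.** -/
def wC (Φ : E3 → ℝ) (ε : ℝ) (L : ℕ) (t : ℝ) (x y : CTree) : ℝ≥0∞ :=
  wqP Φ ε x y * ind (ok Φ ε (node x y) ∧ (node x y).depth ≤ L ∧ sig Φ ε (node x y) ≤ t)

theorem wqP_swap : wqP Φ ε y x = wqP Φ ε x y := by
  unfold wqP
  rw [add_comm (‖(ln Φ ε y).2‖ ^ 2)]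

theorem wC_swap (hΦ : IsPotential Φ) : wC Φ ε L t y x = wC Φ ε L t x y := by
  have h : ∀ {x y : CTree}, (ok Φ ε (node x y) ∧ (node x y).depth ≤ L ∧
      sig Φ ε (node x y) ≤ t) → (ok Φ ε (node y x) ∧ (node y x).depth ≤ L ∧
      sig Φ ε (node y x) ≤ t) := by
    intro x y h
    refine ⟨ok_swap hΦ h.1, ?_, ?_⟩
    · have h1 : max x.depth y.depth + 1 ≤ L := h.2.1
      change max y.depth x.depth + 1 ≤ L
      rwa [max_comm]
    · rw [sig_swap]; exact h.2.2
  unfold wC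
  rw [wqP_swap]
  exact congrArg _ (le_antisymm (ind_mono h) (ind_mono h))

/-- The weight is at most the weight of 298's theorems. -/
theorem wC_le (hΦ : IsPotential Φ) (hε : 0 < ε) : wC Φ ε L t x y ≤
    M.hI ε t (ln Φ ε x, ln Φ ε y) * (Cap.pw 2 (ln Φ ε x).2 * Cap.pw 2 (ln Φ ε y).2) := by
  unfold wC
  by_cases h : ok Φ ε (node x y) ∧ (node x y).depth ≤ L ∧ sig Φ ε (node x y) ≤ t
  swap
  · rw [ind_of_not h, mul_zero]; exact zero_le
  obtain ⟨⟨h1, h2, -, h4, h5, h6, h7⟩, -, h8⟩ := id h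
  have h0 : 0 < hitT ε (ln Φ ε x, ln Φ ε y) := (ext_nonneg hΦ hε h1).trans_lt h6
  have hI1 : M.hI ε t (ln Φ ε x, ln Φ ε y) = 1 := by
    unfold M.hI
    exact indicator_of_mem (show (ln Φ ε x, ln Φ ε y) ∈ M.hit2 ε t from ⟨h4, h0.le, h8⟩) _
  rw [ind_of h, mul_one, hI1, one_mul]
  have h9 : ∀ v : E3, ENNReal.ofReal (1 + ‖v‖ ^ 2) ≤ Cap.pw 2 v := by
    intro v
    unfold Cap.pw
    refine ENNReal.ofReal_le_ofReal ?_
    nlinarith [norm_nonneg v]
  exact wqP_le.trans (mul_le_mul' (h9 _) (h9 _))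

theorem wC_le_wqP : wC Φ ε L t x y ≤ wqP Φ ε x y :=
  (mul_le_mul_right (ind_le_one _) _).trans (le_of_eq (mul_one _))

theorem wC_mono {s T : ℝ} (hst : s ≤ T) : wC Φ ε L s x y ≤ wC Φ ε L T x y :=
  mul_le_mul_right (ind_mono fun h => ⟨h.1, h.2.1, h.2.2.trans hst⟩) _

theorem measurable_wC (hΦ : IsPotential Φ) (hε : 0 < ε) {X : Type*} [MeasurableSpace X]
    {x y : X → CTree} (hx : Measurable x) (hy : Measurable y) :
    Measurable fun q => wC Φ ε L t (x q) (y q) := by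
  have hT : Measurable fun q => node (x q) (y q) := measurable_node.comp (hx.prodMk hy)
  have hs : Measurable fun q => sig Φ ε (node (x q) (y q)) :=
    (measurable_sig hΦ hε.ne').comp hT
  have h1 : MeasurableSet {q | M.CTree.ok Φ ε (node (x q) (y q))} := hT (measurableSet_ok hΦ hε.ne')
  have h2 : MeasurableSet {q | (node (x q) (y q)).depth ≤ L} :=
    (measurable_depth.comp hT) (measurableSet_Iic (a := L))
  have h3 : MeasurableSet {q | sig Φ ε (node (x q) (y q)) ≤ t} :=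
    measurableSet_le hs measurable_const
  exact (measurable_wqP hΦ hε hx hy).mul (measurable_ind (h1.inter (h2.inter h3)))

variable (Φ ε L) in
/-- The integral over two alive trees which collide. -/
def X2 (f₀ : Ph → ℝ) (t : ℝ) (H : Finset Src → CTree → CTree → ℝ≥0∞) : ℝ≥0∞ :=
  ∫⁻ c, ∫⁻ x in Als Φ ε L t (wS (GC.pts c)), ∫⁻ y in Als Φ ε L t (wS (GC.pts c)),
    wC Φ ε L t x y * H (wS (GC.pts c)) x y
      ∂(tree (GC.inten f₀ ε) L) ∂(tree (GC.inten f₀ ε) L) ∂(GC.PP f₀ ε)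

theorem X2_mono {H H' : Finset Src → CTree → CTree → ℝ≥0∞} (h : ∀ U x y, H U x y ≤ H' U x y) :
    X2 Φ ε L f₀ t H ≤ X2 Φ ε L f₀ t H' :=
  lintegral_mono fun _ => lintegral_mono fun _ => lintegral_mono fun _ =>
    mul_le_mul_right (h _ _ _) _

theorem measurable_X2i (hΦ : IsPotential Φ) (hε : 0 < ε)
    {H : Finset Src → CTree → CTree → ℝ≥0∞}
    (hH : Measurable fun p : GC.Conf Ph × CTree × CTree => H (wS (GC.pts p.1)) p.2.1 p.2.2) :
    Measurable fun p : GC.Conf Ph × CTree × CTree => wC Φ ε L t p.2.1 p.2.2 *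
      H (wS (GC.pts p.1)) p.2.1 p.2.2 :=
  (measurable_wC hΦ hε (measurable_fst.comp measurable_snd)
    (measurable_snd.comp measurable_snd)).mul hH

/-! #### Three integrals -/

section abstract_

variable {A B : Type} [MeasurableSpace A] [MeasurableSpace B] {μ : Measure B} {π : Measure A}
  [SFinite μ] {F F' : A → B → B → ℝ≥0∞}

theorem meas_inner (h : Measurable fun p : A × B × B => F p.1 p.2.1 p.2.2) (a : A) (x : B) :
    Measurable fun y => F a x y :=
  h.comp (measurable_const.prodMk (measurable_const.prodMk measurable_id))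

theorem meas_pair (h : Measurable fun p : A × B × B => F p.1 p.2.1 p.2.2) (a : A) :
    Measurable fun q : B × B => F a q.1 q.2 := h.comp (measurable_const.prodMk measurable_id)

theorem meas_mid (h : Measurable fun p : A × B × B => F p.1 p.2.1 p.2.2) (a : A) :
    Measurable fun x => ∫⁻ y, F a x y ∂μ := (meas_pair h a).lintegral_prod_right'

theorem meas_outer (h : Measurable fun p : A × B × B => F p.1 p.2.1 p.2.2) :
    Measurable fun a => ∫⁻ x, ∫⁻ y, F a x y ∂μ ∂μ := by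
  have h2 : Measurable fun p : (A × B) × B => F p.1.1 p.1.2 p.2 :=
    h.comp (measurable_fst.fst.prodMk (measurable_fst.snd.prodMk measurable_snd))
  have h3 : Measurable fun p : A × B => ∫⁻ y, F p.1 p.2 y ∂μ := h2.lintegral_prod_right'
  exact h3.lintegral_prod_right'

theorem lintegral₃_add (h : Measurable fun p : A × B × B => F p.1 p.2.1 p.2.2) :
    ∫⁻ a, ∫⁻ x, ∫⁻ y, (F a x y + F' a x y) ∂μ ∂μ ∂π =
      ∫⁻ a, ∫⁻ x, ∫⁻ y, F a x y ∂μ ∂μ ∂π + ∫⁻ a, ∫⁻ x, ∫⁻ y, F' a x y ∂μ ∂μ ∂π := by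
  rw [← lintegral_add_left (meas_outer h)]
  refine lintegral_congr fun a => ?_
  rw [← lintegral_add_left (meas_mid h a)]
  refine lintegral_congr fun x => ?_
  exact lintegral_add_left (meas_inner h a x) _

theorem lintegral₃_swap (h : Measurable fun p : A × B × B => F p.1 p.2.1 p.2.2) :
    ∫⁻ a, ∫⁻ x, ∫⁻ y, F a y x ∂μ ∂μ ∂π = ∫⁻ a, ∫⁻ x, ∫⁻ y, F a x y ∂μ ∂μ ∂π := by
  refine lintegral_congr fun a => ?_
  exact (lintegral_lintegral_swap (f := fun x y => F a x y) (meas_pair h a).aemeasurable).symm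

end abstract_

/-- The function on all the pairs of trees. -/
def alG (Φ : E3 → ℝ) (ε : ℝ) (L : ℕ) (t : ℝ) (G : Finset Src → CTree → CTree → ℝ≥0∞)
    (c : GC.Conf Ph) (x y : CTree) : ℝ≥0∞ :=
  ind (alT Φ ε L t (wS (GC.pts c)) x) * (ind (alT Φ ε L t (wS (GC.pts c)) y) *
    G (wS (GC.pts c)) x y)

theorem measurable_alG (hΦ : IsPotential Φ) (hε : 0 < ε)
    {G : Finset Src → CTree → CTree → ℝ≥0∞}
    (hG : Measurable fun p : GC.Conf Ph × CTree × CTree => G (wS (GC.pts p.1)) p.2.1 p.2.2) :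
    Measurable fun p : GC.Conf Ph × CTree × CTree => alG Φ ε L t G p.1 p.2.1 p.2.2 := by
  have hc : MM.RS fun p : GC.Conf Ph × CTree × CTree => (wS (GC.pts p.1) : Set Src) :=
    RM.rs_conf.comp measurable_fst
  have h1 : Measurable fun p : GC.Conf Ph × CTree × CTree =>
      ind (alT Φ ε L t (wS (GC.pts p.1)) p.2.1) :=
    measurable_ind (measurableSet_alT hΦ hε hc (measurable_fst.comp measurable_snd)
      measurable_const)
  have h2 : Measurable fun p : GC.Conf Ph × CTree × CTree =>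
      ind (alT Φ ε L t (wS (GC.pts p.1)) p.2.2) :=
    measurable_ind (measurableSet_alT hΦ hε hc (measurable_snd.comp measurable_snd)
      measurable_const)
  exact h1.mul (h2.mul hG)

theorem lintegral_Als_Als (hΦ : IsPotential Φ) (hε : 0 < ε)
    (c : GC.Conf Ph) (G : Finset Src → CTree → CTree → ℝ≥0∞) :
    ∫⁻ x in Als Φ ε L t (wS (GC.pts c)), ∫⁻ y in Als Φ ε L t (wS (GC.pts c)),
      G (wS (GC.pts c)) x y ∂(tree (GC.inten f₀ ε) L) ∂(tree (GC.inten f₀ ε) L) =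
    ∫⁻ x, ∫⁻ y, alG Φ ε L t G c x y
      ∂(tree (GC.inten f₀ ε) L) ∂(tree (GC.inten f₀ ε) L) := by
  unfold alG
  rw [← lintegral_ind_Als hΦ hε]
  refine lintegral_congr fun x => ?_
  rw [← lintegral_ind_Als hΦ hε, ← lintegral_const_mul' _ _
    ((ind_le_one _).trans_lt ENNReal.one_lt_top).ne]

/-- The integrand of `X2`. -/
def wH (Φ : E3 → ℝ) (ε : ℝ) (L : ℕ) (t : ℝ) (H : Finset Src → CTree → CTree → ℝ≥0∞)
    (U : Finset Src) (x y : CTree) : ℝ≥0∞ := wC Φ ε L t x y * H U x y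

theorem X2_eq (hΦ : IsPotential Φ) (hε : 0 < ε) (H : Finset Src → CTree → CTree → ℝ≥0∞) :
    X2 Φ ε L f₀ t H = ∫⁻ c, ∫⁻ x, ∫⁻ y, alG Φ ε L t (wH Φ ε L t H) c x y
      ∂(tree (GC.inten f₀ ε) L) ∂(tree (GC.inten f₀ ε) L) ∂(GC.PP f₀ ε) := by
  unfold X2
  exact lintegral_congr fun c => lintegral_Als_Als hΦ hε c (wH Φ ε L t H)

theorem X2_add (hΦ : IsPotential Φ) (hε : 0 < ε) (h₀ : GoodDatum f₀ κ)
    {H H' : Finset Src → CTree → CTree → ℝ≥0∞}
    (hH : Measurable fun p : GC.Conf Ph × CTree × CTree => H (wS (GC.pts p.1)) p.2.1 p.2.2) :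
    X2 Φ ε L f₀ t (fun U x y => H U x y + H' U x y) =
      X2 Φ ε L f₀ t H + X2 Φ ε L f₀ t H' := by
  have hfin := GC.isFiniteMeasure_inten (ε := ε) h₀
  rw [X2_eq hΦ hε, X2_eq hΦ hε, X2_eq hΦ hε, ← lintegral₃_add (measurable_alG hΦ hε
    (G := wH Φ ε L t H) (measurable_X2i hΦ hε hH))]
  refine lintegral_congr fun c => lintegral_congr fun x => lintegral_congr fun y => ?_
  unfold alG wH
  ring

/-- The two trees can be exchanged. -/
theorem X2_swap (hΦ : IsPotential Φ) (hε : 0 < ε) (h₀ : GoodDatum f₀ κ)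
    {H : Finset Src → CTree → CTree → ℝ≥0∞}
    (hH : Measurable fun p : GC.Conf Ph × CTree × CTree => H (wS (GC.pts p.1)) p.2.1 p.2.2) :
    X2 Φ ε L f₀ t (fun U x y => H U y x) = X2 Φ ε L f₀ t H := by
  have hfin := GC.isFiniteMeasure_inten (ε := ε) h₀
  rw [X2_eq hΦ hε, X2_eq hΦ hε, ← lintegral₃_swap (measurable_alG hΦ hε
    (G := wH Φ ε L t H) (measurable_X2i hΦ hε hH))]
  refine lintegral_congr fun c => lintegral_congr fun x => lintegral_congr fun y => ?_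
  unfold alG wH
  rw [wC_swap hΦ (x := y) (y := x)]
  ring

/-- **From `XP` to two alive trees.** -/
theorem XP_le_X2 (hΦ : IsPotential Φ) (hε : 0 < ε) (h₀ : GoodDatum f₀ κ)
    {H H' : Finset Src → CTree → CTree → ℝ≥0∞}
    (hH : Measurable fun p : GC.Conf Ph × CTree × CTree => H' (wS (GC.pts p.1)) p.2.1 p.2.2)
    (h : ∀ U x y, coT Φ ε L t U x y → H U x y ≤ H' U x y) :
    XP Φ ε L f₀ t (fun U x y => wqP Φ ε x y *
      (ind (x ∈ Als Φ ε L t U ∧ y ∈ Als Φ ε L t U) * H U x y)) ≤ X2 Φ ε L f₀ t H' := by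
  classical
  have hfin := GC.isFiniteMeasure_inten (ε := ε) h₀
  rw [X2_eq hΦ hε]
  unfold XP
  refine lintegral_mono fun c => ?_
  have hGm : Measurable fun q : CTree × CTree => alG Φ ε L t (wH Φ ε L t H') c q.1 q.2 :=
    meas_pair (measurable_alG hΦ hε (G := wH Φ ε L t H') (measurable_X2i hΦ hε hH)) c
  have h1 : ∫⁻ T, onN (fun x y => ind (coT Φ ε L t (wS (GC.pts c)) x y) * (wqP Φ ε x y *
      (ind (x ∈ Als Φ ε L t (wS (GC.pts c)) ∧ y ∈ Als Φ ε L t (wS (GC.pts c))) *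
        H (wS (GC.pts c)) x y))) T
      ∂(tree (GC.inten f₀ ε) L) ≤ ∫⁻ T, onN (alG Φ ε L t (wH Φ ε L t H') c) T
        ∂(tree (GC.inten f₀ ε) L) := by
    refine lintegral_mono fun T => onN_mono (fun x y => ?_) T
    generalize hU : wS (GC.pts c) = U
    by_cases hT : coT Φ ε L t U x y
    · rw [ind_of hT, one_mul]
      by_cases hx : x ∈ Als Φ ε L t U
      · by_cases hy : y ∈ Als Φ ε L t U
        · unfold alG wH
          have hw : wC Φ ε L t x y = wqP Φ ε x y := by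
            unfold wC
            rw [ind_of (p := _ ∧ _) ⟨hT.ok, hT.depth, hT.sig_le⟩, mul_one]
          rw [hU, ind_of (p := _ ∧ _) ⟨hx, hy⟩, ind_of (show alT Φ ε L t U x from hx),
            ind_of (show alT Φ ε L t U y from hy), one_mul, one_mul, one_mul, hw]
          exact mul_le_mul_right (h U x y hT) _
        · rw [ind_of_not (fun h => hy h.2), zero_mul, mul_zero]
          exact zero_le
      · rw [ind_of_not (fun h => hx h.1), zero_mul, mul_zero]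
        exact zero_le
    · rw [ind_of_not hT, zero_mul]
      exact zero_le
  have hGT : Measurable fun T : CTree => onN (alG Φ ε L t (wH Φ ε L t H') c) T :=
    measurable_onN (X := CTree) (F := fun _ => alG Φ ε L t (wH Φ ε L t H') c)
      (hGm.comp measurable_snd) measurable_id
  refine h1.trans ((lintegral_tree_le L hGT).trans (le_of_eq ?_))
  have h2 : ∫⁻ z, onN (alG Φ ε L t (wH Φ ε L t H') c) (CTree.leaf (src z)) ∂(GC.inten f₀ ε) = 0 := by
    simp only [onN_leaf, lintegral_zero]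
  rw [h2, zero_add]
  simp only [onN_node]

/-! ### The split -/

variable (Φ ε L) in
/-- **(i)**: both exhausts in the tree `x`. -/
def P9a (f₀ : Ph → ℝ) (t : ℝ) (ψ : Finset Src → Src → Src → ℝ≥0∞) : ℝ≥0∞ :=
  (muE ε)⁻¹ * X2 Φ ε L f₀ t fun U x _ => aE Φ ε (ψ U) x

variable (Φ ε L) in
/-- **(ii)**: one exhaust in each of the trees. -/
def P9b (f₀ : Ph → ℝ) (t : ℝ) (ψ : Finset Src → Src → Src → ℝ≥0∞) : ℝ≥0∞ :=
  (muE ε)⁻¹ * X2 Φ ε L f₀ t fun U x y => bE Φ ε (ψ U) x y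

variable (Φ ε L) in
/-- **(iii)**: one exhaust of `x`, and the pair. -/
def P9c (f₀ : Ph → ℝ) (t : ℝ) (φ : Finset Src → Src → Src → Ph → ℝ≥0∞) : ℝ≥0∞ :=
  (muE ε)⁻¹ * X2 Φ ε L f₀ t fun U x y => cE Φ ε (φ U) x y

variable (Φ ε L) in
/-- The colliding pairs which are not both alive. -/
def BadPP (f₀ : Ph → ℝ) (t : ℝ) : ℝ≥0∞ :=
  (muE ε)⁻¹ * XP Φ ε L f₀ t fun U x y =>
    wqP Φ ε x y * ind (¬(x ∈ Als Φ ε L t U ∧ y ∈ Als Φ ε L t U))

theorem aE_mono {Ψ Ψ' : Src → Src → ℝ≥0∞} (h : ∀ e m, Ψ e m ≤ Ψ' e m) :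
    aE Φ ε Ψ x ≤ aE Φ ε Ψ' x := by
  classical
  refine exsum_mono fun e _ => exsum_mono fun m _ => ?_
  by_cases hem : e = m
  · rw [if_pos hem, if_pos hem]
  · rw [if_neg hem, if_neg hem]; exact h _ _

theorem bE_mono {Ψ Ψ' : Src → Src → ℝ≥0∞} (h : ∀ e m, Ψ e m ≤ Ψ' e m) :
    bE Φ ε Ψ x y ≤ bE Φ ε Ψ' x y :=
  exsum_mono fun _ _ => exsum_mono fun _ _ => add_le_add (h _ _) (h _ _)

theorem cE_mono {P P' : Src → Src → Ph → ℝ≥0∞} (h : ∀ e m z, P e m z ≤ P' e m z) :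
    cE Φ ε P x y ≤ cE Φ ε P' x y := exsum_mono fun _ _ => h _ _ _

theorem P9a_mono {ψ ψ' : Finset Src → Src → Src → ℝ≥0∞} (h : ∀ V e m, ψ V e m ≤ ψ' V e m) :
    P9a Φ ε L f₀ t ψ ≤ P9a Φ ε L f₀ t ψ' :=
  mul_le_mul_right (X2_mono fun U _ _ => aE_mono (h U)) _

theorem P9b_mono {ψ ψ' : Finset Src → Src → Src → ℝ≥0∞} (h : ∀ V e m, ψ V e m ≤ ψ' V e m) :
    P9b Φ ε L f₀ t ψ ≤ P9b Φ ε L f₀ t ψ' :=
  mul_le_mul_right (X2_mono fun U _ _ => bE_mono (h U)) _

theorem P9c_mono {φ φ' : Finset Src → Src → Src → Ph → ℝ≥0∞}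
    (h : ∀ V e m z, φ V e m z ≤ φ' V e m z) : P9c Φ ε L f₀ t φ ≤ P9c Φ ε L f₀ t φ' :=
  mul_le_mul_right (X2_mono fun U _ _ => cE_mono (h U)) _

theorem measurable_badPP (hΦ : IsPotential Φ) (hε : 0 < ε) :
    Measurable fun p : (CTree × CTree) × GC.Conf Ph => wqP Φ ε p.1.1 p.1.2 *
      ind (¬(p.1.1 ∈ Als Φ ε L t (wS (GC.pts p.2)) ∧ p.1.2 ∈ Als Φ ε L t (wS (GC.pts p.2)))) := by
  have hc : MM.RS fun p : (CTree × CTree) × GC.Conf Ph => (wS (GC.pts p.2) : Set Src) :=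
    RM.rs_conf.comp measurable_snd
  exact (measurable_wqP hΦ hε measurable_fst.fst measurable_fst.snd).mul (measurable_ind
    ((measurableSet_alT hΦ hε hc measurable_fst.fst measurable_const).inter
      (measurableSet_alT hΦ hε hc measurable_fst.snd measurable_const)).compl)

/-- **The split of the second events of the colliding pairs.** -/
theorem SE9P_le (h₀ : GoodDatum f₀ κ) (hη : 0 < η) (ht : 0 ≤ t) (hw : t ≤ w) :
    SE9P L hΦ hε f₀ η t ≤ BadPP Φ ε L f₀ t + (2 * P9a Φ ε L f₀ t (gI L hΦ hε η t) +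
      P9b Φ ε L f₀ t (gI L hΦ hε η t) + 2 * P9c Φ ε L f₀ t (pI L hΦ hε η t w)) := by
  classical
  have m1 : Measurable fun p : GC.Conf Ph × CTree × CTree => p.2.1 :=
    measurable_fst.comp measurable_snd
  have m2 : Measurable fun p : GC.Conf Ph × CTree × CTree => p.2.2 :=
    measurable_snd.comp measurable_snd
  have hc : MM.RS fun p : GC.Conf Ph × CTree × CTree => (wS (GC.pts p.1) : Set Src) :=
    RM.rs_conf.comp measurable_fst
  have ma : Measurable fun p : GC.Conf Ph × CTree × CTree =>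
      aE Φ ε (gI L hΦ hε η t (wS (GC.pts p.1))) p.2.1 := measurable_aE hc m1
  have mb : Measurable fun p : GC.Conf Ph × CTree × CTree =>
      bE Φ ε (gI L hΦ hε η t (wS (GC.pts p.1))) p.2.1 p.2.2 := measurable_bE hc m1 m2
  have ms : Measurable fun p : GC.Conf Ph × CTree × CTree =>
      aE Φ ε (gI L hΦ hε η t (wS (GC.pts p.1))) p.2.1 +
        cE Φ ε (pI L hΦ hε η t w (wS (GC.pts p.1))) p.2.1 p.2.2 :=
    ma.add (measurable_cE hc m1 m2)
  have ms' : Measurable fun p : GC.Conf Ph × CTree × CTree =>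
      aE Φ ε (gI L hΦ hε η t (wS (GC.pts p.1))) p.2.2 +
        cE Φ ε (pI L hΦ hε η t w (wS (GC.pts p.1))) p.2.2 p.2.1 :=
    (measurable_aE hc m2).add (measurable_cE hc m2 m1)
  have h1 : XP Φ ε L f₀ t (fun U x y => wqP Φ ε x y * ind (TwoP L hΦ hε η t U x y)) ≤
      XP Φ ε L f₀ t (fun U x y =>
        wqP Φ ε x y * ind (¬(x ∈ Als Φ ε L t U ∧ y ∈ Als Φ ε L t U)) +
        wqP Φ ε x y * (ind (x ∈ Als Φ ε L t U ∧ y ∈ Als Φ ε L t U) *
          ind (TwoP L hΦ hε η t U x y))) := by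
    refine XP_mono fun U x y _ => ?_
    by_cases hxy : x ∈ Als Φ ε L t U ∧ y ∈ Als Φ ε L t U
    · rw [ind_of hxy, one_mul]
      exact le_add_self
    · rw [ind_of hxy, mul_one]
      exact le_add_right ((mul_le_mul_right (ind_le_one _) _).trans (le_of_eq (mul_one _)))
  have h2 : XP Φ ε L f₀ t (fun U x y => wqP Φ ε x y *
      (ind (x ∈ Als Φ ε L t U ∧ y ∈ Als Φ ε L t U) * ind (TwoP L hΦ hε η t U x y))) ≤
      X2 Φ ε L f₀ t (fun U x y => bE Φ ε (gI L hΦ hε η t U) x y +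
        ((aE Φ ε (gI L hΦ hε η t U) x + cE Φ ε (pI L hΦ hε η t w U) x y) +
        (aE Φ ε (gI L hΦ hε η t U) y + cE Φ ε (pI L hΦ hε η t w U) y x))) :=
    XP_le_X2 hΦ hε h₀ (mb.add (ms.add ms')) fun U x y hco => TwoP_le hη ht hw hco
  have h3 : X2 Φ ε L f₀ t (fun U x y => bE Φ ε (gI L hΦ hε η t U) x y +
        ((aE Φ ε (gI L hΦ hε η t U) x + cE Φ ε (pI L hΦ hε η t w U) x y) +
        (aE Φ ε (gI L hΦ hε η t U) y + cE Φ ε (pI L hΦ hε η t w U) y x))) =
      X2 Φ ε L f₀ t (fun U x y => bE Φ ε (gI L hΦ hε η t U) x y) +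
      2 * (X2 Φ ε L f₀ t (fun U x _ => aE Φ ε (gI L hΦ hε η t U) x) +
      X2 Φ ε L f₀ t (fun U x y => cE Φ ε (pI L hΦ hε η t w U) x y)) := by
    rw [X2_add hΦ hε h₀ mb, X2_add hΦ hε h₀ ms, X2_swap (H := fun U x y =>
      aE Φ ε (gI L hΦ hε η t U) x + cE Φ ε (pI L hΦ hε η t w U) x y) hΦ hε h₀ ms,
      X2_add hΦ hε h₀ ma, two_mul]
  unfold SE9P BadPP P9a P9b P9c
  calc (muE ε)⁻¹ * XP Φ ε L f₀ t (fun U x y => wqP Φ ε x y * ind (TwoP L hΦ hε η t U x y))
      ≤ (muE ε)⁻¹ * (XP Φ ε L f₀ t (fun U x y =>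
          wqP Φ ε x y * ind (¬(x ∈ Als Φ ε L t U ∧ y ∈ Als Φ ε L t U))) +
        (X2 Φ ε L f₀ t (fun U x y => bE Φ ε (gI L hΦ hε η t U) x y) +
        2 * (X2 Φ ε L f₀ t (fun U x _ => aE Φ ε (gI L hΦ hε η t U) x) +
          X2 Φ ε L f₀ t (fun U x y => cE Φ ε (pI L hΦ hε η t w U) x y)))) := by
        refine mul_le_mul_right (h1.trans ?_) _
        rw [XP_add hΦ hε (measurable_badPP hΦ hε) h₀, ← h3]
        exact add_le_add le_rfl h2
    _ = _ := by ring

/-! ### Horizons -/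

theorem alT_mono_t {s T : ℝ} {U : Finset Src} (hst : s ≤ T) (h : alT Φ ε L s U x) :
    alT Φ ε L T U x := ⟨h.ok, h.depth, h.ext_le.trans hst, h.alive⟩

theorem BadPP_mono {s T : ℝ} (hst : s ≤ T) : BadPP Φ ε L f₀ s ≤ BadPP Φ ε L f₀ T := by
  unfold BadPP XP
  refine mul_le_mul_right (lintegral_mono fun c => lintegral_mono fun S =>
    onN_mono (fun x y => ?_) S) _
  by_cases hc : coT Φ ε L s (wS (GC.pts c)) x y
  swap
  · rw [ind_of_not hc, zero_mul]; exact zero_le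
  rw [ind_of hc, ind_of (hc.mono hst)]
  refine mul_le_mul_right (mul_le_mul_right (ind_mono fun h h' => h ?_) _) _
  obtain ⟨h1, h2, -, h4, h5, h6, h7⟩ := hc.ok
  have h8 : hitT ε (ln Φ ε x, ln Φ ε y) ≤ s := hc.sig_le
  exact ⟨⟨h'.1.ok, h'.1.depth, (h6.trans_le h8).le, h'.1.alive⟩,
    ⟨h'.2.ok, h'.2.depth, (h7.trans_le h8).le, h'.2.alive⟩⟩

theorem X2_mono_t {s T : ℝ} (hΦ : IsPotential Φ) (hε : 0 < ε) (hst : s ≤ T)
    (H : Finset Src → CTree → CTree → ℝ≥0∞) : X2 Φ ε L f₀ s H ≤ X2 Φ ε L f₀ T H := by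
  rw [X2_eq hΦ hε, X2_eq hΦ hε]
  refine lintegral_mono fun c => lintegral_mono fun x => lintegral_mono fun y => ?_
  unfold alG wH
  exact mul_le_mul' (ind_mono (alT_mono_t hst)) (mul_le_mul' (ind_mono (alT_mono_t hst))
    (mul_le_mul' (wC_mono hst) le_rfl))

end Vale.Agent.P119.PB
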