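import Vale.Agent.P119.PB.TrickB
import Vale.Agent.P119.PB.Top8g
import Vale.Agent.P119.PB.TopP

/-!
# P119, block PROB, P8: the exceptional pairs, functionals (`helper178`)

The functionals `P2g`, `FXg`, `FXp` (`helper336`) and `P9a`, `P9b`, `P9c` (`helper776`).

* `cr1`, `cr2`, `cr2p`, `cr3a`, `cr3b`, `cr3c`: the crude functionals (all the trees instead of the
  alive ones, the world is integrated first);
* `P2g_le_cr`, ..: each functional is bounded by its crude functional;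
* `gIG`, `pIG`: the second events off the exceptional pairs; `P2g_gI_le`, `FXg_gI_le`, `FXp_pI_le`,
  `P9a_gI_le`, `P9b_gI_le`, `P9c_pI_le`: **the split**;
* `lintegral_gIG`: the expectation of `gIG`, for a law of the pairs.
-/

open MeasureTheory Filter Topology Set ProbabilityTheory
open scoped ENNReal NNReal

noncomputable section

namespace Vale.Agent.P119.PB

open M CTree KU FB RB AU FL TL

variable {Φ : E3 → ℝ} {ε : ℝ} {L : ℕ} {hΦ : IsPotential Φ} {hε : 0 < ε} {f₀ : Ph → ℝ}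
  {κ b b' Tm t t' η η' w u θ : ℝ} {e m : Src}

/-! ### The crude functionals -/

section defs

variable (Φ ε L f₀)

/-- [A1]: the pairs of outgoing lines. -/
def cr1 (t : ℝ) (K : Src → Src → ℝ≥0∞) : ℝ≥0∞ :=
  (muE ε)⁻¹ * ∫⁻ S in okT Φ ε t L, wr Φ ε S * twoG Φ ε K S ∂(tree (GC.inten f₀ ε) L)

/-- [A2]: an exhaust and a line created by the hit of a free line. -/
def cr2 (b t : ℝ) (K : Src → Src → ℝ≥0∞) (n : ℕ) : ℝ≥0∞ :=
  ∫⁻ z : Ph, gw b z.2 * ∫⁻ S in okT Φ ε t L, ind (hitF Φ ε t z S) *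
    exsum S (fun x => frS Φ ε (K (rsrc Φ ε x)) (0, z, n) (ln Φ ε S) S.depth)
      ∂(tree (GC.inten f₀ ε) L)

/-- [A2], the second part: an exhaust and the hit of a free line. -/
def cr2p (b t : ℝ) (R : Src → ℝ≥0∞) : ℝ≥0∞ :=
  ∫⁻ z : Ph, gw b z.2 * ∫⁻ S in okT Φ ε t L, ind (hitF Φ ε t z S) *
    exsum S (fun x => R (rsrc Φ ε x)) ∂(tree (GC.inten f₀ ε) L)

/-- The integral over two trees which collide. -/
def cr3 (t : ℝ) (H : CTree → CTree → ℝ≥0∞) : ℝ≥0∞ :=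
  (muE ε)⁻¹ * ∫⁻ x in okT Φ ε t L, ∫⁻ y in okT Φ ε t L, wC Φ ε L t x y * H x y
    ∂(tree (GC.inten f₀ ε) L) ∂(tree (GC.inten f₀ ε) L)

/-- [A3], both exhausts in one tree. -/
def cr3a (t : ℝ) (K : Src → Src → ℝ≥0∞) : ℝ≥0∞ := cr3 Φ ε L f₀ t fun x _ => aE Φ ε K x

/-- [A3], one exhaust in each of the trees. -/
def cr3b (t : ℝ) (K : Src → Src → ℝ≥0∞) : ℝ≥0∞ := cr3 Φ ε L f₀ t fun x y => bE Φ ε K x y

/-- [A3], one exhaust and the pair. -/
def cr3c (t : ℝ) (R : Src → ℝ≥0∞) : ℝ≥0∞ :=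
  cr3 Φ ε L f₀ t fun x _ => exsum x fun e => R (rsrc Φ ε e)

end defs

/-! ### The functionals are bounded by the crude ones -/

/-- The hypothesis: the expectation of `ψ` is at most `C K`. -/
def ExpLe (f₀ : Ph → ℝ) (ε : ℝ) (ψ : Finset Src → Src → Src → ℝ≥0∞) (C : ℝ≥0∞)
    (K : Src → Src → ℝ≥0∞) : Prop :=
  ∀ e m, ∫⁻ c, ψ (wS (GC.pts c)) e m ∂(GC.PP f₀ ε) ≤ C * K e m

/-- The same for the functions of a source and a pair. -/
def ExpLe1 (f₀ : Ph → ℝ) (ε : ℝ) (φ : Finset Src → Src → Src → Ph → ℝ≥0∞) (C : ℝ≥0∞)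
    (R : Src → ℝ≥0∞) : Prop :=
  ∀ e σ z', ∫⁻ c, φ (wS (GC.pts c)) e σ z' ∂(GC.PP f₀ ε) ≤ C * R e

section crude

variable {ψ : Finset Src → Src → Src → ℝ≥0∞} {φ : Finset Src → Src → Src → Ph → ℝ≥0∞}
  {C : ℝ≥0∞} {K : Src → Src → ℝ≥0∞} {R : Src → ℝ≥0∞}

theorem P2g_le_cr (h₀ : GoodDatum f₀ κ) (hΦ : IsPotential Φ) (hε : 0 < ε) (hψ : MW ψ)
    (hC : C ≠ ∞) (hK : ExpLe f₀ ε ψ C K) : P2g Φ ε L f₀ t ψ ≤ C * cr1 Φ ε L f₀ t K := by
  have h := XX_twoG_ok_le (L := L) (t := t) h₀ hΦ hε (ψ := ψ) hψ hC hK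
    (measurable_wr hΦ hε.ne')
  unfold P2g cr1
  calc (muE ε)⁻¹ * XX Φ ε L f₀ t (fun V S => wr Φ ε S * twoG Φ ε (ψ V) S)
      ≤ (muE ε)⁻¹ * (C * ∫⁻ S in okT Φ ε t L, wr Φ ε S * twoG Φ ε K S
        ∂(tree (GC.inten f₀ ε) L)) := mul_le_mul' le_rfl h
    _ = _ := by ring

theorem FXg_le_cr (h₀ : GoodDatum f₀ κ) (hΦ : IsPotential Φ) (hε : 0 < ε) (hψ : MW ψ)
    (hC : C ≠ ∞) (hK : ExpLe f₀ ε ψ C K) (n : ℕ) :
    FXg Φ ε L f₀ b t ψ n ≤ C * cr2 Φ ε L f₀ b t K n := by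
  unfold FXg cr2
  refine lintegral_const_mul3 hC fun z => ?_
  have hg : Measurable fun S : CTree => ind (hitF Φ ε t z S) :=
    measurable_ind ((measurable_const.prodMk measurable_id :
      Measurable fun S : CTree => ((z, S) : Ph × CTree)) (measurableSet_hitF hΦ hε.ne' t))
  have hln : Measurable fun T : CTree => ln Φ ε T := M.measurable_ln hΦ hε.ne'
  refine XX_exsum_ok_le h₀ hΦ hε (G := fun V T x =>
    frS Φ ε (ψ V (rsrc Φ ε x)) (0, z, n) (ln Φ ε T) T.depth)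
    (hψ.frS hΦ hε measurable_fst.fst (RM.meas_rsrc hΦ hε measurable_snd) measurable_const
      (hln.comp measurable_fst.snd) (M.measurable_depth.comp measurable_fst.snd)) hC
    (fun T x => ?_) hg
  have hm : ∀ m : Src, Measurable fun c : GC.Conf Ph => ψ (wS (GC.pts c)) (rsrc Φ ε x) m :=
    fun m => hψ.comp measurable_id measurable_const measurable_const
  rw [lintegral_frS (Ψ := fun c : GC.Conf Ph => ψ (wS (GC.pts c)) (rsrc Φ ε x)) hm,
    ← frS_const_mul]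
  exact frS_mono (fun m => hK _ m) _ _

theorem FXp_le_cr (h₀ : GoodDatum f₀ κ) (hΦ : IsPotential Φ) (hε : 0 < ε) (hφ : MWp φ)
    (hC : C ≠ ∞) (hR : ExpLe1 f₀ ε φ C R) :
    FXp Φ ε L f₀ b t φ ≤ C * cr2p Φ ε L f₀ b t R := by
  unfold FXp cr2p
  refine lintegral_const_mul3 hC fun z => ?_
  have hg : Measurable fun S : CTree => ind (hitF Φ ε t z S) :=
    measurable_ind ((measurable_const.prodMk measurable_id :
      Measurable fun S : CTree => ((z, S) : Ph × CTree)) (measurableSet_hitF hΦ hε.ne' t))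
  have hln : Measurable fun T : CTree => ln Φ ε T := M.measurable_ln hΦ hε.ne'
  exact XX_exsum_ok_le h₀ hΦ hε (G := fun V T x =>
    φ V (rsrc Φ ε x) (0, z, 0) (ln Φ ε T))
    (hφ.comp measurable_fst.fst (RM.meas_rsrc hΦ hε measurable_snd) measurable_const
      (hln.comp measurable_fst.snd)) hC (fun T x => hR _ _ _) hg

theorem X2_le_cr (h₀ : GoodDatum f₀ κ) (hΦ : IsPotential Φ) (hε : 0 < ε)
    {H : Finset Src → CTree → CTree → ℝ≥0∞}
    (hH : Measurable fun p : GC.Conf Ph × CTree × CTree => H (wS (GC.pts p.1)) p.2.1 p.2.2)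
    (hC : C ≠ ∞) {G : CTree → CTree → ℝ≥0∞}
    (hG : ∀ x y, ∫⁻ c, H (wS (GC.pts c)) x y ∂(GC.PP f₀ ε) ≤ C * G x y) :
    (muE ε)⁻¹ * X2 Φ ε L f₀ t H ≤ C * cr3 Φ ε L f₀ t G := by
  have h := Als2_ok_le (Φ := Φ) (L := L) (t := t) h₀ (W := wC Φ ε L t)
    (measurable_wC hΦ hε measurable_fst measurable_snd) (G := H)
    (hH.comp (measurable_fst.fst.prodMk (measurable_fst.snd.prodMk measurable_snd))) hC hG
  unfold X2 cr3
  calc _ ≤ (muE ε)⁻¹ * (C * ∫⁻ x in okT Φ ε t L, ∫⁻ y in okT Φ ε t L, wC Φ ε L t x y * G x y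
        ∂(tree (GC.inten f₀ ε) L) ∂(tree (GC.inten f₀ ε) L)) := mul_le_mul' le_rfl h
    _ = _ := by ring

open Classical in
theorem MW.aE (h : MW ψ) (hΦ : IsPotential Φ) (hε : 0 < ε)
    {X : Type} [MeasurableSpace X] {c : X → GC.Conf Ph} {x : X → CTree} (hc : Measurable c)
    (hx : Measurable x) : Measurable fun q => aE Φ ε (ψ (wS (GC.pts (c q)))) (x q) := by
  unfold PB.aE
  refine RM.measurable_exsum' hx (F := fun q e => exsum (x q) fun m => if e = m then 0 else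
    ψ (wS (GC.pts (c q))) (rsrc Φ ε e) (rsrc Φ ε m)) ?_
  refine RM.measurable_exsum' (X := X × CTree) (hx.comp measurable_fst) (F := fun p m =>
    if p.2 = m then 0 else ψ (wS (GC.pts (c p.1))) (rsrc Φ ε p.2) (rsrc Φ ε m)) ?_
  refine Measurable.ite (measurableSet_eq_fun measurable_fst.snd measurable_snd)
    measurable_const ?_
  exact h.comp (hc.comp measurable_fst.fst) (RM.meas_rsrc hΦ hε measurable_fst.snd)
    (RM.meas_rsrc hΦ hε measurable_snd)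

theorem MW.bE (h : MW ψ) (hΦ : IsPotential Φ) (hε : 0 < ε)
    {X : Type} [MeasurableSpace X] {c : X → GC.Conf Ph} {x y : X → CTree} (hc : Measurable c)
    (hx : Measurable x) (hy : Measurable y) :
    Measurable fun q => bE Φ ε (ψ (wS (GC.pts (c q)))) (x q) (y q) := by
  unfold PB.bE
  refine RM.measurable_exsum' hx (F := fun q e => exsum (y q) fun m =>
    ψ (wS (GC.pts (c q))) (rsrc Φ ε e) (rsrc Φ ε m) +
      ψ (wS (GC.pts (c q))) (rsrc Φ ε m) (rsrc Φ ε e)) ?_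
  refine RM.measurable_exsum' (X := X × CTree) (hy.comp measurable_fst) (F := fun p m =>
    ψ (wS (GC.pts (c p.1))) (rsrc Φ ε p.2) (rsrc Φ ε m) +
      ψ (wS (GC.pts (c p.1))) (rsrc Φ ε m) (rsrc Φ ε p.2)) ?_
  exact (h.comp (hc.comp measurable_fst.fst) (RM.meas_rsrc hΦ hε measurable_fst.snd)
    (RM.meas_rsrc hΦ hε measurable_snd)).add (h.comp (hc.comp measurable_fst.fst)
    (RM.meas_rsrc hΦ hε measurable_snd) (RM.meas_rsrc hΦ hε measurable_fst.snd))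

theorem MWp.cE (h : MWp φ) (hΦ : IsPotential Φ) (hε : 0 < ε)
    {X : Type} [MeasurableSpace X] {c : X → GC.Conf Ph} {x y : X → CTree} (hc : Measurable c)
    (hx : Measurable x) (hy : Measurable y) :
    Measurable fun q => cE Φ ε (φ (wS (GC.pts (c q)))) (x q) (y q) := by
  unfold PB.cE
  refine RM.measurable_exsum' hx (F := fun q e =>
    φ (wS (GC.pts (c q))) (rsrc Φ ε e) (rsrc Φ ε (x q)) (ln Φ ε (y q))) ?_
  exact h.comp (hc.comp measurable_fst) (RM.meas_rsrc hΦ hε measurable_snd)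
    (RM.meas_rsrc hΦ hε (hx.comp measurable_fst))
    ((M.measurable_ln hΦ hε.ne').comp (hy.comp measurable_fst))

theorem P9a_le_cr (h₀ : GoodDatum f₀ κ) (hΦ : IsPotential Φ) (hε : 0 < ε) (hψ : MW ψ)
    (hC : C ≠ ∞) (hK : ExpLe f₀ ε ψ C K) : P9a Φ ε L f₀ t ψ ≤ C * cr3a Φ ε L f₀ t K := by
  classical
  refine X2_le_cr h₀ hΦ hε (hψ.aE hΦ hε measurable_fst (measurable_fst.comp measurable_snd)) hC
    fun x y => ?_
  refine lintegral_exsum₂_le x x (F := fun (c : GC.Conf Ph) e m => if e = m then 0 else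
    ψ (wS (GC.pts c)) (rsrc Φ ε e) (rsrc Φ ε m)) (fun e m => ?_) (C := C) (K := fun e m =>
      if e = m then 0 else K (rsrc Φ ε e) (rsrc Φ ε m)) fun e m => ?_
  · by_cases h : e = m
    · simp only [if_pos h, measurable_const]
    · simp only [if_neg h]
      exact hψ.comp measurable_id measurable_const measurable_const
  · by_cases h : e = m
    · simp only [if_pos h, lintegral_zero, mul_zero, le_refl]
    · simp only [if_neg h]
      exact hK _ _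

theorem P9b_le_cr (h₀ : GoodDatum f₀ κ) (hΦ : IsPotential Φ) (hε : 0 < ε) (hψ : MW ψ)
    (hC : C ≠ ∞) (hK : ExpLe f₀ ε ψ C K) : P9b Φ ε L f₀ t ψ ≤ C * cr3b Φ ε L f₀ t K := by
  refine X2_le_cr h₀ hΦ hε (hψ.bE hΦ hε measurable_fst (measurable_fst.comp measurable_snd)
    (measurable_snd.comp measurable_snd)) hC fun x y => ?_
  have h1 : ∀ e m : Src, Measurable fun c : GC.Conf Ph => ψ (wS (GC.pts c)) e m := fun e m =>
    hψ.comp measurable_id measurable_const measurable_const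
  refine lintegral_exsum₂_le x y (F := fun (c : GC.Conf Ph) e m =>
    ψ (wS (GC.pts c)) (rsrc Φ ε e) (rsrc Φ ε m) + ψ (wS (GC.pts c)) (rsrc Φ ε m) (rsrc Φ ε e))
    (fun e m => (h1 _ _).add (h1 _ _)) (C := C) (K := fun e m =>
      K (rsrc Φ ε e) (rsrc Φ ε m) + K (rsrc Φ ε m) (rsrc Φ ε e)) fun e m => ?_
  rw [lintegral_add_left (h1 _ _), mul_add]
  exact add_le_add (hK _ _) (hK _ _)

theorem P9c_le_cr (h₀ : GoodDatum f₀ κ) (hΦ : IsPotential Φ) (hε : 0 < ε) (hφ : MWp φ)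
    (hC : C ≠ ∞) (hR : ExpLe1 f₀ ε φ C R) : P9c Φ ε L f₀ t φ ≤ C * cr3c Φ ε L f₀ t R := by
  refine X2_le_cr h₀ hΦ hε (hφ.cE hΦ hε measurable_fst (measurable_fst.comp measurable_snd)
    (measurable_snd.comp measurable_snd)) hC fun x y => ?_
  exact lintegral_exsum_le x (F := fun (c : GC.Conf Ph) e =>
    φ (wS (GC.pts c)) (rsrc Φ ε e) (rsrc Φ ε x) (ln Φ ε y))
    (fun e => hφ.comp measurable_id measurable_const measurable_const measurable_const)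
    (C := C) (K := fun e => R (rsrc Φ ε e)) fun e => hR _ _ _

end crude

/-! ### Additivity -/

section add_

variable {ψ ψ' : Finset Src → Src → Src → ℝ≥0∞} {φ φ' : Finset Src → Src → Src → Ph → ℝ≥0∞}

open Classical in
theorem twoG_add {Ψ Ψ' : Src → Src → ℝ≥0∞} (T : CTree) :
    twoG Φ ε (fun e m => Ψ e m + Ψ' e m) T = twoG Φ ε Ψ T + twoG Φ ε Ψ' T := by
  unfold twoG
  rw [← exsum_add]
  congr 1
  funext x
  have h : (exsum T fun y => if x = y then (0 : ℝ≥0∞) else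
      Ψ (rsrc Φ ε x) (rsrc Φ ε y) + Ψ' (rsrc Φ ε x) (rsrc Φ ε y)) =
      (exsum T fun y => if x = y then (0 : ℝ≥0∞) else Ψ (rsrc Φ ε x) (rsrc Φ ε y)) +
      exsum T fun y => if x = y then (0 : ℝ≥0∞) else Ψ' (rsrc Φ ε x) (rsrc Φ ε y) := by
    rw [← exsum_add]
    congr 1
    funext y
    split_ifs
    · rw [add_zero]
    · rfl
  rw [h]
  ring

theorem frS_add {Ψ Ψ' : Src → ℝ≥0∞} (σ : Src) (z' : Ph) (D : ℕ) :
    frS Φ ε (fun m => Ψ m + Ψ' m) σ z' D = frS Φ ε Ψ σ z' D + frS Φ ε Ψ' σ z' D := by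
  unfold frS
  ring

theorem XX_add' (h₀ : GoodDatum f₀ κ) (hΦ : IsPotential Φ) (hε : 0 < ε)
    {H H' : Finset Src → CTree → ℝ≥0∞}
    (hH : Measurable fun p : GC.Conf Ph × CTree => H (wS (GC.pts p.1)) p.2) :
    XX Φ ε L f₀ t (fun U T => H U T + H' U T) = XX Φ ε L f₀ t H + XX Φ ε L f₀ t H' :=
  XX_add hΦ hε (hH.comp measurable_swap) h₀

theorem P2g_add (h₀ : GoodDatum f₀ κ) (hΦ : IsPotential Φ) (hε : 0 < ε) (hψ : MW ψ) :
    P2g Φ ε L f₀ t (fun V e m => ψ V e m + ψ' V e m) =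
      P2g Φ ε L f₀ t ψ + P2g Φ ε L f₀ t ψ' := by
  have hm : Measurable fun p : GC.Conf Ph × CTree => wr Φ ε p.2 *
      twoG Φ ε (ψ (wS (GC.pts p.1))) p.2 :=
    ((measurable_wr hΦ hε.ne').comp measurable_snd).mul (hψ.twoG hΦ hε measurable_fst
      measurable_snd)
  unfold P2g
  rw [← mul_add, ← XX_add' h₀ hΦ hε (H := fun V S => wr Φ ε S * twoG Φ ε (ψ V) S) hm]
  congr 2
  funext V S
  rw [twoG_add, mul_add]

theorem FXg_add (h₀ : GoodDatum f₀ κ) (hΦ : IsPotential Φ) (hε : 0 < ε) (hψ : MW ψ) (n : ℕ) :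
    FXg Φ ε L f₀ b t (fun V e m => ψ V e m + ψ' V e m) n =
      FXg Φ ε L f₀ b t ψ n + FXg Φ ε L f₀ b t ψ' n := by
  have hm := hψ.fxg (t := t) hΦ hε n
  have hX : Measurable fun z : Ph => gw b z.2 * XX Φ ε L f₀ t (fxgI Φ ε t ψ n z) :=
    ((measurable_gw b).comp measurable_snd).mul (measurable_XX h₀ hΦ hε hm)
  unfold FXg
  rw [← lintegral_add_left hX]
  refine lintegral_congr fun z => ?_
  have hz : Measurable fun p : GC.Conf Ph × CTree =>
      fxgI Φ ε t ψ n z (wS (GC.pts p.1)) p.2 :=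
    hm.comp (measurable_const.prodMk measurable_id)
  rw [← mul_add, ← XX_add' h₀ hΦ hε (H := fxgI Φ ε t ψ n z) hz]
  congr 2
  funext V S
  unfold fxgI
  rw [← mul_add, ← exsum_add]
  congr 2
  funext x
  exact frS_add _ _ _

theorem FXp_add (h₀ : GoodDatum f₀ κ) (hΦ : IsPotential Φ) (hε : 0 < ε) (hφ : MWp φ) :
    FXp Φ ε L f₀ b t (fun V e m z => φ V e m z + φ' V e m z) =
      FXp Φ ε L f₀ b t φ + FXp Φ ε L f₀ b t φ' := by
  have hm := hφ.fxp (t := t) hΦ hε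
  have hX : Measurable fun z : Ph => gw b z.2 * XX Φ ε L f₀ t (fxpI Φ ε t φ z) :=
    ((measurable_gw b).comp measurable_snd).mul (measurable_XX h₀ hΦ hε hm)
  unfold FXp
  rw [← lintegral_add_left hX]
  refine lintegral_congr fun z => ?_
  have hz : Measurable fun p : GC.Conf Ph × CTree =>
      fxpI Φ ε t φ z (wS (GC.pts p.1)) p.2 :=
    hm.comp (measurable_const.prodMk measurable_id)
  rw [← mul_add, ← XX_add' h₀ hΦ hε (H := fxpI Φ ε t φ z) hz]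
  congr 2
  funext V S
  unfold fxpI
  rw [← mul_add, ← exsum_add]

theorem aE_add {Ψ Ψ' : Src → Src → ℝ≥0∞} (x : CTree) :
    aE Φ ε (fun e m => Ψ e m + Ψ' e m) x = aE Φ ε Ψ x + aE Φ ε Ψ' x := by
  classical
  unfold aE
  rw [← exsum_add]
  congr 1
  funext e
  rw [← exsum_add]
  congr 1
  funext m
  split_ifs
  · rw [add_zero]
  · rfl

theorem bE_add {Ψ Ψ' : Src → Src → ℝ≥0∞} (x y : CTree) :
    bE Φ ε (fun e m => Ψ e m + Ψ' e m) x y = bE Φ ε Ψ x y + bE Φ ε Ψ' x y := by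
  unfold bE
  rw [← exsum_add]
  congr 1
  funext e
  rw [← exsum_add]
  congr 1
  funext m
  ring

theorem cE_add {P P' : Src → Src → Ph → ℝ≥0∞} (x y : CTree) :
    cE Φ ε (fun e m z => P e m z + P' e m z) x y = cE Φ ε P x y + cE Φ ε P' x y := by
  unfold cE
  rw [← exsum_add]

theorem P9a_add (h₀ : GoodDatum f₀ κ) (hΦ : IsPotential Φ) (hε : 0 < ε) (hψ : MW ψ) :
    P9a Φ ε L f₀ t (fun V e m => ψ V e m + ψ' V e m) =
      P9a Φ ε L f₀ t ψ + P9a Φ ε L f₀ t ψ' := by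
  unfold P9a
  rw [← mul_add, ← X2_add hΦ hε h₀
    (hψ.aE hΦ hε measurable_fst (measurable_fst.comp measurable_snd))]
  simp only [aE_add]

theorem P9b_add (h₀ : GoodDatum f₀ κ) (hΦ : IsPotential Φ) (hε : 0 < ε) (hψ : MW ψ) :
    P9b Φ ε L f₀ t (fun V e m => ψ V e m + ψ' V e m) =
      P9b Φ ε L f₀ t ψ + P9b Φ ε L f₀ t ψ' := by
  unfold P9b
  rw [← mul_add, ← X2_add hΦ hε h₀ (hψ.bE hΦ hε measurable_fst
    (measurable_fst.comp measurable_snd) (measurable_snd.comp measurable_snd))]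
  simp only [bE_add]

theorem P9c_add (h₀ : GoodDatum f₀ κ) (hΦ : IsPotential Φ) (hε : 0 < ε) (hφ : MWp φ) :
    P9c Φ ε L f₀ t (fun V e m z => φ V e m z + φ' V e m z) =
      P9c Φ ε L f₀ t φ + P9c Φ ε L f₀ t φ' := by
  unfold P9c
  rw [← mul_add, ← X2_add hΦ hε h₀ (hφ.cE hΦ hε measurable_fst
    (measurable_fst.comp measurable_snd) (measurable_snd.comp measurable_snd))]
  simp only [cE_add]

end add_

/-! ### The split of the second events -/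

variable {δ : ℝ≥0∞} {a : ℕ → ℝ≥0∞} {J : ℕ}

/-- The sum of the exceptional terms, for the lines `m` which are born not after `t`. -/
def XJt (L : ℕ) (hΦ : IsPotential Φ) (hε : 0 < ε) (f₀ : Ph → ℝ) (b : ℝ) (a : ℕ → ℝ≥0∞)
    (η θ t : ℝ) (J : ℕ) (e m : Src) : ℝ≥0∞ :=
  ind (m.1 ≤ t) * XJ L hΦ hε f₀ b a η θ t J e m

theorem XJt_le : XJt L hΦ hε f₀ b a η θ t J e m ≤ XJ L hΦ hε f₀ b a η θ t J e m := by
  unfold XJt
  exact (mul_le_mul' (ind_le_one _) le_rfl).trans (one_mul _).le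

theorem measurable_XJt (h₀ : GoodDatum f₀ κ) :
    Measurable fun p : Src × Src => XJt L hΦ hε f₀ b a η θ t J p.1 p.2 :=
  (measurable_ind (measurableSet_le (measurable_fst.comp measurable_snd)
    measurable_const)).mul (measurable_XJ h₀)

/-- A line which is born after `t` does not touch. -/
theorem gI_birth {V : Finset Src} (hη : 0 < η) (ht : 0 ≤ t) (h : t < m.1) :
    gI L hΦ hε η t V e m = 0 := by
  classical
  unfold gI
  split_ifs
  · refine ind_of_not fun hG => ?_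
    have h1 := touch_birth hG.2
    exact absurd (h1.trans (hz_le hη ht)) (not_le.2 h)
  · rfl

theorem lintegral_gIB_le_t (ht : 0 ≤ t) (hη : 0 < η) (hηη : η ≤ η') (hδ : δ ≠ 0)
    (hδ' : δ ≠ ∞) (e m : Src) :
    ∫⁻ c, gIB L hΦ hε f₀ b a η η' θ t J δ (wS (GC.pts c)) e m ∂(GC.PP f₀ ε) ≤
      δ⁻¹ * XJt L hΦ hε f₀ b a η' θ t J e m := by
  by_cases h : m.1 ≤ t
  · unfold XJt
    rw [ind_of h, one_mul]
    exact lintegral_gIB_le ht hη hηη hδ hδ' e m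
  · have h1 : ∀ c : GC.Conf Ph,
        gIB L hΦ hε f₀ b a η η' θ t J δ (wS (GC.pts c)) e m = 0 := by
      intro c
      unfold gIB
      rw [gI_birth hη ht (not_le.1 h), zero_mul]
    simp only [h1, lintegral_zero]
    exact zero_le

open Classical in
/-- The second events, off the exceptional pairs. -/
def gIG (L : ℕ) (hΦ : IsPotential Φ) (hε : 0 < ε) (f₀ : Ph → ℝ) (b : ℝ) (a : ℕ → ℝ≥0∞)
    (η η' θ t : ℝ) (J : ℕ) (δ : ℝ≥0∞) (V : Finset Src) (e m : Src) : ℝ≥0∞ :=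
  gI L hΦ hε η t V e m * ind ((e, m) ∉ BX L hΦ hε f₀ b a η' θ t J δ)

open Classical in
/-- The second events of a pair, for the sources in `GX`. -/
def pIG (L : ℕ) (hΦ : IsPotential Φ) (hε : 0 < ε) (f₀ : Ph → ℝ)
    (η η' θ t w : ℝ) (δ : ℝ≥0∞) (V : Finset Src) (e σ : Src) (z' : Ph) : ℝ≥0∞ :=
  pI L hΦ hε η t w V e σ z' * ind (e ∈ GX L hΦ hε f₀ η' θ t δ)

theorem MW_gIB (h₀ : GoodDatum f₀ κ) : MW (gIB L hΦ hε f₀ b a η η' θ t J δ) :=
  measurable_gIB h₀ (RM.rs_conf.comp measurable_fst) measurable_snd.fst measurable_snd.snd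

theorem MWp_pIB (h₀ : GoodDatum f₀ κ) : MWp (pIB L hΦ hε f₀ η η' θ t w δ) :=
  measurable_pIB h₀ (RM.rs_conf.comp measurable_fst) measurable_snd.fst measurable_snd.snd.fst
    measurable_snd.snd.snd

theorem MW_gIG (h₀ : GoodDatum f₀ κ) : MW (gIG L hΦ hε f₀ b a η η' θ t J δ) := by
  have h : Measurable fun q : GC.Conf Ph × Src × Src => (q.2.1, q.2.2) :=
    measurable_snd.fst.prodMk measurable_snd.snd
  exact Measurable.mul (MW_gI (L := L) (hΦ := hΦ) (hε := hε) (η := η) (t := t))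
    (measurable_ind (h (measurableSet_BX h₀).compl))

theorem MWp_pIG (h₀ : GoodDatum f₀ κ) : MWp (pIG L hΦ hε f₀ η η' θ t w δ) := by
  have h : Measurable fun q : GC.Conf Ph × Src × Src × Ph => q.2.1 := measurable_snd.fst
  exact Measurable.mul (MWp_pI (L := L) (hΦ := hΦ) (hε := hε) (η := η) (t := t) (w := w))
    (measurable_ind (h (measurableSet_GX h₀)))

theorem gIG_le_one {V : Finset Src} : gIG L hΦ hε f₀ b a η η' θ t J δ V e m ≤ 1 := by
  unfold gIG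
  exact (mul_le_mul' (gI_le_one _ _) (ind_le_one _)).trans (one_mul _).le

theorem pIG_le_one {V : Finset Src} {σ : Src} {z' : Ph} :
    pIG L hΦ hε f₀ η η' θ t w δ V e σ z' ≤ 1 := by
  unfold pIG
  exact (mul_le_mul' (pI_le_one _ _ _) (ind_le_one _)).trans (one_mul _).le

theorem gI_eq_add : gI L hΦ hε η t = fun V e m => gIG L hΦ hε f₀ b a η η' θ t J δ V e m +
    gIB L hΦ hε f₀ b a η η' θ t J δ V e m := by
  funext V e m
  exact gI_split

theorem pI_eq_add : pI L hΦ hε η t w = fun V e σ z' => pIG L hΦ hε f₀ η η' θ t w δ V e σ z' +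
    pIB L hΦ hε f₀ η η' θ t w δ V e σ z' := by
  funext V e σ z'
  exact pI_split

section split

variable (h₀ : GoodDatum f₀ κ) (ht : 0 ≤ t) (hη : 0 < η) (hηη : η ≤ η') (hδ : δ ≠ 0)
  (hδ' : δ ≠ ∞)
include h₀ ht hη hηη hδ hδ'

theorem P2g_gI_le : P2g Φ ε L f₀ t (gI L hΦ hε η t) ≤
    P2g Φ ε L f₀ t (gIG L hΦ hε f₀ b a η η' θ t J δ) +
      δ⁻¹ * cr1 Φ ε L f₀ t (XJt L hΦ hε f₀ b a η' θ t J) := by
  rw [gI_eq_add (f₀ := f₀) (b := b) (a := a) (η' := η') (θ := θ) (J := J) (δ := δ),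
    P2g_add h₀ hΦ hε (MW_gIG h₀)]
  exact add_le_add le_rfl (P2g_le_cr h₀ hΦ hε (MW_gIB h₀) (ENNReal.inv_ne_top.2 hδ)
    fun e m => lintegral_gIB_le_t ht hη hηη hδ hδ' e m)

theorem FXg_gI_le (n : ℕ) : FXg Φ ε L f₀ b' t (gI L hΦ hε η t) n ≤
    FXg Φ ε L f₀ b' t (gIG L hΦ hε f₀ b a η η' θ t J δ) n +
      δ⁻¹ * cr2 Φ ε L f₀ b' t (XJt L hΦ hε f₀ b a η' θ t J) n := by
  rw [gI_eq_add (f₀ := f₀) (b := b) (a := a) (η' := η') (θ := θ) (J := J) (δ := δ),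
    FXg_add h₀ hΦ hε (MW_gIG h₀)]
  exact add_le_add le_rfl (FXg_le_cr h₀ hΦ hε (MW_gIB h₀) (ENNReal.inv_ne_top.2 hδ)
    (fun e m => lintegral_gIB_le_t ht hη hηη hδ hδ' e m) n)

theorem FXp_pI_le : FXp Φ ε L f₀ b' t (pI L hΦ hε η t w) ≤
    FXp Φ ε L f₀ b' t (pIG L hΦ hε f₀ η η' θ t w δ) +
      δ⁻¹ * cr2p Φ ε L f₀ b' t (rE6 L hΦ hε f₀ η' θ t) := by
  rw [pI_eq_add (f₀ := f₀) (η' := η') (θ := θ) (δ := δ), FXp_add h₀ hΦ hε (MWp_pIG h₀)]
  exact add_le_add le_rfl (FXp_le_cr h₀ hΦ hε (MWp_pIB h₀) (ENNReal.inv_ne_top.2 hδ)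
    fun e σ z' => lintegral_pIB_le ht hη hηη hδ hδ' e σ z')

theorem P9a_gI_le : P9a Φ ε L f₀ t (gI L hΦ hε η t) ≤
    P9a Φ ε L f₀ t (gIG L hΦ hε f₀ b a η η' θ t J δ) +
      δ⁻¹ * cr3a Φ ε L f₀ t (XJt L hΦ hε f₀ b a η' θ t J) := by
  rw [gI_eq_add (f₀ := f₀) (b := b) (a := a) (η' := η') (θ := θ) (J := J) (δ := δ),
    P9a_add h₀ hΦ hε (MW_gIG h₀)]
  exact add_le_add le_rfl (P9a_le_cr h₀ hΦ hε (MW_gIB h₀) (ENNReal.inv_ne_top.2 hδ)
    fun e m => lintegral_gIB_le_t ht hη hηη hδ hδ' e m)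

theorem P9b_gI_le : P9b Φ ε L f₀ t (gI L hΦ hε η t) ≤
    P9b Φ ε L f₀ t (gIG L hΦ hε f₀ b a η η' θ t J δ) +
      δ⁻¹ * cr3b Φ ε L f₀ t (XJt L hΦ hε f₀ b a η' θ t J) := by
  rw [gI_eq_add (f₀ := f₀) (b := b) (a := a) (η' := η') (θ := θ) (J := J) (δ := δ),
    P9b_add h₀ hΦ hε (MW_gIG h₀)]
  exact add_le_add le_rfl (P9b_le_cr h₀ hΦ hε (MW_gIB h₀) (ENNReal.inv_ne_top.2 hδ)
    fun e m => lintegral_gIB_le_t ht hη hηη hδ hδ' e m)

theorem P9c_pI_le : P9c Φ ε L f₀ t (pI L hΦ hε η t w) ≤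
    P9c Φ ε L f₀ t (pIG L hΦ hε f₀ η η' θ t w δ) +
      δ⁻¹ * cr3c Φ ε L f₀ t (rE6 L hΦ hε f₀ η' θ t) := by
  rw [pI_eq_add (f₀ := f₀) (η' := η') (θ := θ) (δ := δ), P9c_add h₀ hΦ hε (MWp_pIG h₀)]
  exact add_le_add le_rfl (P9c_le_cr h₀ hΦ hε (MWp_pIB h₀) (ENNReal.inv_ne_top.2 hδ)
    fun e σ z' => lintegral_pIB_le ht hη hηη hδ hδ' e σ z')

end split

/-! ### The expectation for a law of the pairs -/

/-- **The second events off the exceptional pairs, for a law of the pairs.** -/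
theorem lintegral_gIG (h₀ : GoodDatum f₀ κ) {lam : Measure (Src × Src)} [SFinite lam] :
    ∫⁻ c, ∫⁻ p, gIG L hΦ hε f₀ b a η η' θ t J δ (wS (GC.pts c)) p.1 p.2 ∂lam ∂(GC.PP f₀ ε) =
      ∫⁻ p in (BX L hΦ hε f₀ b a η' θ t J δ)ᶜ, gT6 L hΦ hε f₀ η t p.1 p.2 ∂lam := by
  classical
  have hP := GC.isProbability_PP (ε := ε) h₀
  have hm : Measurable fun q : GC.Conf Ph × (Src × Src) =>
      gIG L hΦ hε f₀ b a η η' θ t J δ (wS (GC.pts q.1)) q.2.1 q.2.2 :=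
    MW_gIG (L := L) (hΦ := hΦ) (hε := hε) (b := b) (a := a) (η := η) (η' := η') (θ := θ)
      (t := t) (J := J) (δ := δ) h₀
  rw [lintegral_lintegral_swap hm.aemeasurable, ← lintegral_indicator (measurableSet_BX h₀).compl]
  refine lintegral_congr fun p => ?_
  by_cases hp : p ∈ BX L hΦ hε f₀ b a η' θ t J δ
  · rw [indicator_of_notMem (show p ∉ (BX L hΦ hε f₀ b a η' θ t J δ)ᶜ from fun h => h hp)]
    have h1 : ∀ c : GC.Conf Ph,
        gIG L hΦ hε f₀ b a η η' θ t J δ (wS (GC.pts c)) p.1 p.2 = 0 := by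
      intro c
      unfold gIG
      rw [ind_of_not (not_not.2 hp), mul_zero]
    simp only [h1, lintegral_zero]
  · rw [indicator_of_mem (show p ∈ (BX L hΦ hε f₀ b a η' θ t J δ)ᶜ from hp)]
    refine lintegral_congr fun c => ?_
    unfold gIG
    rw [ind_of (show (p.1, p.2) ∉ BX L hΦ hε f₀ b a η' θ t J δ from hp), mul_one]
    rfl

end Vale.Agent.P119.PB
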