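import Vale.Agent.P119.IND.X1J
import Vale.Agent.P119.PB.TrickC
import Vale.Agent.P119.PB.ExAdr

/-!
# P119, block PROB, P8: the crude functional of the pairs of outgoing lines (`helper178`)

* `otA`, `isO`: the outgoing lines of a tree at the addresses;
* `twoG_le_adr`: the sum over the pairs of outgoing lines is at most the sum over the addresses;
* `mlaw1`: the law of the pairs of outgoing lines of one tree;
* **`cr1_le`**: the crude functional `cr1` of the exceptional terms of the iteration vanishes.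
-/

open MeasureTheory Filter Topology Set ProbabilityTheory
open scoped ENNReal NNReal

noncomputable section

namespace Vale.Agent.P119.PB

open M CTree KU FB RB AU FL TL EA

variable {Φ : E3 → ℝ} {ε : ℝ} {L J : ℕ} {hΦ : IsPotential Φ} {hε : 0 < ε} {f₀ : Ph → ℝ}
  {κ b b' c Tm t η θ : ℝ} {a : ℕ → ℝ≥0∞}

/-! ### Addresses of the outgoing lines -/

/-- The outgoing line at the address `o`: the root line or an exhaust. -/
def otA : Option (List Bool) → CTree → CTree
  | none, T => T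
  | some p, T => exA p T

/-- The address is valid. -/
def isO : Option (List Bool) → CTree → Prop
  | none, _ => True
  | some p, T => isA p T

theorem measurable_otA : ∀ o : Option (List Bool), Measurable (otA o)
  | none => measurable_id
  | some p => measurable_exA p

theorem measurableSet_isO : ∀ o : Option (List Bool), MeasurableSet {T : CTree | isO o T}
  | none => MeasurableSet.univ
  | some p => measurableSet_isA p

theorem otA_mem : ∀ {o : Option (List Bool)} {T : CTree}, isO o T → otA o T ∈ outs T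
  | none, _, _ => Or.inl rfl
  | some _, _, h => Or.inr (exA_mem h)

/-- The pair of addresses is valid: an exhaust and another outgoing line. -/
def Ad (p : List Bool) (o : Option (List Bool)) (T : CTree) : Prop :=
  isA p T ∧ isO o T ∧ exA p T ≠ otA o T

theorem measurableSet_Ad (p : List Bool) (o : Option (List Bool)) :
    MeasurableSet {T : CTree | Ad p o T} :=
  (measurableSet_isA p).inter ((measurableSet_isO o).inter
    (measurableSet_eq_fun (measurable_exA p) (measurable_otA o)).compl)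

/-- **The sum over the pairs of outgoing lines is at most the sum over the addresses.** -/
theorem twoG_le_adr {K : Src → Src → ℝ≥0∞} {T : CTree} (hT : ok Φ ε T) (hd : T.depth ≤ L) :
    twoG Φ ε K T ≤ ∑ p ∈ adr L, ∑ o ∈ Finset.insertNone (adr L),
      ind (Ad p o T) * K (rsrc Φ ε (exA p T)) (rsrc Φ ε (otA o T)) := by
  classical
  unfold twoG
  refine (exsum_le_adr hd _).trans (Finset.sum_le_sum fun p _ => ?_)
  by_cases hp : isA p T
  swap
  · rw [ind_of_not hp, zero_mul]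
    exact zero_le
  rw [ind_of hp, one_mul, Finset.sum_insertNone]
  refine add_le_add ?_ ?_
  · have h1 : Ad p none T := ⟨hp, trivial, fun h => exs_root_ne hT (exA_mem hp) (by rw [h]; rfl)⟩
    rw [ind_of h1, one_mul]
    exact le_rfl
  · refine (exsum_le_adr hd _).trans (Finset.sum_le_sum fun p' _ => ?_)
    by_cases hp' : isA p' T
    swap
    · rw [ind_of_not hp', zero_mul]
      exact zero_le
    rw [ind_of hp', one_mul]
    split_ifs with h
    · exact zero_le
    · have h1 : Ad p (some p') T := ⟨hp, hp', h⟩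
      rw [ind_of h1, one_mul]
      exact le_rfl

/-! ### The law -/

theorem wr_le_exp (hΦ : IsPotential Φ) (hε : ε ≠ 0) (hc : 0 < c) (S : CTree) :
    wr Φ ε S ≤ ENNReal.ofReal (1 + c⁻¹) * ENNReal.ofReal (Real.exp (c * IND.enT S)) := by
  unfold wr
  rw [← ENNReal.ofReal_mul (by positivity)]
  refine ENNReal.ofReal_le_ofReal ?_
  have h1 := IND.ln_sq_le_enT hΦ hε S
  have h0 : 0 ≤ IND.enT S := (sq_nonneg _).trans h1
  have h2 := Real.add_one_le_exp (c * IND.enT S)
  have h3 : 1 ≤ Real.exp (c * IND.enT S) := Real.one_le_exp (by positivity)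
  have h4 : c⁻¹ * (c * IND.enT S) = IND.enT S := by
    rw [← mul_assoc, inv_mul_cancel₀ hc.ne', one_mul]
  have h5 : c⁻¹ * (c * IND.enT S) ≤ c⁻¹ * Real.exp (c * IND.enT S) :=
    mul_le_mul_of_nonneg_left (by linarith) (by positivity)
  rw [h4] at h5
  nlinarith

/-- The weight of the pairs of outgoing lines. -/
def w1 (Φ : E3 → ℝ) (ε : ℝ) (L : ℕ) (t : ℝ) (p : List Bool) (o : Option (List Bool))
    (S : CTree) : ℝ≥0∞ :=
  ind (S ∈ okT Φ ε t L ∧ Ad p o S) * wr Φ ε S

theorem measurable_w1 (hΦ : IsPotential Φ) (hε : 0 < ε) (p : List Bool)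
    (o : Option (List Bool)) : Measurable (w1 Φ ε L t p o) :=
  (measurable_ind ((measurableSet_okT hΦ hε.ne' L).inter (measurableSet_Ad p o))).mul
    (measurable_wr hΦ hε.ne')

/-- **The law of the pairs of outgoing lines of one tree.** -/
theorem mlaw1 (hΦ : IsPotential Φ) (hε : 0 < ε) (hc : 0 < c) (p : List Bool)
    (o : Option (List Bool)) (s : Fin 0 → ℝ) (dl : Fin 0 → ℕ) :
    IND.MLaw Φ ε t c L (2 * 2 ^ (L + 2)) s dl (fun T : Fin 1 → CTree => fun _ => w1 Φ ε L t p o (T 0))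
      (fun T _ => rsrc Φ ε (exA p (T 0))) (fun T _ => rsrc Φ ε (otA o (T 0)))
      (ENNReal.ofReal (1 + c⁻¹)) := by
  have h0 : Measurable fun w : (Fin 1 → CTree) × (Fin 0 → Ph) => w.1 0 :=
    (measurable_pi_apply 0).comp measurable_fst
  have hne : ∀ T : Fin 1 → CTree, w1 Φ ε L t p o (T 0) ≠ 0 →
      T 0 ∈ okT Φ ε t L ∧ Ad p o (T 0) := by
    intro T h1
    by_contra h2
    unfold w1 at h1
    rw [ind_of_not h2, zero_mul] at h1
    exact h1 rfl
  refine ⟨(measurable_w1 hΦ hε p o).comp h0, RM.meas_rsrc hΦ hε ((measurable_exA p).comp h0),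
    RM.meas_rsrc hΦ hε ((measurable_otA o).comp h0), fun T l => ?_, fun i => i.elim0,
    fun T l h1 => ⟨fun j => ?_, fun i j hij => ?_, fun i => i.elim0, fun i j => j.elim0⟩,
    fun T l h1 => ?_, fun T l h1 => ?_⟩
  · have e : IND.enB T l = IND.enT (T 0) := by
      unfold IND.enB
      rw [Fin.sum_univ_zero, add_zero, Fin.sum_univ_one]
    rw [e]
    unfold w1
    exact ((mul_le_mul' (ind_le_one _) le_rfl).trans (one_mul _).le).trans
      (wr_le_exp hΦ hε.ne' hc _)
  · rw [Subsingleton.elim j 0]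
    exact (hne T h1).1.1
  · exact absurd (Subsingleton.elim i j) hij
  · obtain ⟨h2, h3⟩ := hne T h1
    exact ⟨(depth_exA h3.1).trans h2.2.2, (TL.outs_depth (otA_mem h3.2.1)).trans h2.2.2⟩
  · obtain ⟨h2, h3⟩ := hne T h1
    have e : T = fun _ : Fin 1 => T 0 := by
      funext i
      rw [Subsingleton.elim i 0]
    have h4 := (IND.Mk.of_tree (t := t) hΦ hε h2.1 h2.2.1 (Or.inr (exA_mem h3.1) :
      exA p (T 0) ∈ outs (T 0)) (otA_mem h3.2.1) h3.2.2 (IND.lns s dl l)
      (exA p (T 0)).depth (otA o (T 0)).depth).mono (IND.szB_tree_le h2.2.2)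
    rw [e]
    exact h4

/-! ### The functional -/

/-- The crude functional is at most the sum over the addresses. -/
theorem cr1_le_sum (hΦ : IsPotential Φ) (hε : 0 < ε)
    {K : Src → Src → ℝ≥0∞} (hK : Measurable fun w : Src × Src => K w.1 w.2) :
    cr1 Φ ε L f₀ t K ≤ ∑ p ∈ adr L, ∑ o ∈ Finset.insertNone (adr L), (muE ε)⁻¹ *
      ∫⁻ S, w1 Φ ε L t p o S * K (rsrc Φ ε (exA p S)) (rsrc Φ ε (otA o S))
        ∂(tree (GC.inten f₀ ε) L) := by
  have hm : ∀ (p : List Bool) (o : Option (List Bool)), Measurable fun S : CTree =>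
      w1 Φ ε L t p o S * K (rsrc Φ ε (exA p S)) (rsrc Φ ε (otA o S)) := fun p o =>
    (measurable_w1 hΦ hε p o).mul (Measurable.comp (g := fun w : Src × Src => K w.1 w.2)
      (f := fun S : CTree => ((rsrc Φ ε (exA p S), rsrc Φ ε (otA o S)) : Src × Src)) hK
      ((RM.meas_rsrc hΦ hε (measurable_exA p)).prodMk (RM.meas_rsrc hΦ hε (measurable_otA o))))
  unfold cr1
  have h1 : ∫⁻ S in okT Φ ε t L, wr Φ ε S * twoG Φ ε K S ∂(tree (GC.inten f₀ ε) L) ≤
      ∫⁻ S, ∑ p ∈ adr L, ∑ o ∈ Finset.insertNone (adr L),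
        w1 Φ ε L t p o S * K (rsrc Φ ε (exA p S)) (rsrc Φ ε (otA o S))
          ∂(tree (GC.inten f₀ ε) L) := by
    rw [← lintegral_indicator (measurableSet_okT hΦ hε.ne' L)]
    refine lintegral_mono fun S => ?_
    by_cases hS : S ∈ okT Φ ε t L
    · rw [indicator_of_mem hS]
      refine (mul_le_mul' le_rfl (twoG_le_adr hS.1 hS.2.2)).trans (le_of_eq ?_)
      rw [Finset.mul_sum]
      refine Finset.sum_congr rfl fun p _ => ?_
      rw [Finset.mul_sum]
      refine Finset.sum_congr rfl fun o _ => ?_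
      unfold w1
      by_cases hA : Ad p o S
      · rw [ind_of hA, ind_of ⟨hS, hA⟩]
        ring
      · rw [ind_of_not hA, ind_of_not fun h => hA h.2]
        ring
    · rw [indicator_of_notMem hS]
      exact zero_le
  refine (mul_le_mul' le_rfl h1).trans (le_of_eq ?_)
  rw [lintegral_finsetSum _ fun p _ => Finset.measurable_sum _ fun o _ => hm p o, Finset.mul_sum]
  refine Finset.sum_congr rfl fun p _ => ?_
  rw [lintegral_finsetSum _ fun o _ => hm p o, Finset.mul_sum]

/-- **The crude functional of the pairs of outgoing lines vanishes.** -/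
theorem cr1_lim (h₀ : GoodDatum f₀ κ) (hc : 0 < c) (hX : IND.X1J hΦ f₀ b c b') (L J : ℕ)
    (a : ℕ → ℝ≥0∞) (ha : ∑' n, a n ≠ ∞) (hT : 0 ≤ Tm) (hη : 0 < η) (hθ : 0 < θ) :
    ∃ Dl : ℝ → ℝ≥0∞, Tendsto Dl (𝓝[>] 0) (𝓝 0) ∧ ∀ (ε : ℝ) (hε : 0 < ε), ε ≤ 1 →
      ∀ t ∈ Icc 0 Tm, cr1 Φ ε L f₀ t (XJt L hΦ hε f₀ b' a η θ t J) ≤ Dl ε := by
  obtain ⟨Dl, hDl, h1⟩ := hX 1 0 L (2 * 2 ^ (L + 2)) J a Tm η θ one_pos hT hη hθ ha
  refine ⟨fun ε => ∑ _p ∈ adr L, ∑ _o ∈ Finset.insertNone (adr L),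
    ENNReal.ofReal (1 + c⁻¹) * Dl ε, ?_, ?_⟩
  · have h2 : (0 : ℝ≥0∞) = ∑ _p ∈ adr L, ∑ _o ∈ Finset.insertNone (adr L),
        ENNReal.ofReal (1 + c⁻¹) * 0 := by
      simp
    rw [h2]
    exact tendsto_finsetSum _ fun p _ => tendsto_finsetSum _ fun o _ =>
      ENNReal.Tendsto.const_mul hDl (Or.inr ENNReal.ofReal_ne_top)
  intro ε hε hε1 t ht
  refine (cr1_le_sum hΦ hε (measurable_XJt h₀)).trans
    (Finset.sum_le_sum fun p _ => Finset.sum_le_sum fun o _ => ?_)
  have h3 := h1 ε hε hε1 t ht (fun i => i.elim0) (fun i => i.elim0)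
    (fun T _ => w1 Φ ε L t p o (T 0)) (fun T _ => rsrc Φ ε (exA p (T 0)))
    (fun T _ => rsrc Φ ε (otA o (T 0))) (fun T _ => rsrc Φ ε (otA o (T 0)))
    (ENNReal.ofReal (1 + c⁻¹)) ENNReal.ofReal_ne_top (mlaw1 hΦ hε hc p o _ _)
    fun T l _ => ⟨rfl, rfl⟩
  rw [pow_zero, one_mul] at h3
  simp only [lintegral_fin_zero, Finset.univ_eq_empty, Finset.prod_empty, one_mul] at h3
  have h4 : ∫⁻ S, w1 Φ ε L t p o S * XJt L hΦ hε f₀ b' a η θ t J (rsrc Φ ε (exA p S))
      (rsrc Φ ε (otA o S)) ∂(tree (GC.inten f₀ ε) L) ≤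
      ENNReal.ofReal (1 + c⁻¹) * (muE ε * Dl ε) := by
    refine le_trans ?_ h3
    rw [IND.L2.lintegral_fin_one' (tree (GC.inten f₀ ε) L) (fun S => w1 Φ ε L t p o S *
      XJ L hΦ hε f₀ b' a η θ t J (rsrc Φ ε (exA p S)) (rsrc Φ ε (otA o S)))]
    exact lintegral_mono fun S => mul_le_mul' le_rfl XJt_le
  calc _ ≤ (muE ε)⁻¹ * (ENNReal.ofReal (1 + c⁻¹) * (muE ε * Dl ε)) := mul_le_mul' le_rfl h4
    _ = ((muE ε)⁻¹ * muE ε) * (ENNReal.ofReal (1 + c⁻¹) * Dl ε) := by ring
    _ ≤ 1 * (ENNReal.ofReal (1 + c⁻¹) * Dl ε) :=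
      mul_le_mul' (ENNReal.inv_mul_le_one _) le_rfl
    _ = _ := one_mul _

end Vale.Agent.P119.PB
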