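import Vale.Agent.P119.PB.Int6
import Vale.Agent.P119.PB.Iter
import Vale.Agent.P119.FB.IrrF

/-!
# P119, block PROB: second events, the integrated step (`helper178`)

* `exc6`: the exceptional terms;
* `gT6_le`: the integrated step for the second events, from CAP0;
* `overX_le`: creation of a too deep tree;
* measurability of the terms as functions of `m`; `KOp_cut`.
-/

open MeasureTheory Filter Topology Set ProbabilityTheory
open scoped ENNReal NNReal

noncomputable section

namespace Vale.Agent.P119.PB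

open M CTree KU FB RB AU FL TL

variable {Φ : E3 → ℝ} {ε : ℝ} {L : ℕ} {hΦ : IsPotential Φ} {hε : 0 < ε} {f₀ : Ph → ℝ}
  {κ b Tm t η η' w u θ : ℝ} {σ e m : Src}

variable (L hΦ hε) in
open Classical in
/-- The exceptional terms for one configuration. -/
def ex6 (η θ t : ℝ) (U : Finset Src) (e m : Src) : ℝ≥0∞ :=
  ind (TE L hΦ hε η t U e ∧ I6 L hΦ hε θ t (IrrU Φ ε L U m t) U e m) +
    relHit L hΦ hε t (fun V T => ¬NoExc Φ ε L t m V T) U e m +
    sumHit Φ ε L t m (B6 L hΦ hε θ t (fun V T => ¬NoExc Φ ε L t m V T) e m) U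

variable (L hΦ hε) in
/-- **The exceptional terms.** -/
def exc6 (f₀ : Ph → ℝ) (η θ t : ℝ) (e m : Src) : ℝ≥0∞ :=
  ∫⁻ c, ex6 L hΦ hε η θ t (wS (GC.pts c)) e m ∂(GC.PP f₀ ε)

theorem ex6_mono (h0 : 0 < η) (h : η ≤ η') (ht : 0 ≤ t) {U : Finset Src} :
    ex6 L hΦ hε η θ t U e m ≤ ex6 L hΦ hε η' θ t U e m := by
  unfold ex6
  exact add_le_add (add_le_add (ind_mono fun h1 => ⟨TE_mono h0 h ht h1.1, h1.2⟩) le_rfl) le_rfl

theorem exc6_mono (h0 : 0 < η) (h : η ≤ η') (ht : 0 ≤ t) :
    exc6 L hΦ hε f₀ η θ t e m ≤ exc6 L hΦ hε f₀ η' θ t e m :=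
  lintegral_mono fun _ => ex6_mono h0 h ht

theorem tE6_mono (h0 : 0 < η) (h : η ≤ η') (ht : 0 ≤ t) :
    tE6 L hΦ hε f₀ η t e ≤ tE6 L hΦ hε f₀ η' t e :=
  lintegral_mono fun _ => ind_mono (TE_mono h0 h ht)

theorem gT6_le_tE6 : gT6 L hΦ hε f₀ η t e m ≤ tE6 L hΦ hε f₀ η t e :=
  lintegral_mono fun _ => GGL_le_TE

theorem gT6_of_depth (h : L < m.2.2) : gT6 L hΦ hε f₀ η t e m = 0 := by
  unfold gT6 GGL
  simp only [if_neg (not_le.2 h), lintegral_zero]

theorem sS6_mono (h0 : 0 < η) (h : η ≤ η') (ht : 0 ≤ t) :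
    sS6 L hΦ hε f₀ η t w u e m ≤ sS6 L hΦ hε f₀ η' t w u e m :=
  lintegral_mono fun _ => S6_mono h0 h ht

theorem pG6_mono {α : ℕ → ℝ≥0∞} (h0 : 0 < η) (h : η ≤ η') (ht : 0 ≤ t) :
    pG6 L hΦ hε f₀ b α η t w e m ≤ pG6 L hΦ hε f₀ b α η' t w e m := by
  unfold pG6
  refine mul_le_mul' le_rfl (ENNReal.tsum_le_tsum fun n => mul_le_mul' le_rfl ?_)
  exact lintegral_mono fun z' => mul_le_mul' le_rfl
    (lintegral_mono fun c => ind_mono (PairG_mono h0 h ht))

theorem yG6_mono {α : ℕ → ℝ≥0∞} (h0 : 0 < η) (h : η ≤ η') (ht : 0 ≤ t) :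
    yG6 L hΦ hε f₀ b α η t u e m ≤ yG6 L hΦ hε f₀ b α η' t u e m := by
  unfold yG6
  exact mul_le_mul' le_rfl (tE6_mono h0 h ht)

theorem lintegral_add4 {Ω : Type*} [MeasurableSpace Ω] {P : Measure Ω}
    {f₁ f₂ f₃ f₄ : Ω → ℝ≥0∞} (h₁ : Measurable f₁) (h₂ : Measurable f₂) (h₃ : Measurable f₃) :
    ∫⁻ c, (f₁ c + f₂ c + f₃ c + f₄ c) ∂P =
      (∫⁻ c, f₁ c ∂P) + (∫⁻ c, f₂ c ∂P) + (∫⁻ c, f₃ c ∂P) + ∫⁻ c, f₄ c ∂P := by
  have a2 : Measurable fun c => f₁ c + f₂ c := h₁.add h₂
  have a3 : Measurable fun c => f₁ c + f₂ c + f₃ c := a2.add h₃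
  rw [lintegral_add_left a3, lintegral_add3 h₁ h₂]

/-- **The integrated step for the second events.** -/
theorem gT6_le (h₀ : GoodDatum f₀ κ) (ht : 0 ≤ t) (htT : t ≤ Tm) (hη : 0 < η) (hηη : η < η')
    (hw : t ≤ w) (he0 : 0 ≤ e.1) (hed : e.2.2 ≤ L) (hm0 : 0 ≤ m.1) {α : ℕ → ℝ≥0∞}
    {ν : GC.Conf Ph → Measure Src} (hcap : CapI Φ ε L f₀ b Tm α ν) :
    gT6 L hΦ hε f₀ η t e m ≤ sS6 L hΦ hε f₀ η' t w u e m +
      (pG6 L hΦ hε f₀ b (fun n => α n * ENNReal.ofReal (1 + Tm)) η' t w e m +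
        KOp Φ ε b t (fun n => α n * ENNReal.ofReal (1 + Tm)) (gT6 L hΦ hε f₀ η' t e) m +
        yG6 L hΦ hε f₀ b (fun n => α n * ENNReal.ofReal (1 + Tm)) η' t u e m +
        5 * atyS (GC.PP f₀ ε) ν ε t m) +
      overX f₀ Φ ε L t m + exc6 L hΦ hε f₀ η (η' - η) t e m := by
  classical
  by_cases hmd : m.2.2 ≤ L
  swap
  · rw [gT6_of_depth (not_le.1 hmd)]
    exact zero_le
  have hrm : MM.RS fun p : GC.Conf Ph × CTree => (rm (wS (GC.pts p.1)) p.2 : Set Src) :=
    rs_rm (RM.rs_conf.comp measurable_fst) measurable_snd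
  have hln : Measurable fun p : GC.Conf Ph × CTree => ln Φ ε p.2 :=
    (M.measurable_ln hΦ hε.ne').comp measurable_snd
  have hdp : Measurable fun p : GC.Conf Ph × CTree => p.2.depth :=
    M.measurable_depth.comp measurable_snd
  have hover : ∀ {X : Type} [MeasurableSpace X] {T : X → CTree}, Measurable T →
      Measurable fun x => ovr L m (T x) := by
    intro X _ T hT
    have h1 : Measurable fun x => max m.2.2 (T x).depth + 1 :=
      (measurable_const.max (M.measurable_depth.comp hT)).add_const 1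
    exact Measurable.ite (h1 (measurableSet_Ioi (a := L))) measurable_const measurable_const
  have m1 : Measurable fun c : GC.Conf Ph => S6 L hΦ hε η' t w u (wS (GC.pts c)) e m :=
    measurable_S6 RM.rs_conf measurable_const measurable_const measurable_const
      measurable_const measurable_const measurable_const
  have m2 : Measurable fun c : GC.Conf Ph => sumHit Φ ε L t m
      (fun V T => main6 L hΦ hε η' t w u V e m (ln Φ ε T) T.depth) (wS (GC.pts c)) :=
    measurable_sumHit hΦ hε (measurable_main6 hrm measurable_const measurable_const hln hdp)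
  have m3 : Measurable fun c : GC.Conf Ph => sumHit Φ ε L t m
      (fun _ T => ovr L m T) (wS (GC.pts c)) :=
    measurable_sumHit hΦ hε (hover measurable_snd)
  have hpt : ∀ c : GC.Conf Ph, Pt6 L hΦ hε η η' t w u (wS (GC.pts c)) e m
      (IrrU Φ ε L (wS (GC.pts c)) m t) (fun V T => ¬NoExc Φ ε L t m V T) := by
    intro c
    refine pt6_of_step hη hηη ht hw (fun a ha => ⟨wS_nonneg _ a ha, wS_depth _ a ha⟩) he0 hed
      hm0 (I₀ := ¬M.Good Φ ε L (wS (GC.pts c)) (fun a : Src => ({a} : Finset Src)) {e, m} t ∨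
        IrrU Φ ε L (wS (GC.pts c)) m t) (fun hG h => h.resolve_left (not_not_intro hG))
      fun _ => stepHyp_irrU (fun V T h => not_not.1 h) fun a ha => ?_
    rcases Finset.mem_insert.1 ha with rfl | ha
    · exact ⟨hm0, hmd⟩
    · rcases Finset.mem_insert.1 ha with rfl | ha
      · exact ⟨he0, hed⟩
      · exact ⟨wS_nonneg _ a ha, wS_depth _ a ha⟩
  calc gT6 L hΦ hε f₀ η t e m
      ≤ ∫⁻ c, (S6 L hΦ hε η' t w u (wS (GC.pts c)) e m +
        sumHit Φ ε L t m (fun V T => main6 L hΦ hε η' t w u V e m (ln Φ ε T) T.depth)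
          (wS (GC.pts c)) +
        sumHit Φ ε L t m (fun _ T => ovr L m T) (wS (GC.pts c)) +
        ex6 L hΦ hε η (η' - η) t (wS (GC.pts c)) e m) ∂(GC.PP f₀ ε) := by
        refine lintegral_mono fun c => ?_
        have h := hpt c
        unfold Pt6 at h
        unfold ex6
        exact h
    _ = sS6 L hΦ hε f₀ η' t w u e m +
        (∫⁻ c, sumHit Φ ε L t m (fun V T => main6 L hΦ hε η' t w u V e m (ln Φ ε T) T.depth)
          (wS (GC.pts c)) ∂(GC.PP f₀ ε)) +
        (∫⁻ c, sumHit Φ ε L t m (fun _ T => ovr L m T) (wS (GC.pts c)) ∂(GC.PP f₀ ε)) +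
        exc6 L hΦ hε f₀ η (η' - η) t e m := lintegral_add4 m1 m2 m3
    _ ≤ _ := by
        refine add_le_add (add_le_add (add_le_add le_rfl ?_) ?_) le_rfl
        · refine le_trans (sum_hit_le h₀ hΦ hε
            (G := fun V T => main6 L hΦ hε η' t w u V e m (ln Φ ε T) T.depth) ?_)
            (XI_main6_le h₀ htT (ht.trans htT) hcap)
          exact measurable_main6 (RM.rs_conf.comp measurable_snd) measurable_const
            measurable_const ((M.measurable_ln hΦ hε.ne').comp measurable_fst)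
            (M.measurable_depth.comp measurable_fst)
        · exact sum_hit_le h₀ hΦ hε (G := fun _ T => ovr L m T) (hover measurable_fst)

/-! ### The terms as functions of the line -/

section meas

variable (h₀ : GoodDatum f₀ κ)
include h₀

theorem measurable_gT6 : Measurable (gT6 L hΦ hε f₀ η t e) := by
  have := GC.isProbability_PP (ε := ε) h₀
  have h2 : Measurable fun p : Src × GC.Conf Ph =>
      GGL L hΦ hε η t (wS (GC.pts p.2)) e p.1 :=
    measurable_GGL (MM.RS.comp RM.rs_conf measurable_snd) measurable_const measurable_const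
      measurable_const measurable_fst
  exact h2.lintegral_prod_right'

theorem measurable_sS6 : Measurable (sS6 L hΦ hε f₀ η t w u e) := by
  have := GC.isProbability_PP (ε := ε) h₀
  have h2 : Measurable fun p : Src × GC.Conf Ph =>
      S6 L hΦ hε η t w u (wS (GC.pts p.2)) e p.1 :=
    measurable_S6 (MM.RS.comp RM.rs_conf measurable_snd) measurable_const measurable_const
      measurable_const measurable_const measurable_const measurable_fst
  exact h2.lintegral_prod_right'

theorem measurable_pG6 {α : ℕ → ℝ≥0∞} : Measurable (pG6 L hΦ hε f₀ b α η t w e) := by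
  have := GC.isProbability_PP (ε := ε) h₀
  have h2 : Measurable fun p : (Src × Ph) × GC.Conf Ph =>
      ind (PairG L hΦ hε η t w (wS (GC.pts p.2)) e p.1.1 p.1.2) :=
    measurable_ind (measurableSet_PairG (MM.RS.comp RM.rs_conf measurable_snd)
      measurable_const measurable_const measurable_const measurable_const
      (measurable_fst.comp measurable_fst) (measurable_snd.comp measurable_fst))
  have h3 : Measurable fun p : Src × Ph => ∫⁻ c,
      ind (PairG L hΦ hε η t w (wS (GC.pts c)) e p.1 p.2) ∂(GC.PP f₀ ε) :=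
    h2.lintegral_prod_right'
  have h4 : Measurable fun m : Src => ∫⁻ z' : Ph, gw b z'.2 * ∫⁻ c,
      ind (PairG L hΦ hε η t w (wS (GC.pts c)) e m z') ∂(GC.PP f₀ ε) :=
    (((measurable_gw b).comp (measurable_snd.comp measurable_snd)).mul h3).lintegral_prod_right'
      (ν := (volume : Measure Ph))
  exact Measurable.const_mul (Measurable.tsum fun n => Measurable.const_mul h4 _) _

omit h₀ in
theorem measurable_hitGw (b t u : ℝ) : Measurable fun m : Src =>
    ∫⁻ z' in {z' : Ph | hitI ε t m z' ∧ hitT ε (m.2.1, z') < u}, gw b z'.2 := by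
  have hq : Measurable fun p : Src × Ph => (p.1.2.1, p.2) :=
    (measurable_fst.comp (measurable_snd.comp measurable_fst)).prodMk measurable_snd
  have hh : Measurable fun p : Src × Ph => hitT ε (p.1.2.1, p.2) := measurable_hitT.comp hq
  have hS : MeasurableSet {p : Src × Ph | hitI ε t p.1 p.2 ∧ hitT ε (p.1.2.1, p.2) < u} :=
    (measurableSet_hitI (t := t) (ε := ε) measurable_fst measurable_snd).inter
      (measurableSet_lt hh measurable_const)
  have h2 : Measurable fun p : Src × Ph => {p : Src × Ph | hitI ε t p.1 p.2 ∧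
      hitT ε (p.1.2.1, p.2) < u}.indicator (fun p => gw b p.2.2) p :=
    ((measurable_gw b).comp (measurable_snd.comp measurable_snd)).indicator hS
  have h3 := h2.lintegral_prod_right' (ν := (volume : Measure Ph))
  have e : (fun m : Src => ∫⁻ z' in {z' : Ph | hitI ε t m z' ∧ hitT ε (m.2.1, z') < u},
      gw b z'.2) = fun m : Src => ∫⁻ z' : Ph, {p : Src × Ph | hitI ε t p.1 p.2 ∧
      hitT ε (p.1.2.1, p.2) < u}.indicator (fun p => gw b p.2.2) (m, z') := by
    funext m
    rw [← lintegral_indicator (s := {z' : Ph | hitI ε t m z' ∧ hitT ε (m.2.1, z') < u})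
      (measurable_prodMk_left (x := m) hS)]
    rfl
  rw [e]
  exact h3

omit h₀ in
theorem measurable_yG6 {α : ℕ → ℝ≥0∞} : Measurable (yG6 L hΦ hε f₀ b α η t u e) :=
  ((measurable_hitGw b t u).const_mul _).mul_const _

end meas

end Vale.Agent.P119.PB
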