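import Vale.Agent.P119.PB.Def6
import Vale.Agent.P119.FB.Guard

/-!
# P119, block PROB: the pointwise inequality for the second events (`helper178`)

`pt6_of_step`: the inequality `Pt6` from the deterministic step `StepHyp` for the line `m` and the
world `U + e`.
-/

open MeasureTheory Filter Topology Set
open scoped ENNReal NNReal

noncomputable section

namespace Vale.Agent.P119.PB

open M CTree KU FB RB AU FL TL

variable {Φ : E3 → ℝ} {ε : ℝ} {L : ℕ} {hΦ : IsPotential Φ} {hε : 0 < ε}
  {U V W : Finset Src} {m l e : Src} {s t η η' w u τ : ℝ} {T : CTree}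

theorem one_le_fresh {θ : Src → ℝ≥0∞} (hm : Frs Φ ε l T m) (hmt : m.1 ≤ t) (h : 1 ≤ θ m) :
    1 ≤ fresh Φ ε t θ l (ln Φ ε T) T.depth := by
  unfold fresh
  cases hm with
  | out1 =>
    refine le_trans ?_ (le_add_right (le_add_right (le_refl _)))
    rw [indicator_of_mem (mem_Iic.2 hmt)]
    exact h
  | out2 =>
    refine le_trans ?_ (le_add_right (le_add_left (le_refl _)))
    rw [indicator_of_mem (mem_Iic.2 hmt)]
    exact h
  | old =>
    refine le_trans ?_ (le_add_left (le_refl _))
    rw [indicator_of_mem (mem_Iic.2 hmt)]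
    exact h

open Classical in
/-- A tree which is hit by `m` is alive without `e`. -/
theorem alive_of_good (hG : M.Good Φ ε L U (fun a : Src => ({a} : Finset Src)) {e, m} t)
    (hem : e ≠ m) (h : HitU L hΦ hε (insert e U) m T τ) (hτ : τ ≤ t) (hm0 : 0 ≤ m.1)
    (hmd : m.2.2 ≤ L) : alive Φ ε L (U : Set Src) T (hitT ε (m.2.1, ln Φ ε T)) := by
  by_contra hna
  have he' : e ∈ ({e, m} : Finset Src) := Finset.mem_insert_self _ _
  have hm' : m ∈ ({e, m} : Finset Src) := Finset.mem_insert_of_mem (Finset.mem_singleton_self _)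
  have heU : e ∉ U := fun hc =>
    Finset.disjoint_left.1 (hG.disjV e he') hc (Finset.mem_singleton_self _)
  have hmU : m ∉ U := fun hc =>
    Finset.disjoint_left.1 (hG.disjV m hm') hc (Finset.mem_singleton_self _)
  obtain ⟨S, hS⟩ : ∃ S, S = hitT ε (m.2.1, ln Φ ε T) := ⟨_, rfl⟩
  have hSt : S ≤ t := by rw [hS]; exact h.le.trans hτ
  have hbirth := h.birth
  have hext := h.ext
  have halive := h.alive
  have hfree := h.free
  rw [← hS] at hbirth hext halive hfree hna
  -- the worlds
  have w0 : M.wF U (fun a : Src => ({a} : Finset Src)) ∅ = U := M.wF_empty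
  have w1 : M.wF U (fun a : Src => ({a} : Finset Src)) {m} = insert m U := by
    ext a; simp [M.mem_wF, or_comm]
  have w2 : M.wF U (fun a : Src => ({a} : Finset Src)) {e} = insert e U := by
    ext a; simp [M.mem_wF, or_comm]
  have w3 : M.wF U (fun a : Src => ({a} : Finset Src)) {e, m} = insert m (insert e U) := by
    ext a; simp only [M.mem_wF, Finset.mem_insert, Finset.mem_singleton]
    constructor
    · rintro (ha | ⟨j, rfl | rfl, rfl⟩)
      · exact Or.inr (Or.inr ha)
      · exact Or.inr (Or.inl rfl)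
      · exact Or.inl rfl
    · rintro (rfl | rfl | ha)
      · exact Or.inr ⟨_, Or.inr rfl, rfl⟩
      · exact Or.inr ⟨_, Or.inl rfl, rfl⟩
      · exact Or.inl ha
  have hl : live Φ ε L ((insert m (insert e U) : Finset Src) : Set Src) (leaf m) S :=
    live_leaf_of hΦ hε (Finset.finite_toSet _) (Finset.mem_coe.2 (Finset.mem_insert_self _ _)) hm0
      hmd hbirth.le hfree
  obtain ⟨i, hi⟩ := hG.sta_dep hΦ hε m
  have him : i = m := by
    by_contra hne
    have h1 := hi {m} ∅ (Finset.singleton_subset_iff.2 hm') (Finset.empty_subset _)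
      (by simp [hne]) S hSt
    have h2 := mem_of_sta h1
    rw [w0, w1] at h2
    exact hmU (Finset.mem_coe.1 (h2.1 (Finset.mem_coe.2 (Finset.mem_insert_self _ _))))
  subst him
  have hst : ∀ r ≤ t, stat Φ ε L ((insert i (insert e U) : Finset Src) : Set Src) i r =
      stat Φ ε L ((insert i U : Finset Src) : Set Src) i r := by
    intro r hr
    have h1 := hi {e, i} {i} (Finset.Subset.refl _) (Finset.singleton_subset_iff.2 hm')
      (by simp) r hr
    rw [w1, w3] at h1
    exact stat_of_sta h1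
  have hl' : live Φ ε L ((insert i U : Finset Src) : Set Src) (leaf i) S :=
    live_congr hΦ hε (Finset.finite_toSet _) (Finset.finite_toSet _)
      (fun _ => Finset.mem_coe.2 (Finset.mem_insert_self _ _))
      (fun r hr => hst r (hr.le.trans hSt)) hl (Or.inr rfl)
  refine hG.ni.nohit i hm' e he' hem.symm S hSt (leaf i) T ?_ ?_ ?_
  · simp only [w0, w1]
    intro hiff
    exact hmU (Finset.mem_coe.1 ((hiff.2 hl').sub (mem_singleton i)))
  · simp only [w0, w2]
    intro hiff
    exact hna (hiff.2 halive)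
  · refine ⟨hbirth.le, hext.le, fun hiT => ?_, ?_⟩
    · have h1 := Finset.mem_coe.1 (h.sub hiT)
      rcases Finset.mem_insert.1 h1 with h1 | h1
      · exact hem h1.symm
      · exact hmU h1
    · rw [hS]
      exact ctc_hitT hε h.meets

open Classical in
/-- A tree which is hit by `m` does not contain `e`. -/
theorem not_mem_of_good (hG : M.Good Φ ε L U (fun a : Src => ({a} : Finset Src)) {e, m} t)
    (hem : e ≠ m) (h : HitU L hΦ hε (insert e U) m T τ) (hτ : τ ≤ t) (hm0 : 0 ≤ m.1)
    (hmd : m.2.2 ≤ L) : e ∉ T.leaves := by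
  intro heT
  have heU : e ∉ U := fun hc => Finset.disjoint_left.1
    (hG.disjV e (Finset.mem_insert_self _ _)) hc (Finset.mem_singleton_self _)
  exact heU (Finset.mem_coe.1 ((alive_pre (alive_of_good hG hem h hτ hm0 hmd)).sub heT))

open Classical in
theorem rm_insert (heT : e ∉ T.leaves) : rm (insert e U) T = insert e (rm U T) := by
  ext a
  rw [mem_rm, Finset.mem_insert, Finset.mem_insert, mem_rm]
  constructor
  · rintro ⟨rfl | h1, h2⟩
    · exact Or.inl rfl
    · exact Or.inr ⟨h1, h2⟩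
  · rintro (rfl | ⟨h1, h2⟩)
    · exact ⟨Or.inl rfl, heT⟩
    · exact ⟨Or.inr h1, h2⟩

open Classical in
theorem one_le_main6_new {V : Finset Src} (hm : Frs Φ ε l T m) (hmt : m.1 ≤ t)
    (h : 1 ≤ GGL L hΦ hε η t V e m) :
    1 ≤ main6 L hΦ hε η t w u V e l (ln Φ ε T) T.depth := by
  unfold main6
  exact le_add_right (le_add_left (one_le_fresh hm hmt h))

theorem Frs_depth (hT : T.depth ≤ L) (hd : max l.2.2 T.depth + 1 ≤ L) (hm : Frs Φ ε l T m) :
    m.2.2 ≤ L := by
  cases hm with
  | out1 => exact hd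
  | out2 => exact hd
  | old => exact hT

open Classical in
theorem Loc4 (hΦ : IsPotential Φ) (hε : 0 < ε) {P Q R V : Finset Src}
    (h : ∀ A ∈ ({P, Q, R, V} : Set (Finset Src)), ∀ a ∈ A, 0 ≤ a.1 ∧ a.2.2 ≤ L) {σ : ℝ}
    (hsq : FB.Sys.Square (RB.Y Φ ε L hΦ hε) P Q R V σ)
    (h1 : ∀ s < σ, ¬(RB.Y Φ ε L hΦ hε).Touch Q V s) (h2 : (RB.Y Φ ε L hΦ hε).Touch R V σ) :
    (RB.Y Φ ε L hΦ hε).Touch P Q σ :=
  hsq.guard_tie (fun A hA B hB => Y_loc hΦ hε (fun a ha => (h A hA a ha).1)
    fun a ha => (h B hB a ha).1) (fun A hA _ _ => Y_Part hΦ hε (h A hA)) h1 h2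

open Classical in
/-- **The pointwise inequality for the second events** from the deterministic step. -/
theorem pt6_of_step (hη : 0 < η) (hηη : η < η') (ht : 0 ≤ t) (hw : t ≤ w)
    (hU : ∀ a ∈ U, 0 ≤ a.1 ∧ a.2.2 ≤ L) (he0 : 0 ≤ e.1) (hed : e.2.2 ≤ L) (hm0 : 0 ≤ m.1)
    {I₀ I : Prop} (hII : M.Good Φ ε L U (fun a : Src => ({a} : Finset Src)) {e, m} t → I₀ → I)
    {E : Finset Src → CTree → Prop}
    (hstep : m.2.2 ≤ L → StepHyp L hΦ hε t I₀ E (insert e U) m) :
    Pt6 L hΦ hε η η' t w u U e m I E := by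
  unfold Pt6
  by_cases hmd : m.2.2 ≤ L
  swap
  · unfold GGL
    rw [if_neg hmd]
    exact zero_le
  by_cases hG : GG L hΦ hε η t U e m
  swap
  · unfold GGL
    rw [if_pos hmd, ind_of_not hG]
    exact zero_le
  have hL : GGL L hΦ hε η t U e m = 1 := by
    unfold GGL
    rw [if_pos hmd, ind_of hG]
  rw [hL]
  obtain ⟨hTE, hTm⟩ := hG
  obtain ⟨W, hW⟩ : ∃ W, W = insert e U := ⟨_, rfl⟩
  obtain ⟨h, hh⟩ : ∃ h, h = hz L hΦ hε η t W := ⟨_, rfl⟩
  rw [← hW, ← hh] at hTE hTm
  have hht : h ≤ t := by rw [hh]; exact hz_le hη ht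
  have heU : e ∉ U := by
    intro hc
    rw [hW, Finset.insert_eq_of_mem hc] at hTE
    exact not_touch_self hTE
  have hmW : m ∉ W := by
    intro hc
    rw [Finset.insert_eq_of_mem hc] at hTm
    exact not_touch_self hTm
  have hem : e ≠ m := by
    rintro rfl
    exact hmW (by rw [hW]; exact Finset.mem_insert_self _ _)
  have hWb : ∀ a ∈ W, 0 ≤ a.1 ∧ a.2.2 ≤ L := by
    intro a ha
    rw [hW] at ha
    rcases Finset.mem_insert.1 ha with rfl | ha
    · exact ⟨he0, hed⟩
    · exact hU a ha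
  have hU0 : ∀ a ∈ U, 0 ≤ a.1 := fun a ha => (hU a ha).1
  have hW0 : ∀ a ∈ W, 0 ≤ a.1 := fun a ha => (hWb a ha).1
  -- monotonicity in the level
  have hη' : 0 < η' := hη.trans hηη
  have hhz : ∀ V : Finset Src, hz L hΦ hε η t V ≤ hz L hΦ hε η' t V := fun V =>
    hz_mono_left hηη.le hη ht
  have hh' : h ≤ hz L hΦ hε η' t W := hh ▸ hhz W
  have hTE' : TE L hΦ hε η' t U e := by
    unfold TE
    rw [← hW]
    exact hTE.mono hh'
  have hTE1 : TE L hΦ hε η t U e := by
    unfold TE
    rw [← hW, ← hh]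
    exact hTE
  -- exceptional terms without a partner
  by_cases hI : I6 L hΦ hε (η' - η) t I U e m
  · rw [ind_of (p := TE L hΦ hε η t U e ∧ _) ⟨hTE1, hI⟩]
    exact le_add_left (le_add_right (le_add_right (le_refl _)))
  have hI1 : ¬I := fun h => hI (Or.inl h)
  have hgood : M.Good Φ ε L U (fun a : Src => ({a} : Finset Src)) {e, m} t := by
    by_contra hc
    exact hI (Or.inr (Or.inl hc))
  have hR1 : relW L hΦ hε W U t ≤ ENNReal.ofReal ((η' - η) * mu ε) := by
    rw [hW]
    exact not_lt.1 fun hc => hI (Or.inr (Or.inr hc))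
  -- the first touch of `m`
  obtain ⟨τ, hτ, h1, h2⟩ := FB.Sys.Touch.first hTm
  have hstep' := hstep hmd τ h h1.nonneg hτ hht
  rw [← hW] at hstep'
  rcases hstep' h1 h2 with h3 | h3 | ⟨T, hH, hC⟩
  · have h4 : DirG L hΦ hε η' t w U e m := by
      refine ⟨hTE', DirC_of_direct (η := η') (w := w) (H := τ) ?_ (le_min ?_ ?_)⟩
      · rw [← hW]; exact h3
      · rw [← hW]; exact hτ.trans hh'
      · exact ((hτ.trans hht).trans hw).trans (by linarith)
    unfold S6
    rw [ind_of h4]
    exact le_add_right (le_add_right (le_add_right (le_add_right (le_add_right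
      (le_add_right (le_refl _))))))
  · exact absurd (hII hgood h3) hI1
  -- the tree `T` which is hit
  have heT : e ∉ T.leaves := by
    refine not_mem_of_good (hΦ := hΦ) (hε := hε) (τ := τ) hgood hem ?_ (hτ.trans hht) hm0 hmd
    rw [← hW]; exact hH
  have hTU : T.leaves ⊆ (U : Set Src) := by
    intro a ha
    have h5 := Finset.mem_coe.1 (hH.sub ha)
    rw [hW] at h5
    rcases Finset.mem_insert.1 h5 with rfl | h5
    · exact absurd ha heT
    · exact Finset.mem_coe.2 h5
  have hT : T ∈ trs L U := mem_trs.2 ⟨hTU, hH.depth⟩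
  obtain ⟨S, hS⟩ : ∃ S, S = hitT ε (m.2.1, ln Φ ε T) := ⟨_, rfl⟩
  have hSτ : S ≤ τ := by rw [hS]; exact hH.le
  have hSh : S ≤ h := hSτ.trans hτ
  have hmS : m.1 < S := by rw [hS]; exact hH.birth
  have hxS : M.CTree.ext Φ ε T < S := by rw [hS]; exact hH.ext
  have haS : alive Φ ε L (W : Set Src) T S := by rw [hS]; exact hH.alive
  have hxt : M.CTree.ext Φ ε T ≤ t := hxS.le.trans (hSh.trans hht)
  have haW : alive Φ ε L (W : Set Src) T (M.CTree.ext Φ ε T) := alive_anti haS hxS.le le_rfl
  have hrm : rm W T = insert e (rm U T) := by rw [hW]; exact rm_insert heT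
  -- the tree is alive in `U`
  have haS' : alive Φ ε L (U : Set Src) T (hitT ε (m.2.1, ln Φ ε T)) := by
    refine alive_of_good (hΦ := hΦ) (hε := hε) (τ := τ) hgood hem ?_ (hτ.trans hht) hm0 hmd
    rw [← hW]; exact hH
  have haU : alive Φ ε L (U : Set Src) T (M.CTree.ext Φ ε T) := by
    refine alive_anti (t := S) ?_ hxS.le le_rfl
    rw [hS]
    exact haS'
  have hHU : HitC Φ ε L t U m T :=
    ⟨hH.meets, hH.birth, by rw [← hS]; exact hSh.trans hht, hxt, haU⟩
  -- the base worlds
  obtain ⟨P, hP⟩ : ∃ P, P = rm U T := ⟨_, rfl⟩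
  obtain ⟨V, hV⟩ : ∃ V, V = insert e P := ⟨_, rfl⟩
  have hrm' : rm W T = V := by rw [hrm, hV, hP]
  have hadd : addT V T = W := by rw [← hrm']; exact addT_rm hH.sub
  have haddU : addT P T = U := by rw [hP]; exact addT_rm hTU
  have h6 : Hit6 L hΦ hε t P e m T := by
    refine ⟨⟨⟨hH.ext, ?_⟩, fun q hq => ?_⟩, ?_, heT, ?_⟩
    · rw [← hV, hadd]; exact hH.alive
    · rw [← hV, hadd]; exact hH.unexp q hq
    · rw [haddU]; exact hgood
    · rw [haddU]; exact haS'
  by_cases hB : 1 ≤ B6 L hΦ hε (η' - η) t E e m P T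
  · have := ind_le_sumHit (G := B6 L hΦ hε (η' - η) t E e m) hT hHU (hP ▸ hB)
    exact le_add_left (le_add_left this)
  have hE : ¬E V T := by
    intro h
    refine hB ?_
    unfold B6
    rw [← hV]
    exact le_add_right (ind_of (p := _ ∧ _) ⟨h6, h⟩).ge
  have hR2 : relW L hΦ hε W V t ≤ ENNReal.ofReal ((η' - η) * mu ε) := by
    refine not_lt.1 fun h => hB ?_
    unfold B6
    rw [← hV, hadd]
    exact le_add_left (ind_of (p := _ ∧ _ ∧ _) ⟨h6, hE, h⟩).ge
  by_cases hsq : FB.Sys.Square (RB.Y Φ ε L hΦ hε) P V U W t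
  swap
  · have h5 : 1 ≤ relHit L hΦ hε t E U e m := by
      unfold relHit
      refine ind_le_sumHit (G := fun V T => ind (Hit6 L hΦ hε t V e m T ∧ ¬E (insert e V) T ∧
        ¬FB.Sys.Square (RB.Y Φ ε L hΦ hε) V (insert e V) (addT V T) (addT (insert e V) T) t))
        hT hHU ?_
      beta_reduce
      rw [← hP, ← hV, hadd, haddU]
      exact (ind_of (p := _ ∧ _ ∧ _) ⟨h6, hE, hsq⟩).ge
    exact le_add_left (le_add_right (le_add_left h5))
  have hP0 : ∀ a ∈ P, 0 ≤ a.1 ∧ a.2.2 ≤ L := fun a ha => by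
    rw [hP] at ha
    exact hU a (mem_rm.1 ha).1
  have hVb : ∀ a ∈ V, 0 ≤ a.1 ∧ a.2.2 ≤ L := by
    intro a ha
    rw [hV] at ha
    rcases Finset.mem_insert.1 ha with rfl | ha
    · exact ⟨he0, hed⟩
    · exact hP0 a ha
  have hall : ∀ A ∈ ({P, V, U, W} : Set (Finset Src)), ∀ a ∈ A, 0 ≤ a.1 ∧ a.2.2 ≤ L := by
    rintro A (rfl | rfl | rfl | rfl)
    · exact hP0
    · exact hVb
    · exact hU
    · exact hWb
  -- threshold transfer
  have tr : ∀ σ, σ ≤ h → (∀ q < σ, ¬(RB.Y Φ ε L hΦ hε).Touch V W q) →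
      σ ≤ hz L hΦ hε η' t V := fun σ hσ hq =>
    hz_transfer hW0 (fun a ha => (hVb a ha).1) hη ht (fun q hq' h => hq q hq' h.symm) hR2 hηη.le
      (hσ.trans hh.le)
  -- the guard
  obtain ⟨σ, hσ, h3, h4⟩ := FB.Sys.Touch.first hTE
  have guard : (∀ q < σ, ¬(RB.Y Φ ε L hΦ hε).Touch V W q) → TE L hΦ hε η' t P e := by
    intro hq
    have h5 : (RB.Y Φ ε L hΦ hε).Touch P V σ :=
      Loc4 hΦ hε hall (hsq.mono (hσ.trans hht)) hq h3
    unfold TE
    rw [← hV]
    exact h5.mono (tr σ hσ hq)
  have hout : ∀ {x : ℝ≥0∞}, x ≤ sumHit Φ ε L t m (fun V T =>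
      main6 L hΦ hε η' t w u V e m (ln Φ ε T) T.depth) U →
      x ≤ S6 L hΦ hε η' t w u U e m + sumHit Φ ε L t m (fun V T =>
        main6 L hΦ hε η' t w u V e m (ln Φ ε T) T.depth) U +
        sumHit Φ ε L t m (fun _ T => ovr L m T) U +
        (ind (TE L hΦ hε η t U e ∧ I6 L hΦ hε (η' - η) t I U e m) + relHit L hΦ hε t E U e m +
          sumHit Φ ε L t m (B6 L hΦ hε (η' - η) t E e m) U) := fun h =>
    le_add_right (le_add_right (le_add_left h))
  have hdeep : L < max m.2.2 T.depth + 1 → (1 : ℝ≥0∞) ≤ S6 L hΦ hε η' t w u U e m +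
      sumHit Φ ε L t m (fun V T => main6 L hΦ hε η' t w u V e m (ln Φ ε T) T.depth) U +
        sumHit Φ ε L t m (fun _ T => ovr L m T) U +
        (ind (TE L hΦ hε η t U e ∧ I6 L hΦ hε (η' - η) t I U e m) + relHit L hΦ hε t E U e m +
          sumHit Φ ε L t m (B6 L hΦ hε (η' - η) t E e m) U) := by
    intro hd
    have h5 : 1 ≤ ovr L m T := by unfold ovr; rw [if_pos hd]
    have := ind_le_sumHit (G := fun _ T => ovr L m T) hT hHU h5
    exact le_add_right (le_add_left this)
  cases hC with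
  | deep hd => exact hdeep hd
  | exc hE' => exact absurd (hrm' ▸ hE') hE
  | felt s hs hfl =>
    rcases le_or_gt u S with hu | hu
    · -- long lag
      have h5 : FelL L hΦ hε η' t u U e m := by
        refine ⟨hTE', T, hT, hH.meets, hH.birth, hS ▸ hu, ?_, s, ?_, ?_⟩
        · rw [← hS, ← hW]; exact hSh.trans hh'
        · rw [← hW]; exact hs.trans_le hh'
        · rw [← hW]; exact hfl
      unfold S6
      rw [ind_of h5]
      exact le_add_right (le_add_right (le_add_right (le_add_right (le_add_right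
        (le_add_left (le_refl _))))))
    · rcases le_or_gt σ u with hσu | hσu
      · -- `e` touches before `u`
        have h5 : TEu L hΦ hε η' t u U e m := by
          refine ⟨hmS.trans hu, ?_⟩
          rw [← hW]
          exact h3.mono (le_min (hσ.trans hh') hσu)
        unfold S6
        rw [ind_of h5]
        exact le_add_right (le_add_right (le_add_right (le_add_right
          (le_add_left (le_refl _)))))
      · by_cases hf : ∃ q < σ, fl L hΦ hε W q T
        · -- `T` is felt in `U`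
          obtain ⟨q, hq, hfq⟩ := hf
          have h5 : fl L hΦ hε U q T := by
            refine fl_transfer hU0 hW0 (h4 q hq) ?_ hfq
            rw [← hP, hrm']
            exact hsq.mono ((hq.le.trans hσ).trans hht)
          have h6 : σ ≤ hz L hΦ hε η' t U :=
            hz_transfer hW0 hU0 hη ht (fun q hq' h => h4 q hq' h.symm) hR1 hηη.le
              (hσ.trans hh.le)
          have h7 : FelS L hΦ hε η' t u U e m := by
            refine ⟨hTE', T, hT, hH.meets, hH.birth, hS ▸ hu, ?_, h5.mono (hq.le.trans h6)⟩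
            rw [← hS]
            exact (hu.trans hσu).le.trans h6
          unfold S6
          rw [ind_of h7]
          exact le_add_right (le_add_right (le_add_right (le_add_left (le_refl _))))
        · -- `T` is not felt before `e` touches
          have h5 : ∀ q < σ, ¬(RB.Y Φ ε L hΦ hε).Touch V W q := by
            intro q hq hTq
            have hxσ : M.CTree.ext Φ ε T < σ := hxS.trans (hu.trans hσu)
            refine hf ⟨max q (M.CTree.ext Φ ε T), max_lt hq hxσ, hH.sub, hH.depth,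
              le_max_right _ _, haW, fun r hr => hH.unexp r ?_, ?_⟩
            · rw [← hS]; exact hr.trans hxS
            · rw [hrm']
              exact hTq.mono (le_max_left _ _)
          have h6 := guard h5
          refine hout ?_
          refine ind_le_sumHit (G := fun V T =>
            main6 L hΦ hε η' t w u V e m (ln Φ ε T) T.depth) hT hHU ?_
          beta_reduce
          rw [← hP]
          unfold main6
          rw [if_pos (hS ▸ hu), ind_of h6]
          exact le_add_self
  | pair r hu hr1 hr2 hr3 =>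
    rw [hrm'] at hu hr3
    have h5 := guard fun q hq => hu q (hq.trans_le hσ)
    have h6 : h ≤ hz L hΦ hε η' t V := tr h le_rfl hu
    have h7 : PairG L hΦ hε η' t w P e m (ln Φ ε T) := by
      refine ⟨h5, hH.meets, hH.birth, r, hr1, le_min ?_ ?_, ?_⟩
      · rw [← hV]; exact hr2.trans h6
      · exact ((hr2.trans hht).trans hw).trans (by linarith)
      · rw [← hV]; exact hr3
    refine hout ?_
    refine ind_le_sumHit (G := fun V T =>
      main6 L hΦ hε η' t w u V e m (ln Φ ε T) T.depth) hT hHU ?_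
    beta_reduce
    rw [← hP]
    unfold main6
    rw [ind_of h7]
    exact le_add_right (le_add_right (le_refl _))
  | new m' σ' hu hm' hσ' hTm' =>
    rw [hrm'] at hu hTm'
    by_cases hd : max m.2.2 T.depth + 1 ≤ L
    swap
    · exact hdeep (not_le.1 hd)
    have h5 := guard fun q hq => hu q (hq.trans_le hσ)
    have h6 : h ≤ hz L hΦ hε η' t V := tr h le_rfl hu
    have h7 : GG L hΦ hε η' t P e m' := by
      refine ⟨h5, ?_⟩
      rw [← hV]
      exact hTm'.mono (hσ'.trans h6)
    have h8 : 1 ≤ GGL L hΦ hε η' t P e m' := by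
      unfold GGL
      rw [if_pos (Frs_depth hH.depth hd hm'), ind_of h7]
    have h9 : m'.1 ≤ t := (touch_birth hTm').trans (hσ'.trans hht)
    refine hout ?_
    refine ind_le_sumHit (G := fun V T =>
      main6 L hΦ hε η' t w u V e m (ln Φ ε T) T.depth) hT hHU ?_
    beta_reduce
    rw [← hP]
    exact one_le_main6_new hm' h9 h8

end Vale.Agent.P119.PB
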