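import Vale.Agent.P119.PB.Meas6
import Vale.Agent.P119.PB.Pt6
import Vale.Agent.P119.FB.Unfelt

/-!
# P119, block PROB: second events, integrated step (`helper178`)

* `XI_gen`: a functional of the partner which depends on its line and its depth only, integrated with
  the law of the partners (CAP0);
* `gT6`, `tE6`, `sS6`, `pG6`, `yG6`: the expectations of the terms of `PB/Def6.lean`;
* `gT6_le`: the integrated step for the second events.
-/

open MeasureTheory Filter Topology Set
open scoped ENNReal NNReal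

noncomputable section

namespace Vale.Agent.P119.PB

open M CTree KU FB RB AU FL TL

variable {Φ : E3 → ℝ} {ε : ℝ} {L : ℕ} {hΦ : IsPotential Φ} {hε : 0 < ε} {f₀ : Ph → ℝ}
  {κ b Tm t η η' w u : ℝ} {σ e m : Src}

theorem lintegral_add3 {Ω : Type*} [MeasurableSpace Ω] {P : Measure Ω}
    {f₁ f₂ f₃ : Ω → ℝ≥0∞} (h₁ : Measurable f₁) (h₂ : Measurable f₂) :
    ∫⁻ c, (f₁ c + f₂ c + f₃ c) ∂P = (∫⁻ c, f₁ c ∂P) + (∫⁻ c, f₂ c ∂P) + (∫⁻ c, f₃ c ∂P) := by
  have a2 : Measurable fun c => f₁ c + f₂ c := h₁.add h₂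
  rw [lintegral_add_left a2, lintegral_add_left h₁]

/-! ### The law of the partners -/

/-- CAP0 with the typical part `typI b Tm α` and the atypical part `ν`. -/
def CapI (Φ : E3 → ℝ) (ε : ℝ) (L : ℕ) (f₀ : Ph → ℝ) (b Tm : ℝ) (α : ℕ → ℝ≥0∞)
    (ν : GC.Conf Ph → Measure Src) : Prop :=
  ∀ c, ∀ F : Src → ℝ≥0∞, Measurable F →
    ∫⁻ T in Cap.AL Φ ε L Tm (GC.pts c : Set Ph), F (rsrc Φ ε T) ∂(tree (GC.inten f₀ ε) L) ≤
      muE ε * (typI b Tm α F + ∫⁻ p, F p ∂(ν c))

/-- One configuration: the law of the partners. -/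
theorem inner_gen_le (hε : 0 < ε) (hΦ : IsPotential Φ) (htT : t ≤ Tm) {α : ℕ → ℝ≥0∞}
    (hTm : 0 ≤ Tm) {c : GC.Conf Ph} {ν : GC.Conf Ph → Measure Src}
    (hcap : CapI Φ ε L f₀ b Tm α ν) {G : Ph → ℕ → ℝ≥0∞} {C : ℝ≥0∞} (hGC : ∀ z n, G z n ≤ C)
    (hG : Measurable fun p : Src => G p.2.1 p.2.2) :
    ∫⁻ T, ind (alT Φ ε L t (wS (GC.pts c)) T) * (ind (hitI ε t σ (ln Φ ε T)) *
        G (ln Φ ε T) T.depth) ∂(tree (GC.inten f₀ ε) L) ≤
      muE ε * ((∑' d, (α d * ENNReal.ofReal (1 + Tm)) * ∫⁻ z : Ph, gw b z.2 *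
        (ind (hitI ε t σ z) * G z d)) + C * (ν c) {p : Src | hitI ε t σ p.2.1}) := by
  set F : Src → ℝ≥0∞ := fun p => ind (hitI ε t σ p.2.1) * G p.2.1 p.2.2 with hF
  have hp1 : Measurable fun p : Src => p.2.1 := measurable_fst.comp measurable_snd
  have hS : MeasurableSet {p : Src | hitI ε t σ p.2.1} :=
    measurableSet_hitI (t := t) (ε := ε) (measurable_const (a := σ)) hp1
  have hFm : Measurable F := (measurable_ind hS).mul hG
  have hAL : MeasurableSet (Cap.AL Φ ε L Tm (GC.pts c : Set Ph)) := by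
    have h1 := (measurableSet_alT' (L := L) hΦ hε Tm).preimage
      (measurable_id.prodMk (measurable_const (a := c)))
    have h2 : (fun T : CTree => (T, c)) ⁻¹'
        {p : CTree × GC.Conf Ph | alT Φ ε L Tm (wS (GC.pts p.2)) p.1} =
        Cap.AL Φ ε L Tm (GC.pts c : Set Ph) := by
      ext T
      exact alT_iff
    rw [← h2]
    exact h1
  calc _ ≤ ∫⁻ T in Cap.AL Φ ε L Tm (GC.pts c : Set Ph), F (rsrc Φ ε T)
          ∂(tree (GC.inten f₀ ε) L) := by
        rw [← lintegral_indicator hAL]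
        refine lintegral_mono fun T => ?_
        by_cases h : alT Φ ε L t (wS (GC.pts c)) T
        · have h1 := alT_iff.1 h
          have h' : T ∈ Cap.AL Φ ε L Tm (GC.pts c : Set Ph) := ⟨h1.1, h1.2.trans htT⟩
          rw [indicator_of_mem h', ind_of h, one_mul]
          exact le_of_eq rfl
        · rw [ind_of_not h, zero_mul]
          exact zero_le
    _ ≤ _ := hcap c F hFm
    _ ≤ _ := by
        refine mul_le_mul_right (add_le_add (typI_le hTm fun s z d => le_of_eq ?_) ?_) _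
        · rfl
        · calc ∫⁻ p, F p ∂(ν c) ≤ ∫⁻ p, C * {p : Src | hitI ε t σ p.2.1}.indicator 1 p ∂(ν c) := by
                refine lintegral_mono fun p => ?_
                rw [hF]
                by_cases h : hitI ε t σ p.2.1
                · rw [indicator_of_mem (show p ∈ {p : Src | hitI ε t σ p.2.1} from h)]
                  simp only [ind_of h, one_mul, Pi.one_apply, mul_one]
                  exact hGC _ _
                · simp only [ind_of_not h, zero_mul]
                  exact zero_le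
            _ = C * (ν c) {p : Src | hitI ε t σ p.2.1} := by
                rw [lintegral_const_mul _ (measurable_one.indicator hS), lintegral_indicator hS]
                simp

/-- **A functional of the line and the depth of the partner, integrated.** -/
theorem XI_gen (h₀ : GoodDatum f₀ κ) (hΦ : IsPotential Φ) (hε : 0 < ε) (htT : t ≤ Tm)
    (hTm : 0 ≤ Tm) {α : ℕ → ℝ≥0∞} {ν : GC.Conf Ph → Measure Src}
    (hcap : CapI Φ ε L f₀ b Tm α ν) {G : Finset Src → Ph → ℕ → ℝ≥0∞} {C : ℝ≥0∞} (hC : C ≠ ∞)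
    (hGC : ∀ V z n, G V z n ≤ C)
    (hG : Measurable fun p : GC.Conf Ph × Ph × ℕ => G (wS (GC.pts p.1)) p.2.1 p.2.2) :
    XI f₀ Φ ε L t σ (fun V T => G V (ln Φ ε T) T.depth) ≤
      muE ε * (∑' d, (α d * ENNReal.ofReal (1 + Tm)) * ∫⁻ z : Ph, gw b z.2 *
        (ind (hitI ε t σ z) * ∫⁻ c, G (wS (GC.pts c)) z d ∂(GC.PP f₀ ε))) +
      C * atyS (GC.PP f₀ ε) ν ε t σ := by
  have := GC.isFiniteMeasure_inten (ε := ε) h₀
  have := GC.isProbability_PP (ε := ε) h₀
  set a : ℕ → ℝ≥0∞ := fun n => α n * ENNReal.ofReal (1 + Tm) with ha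
  have hz : ∀ {X : Type} [MeasurableSpace X] {z : X → Ph}, Measurable z →
      MeasurableSet {x | hitI ε t σ (z x)} := fun hz =>
    measurableSet_hitI (t := t) (ε := ε) (measurable_const (a := σ)) hz
  have hGd : ∀ d : ℕ, Measurable fun p : GC.Conf Ph × Ph => G (wS (GC.pts p.1)) p.2 d := fun d =>
    hG.comp (measurable_fst.prodMk (measurable_snd.prodMk measurable_const))
  have hGc : ∀ c : GC.Conf Ph, Measurable fun p : Src => G (wS (GC.pts c)) p.2.1 p.2.2 :=
    fun c => hG.comp (measurable_const.prodMk measurable_snd)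
  have hjm : ∀ d : ℕ, Measurable fun p : GC.Conf Ph × Ph => gw b p.2.2 *
      (ind (hitI ε t σ p.2) * G (wS (GC.pts p.1)) p.2 d) := fun d =>
    ((measurable_gw b).comp (measurable_snd.comp measurable_snd)).mul
      ((measurable_ind (hz measurable_snd)).mul (hGd d))
  have hcm : ∀ d : ℕ, Measurable fun c : GC.Conf Ph => ∫⁻ z : Ph, gw b z.2 *
      (ind (hitI ε t σ z) * G (wS (GC.pts c)) z d) := fun d =>
    (hjm d).lintegral_prod_right'
  unfold XI XX
  calc _ ≤ ∫⁻ c, muE ε * ((∑' d, a d * ∫⁻ z : Ph, gw b z.2 *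
        (ind (hitI ε t σ z) * G (wS (GC.pts c)) z d)) +
        C * (ν c) {p : Src | hitI ε t σ p.2.1}) ∂(GC.PP f₀ ε) :=
        lintegral_mono fun c => inner_gen_le hε hΦ htT hTm hcap (hGC _) (hGc c)
    _ = muE ε * ((∑' d, a d * ∫⁻ z : Ph, gw b z.2 *
        (ind (hitI ε t σ z) * ∫⁻ c, G (wS (GC.pts c)) z d ∂(GC.PP f₀ ε))) +
        C * ∫⁻ c, (ν c) {p : Src | hitI ε t σ p.2.1} ∂(GC.PP f₀ ε)) := by
        rw [lintegral_const_mul' _ _ (by unfold muE; exact ENNReal.ofReal_ne_top)]
        congr 1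
        rw [lintegral_add_left (Measurable.tsum fun d => (hcm d).const_mul _),
          lintegral_const_mul' _ _ hC]
        congr 1
        rw [lintegral_tsum fun d => ((hcm d).const_mul _).aemeasurable]
        refine tsum_congr fun d => ?_
        rw [lintegral_const_mul _ (hcm d), lintegral_lintegral_swap (hjm d).aemeasurable]
        congr 1
        refine lintegral_congr fun z => ?_
        have hm : Measurable fun c : GC.Conf Ph => G (wS (GC.pts c)) z d :=
          hG.comp (measurable_id.prodMk (measurable_const (a := ((z, d) : Ph × ℕ))))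
        rw [lintegral_const_mul _ (hm.const_mul _), lintegral_const_mul _ hm]
    _ = _ := by
        unfold atyS hitI
        ring

/-! ### The expectations -/

variable (L hΦ hε)

/-- The probability of the second events of `e` and `m`. -/
def gT6 (f₀ : Ph → ℝ) (η t : ℝ) (e m : Src) : ℝ≥0∞ :=
  ∫⁻ c, GGL L hΦ hε η t (wS (GC.pts c)) e m ∂(GC.PP f₀ ε)

/-- The probability that `e` touches. -/
def tE6 (f₀ : Ph → ℝ) (η t : ℝ) (e : Src) : ℝ≥0∞ :=
  ∫⁻ c, ind (TE L hΦ hε η t (wS (GC.pts c)) e) ∂(GC.PP f₀ ε)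

/-- The expectation of the terms of order zero. -/
def sS6 (f₀ : Ph → ℝ) (η t w u : ℝ) (e m : Src) : ℝ≥0∞ :=
  ∫⁻ c, S6 L hΦ hε η t w u (wS (GC.pts c)) e m ∂(GC.PP f₀ ε)

/-- The pair of `m` and its partner is in contact. -/
def pG6 (f₀ : Ph → ℝ) (b : ℝ) (α : ℕ → ℝ≥0∞) (η t w : ℝ) (e m : Src) : ℝ≥0∞ :=
  muE ε * ∑' n, α n * ∫⁻ z' : Ph, gw b z'.2 *
    ∫⁻ c, ind (PairG L hΦ hε η t w (wS (GC.pts c)) e m z') ∂(GC.PP f₀ ε)

/-- `m` hits a partner before `u`. -/
def yG6 (f₀ : Ph → ℝ) (b : ℝ) (α : ℕ → ℝ≥0∞) (η t u : ℝ) (e m : Src) : ℝ≥0∞ :=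
  muE ε * (∑' n, α n) * (∫⁻ z' in {z' : Ph | hitI ε t m z' ∧ hitT ε (m.2.1, z') < u},
    gw b z'.2) * tE6 L hΦ hε f₀ η t e

variable {L hΦ hε}

theorem lintegral_fresh6 (z' : Ph) (n : ℕ) :
    ∫⁻ c, fresh Φ ε t (GGL L hΦ hε η t (wS (GC.pts c)) e) m z' n ∂(GC.PP f₀ ε) =
      fresh Φ ε t (gT6 L hΦ hε f₀ η t e) m z' n := by
  have key : ∀ (τ : ℝ) (z : Ph) (k : ℕ), (Measurable fun c => (Iic t).indicator
      (fun τ => GGL L hΦ hε η t (wS (GC.pts c)) e (τ, z, k)) τ) ∧
      ∫⁻ c, (Iic t).indicator (fun τ => GGL L hΦ hε η t (wS (GC.pts c)) e (τ, z, k)) τ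
        ∂(GC.PP f₀ ε) = (Iic t).indicator (fun τ => gT6 L hΦ hε f₀ η t e (τ, z, k)) τ := by
    intro τ z k
    by_cases h : τ ∈ Iic t
    · simp only [indicator_of_mem h]
      exact ⟨measurable_GGL RM.rs_conf measurable_const measurable_const measurable_const
        measurable_const, rfl⟩
    · simp only [indicator_of_notMem h, lintegral_zero, and_true]
      exact measurable_const
  unfold fresh
  rw [lintegral_add_left, lintegral_add_left, (key _ _ _).2, (key _ _ _).2, (key _ _ _).2]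
  · exact (key _ _ _).1
  · exact (key _ _ _).1.add (key _ _ _).1

/-- The expectation of `main6`. -/
theorem lintegral_main6 (z' : Ph) (n : ℕ) :
    ∫⁻ c, main6 L hΦ hε η t w u (wS (GC.pts c)) e m z' n ∂(GC.PP f₀ ε) =
      ∫⁻ c, ind (PairG L hΦ hε η t w (wS (GC.pts c)) e m z') ∂(GC.PP f₀ ε) +
      fresh Φ ε t (gT6 L hΦ hε f₀ η t e) m z' n +
      (if hitT ε (m.2.1, z') < u then tE6 L hΦ hε f₀ η t e else 0) := by
  classical
  have h1 : Measurable fun c : GC.Conf Ph =>
      ind (PairG L hΦ hε η t w (wS (GC.pts c)) e m z') :=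
    measurable_ind (measurableSet_PairG RM.rs_conf measurable_const measurable_const
      measurable_const measurable_const measurable_const measurable_const)
  have h2 : Measurable fun c : GC.Conf Ph =>
      fresh Φ ε t (GGL L hΦ hε η t (wS (GC.pts c)) e) m z' n := by
    refine measurable_fresh' hΦ hε ?_ measurable_const measurable_const measurable_const
    exact measurable_GGL (η := fun _ => η) (t := fun _ => t) (e := fun _ => e)
      (MM.RS.comp RM.rs_conf measurable_fst) measurable_const measurable_const measurable_const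
      measurable_snd
  unfold main6
  rw [lintegral_add3 h1 h2, lintegral_fresh6]
  congr 1
  by_cases h : hitT ε (m.2.1, z') < u
  · simp only [if_pos h]
    rfl
  · simp only [if_neg h, lintegral_zero]

/-- The main terms, for one depth. -/
theorem inner_split6_le (h₀ : GoodDatum f₀ κ) (d : ℕ) : ∫⁻ z : Ph, gw b z.2 *
        (ind (hitI ε t m z) * ∫⁻ c, main6 L hΦ hε η t w u (wS (GC.pts c)) e m z d
          ∂(GC.PP f₀ ε)) ≤
      (∫⁻ z' : Ph, gw b z'.2 *
          ∫⁻ c, ind (PairG L hΦ hε η t w (wS (GC.pts c)) e m z') ∂(GC.PP f₀ ε)) +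
        (∫⁻ z' in {z' : Ph | Meets ε (m.2.1, z') ∧ m.1 < hitT ε (m.2.1, z')},
          gw b z'.2 * fresh Φ ε t (gT6 L hΦ hε f₀ η t e) m z' d) +
        (∫⁻ z' in {z' : Ph | hitI ε t m z' ∧ hitT ε (m.2.1, z') < u}, gw b z'.2) *
          tE6 L hΦ hε f₀ η t e := by
  have := GC.isProbability_PP (ε := ε) h₀
  have hq : Measurable fun z : Ph => (m.2.1, z) := measurable_const.prodMk measurable_id
  have hh : Measurable fun z : Ph => hitT ε (m.2.1, z) := measurable_hitT.comp hq
  have hM : MeasurableSet {z' : Ph | Meets ε (m.2.1, z') ∧ m.1 < hitT ε (m.2.1, z')} :=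
    (measurableSet_meets.preimage hq).inter (measurableSet_lt measurable_const hh)
  have hY : MeasurableSet {z' : Ph | hitI ε t m z' ∧ hitT ε (m.2.1, z') < u} :=
    (measurableSet_hitI (t := t) (ε := ε) (measurable_const (a := m)) measurable_id).inter
      (measurableSet_lt hh measurable_const)
  have hP : Measurable fun z' : Ph =>
      ∫⁻ c, ind (PairG L hΦ hε η t w (wS (GC.pts c)) e m z') ∂(GC.PP f₀ ε) := by
    have h2 : Measurable fun p : Ph × GC.Conf Ph =>
        ind (PairG L hΦ hε η t w (wS (GC.pts p.2)) e m p.1) :=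
      measurable_ind (measurableSet_PairG (MM.RS.comp RM.rs_conf measurable_snd)
        measurable_const measurable_const measurable_const measurable_const measurable_const
        measurable_fst)
    exact h2.lintegral_prod_right'
  set P : Ph → ℝ≥0∞ := fun z' =>
    ∫⁻ c, ind (PairG L hΦ hε η t w (wS (GC.pts c)) e m z') ∂(GC.PP f₀ ε) with hPd
  set F : Ph → ℝ≥0∞ := fun z => fresh Φ ε t (gT6 L hΦ hε f₀ η t e) m z d with hFd
  have hgT : Measurable (gT6 L hΦ hε f₀ η t e) := by
    have h2 : Measurable fun p : Src × GC.Conf Ph =>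
        GGL L hΦ hε η t (wS (GC.pts p.2)) e p.1 :=
      measurable_GGL (MM.RS.comp RM.rs_conf measurable_snd) measurable_const measurable_const
        measurable_const measurable_fst
    exact h2.lintegral_prod_right'
  have hF : Measurable F :=
    measurable_fresh' hΦ hε (hgT.comp measurable_snd) measurable_const measurable_id
      measurable_const
  have hgw : Measurable fun z : Ph => gw b z.2 := (measurable_gw b).comp measurable_snd
  have m1 : Measurable fun z : Ph => gw b z.2 * P z := hgw.mul hP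
  have m2 : Measurable fun z : Ph => {z' : Ph | Meets ε (m.2.1, z') ∧
      m.1 < hitT ε (m.2.1, z')}.indicator (fun z => gw b z.2 * F z) z :=
    (hgw.mul hF).indicator hM
  calc ∫⁻ z : Ph, gw b z.2 *
        (ind (hitI ε t m z) * ∫⁻ c, main6 L hΦ hε η t w u (wS (GC.pts c)) e m z d
          ∂(GC.PP f₀ ε))
      ≤ ∫⁻ z : Ph, (gw b z.2 * P z +
          {z' : Ph | Meets ε (m.2.1, z') ∧ m.1 < hitT ε (m.2.1, z')}.indicator
            (fun z => gw b z.2 * F z) z +
          {z' : Ph | hitI ε t m z' ∧ hitT ε (m.2.1, z') < u}.indicator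
            (fun z => gw b z.2 * tE6 L hΦ hε f₀ η t e) z) := by
        refine lintegral_mono fun z => ?_
        rw [lintegral_main6]
        by_cases h : hitI ε t m z
        · rw [indicator_of_mem (show z ∈ {z' : Ph | Meets ε (m.2.1, z') ∧
              m.1 < hitT ε (m.2.1, z')} from ⟨h.1, h.2.1⟩), ind_of h, one_mul]
          by_cases h2 : hitT ε (m.2.1, z) < u
          · rw [if_pos h2, indicator_of_mem (show z ∈ {z' : Ph | hitI ε t m z' ∧
              hitT ε (m.2.1, z') < u} from ⟨h, h2⟩)]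
            rw [← mul_add, ← mul_add]
          · rw [if_neg h2, add_zero, ← mul_add]
            exact le_self_add
        · rw [ind_of_not h, zero_mul, mul_zero]
          exact zero_le
    _ = (∫⁻ z, gw b z.2 * P z) +
        (∫⁻ z in {z' : Ph | Meets ε (m.2.1, z') ∧ m.1 < hitT ε (m.2.1, z')},
          gw b z.2 * F z) +
        ∫⁻ z in {z' : Ph | hitI ε t m z' ∧ hitT ε (m.2.1, z') < u},
          gw b z.2 * tE6 L hΦ hε f₀ η t e := by
        rw [lintegral_add3 m1 m2, lintegral_indicator hM, lintegral_indicator hY]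
    _ = _ := by
        congr 1
        exact lintegral_mul_const _ hgw

/-- **The main terms, integrated**, from the law of the partners (CAP0). -/
theorem XI_main6_le (h₀ : GoodDatum f₀ κ) (htT : t ≤ Tm) (hTm : 0 ≤ Tm) {α : ℕ → ℝ≥0∞}
    {ν : GC.Conf Ph → Measure Src} (hcap : CapI Φ ε L f₀ b Tm α ν) :
    XI f₀ Φ ε L t m (fun V T => main6 L hΦ hε η t w u V e m (ln Φ ε T) T.depth) ≤
      pG6 L hΦ hε f₀ b (fun n => α n * ENNReal.ofReal (1 + Tm)) η t w e m +
      KOp Φ ε b t (fun n => α n * ENNReal.ofReal (1 + Tm)) (gT6 L hΦ hε f₀ η t e) m +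
      yG6 L hΦ hε f₀ b (fun n => α n * ENNReal.ofReal (1 + Tm)) η t u e m +
      5 * atyS (GC.PP f₀ ε) ν ε t m := by
  set a : ℕ → ℝ≥0∞ := fun n => α n * ENNReal.ofReal (1 + Tm) with ha
  refine (XI_gen (G := fun V z n => main6 L hΦ hε η t w u V e m z n) h₀ hΦ hε htT hTm hcap
    (C := 5) (by norm_num) (fun V z n => main6_le)
    (measurable_main6 (MM.RS.comp RM.rs_conf measurable_fst) measurable_const
      measurable_const (measurable_fst.comp measurable_snd)
      (measurable_snd.comp measurable_snd))).trans ?_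
  refine add_le_add ?_ le_rfl
  calc _ ≤ muE ε * (∑' d, a d * ((∫⁻ z' : Ph, gw b z'.2 *
          ∫⁻ c, ind (PairG L hΦ hε η t w (wS (GC.pts c)) e m z') ∂(GC.PP f₀ ε)) +
        (∫⁻ z' in {z' : Ph | Meets ε (m.2.1, z') ∧ m.1 < hitT ε (m.2.1, z')},
          gw b z'.2 * fresh Φ ε t (gT6 L hΦ hε f₀ η t e) m z' d) +
        (∫⁻ z' in {z' : Ph | hitI ε t m z' ∧ hitT ε (m.2.1, z') < u}, gw b z'.2) *
          tE6 L hΦ hε f₀ η t e)) :=
        mul_le_mul' le_rfl (ENNReal.tsum_le_tsum fun d => mul_le_mul' le_rfl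
          (inner_split6_le h₀ d))
    _ = _ := by
        simp only [mul_add]
        rw [ENNReal.tsum_add, ENNReal.tsum_add, mul_add, mul_add]
        congr 1
        unfold yG6
        rw [ENNReal.tsum_mul_right]
        ring

end Vale.Agent.P119.PB
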