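import Vale.Agent.P119.PB.ExhW
import Vale.Agent.P119.PB.Int6

/-!
# P119, block PROB, P8: the first touch in the world with the exhaust (`helper776`)

* `tE6_le_theta`: the probability that `e` touches up to the stopping time of `V + e` is at most
  `theta` at a higher stopping level, plus the probability that there are too many related trees;
* `tE6_le_two_theta`: if the latter is at most a half of the left side, the left side is at most
  `2 * theta`.
-/

open MeasureTheory Filter Topology Set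
open scoped ENNReal NNReal

noncomputable section

namespace Vale.Agent.P119.PB

open M CTree KU FB RB AU FL

variable {Φ : E3 → ℝ} {ε : ℝ} {L : ℕ} {hΦ : IsPotential Φ} {hε : 0 < ε} {f₀ : Ph → ℝ}
  {κ η θ t w : ℝ} {e : Src}

theorem ind_TE_le' {V : Finset Src} {e : Src} (hV : ∀ a ∈ V, 0 ≤ a.1) (he : 0 ≤ e.1)
    (hη : 0 < η) (hθ : 0 ≤ θ) (ht : 0 ≤ t) (htw : t ≤ w) :
    ind (TE L hΦ hε η t V e) ≤ ind (TT L hΦ hε (η + θ) t w V e) +
      ind (TE L hΦ hε η t V e ∧
        ENNReal.ofReal (θ * mu ε) < relW L hΦ hε (insert e V) V t) := by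
  by_cases h : TE L hΦ hε η t V e
  swap
  · rw [ind_of_not h]; exact zero_le
  have h1 := EX.ind_TEx_le (L := L) (hΦ := hΦ) (hε := hε) hV he hη
    (le_add_of_nonneg_right hθ) ht htw
  rw [add_sub_cancel_left] at h1
  refine (h1 : ind (TE L hΦ hε η t V e) ≤ _).trans (add_le_add le_rfl (ind_mono fun h2 => ⟨h, h2⟩))

theorem tE6_le_one (h₀ : GoodDatum f₀ κ) : tE6 L hΦ hε f₀ η t e ≤ 1 := by
  have := GC.isProbability_PP (ε := ε) h₀
  unfold tE6
  refine (lintegral_mono fun c => ind_le_one _).trans (le_of_eq ?_)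
  simp

/-- **The first touch in the world with the line `e`.** -/
theorem tE6_le_theta (he : 0 ≤ e.1) (hη : 0 < η) (hθ : 0 ≤ θ) (ht : 0 ≤ t) (htw : t ≤ w) :
    tE6 L hΦ hε f₀ η t e ≤ theta L hΦ hε f₀ (η + θ) t w e +
      ∫⁻ c, ind (TE L hΦ hε η t (wS (GC.pts c)) e ∧ ENNReal.ofReal (θ * mu ε) <
        relW L hΦ hε (insert e (wS (GC.pts c))) (wS (GC.pts c)) t) ∂(GC.PP f₀ ε) := by
  unfold tE6 theta
  have hm : Measurable fun c : GC.Conf Ph => ind (TT L hΦ hε (η + θ) t w (wS (GC.pts c)) e) :=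
    measurable_ind (RM.measurableSet_TT RM.rs_conf measurable_const measurable_const
      measurable_const measurable_const)
  rw [← lintegral_add_left hm]
  exact lintegral_mono fun c => ind_TE_le' (EX.wS_birth _) he hη hθ ht htw

/-- **If the related trees cost at most a half**, the probability of the touch in the world with the
line `e` is at most twice `theta`. -/
theorem tE6_le_two_theta (h₀ : GoodDatum f₀ κ) (he : 0 ≤ e.1) (hη : 0 < η) (hθ : 0 ≤ θ)
    (ht : 0 ≤ t) (htw : t ≤ w) {δ : ℝ≥0∞} (hδ : δ ≤ 2⁻¹)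
    (hG : ∫⁻ c, ind (TE L hΦ hε η t (wS (GC.pts c)) e ∧ ENNReal.ofReal (θ * mu ε) <
        relW L hΦ hε (insert e (wS (GC.pts c))) (wS (GC.pts c)) t) ∂(GC.PP f₀ ε) ≤
      δ * tE6 L hΦ hε f₀ η t e) :
    tE6 L hΦ hε f₀ η t e ≤ 2 * theta L hΦ hε f₀ (η + θ) t w e := by
  have h1 := tE6_le_theta (L := L) (hΦ := hΦ) (hε := hε) (f₀ := f₀) he hη hθ ht htw
  have hfin : tE6 L hΦ hε f₀ η t e ≠ ∞ :=
    ((tE6_le_one h₀).trans_lt ENNReal.one_lt_top).ne
  set A := tE6 L hΦ hε f₀ η t e with hA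
  set B := theta L hΦ hε f₀ (η + θ) t w e with hB
  have h2 : A ≤ B + 2⁻¹ * A := h1.trans (add_le_add le_rfl (hG.trans (mul_le_mul_left hδ _)))
  have h3 : (2 : ℝ≥0∞)⁻¹ * A ≠ ∞ := ENNReal.mul_ne_top (by simp) hfin
  have h4 : 2⁻¹ * A + 2⁻¹ * A = A := by
    rw [← add_mul, ENNReal.inv_two_add_inv_two, one_mul]
  have h5 : 2⁻¹ * A ≤ B := by
    have h6 : 2⁻¹ * A + 2⁻¹ * A ≤ B + 2⁻¹ * A := by rw [h4]; exact h2
    exact (ENNReal.add_le_add_iff_right h3).1 h6
  calc A = 2 * (2⁻¹ * A) := by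
        rw [← mul_assoc, ENNReal.mul_inv_cancel (by norm_num) (by norm_num), one_mul]
    _ ≤ 2 * B := mul_le_mul_right h5 _

end Vale.Agent.P119.PB
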