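import Vale.Agent.P119.PB.In8a
import Vale.Agent.P119.PB.TrickC
import Vale.Agent.P119.PB.TEG
import Vale.Agent.P119.PB.Op11

/-!
# P119, block PROB, P8: the interface of the laws and of the functionals (`helper336`)

* `Main8`: the main terms of a law of pairs, with the sources in a set where the related trees are
  negligible;
* `Law8`: everything which is needed from a law of pairs (support, hits, mass, main terms);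
* `For8`: a functional which is bounded by a law; `Crude8`: its values on the exceptional pairs;
* `MainP8`, `CrudeP8`: the same for the functionals of the pairs of colliding lines;
* `Nm_ind_tE6_le`: the passage from `tE6` to `theta`.
-/

open MeasureTheory Filter Topology Set ProbabilityTheory
open scoped ENNReal NNReal

noncomputable section

namespace Vale.Agent.P119.PB

open M CTree KU FB RB AU FL TL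

/-- The laws of the pairs of sources: depth `L`, `ε`, time `t`. -/
abbrev Lam8 : Type := (L : ℕ) → (ε : ℝ) → 0 < ε → ℝ → Measure (Src × Src)

/-- The functionals of `ψ V e m`. -/
abbrev Fun8 : Type := (L : ℕ) → (ε : ℝ) → 0 < ε → ℝ →
  (Finset Src → Src → Src → ℝ≥0∞) → ℝ≥0∞

/-- The functionals of `φ V e σ z'`. -/
abbrev FunP8 : Type := (L : ℕ) → (ε : ℝ) → 0 < ε → ℝ →
  (Finset Src → Src → Src → Ph → ℝ≥0∞) → ℝ≥0∞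

/-- The right side of P8. -/
def R8 (K : ℝ) (p : ℕ) (D Θ F : ℕ → ℝ → ℝ → ℝ → ℝ≥0∞) (W : ℕ → ℝ → ℝ → ℝ → ℝ → ℝ≥0∞) (L : ℕ)
    (δ η' ε t : ℝ) : ℝ≥0∞ :=
  ENNReal.ofReal (K ^ L * (η' / δ ^ p + δ)) * (D L η' ε t + Θ L η' ε t + F L η' ε t) +
    ENNReal.ofReal (K ^ L) * W L δ η' ε t

section defs

variable {Φ : E3 → ℝ} (hΦ : IsPotential Φ) (f₀ : Ph → ℝ) (T b : ℝ) (a : ℕ → ℝ≥0∞)
  (D Θ F : ℕ → ℝ → ℝ → ℝ → ℝ≥0∞) (W : ℕ → ℝ → ℝ → ℝ → ℝ → ℝ≥0∞)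

/-- **The main terms of a law of pairs.** `G` is any set of sources for which the related trees are
negligible; `u` is chosen by the owner of the law. -/
def Main8 (K : ℝ) (p : ℕ) (lam : Lam8) : Prop :=
  ∀ᶠ L in atTop, ∀ δ ∈ Ioc (0 : ℝ) 1, ∀ η η' : ℝ, 0 < η → η < η' → η' ≤ 1 →
    ∀ δ₁ : ℝ≥0∞, δ₁ ≤ 2⁻¹ → δ₁ ≤ ENNReal.ofReal δ → ∀ ρ : ℝ, 0 < ρ → ∃ J₀ : ℕ, ∀ J ≥ J₀,
      ∀ᶠ ε in 𝓝[>] (0 : ℝ), ∀ hε : 0 < ε, ∀ t ∈ Icc 0 T, ∀ G : Set Src, MeasurableSet G →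
        (∀ e ∈ G, rE6 L hΦ hε f₀ η (η' - η) t e ≤ δ₁ * tE6 L hΦ hε f₀ η t e) →
        ∃ u : Src × Src → ℝ, Measurable u ∧
          ∫⁻ x, ind (x.1 ∈ G) * Mn6 L hΦ hε f₀ b a η t T (u x) (T + 1) J x.1 x.2 ∂(lam L ε hε t) ≤
            R8 K p D Θ F W L δ η' ε t + ENNReal.ofReal ρ

/-- **What is needed from a law of pairs.** -/
structure Law8 (lam : Lam8) : Prop where
  sf : ∀ L ε hε t, SFinite (lam L ε hε t)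
  ok : ∀ᶠ L in atTop, ∀ᶠ ε in 𝓝[>] (0 : ℝ), ∀ hε : 0 < ε, ∀ t ∈ Icc 0 T,
    ∀ᵐ x ∂(lam L ε hε t), 0 ≤ x.1.1 ∧ x.1.2.2 ≤ L ∧ 0 ≤ x.2.1
  hit : ∀ A : ℝ≥0∞, 1 ≤ A → A ≠ ∞ → ∃ C : ℕ → ℝ≥0∞,
    (∀ M : ℝ≥0∞, M ≠ ∞ → ∑' j, M ^ j * C j ≠ ∞) ∧
    ∀ᶠ L in atTop, ∀ᶠ ε in 𝓝[>] (0 : ℝ), ∀ hε : 0 < ε, ∀ t ∈ Icc 0 T,
      HitLam hΦ hε.ne' b t (T + 1) A (lam L ε hε t) C
  mass : ∀ᶠ L in atTop, ∀ η ∈ Ioc (0 : ℝ) 1, ∃ C : ℝ≥0∞, C ≠ ∞ ∧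
    ∀ᶠ ε in 𝓝[>] (0 : ℝ), ∀ hε : 0 < ε, ∀ t ∈ Icc 0 T,
      ∫⁻ x, tE6 L hΦ hε f₀ η t x.1 ∂(lam L ε hε t) ≤ C
  main : ∃ (K : ℝ) (p : ℕ), 1 ≤ K ∧ Main8 hΦ f₀ T b a D Θ F W K p lam

/-- **A functional which is bounded by a law.** -/
structure For8 (𝔉 : Fun8) (lam : Lam8) : Prop where
  add : ∀ L ε hε t ψ ψ', MW ψ → MW ψ' →
    𝔉 L ε hε t (fun V e m => ψ V e m + ψ' V e m) ≤ 𝔉 L ε hε t ψ + 𝔉 L ε hε t ψ'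
  le : ∀ᶠ L in atTop, ∀ ρ : ℝ, 0 < ρ → ∀ᶠ ε in 𝓝[>] (0 : ℝ), ∀ hε : 0 < ε, ∀ t ∈ Icc 0 T,
    ∀ ψ : Finset Src → Src → Src → ℝ≥0∞, MW ψ → (∀ V e m, ψ V e m ≤ 1) →
      𝔉 L ε hε t ψ ≤ (∫⁻ c, ∫⁻ x, ψ (wS (GC.pts c)) x.1 x.2 ∂(lam L ε hε t) ∂(GC.PP f₀ ε)) +
        ENNReal.ofReal ρ

/-- **The crude bound on the exceptional pairs.** -/
def Crude8 (𝔉 : Fun8) : Prop :=
  ∀ᶠ L in atTop, ∀ η η' θ : ℝ, 0 < η → η < η' → η' ≤ 1 → 0 < θ → ∀ J : ℕ, ∀ δ₁ : ℝ≥0∞,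
    δ₁ ≠ 0 → δ₁ ≠ ∞ → ∀ ρ : ℝ, 0 < ρ → ∀ᶠ ε in 𝓝[>] (0 : ℝ), ∀ hε : 0 < ε, ∀ t ∈ Icc 0 T,
      𝔉 L ε hε t (gIB L hΦ hε f₀ b a η η' θ t J δ₁) ≤ ENNReal.ofReal ρ

/-- **The main terms of a functional of the colliding pairs.** -/
def MainP8 (K : ℝ) (p : ℕ) (𝔉 : FunP8) : Prop :=
  ∀ᶠ L in atTop, ∀ δ ∈ Ioc (0 : ℝ) 1, ∀ η η' : ℝ, 0 < η → η < η' → η' ≤ 1 →
    ∀ δ₁ : ℝ≥0∞, δ₁ ≤ 2⁻¹ → δ₁ ≤ ENNReal.ofReal δ → ∀ ρ : ℝ, 0 < ρ →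
      ∀ᶠ ε in 𝓝[>] (0 : ℝ), ∀ hε : 0 < ε, ∀ t ∈ Icc 0 T, ∀ G : Set Src, MeasurableSet G →
        (∀ e ∈ G, rE6 L hΦ hε f₀ η (η' - η) t e ≤ δ₁ * tE6 L hΦ hε f₀ η t e) →
        𝔉 L ε hε t (fun V e σ z' => pI L hΦ hε η t T V e σ z' * ind (e ∈ G)) ≤
          R8 K p D Θ F W L δ η' ε t + ENNReal.ofReal ρ

/-- **The crude bound on the exceptional sources.** -/
def CrudeP8 (𝔉 : FunP8) : Prop :=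
  ∀ᶠ L in atTop, ∀ η η' θ : ℝ, 0 < η → η < η' → η' ≤ 1 → 0 < θ → ∀ δ₁ : ℝ≥0∞,
    δ₁ ≠ 0 → δ₁ ≠ ∞ → ∀ ρ : ℝ, 0 < ρ → ∀ᶠ ε in 𝓝[>] (0 : ℝ), ∀ hε : 0 < ε, ∀ t ∈ Icc 0 T,
      𝔉 L ε hε t (pIB L hΦ hε f₀ η η' θ t T δ₁) ≤ ENNReal.ofReal ρ

/-- Additivity and monotonicity of a functional of the colliding pairs. -/
structure ForP8 (𝔉 : FunP8) : Prop where
  add : ∀ L ε hε t φ φ', MWp φ → MWp φ' →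
    𝔉 L ε hε t (fun V e σ z' => φ V e σ z' + φ' V e σ z') ≤ 𝔉 L ε hε t φ + 𝔉 L ε hε t φ'
  mono : ∀ L ε hε t φ φ', (∀ V e σ z', φ V e σ z' ≤ φ' V e σ z') →
    𝔉 L ε hε t φ ≤ 𝔉 L ε hε t φ'

end defs

variable {Φ : E3 → ℝ} {hΦ : IsPotential Φ} {f₀ : Ph → ℝ} {κ T b : ℝ} {a : ℕ → ℝ≥0∞}
  {D Θ F : ℕ → ℝ → ℝ → ℝ → ℝ≥0∞} {W : ℕ → ℝ → ℝ → ℝ → ℝ → ℝ≥0∞} {L : ℕ} {ε : ℝ} {hε : 0 < ε}

/-- The set `GX` at a level of related trees `θ ≤ θ'`. -/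
theorem rE6_anti {η θ θ' t : ℝ} (h : θ ≤ θ') (e : Src) :
    rE6 L hΦ hε f₀ η θ' t e ≤ rE6 L hΦ hε f₀ η θ t e := by
  refine lintegral_mono fun c => ind_mono fun h1 => ⟨h1.1, lt_of_le_of_lt ?_ h1.2⟩
  refine ENNReal.ofReal_le_ofReal (mul_le_mul_of_nonneg_right h ?_)
  unfold mu
  positivity

/-- **The passage to `theta`** on a set of sources for which the related trees are negligible. -/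
theorem Nm_ind_tE6_le (h₀ : GoodDatum f₀ κ) {bN T' l₁ l₂ w : ℝ} {a' : ℕ → ℝ} {η η' t : ℝ}
    (hη : 0 < η) (hηη : η ≤ η') (ht : 0 ≤ t) (htw : t ≤ w) {δ₁ : ℝ≥0∞} (hδ : δ₁ ≤ 2⁻¹)
    {G : Set Src} (hG : ∀ e ∈ G, rE6 L hΦ hε f₀ η (η' - η) t e ≤ δ₁ * tE6 L hΦ hε f₀ η t e) :
    Nm bN T' l₁ l₂ a' t (fun σ => if σ.2.2 ≤ L then ind (σ ∈ G) * tE6 L hΦ hε f₀ η t σ else 0) ≤
      2 * dTh bN T' l₁ l₂ a' hΦ f₀ w L η' ε t := by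
  rw [dTh_pos hε]
  refine le_trans (Nm_mono fun σ hσ => ?_)
    (Nm_mul_le (by norm_num : (2 : ℝ≥0∞) ≠ ∞) (thL L hΦ hε f₀ η' t w))
  unfold thL
  by_cases h1 : σ.2.2 ≤ L
  swap
  · rw [if_neg h1, if_neg h1, mul_zero]
  rw [if_pos h1, if_pos h1]
  by_cases h2 : σ ∈ G
  swap
  · rw [ind_of_not h2, zero_mul]
    exact zero_le
  rw [ind_of h2, one_mul]
  have h3 := tE6_le_two_theta (L := L) (hΦ := hΦ) (hε := hε) h₀ hσ.1 hη (sub_nonneg.2 hηη) ht htw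
    hδ (hG σ h2)
  rwa [add_sub_cancel] at h3

end Vale.Agent.P119.PB
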