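import Vale.Agent.P119.PB.P8M
import Vale.Agent.P119.PB.In8b

/-!
# P119, block PROB, P8: the functionals of the second events and lists of laws (`helper776`)

* `ForL8`: a functional which is bounded by a list of laws;
* `forL8_P2g`, `forL8_P9a`, `forL8_P9b`, `forL8_FXg`: the functionals `P2g`, `P9a`, `P9b`, `FXg`.
-/

open MeasureTheory Filter Topology Set ProbabilityTheory
open scoped ENNReal NNReal

noncomputable section

namespace Vale.Agent.P119.PB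

open M CTree KU FB RB AU FL TL EX

/-- **A functional which is bounded by a list of laws.** -/
structure ForL8 (f₀ : Ph → ℝ) (T : ℝ) (𝔉 : Fun8) (C : ℝ≥0∞) (lams : List Lam8) : Prop where
  add : ∀ L ε hε t ψ ψ', MW ψ → MW ψ' →
    𝔉 L ε hε t (fun V e m => ψ V e m + ψ' V e m) ≤ 𝔉 L ε hε t ψ + 𝔉 L ε hε t ψ'
  le : ∀ᶠ L in atTop, ∀ ρ : ℝ, 0 < ρ → ∀ᶠ ε in 𝓝[>] (0 : ℝ), ∀ hε : 0 < ε, ∀ t ∈ Icc 0 T,
    ∀ ψ : Finset Src → Src → Src → ℝ≥0∞, MW ψ → (∀ V e m, ψ V e m ≤ 1) →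
      𝔉 L ε hε t ψ ≤ C * (lams.map fun lam : Lam8 =>
        ∫⁻ c, ∫⁻ x, ψ (wS (GC.pts c)) x.1 x.2 ∂(lam L ε hε t) ∂(GC.PP f₀ ε)).sum +
        ENNReal.ofReal ρ

/-! ### The laws -/

section laws

variable {Φ : E3 → ℝ} (hΦ : IsPotential Φ) (b β T : ℝ) (m : ℕ → ℝ)

/-- The law of an exhaust and the root line (`lamRt`). -/
def lam8R (q : ℕ) : Lam8 := fun L _ hε t => lamRt hΦ hε.ne' b T t t m L q

/-- The law of two exhausts, one above the other (`lamAl`). -/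
def lam8A (q : ℕ) : Lam8 := fun L _ hε t => lamAl hΦ hε.ne' b T t t m L q

/-- The law of two exhausts, one above the other, in the other order. -/
def lam8B (q : ℕ) : Lam8 := fun L _ hε t => (lamAl hΦ hε.ne' b T t t m L q).map Prod.swap

/-- The law of two exhausts in different branches (`lamCl`). -/
def lam8C (q : ℕ) : Lam8 := fun L _ hε t => lamCl hΦ hε.ne' b T t m L q

/-- The law of two exhausts in different branches, in the other order. -/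
def lam8D (q : ℕ) : Lam8 := fun L _ hε t => (lamCl hΦ hε.ne' b T t m L q).map Prod.swap

/-- The law of an exhaust and a line created by the hit of a free line, with the weights `wg` of the
depth of the free line. -/
def lam8F (wg : ℕ → ℝ≥0∞) : Lam8 := fun L _ hε t =>
  lamFs hΦ hε.ne' b β t (T + 1) (aM8 m) L (fun N => K8 T ^ (N + 2)) wg

end laws

variable {Φ : E3 → ℝ} {hΦ : IsPotential Φ} {f₀ : Ph → ℝ} {κ T b b' β : ℝ} {m : ℕ → ℝ}

theorem gE_swap (h₀ : GoodDatum f₀ κ) {ε : ℝ} {ψ : Finset Src → Src → Src → ℝ≥0∞} (hψ : MW ψ)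
    (lam : Measure (Src × Src)) :
    ∫⁻ z, gE f₀ ε ψ z.2 z.1 ∂lam = ∫⁻ z, gE f₀ ε ψ z.1 z.2 ∂(lam.map Prod.swap) := by
  rw [lintegral_map (measurable_gE h₀ hψ) measurable_swap]
  rfl

theorem gE_add_swap (h₀ : GoodDatum f₀ κ) {ε : ℝ} {ψ : Finset Src → Src → Src → ℝ≥0∞}
    (hψ : MW ψ) (lam : Measure (Src × Src)) :
    ∫⁻ z, (gE f₀ ε ψ z.1 z.2 + gE f₀ ε ψ z.2 z.1) ∂lam =
      ∫⁻ z, gE f₀ ε ψ z.1 z.2 ∂lam + ∫⁻ z, gE f₀ ε ψ z.1 z.2 ∂(lam.map Prod.swap) := by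
  rw [lintegral_add_left (measurable_gE h₀ hψ), gE_swap h₀ hψ]

instance (q : ℕ) (L : ℕ) (ε : ℝ) (hε : 0 < ε) (t : ℝ) : SFinite (lam8R hΦ b T m q L ε hε t) := by
  unfold lam8R; infer_instance

instance (q : ℕ) (L : ℕ) (ε : ℝ) (hε : 0 < ε) (t : ℝ) : SFinite (lam8A hΦ b T m q L ε hε t) := by
  unfold lam8A; infer_instance

instance (q : ℕ) (L : ℕ) (ε : ℝ) (hε : 0 < ε) (t : ℝ) : SFinite (lam8B hΦ b T m q L ε hε t) := by
  unfold lam8B; infer_instance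

instance (q : ℕ) (L : ℕ) (ε : ℝ) (hε : 0 < ε) (t : ℝ) : SFinite (lam8C hΦ b T m q L ε hε t) := by
  unfold lam8C; infer_instance

instance (q : ℕ) (L : ℕ) (ε : ℝ) (hε : 0 < ε) (t : ℝ) : SFinite (lam8D hΦ b T m q L ε hε t) := by
  unfold lam8D; infer_instance

instance (wg : ℕ → ℝ≥0∞) (L : ℕ) (ε : ℝ) (hε : 0 < ε) (t : ℝ) :
    SFinite (lam8F hΦ b β T m wg L ε hε t) := by
  unfold lam8F; infer_instance

/-! ### The functionals -/

/-- The functional `P2g`. -/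
def F8P2g (Φ : E3 → ℝ) (f₀ : Ph → ℝ) : Fun8 := fun L ε _ t ψ => P2g Φ ε L f₀ t ψ

/-- The functional `P9a`. -/
def F8P9a (Φ : E3 → ℝ) (f₀ : Ph → ℝ) : Fun8 := fun L ε _ t ψ => P9a Φ ε L f₀ t ψ

/-- The functional `P9b`. -/
def F8P9b (Φ : E3 → ℝ) (f₀ : Ph → ℝ) : Fun8 := fun L ε _ t ψ => P9b Φ ε L f₀ t ψ

/-- The functional `FXg`, summed over the depth of the free line with the weights `wg`. -/
def F8FXg (Φ : E3 → ℝ) (f₀ : Ph → ℝ) (b' : ℝ) (wg : ℕ → ℝ≥0∞) : Fun8 :=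
  fun L ε _ t ψ => ∑' n, wg n * FXg Φ ε L f₀ b' t ψ n

section inst

variable (hΦ) (h₀ : GoodDatum f₀ κ) (hb : 0 < b) {b₀ M₀ : ℝ} (hbb : b ≤ b₀)
  (hM : 0 ≤ M₀) (hf : ∀ z, f₀ z ≤ M₀ * Real.exp (-b₀ * ‖z.2‖ ^ 2)) (hT : 0 ≤ T)
  [IsFiniteMeasure (dmeas m)] (hcap : ∀ᶠ L in atTop, CapH Φ f₀ L T b m)
  (hI1 : ∀ᶠ L in atTop, Cap.InI1 Φ f₀ L T)
include h₀ hb hbb hM hf hT hcap hI1

/-- **`P2g` and its laws.** -/
theorem forL8_P2g : ForL8 f₀ T (F8P2g Φ f₀) 1 [lam8R hΦ b T m 2, lam8A hΦ b T m 2,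
    lam8B hΦ b T m 2, lam8C hΦ b T m 2, lam8D hΦ b T m 2] where
  add L ε hε t ψ ψ' h h' := (P2g_add h₀ hΦ hε h).le
  le := by
    filter_upwards [hcap, hI1] with L hc hI ρ hρ
    filter_upwards [P2g_lam hΦ h₀ hb hbb hM hf hT hc hI hρ] with ε h hε t ht ψ hψ hψ1
    refine (h hε ψ hψ hψ1 t ht.2 t le_rfl).trans (le_of_eq ?_)
    rw [one_mul]
    congr 1
    simp only [List.map_cons, List.map_nil, List.sum_cons, List.sum_nil]
    rw [lintegral_gE h₀ hψ, lintegral_gE h₀ hψ, lintegral_gE h₀ hψ, lintegral_gE h₀ hψ,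
      lintegral_gE h₀ hψ, gE_add_swap h₀ hψ, gE_add_swap h₀ hψ]
    unfold lam8R lam8A lam8B lam8C lam8D
    ring

/-- **`P9a` and its laws.** -/
theorem forL8_P9a : ForL8 f₀ T (F8P9a Φ f₀) (C9 b T m) [lam8A hΦ b T m 3,
    lam8B hΦ b T m 3, lam8C hΦ b T m 3, lam8D hΦ b T m 3] where
  add L ε hε t ψ ψ' h h' := (P9a_add h₀ hΦ hε h).le
  le := by
    filter_upwards [hcap, hI1] with L hc hI ρ hρ
    filter_upwards [P9a_lam hΦ h₀ hb hbb hM hf hT hc hI hρ] with ε h hε t ht ψ hψ hψ1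
    refine (h hε ψ hψ hψ1 t ht.2 t le_rfl).trans (le_of_eq ?_)
    congr 2
    simp only [List.map_cons, List.map_nil, List.sum_cons, List.sum_nil]
    rw [lintegral_gE h₀ hψ, lintegral_gE h₀ hψ, lintegral_gE h₀ hψ, lintegral_gE h₀ hψ,
      gE_add_swap h₀ hψ, gE_add_swap h₀ hψ]
    unfold lam8A lam8B lam8C lam8D
    ring

/-- **`P9b` and its law.** -/
theorem forL8_P9b : ForL8 f₀ T (F8P9b Φ f₀) (C9b b) [lam8C hΦ b T m 2] where
  add L ε hε t ψ ψ' h h' := (P9b_add h₀ hΦ hε h).le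
  le := by
    filter_upwards [hcap, hI1] with L hc hI ρ hρ
    filter_upwards [P9b_lam hΦ h₀ hb hbb hM hf hT hc hI hρ] with ε h hε t ht ψ hψ hψ1
    refine (h hε ψ hψ hψ1 t ht.2).trans (le_of_eq ?_)
    congr 2
    simp only [List.map_cons, List.map_nil, List.sum_cons, List.sum_nil]
    rw [lintegral_gE h₀ hψ, add_zero]
    rfl

/-- **The sum of `FXg` and its law.** -/
theorem forL8_FXg (hb' : 0 < b') (hβ : 0 < β) (hβb : β ≤ b) (hβb' : β ≤ b') {wg : ℕ → ℝ≥0∞}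
    (hwg : ∑' n, wg n ≠ ∞) :
    ForL8 f₀ T (F8FXg Φ f₀ b' wg) 1 [lam8F hΦ b β T m wg] where
  add L ε hε t ψ ψ' h h' := by
    unfold F8FXg
    rw [← ENNReal.tsum_add]
    refine ENNReal.tsum_le_tsum fun n => le_of_eq ?_
    rw [FXg_add h₀ hΦ hε h n, mul_add]
  le := by
    filter_upwards [hcap, hI1] with L hc hI ρ hρ
    set S : ℝ≥0∞ := ∑' n, wg n with hS
    have hS0 : 0 ≤ S.toReal := ENNReal.toReal_nonneg
    have hρ' : 0 < ρ / (S.toReal + 1) := by positivity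
    filter_upwards [FXg_lam hΦ h₀ hb hbb hM hf hT hc hI hb' hβ hβb hβb' hρ']
      with ε h hε t ht ψ hψ hψ1
    unfold F8FXg
    refine (ENNReal.tsum_le_tsum fun n => mul_le_mul' (le_refl (wg n))
      (h hε ψ hψ hψ1 t ht.1 ht.2 (T + 1) (by linarith [ht.2]) n)).trans ?_
    simp only [mul_add]
    rw [ENNReal.tsum_add, ENNReal.tsum_mul_right, one_mul]
    refine add_le_add (le_of_eq ?_) ?_
    · simp only [List.map_cons, List.map_nil, List.sum_cons, List.sum_nil]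
      rw [lintegral_gE h₀ hψ, add_zero]
      unfold lam8F
      rw [lintegral_lamFs]
    · rw [← hS]
      have e1 : S = ENNReal.ofReal S.toReal := (ENNReal.ofReal_toReal hwg).symm
      calc S * ENNReal.ofReal (ρ / (S.toReal + 1))
          = ENNReal.ofReal S.toReal * ENNReal.ofReal (ρ / (S.toReal + 1)) := by rw [← e1]
        _ = ENNReal.ofReal (S.toReal * (ρ / (S.toReal + 1))) := by
            rw [← ENNReal.ofReal_mul hS0]
        _ ≤ ENNReal.ofReal ρ := by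
            refine ENNReal.ofReal_le_ofReal ?_
            rw [mul_div_assoc', div_le_iff₀ (by positivity)]
            nlinarith

end inst

end Vale.Agent.P119.PB
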