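import Vale.Agent.P119.PB.LamA
import Vale.Agent.P119.PB.Top8g
import Vale.Agent.P119.PB.Op8

/-!
# P119, block PROB: an exhaust of a tree which is hit by a free line (`helper298`)

* `sumJ_free`: the sum over one marked node of a function of the exhaust, of the pair (free line,
  root line) and of the depth of the root, integrated over the free line which hits the root line, is
  at most `∑_N K^(N+2) ∑_y aw y ∫ κ(e, last pair, depth) dlawA (N+1)`.
-/

open MeasureTheory Set Filter Topology Metric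
open scoped ENNReal

noncomputable section

namespace Vale.Agent.P119.PB

open KU M M.CTree FL Cap

variable {Φ : E3 → ℝ} {ε bE b t t₂ : ℝ} {L : ℕ}

/-- The law A is monotone in the Gaussian exponents. -/
theorem lawA_mono_bb {b₁ b₂ : ℝ} (hE : b₁ ≤ b₂) (h : b ≤ bE) {N : ℕ} (S : ℕ → Step) :
    lawA ε b₂ bE t t₂ N S ≤ lawA ε b₁ b t t₂ N S := by
  have h1 : ∀ {c₁ c₂ : ℝ} (v : E3), c₁ ≤ c₂ → gw c₂ v ≤ gw c₁ v := fun v hc => by
    unfold gw
    apply ENNReal.ofReal_le_ofReal
    apply Real.exp_le_exp.2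
    nlinarith [sq_nonneg ‖v‖]
  unfold lawA
  refine withDensity_mono (ae_of_all _ fun x => ?_)
  by_cases hz : x ∈ evA ε t t₂ S
  · rw [wA_of hz, wA_of hz]
    refine mul_le_mul' (h1 _ hE) (mul_le_mul' (mul_le_mul' le_rfl (h1 _ h)) ?_)
    unfold FL.wt
    exact Finset.prod_le_prod' fun j _ => mul_le_mul' le_rfl (h1 (x.2.2 j).2 h)
  · rw [wA_of_not hz, wA_of_not hz]

/-- Almost no line hits a given line at a given time. -/
theorem ae_hit (hε : 0 < ε) (hb : 0 < b) (l : Ph) (s : ℝ) :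
    ∀ᵐ z : Ph, ¬(Meets ε (l, z) ∧ hitT ε (l, z) = s) := by
  classical
  have h := hit_null hε hb l s
  have hm : Measurable fun z : Ph => gw b z.2 * ind (Meets ε (l, z) ∧ hitT ε (l, z) = s) := by
    refine ((measurable_gw b).comp measurable_snd).mul (measurable_ind ?_)
    have h1 : Measurable fun z : Ph => ((l, z) : Ph × Ph) := measurable_const.prodMk measurable_id
    exact (measurableSet_meets.preimage h1).inter
      (measurableSet_eq_fun (measurable_hitT.comp h1) measurable_const)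
  rw [lintegral_eq_zero_iff hm] at h
  filter_upwards [h] with z hz h'
  have h2 : gw b z.2 * ind (Meets ε (l, z) ∧ hitT ε (l, z) = s) = 0 := hz
  rw [ind_of h', mul_one] at h2
  unfold gw at h2
  exact absurd h2 (ENNReal.ofReal_pos.2 (Real.exp_pos _)).ne'

/-- The integral over the free line which hits the last line, before the factor `μ`. -/
def fzI (ε b t : ℝ) (κ : Ph × Ph → ℝ≥0∞) (s : ℝ) (l : Ph) : ℝ≥0∞ :=
  ∫⁻ z : Ph, gw b z.2 * (ind (Meets ε (z, l) ∧ s ≤ hitT ε (z, l) ∧ hitT ε (z, l) ≤ t) * κ (z, l))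

/-- The free line is one more hit of the chain. -/
theorem fzI_le (hε : 0 < ε) (hb : 0 < b) (ht₂ : t < t₂) {κ : Ph × Ph → ℝ≥0∞} (s : ℝ) (l : Ph) :
    muE ε * fzI ε b t κ s l ≤ opP ε b t₂ (fun q => κ q.swap) s l := by
  classical
  unfold fzI opP
  rw [← lintegral_const_mul' _ _ muE_ne_top, ← lintegral_indicator (measurableSet_hitO t₂ s l)]
  refine lintegral_mono_ae ?_
  filter_upwards [ae_hit hε hb l s] with z hz
  by_cases h : Meets ε (z, l) ∧ s ≤ hitT ε (z, l) ∧ hitT ε (z, l) ≤ t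
  · obtain ⟨h1, h2, h3⟩ := h
    have e1 : hitT ε (l, z) = hitT ε (z, l) := hitT_swap (z, l)
    have h4 : Meets ε (l, z) := (meets_swap (z, l)).2 h1
    have h5 : s < hitT ε (l, z) := by
      rcases (e1 ▸ h2 : s ≤ hitT ε (l, z)).lt_or_eq with h | h
      · exact h
      · exact absurd ⟨h4, h.symm⟩ hz
    rw [ind_of ⟨h1, h2, h3⟩, one_mul, indicator_of_mem (show z ∈ hitO ε t₂ s l from
      ⟨h4, h5, by rw [e1]; exact h3.trans_lt ht₂⟩)]
    refine le_of_eq ?_
    rw [mul_assoc]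
    rfl
  · rw [ind_of_not h, zero_mul, mul_zero, mul_zero]
    exact zero_le

/-- The function `κ` of the exhaust, of the pair (free line, root line) and of the depth of the root,
in terms of the index. -/
def kp (t : ℝ) (L : ℕ) (κ : Src → Ph × Ph → ℕ → ℝ≥0∞) {N : ℕ} (y : Ix N) (σ : ℝ × Ph)
    (p : Ph × Ph) : ℝ≥0∞ :=
  (srcS t L).indicator (fun e => ind (dM y ≤ L) * κ e p (dM y)) (σ.1, σ.2, max y.1 y.2.1 + 1)

theorem measurable_kp {κ : Src → Ph × Ph → ℕ → ℝ≥0∞}
    (hκ : ∀ D, Measurable fun z : Src × (Ph × Ph) => κ z.1 z.2 D) {N : ℕ} (y : Ix N) :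
    Measurable fun q : (ℝ × Ph) × (Ph × Ph) => kp t L κ y q.1 q.2 := by
  have hs : MeasurableSet {q : (ℝ × Ph) × (Ph × Ph) |
      ((q.1.1, q.1.2, max y.1 y.2.1 + 1) : Src) ∈ srcS t L} :=
    (measurable_fst.fst.prodMk (measurable_fst.snd.prodMk measurable_const) :
      Measurable fun q : (ℝ × Ph) × (Ph × Ph) => ((q.1.1, q.1.2, max y.1 y.2.1 + 1) : Src))
      (measurableSet_srcS t L)
  have hf : Measurable fun q : (ℝ × Ph) × (Ph × Ph) => ind (dM y ≤ L) *
      κ (q.1.1, q.1.2, max y.1 y.2.1 + 1) q.2 (dM y) :=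
    ((hκ (dM y)).comp ((measurable_fst.fst.prodMk (measurable_fst.snd.prodMk
      measurable_const)).prodMk measurable_snd)).const_mul _
  exact hf.indicator hs

theorem measurable_fzI {X : Type*} [MeasurableSpace X] {κ : X → Ph × Ph → ℝ≥0∞}
    (hκ : Measurable fun q : X × (Ph × Ph) => κ q.1 q.2) {s : X → ℝ} {l : X → Ph}
    (hs : Measurable s) (hl : Measurable l) :
    Measurable fun x => fzI ε b t (κ x) (s x) (l x) := by
  have hp : Measurable fun p : X × Ph => ((p.2, l p.1) : Ph × Ph) :=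
    measurable_snd.prodMk (hl.comp measurable_fst)
  have h1 : Measurable fun p : X × Ph => gw b p.2.2 *
      (ind (Meets ε (p.2, l p.1) ∧ s p.1 ≤ hitT ε (p.2, l p.1) ∧ hitT ε (p.2, l p.1) ≤ t) *
        κ p.1 (p.2, l p.1)) := by
    refine ((measurable_gw b).comp measurable_snd.snd).mul ((measurable_ind ?_).mul ?_)
    · exact (measurableSet_meets.preimage hp).inter ((measurableSet_le (hs.comp measurable_fst)
        (measurable_hitT.comp hp)).inter (measurableSet_le (measurable_hitT.comp hp)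
          measurable_const))
    · exact hκ.comp (measurable_fst.prodMk hp)
  exact h1.lintegral_prod_right'

/-- **One marked node and a free line which hits the root line.** The pieces have the Gaussian
exponent `bE`, the free line has the exponent `b ≤ bE`. -/
theorem sumJ_free (hΦ : IsPotential Φ) (hε : 0 < ε) (hb : 0 < b) (hbE : b ≤ bE) (ht₂ : t < t₂)
    {K : ℝ≥0∞} {α : ℕ → ℝ≥0∞} {Θ : Measure CTree} [SigmaFinite Θ] (hΘ : LDLaw Φ ε bE K α Θ)
    {F : CTree → CTree → ℝ≥0∞} {κ : Src → Ph × Ph → ℕ → ℝ≥0∞}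
    (hκ : ∀ D, Measurable fun z : Src × (Ph × Ph) => κ z.1 z.2 D)
    (hF : ∀ T ∈ okT Φ ε t L, ∀ x, F T x ≤ ∫⁻ z : Ph, gw b z.2 *
      (ind (hitF Φ ε t z T) * κ (rsrc Φ ε x) (z, ln Φ ε T) T.depth)) :
    sumJ Φ ε t L Θ F ≤ ∑' N, K ^ (N + 2) * ∑' y : Ix N, aw α y *
      ∫⁻ x, kp t L κ y (srcA ε x) (lpA (ixS hΦ hε.ne' y) x).swap
        ∂(lawA ε bE b t t₂ (N + 1) (ixS hΦ hε.ne' y)) := by
  unfold sumJ
  refine ENNReal.tsum_le_tsum fun N => ?_
  set f : Ix N → XA N → ℝ≥0∞ := fun y x =>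
    fzI ε b t (kp t L κ y (srcA ε x)) (endA ε (ixS hΦ hε.ne' y) x).1
      (endA ε (ixS hΦ hε.ne' y) x).2 with hf
  have hfm : ∀ y : Ix N, Measurable (f y) := fun y =>
    measurable_fzI (X := XA N) (κ := fun x => kp t L κ y (srcA ε x))
      ((measurable_kp hκ y).comp ((measurable_srcA.comp measurable_fst).prodMk measurable_snd))
      (measurable_endA _).fst (measurable_endA _).snd
  have h1 : ∀ q : Mk CTree N, (okT Φ ε t L).indicator (fun _ => F (top q) (exh q)) (top q) ≤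
      (okT Φ ε t L).indicator (fun _ => f (ix q) (mkD Φ ε q)) (top q) := by
    intro q
    by_cases hq : top q ∈ okT Φ ε t L
    · rw [indicator_of_mem hq, indicator_of_mem hq]
      refine (hF _ hq _).trans (lintegral_mono fun z => mul_le_mul' le_rfl ?_)
      by_cases hz : hitF Φ ε t z (top q)
      · obtain ⟨⟨g1, g2, g3⟩, g4⟩ := hz
        have e1 : ln Φ ε (top q) = (endA ε (ixS hΦ hε.ne' (ix q)) (mkD Φ ε q)).2 :=
          ln_top hΦ hε.ne' q
        have e2 : (top q).depth = dM (ix q) := depth_plug_eq N (node q.1 q.2.1) q.2.2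
        have e3 := rsrc_exh hΦ hε.ne' q
        have g5 := srcP_mem hΦ hε hq
        have g6 : ((srcA ε (mkD Φ ε q)).1, (srcA ε (mkD Φ ε q)).2,
            max (ix q).1 (ix q).2.1 + 1) ∈ srcS t L := g5.1
        have g7 : dM (ix q) ≤ L := by rw [← e2]; exact hq.2.2
        rw [ind_of ⟨⟨g1, g2, g3⟩, g4⟩, e3, e2, ← e1, ind_of ⟨g1,
          (endA_le_ext hΦ hε hq.1).trans g4, g3⟩, one_mul, one_mul]
        unfold kp
        rw [indicator_of_mem g6, ind_of g7, one_mul]
        exact le_rfl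
      · rw [ind_of_not hz, zero_mul]
        exact zero_le
    · rw [indicator_of_notMem hq]; exact zero_le
  refine (lintegral_mono h1).trans ((mkD_le (t := t) hΦ hε hΘ L N (f := f) hfm).trans ?_)
  have h2 : ∀ y : Ix N, muE ε * ∫⁻ x, f y x ∂(lawA ε bE bE t t N (ixS hΦ hε.ne' y)) ≤
      ∫⁻ x, kp t L κ y (srcA ε x) (lpA (ixS hΦ hε.ne' y) x).swap
        ∂(lawA ε bE b t t₂ (N + 1) (ixS hΦ hε.ne' y)) := by
    intro y
    have h3 := lawA_opP (ε := ε) (bE := bE) (b := b) (t := t) (t₂ := t₂) (N := N)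
      (ixS hΦ hε.ne' y) (K := fun σ q => kp t L κ y σ q.swap)
      ((measurable_kp hκ y).comp (measurable_fst.prodMk (measurable_swap.comp measurable_snd)))
    rw [← h3, ← lintegral_const_mul' _ _ muE_ne_top]
    refine (lintegral_mono' ((lawA_mono ht₂.le _).trans (lawA_mono_bb le_rfl hbE _))
      le_rfl).trans (lintegral_mono fun x => ?_)
    exact fzI_le hε hb ht₂ _ _
  calc muE ε * (K ^ (N + 2) * ∑' y : Ix N, aw α y *
        ∫⁻ x, f y x ∂(lawA ε bE bE t t N (ixS hΦ hε.ne' y)))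
      = K ^ (N + 2) * ∑' y : Ix N, aw α y *
        (muE ε * ∫⁻ x, f y x ∂(lawA ε bE bE t t N (ixS hΦ hε.ne' y))) := by
        have e : ∀ y : Ix N, aw α y * (muE ε *
            ∫⁻ x, f y x ∂(lawA ε bE bE t t N (ixS hΦ hε.ne' y))) = muE ε * (aw α y *
            ∫⁻ x, f y x ∂(lawA ε bE bE t t N (ixS hΦ hε.ne' y))) := fun y => by ring
        simp only [e]
        rw [ENNReal.tsum_mul_left]
        ring
    _ ≤ _ := mul_le_mul' le_rfl (ENNReal.tsum_le_tsum fun y => mul_le_mul' le_rfl (h2 y))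

end Vale.Agent.P119.PB
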