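import Vale.Agent.P119.PB.HitInt
import Vale.Agent.P119.PB.TrickC
import Vale.Agent.P119.PB.ExAdr
import Vale.Agent.P119.PB.LamF
import Vale.Agent.P119.PB.For8
import Vale.Agent.P119.IND.X1J

/-!
# P119, block PROB, P8: the exceptional terms of an exhaust and of a free line (`helper350`)

The crude functionals `cr2` and `cr2p` (`helper178`) are structure laws of marked pairs with one tree
and one line (`helper228`).

* `OkC`, `wF2`, `eC`, `kC`, `kCD`: the event, the weight and the two sources; `mlaw`: the law;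
* `cr2_le`, `cr2p_le`: `cr2` and `cr2p` are at most sums of structure laws;
* **`cr2_small`**: `cr2` is small, uniformly in the depth of the free line;
* **`crude8_FXg`**: the crude bound for the functional `FXg`.
-/

open MeasureTheory Filter Topology Set
open scoped ENNReal NNReal

noncomputable section

namespace Vale.Agent.P119.PB.C2

open M CTree KU FB RB AU FL TL IND GC PB.CT

variable {Φ : E3 → ℝ} {ε t b β c κ₀ : ℝ} {L n D : ℕ} {p : List Bool} {o : Fin 3} {S : CTree}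
  {z : Ph} {f₀ : Ph → ℝ}

/-- The free line `z` hits the root line of the tree `S`; `p` is the address of an exhaust, `o` is the
created line. -/
structure OkC (Φ : E3 → ℝ) (ε t : ℝ) (L n : ℕ) (p : List Bool) (o : Fin 3) (S : CTree) (z : Ph) :
    Prop where
  hit : HL.Hst Φ ε t L (0, z, n) S
  exits : Exits Φ (KU.rel ε (z, ln Φ ε S))
  birth : (nwS Φ ε o (z, ln Φ ε S)).1 ≤ t
  adr : EA.isA p S

/-- The weight. -/
def wF2 (Φ : E3 → ℝ) (ε t c : ℝ) (L n : ℕ) (p : List Bool) (o : Fin 3) (T : Fin 1 → CTree)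
    (l : Fin 1 → Ph) : ℝ≥0∞ :=
  ENNReal.ofReal (Real.exp (c * ‖(l 0).2‖ ^ 2)) * PB.ind (OkC Φ ε t L n p o (T 0) (l 0))

/-- The exhaust. -/
def eC (Φ : E3 → ℝ) (ε : ℝ) (p : List Bool) (T : Fin 1 → CTree) (_ : Fin 1 → Ph) : Src :=
  rsrc Φ ε (EA.exA p (T 0))

/-- The created line, with the depth `D`. -/
def kCD (Φ : E3 → ℝ) (ε : ℝ) (o : Fin 3) (D : CTree → ℕ) (T : Fin 1 → CTree) (l : Fin 1 → Ph) :
    Src :=
  ((nwS Φ ε o (l 0, ln Φ ε (T 0))).1, (nwS Φ ε o (l 0, ln Φ ε (T 0))).2, D (T 0))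

/-- The depth of the created line. -/
def dC (n : ℕ) (o : Fin 3) (S : CTree) : ℕ := if o = 2 then S.depth else max n S.depth + 1

theorem wF2_ne_zero {T : Fin 1 → CTree} {l : Fin 1 → Ph} (h : wF2 Φ ε t c L n p o T l ≠ 0) :
    OkC Φ ε t L n p o (T 0) (l 0) := by
  by_contra hcon
  unfold wF2 at h
  rw [ind_of_not hcon, mul_zero] at h
  exact h rfl

theorem measurable_wF2 (hΦ : IsPotential Φ) (hε : 0 < ε) (t c : ℝ) (L n : ℕ) (p : List Bool)
    (o : Fin 3) : Measurable fun q : (Fin 1 → CTree) × (Fin 1 → Ph) =>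
      wF2 Φ ε t c L n p o q.1 q.2 := by
  have hT : Measurable fun q : (Fin 1 → CTree) × (Fin 1 → Ph) => q.1 0 :=
    (measurable_pi_apply 0).comp measurable_fst
  have hz : Measurable fun q : (Fin 1 → CTree) × (Fin 1 → Ph) => q.2 0 :=
    (measurable_pi_apply 0).comp measurable_snd
  have hln : Measurable fun q : (Fin 1 → CTree) × (Fin 1 → Ph) => ln Φ ε (q.1 0) :=
    (M.measurable_ln hΦ hε.ne').comp hT
  have hq : Measurable fun q : (Fin 1 → CTree) × (Fin 1 → Ph) =>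
      ((q.2 0, ln Φ ε (q.1 0)) : Ph × Ph) := hz.prodMk hln
  have h1 : MeasurableSet {q : (Fin 1 → CTree) × (Fin 1 → Ph) |
      HL.Hst Φ ε t L (0, q.2 0, n) (q.1 0)} :=
    RLn.measurableSet_Hst hΦ hε hT (measurable_const.prodMk (hz.prodMk measurable_const))
  have h2 : MeasurableSet {q : (Fin 1 → CTree) × (Fin 1 → Ph) |
      Exits Φ (KU.rel ε (q.2 0, ln Φ ε (q.1 0)))} :=
    (KU.continuous_rel.measurable.comp hq) (measurableSet_exits hΦ)
  have h3 : MeasurableSet {q : (Fin 1 → CTree) × (Fin 1 → Ph) |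
      (nwS Φ ε o (q.2 0, ln Φ ε (q.1 0))).1 ≤ t} :=
    measurableSet_le ((measurable_nwS hΦ hε.ne' o).comp hq).fst measurable_const
  have h4 : MeasurableSet {q : (Fin 1 → CTree) × (Fin 1 → Ph) | EA.isA p (q.1 0)} :=
    hT (EA.measurableSet_isA p)
  have e : {q : (Fin 1 → CTree) × (Fin 1 → Ph) | OkC Φ ε t L n p o (q.1 0) (q.2 0)} =
      {q | HL.Hst Φ ε t L (0, q.2 0, n) (q.1 0)} ∩
      ({q | Exits Φ (KU.rel ε (q.2 0, ln Φ ε (q.1 0)))} ∩
      ({q | (nwS Φ ε o (q.2 0, ln Φ ε (q.1 0))).1 ≤ t} ∩ {q | EA.isA p (q.1 0)})) := by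
    ext q
    exact ⟨fun h => ⟨h.1, h.2, h.3, h.4⟩, fun h => ⟨h.1, h.2.1, h.2.2.1, h.2.2.2⟩⟩
  unfold wF2
  refine Measurable.mul ?_ (measurable_ind ?_)
  · exact ENNReal.measurable_ofReal.comp (Real.measurable_exp.comp
      (measurable_const.mul ((hz.snd.norm).pow_const 2)))
  · rw [e]
    exact h1.inter (h2.inter (h3.inter h4))

theorem measurable_eC (hΦ : IsPotential Φ) (hε : 0 < ε) (p : List Bool) :
    Measurable fun q : (Fin 1 → CTree) × (Fin 1 → Ph) => eC Φ ε p q.1 q.2 :=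
  RM.meas_rsrc hΦ hε ((EA.measurable_exA p).comp ((measurable_pi_apply 0).comp measurable_fst))

theorem measurable_kCD (hΦ : IsPotential Φ) (hε : 0 < ε) (o : Fin 3) {D : CTree → ℕ}
    (hD : Measurable D) :
    Measurable fun q : (Fin 1 → CTree) × (Fin 1 → Ph) => kCD Φ ε o D q.1 q.2 := by
  have hT : Measurable fun q : (Fin 1 → CTree) × (Fin 1 → Ph) => q.1 0 :=
    (measurable_pi_apply 0).comp measurable_fst
  have hz : Measurable fun q : (Fin 1 → CTree) × (Fin 1 → Ph) => q.2 0 :=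
    (measurable_pi_apply 0).comp measurable_snd
  have hq : Measurable fun q : (Fin 1 → CTree) × (Fin 1 → Ph) =>
      nwS Φ ε o ((q.2 0, ln Φ ε (q.1 0)) : Ph × Ph) :=
    (measurable_nwS hΦ hε.ne' o).comp (hz.prodMk ((M.measurable_ln hΦ hε.ne').comp hT))
  exact hq.fst.prodMk (hq.snd.prodMk (hD.comp hT))

theorem measurable_dC (n : ℕ) (o : Fin 3) : Measurable (dC n o) := by
  unfold dC
  by_cases h : o = 2
  · simp only [if_pos h]
    exact measurable_depth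
  · simp only [if_neg h]
    exact (measurable_const.max measurable_depth).add_const 1

theorem enB_one (R : Fin 1 → CTree) (l : Fin 1 → Ph) :
    enB R l = enT (R 0) + ‖(l 0).2‖ ^ 2 := by
  unfold enB
  rw [Fin.sum_univ_one, Fin.sum_univ_one]

/-- **The law of the marked pairs**: an exhaust of a tree and a line created by a free line. -/
theorem mlaw (hΦ : IsPotential Φ) (hε : 0 < ε) (hc : 0 ≤ c) (t : ℝ) (L n : ℕ) (p : List Bool)
    (o : Fin 3) : MLaw Φ ε t c L (2 * 2 ^ (L + 2) + 4) (fun _ : Fin 1 => (0 : ℝ)) (fun _ => n)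
      (wF2 Φ ε t c L n p o) (eC Φ ε p) (kCD Φ ε o fun _ => 0) 1 := by
  classical
  refine ⟨measurable_wF2 hΦ hε t c L n p o, measurable_eC hΦ hε p,
    measurable_kCD hΦ hε o measurable_const, fun T l => ?_, fun _ => le_rfl, fun T l h => ?_,
    fun T l h => ?_, fun T l h => ?_⟩
  · unfold wF2
    rw [one_mul]
    refine (mul_le_mul' (ENNReal.ofReal_le_ofReal (Real.exp_le_exp.2 ?_)) (ind_le_one _)).trans
      (mul_one _).le
    rw [enB_one]
    nlinarith [mul_nonneg hc (enT_nonneg (T 0))]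
  · obtain ⟨h1, -, -, -⟩ := wF2_ne_zero h
    refine ⟨fun j => ?_, fun i j hij => absurd (Subsingleton.elim i j) hij,
      Function.injective_of_subsingleton _, fun i j => ?_⟩
    · rw [Subsingleton.elim j 0]
      exact h1.ok
    · rw [Subsingleton.elim i 0, Subsingleton.elim j 0]
      exact h1.notMem
  · obtain ⟨h1, -, -, h4⟩ := wF2_ne_zero h
    exact ⟨(EA.depth_exA h4).trans h1.depth, Nat.zero_le _⟩
  · obtain ⟨h1, h2, h3, h4⟩ := wF2_ne_zero h
    have h5 := Mk.of_hit (t := t) hΦ hε h1.ok (EA.exA_mem h4) (z := l 0) (n := n) o h1.meets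
      h1.ext_lt h3 h1.le h2 h1.notMem (EA.exA p (T 0)).depth 0
    have e1 : (fun _ : Fin 1 => T 0) = T := funext fun j => by rw [Subsingleton.elim j 0]
    have e2 : (fun _ : Fin 1 => (((0 : ℝ), l 0, n) : Src)) = lns (fun _ => 0) (fun _ => n) l :=
      funext fun j => by rw [Subsingleton.elim j 0]; rfl
    rw [e1, e2] at h5
    exact h5.mono (Nat.add_le_add_right (szB_tree_le h1.depth) 4)

/-! ### The integral -/

/-- The three created lines. -/
theorem frS_eq_nwS (Ψ : Src → ℝ≥0∞) (z z' : Ph) (n D : ℕ) :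
    frS Φ ε Ψ (0, z, n) z' D = ∑ o : Fin 3, Ψ ((nwS Φ ε o (z, z')).1, (nwS Φ ε o (z, z')).2,
      if o = 2 then D else max n D + 1) := by
  rw [Fin.sum_univ_three]
  unfold frS nwS
  rw [if_pos rfl, if_neg (by decide : ¬(0 : Fin 3) = 2), if_neg (by decide : ¬(1 : Fin 3) = 0),
    if_pos rfl, if_neg (by decide : ¬(1 : Fin 3) = 2), if_neg (by decide : ¬(2 : Fin 3) = 0),
    if_neg (by decide : ¬(2 : Fin 3) = 1), if_pos rfl]

theorem gw_le_g1 (hb : b ≤ β + c) (v : E3) :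
    gw β v ≤ g1 b v * ENNReal.ofReal (Real.exp (c * ‖v‖ ^ 2)) := by
  unfold gw g1
  rw [← ENNReal.ofReal_mul (Real.exp_pos _).le, ← Real.exp_add]
  refine ENNReal.ofReal_le_ofReal (Real.exp_le_exp.2 ?_)
  nlinarith [sq_nonneg ‖v‖]

/-- The law of one tree. -/
theorem lintegral_pi_one {ν : Measure CTree} [SigmaFinite ν] (f : (Fin 1 → CTree) → ℝ≥0∞) :
    ∫⁻ T, f T ∂(Measure.pi fun _ : Fin 1 => ν) = ∫⁻ S, f (fun _ => S) ∂ν :=
  (measurePreserving_funUnique ν (Fin 1)).symm.lintegral_map_equiv f _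

/-- The structure law. -/
def SL (f₀ : Ph → ℝ) (Φ : E3 → ℝ) (ε t b c : ℝ) (L n : ℕ) (K : Src → Src → ℝ≥0∞) (D : CTree → ℕ)
    (p : List Bool) (o : Fin 3) : ℝ≥0∞ :=
  ∫⁻ T, ∫⁻ l : Fin 1 → Ph, (∏ j, g1 b (l j).2) * (wF2 Φ ε t c L n p o T l *
    K (eC Φ ε p T l) (kCD Φ ε o D T l)) ∂volume ∂(Measure.pi fun _ : Fin 1 => tree (inten f₀ ε) L)

/-- The integrand of the exhaust at the address `p` and of the created line `o`. -/
def GI (Φ : E3 → ℝ) (ε t : ℝ) (K : Src → Src → ℝ≥0∞) (D : CTree → ℕ) (p : List Bool) (o : Fin 3)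
    (z : Ph) (S : CTree) : ℝ≥0∞ :=
  PB.ind (hitF Φ ε t z S) * (PB.ind (EA.isA p S) *
    (PB.ind ((nwS Φ ε o (z, ln Φ ε S)).1 ≤ t) * K (rsrc Φ ε (EA.exA p S))
      ((nwS Φ ε o (z, ln Φ ε S)).1, (nwS Φ ε o (z, ln Φ ε S)).2, D S)))

theorem measurable_GI (hΦ : IsPotential Φ) (hε : 0 < ε) (t : ℝ) {K : Src → Src → ℝ≥0∞}
    (hK : Measurable fun q : Src × Src => K q.1 q.2) {D : CTree → ℕ} (hD : Measurable D)
    (p : List Bool) (o : Fin 3) : Measurable fun q : Ph × CTree => GI Φ ε t K D p o q.1 q.2 := by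
  have hq : Measurable fun q : Ph × CTree => nwS Φ ε o ((q.1, ln Φ ε q.2) : Ph × Ph) :=
    (measurable_nwS hΦ hε.ne' o).comp (measurable_fst.prodMk
      ((M.measurable_ln hΦ hε.ne').comp measurable_snd))
  have h2 : Measurable fun q : Ph × CTree => PB.ind (hitF Φ ε t q.1 q.2) :=
    measurable_ind (measurableSet_hitF hΦ hε.ne' t)
  have h3 : Measurable fun q : Ph × CTree => PB.ind (EA.isA p q.2) :=
    measurable_ind (measurable_snd (EA.measurableSet_isA p))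
  have h4 : Measurable fun q : Ph × CTree =>
      PB.ind ((nwS Φ ε o ((q.1, ln Φ ε q.2) : Ph × Ph)).1 ≤ t) :=
    measurable_ind (measurableSet_le hq.fst measurable_const)
  have h5 : Measurable fun q : Ph × CTree => K (rsrc Φ ε (EA.exA p q.2))
      ((nwS Φ ε o (q.1, ln Φ ε q.2)).1, (nwS Φ ε o (q.1, ln Φ ε q.2)).2, D q.2) :=
    hK.comp ((RM.meas_rsrc hΦ hε ((EA.measurable_exA p).comp measurable_snd)).prodMk
      (hq.fst.prodMk (hq.snd.prodMk (hD.comp measurable_snd))))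
  exact h2.mul (h3.mul (h4.mul h5))

/-- **The integral over the free line and the tree** is at most a structure law. -/
theorem lintegral_GI_le (h : GoodDatum f₀ κ₀) (hΦ : IsPotential Φ) (hε : 0 < ε)
    (hb : b ≤ β + c) (n : ℕ) {K : Src → Src → ℝ≥0∞} (hK : Measurable fun q : Src × Src => K q.1 q.2)
    {D : CTree → ℕ} (hD : Measurable D) (p : List Bool) (o : Fin 3) :
    ∫⁻ z : Ph, gw β z.2 * ∫⁻ S in okT Φ ε t L, GI Φ ε t K D p o z S ∂(tree (inten f₀ ε) L) ≤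
      SL f₀ Φ ε t b c L n K D p o := by
  have hfin : IsFiniteMeasure (inten f₀ ε) := isFiniteMeasure_inten h
  -- the integrand
  obtain ⟨F, hF⟩ : ∃ F : Ph → CTree → ℝ≥0∞, F = fun z S =>
    gw β z.2 * (PB.ind (S ∈ okT Φ ε t L) * GI Φ ε t K D p o z S) := ⟨_, rfl⟩
  have hok : MeasurableSet (okT Φ ε t L) := M.measurableSet_okT hΦ hε.ne' L
  have hFm : Measurable fun q : Ph × CTree => F q.1 q.2 := by
    rw [hF]
    exact ((measurable_gw β).comp measurable_fst.snd).mul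
      ((measurable_ind (measurable_snd hok)).mul (measurable_GI hΦ hε t hK hD p o))
  have e1 : ∀ z : Ph, gw β z.2 * ∫⁻ S in okT Φ ε t L, GI Φ ε t K D p o z S
        ∂(tree (inten f₀ ε) L) = ∫⁻ S, F z S ∂(tree (inten f₀ ε) L) := by
    intro z
    have hgz : gw β z.2 ≠ ∞ := ENNReal.ofReal_ne_top
    rw [← lintegral_indicator hok, ← lintegral_const_mul' _ _ hgz, hF]
    refine lintegral_congr fun S => ?_
    by_cases hS : S ∈ okT Φ ε t L
    · simp only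
      rw [indicator_of_mem hS, ind_of hS, one_mul]
    · simp only
      rw [indicator_of_notMem hS, ind_of_not hS, zero_mul]
  rw [lintegral_congr e1, lintegral_lintegral_swap hFm.aemeasurable]
  unfold SL
  rw [lintegral_pi_one]
  refine lintegral_mono fun S => ?_
  rw [RLn.lintegral_fin_one]
  refine lintegral_mono_ae ?_
  filter_upwards [RLn.ae_notMem_leaves S 0 n, ae_exits_left hΦ hε.ne' (ln Φ ε S),
    ae_hit hε one_pos (ln Φ ε S) (ext Φ ε S)] with z hz1 hz2 hz3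
  rw [Fin.prod_univ_one, hF]
  unfold GI
  simp only
  by_cases h0 : S ∈ okT Φ ε t L ∧ hitF Φ ε t z S ∧ EA.isA p S ∧
      (nwS Φ ε o (z, ln Φ ε S)).1 ≤ t
  swap
  · have h1 : gw β z.2 * (PB.ind (S ∈ okT Φ ε t L) * (PB.ind (hitF Φ ε t z S) *
      (PB.ind (EA.isA p S) * (PB.ind ((nwS Φ ε o (z, ln Φ ε S)).1 ≤ t) *
        K (rsrc Φ ε (EA.exA p S))
        ((nwS Φ ε o (z, ln Φ ε S)).1, (nwS Φ ε o (z, ln Φ ε S)).2, D S))))) = 0 := by
      by_cases h2 : S ∈ okT Φ ε t L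
      swap
      · rw [ind_of_not h2, zero_mul, mul_zero]
      by_cases h3 : hitF Φ ε t z S
      swap
      · rw [ind_of_not h3, zero_mul, mul_zero, mul_zero]
      by_cases h4 : EA.isA p S
      swap
      · rw [ind_of_not h4, zero_mul, mul_zero, mul_zero, mul_zero]
      by_cases h5 : (nwS Φ ε o (z, ln Φ ε S)).1 ≤ t
      swap
      · rw [ind_of_not h5, zero_mul, mul_zero, mul_zero, mul_zero, mul_zero]
      exact absurd ⟨h2, h3, h4, h5⟩ h0
    rw [h1]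
    exact zero_le
  obtain ⟨h2, h3, h4, h5⟩ := h0
  have h6 : hitT ε (ln Φ ε S, z) = hitT ε (z, ln Φ ε S) := hitT_swap (z, ln Φ ε S)
  have h7 : OkC Φ ε t L n p o S z := by
    refine ⟨⟨h2.1, h2.2.2, le_rfl, hz1, h3.1.1, h3.1.2.1, ?_, h3.1.2.2⟩,
      (exits_swap hΦ (z, ln Φ ε S)).1 hz2, h5, h4⟩
    refine lt_of_le_of_ne h3.2 fun h8 => hz3 ⟨(meets_swap (z, ln Φ ε S)).2 h3.1.1, ?_⟩
    rw [h6]
    exact h8.symm
  rw [ind_of h2, ind_of h3, ind_of h4, ind_of h5, one_mul, one_mul, one_mul, one_mul]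
  unfold wF2 eC kCD
  simp only
  rw [ind_of h7, mul_one, ← mul_assoc]
  exact mul_le_mul_left (gw_le_g1 hb _) _

/-- **A sum of structure laws.** -/
theorem lintegral_sum_GI_le (h : GoodDatum f₀ κ₀) (hΦ : IsPotential Φ) (hε : 0 < ε)
    (hb : b ≤ β + c) (n : ℕ) {K : Src → Src → ℝ≥0∞} (hK : Measurable fun q : Src × Src => K q.1 q.2)
    {D : Fin 3 → CTree → ℕ} (hD : ∀ o, Measurable (D o)) (A : Finset (List Bool))
    (O : Finset (Fin 3)) :
    ∫⁻ z : Ph, gw β z.2 * ∫⁻ S in okT Φ ε t L, ∑ p ∈ A, ∑ o ∈ O, GI Φ ε t K (D o) p o z S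
      ∂(tree (inten f₀ ε) L) ≤ ∑ p ∈ A, ∑ o ∈ O, SL f₀ Φ ε t b c L n K (D o) p o := by
  have hfin : IsFiniteMeasure (inten f₀ ε) := isFiniteMeasure_inten h
  have h1 : ∀ p o (z : Ph), Measurable fun S : CTree => GI Φ ε t K (D o) p o z S :=
    fun p o z => (measurable_GI hΦ hε t hK (hD o) p o).comp
      (measurable_const.prodMk measurable_id)
  have h2 : ∀ p o, Measurable fun z : Ph =>
      gw β z.2 * ∫⁻ S in okT Φ ε t L, GI Φ ε t K (D o) p o z S ∂(tree (inten f₀ ε) L) :=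
    fun p o => ((measurable_gw β).comp measurable_snd).mul
      (measurable_GI hΦ hε t hK (hD o) p o).lintegral_prod_right'
  have e1 : ∀ z : Ph, gw β z.2 * ∫⁻ S in okT Φ ε t L, ∑ p ∈ A, ∑ o ∈ O,
      GI Φ ε t K (D o) p o z S ∂(tree (inten f₀ ε) L) = ∑ p ∈ A, ∑ o ∈ O,
        gw β z.2 * ∫⁻ S in okT Φ ε t L, GI Φ ε t K (D o) p o z S ∂(tree (inten f₀ ε) L) := by
    intro z
    rw [lintegral_finsetSum _ fun p _ => Finset.measurable_sum _ fun o _ => h1 p o z,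
      Finset.mul_sum]
    refine Finset.sum_congr rfl fun p _ => ?_
    rw [lintegral_finsetSum _ fun o _ => h1 p o z, Finset.mul_sum]
  rw [lintegral_congr e1, lintegral_finsetSum _ fun p _ => Finset.measurable_sum _
    fun o _ => h2 p o]
  refine Finset.sum_le_sum fun p _ => ?_
  rw [lintegral_finsetSum _ fun o _ => h2 p o]
  exact Finset.sum_le_sum fun o _ => lintegral_GI_le h hΦ hε hb n hK (hD o) p o

/-- **`cr2` is at most a sum of structure laws.** -/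
theorem cr2_le (h : GoodDatum f₀ κ₀) (hΦ : IsPotential Φ) (hε : 0 < ε) (hb : b ≤ β + c) (n : ℕ)
    {K : Src → Src → ℝ≥0∞} (hK : Measurable fun q : Src × Src => K q.1 q.2) :
    cr2 Φ ε L f₀ β t (fun e m => PB.ind (m.1 ≤ t) * K e m) n ≤
      ∑ p ∈ EA.adr L, ∑ o : Fin 3, SL f₀ Φ ε t b c L n K (dC n o) p o := by
  refine le_trans ?_ (lintegral_sum_GI_le h hΦ hε hb n hK (measurable_dC n) (EA.adr L)
    Finset.univ)
  unfold cr2
  refine lintegral_mono fun z => mul_le_mul_right (setLIntegral_mono' (M.measurableSet_okT hΦ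
    hε.ne' L) fun S hS => ?_) _
  refine (mul_le_mul_right (EA.exsum_le_adr hS.2.2 _) _).trans ?_
  rw [Finset.mul_sum]
  refine Finset.sum_le_sum fun p _ => ?_
  rw [frS_eq_nwS, Finset.mul_sum, Finset.mul_sum]
  exact Finset.sum_le_sum fun o _ => le_rfl

/-- **`cr2p` is at most a sum of structure laws.** -/
theorem cr2p_le (h : GoodDatum f₀ κ₀) (hΦ : IsPotential Φ) (hε : 0 < ε) (hb : b ≤ β + c)
    {K : Src → Src → ℝ≥0∞} (hK : Measurable fun q : Src × Src => K q.1 q.2)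
    {R : Src → ℝ≥0∞} (hR : ∀ e m, R e ≤ K e m) :
    cr2p Φ ε L f₀ β t R ≤ ∑ p ∈ EA.adr L, SL f₀ Φ ε t b c L 0 K (fun _ => 0) p 2 := by
  have h1 := lintegral_sum_GI_le (L := L) (t := t) h hΦ hε hb 0 hK
    (D := fun _ _ => 0) (fun _ => measurable_const) (EA.adr L) {2}
  simp only [Finset.sum_singleton] at h1
  refine le_trans ?_ h1
  unfold cr2p
  refine lintegral_mono fun z => mul_le_mul_right (setLIntegral_mono' (M.measurableSet_okT hΦ
    hε.ne' L) fun S hS => ?_) _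
  refine (mul_le_mul_right (EA.exsum_le_adr hS.2.2 _) _).trans ?_
  rw [Finset.mul_sum]
  refine Finset.sum_le_sum fun p _ => ?_
  unfold GI
  by_cases h2 : hitF Φ ε t z S
  swap
  · rw [ind_of_not h2, zero_mul]
    exact zero_le
  have h3 : (nwS Φ ε 2 (z, ln Φ ε S)).1 ≤ t := by
    unfold nwS
    rw [if_neg (by decide : ¬(2 : Fin 3) = 0), if_neg (by decide : ¬(2 : Fin 3) = 1)]
    exact h2.1.2.2
  rw [ind_of h3, one_mul]
  exact mul_le_mul_right (mul_le_mul_right (hR _ _) _) _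

/-! ### The limit -/

/-- **`cr2` is small**, uniformly in the depth of the free line. -/
theorem cr2_small (h : GoodDatum f₀ κ₀) {hΦ : IsPotential Φ} {b b' β c : ℝ} (hc : 0 ≤ c)
    (hb : b ≤ β + c) (hX : X1J hΦ f₀ b c b') {T : ℝ} (hT : 0 ≤ T) (L : ℕ) {a : ℕ → ℝ≥0∞}
    (ha : ∑' n, a n ≠ ∞) {η θ : ℝ} (hη : 0 < η) (hθ : 0 < θ) (J : ℕ) {ρ : ℝ} (hρ : 0 < ρ) :
    ∀ᶠ ε in 𝓝[>] (0 : ℝ), ∀ hε : 0 < ε, ∀ t ∈ Icc 0 T, ∀ n : ℕ,
      cr2 Φ ε L f₀ β t (XJt L hΦ hε f₀ b' a η θ t J) n ≤ ENNReal.ofReal ρ := by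
  obtain ⟨Dl, hDl, h1⟩ := hX 1 1 L (2 * 2 ^ (L + 2) + 4) J a T η θ one_pos hT hη hθ ha
  have h2 : Tendsto (fun ε => ((EA.adr L).card * 3 : ℝ≥0∞) * Dl ε) (𝓝[>] 0) (𝓝 0) := by
    have h3 := ENNReal.Tendsto.const_mul (a := ((EA.adr L).card * 3 : ℝ≥0∞)) hDl
      (Or.inr (ENNReal.mul_ne_top (ENNReal.natCast_ne_top _) (by norm_num)))
    rwa [mul_zero] at h3
  have hev : ∀ᶠ ε : ℝ in 𝓝[>] 0, ε ≤ 1 :=
    (eventually_nhdsWithin_of_eventually_nhds (eventually_le_nhds one_pos))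
  filter_upwards [hev, (ENNReal.tendsto_nhds_zero.1 h2) (ENNReal.ofReal ρ)
    (ENNReal.ofReal_pos.2 hρ)] with ε hε1 hsm hε t ht n
  refine le_trans ?_ hsm
  have h4 : cr2 Φ ε L f₀ β t (XJt L hΦ hε f₀ b' a η θ t J) n ≤ ∑ p ∈ EA.adr L, ∑ o : Fin 3,
      SL f₀ Φ ε t b c L n (XJ L hΦ hε f₀ b' a η θ t J) (dC n o) p o :=
    cr2_le h hΦ hε hb n (measurable_XJ h)
  have hμ : muE ε ≠ 0 := (ENNReal.ofReal_pos.2 (GC.mu_pos hε)).ne'
  have h5 : ∀ p o, SL f₀ Φ ε t b c L n (XJ L hΦ hε f₀ b' a η θ t J) (dC n o) p o ≤ Dl ε := by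
    intro p o
    have h6 := h1 ε hε hε1 t ht (fun _ => 0) (fun _ => n) (wF2 Φ ε t c L n p o) (eC Φ ε p)
      (kCD Φ ε o fun _ => 0) (kCD Φ ε o (dC n o)) 1 ENNReal.one_ne_top
      (mlaw hΦ hε hc t L n p o) fun T l _ => ⟨rfl, rfl⟩
    rw [pow_one, one_mul] at h6
    exact (ENNReal.mul_le_mul_iff_right hμ muE_ne_top).1 h6
  refine h4.trans ((Finset.sum_le_sum fun p _ => Finset.sum_le_sum fun o _ => h5 p o).trans
    (le_of_eq ?_))
  rw [Finset.sum_const, Finset.sum_const, Finset.card_univ, Fintype.card_fin, nsmul_eq_mul,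
    nsmul_eq_mul, mul_assoc]
  norm_num

/-- **The crude bound for the functional `FXg`**. -/
theorem crude8_FXg (h : GoodDatum f₀ κ₀) {hΦ : IsPotential Φ} {b b' β c : ℝ} (hc : 0 ≤ c)
    (hb : b ≤ β + c) (hX : X1J hΦ f₀ b c b') {T : ℝ} (hT : 0 ≤ T) {a : ℕ → ℝ≥0∞}
    (ha : ∑' n, a n ≠ ∞) {wg : ℕ → ℝ≥0∞} (hwg : ∑' n, wg n ≠ ∞) :
    Crude8 hΦ f₀ T b' a (F8FXg Φ f₀ β wg) := by
  refine Eventually.of_forall fun L η η' θ hη hηη _ hθ J δ₁ hδ hδ' ρ hρ => ?_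
  have hC : (∑' n, wg n) * δ₁⁻¹ ≠ ∞ := ENNReal.mul_ne_top hwg (ENNReal.inv_ne_top.2 hδ)
  obtain ⟨C, hCd⟩ : ∃ C : ℝ≥0∞, C = (∑' n, wg n) * δ₁⁻¹ := ⟨_, rfl⟩
  rw [← hCd] at hC
  have hρ' : 0 < ρ / (C.toReal + 1) := by
    have := ENNReal.toReal_nonneg (a := C)
    positivity
  filter_upwards [cr2_small (L := L) h hc hb hX hT ha (hη.trans hηη) hθ J hρ'] with ε h1 hε t ht
  have h2 : ∀ n, FXg Φ ε L f₀ β t (gIB L hΦ hε f₀ b' a η η' θ t J δ₁) n ≤
      δ₁⁻¹ * ENNReal.ofReal (ρ / (C.toReal + 1)) := fun n =>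
    (FXg_le_cr h hΦ hε (MW_gIB h) (ENNReal.inv_ne_top.2 hδ)
      (fun e m => lintegral_gIB_le_t ht.1 hη hηη.le hδ hδ' e m) n).trans
      (mul_le_mul_right (h1 hε t ht n) _)
  unfold F8FXg
  calc ∑' n, wg n * FXg Φ ε L f₀ β t (gIB L hΦ hε f₀ b' a η η' θ t J δ₁) n
      ≤ ∑' n, wg n * (δ₁⁻¹ * ENNReal.ofReal (ρ / (C.toReal + 1))) :=
        ENNReal.tsum_le_tsum fun n => mul_le_mul_right (h2 n) _
    _ = C * ENNReal.ofReal (ρ / (C.toReal + 1)) := by
        rw [ENNReal.tsum_mul_right, hCd, mul_assoc]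
    _ = ENNReal.ofReal (C.toReal * (ρ / (C.toReal + 1))) := by
        rw [ENNReal.ofReal_mul ENNReal.toReal_nonneg, ENNReal.ofReal_toReal hC]
    _ ≤ ENNReal.ofReal ρ := by
        refine ENNReal.ofReal_le_ofReal ?_
        have h3 := ENNReal.toReal_nonneg (a := C)
        rw [mul_div_assoc', div_le_iff₀ (by positivity)]
        nlinarith

end Vale.Agent.P119.PB.C2
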