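import Vale.Agent.P119.PB.Cr3
import Vale.Agent.P119.IND.X1J

/-!
# P119, block PROB, P8: the crude laws of two colliding trees, final forms (`helper909`)

* `kneg_XJt`: the sum over the first steps is negligible (from `X1J`);
* `c3a_of_x1J`, `c3b_of_x1J`, `c3c_of_x1`: the fields `c3a`, `c3b`, `c3c` of `Cr8`.
-/

open MeasureTheory Filter Topology Set
open scoped ENNReal NNReal

noncomputable section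

namespace Vale.Agent.P119.PB.C3

open KU FL M M.CTree TL GC MM AU RB CT IND

variable {Φ : E3 → ℝ} {hΦ : IsPotential Φ} {f₀ : Ph → ℝ} {κ b b₀ c T T₀ ε η θ : ℝ}
  {L J m q N : ℕ} {a : ℕ → ℝ≥0∞}

/-- The sum over the first steps is negligible. -/
theorem kneg_XJt (h : X1J hΦ f₀ b₀ c b) (hm : 0 < m) (hT : 0 ≤ T₀) (hη : 0 < η) (hθ : 0 < θ)
    (ha : ∑' n, a n ≠ ∞) (J : ℕ) :
    KNeg Φ f₀ b₀ c m q L N T₀ fun _ hε t e k => XJt L hΦ hε f₀ b a η θ t J e k := by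
  obtain ⟨Dl, h0, h1⟩ := h m q L N J a T₀ η θ hm hT hη hθ ha
  refine ⟨Dl, h0, fun ε hε hε1 t ht s dl W e k CW hCW hW =>
    le_trans (mul_le_mul_right ?_ _) (h1 ε hε hε1 t ht s dl W e k k CW hCW hW
      fun _ _ _ => ⟨rfl, rfl⟩)⟩
  exact lintegral_mono fun T => lintegral_mono fun l =>
    mul_le_mul_right (mul_le_mul_right XJt_le _) _

theorem ev_of_lim {F : ∀ ε : ℝ, 0 < ε → ℝ → ℝ≥0∞}
    (h : ∃ Dl : ℝ → ℝ≥0∞, Tendsto Dl (𝓝[>] 0) (𝓝 0) ∧ ∀ (ε : ℝ) (hε : 0 < ε), ε ≤ 1 →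
      ∀ t ∈ Icc 0 T₀, F ε hε t ≤ Dl ε) (ρ : ℝ) (hρ : 0 < ρ) :
    ∀ᶠ ε in 𝓝[>] (0 : ℝ), ∀ hε : 0 < ε, ∀ t ∈ Icc 0 T₀, F ε hε t ≤ ENNReal.ofReal ρ := by
  obtain ⟨Dl, h0, h1⟩ := h
  have h2 : ∀ᶠ ε in 𝓝[>] (0 : ℝ), Dl ε < ENNReal.ofReal ρ :=
    h0.eventually (gt_mem_nhds (ENNReal.ofReal_pos.2 hρ))
  have h3 : ∀ᶠ ε in 𝓝[>] (0 : ℝ), ε < 1 :=
    nhdsWithin_le_nhds (gt_mem_nhds zero_lt_one)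
  filter_upwards [h2, h3] with ε h4 h5 hε t ht
  exact (h1 ε hε h5.le t ht).trans h4.le

/-- **[A3], both exhausts in one tree**: the field `c3a` of `Cr8`. -/
theorem c3a_of_x1J (hg : GoodDatum f₀ κ) (hc : 0 < c) (h : X1J hΦ f₀ b₀ c b) (hT : 0 ≤ T)
    (ha : ∑' n, a n ≠ ∞) (L : ℕ) :
    ∀ η θ : ℝ, 0 < η → η ≤ 1 → 0 < θ → ∀ J : ℕ, ∀ ρ : ℝ, 0 < ρ →
    ∀ᶠ ε in 𝓝[>] (0 : ℝ), ∀ hε : 0 < ε, ∀ t ∈ Icc 0 T,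
      cr3a Φ ε L f₀ t (XJt L hΦ hε f₀ b a η θ t J) ≤ ENNReal.ofReal ρ :=
  fun η θ hη _ hθ J ρ hρ =>
    ev_of_lim (F := fun ε hε t => cr3a Φ ε L f₀ t (XJt L hΦ hε f₀ b a η θ t J))
      (cr3a_XJt hg hc (kneg_XJt h two_pos hT hη hθ ha J)) ρ hρ

/-- **[A3], one exhaust in each of the trees**: the field `c3b` of `Cr8`. -/
theorem c3b_of_x1J (hg : GoodDatum f₀ κ) (hc : 0 < c) (h : X1J hΦ f₀ b₀ c b) (hT : 0 ≤ T)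
    (ha : ∑' n, a n ≠ ∞) (L : ℕ) :
    ∀ η θ : ℝ, 0 < η → η ≤ 1 → 0 < θ → ∀ J : ℕ, ∀ ρ : ℝ, 0 < ρ →
    ∀ᶠ ε in 𝓝[>] (0 : ℝ), ∀ hε : 0 < ε, ∀ t ∈ Icc 0 T,
      cr3b Φ ε L f₀ t (XJt L hΦ hε f₀ b a η θ t J) ≤ ENNReal.ofReal ρ :=
  fun η θ hη _ hθ J ρ hρ =>
    ev_of_lim (F := fun ε hε t => cr3b Φ ε L f₀ t (XJt L hΦ hε f₀ b a η θ t J))
      (cr3b_XJt hg hc (kneg_XJt h two_pos hT hη hθ ha J)) ρ hρ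

/-- **[A3], one exhaust and the pair**: the field `c3c` of `Cr8`. -/
theorem c3c_of_x1 (hg : GoodDatum f₀ κ) (hc : 0 < c) (h : X1 hΦ f₀ b₀ c) (hT : 0 ≤ T)
    (L : ℕ) :
    ∀ η θ : ℝ, 0 < η → η ≤ 1 → 0 < θ → ∀ ρ : ℝ, 0 < ρ →
    ∀ᶠ ε in 𝓝[>] (0 : ℝ), ∀ hε : 0 < ε, ∀ t ∈ Icc 0 T,
      cr3c Φ ε L f₀ t (rE6 L hΦ hε f₀ η θ t) ≤ ENNReal.ofReal ρ :=
  fun η θ hη _ hθ ρ hρ =>
    ev_of_lim (F := fun ε hε t => cr3c Φ ε L f₀ t (rE6 L hΦ hε f₀ η θ t))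
      (cr3c_rE6 hg hc h hT hη hθ L) ρ hρ

end Vale.Agent.P119.PB.C3
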