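import Vale.Agent.P119.PB.ExcPair
import Vale.Agent.P119.IND.PairBaseKc
import Vale.Agent.P119.PB.RelCases

/-!
# P119, block PROB: a tree which is hit by a free line, base structure (`helper256`)

`S` is a tree, `σ` a free line which hits the line of `S` at the time `ρ = hitT`, after the exit of
`S`.  The root of `S` is reborn at the time `ρ`; the line `σ` is dropped.

* `Hst Φ ε T L σ S`: the structure;
* `FH S σ`, `GH`: the family of histories and the ghost; `XH Φ ε S ρ`: the lines of the labels;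
* `Hst.fam`, `Hst.kbase`, `Hst.slab`: base structure in the sense of `helper810`, `helper185`;
* `Hst.base`, `Hst.prgO`: `Base` and `PrgO` (one class).
-/

open MeasureTheory Filter Topology Set
open scoped ENNReal NNReal

noncomputable section

namespace Vale.Agent.P119.PB.HL

open M CTree KU FL FB RB AU TL GC IND XT

variable {Φ : E3 → ℝ} {ε T ρ : ℝ} {L : ℕ} {S : CTree} {σ : Src}

/-- The tree `S` is hit by the free line `σ`. -/
structure Hst (Φ : E3 → ℝ) (ε T : ℝ) (L : ℕ) (σ : Src) (S : CTree) : Prop where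
  ok : CTree.ok Φ ε S
  depth : S.depth ≤ L
  birth : 0 ≤ σ.1
  notMem : σ ∉ S.leaves
  meets : Meets ε (σ.2.1, ln Φ ε S)
  lt : σ.1 < hitT ε (σ.2.1, ln Φ ε S)
  ext_lt : ext Φ ε S < hitT ε (σ.2.1, ln Φ ε S)
  le : hitT ε (σ.2.1, ln Φ ε S) ≤ T

/-- The family of histories. -/
def FH (S : CTree) (σ : Src) : Finset CTree := by
  classical
  exact partsF S ∪ partsF (leaf σ)

/-- The ghost. -/
def GH (Φ : E3 → ℝ) (ε : ℝ) (S : CTree) (σ : Src) : List Gh :=
  [(leaf σ, S, hitT ε (σ.2.1, ln Φ ε S))]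

theorem mem_GH {g : Gh} : g ∈ GH Φ ε S σ ↔ g = (leaf σ, S, hitT ε (σ.2.1, ln Φ ε S)) :=
  List.mem_singleton

open Classical in
/-- The line of a label: the root is reborn at the time `ρ`. -/
def XH (Φ : E3 → ℝ) (ε : ℝ) (S : CTree) (ρ : ℝ) (τ : Src) : Src :=
  if h : τ ∈ S.leaves then msrc Φ ε (rho Φ ε S ρ) (outOf S ⟨τ, h⟩) else τ

theorem XH_eq (hS : CTree.ok Φ ε S) {x : CTree} (hx : x ∈ outs S) :
    XH Φ ε S ρ x.root = msrc Φ ε (rho Φ ε S ρ) x := by
  have h1 : x.root ∈ S.leaves := outs_leaves hx x.root_mem_leaves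
  unfold XH
  rw [dif_pos h1, outOf_eq hS hx rfl]

theorem XH_root (hS : CTree.ok Φ ε S) : XH Φ ε S ρ S.root = (ρ, ln Φ ε S, S.depth) := by
  rw [XH_eq hS (Or.inl rfl), msrc_rho_self]

theorem XH_exs (hS : CTree.ok Φ ε S) {x : CTree} (hx : x ∈ exs S) :
    XH Φ ε S ρ x.root = rsrc Φ ε x := by
  rw [XH_eq hS (Or.inr hx), msrc_rho_exs hS hx]

theorem mem_lab_FH {τ : Src} : τ ∈ lab (FH S σ) ↔ τ ∈ S.leaves ∨ τ = σ := by
  classical
  unfold FH
  rw [mem_lab_union, mem_lab_partsF, mem_lab_partsF]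
  exact Iff.rfl

theorem mem_FH {P : CTree} : P ∈ FH S σ ↔ P ∈ parts S ∨ P ∈ parts (leaf σ) := by
  classical
  unfold FH
  rw [Finset.mem_union, mem_partsF, mem_partsF]

namespace Hst

variable (h : Hst Φ ε T L σ S)
include h

theorem disjL : ∀ τ ∈ lab (partsF S), τ ∉ lab (partsF (leaf σ)) := by
  intro τ h1 h2
  rw [mem_lab_partsF] at h1 h2
  have h3 : τ = σ := h2
  exact h.notMem (h3 ▸ h1)

theorem isLast_outs {x : CTree} (hx : x ∈ outs S) : IsLast (FH S σ) x := by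
  classical
  unfold FH
  exact (isLast_of_outs h.ok hx).union_left h.disjL

theorem isLast_leaf : IsLast (FH S σ) (leaf σ) := by
  classical
  unfold FH
  exact (isLast_of_outs (Φ := Φ) (ε := ε) (R := leaf σ) h.birth (Or.inl rfl)).union_right h.disjL

theorem outs_of_isLast {x : CTree} (hx : IsLast (FH S σ) x) (hr : x.root ≠ σ) : x ∈ outs S := by
  have h1 : x.root ∈ lab (FH S σ) := root_mem_lab hx.mem
  rcases mem_lab_FH.1 h1 with h2 | h2
  swap
  · exact absurd h2 hr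
  obtain ⟨y, hy, hyr⟩ := exists_out h2
  have h3 := h.isLast_outs hy
  have h4 := h3.last x hx.mem hyr.symm
  have h5 := hx.last y h3.mem hyr
  rwa [h4.antisymm h5]

/-- **The family of histories.** -/
theorem fam (hΦ : IsPotential Φ) (hε : 0 < ε) : IND.Fam Φ ε T (FH S σ) (GH Φ ε S σ) := by
  classical
  have h1 : IND.Fam Φ ε T (FH S σ) [] := by
    unfold FH
    exact (IND.Fam.of_tree hΦ hε h.ok (h.ext_lt.le.trans h.le)).union
      (IND.Fam.of_tree hΦ hε (R := leaf σ) h.birth (h.lt.le.trans h.le)) h.disjL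
  have hlS := h.isLast_outs (x := S) (Or.inl rfl)
  have hlσ := h.isLast_leaf
  refine h1.add_ghost hlσ.mem hlS.mem (fun he => h.notMem ?_) h.lt.le h.ext_lt.le h.le
    (ctc_hitT hε h.meets) hlσ fun y hy => ?_
  · rw [show σ = S.root from he]
    exact S.root_mem_leaves
  · have h2 := (hlS.last _ hy rfl).card_le
    have h3 := y.card_pos
    simp only [CTree.card] at h2
    omega

/-- All the labels are joined. -/
theorem joined (hΦ : IsPotential Φ) (hε : 0 < ε) {τ : Src} (hτ : τ ∈ lab (FH S σ)) :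
    FJ (FH S σ) (GH Φ ε S σ) τ S.root := by
  classical
  rcases mem_lab_FH.1 hτ with h1 | h1
  · refine (fj_partsF hΦ hε h.ok h1 S.root_mem_leaves).mono (fun P hP => ?_)
      fun g hg => absurd hg List.not_mem_nil
    exact mem_FH.2 (Or.inl (mem_partsF.1 hP))
  · rw [h1]
    exact FJ.ghost (g := (leaf σ, S, hitT ε (σ.2.1, ln Φ ε S))) (mem_GH.2 rfl)

/-- **The births.** -/
theorem births_out {x : CTree} (hx : x ∈ outs S) :
    (XH Φ ε S (hitT ε (σ.2.1, ln Φ ε S)) x.root).1 = ext Φ ε x ∨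
      SKc Φ ε (GH Φ ε S σ) (XH Φ ε S (hitT ε (σ.2.1, ln Φ ε S)) x.root).1 x := by
  rcases hx with h1 | h1
  · subst h1
    right
    rw [XH_root h.ok]
    exact ⟨_, mem_GH.2 rfl, rfl, rfl, h.lt, h.ext_lt, h.meets, rfl⟩
  · left
    rw [XH_exs h.ok h1]
    rfl

/-- **The base structure.** -/
theorem kbase (hΦ : IsPotential Φ) (hε : 0 < ε) :
    KBase Φ ε T (FH S σ) (GH Φ ε S σ) {σ} (XH Φ ε S (hitT ε (σ.2.1, ln Φ ε S))) := by
  refine ⟨h.fam hΦ hε, fun g hg => ?_, fun g hg _ => ?_, fun τ hτ hτD => ?_⟩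
  · rw [mem_GH.1 hg]
    exact mem_singleton _
  · rw [mem_GH.1 hg]
    change _ ≤ (XH Φ ε S _ S.root).1
    rw [XH_root h.ok]
  · rcases mem_lab_FH.1 hτ with h1 | h1
    swap
    · exact absurd h1 hτD
    obtain ⟨x, hx, rfl⟩ := exists_out h1
    refine ⟨x, h.isLast_outs hx, rfl, ?_, h.births_out hx⟩
    rw [XH_eq h.ok hx]; rfl

/-- The lines of `S` are the lines of the base. -/
theorem krs_mem (hΦ : IsPotential Φ) (hε : 0 < ε) {a : Src} (ha : a ∈ krs Φ ε S (hitT ε (σ.2.1, ln Φ ε S))) :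
    (0 ≤ a.1 ∧ a.2.2 ≤ L) ∧ ∃ τ ∈ lab (FH S σ), τ ∉ ({σ} : Set Src) ∧
      XH Φ ε S (hitT ε (σ.2.1, ln Φ ε S)) τ = a := by
  obtain ⟨x, hx, rfl⟩ := (mem_krs h.ok).1 ha
  have h1 := outs_leaves hx x.root_mem_leaves
  refine ⟨⟨?_, (outs_depth hx).trans h.depth⟩, x.root, mem_lab_FH.2 (Or.inl h1), fun h2 => ?_,
    XH_eq h.ok hx⟩
  · have h2 : σ.1 < hitT ε (σ.2.1, ln Φ ε S) := h.lt
    rcases hx with rfl | hx
    · change 0 ≤ rho Φ ε x _ x
      rw [rho_self]
      exact h.birth.trans h2.le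
    · change 0 ≤ rho Φ ε S _ x
      rw [rho_exs h.ok hx]
      exact M.ext_nonneg hΦ hε (outs_ok hΦ h.ok (Or.inr hx))
  · rw [mem_singleton_iff.1 h2] at h1
    exact h.notMem h1

/-- **The labels**, one class. -/
theorem slab (hΦ : IsPotential Φ) (hε : 0 < ε) {S' : Fin 1 → CTree} {l : Fin 1 → Src}
    (hS : S' 0 = S) (hl : l 0 = σ) : SLab S' l (FH S σ) (GH Φ ε S σ) 1 {S.root} := by
  subst hS hl
  refine ⟨fun τ hτ => ?_, fun j τ hτ => ?_, fun j => ?_, fun r hr => ?_, fun τ hτ => ?_,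
    le_of_eq (Finset.card_singleton _), fun r hr => ?_⟩
  · rcases mem_lab_FH.1 hτ with h1 | h1
    · exact Or.inl ⟨0, h1⟩
    · exact Or.inr ⟨0, h1.symm⟩
  · rw [Fin.fin_one_eq_zero j] at hτ
    exact Finset.mem_coe.2 (mem_lab_FH.2 (Or.inl hτ))
  · rw [Fin.fin_one_eq_zero j]
    exact mem_lab_FH.2 (Or.inr rfl)
  · rw [Finset.mem_singleton.1 hr]
    exact mem_lab_FH.2 (Or.inl (S' 0).root_mem_leaves)
  · exact ⟨_, Finset.mem_singleton_self _, h.joined hΦ hε hτ⟩
  · rw [Finset.mem_singleton.1 hr]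
    rintro ⟨j, hj⟩
    rw [Fin.fin_one_eq_zero j] at hj
    exact h.notMem (hj ▸ (S' 0).root_mem_leaves)

theorem base {S' : Fin 1 → CTree} {l : Fin 1 → Src} (hS : S' 0 = S) (hl : l 0 = σ) :
    Base Φ ε S' l := by
  subst hS hl
  refine ⟨fun j => ?_, fun i j hij => absurd (Subsingleton.elim i j) hij,
    fun i j _ => Subsingleton.elim i j, fun i j => ?_⟩
  · rw [Fin.fin_one_eq_zero j]; exact h.ok
  · rw [Fin.fin_one_eq_zero i, Fin.fin_one_eq_zero j]; exact h.notMem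

theorem card_FH_le : (FH S σ).card ≤ 2 ^ (L + 2) + 1 := by
  classical
  unfold FH
  have h1 := XT.card_partsF_le h.depth
  have h2 : (partsF (leaf σ)).card ≤ 1 := by
    have h3 : partsF (leaf σ) ⊆ {leaf σ} := fun P hP =>
      Finset.mem_singleton.2 (mem_parts_leaf (mem_partsF.1 hP))
    exact (Finset.card_le_card h3).trans (le_of_eq (Finset.card_singleton _))
  have h3 := Finset.card_union_le (partsF S) (partsF (leaf σ))
  omega

theorem szB_le : szB (FH S σ) (GH Φ ε S σ) ≤ 2 * 2 ^ (L + 2) + 3 := by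
  unfold szB
  have h1 := card_lab_le (FH S σ)
  have h2 := card_nl_le (FH S σ)
  have h3 := h.card_FH_le
  have h4 : (GH Φ ε S σ).length = 1 := rfl
  omega

/-- **The program of the base structure.** -/
theorem prgO (hΦ : IsPotential Φ) (hε : 0 < ε) {S' : Fin 1 → CTree} {l : Fin 1 → Src}
    (hS : S' 0 = S) (hl : l 0 = σ) (w : Finset Ph) :
    PrgO Φ ε T 1 (2 * 2 ^ (L + 2) + 3) S' l w :=
  (prgO_of_slab hΦ hε (h.fam hΦ hε) (h.slab hΦ hε hS hl) w).mono le_rfl h.szB_le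

end Hst

end Vale.Agent.P119.PB.HL
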