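import Vale.Agent.P119.PB.ExcOne
import Vale.Agent.P119.PB.ContX
import Vale.Agent.P119.IND.Inj

/-!
# P119, block PROB: the law of one colliding pair (`helper456`)

* `WtP g S`: the weight of a colliding pair `S = node x y` whose collision begins before `T`;
* `prgO_pair`: the program of the pair, which needs only the beginning of the collision;
* `AlnN S`: the lines of the particles of the two sides;
* `SrcN S`: the sources of the particles of the two sides;
* `XP_eq`: the exchange of the integrals.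
-/

open MeasureTheory Filter Topology Set
open scoped ENNReal NNReal

noncomputable section

namespace Vale.Agent.P119.PB.PL

open M CTree KU FL FB RB AU TL GC IND PB.XT

variable {Φ : E3 → ℝ} {ε T : ℝ} {L : ℕ}

/-! ### The weight -/

/-- The colliding pairs. -/
def OKP (Φ : E3 → ℝ) (ε T : ℝ) (L : ℕ) (x y : CTree) : Prop :=
  CTree.ok Φ ε (node x y) ∧ (node x y).depth ≤ L ∧ sig Φ ε (node x y) ≤ T

/-- The weight of one colliding pair. -/
def WtP (Φ : E3 → ℝ) (ε T : ℝ) (L : ℕ) (g : CTree → CTree → ℝ≥0∞) (S : CTree) : ℝ≥0∞ :=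
  onN (fun x y => ind (OKP Φ ε T L x y) * g x y) S

theorem measurableSet_OKP (hΦ : IsPotential Φ) (hε : 0 < ε) {X : Type*} [MeasurableSpace X]
    {x y : X → CTree} (hx : Measurable x) (hy : Measurable y) :
    MeasurableSet {q | OKP Φ ε T L (x q) (y q)} := by
  have hT : Measurable fun q => node (x q) (y q) := measurable_node.comp (hx.prodMk hy)
  have h1 : MeasurableSet {q | M.CTree.ok Φ ε (node (x q) (y q))} := hT (measurableSet_ok hΦ hε.ne')
  have h2 : MeasurableSet {q | (node (x q) (y q)).depth ≤ L} :=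
    (measurable_depth.comp hT) (measurableSet_Iic (a := L))
  have h3 : MeasurableSet {q | sig Φ ε (node (x q) (y q)) ≤ T} :=
    measurableSet_le ((measurable_sig hΦ hε.ne').comp hT) measurable_const
  exact h1.inter (h2.inter h3)

theorem measurable_WtP (hΦ : IsPotential Φ) (hε : 0 < ε) {g : CTree → CTree → ℝ≥0∞}
    (hg : Measurable fun p : CTree × CTree => g p.1 p.2) : Measurable (WtP Φ ε T L g) := by
  unfold WtP
  refine measurable_onN (X := CTree) (F := fun _ x y => ind (OKP Φ ε T L x y) * g x y) ?_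
    measurable_id
  exact (measurable_ind (measurableSet_OKP hΦ hε (measurable_fst.comp measurable_snd)
    (measurable_snd.comp measurable_snd))).mul (hg.comp measurable_snd)

theorem WtP_ne_zero {g : CTree → CTree → ℝ≥0∞} {S : CTree} (h : WtP Φ ε T L g S ≠ 0) :
    ∃ x y, S = node x y ∧ OKP Φ ε T L x y := by
  cases S with
  | leaf a => exact absurd rfl h
  | node x y =>
    refine ⟨x, y, rfl, ?_⟩
    by_contra hcon
    exact h (by unfold WtP; rw [onN_node, ind_of_not hcon, zero_mul])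

theorem WtP_node_le {g : CTree → CTree → ℝ≥0∞} {x y : CTree} :
    WtP Φ ε T L g (node x y) ≤ g x y := by
  unfold WtP
  rw [onN_node]
  calc _ ≤ 1 * g x y := mul_le_mul_left (ind_le_one _) _
    _ = _ := one_mul _

/-! ### The program -/

/-- The labels of a pair. -/
abbrev LbP (x y : CTree) : Type := {σ : Src // σ ∈ (node x y).leaves}

instance finite_LbP (x y : CTree) : Finite (LbP x y) := (node x y).leaves_finite.to_subtype

theorem card_union_partsF_le [DecidableEq CTree] {x y : CTree} (hd : (node x y).depth ≤ L) :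
    (partsF x ∪ partsF y).card ≤ 2 ^ (L + 2) := by
  have hdx : x.depth + 1 ≤ L := by
    have h1 : (node x y).depth = max x.depth y.depth + 1 := rfl
    omega
  have hdy : y.depth + 1 ≤ L := by
    have h1 : (node x y).depth = max x.depth y.depth + 1 := rfl
    omega
  obtain ⟨L', rfl⟩ : ∃ L', L = L' + 1 := ⟨L - 1, by omega⟩
  have h1 := XT.card_partsF_le (S := x) (L := L') (by omega)
  have h2 := XT.card_partsF_le (S := y) (L := L') (by omega)
  have h3 := Finset.card_union_le (partsF x) (partsF y)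
  have h4 : 2 ^ (L' + 1 + 2) = 2 ^ (L' + 2) + 2 ^ (L' + 2) := by
    rw [show L' + 1 + 2 = (L' + 2) + 1 by ring, pow_succ, mul_two]
  omega

theorem mem_lab_pair [DecidableEq CTree] {x y : CTree} {a : Src} :
    a ∈ lab (partsF x ∪ partsF y) ↔ a ∈ (node x y).leaves := by
  rw [mem_lab_union, ← Finset.mem_coe, lab_partsF, ← Finset.mem_coe, lab_partsF]
  rfl

theorem card_LbP_le {x y : CTree} [Fintype (LbP x y)] (hd : (node x y).depth ≤ L) :
    Fintype.card (LbP x y) ≤ 2 ^ (L + 2) := by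
  classical
  refine le_trans ?_ (card_union_partsF_le hd)
  refine le_trans ?_ (card_lab_le (partsF x ∪ partsF y))
  rw [← Fintype.card_coe (lab (partsF x ∪ partsF y))]
  refine Fintype.card_le_of_injective
    (fun σ : LbP x y => (⟨σ.1, mem_lab_pair.2 σ.2⟩ : {σ // σ ∈ lab (partsF x ∪ partsF y)})) ?_
  intro a b hab
  exact Subtype.ext (congrArg (fun c : {σ // σ ∈ lab (partsF x ∪ partsF y)} => c.1) hab)

theorem range_LbP (x y : CTree) : range (Subtype.val : LbP x y → Src) = (node x y).leaves := by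
  rw [Subtype.range_coe_subtype]
  rfl

theorem exists_out_pair {x y : CTree} {a : Src} (ha : a ∈ (node x y).leaves) :
    ∃ z ∈ outs x ∪ outs y, z.root = a := by
  rcases ha with ha | ha
  · obtain ⟨z, hz, hr⟩ := exists_out ha
    exact ⟨z, Or.inl hz, hr⟩
  · obtain ⟨z, hz, hr⟩ := exists_out ha
    exact ⟨z, Or.inr hz, hr⟩

theorem ext_outs_pair_lt (hΦ : IsPotential Φ) (hε : 0 < ε) {x y : CTree}
    (hxy : CTree.ok Φ ε (node x y)) {z : CTree} (hz : z ∈ outs x ∪ outs y) :
    ext Φ ε z < sig Φ ε (node x y) := by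
  rcases hz with hz | hz
  · exact (ext_outs_le hΦ hε hxy.1 hz).trans_lt hxy.2.2.2.2.2.1
  · exact (ext_outs_le hΦ hε hxy.2.1 hz).trans_lt hxy.2.2.2.2.2.2

/-- **The program of one colliding pair.** -/
theorem prgO_pair (hΦ : IsPotential Φ) (hε : 0 < ε) {S : Fin 1 → CTree} {x y : CTree}
    (hS : S 0 = node x y) (h : OKP Φ ε T L x y) (l : Fin 0 → Src) :
    PrgO Φ ε T 1 (2 ^ (L + 2)) S l ∅ := by
  classical
  obtain ⟨hok, hd, hT⟩ := h
  have hfin : Fintype (LbP x y) := Fintype.ofFinite _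
  obtain ⟨e, he⟩ : ∃ e : LbP x y → ℕ, Function.Injective e :=
    ⟨fun k => (Fintype.equivFin (LbP x y) k : ℕ), fun a b hab =>
      (Fintype.equivFin (LbP x y)).injective (Fin.ext hab)⟩
  obtain ⟨hF, hJ, hlast⟩ := fam_pair hΦ hε hok hT
  have hex : ∀ k : LbP x y, ∃ z ∈ outs x ∪ outs y, z.root = k.1 := fun k => exists_out_pair k.2
  choose z hz hr using hex
  have hb : ∀ k : LbP x y, 0 ≤ k.1.1 := fun k => birth_of_ok hok k.1 k.2
  obtain ⟨Q, h1, h2, h3, -⟩ := BaseP.of_fam hΦ hε hF (κ := LbP x y) (z := Subtype.val)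
    (x := fun k => (T, ln Φ ε (z k), e k)) (D := {k | k.1 = x.root}) Subtype.val_injective
    (by rw [range_LbP]; ext a; rw [Finset.mem_coe, mem_lab_pair]) hb
    (fun g hg i hi => by rw [List.mem_singleton.1 hg] at hi; exact hi)
    (fun g hg k _ _ => by rw [List.mem_singleton.1 hg]; exact hT)
    (fun k _ => ⟨z k, hlast _ (hz k), hr k, rfl, (ext_outs_pair_lt hΦ hε hok (hz k)).le.trans hT⟩)
    (fun i _ k _ hik => by
      simp only [Prod.mk.injEq] at hik
      exact he hik.2.2)
  have hlen : Q.length ≤ 2 ^ (L + 2) := by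
    have h4 := card_nl_le (partsF x ∪ partsF y)
    have h5 := card_union_partsF_le (L := L) (x := x) (y := y) hd
    have h6 : [(x, y, sig Φ ε (node x y))].length = 1 := rfl
    have h7 : 2 ≤ 2 ^ (L + 2) := by
      have := Nat.pow_le_pow_right (n := 2) (by norm_num) (show 1 ≤ L + 2 by omega)
      simpa using this
    omega
  have hbase : Base Φ ε S l := base_one (by rw [hS]; exact hok) l
  refine PrgO.of_connected (ι := LbP x y) (z := Subtype.val) (P := Q.map Prod.fst) one_pos
    hbase (card_LbP_le hd) (by rw [List.length_map]; exact hlen) ?_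
    (fun i k => (jn_pl T Q).2 (h3 i k (hJ _ (mem_lab_pair.2 i.2) _ (mem_lab_pair.2 k.2))))
    (h1.run.run hΦ hε h1.nonneg)
  refine ⟨Subtype.val_injective, fun i => Or.inl ⟨0, by rw [hS]; exact i.2⟩, fun j => ?_,
    fun j => j.elim0⟩
  rw [range_LbP, Fin.fin_one_eq_zero j, hS]

/-! ### The lines of the particles -/

/-- The lines of the particles of the two sides. -/
def AlnN (Φ : E3 → ℝ) (ε : ℝ) : CTree → Finset (ℝ × Ph)
  | leaf _ => ∅
  | node x y => by
    classical
    exact Aln Φ ε x ∪ Aln Φ ε y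

/-- The sources of the particles of the two sides. -/
def SrcN (Φ : E3 → ℝ) (ε : ℝ) : CTree → Finset Src
  | leaf _ => ∅
  | node x y => by
    classical
    exact srcs Φ ε x ∪ srcs Φ ε y

theorem mem_AlnN {x y : CTree} {σ : ℝ × Ph} : σ ∈ AlnN Φ ε (node x y) ↔
    ∃ z ∈ outs x ∪ outs y, σ = (ext Φ ε z, ln Φ ε z) := by
  classical
  unfold AlnN
  rw [Finset.mem_union, mem_Aln, mem_Aln]
  constructor
  · rintro (⟨z, hz, h⟩ | ⟨z, hz, h⟩)
    · exact ⟨z, Or.inl hz, h⟩
    · exact ⟨z, Or.inr hz, h⟩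
  · rintro ⟨z, hz | hz, h⟩
    · exact Or.inl ⟨z, hz, h⟩
    · exact Or.inr ⟨z, hz, h⟩

theorem mem_SrcN {x y : CTree} {a : Src} : a ∈ SrcN Φ ε (node x y) ↔
    ∃ z ∈ outs x ∪ outs y, rsrc Φ ε z = a := by
  classical
  unfold SrcN
  rw [Finset.mem_union, mem_srcs, mem_srcs]
  constructor
  · rintro (⟨z, hz, h⟩ | ⟨z, hz, h⟩)
    · exact ⟨z, Or.inl hz, h⟩
    · exact ⟨z, Or.inr hz, h⟩
  · rintro ⟨z, hz | hz, h⟩
    · exact Or.inl ⟨z, hz, h⟩
    · exact Or.inr ⟨z, hz, h⟩

theorem card_outs_image_le {α : Type*} [DecidableEq α] {x : CTree} {L : ℕ} (hd : x.depth ≤ L)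
    (f : CTree → α) {A : Finset α} (hA : ∀ a ∈ A, ∃ z ∈ outs x, f z = a) :
    A.card ≤ 2 ^ (L + 2) := by
  have h1 : A ⊆ (partsF x).image f := by
    intro a ha
    obtain ⟨z, hz, rfl⟩ := hA a ha
    refine Finset.mem_image.2 ⟨z, mem_partsF.2 ?_, rfl⟩
    rcases hz with h | h
    · rw [h]; exact self_mem_parts x
    · exact Or.inr h
  exact (Finset.card_le_card h1).trans (Finset.card_image_le.trans (XT.card_partsF_le hd))

theorem depth_left_le {x y : CTree} (hd : (node x y).depth ≤ L) : x.depth ≤ L := by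
  have h1 : (node x y).depth = max x.depth y.depth + 1 := rfl
  omega

theorem depth_right_le {x y : CTree} (hd : (node x y).depth ≤ L) : y.depth ≤ L := by
  have h1 : (node x y).depth = max x.depth y.depth + 1 := rfl
  omega

theorem card_AlnN_le {x y : CTree} (hd : (node x y).depth ≤ L) :
    (AlnN Φ ε (node x y)).card ≤ 2 * 2 ^ (L + 2) := by
  classical
  have e : AlnN Φ ε (node x y) = Aln Φ ε x ∪ Aln Φ ε y := rfl
  rw [e]
  have h1 := XT.card_Aln_le (Φ := Φ) (ε := ε) (depth_left_le hd)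
  have h2 := XT.card_Aln_le (Φ := Φ) (ε := ε) (depth_right_le hd)
  have h3 := Finset.card_union_le (Aln Φ ε x) (Aln Φ ε y)
  omega

theorem card_srcs_le' {x : CTree} (hd : x.depth ≤ L) : (srcs Φ ε x).card ≤ 2 ^ (L + 2) := by
  classical
  exact card_outs_image_le hd (rsrc Φ ε) fun a ha => mem_srcs.1 ha

theorem card_SrcN_le {x y : CTree} (hd : (node x y).depth ≤ L) :
    (SrcN Φ ε (node x y)).card ≤ 2 * 2 ^ (L + 2) := by
  classical
  have e : SrcN Φ ε (node x y) = srcs Φ ε x ∪ srcs Φ ε y := rfl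
  rw [e]
  have h1 := card_srcs_le' (Φ := Φ) (ε := ε) (depth_left_le hd)
  have h2 := card_srcs_le' (Φ := Φ) (ε := ε) (depth_right_le hd)
  have h3 := Finset.card_union_le (srcs Φ ε x) (srcs Φ ε y)
  omega

theorem ln_sq_le_enT_pair (hΦ : IsPotential Φ) (hε : 0 < ε) {x y z : CTree}
    (hz : z ∈ outs x ∪ outs y) : ‖(ln Φ ε z).2‖ ^ 2 ≤ enT (node x y) := by
  have e : enT (node x y) = enT x + enT y := rfl
  rcases hz with hz | hz
  · have h1 := ln_sq_le_enT_outs hΦ hε.ne' hz
    have h2 := enT_nonneg y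
    linarith
  · have h1 := ln_sq_le_enT_outs hΦ hε.ne' hz
    have h2 := enT_nonneg x
    linarith

theorem EW_SrcN_le (hΦ : IsPotential Φ) (hε : 0 < ε) {x y : CTree}
    (hd : (node x y).depth ≤ L) :
    EW (SrcN Φ ε (node x y)) ≤ (2 * 2 ^ (L + 2) : ℕ) * (1 + enT (node x y)) := by
  have h1 : EW (SrcN Φ ε (node x y)) ≤
      (SrcN Φ ε (node x y)).card • (1 + enT (node x y)) := by
    refine Finset.sum_le_card_nsmul _ _ _ fun a ha => ?_
    obtain ⟨z, hz, rfl⟩ := mem_SrcN.1 ha
    have h2 := ln_sq_le_enT_pair hΦ hε hz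
    have h3 : ‖(rsrc Φ ε z).2.1.2‖ ^ 2 = ‖(ln Φ ε z).2‖ ^ 2 := rfl
    linarith
  rw [nsmul_eq_mul] at h1
  refine h1.trans (mul_le_mul_of_nonneg_right ?_ (by linarith [enT_nonneg (node x y)]))
  exact_mod_cast card_SrcN_le hd

/-! ### The exchange of the integrals -/

variable {f₀ : Ph → ℝ} {κ₀ : ℝ}

/-- **The law of one colliding pair.** -/
theorem XP_le (h : GoodDatum f₀ κ₀) (hΦ : IsPotential Φ) (hε : 0 < ε)
    {g : CTree → CTree → ℝ≥0∞} (hg : Measurable fun p : CTree × CTree => g p.1 p.2)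
    (hgt : ∀ x y, g x y ≠ ∞) {Q : Finset Src → CTree → CTree → ℝ≥0∞}
    (hQ : Measurable fun p : (CTree × CTree) × Conf Ph => Q (wS (pts p.2)) p.1.1 p.1.2)
    {F : CTree → CTree → Conf Ph → ℝ≥0∞}
    (hF : ∀ x y, ∀ w, coT Φ ε L T (wS (pts w)) x y →
      Disjoint (wS (pts w) : Set Src) (node x y).leaves → Q (wS (pts w)) x y ≤ F x y w) :
    XP Φ ε L f₀ T (fun U x y => g x y * Q U x y) ≤
      ∫⁻ S, WtP Φ ε T L g S * (∫⁻ w, onN (fun x y => F x y w) S ∂(PP f₀ ε))
        ∂(tree (inten f₀ ε) L) := by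
  have hfin : IsFiniteMeasure (inten f₀ ε) := isFiniteMeasure_inten h
  have hprob := isProbability_PP (ε := ε) h
  have hH : Measurable fun p : (CTree × CTree) × Conf Ph =>
      g p.1.1 p.1.2 * Q (wS (pts p.2)) p.1.1 p.1.2 := (hg.comp measurable_fst).mul hQ
  have hm := measurable_XPi (L := L) (H := fun U x y => g x y * Q U x y) hΦ hε hH T
  unfold XP
  rw [← lintegral_lintegral_swap hm.aemeasurable]
  refine lintegral_mono fun S => ?_
  cases S with
  | leaf a =>
    refine (le_of_eq ?_).trans zero_le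
    simp only [onN_leaf, lintegral_zero]
  | node x y =>
    simp only [onN_node]
    by_cases hxy : OKP Φ ε T L x y
    · have e1 : WtP Φ ε T L g (node x y) = g x y := by
        unfold WtP
        rw [onN_node, ind_of hxy, one_mul]
      rw [e1, ← lintegral_const_mul' _ _ (hgt x y)]
      refine lintegral_mono_ae ?_
      filter_upwards [ae_forall_notMem_wS h hε.le (node x y).leaves_finite] with w hw
      by_cases hc : coT Φ ε L T (wS (pts w)) x y
      · rw [ind_of hc, one_mul]
        exact mul_le_mul_right (hF x y w hc (Set.disjoint_left.2 fun a h1 h2 =>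
          hw a h2 (Finset.mem_coe.1 h1))) _
      · rw [ind_of_not hc, zero_mul]
        exact zero_le
    · have h0 : ∀ w : Conf Ph, ind (coT Φ ε L T (wS (pts w)) x y) *
          (g x y * Q (wS (pts w)) x y) = 0 := fun w => by
        rw [ind_of_not fun hc => hxy ⟨hc.ok, hc.depth, hc.sig_le⟩, zero_mul]
      rw [lintegral_congr h0, lintegral_zero]
      exact zero_le

end Vale.Agent.P119.PB.PL
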