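import Vale.Agent.P119.PB.ExcTree
import Vale.Agent.P119.PB.RelLim2
import Vale.Agent.P119.PB.RLines
import Vale.Agent.P119.PB.ContX
import Vale.Agent.P119.PB.ExhW

/-!
# P119, block PROB: trees related to the lines of one tree (`helper347`)

* `XS`: the line of a label of a tree;
* `XX_le_struct`: a functional of one tree of the gas as a structure law;
* `exsum_le_max`: a sum over the exhausts is at most `2 ^ L` times one of its terms;
* `TreeLim`: the law of the trees related to the lines of one tree; `xx_lim`: the functionals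
  dominated by it; `excE3_of` (P10), `d3_lim`, `d4_lim` (P9).
-/

open MeasureTheory Filter Topology Set
open scoped ENNReal NNReal

noncomputable section

namespace Vale.Agent.P119.PB

open M CTree KU FB RB AU TL IND

namespace RLn

variable {Φ : E3 → ℝ} {ε : ℝ} {L : ℕ} {hΦ : IsPotential Φ} {hε : 0 < ε} {f₀ : Ph → ℝ} {κ₀ : ℝ}
  {U V W K I J : Finset Src} {R S : CTree} {s t T : ℝ} {a σ : Src}

/-! ### The lines of one tree -/

open Classical in
/-- The line of a label of a tree. -/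
def XS (Φ : E3 → ℝ) (ε : ℝ) (S : CTree) (σ : Src) : Src :=
  if h : σ ∈ S.leaves then rsrc Φ ε (XT.outOf S ⟨σ, h⟩) else σ

theorem XS_root (hS : CTree.ok Φ ε S) {x : CTree} (hx : x ∈ outs S) :
    XS Φ ε S x.root = rsrc Φ ε x := by
  unfold XS
  rw [dif_pos (outs_leaves hx x.root_mem_leaves)]
  exact congrArg (rsrc Φ ε) (XT.outOf_eq hS hx rfl)

theorem mem_srcs_XS (hS : CTree.ok Φ ε S) :
    a ∈ srcs Φ ε S ↔ ∃ σ ∈ lab (partsF S), XS Φ ε S σ = a := by
  rw [mem_srcs]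
  constructor
  · rintro ⟨x, hx, rfl⟩
    refine ⟨x.root, ?_, XS_root hS hx⟩
    rw [← Finset.mem_coe, lab_partsF]
    exact outs_leaves hx x.root_mem_leaves
  · rintro ⟨σ, hσ, rfl⟩
    rw [← Finset.mem_coe, lab_partsF] at hσ
    obtain ⟨x, hx, rfl⟩ := exists_out hσ
    exact ⟨x, hx, (XS_root hS hx).symm⟩

theorem card_srcs_le (hd : S.depth ≤ L) : (srcs Φ ε S).card ≤ 2 ^ (L + 2) := by
  classical
  have h1 : srcs Φ ε S ⊆ (partsF S).image (rsrc Φ ε) := by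
    intro a ha
    obtain ⟨x, hx, rfl⟩ := mem_srcs.1 ha
    refine Finset.mem_image.2 ⟨x, mem_partsF.2 ?_, rfl⟩
    rcases hx with h | h
    · rw [h]; exact self_mem_parts S
    · exact Or.inr h
  exact (Finset.card_le_card h1).trans (Finset.card_image_le.trans (XT.card_partsF_le hd))

/-! ### The functionals of one tree of the gas -/

/-- **A functional of one tree of the gas is at most a structure law.** -/
theorem XX_le_struct (h : GoodDatum f₀ κ₀) (hΦ : IsPotential Φ) (hε : 0 < ε)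
    {g : CTree → ℝ≥0∞} (hg : ∀ S, g S ≠ ∞) {H : Finset Src → CTree → ℝ≥0∞}
    {N : GC.Conf Ph → CTree → ℝ≥0∞}
    (hH : Measurable fun p : CTree × GC.Conf Ph => H (wS (GC.pts p.2)) p.1)
    (hle : ∀ c S, alT Φ ε L T (wS (GC.pts c)) S → H (wS (GC.pts c)) S ≤ g S * N c S) :
    XX Φ ε L f₀ T H ≤ ∫⁻ S, XT.Wt Φ ε T L g S * ∫⁻ c, N c S ∂(GC.PP f₀ ε)
      ∂(tree (GC.inten f₀ ε) L) := by
  have hfin : IsFiniteMeasure (GC.inten f₀ ε) := GC.isFiniteMeasure_inten h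
  have hprob := GC.isProbability_PP (ε := ε) h
  have hal : MeasurableSet {p : CTree × GC.Conf Ph | alT Φ ε L T (wS (GC.pts p.2)) p.1} :=
    measurableSet_alT' hΦ hε T
  have hm : Measurable fun p : CTree × GC.Conf Ph => ind (alT Φ ε L T (wS (GC.pts p.2)) p.1) *
      H (wS (GC.pts p.2)) p.1 := (measurable_ind hal).mul hH
  unfold XX
  rw [← lintegral_lintegral_swap hm.aemeasurable]
  refine lintegral_mono fun S => ?_
  have hW : XT.Wt Φ ε T L g S ≠ ∞ := by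
    unfold XT.Wt
    exact ENNReal.mul_ne_top ((ind_le_one _).trans_lt ENNReal.one_lt_top).ne (hg S)
  rw [← lintegral_const_mul' _ _ hW]
  refine lintegral_mono fun c => ?_
  by_cases h1 : alT Φ ε L T (wS (GC.pts c)) S
  · rw [ind_of h1, one_mul]
    refine (hle c S h1).trans (le_of_eq ?_)
    unfold XT.Wt
    rw [ind_of ⟨h1.ok, h1.depth, h1.ext_le⟩, one_mul]
  · rw [ind_of_not h1, zero_mul]
    exact zero_le

/-- A sum over the exhausts is at most `2 ^ L` times one of its terms. -/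
theorem exsum_le_max (hd : S.depth ≤ L) (φ : CTree → ℝ≥0∞) :
    exsum S φ = 0 ∨ ∃ x ∈ exs S, exsum S φ ≤ 2 ^ L * φ x := by
  classical
  by_cases he : (exs S).Nonempty
  · right
    have hfin : (exs S).Finite := exs_finite S
    obtain ⟨x, hx, hmax⟩ := hfin.exists_maximalFor φ (exs S) he
    refine ⟨x, hx, ?_⟩
    have h1 : ∀ y ∈ exs S, φ y ≤ φ x := by
      intro y hy
      rcases le_total (φ y) (φ x) with h | h
      · exact h
      · exact hmax hy h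
    have h2 : exsum S φ ≤ exsum S fun _ => φ x * ind True := by
      refine exsum_mono fun y hy => ?_
      rw [ind_of trivial, mul_one]
      exact h1 y hy
    refine h2.trans ?_
    rw [EX.exsum_mul_left]
    calc φ x * exsum S (fun _ => ind True) ≤ φ x * (2 ^ L * ind True) :=
          mul_le_mul_right (EX.exsum_const_le hd True) _
      _ = 2 ^ L * φ x := by rw [ind_of trivial, mul_one, mul_comm]
  · left
    rw [Set.not_nonempty_iff_eq_empty] at he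
    unfold exsum
    simp [he]

/-! ### The limits -/

/-- **Trees related to the lines of one tree**, as a structure law. -/
def TreeLim (hΦ : IsPotential Φ) (f₀ : Ph → ℝ) (b : ℝ) (L : ℕ) (T : ℝ) : Prop :=
  ∃ Dl : ℝ → ℝ≥0∞, Tendsto Dl (𝓝[>] 0) (𝓝 0) ∧ ∀ (ε : ℝ) (hε : 0 < ε), ε ≤ 1 →
    ∀ g : CTree → ℝ≥0∞, Measurable g → ∀ CW : ℝ≥0∞, CW ≠ ∞ →
    (∀ S, g S ≤ CW * ENNReal.ofReal (Real.exp (b / 8 * enT S))) →
    ∀ I J : GC.Conf Ph → CTree → Finset Src, (∀ c S, I c S ⊆ srcs Φ ε S) →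
    (∀ c S, J c S ⊆ srcs Φ ε S) →
    ∫⁻ S, XT.Wt Φ ε T L g S * ∫⁻ c, relW L hΦ hε (wF (wS (GC.pts c)) sgl (I c S))
      (wF (wS (GC.pts c)) sgl (J c S)) T ∂(GC.PP f₀ ε) ∂(tree (GC.inten f₀ ε) L) ≤
    CW * (FL.muE ε ^ 2 * Dl ε)

/-- **A functional dominated by the number of the trees related to the lines.** -/
theorem xx_lim {b : ℝ} (h : GoodDatum f₀ κ₀) (hlim : TreeLim hΦ f₀ b L T)
    {g : ℝ → CTree → ℝ≥0∞} (hgm : ∀ ε, 0 < ε → Measurable (g ε)) {CW : ℝ≥0∞} (hCW : CW ≠ ∞)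
    (hg : ∀ ε, 0 < ε → ∀ S, g ε S ≤ CW * ENNReal.ofReal (Real.exp (b / 8 * enT S)))
    {H : ∀ ε : ℝ, 0 < ε → Finset Src → CTree → ℝ≥0∞}
    (hH : ∀ ε (hε : 0 < ε), Measurable fun p : CTree × GC.Conf Ph =>
      H ε hε (wS (GC.pts p.2)) p.1)
    (hle : ∀ ε (hε : 0 < ε), ∀ U S, alT Φ ε L T U S → ∃ I ⊆ srcs Φ ε S, ∃ J ⊆ srcs Φ ε S,
      H ε hε U S ≤ g ε S * relW L hΦ hε (wF U sgl I) (wF U sgl J) T) :
    ∀ ρ : ℝ, 0 < ρ → ∀ᶠ ε in 𝓝[>] (0 : ℝ), ∀ hε : 0 < ε, (FL.muE ε)⁻¹ * ((FL.muE ε)⁻¹ *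
      XX Φ ε L f₀ T (H ε hε)) ≤ ENNReal.ofReal ρ := by
  classical
  obtain ⟨Dl, hDl, hlim⟩ := hlim
  intro ρ hρ
  have h2 : Tendsto (fun ε => CW * Dl ε) (𝓝[>] 0) (𝓝 0) := by
    have h3 := ENNReal.Tendsto.const_mul (a := CW) hDl (Or.inr hCW)
    rwa [mul_zero] at h3
  have hev : ∀ᶠ ε : ℝ in 𝓝[>] 0, ε ≤ 1 :=
    (eventually_nhdsWithin_of_eventually_nhds (eventually_le_nhds one_pos))
  filter_upwards [hev, (ENNReal.tendsto_nhds_zero.1 h2) (ENNReal.ofReal ρ)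
    (ENNReal.ofReal_pos.2 hρ)] with ε hε1 hsm hε
  -- the worlds
  have hch : ∀ (c : GC.Conf Ph) (S : CTree), ∃ IJ : Finset Src × Finset Src,
      IJ.1 ⊆ srcs Φ ε S ∧ IJ.2 ⊆ srcs Φ ε S ∧ (alT Φ ε L T (wS (GC.pts c)) S →
        H ε hε (wS (GC.pts c)) S ≤ g ε S * relW L hΦ hε (wF (wS (GC.pts c)) sgl IJ.1)
          (wF (wS (GC.pts c)) sgl IJ.2) T) := by
    intro c S
    by_cases ha : alT Φ ε L T (wS (GC.pts c)) S
    · obtain ⟨I, hI, J, hJ, h3⟩ := hle ε hε _ S ha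
      exact ⟨(I, J), hI, hJ, fun _ => h3⟩
    · exact ⟨(∅, ∅), Finset.empty_subset _, Finset.empty_subset _, fun h' => absurd h' ha⟩
  choose IJ hI hJ hIJ using hch
  have hgt : ∀ S, g ε S ≠ ∞ := fun S =>
    ((hg ε hε S).trans_lt (ENNReal.mul_lt_top hCW.lt_top ENNReal.ofReal_lt_top)).ne
  have h4 := XX_le_struct (T := T) (L := L) h hΦ hε hgt (hH ε hε) (N := fun c S =>
    relW L hΦ hε (wF (wS (GC.pts c)) sgl (IJ c S).1) (wF (wS (GC.pts c)) sgl (IJ c S).2) T)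
    (fun c S ha => hIJ c S ha)
  have h5 := hlim ε hε hε1 (g ε) (hgm ε hε) CW hCW (hg ε hε) (fun c S => (IJ c S).1)
    (fun c S => (IJ c S).2) hI hJ
  have hμ : FL.muE ε ≠ 0 := (ENNReal.ofReal_pos.2 (GC.mu_pos hε)).ne'
  have hμ' : FL.muE ε ≠ ∞ := FL.muE_ne_top
  calc (FL.muE ε)⁻¹ * ((FL.muE ε)⁻¹ * XX Φ ε L f₀ T (H ε hε))
      ≤ (FL.muE ε)⁻¹ * ((FL.muE ε)⁻¹ * (CW * (FL.muE ε ^ 2 * Dl ε))) :=
        mul_le_mul_right (mul_le_mul_right (h4.trans h5) _) _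
    _ = ((FL.muE ε)⁻¹ * FL.muE ε) * ((FL.muE ε)⁻¹ * FL.muE ε) * (CW * Dl ε) := by ring
    _ = CW * Dl ε := by rw [ENNReal.inv_mul_cancel hμ hμ', one_mul, one_mul]
    _ ≤ ENNReal.ofReal ρ := hsm

theorem wln_exp_le {b : ℝ} (hΦ : IsPotential Φ) (hε : 0 < ε) (hb : 0 < b) (S : CTree) :
    2 ^ L * wln Φ ε S ≤ 2 ^ L * ENNReal.ofReal (2 + 8 / b) *
      ENNReal.ofReal (Real.exp (b / 8 * enT S)) := by
  rw [mul_assoc]
  exact mul_le_mul_right (RelX.wln_le_exp hΦ hε hb S) _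

theorem wq_exp_le {b : ℝ} (hΦ : IsPotential Φ) (hε : 0 < ε) (hb : 0 < b) (S : CTree) :
    wq Φ ε S ≤ ENNReal.ofReal (1 + 8 / b) * ENNReal.ofReal (Real.exp (b / 8 * enT S)) := by
  unfold wq
  rw [← ENNReal.ofReal_mul (by positivity)]
  refine ENNReal.ofReal_le_ofReal ?_
  have h1 := ln_sq_le_enT hΦ hε.ne' S
  have h2 : b / 8 * enT S + 1 ≤ Real.exp (b / 8 * enT S) := Real.add_one_le_exp _
  have h3 : 0 ≤ b / 8 * enT S := mul_nonneg (by positivity) (enT_nonneg S)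
  have h5 : 1 ≤ Real.exp (b / 8 * enT S) := Real.one_le_exp h3
  have h4 : enT S = 8 / b * (b / 8 * enT S) := by field_simp
  have h7 : enT S ≤ 8 / b * Real.exp (b / 8 * enT S) := by
    calc enT S = 8 / b * (b / 8 * enT S) := h4
      _ ≤ _ := mul_le_mul_of_nonneg_left (by linarith) (by positivity)
  nlinarith

theorem insert_rsrc_eq [DecidableEq Src] {x : CTree} :
    insert (rsrc Φ ε x) U = wF U sgl {rsrc Φ ε x} := by
  ext a
  rw [mem_wF_sgl, Finset.mem_insert, Finset.mem_singleton]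
  exact or_comm

theorem wF_empty' : wF U sgl ∅ = U := by
  ext a
  rw [mem_wF_sgl]
  simp

/-- **`ExcE3`**: trees related to an exhaust of a tree. -/
theorem excE3_of {b : ℝ} (h : GoodDatum f₀ κ₀) (hb : 0 < b) (hlim : TreeLim hΦ f₀ b L T) :
    EX.ExcE3 hΦ f₀ L T := by
  classical
  refine xx_lim h hlim (g := fun ε S => 2 ^ L * wln Φ ε S)
    (fun ε hε => (measurable_wln hΦ hε).const_mul _)
    (ENNReal.mul_ne_top (ENNReal.pow_ne_top ENNReal.ofNat_ne_top) ENNReal.ofReal_ne_top)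
    (fun ε hε S => wln_exp_le hΦ hε hb S) (H := fun ε hε U S => wln Φ ε S * exsum S fun x =>
      relW L hΦ hε (insert (rsrc Φ ε x) U) U T) (fun ε hε => ?_) (fun ε hε U S ha => ?_)
  · exact ((measurable_wln hΦ hε).comp measurable_fst).mul
      (EX.measurable_exsum_conf (F := fun c x =>
        relW L hΦ hε (insert (rsrc Φ ε x) (wS (GC.pts c))) (wS (GC.pts c)) T)
        (EX.measurable_relW_rsrc T))
  · rcases exsum_le_max ha.depth (fun x => relW L hΦ hε (insert (rsrc Φ ε x) U) U T) with h0 | h0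
    · refine ⟨∅, Finset.empty_subset _, ∅, Finset.empty_subset _, ?_⟩
      rw [h0, mul_zero]
      exact zero_le
    · obtain ⟨x, hx, hle⟩ := h0
      refine ⟨{rsrc Φ ε x}, ?_, ∅, Finset.empty_subset _, ?_⟩
      · rw [Finset.singleton_subset_iff, mem_srcs]
        exact ⟨x, Or.inr hx, rfl⟩
      · rw [wF_empty', ← insert_rsrc_eq]
        calc wln Φ ε S * exsum S (fun x => relW L hΦ hε (insert (rsrc Φ ε x) U) U T)
            ≤ wln Φ ε S * (2 ^ L * relW L hΦ hε (insert (rsrc Φ ε x) U) U T) :=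
              mul_le_mul_right hle _
          _ = _ := by ring

theorem measurable_relW_lnw (t : ℝ) : Measurable fun p : CTree × GC.Conf Ph =>
    relW L hΦ hε (lnw Φ ε (wS (GC.pts p.2)) p.1 (ext Φ ε p.1)) (wS (GC.pts p.2)) t :=
  RM.measurable_relW (RM.rs_lnw hΦ hε (RM.rs_wS measurable_snd) measurable_fst
    ((measurable_ext hΦ hε.ne').comp measurable_fst)) (RM.rs_wS measurable_snd) measurable_const

/-- **Trees related to the lines of a tree** (P9). -/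
theorem d3_lim {b : ℝ} (h : GoodDatum f₀ κ₀) (hb : 0 < b) (hlim : TreeLim hΦ f₀ b L T) :
    ∀ ρ : ℝ, 0 < ρ → ∀ᶠ ε in 𝓝[>] (0 : ℝ), ∀ hε : 0 < ε, (FL.muE ε)⁻¹ * ((FL.muE ε)⁻¹ *
      XX Φ ε L f₀ T (fun U S => wq Φ ε S *
        relW L hΦ hε (lnw Φ ε U S (ext Φ ε S)) U T)) ≤ ENNReal.ofReal ρ := by
  classical
  refine xx_lim h hlim (g := fun ε S => wq Φ ε S)
    (fun ε hε => measurable_wq hΦ hε) ENNReal.ofReal_ne_top
    (fun ε hε S => wq_exp_le hΦ hε hb S) (H := fun ε hε U S => wq Φ ε S *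
      relW L hΦ hε (lnw Φ ε U S (ext Φ ε S)) U T) (fun ε hε => ?_) (fun ε hε U S ha => ?_)
  · exact ((measurable_wq hΦ hε).comp measurable_fst).mul (measurable_relW_lnw T)
  · refine ⟨srcs Φ ε S, Finset.Subset.refl _, ∅, Finset.empty_subset _, ?_⟩
    rw [wF_empty', lnw_eq ha.ok]

open Classical in
theorem measurable_relW_lnw_rsrc (t : ℝ) : Measurable fun p : CTree × GC.Conf Ph =>
    exsum p.1 fun x => relW L hΦ hε (lnw Φ ε (wS (GC.pts p.2)) p.1 (ext Φ ε p.1))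
      (insert (rsrc Φ ε x) (wS (GC.pts p.2))) t := by
  refine RM.measurable_exsum' (X := CTree × GC.Conf Ph) (T := fun p => p.1) measurable_fst
    (F := fun p x => relW L hΦ hε (lnw Φ ε (wS (GC.pts p.2)) p.1 (ext Φ ε p.1))
      (insert (rsrc Φ ε x) (wS (GC.pts p.2))) t) ?_
  have h1 : MM.RS fun p : (CTree × GC.Conf Ph) × CTree =>
      ((wS (GC.pts p.1.2) : Finset Src) : Set Src) :=
    RM.rs_wS (measurable_snd.comp measurable_fst)
  have h2 : Measurable fun p : (CTree × GC.Conf Ph) × CTree => p.1.1 :=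
    measurable_fst.comp measurable_fst
  exact RM.measurable_relW (RM.rs_lnw hΦ hε h1 h2 ((measurable_ext hΦ hε.ne').comp h2))
    (RM.rs_insert_rsrc hΦ hε h1 measurable_snd) measurable_const

open Classical in
/-- **Trees related to the other lines of a tree** (P9). -/
theorem d4_lim {b : ℝ} (h : GoodDatum f₀ κ₀) (hb : 0 < b) (hlim : TreeLim hΦ f₀ b L T) :
    ∀ ρ : ℝ, 0 < ρ → ∀ᶠ ε in 𝓝[>] (0 : ℝ), ∀ hε : 0 < ε, (FL.muE ε)⁻¹ * ((FL.muE ε)⁻¹ *
      XX Φ ε L f₀ T (fun U S => wq Φ ε S * exsum S (fun x =>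
        relW L hΦ hε (lnw Φ ε U S (ext Φ ε S)) (insert (rsrc Φ ε x) U) T))) ≤
        ENNReal.ofReal ρ := by
  refine xx_lim h hlim (g := fun ε S => 2 ^ L * wq Φ ε S)
    (CW := 2 ^ L * ENNReal.ofReal (1 + 8 / b))
    (fun ε hε => (measurable_wq hΦ hε).const_mul _)
    (ENNReal.mul_ne_top (ENNReal.pow_ne_top ENNReal.ofNat_ne_top) ENNReal.ofReal_ne_top)
    (fun ε hε S => by
      rw [mul_assoc]
      exact mul_le_mul_right (wq_exp_le hΦ hε hb S) _) (H := fun ε hε U S => wq Φ ε S *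
      exsum S fun x => relW L hΦ hε (lnw Φ ε U S (ext Φ ε S)) (insert (rsrc Φ ε x) U) T)
      (fun ε hε => ?_) (fun ε hε U S ha => ?_)
  · exact ((measurable_wq hΦ hε).comp measurable_fst).mul (measurable_relW_lnw_rsrc T)
  · rcases exsum_le_max ha.depth (fun x => relW L hΦ hε (lnw Φ ε U S (ext Φ ε S))
      (insert (rsrc Φ ε x) U) T) with h0 | h0
    · refine ⟨∅, Finset.empty_subset _, ∅, Finset.empty_subset _, ?_⟩
      rw [h0, mul_zero]
      exact zero_le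
    · obtain ⟨x, hx, hle⟩ := h0
      refine ⟨srcs Φ ε S, Finset.Subset.refl _, {rsrc Φ ε x}, ?_, ?_⟩
      · rw [Finset.singleton_subset_iff, mem_srcs]
        exact ⟨x, Or.inr hx, rfl⟩
      · rw [← insert_rsrc_eq, ← lnw_eq ha.ok]
        calc wq Φ ε S * exsum S (fun x => relW L hΦ hε (lnw Φ ε U S (ext Φ ε S))
              (insert (rsrc Φ ε x) U) T)
            ≤ wq Φ ε S * (2 ^ L * relW L hΦ hε (lnw Φ ε U S (ext Φ ε S))
              (insert (rsrc Φ ε x) U) T) := mul_le_mul_right hle _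
          _ = _ := by ring

end RLn

end Vale.Agent.P119.PB
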