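import Vale.Agent.P119.PB.LinesLim
import Vale.Agent.P119.PB.HitLaw
import Vale.Agent.P119.PB.ExcIrrs
import Vale.Agent.P119.PB.RelTree
import Vale.Agent.P119.PB.LamF
import Vale.Agent.P119.PB.PairLaw
import Vale.Agent.P119.PB.TrickC

/-!
# P119, block PROB: related trees in the crude laws (`helper185`)

* `RWs J`: the expected weight of the trees which are related to the inserted lines `J`;
  `rE6_le`: the Markov inequality; `exists_max`: the sum over the exhausts of a tree;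
* `cr2p_lim`: the crude functional of an exhaust and the hit of a free line, for `rE6`;
* `cr3c_lim`: the crude functional of an exhaust and a colliding pair, for `rE6`.
-/

open MeasureTheory Filter Topology Set
open scoped ENNReal NNReal

noncomputable section

namespace Vale.Agent.P119.PB.RE

open M CTree KU FL FB RB AU TL GC IND XT HL MM PB.CT RelX RLn

variable {Φ : E3 → ℝ} {ε t T η θ b b₀ c : ℝ} {L : ℕ} {hΦ : IsPotential Φ} {hε : 0 < ε}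
  {f₀ : Ph → ℝ} {κ₀ M₀ M₁ : ℝ}

/-! ### The trees related to an inserted line -/

/-- The expected weight of the trees which are related to the inserted lines `J`. -/
def RWs (L : ℕ) (hΦ : IsPotential Φ) (hε : 0 < ε) (f₀ : Ph → ℝ) (t : ℝ) (J : Finset Src) :
    ℝ≥0∞ :=
  ∫⁻ w, relW L hΦ hε (wF (wS (GC.pts w)) sgl J) (wF (wS (GC.pts w)) sgl ∅) t ∂(GC.PP f₀ ε)

/-- The expected weight of the trees which are related to the source `e`. -/
def RW (L : ℕ) (hΦ : IsPotential Φ) (hε : 0 < ε) (f₀ : Ph → ℝ) (t : ℝ) (e : Src) : ℝ≥0∞ :=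
  RWs L hΦ hε f₀ t {e}

open Classical in
theorem ins_eq {U : Finset Src} {e : Src} : insert e U = wF U sgl {e} := by
  ext a
  rw [mem_wF_sgl, Finset.mem_insert, Finset.mem_singleton]
  exact or_comm

theorem measurable_RW (h : GoodDatum f₀ κ₀) : Measurable (RW L hΦ hε f₀ t) := by
  classical
  have := GC.isProbability_PP (ε := ε) h
  have hV : MM.RS fun q : Src × GC.Conf Ph => (wS (GC.pts q.2) : Set Src) :=
    MM.RS.comp RM.rs_conf measurable_snd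
  have hR : Measurable fun q : Src × GC.Conf Ph =>
      relW L hΦ hε (insert q.1 (wS (GC.pts q.2))) (wS (GC.pts q.2)) t :=
    RM.measurable_relW (RM.rs_ins hV measurable_fst) hV measurable_const
  have e : RW L hΦ hε f₀ t = fun a => ∫⁻ w, relW L hΦ hε (insert a (wS (GC.pts w)))
      (wS (GC.pts w)) t ∂(GC.PP f₀ ε) := by
    funext a
    unfold RW RWs
    refine lintegral_congr fun w => ?_
    rw [wF_empty', ← ins_eq]
  rw [e]
  exact hR.lintegral_prod_right'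

/-- **The Markov inequality.** -/
theorem rE6_le (hθ : 0 < θ) (e : Src) : rE6 L hΦ hε f₀ η θ t e ≤
    (ENNReal.ofReal (θ * mu ε))⁻¹ * RW L hΦ hε f₀ t e := by
  classical
  have h0 : 0 < θ * mu ε := mul_pos hθ (GC.mu_pos hε)
  have h1 : (ENNReal.ofReal (θ * mu ε))⁻¹ ≠ ∞ :=
    ENNReal.inv_ne_top.2 (ENNReal.ofReal_pos.2 h0).ne'
  unfold rE6 RW RWs
  rw [← lintegral_const_mul' _ _ h1]
  refine lintegral_mono fun w => ?_
  rw [wF_empty', ← ins_eq]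
  by_cases h : ENNReal.ofReal (θ * mu ε) <
      relW L hΦ hε (insert e (wS (GC.pts w))) (wS (GC.pts w)) t
  · refine (ind_le_one _).trans ?_
    calc (1 : ℝ≥0∞) = (ENNReal.ofReal (θ * mu ε))⁻¹ * ENNReal.ofReal (θ * mu ε) :=
          (ENNReal.inv_mul_cancel (ENNReal.ofReal_pos.2 h0).ne' ENNReal.ofReal_ne_top).symm
      _ ≤ _ := mul_le_mul_right h.le _
  · rw [ind_of_not fun h2 => h h2.2]
    exact zero_le

/-- The sum over the exhausts of a tree. -/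
theorem exists_max (L : ℕ) (hΦ : IsPotential Φ) (hε : 0 < ε) (f₀ : Ph → ℝ) (t : ℝ) :
    ∃ I : CTree → Finset Src, ∀ S, I S ⊆ exl Φ ε S ∧ (S.depth ≤ L →
      exsum S (fun x => RW L hΦ hε f₀ t (rsrc Φ ε x)) ≤ 2 ^ L * RWs L hΦ hε f₀ t (I S)) := by
  have h : ∀ S : CTree, ∃ I : Finset Src, I ⊆ exl Φ ε S ∧ (S.depth ≤ L →
      exsum S (fun x => RW L hΦ hε f₀ t (rsrc Φ ε x)) ≤ 2 ^ L * RWs L hΦ hε f₀ t I) := by
    intro S
    by_cases hd : S.depth ≤ L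
    swap
    · exact ⟨∅, Finset.empty_subset _, fun h => absurd h hd⟩
    rcases exsum_le_max hd (fun x => RW L hΦ hε f₀ t (rsrc Φ ε x)) with h0 | ⟨x, hx, h0⟩
    · refine ⟨∅, Finset.empty_subset _, fun _ => ?_⟩
      rw [h0]
      exact zero_le
    · refine ⟨{rsrc Φ ε x}, ?_, fun _ => h0⟩
      rw [Finset.singleton_subset_iff, mem_exl]
      exact ⟨x, hx, rfl⟩
  choose I hI using h
  exact ⟨I, hI⟩

/-! ### The hit of a free line -/

/-- The free line, as a source. -/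
def fs (z : Ph) : Src := (0, z, 0)

theorem fs_inj : Function.Injective fs := fun _ _ h => congrArg (fun a : Src => a.2.1) h

theorem measurable_fs : Measurable fs := measurable_const.prodMk (measurable_id.prodMk measurable_const)

theorem measurableSet_Hst (hΦ : IsPotential Φ) (hε : 0 < ε) {X : Type*} [MeasurableSpace X]
    {σ : X → Src} {S : X → CTree} (hσ : Measurable σ) (hS : Measurable S) :
    MeasurableSet {x | Hst Φ ε T L (σ x) (S x)} := by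
  have hz : Measurable fun x => (σ x).2.1 := measurable_fst.comp (measurable_snd.comp hσ)
  have hl : Measurable fun x => ln Φ ε (S x) := (M.measurable_ln hΦ hε.ne').comp hS
  have hq : Measurable fun x => ((σ x).2.1, ln Φ ε (S x)) := hz.prodMk hl
  have hh : Measurable fun x => hitT ε ((σ x).2.1, ln Φ ε (S x)) := measurable_hitT.comp hq
  have he : Measurable fun x => ext Φ ε (S x) := (M.measurable_ext hΦ hε.ne').comp hS
  have h1 : MeasurableSet {x | CTree.ok Φ ε (S x)} := hS (measurableSet_ok hΦ hε.ne')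
  have h2 : MeasurableSet {x | (S x).depth ≤ L} :=
    (measurable_depth.comp hS) (measurableSet_Iic (a := L))
  have h3 : MeasurableSet {x | 0 ≤ (σ x).1} := measurableSet_le measurable_const hσ.fst
  have h4 : MeasurableSet {x | σ x ∈ (S x).leaves} :=
    (MM.RS.leaves hS).measurableSet_mem_of hσ
  have h5 : MeasurableSet {x | Meets ε ((σ x).2.1, ln Φ ε (S x))} :=
    measurableSet_meets.preimage hq
  have h6 := measurableSet_lt hσ.fst hh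
  have h7 := measurableSet_lt he hh
  have h8 := measurableSet_le hh (measurable_const (a := T))
  have e : {x | Hst Φ ε T L (σ x) (S x)} =
      {x | CTree.ok Φ ε (S x)} ∩ ({x | (S x).depth ≤ L} ∩ ({x | 0 ≤ (σ x).1} ∩
        ({x | σ x ∈ (S x).leaves}ᶜ ∩ ({x | Meets ε ((σ x).2.1, ln Φ ε (S x))} ∩
          ({x | (σ x).1 < hitT ε ((σ x).2.1, ln Φ ε (S x))} ∩
            ({x | ext Φ ε (S x) < hitT ε ((σ x).2.1, ln Φ ε (S x))} ∩
              {x | hitT ε ((σ x).2.1, ln Φ ε (S x)) ≤ T})))))) := by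
    ext x
    exact ⟨fun h => ⟨h.ok, h.depth, h.birth, h.notMem, h.meets, h.lt, h.ext_lt, h.le⟩,
      fun h => ⟨h.1, h.2.1, h.2.2.1, h.2.2.2.1, h.2.2.2.2.1, h.2.2.2.2.2.1, h.2.2.2.2.2.2.1,
        h.2.2.2.2.2.2.2⟩⟩
  rw [e]
  exact h1.inter (h2.inter (h3.inter (h4.compl.inter (h5.inter (h6.inter (h7.inter h8))))))

/-- Almost every free line which hits the line of `S` after its exit gives the structure `Hst`. -/
theorem ae_hst (hε : 0 < ε) {S : CTree} (htT : t ≤ T) (hS : S ∈ M.okT Φ ε t L) :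
    ∀ᵐ z : Ph, ind (hitF Φ ε t z S) ≤ ind (Hst Φ ε T L (fs z) S) := by
  have hna : NullSingletonClass (volume : Measure Ph) := by
    change NullSingletonClass ((volume : Measure E3).prod (volume : Measure E3))
    infer_instance
  have h1 : ∀ᵐ z : Ph, z ∉ fs ⁻¹' S.leaves := measure_eq_zero_iff_ae_notMem.1
    ((S.leaves_finite.preimage fs_inj.injOn).measure_zero volume)
  filter_upwards [h1, ae_hit hε one_pos (ln Φ ε S) (ext Φ ε S)] with z hz hz'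
  refine ind_mono fun h => ?_
  obtain ⟨⟨h2, h3, h4⟩, h5⟩ := h
  have e1 : hitT ε (ln Φ ε S, z) = hitT ε (z, ln Φ ε S) := hitT_swap (z, ln Φ ε S)
  have h6 : Meets ε (ln Φ ε S, z) := (meets_swap (z, ln Φ ε S)).2 h2
  refine ⟨hS.1, hS.2.2, le_rfl, hz, h2, h3, ?_, h4.trans htT⟩
  rcases h5.lt_or_eq with h | h
  · exact h
  · exact absurd ⟨h6, e1.trans h.symm⟩ hz'

/-- The weight of the free line which hits. -/
def WF (Φ : E3 → ℝ) (ε T a : ℝ) (L : ℕ) (S : CTree) (z : Ph) : ℝ≥0∞ :=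
  2 ^ L * ENNReal.ofReal (Real.exp (a * ‖z.2‖ ^ 2)) * ind (Hst Φ ε T L (fs z) S)

theorem measurable_WF (hΦ : IsPotential Φ) (hε : 0 < ε) {X : Type*} [MeasurableSpace X]
    {S : X → CTree} {z : X → Ph} {a : ℝ} (hS : Measurable S) (hz : Measurable z) :
    Measurable fun x => WF Φ ε T a L (S x) (z x) := by
  unfold WF
  refine Measurable.mul ?_ (measurable_ind (measurableSet_Hst hΦ hε (measurable_fs.comp hz) hS))
  refine (ENNReal.measurable_ofReal.comp ?_).const_mul _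
  exact Real.measurable_exp.comp ((hz.snd.norm.pow_const 2).const_mul _)

theorem gw_mul {b₁ : ℝ} (v : E3) : PB.gw b v =
    g1 b₁ v * ENNReal.ofReal (Real.exp ((b₁ - b) * ‖v‖ ^ 2)) := by
  unfold PB.gw g1
  rw [← ENNReal.ofReal_mul (Real.exp_pos _).le, ← Real.exp_add]
  congr 2
  ring

theorem measurable_exRW (h : GoodDatum f₀ κ₀) : Measurable fun S : CTree =>
    exsum S fun x => RW L hΦ hε f₀ t (rsrc Φ ε x) :=
  RM.measurable_exsum' (X := CTree) (T := fun S => S) measurable_id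
    (F := fun _ x => RW L hΦ hε f₀ t (rsrc Φ ε x))
    ((measurable_RW h).comp (RM.meas_rsrc hΦ hε measurable_snd))

/-- The exchange of the integrals. -/
theorem cr2p_le (h : GoodDatum f₀ κ₀) (htT : t ≤ T) (b₁ : ℝ) {I : CTree → Finset Src}
    (hI : ∀ S, I S ⊆ exl Φ ε S ∧ (S.depth ≤ L →
      exsum S (fun x => RW L hΦ hε f₀ t (rsrc Φ ε x)) ≤ 2 ^ L * RWs L hΦ hε f₀ t (I S))) :
    cr2p Φ ε L f₀ b t (RW L hΦ hε f₀ t) ≤
      ∫⁻ S, ∫⁻ z : Ph, g1 b₁ z.2 * (WF Φ ε T (b₁ - b) L S z * RWs L hΦ hε f₀ t (I S)) ∂volume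
        ∂(tree (GC.inten f₀ ε) L) := by
  classical
  have hfin : IsFiniteMeasure (inten f₀ ε) := isFiniteMeasure_inten h
  have hm : Measurable fun p : Ph × CTree => PB.gw b p.1.2 * (ind (hitF Φ ε t p.1 p.2) *
      exsum p.2 (fun x => RW L hΦ hε f₀ t (rsrc Φ ε x))) :=
    ((measurable_gw b).comp measurable_fst.snd).mul
      ((measurable_ind (measurableSet_hitF hΦ hε.ne' t)).mul
        ((measurable_exRW h).comp measurable_snd))
  unfold cr2p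
  have e1 : ∀ z : Ph, PB.gw b z.2 * ∫⁻ S in M.okT Φ ε t L, ind (hitF Φ ε t z S) *
      exsum S (fun x => RW L hΦ hε f₀ t (rsrc Φ ε x)) ∂(tree (GC.inten f₀ ε) L) =
      ∫⁻ S in M.okT Φ ε t L, PB.gw b z.2 * (ind (hitF Φ ε t z S) *
        exsum S (fun x => RW L hΦ hε f₀ t (rsrc Φ ε x))) ∂(tree (GC.inten f₀ ε) L) := by
    intro z
    rw [lintegral_const_mul' _ _ (by unfold PB.gw; exact ENNReal.ofReal_ne_top)]
  rw [lintegral_congr e1, lintegral_lintegral_swap hm.aemeasurable]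
  refine (setLIntegral_mono' (M.measurableSet_okT hΦ hε.ne' L) fun S hS => ?_).trans
    (setLIntegral_le_lintegral _ _)
  refine lintegral_mono_ae ?_
  filter_upwards [ae_hst (L := L) hε htT hS] with z hz
  have h1 := (hI S).2 hS.2.2
  unfold WF
  rw [gw_mul (b₁ := b₁), mul_assoc]
  refine mul_le_mul_right ?_ _
  calc ENNReal.ofReal (Real.exp ((b₁ - b) * ‖z.2‖ ^ 2)) * (ind (hitF Φ ε t z S) *
        exsum S (fun x => RW L hΦ hε f₀ t (rsrc Φ ε x)))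
      ≤ ENNReal.ofReal (Real.exp ((b₁ - b) * ‖z.2‖ ^ 2)) * (ind (Hst Φ ε T L (fs z) S) *
        (2 ^ L * RWs L hΦ hε f₀ t (I S))) := mul_le_mul_right (mul_le_mul' hz h1) _
    _ = _ := by ring

/-- The limit of the law of the free line. -/
theorem hit_lim (h : GoodDatum f₀ κ₀) (hΦ : IsPotential Φ) {b₁ : ℝ} (hb₁ : 0 < b₁)
    (hb : b₁ ≤ 2 * b) (hM₀ : 0 ≤ M₀) (hf : ∀ z, f₀ z ≤ M₀ * Real.exp (-b₁ * ‖z.2‖ ^ 2))
    (hM₁ : 0 ≤ M₁) (hmarg : ∀ v, ∫⁻ x, ENNReal.ofReal (f₀ (x, v)) ≤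
      ENNReal.ofReal (M₁ * Real.exp (-b₁ * ‖v‖ ^ 2))) (hT : 0 ≤ T) (L : ℕ) :
    ∃ Dl : ℝ → ℝ≥0∞, Tendsto Dl (𝓝[>] 0) (𝓝 0) ∧ ∀ (ε : ℝ) (hε : 0 < ε), ε ≤ 1 →
      ∀ t ∈ Icc 0 T, ∀ I : CTree → Finset Src, (∀ S, I S ⊆ exl Φ ε S) →
        ∫⁻ S, ∫⁻ z : Ph, g1 b₁ z.2 * (WF Φ ε T (b₁ - b) L S z * RWs L hΦ hε f₀ t (I S)) ∂volume
          ∂(tree (GC.inten f₀ ε) L) ≤ muE ε * Dl ε := by
  classical
  obtain ⟨c, hc⟩ : ∃ c : ℝ, c = max (b₁ - b) 0 := ⟨_, rfl⟩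
  have hc0 : 0 ≤ c := hc ▸ le_max_right _ _
  have hcb : c ≤ b₁ / 2 := by
    rw [hc]
    exact max_le (by linarith) (by linarith)
  have hbc : b₁ - b ≤ c := hc ▸ le_max_left _ _
  obtain ⟨Dl, hDl, h1⟩ := lines_lim h hΦ hb₁ hc0 hcb hM₀ hf hM₁ hmarg 1 1 L (2 ^ (L + 2)) 1
    (2 * 2 ^ (L + 2) + 3) hT (X := fun N => irrs hΦ T N 2)
    (irrFam_irrs hΦ h.meas hM₁ hmarg (by linarith) hT 2)
  refine ⟨fun ε => 2 ^ L * Dl ε, ?_, fun ε hε hε1 t ht I hI => ?_⟩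
  · have h2 := ENNReal.Tendsto.const_mul (a := 2 ^ L) hDl
      (Or.inr (ENNReal.pow_ne_top ENNReal.ofNat_ne_top))
    rwa [mul_zero] at h2
  have hμ0 : muE ε ≠ 0 := (ENNReal.ofReal_pos.2 (GC.mu_pos hε)).ne'
  have e3 : ∀ (S : Fin 1 → CTree) (l : Fin 1 → Ph), enB S l = enT (S 0) + ‖(l 0).2‖ ^ 2 := by
    intro S l
    unfold enB
    rw [Fin.sum_univ_one, Fin.sum_univ_one]
  have hlns : ∀ l : Fin 1 → Ph, lns (fun _ => 0) (fun _ => 0) l = fun j => fs (l j) :=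
    fun l => rfl
  have hne : ∀ (S : Fin 1 → CTree) (l : Fin 1 → Ph), WF Φ ε T (b₁ - b) L (S 0) (l 0) ≠ 0 →
      Hst Φ ε T L (fs (l 0)) (S 0) := by
    intro S l hW
    by_contra hcon
    exact hW (by unfold WF; rw [ind_of_not hcon, mul_zero])
  have h2 := h1 ε hε hε1 t ht.1 ht.2 (fun _ => 0) (fun _ => le_rfl) (fun _ => 0)
    (fun S l => WF Φ ε T (b₁ - b) L (S 0) (l 0))
    (measurable_WF hΦ hε ((measurable_pi_apply 0).comp measurable_fst)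
      ((measurable_pi_apply 0).comp measurable_snd)) (2 ^ L)
    (ENNReal.pow_ne_top ENNReal.ofNat_ne_top) (fun S l => ?_)
    (fun S l hW => by rw [hlns]; exact (hne S l hW).base rfl rfl)
    (fun S _ => exl Φ ε (S 0)) (fun S _ => I (S 0)) (fun _ _ => ∅)
    (RM.rs_exl hΦ hε ((measurable_pi_apply 0).comp measurable_fst)) (fun S l hW => ?_)
    (fun S l hW => ⟨?_, fun a ha => ?_⟩) (fun S l _ => ⟨hI _, Finset.empty_subset _⟩)
  · rw [pow_one, XT.lintegral_pi_one] at h2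
    have e1 : ∀ S : CTree, ∫⁻ l : Fin 1 → Ph, (∏ j, g1 b₁ (l j).2) *
        (WF Φ ε T (b₁ - b) L ((fun _ : Fin 1 => S) 0) (l 0) *
          ∫⁻ w, relW L hΦ hε (wF (wS (GC.pts w)) sgl (I ((fun _ : Fin 1 => S) 0)))
            (wF (wS (GC.pts w)) sgl ∅) t ∂(GC.PP f₀ ε)) ∂volume =
        ∫⁻ z : Ph, g1 b₁ z.2 * (WF Φ ε T (b₁ - b) L S z * RWs L hΦ hε f₀ t (I S)) ∂volume := by
      intro S
      rw [volume_pi, XT.lintegral_pi_one]
      refine lintegral_congr fun z => ?_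
      rw [Fin.prod_univ_one]
      rfl
    rw [lintegral_congr e1] at h2
    have h3 := mul_le_mul_right h2 (muE ε)⁻¹
    rw [← mul_assoc, ENNReal.inv_mul_cancel hμ0 muE_ne_top, one_mul] at h3
    refine h3.trans (le_of_eq ?_)
    calc (muE ε)⁻¹ * (2 ^ L * (muE ε ^ (1 + 1) * Dl ε)) =
          ((muE ε)⁻¹ * muE ε) * (muE ε * (2 ^ L * Dl ε)) := by ring
      _ = _ := by rw [ENNReal.inv_mul_cancel hμ0 muE_ne_top, one_mul]
  · unfold WF
    rw [e3]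
    calc 2 ^ L * ENNReal.ofReal (Real.exp ((b₁ - b) * ‖(l 0).2‖ ^ 2)) *
          ind (Hst Φ ε T L (fs (l 0)) (S 0))
        ≤ 2 ^ L * ENNReal.ofReal (Real.exp ((b₁ - b) * ‖(l 0).2‖ ^ 2)) * 1 :=
          mul_le_mul_right (ind_le_one _) _
      _ ≤ _ := by
        rw [mul_one]
        refine mul_le_mul_right (ENNReal.ofReal_le_ofReal (Real.exp_le_exp.2 ?_)) _
        have h5 := enT_nonneg (S 0)
        have h6 : 0 ≤ ‖(l 0).2‖ ^ 2 := by positivity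
        nlinarith [mul_le_mul_of_nonneg_right hbc h6, mul_nonneg hc0 h5]
  · have hH := hne S l hW
    rw [hlns]
    refine ⟨_, _, _, _, _, hH.kbase hΦ hε, hH.slab hΦ hε rfl rfl, hH.szB_le, fun a ha => ?_⟩
    refine hH.krs_mem hΦ hε ((mem_krs hH.ok).2 ?_)
    obtain ⟨x, hx, rfl⟩ := mem_exl.1 ha
    exact ⟨x, Or.inr hx, msrc_rho_exs hH.ok hx⟩
  · exact PL.card_outs_image_le (hne S l hW).depth (rsrc Φ ε) fun a ha => by
      obtain ⟨x, hx, rfl⟩ := mem_exl.1 ha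
      exact ⟨x, Or.inr hx, rfl⟩
  · obtain ⟨x, hx, rfl⟩ := mem_exl.1 ha
    rw [e3]
    have h5 : ‖(ln Φ ε x).2‖ ^ 2 ≤ enT (S 0) := ln_sq_le_enT_outs hΦ hε.ne' (Or.inr hx)
    have h6 : 0 ≤ ‖(l 0).2‖ ^ 2 := by positivity
    exact h5.trans (by linarith)

/-! ### A colliding pair -/

/-- The lines of the particles of a colliding pair. -/
def XPr (Φ : E3 → ℝ) (ε : ℝ) (x y : CTree) : Src → Src := XR Φ ε (XR Φ ε id x) y

theorem XPr_eq {x y z : CTree} (h : CTree.ok Φ ε (node x y)) (hz : z ∈ outs x ∪ outs y) :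
    XPr Φ ε x y z.root = rsrc Φ ε z := by
  unfold XPr
  rcases hz with hz | hz
  · rw [XR_of_notMem, XR_out h.1 hz]
    exact fun h1 => Set.disjoint_left.1 h.2.2.1 (outs_leaves hz z.root_mem_leaves) h1
  · rw [XR_out h.2.1 hz]

/-- **The base structure of a colliding pair.** -/
theorem kbase_pair [DecidableEq CTree] (hΦ : IsPotential Φ) (hε : 0 < ε) {x y : CTree}
    (h : CTree.ok Φ ε (node x y)) (hT : sig Φ ε (node x y) ≤ T) :
    KBase Φ ε T (partsF x ∪ partsF y) [(x, y, sig Φ ε (node x y))] {x.root, y.root}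
      (XPr Φ ε x y) := by
  obtain ⟨hF, -, hlast⟩ := fam_pair hΦ hε h hT
  refine ⟨hF, fun g hg => ?_, fun g hg h1 => ?_, fun τ hτ _ => ?_⟩
  · rw [List.mem_singleton.1 hg]
    exact Or.inl rfl
  · rw [List.mem_singleton.1 hg] at h1
    exact absurd (Or.inr rfl) h1
  · obtain ⟨z, hz, rfl⟩ := PL.exists_out_pair (PL.mem_lab_pair.1 hτ)
    refine ⟨z, hlast z hz, rfl, ?_, Or.inl ?_⟩
    · rw [XPr_eq h hz]; rfl
    · rw [XPr_eq h hz]; rfl

theorem slab_pair [DecidableEq CTree] (hΦ : IsPotential Φ) (hε : 0 < ε) {P : Fin 2 → CTree}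
    {l : Fin 0 → Src} (h : CTree.ok Φ ε (node (P 0) (P 1)))
    (hT : sig Φ ε (node (P 0) (P 1)) ≤ T) :
    SLab P l (partsF (P 0) ∪ partsF (P 1)) [(P 0, P 1, sig Φ ε (node (P 0) (P 1)))] 1
      {(P 0).root} := by
  obtain ⟨-, hJ, -⟩ := fam_pair hΦ hε h hT
  have h0 : (P 0).root ∈ IND.lab (partsF (P 0) ∪ partsF (P 1)) :=
    PL.mem_lab_pair.2 (Or.inl (P 0).root_mem_leaves)
  refine ⟨fun τ hτ => ?_, fun j τ hτ => ?_, fun j => j.elim0, fun r hr => ?_, fun τ hτ => ?_,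
    le_of_eq (Finset.card_singleton _), fun r _ => ?_⟩
  · rcases PL.mem_lab_pair.1 hτ with h1 | h1
    · exact Or.inl ⟨0, h1⟩
    · exact Or.inl ⟨1, h1⟩
  · refine Finset.mem_coe.2 (PL.mem_lab_pair.2 ?_)
    revert hτ
    fin_cases j
    · exact fun h1 => Or.inl h1
    · exact fun h1 => Or.inr h1
  · rw [Finset.mem_singleton.1 hr]
    exact h0
  · exact ⟨_, Finset.mem_singleton_self _, hJ τ hτ _ h0⟩
  · rintro ⟨j, -⟩
    exact j.elim0

theorem base_pair {P : Fin 2 → CTree} {l : Fin 0 → Src}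
    (h : CTree.ok Φ ε (node (P 0) (P 1))) : Base Φ ε P l := by
  refine ⟨fun j => ?_, fun i j hij => ?_, fun i => i.elim0, fun _ j => j.elim0⟩
  · fin_cases j
    · exact h.1
    · exact h.2.1
  · have h1 : Disjoint (P 0).leaves (P 1).leaves := h.2.2.1
    fin_cases i <;> fin_cases j
    · exact absurd rfl hij
    · exact h1
    · exact h1.symm
    · exact absurd rfl hij

theorem szB_pair_le [DecidableEq CTree] {x y : CTree} (hd : (node x y).depth ≤ L) {s : ℝ} :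
    szB (partsF x ∪ partsF y) [(x, y, s)] ≤ 2 * 2 ^ (L + 2) + 1 := by
  unfold szB
  have h1 := card_lab_le (partsF x ∪ partsF y)
  have h2 := card_nl_le (partsF x ∪ partsF y)
  have h3 := PL.card_union_partsF_le hd
  have h4 : [(x, y, s)].length = 1 := rfl
  omega

theorem hasBase_pair (hΦ : IsPotential Φ) (hε : 0 < ε) {P : Fin 2 → CTree}
    {l : Fin 0 → Src} (h : PL.OKP Φ ε T L (P 0) (P 1)) :
    HasBase Φ ε T L 1 (2 * 2 ^ (L + 2) + 1) P l (exl Φ ε (P 0)) := by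
  classical
  obtain ⟨hok, hd, hT⟩ := h
  refine ⟨_, _, _, _, _, kbase_pair hΦ hε hok hT, slab_pair hΦ hε hok hT, szB_pair_le hd,
    fun a ha => ?_⟩
  obtain ⟨z, hz, rfl⟩ := mem_exl.1 ha
  have hzo : z ∈ outs (P 0) := Or.inr hz
  have h1 : z.root ∈ (P 0).leaves := outs_leaves hzo z.root_mem_leaves
  refine ⟨⟨M.ext_nonneg hΦ hε (outs_ok hΦ hok.1 hzo),
    (outs_depth hzo).trans (PL.depth_left_le hd)⟩, z.root, PL.mem_lab_pair.2 (Or.inl h1), ?_,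
    XPr_eq hok (Or.inl hzo)⟩
  rintro (h2 | h2)
  · exact exs_root_ne hok.1 hz h2
  · exact Set.disjoint_left.1 hok.2.2.1 h1 (h2 ▸ (P 1).root_mem_leaves)

theorem lintegral_pi_two {X : Type*} [MeasurableSpace X] (μ : Measure X) [SigmaFinite μ]
    {f : X → X → ℝ≥0∞} (hf : Measurable fun p : X × X => f p.1 p.2) :
    ∫⁻ x, ∫⁻ y, f x y ∂μ ∂μ = ∫⁻ P, f (P 0) (P 1) ∂(Measure.pi fun _ : Fin 2 => μ) := by
  have h := (measurePreserving_piFinTwo fun _ : Fin 2 => μ).lintegral_comp hf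
  rw [lintegral_prod _ hf.aemeasurable] at h
  exact h.symm

/-- The weight of the pair. -/
theorem wC_le_exp (hΦ : IsPotential Φ) (hε : 0 < ε) {c : ℝ} (hc : 0 < c) (x y : CTree) :
    wC Φ ε L T x y ≤ ENNReal.ofReal (1 + 1 / c) *
      ENNReal.ofReal (Real.exp (c * (enT x + enT y))) := by
  refine wC_le_wqP.trans ?_
  unfold wqP
  rw [← ENNReal.ofReal_mul (by positivity)]
  refine ENNReal.ofReal_le_ofReal ?_
  have h1 : ‖(ln Φ ε x).2‖ ^ 2 ≤ enT x := ln_sq_le_enT hΦ hε.ne' x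
  have h2 : ‖(ln Φ ε y).2‖ ^ 2 ≤ enT y := ln_sq_le_enT hΦ hε.ne' y
  have h3 := XT.one_add_le_exp hc (enT x + enT y) (add_nonneg (enT_nonneg x) (enT_nonneg y))
  linarith

/-- The limit of the law of the colliding pair. -/
theorem pair_lim (h : GoodDatum f₀ κ₀) (hΦ : IsPotential Φ) (hb : 0 < b)
    (hM₀ : 0 ≤ M₀) (hf : ∀ z, f₀ z ≤ M₀ * Real.exp (-b * ‖z.2‖ ^ 2))
    (hM₁ : 0 ≤ M₁) (hmarg : ∀ v, ∫⁻ x, ENNReal.ofReal (f₀ (x, v)) ≤
      ENNReal.ofReal (M₁ * Real.exp (-b * ‖v‖ ^ 2))) (hT : 0 ≤ T) (L : ℕ) :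
    ∃ Dl : ℝ → ℝ≥0∞, Tendsto Dl (𝓝[>] 0) (𝓝 0) ∧ ∀ (ε : ℝ) (hε : 0 < ε), ε ≤ 1 →
      ∀ t ∈ Icc 0 T, ∀ I : CTree → Finset Src, (∀ S, I S ⊆ exl Φ ε S) →
        ∫⁻ P : Fin 2 → CTree, 2 ^ L * wC Φ ε L T (P 0) (P 1) * RWs L hΦ hε f₀ t (I (P 0))
          ∂(Measure.pi fun _ : Fin 2 => tree (GC.inten f₀ ε) L) ≤ muE ε ^ 2 * Dl ε := by
  classical
  obtain ⟨Dl, hDl, h1⟩ := lines_lim h hΦ hb (c := b / 4) (by positivity) (by linarith) hM₀ hf hM₁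
    hmarg 2 0 L (2 ^ (L + 2)) 1 (2 * 2 ^ (L + 2) + 1) hT (X := fun N => irrs hΦ T N 2)
    (irrFam_irrs hΦ h.meas hM₁ hmarg (by linarith) hT 2)
  have hC : (2 : ℝ≥0∞) ^ L * ENNReal.ofReal (1 + 1 / (b / 4)) ≠ ∞ :=
    ENNReal.mul_ne_top (ENNReal.pow_ne_top ENNReal.ofNat_ne_top) ENNReal.ofReal_ne_top
  refine ⟨fun ε => 2 ^ L * ENNReal.ofReal (1 + 1 / (b / 4)) * Dl ε, ?_,
    fun ε hε hε1 t ht I hI => ?_⟩
  · have h2 := ENNReal.Tendsto.const_mul hDl (Or.inr hC)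
    rwa [mul_zero] at h2
  have e3 : ∀ (P : Fin 2 → CTree) (l : Fin 0 → Ph), enB P l = enT (P 0) + enT (P 1) := by
    intro P l
    unfold enB
    rw [Fin.sum_univ_two, Fin.sum_univ_zero, add_zero]
  have hne : ∀ P : Fin 2 → CTree, 2 ^ L * wC Φ ε L T (P 0) (P 1) ≠ 0 →
      PL.OKP Φ ε T L (P 0) (P 1) := by
    intro P hW
    by_contra hcon
    refine hW ?_
    unfold wC
    rw [ind_of_not (show ¬(CTree.ok Φ ε (node (P 0) (P 1)) ∧ (node (P 0) (P 1)).depth ≤ L ∧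
      sig Φ ε (node (P 0) (P 1)) ≤ T) from hcon), mul_zero, mul_zero]
  have h2 := h1 ε hε hε1 t ht.1 ht.2 (fun _ => 0) (fun _ => le_rfl) (fun _ => 0)
    (fun P _ => 2 ^ L * wC Φ ε L T (P 0) (P 1))
    ((measurable_wC hΦ hε ((measurable_pi_apply 0).comp measurable_fst)
      ((measurable_pi_apply 1).comp measurable_fst)).const_mul _)
    (2 ^ L * ENNReal.ofReal (1 + 1 / (b / 4))) hC (fun P l => ?_)
    (fun P l hW => base_pair (hne P hW).1)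
    (fun P _ => exl Φ ε (P 0)) (fun P _ => I (P 0)) (fun _ _ => ∅)
    (RM.rs_exl hΦ hε ((measurable_pi_apply 0).comp measurable_fst))
    (fun P l hW => hasBase_pair hΦ hε (hne P hW))
    (fun P l hW => ⟨?_, fun a ha => ?_⟩) (fun P l _ => ⟨hI _, Finset.empty_subset _⟩)
  · rw [pow_zero, one_mul] at h2
    refine le_trans (le_of_eq ?_) (h2.trans (le_of_eq ?_))
    · refine lintegral_congr fun P => ?_
      rw [XT.lintegral_fin_zero, Fin.prod_univ_zero, one_mul]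
      rfl
    · ring
  · rw [e3, mul_assoc]
    exact mul_le_mul_right (wC_le_exp hΦ hε (by positivity) _ _) _
  · exact PL.card_outs_image_le (PL.depth_left_le (hne P hW).2.1) (rsrc Φ ε) fun a ha => by
      obtain ⟨x, hx, rfl⟩ := mem_exl.1 ha
      exact ⟨x, Or.inr hx, rfl⟩
  · obtain ⟨x, hx, rfl⟩ := mem_exl.1 ha
    rw [e3]
    have h5 : ‖(ln Φ ε x).2‖ ^ 2 ≤ enT (P 0) := ln_sq_le_enT_outs hΦ hε.ne' (Or.inr hx)
    have h6 := enT_nonneg (P 1)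
    exact h5.trans (by linarith)

/-! ### The crude functionals -/

theorem cr2p_mono {R R' : Src → ℝ≥0∞} (h : ∀ e, R e ≤ R' e) :
    cr2p Φ ε L f₀ b t R ≤ cr2p Φ ε L f₀ b t R' :=
  lintegral_mono fun _ => mul_le_mul_right (lintegral_mono fun _ =>
    mul_le_mul_right (exsum_mono fun _ _ => h _) _) _

theorem cr2p_const_mul {k : ℝ≥0∞} (hk : k ≠ ∞) (R : Src → ℝ≥0∞) :
    cr2p Φ ε L f₀ b t (fun e => k * R e) = k * cr2p Φ ε L f₀ b t R := by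
  unfold cr2p
  rw [← lintegral_const_mul' _ _ hk]
  refine lintegral_congr fun z => ?_
  have e1 : ∀ S : CTree, ind (hitF Φ ε t z S) * exsum S (fun x => k * R (rsrc Φ ε x)) =
      k * (ind (hitF Φ ε t z S) * exsum S (fun x => R (rsrc Φ ε x))) := by
    intro S
    rw [EX.exsum_mul_left]
    ring
  rw [lintegral_congr e1, lintegral_const_mul' _ _ hk]
  ring

theorem cr3c_mono {R R' : Src → ℝ≥0∞} (h : ∀ e, R e ≤ R' e) :
    cr3c Φ ε L f₀ t R ≤ cr3c Φ ε L f₀ t R' :=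
  mul_le_mul_right (lintegral_mono fun _ => lintegral_mono fun _ =>
    mul_le_mul_right (exsum_mono fun _ _ => h _) _) _

theorem cr3c_const_mul {k : ℝ≥0∞} (hk : k ≠ ∞) (R : Src → ℝ≥0∞) :
    cr3c Φ ε L f₀ t (fun e => k * R e) = k * cr3c Φ ε L f₀ t R := by
  unfold cr3c cr3
  have e1 : ∀ x y : CTree, wC Φ ε L t x y * exsum x (fun e => k * R (rsrc Φ ε e)) =
      k * (wC Φ ε L t x y * exsum x (fun e => R (rsrc Φ ε e))) := by
    intro x y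
    rw [EX.exsum_mul_left]
    ring
  simp only [e1]
  have e2 : ∀ x : CTree, ∫⁻ y in M.okT Φ ε t L, k * (wC Φ ε L t x y *
      exsum x (fun e => R (rsrc Φ ε e))) ∂(tree (GC.inten f₀ ε) L) =
      k * ∫⁻ y in M.okT Φ ε t L, wC Φ ε L t x y *
        exsum x (fun e => R (rsrc Φ ε e)) ∂(tree (GC.inten f₀ ε) L) := fun x =>
    lintegral_const_mul' _ _ hk
  rw [lintegral_congr e2, lintegral_const_mul' _ _ hk]
  ring

theorem cr3c_le (h : GoodDatum f₀ κ₀) (htT : t ≤ T) {I : CTree → Finset Src}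
    (hI : ∀ S, I S ⊆ exl Φ ε S ∧ (S.depth ≤ L →
      exsum S (fun x => RW L hΦ hε f₀ t (rsrc Φ ε x)) ≤ 2 ^ L * RWs L hΦ hε f₀ t (I S))) :
    cr3c Φ ε L f₀ t (RW L hΦ hε f₀ t) ≤ (muE ε)⁻¹ *
      ∫⁻ P : Fin 2 → CTree, 2 ^ L * wC Φ ε L T (P 0) (P 1) * RWs L hΦ hε f₀ t (I (P 0))
        ∂(Measure.pi fun _ : Fin 2 => tree (GC.inten f₀ ε) L) := by
  have hfin : IsFiniteMeasure (inten f₀ ε) := isFiniteMeasure_inten h
  have hm : Measurable fun p : CTree × CTree => wC Φ ε L T p.1 p.2 *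
      exsum p.1 (fun x => RW L hΦ hε f₀ t (rsrc Φ ε x)) :=
    (measurable_wC hΦ hε measurable_fst measurable_snd).mul
      ((measurable_exRW h).comp measurable_fst)
  unfold cr3c cr3
  refine mul_le_mul_right ?_ _
  calc _ ≤ ∫⁻ x, ∫⁻ y, wC Φ ε L T x y * exsum x (fun x => RW L hΦ hε f₀ t (rsrc Φ ε x))
        ∂(tree (GC.inten f₀ ε) L) ∂(tree (GC.inten f₀ ε) L) := by
        refine (setLIntegral_le_lintegral _ _).trans (lintegral_mono fun x => ?_)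
        refine (setLIntegral_le_lintegral _ _).trans (lintegral_mono fun y => ?_)
        exact mul_le_mul_left (wC_mono htT) _
    _ = ∫⁻ P : Fin 2 → CTree, wC Φ ε L T (P 0) (P 1) *
        exsum (P 0) (fun x => RW L hΦ hε f₀ t (rsrc Φ ε x))
        ∂(Measure.pi fun _ : Fin 2 => tree (GC.inten f₀ ε) L) := lintegral_pi_two _ hm
    _ ≤ _ := by
      refine lintegral_mono fun P => ?_
      by_cases hd : (node (P 0) (P 1)).depth ≤ L
      · calc _ ≤ wC Φ ε L T (P 0) (P 1) * (2 ^ L * RWs L hΦ hε f₀ t (I (P 0))) :=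
              mul_le_mul_right ((hI (P 0)).2 (PL.depth_left_le hd)) _
          _ = _ := by ring
      · unfold wC
        rw [ind_of_not fun h2 => hd h2.2.1, mul_zero, zero_mul]
        exact zero_le

theorem inv_mul_mu (hθ : 0 < θ) (hε : 0 < ε) (x : ℝ≥0∞) :
    (ENNReal.ofReal (θ * mu ε))⁻¹ * (muE ε * x) = (ENNReal.ofReal θ)⁻¹ * x := by
  have hμ0 : muE ε ≠ 0 := (ENNReal.ofReal_pos.2 (GC.mu_pos hε)).ne'
  rw [ENNReal.ofReal_mul hθ.le, ENNReal.mul_inv (Or.inr ENNReal.ofReal_ne_top)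
    (Or.inl ENNReal.ofReal_ne_top)]
  change (ENNReal.ofReal θ)⁻¹ * (muE ε)⁻¹ * (muE ε * x) = _
  calc (ENNReal.ofReal θ)⁻¹ * (muE ε)⁻¹ * (muE ε * x) =
        (ENNReal.ofReal θ)⁻¹ * (((muE ε)⁻¹ * muE ε) * x) := by ring
    _ = _ := by rw [ENNReal.inv_mul_cancel hμ0 muE_ne_top, one_mul]

theorem exp_min_le {v : E3} (hM₀ : 0 ≤ M₀) {b₁ : ℝ} (h : b₁ ≤ b₀) :
    M₀ * Real.exp (-b₀ * ‖v‖ ^ 2) ≤ M₀ * Real.exp (-b₁ * ‖v‖ ^ 2) := by
  refine mul_le_mul_of_nonneg_left (Real.exp_le_exp.2 ?_) hM₀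
  have h1 : 0 ≤ ‖v‖ ^ 2 := by positivity
  nlinarith

/-- The small constant. -/
theorem ev_small {Dl : ℝ → ℝ≥0∞} (hDl : Tendsto Dl (𝓝[>] 0) (𝓝 0)) (hθ : 0 < θ) {ρ : ℝ}
    (hρ : 0 < ρ) : ∀ᶠ ε in 𝓝[>] (0 : ℝ), ε ≤ 1 ∧
      (ENNReal.ofReal θ)⁻¹ * Dl ε ≤ ENNReal.ofReal ρ := by
  have h1 : (ENNReal.ofReal θ)⁻¹ ≠ ∞ := ENNReal.inv_ne_top.2 (ENNReal.ofReal_pos.2 hθ).ne'
  have h2 := ENNReal.Tendsto.const_mul hDl (Or.inr h1)
  rw [mul_zero] at h2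
  have h3 := (tendsto_order.1 h2).2 (ENNReal.ofReal ρ) (ENNReal.ofReal_pos.2 hρ)
  have h4 : ∀ᶠ ε in 𝓝[>] (0 : ℝ), ε < 1 :=
    eventually_nhdsWithin_of_eventually_nhds (eventually_lt_nhds one_pos)
  filter_upwards [h3, h4] with ε h5 h6
  exact ⟨h6.le, h5.le⟩

/-- **The crude functional of an exhaust and the hit of a free line**, for `rE6`. -/
theorem cr2p_lim (h : GoodDatum f₀ κ₀) (hΦ : IsPotential Φ) (hb₀ : 0 < b₀) (hb : 0 < b)
    (hM₀ : 0 ≤ M₀) (hf : ∀ z, f₀ z ≤ M₀ * Real.exp (-b₀ * ‖z.2‖ ^ 2)) (hM₁ : 0 ≤ M₁)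
    (hmarg : ∀ v, ∫⁻ x, ENNReal.ofReal (f₀ (x, v)) ≤
      ENNReal.ofReal (M₁ * Real.exp (-b₀ * ‖v‖ ^ 2))) (hT : 0 ≤ T) (L : ℕ) (hθ : 0 < θ) {ρ : ℝ}
    (hρ : 0 < ρ) : ∀ᶠ ε in 𝓝[>] (0 : ℝ), ∀ hε : 0 < ε, ∀ t ∈ Icc 0 T, ∀ η : ℝ,
      cr2p Φ ε L f₀ b t (rE6 L hΦ hε f₀ η θ t) ≤ ENNReal.ofReal ρ := by
  obtain ⟨b₁, hb₁⟩ : ∃ b₁ : ℝ, b₁ = min b₀ (2 * b) := ⟨_, rfl⟩
  have h1 : 0 < b₁ := by rw [hb₁]; exact lt_min hb₀ (by positivity)
  have h2 : b₁ ≤ 2 * b := hb₁ ▸ min_le_right _ _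
  have h3 : b₁ ≤ b₀ := hb₁ ▸ min_le_left _ _
  obtain ⟨Dl, hDl, h4⟩ := hit_lim (b := b) h hΦ h1 h2 hM₀
    (fun z => (hf z).trans (exp_min_le hM₀ h3)) hM₁
    (fun v => (hmarg v).trans (ENNReal.ofReal_le_ofReal (exp_min_le hM₁ h3))) hT L
  filter_upwards [ev_small hDl hθ hρ] with ε h5 hε t ht η
  obtain ⟨I, hI⟩ := exists_max L hΦ hε f₀ t
  have h6 : (ENNReal.ofReal (θ * mu ε))⁻¹ ≠ ∞ :=
    ENNReal.inv_ne_top.2 (ENNReal.ofReal_pos.2 (mul_pos hθ (GC.mu_pos hε))).ne'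
  calc cr2p Φ ε L f₀ b t (rE6 L hΦ hε f₀ η θ t)
      ≤ cr2p Φ ε L f₀ b t (fun e => (ENNReal.ofReal (θ * mu ε))⁻¹ * RW L hΦ hε f₀ t e) :=
        cr2p_mono fun e => rE6_le hθ e
    _ = (ENNReal.ofReal (θ * mu ε))⁻¹ * cr2p Φ ε L f₀ b t (RW L hΦ hε f₀ t) :=
        cr2p_const_mul h6 _
    _ ≤ (ENNReal.ofReal (θ * mu ε))⁻¹ * (muE ε * Dl ε) := mul_le_mul_right
        ((cr2p_le h ht.2 b₁ hI).trans (h4 ε hε h5.1 t ht I fun S => (hI S).1)) _
    _ = (ENNReal.ofReal θ)⁻¹ * Dl ε := inv_mul_mu hθ hε _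
    _ ≤ _ := h5.2

/-- **The crude functional of an exhaust and a colliding pair**, for `rE6`. -/
theorem cr3c_lim (h : GoodDatum f₀ κ₀) (hΦ : IsPotential Φ) (hb : 0 < b)
    (hM₀ : 0 ≤ M₀) (hf : ∀ z, f₀ z ≤ M₀ * Real.exp (-b * ‖z.2‖ ^ 2)) (hM₁ : 0 ≤ M₁)
    (hmarg : ∀ v, ∫⁻ x, ENNReal.ofReal (f₀ (x, v)) ≤
      ENNReal.ofReal (M₁ * Real.exp (-b * ‖v‖ ^ 2))) (hT : 0 ≤ T) (L : ℕ) (hθ : 0 < θ) {ρ : ℝ}
    (hρ : 0 < ρ) : ∀ᶠ ε in 𝓝[>] (0 : ℝ), ∀ hε : 0 < ε, ∀ t ∈ Icc 0 T, ∀ η : ℝ,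
      cr3c Φ ε L f₀ t (rE6 L hΦ hε f₀ η θ t) ≤ ENNReal.ofReal ρ := by
  obtain ⟨Dl, hDl, h4⟩ := pair_lim h hΦ hb hM₀ hf hM₁ hmarg hT L
  filter_upwards [ev_small hDl hθ hρ] with ε h5 hε t ht η
  obtain ⟨I, hI⟩ := exists_max L hΦ hε f₀ t
  have hμ0 : muE ε ≠ 0 := (ENNReal.ofReal_pos.2 (GC.mu_pos hε)).ne'
  have h6 : (ENNReal.ofReal (θ * mu ε))⁻¹ ≠ ∞ :=
    ENNReal.inv_ne_top.2 (ENNReal.ofReal_pos.2 (mul_pos hθ (GC.mu_pos hε))).ne'
  have h7 : (muE ε)⁻¹ * (muE ε ^ 2 * Dl ε) = muE ε * Dl ε := by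
    calc (muE ε)⁻¹ * (muE ε ^ 2 * Dl ε) = ((muE ε)⁻¹ * muE ε) * (muE ε * Dl ε) := by ring
      _ = _ := by rw [ENNReal.inv_mul_cancel hμ0 muE_ne_top, one_mul]
  calc cr3c Φ ε L f₀ t (rE6 L hΦ hε f₀ η θ t)
      ≤ cr3c Φ ε L f₀ t (fun e => (ENNReal.ofReal (θ * mu ε))⁻¹ * RW L hΦ hε f₀ t e) :=
        cr3c_mono fun e => rE6_le hθ e
    _ = (ENNReal.ofReal (θ * mu ε))⁻¹ * cr3c Φ ε L f₀ t (RW L hΦ hε f₀ t) :=
        cr3c_const_mul h6 _
    _ ≤ (ENNReal.ofReal (θ * mu ε))⁻¹ * ((muE ε)⁻¹ * (muE ε ^ 2 * Dl ε)) := mul_le_mul_right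
        ((cr3c_le h ht.2 hI).trans (mul_le_mul_right
          (h4 ε hε h5.1 t ht I fun S => (hI S).1) _)) _
    _ = (ENNReal.ofReal θ)⁻¹ * Dl ε := by rw [h7, inv_mul_mu hθ hε]
    _ ≤ _ := h5.2

end Vale.Agent.P119.PB.RE
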