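import Vale.Agent.P119.PB.Lam6c

/-!
# P119, block PROB: second events, the exceptional pairs (`helper178`, after an idea of `helper228`)

`B6`: the pairs `(e, m)` for which the exceptional terms are larger than `δ` times the probability
that `e` touches. On the complement the exceptional terms are bounded by `δ tE6` (`lam_gT6_leB`); on
`B6` the probability of the second events is bounded by `tE6 e ≤ δ⁻¹ ∑ KIt j E6` (`gT6_le_of_mem`).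
-/

open MeasureTheory Filter Topology Set ProbabilityTheory
open scoped ENNReal NNReal

noncomputable section

namespace Vale.Agent.P119.PB

open M CTree KU FB RB AU FL TL

variable {Φ : E3 → ℝ} {ε : ℝ} {L : ℕ} {hΦ : IsPotential Φ} {hε : 0 < ε} {f₀ : Ph → ℝ}
  {κ b Tm t t' η η' w θ : ℝ} {e m : Src} {lam : Measure (Src × Src)} [SFinite lam]

/-- The sum of the exceptional terms of the iteration. -/
def XJ (L : ℕ) (hΦ : IsPotential Φ) (hε : 0 < ε) (f₀ : Ph → ℝ) (b : ℝ) (a : ℕ → ℝ≥0∞)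
    (η θ t : ℝ) (J : ℕ) (e m : Src) : ℝ≥0∞ :=
  ∑ j ∈ Finset.range J, KIt Φ ε b t a j (E6 L hΦ hε f₀ η θ t e) m

/-- **The exceptional pairs.** -/
def BX (L : ℕ) (hΦ : IsPotential Φ) (hε : 0 < ε) (f₀ : Ph → ℝ) (b : ℝ) (a : ℕ → ℝ≥0∞)
    (η θ t : ℝ) (J : ℕ) (δ : ℝ≥0∞) : Set (Src × Src) :=
  {p | δ * tE6 L hΦ hε f₀ η t p.1 < XJ L hΦ hε f₀ b a η θ t J p.1 p.2}

theorem measurable_XJ (h₀ : GoodDatum f₀ κ) {a : ℕ → ℝ≥0∞} {J : ℕ} :
    Measurable fun p : Src × Src => XJ L hΦ hε f₀ b a η θ t J p.1 p.2 :=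
  Finset.measurable_sum _ fun j _ => measurable_KIt_E6 h₀ j

theorem measurable_tE6' (h₀ : GoodDatum f₀ κ) : Measurable (tE6 L hΦ hε f₀ η t) := by
  have := GC.isProbability_PP (ε := ε) h₀
  have hT : Measurable fun q : Src × GC.Conf Ph =>
      ind (TE L hΦ hε η t (wS (GC.pts q.2)) q.1) :=
    measurable_ind (measurableSet_TE (MM.RS.comp RM.rs_conf measurable_snd) measurable_const
      measurable_const measurable_fst)
  exact hT.lintegral_prod_right'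

theorem measurableSet_BX (h₀ : GoodDatum f₀ κ) {a : ℕ → ℝ≥0∞} {J : ℕ} {δ : ℝ≥0∞} :
    MeasurableSet (BX L hΦ hε f₀ b a η θ t J δ) :=
  measurableSet_lt (((measurable_tE6' h₀).comp measurable_fst).const_mul _) (measurable_XJ h₀)

/-- On the exceptional pairs. -/
theorem tE6_le_of_mem {a : ℕ → ℝ≥0∞} {J : ℕ} {δ : ℝ≥0∞} (hδ : δ ≠ 0) (hδ' : δ ≠ ∞)
    (h : (e, m) ∈ BX L hΦ hε f₀ b a η θ t J δ) :
    tE6 L hΦ hε f₀ η t e ≤ δ⁻¹ * XJ L hΦ hε f₀ b a η θ t J e m := by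
  have h1 : δ * tE6 L hΦ hε f₀ η t e < XJ L hΦ hε f₀ b a η θ t J e m := h
  calc tE6 L hΦ hε f₀ η t e = δ⁻¹ * (δ * tE6 L hΦ hε f₀ η t e) := by
        rw [← mul_assoc, ENNReal.inv_mul_cancel hδ hδ', one_mul]
    _ ≤ _ := mul_le_mul' le_rfl h1.le

theorem gT6_le_of_mem (ht : 0 ≤ t) (hη : 0 < η) (hηη : η ≤ η') {a : ℕ → ℝ≥0∞} {J : ℕ}
    {δ : ℝ≥0∞} (hδ : δ ≠ 0) (hδ' : δ ≠ ∞) (h : (e, m) ∈ BX L hΦ hε f₀ b a η' θ t J δ) :
    gT6 L hΦ hε f₀ η t e m ≤ δ⁻¹ * XJ L hΦ hε f₀ b a η' θ t J e m :=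
  (gT6_le_tE6.trans (tE6_mono hη hηη ht)).trans (tE6_le_of_mem hδ hδ' h)

/-! ### The bound off the exceptional pairs -/

/-- **The bound of the second events off the exceptional pairs**: main terms, remainder, too deep
trees, atypical part, and `δ` times the probability that `e` touches. -/
def Psi6 (L : ℕ) (hΦ : IsPotential Φ) (hε : 0 < ε) (f₀ : Ph → ℝ) (b : ℝ) (a : ℕ → ℝ≥0∞)
    (ν : GC.Conf Ph → Measure Src) (A : ℝ≥0∞) (η t w t' : ℝ) (J : ℕ) (δ : ℝ≥0∞) (u : ℝ)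
    (e m : Src) : ℝ≥0∞ :=
  (∑ j ∈ Finset.range J, (∑' n, a n) ^ j *
    Gc hΦ hε.ne' b t' j (F6 L hΦ hε f₀ b a η t w u e) m.1 m.2.1) +
  (∑' n, a n) ^ J * Gc hΦ hε.ne' b t' J (fun _ _ => tE6 L hΦ hε f₀ η t e) m.1 m.2.1 +
  A ^ m.2.2 * (A ^ L)⁻¹ * (∑ j ∈ Finset.range J, (A * (∑' n, a n + ∑' n, a n * A ^ n)) ^ j *
    Gc hΦ hε.ne' b t' j (FA f₀ Φ ε L t A) m.1 m.2.1) +
  5 * (∑ j ∈ Finset.range J, (∑' n, a n) ^ j *
    Gc hΦ hε.ne' b t' j (atyL (GC.PP f₀ ε) ν ε t) m.1 m.2.1) +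
  δ * tE6 L hΦ hε f₀ η t e

/-- Off the exceptional pairs. -/
theorem gT6_le_Psi6 (h₀ : GoodDatum f₀ κ) (ht : 0 ≤ t) (htT : t ≤ Tm) (hη : 0 < η)
    (hηη : η < η') (hw : t ≤ w) (he0 : 0 ≤ e.1) (hed : e.2.2 ≤ L) (hm0 : 0 ≤ m.1)
    {α : ℕ → ℝ≥0∞} {ν : Kernel (GC.Conf Ph) Src} [IsSFiniteKernel ν]
    (hcap : CapI Φ ε L f₀ b Tm α fun c => ν c) {J : ℕ} (hJ : 0 < J) (htt : t < t')
    {A : ℝ≥0∞} (hA : 1 ≤ A) (hA' : A ≠ ∞) {a : ℕ → ℝ≥0∞}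
    (ha : a = fun n => α n * ENNReal.ofReal (1 + Tm)) {δ : ℝ≥0∞}
    (hB : (e, m) ∉ BX L hΦ hε f₀ b a η' ((η' - η) / J) t J δ) (u : ℝ) :
    gT6 L hΦ hε f₀ η t e m ≤
      Psi6 L hΦ hε f₀ b a (fun c => ν c) A η' t w t' J δ u e m := by
  have h1 : XJ L hΦ hε f₀ b a η' ((η' - η) / J) t J e m ≤ δ * tE6 L hΦ hε f₀ η' t e :=
    not_lt.1 hB
  exact (gT6_split (u := u) h₀ ht htT hη hηη hw he0 hed hcap hJ htt hA hA' ha hm0).trans
    (add_le_add le_rfl h1)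

/-- The iterates are antitone in the birth, for nonnegative births. -/
theorem Gc_anti_nonneg (hΦ : IsPotential Φ) (hε : ε ≠ 0) (b t' : ℝ) (j : ℕ)
    {F : ℝ → Ph → ℝ≥0∞} (hF : ∀ s s' l, 0 ≤ s → s ≤ s' → F s' l ≤ F s l) {s s' : ℝ} (l : Ph)
    (hs : 0 ≤ s) (hss : s ≤ s') : Gc hΦ hε b t' j F s' l ≤ Gc hΦ hε b t' j F s l := by
  have h1 : ∀ r, 0 ≤ r → Gc hΦ hε b t' j F r l = Gc hΦ hε b t' j (fun s l => F (max s 0) l) r l :=
    fun r hr => Gc_congr_nonneg hΦ hε b t' j (F := F) (F' := fun s l => F (max s 0) l)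
      (fun s hs l => by rw [max_eq_left hs]) hr l
  rw [h1 s hs, h1 s' (hs.trans hss)]
  exact Gc_anti hΦ hε b t' j (fun s s' l h => hF _ _ l (le_max_right _ _)
    (max_le_max_right 0 h)) s s' l hss

/-- The bound is antitone in the birth of `m`. -/
theorem Psi6_anti (hη : 0 < η) (ht : 0 ≤ t) (hw : t ≤ w) {a : ℕ → ℝ≥0∞}
    {ν : GC.Conf Ph → Measure Src} {A : ℝ≥0∞} {J : ℕ} {δ : ℝ≥0∞} {u s s' : ℝ} {l : Ph} {n : ℕ}
    (hs : 0 ≤ s) (hss : s ≤ s') :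
    Psi6 L hΦ hε f₀ b a ν A η t w t' J δ u e (s', l, n) ≤
      Psi6 L hΦ hε f₀ b a ν A η t w t' J δ u e (s, l, n) := by
  unfold Psi6
  refine add_le_add (add_le_add (add_le_add (add_le_add ?_ ?_) ?_) ?_) le_rfl
  · exact Finset.sum_le_sum fun j _ => mul_le_mul' le_rfl
      (Gc_anti_nonneg hΦ hε.ne' b t' j (fun s s' l h0 h => F6_anti hη ht hw h0 h l) l hs hss)
  · exact mul_le_mul' le_rfl (Gc_anti hΦ hε.ne' b t' J (fun _ _ _ _ => le_rfl) s s' l hss)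
  · exact mul_le_mul' le_rfl (Finset.sum_le_sum fun j _ => mul_le_mul' le_rfl
      (Gc_anti hΦ hε.ne' b t' j (fun s s' l h => FA_anti l h) s s' l hss))
  · exact mul_le_mul' le_rfl (Finset.sum_le_sum fun j _ => mul_le_mul' le_rfl
      (Gc_anti hΦ hε.ne' b t' j (fun s s' l h => atyL_anti h l) s s' l hss))

/-- **The bound, integrated over a law of the pairs** (any law with `HitLam`). -/
theorem lam_Psi6_le (h₀ : GoodDatum f₀ κ) {ν : Kernel (GC.Conf Ph) Src} [IsSFiniteKernel ν]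
    {J : ℕ} {A : ℝ≥0∞} (hA : 1 ≤ A) (hA' : A ≠ ∞) {a : ℕ → ℝ≥0∞} {C : ℕ → ℝ≥0∞}
    (hH : HitLam hΦ hε.ne' b t t' A lam C) {u : Src × Src → ℝ} (hu : Measurable u)
    {δ : ℝ≥0∞} :
    ∫⁻ p, Psi6 L hΦ hε f₀ b a (fun c => ν c) A η t w t' J δ (u p) p.1 p.2 ∂lam ≤
      (∑ j ∈ Finset.range J, (∑' n, a n) ^ j *
        ∫⁻ c, ∫⁻ p, Gc hΦ hε.ne' b t' j
          (F6w L hΦ hε b a η t w (u p) (wS (GC.pts c)) p.1) p.2.1 p.2.2.1 ∂lam ∂(GC.PP f₀ ε)) +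
      (∑' n, a n) ^ J * (∫⁻ c, ∫⁻ p, ind (TE L hΦ hε η t (wS (GC.pts c)) p.1) *
        Gc hΦ hε.ne' b t' J (fun _ _ => 1) p.2.1 p.2.2.1 ∂lam ∂(GC.PP f₀ ε)) +
      (A ^ L)⁻¹ * ((∑ j ∈ Finset.range J,
          (A * (∑' n, a n + ∑' n, a n * A ^ n)) ^ j * C j) * (ENNReal.ofReal (ε ^ 2) *
        XX Φ ε L f₀ t fun _ T => A ^ T.depth * ENNReal.ofReal (1 + ‖(ln Φ ε T).2‖))) +
      5 * ((∑ j ∈ Finset.range J, (∑' n, a n) ^ j * C j) * (ENNReal.ofReal (ε ^ 2) *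
        (muE ε * ∫⁻ c, ∫⁻ p, ENNReal.ofReal (1 + ‖p.2.1.2‖) ∂(ν c) ∂(GC.PP f₀ ε)))) +
      δ * ∫⁻ p, tE6 L hΦ hε f₀ η t p.1 ∂lam := by
  have m1 : Measurable fun p : Src × Src => ∑ j ∈ Finset.range J, (∑' n, a n) ^ j *
      Gc hΦ hε.ne' b t' j (F6 L hΦ hε f₀ b a η t w (u p) p.1) p.2.1 p.2.2.1 :=
    Finset.measurable_sum _ fun j _ => (measurable_Gc_F6 h₀ hu j).const_mul _
  have m2 : Measurable fun p : Src × Src => (∑' n, a n) ^ J *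
      Gc hΦ hε.ne' b t' J (fun _ _ => tE6 L hΦ hε f₀ η t p.1) p.2.1 p.2.2.1 :=
    (measurable_Gc_tE6 h₀ J).const_mul _
  have m3 : Measurable fun p : Src × Src => A ^ p.2.2.2 * (A ^ L)⁻¹ *
      (∑ j ∈ Finset.range J, (A * (∑' n, a n + ∑' n, a n * A ^ n)) ^ j *
        Gc hΦ hε.ne' b t' j (FA f₀ Φ ε L t A) p.2.1 p.2.2.1) :=
    ((measurable_powD A (measurable_snd.comp (measurable_snd.comp measurable_snd))).mul_const
      _).mul (Finset.measurable_sum _ fun j _ =>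
        (measurable_Gc_line (hε := hε) j (measurable_FA h₀ hΦ hε)).const_mul _)
  have m4 : Measurable fun p : Src × Src => 5 * (∑ j ∈ Finset.range J, (∑' n, a n) ^ j *
      Gc hΦ hε.ne' b t' j (atyL (GC.PP f₀ ε) (fun c => ν c) ε t) p.2.1 p.2.2.1) :=
    (Finset.measurable_sum _ fun j _ =>
      (measurable_Gc_line (hε := hε) j (measurable_atyL h₀ ν)).const_mul _).const_mul _
  have m6 : Measurable fun p : Src × Src => tE6 L hΦ hε f₀ η t p.1 :=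
    (measurable_tE6' h₀).comp measurable_fst
  calc _ = (∫⁻ p, (∑ j ∈ Finset.range J, (∑' n, a n) ^ j *
        Gc hΦ hε.ne' b t' j (F6 L hΦ hε f₀ b a η t w (u p) p.1) p.2.1 p.2.2.1) ∂lam) +
      (∫⁻ p, (∑' n, a n) ^ J *
        Gc hΦ hε.ne' b t' J (fun _ _ => tE6 L hΦ hε f₀ η t p.1) p.2.1 p.2.2.1 ∂lam) +
      (∫⁻ p, A ^ p.2.2.2 * (A ^ L)⁻¹ * (∑ j ∈ Finset.range J,
        (A * (∑' n, a n + ∑' n, a n * A ^ n)) ^ j *
        Gc hΦ hε.ne' b t' j (FA f₀ Φ ε L t A) p.2.1 p.2.2.1) ∂lam) +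
      (∫⁻ p, 5 * (∑ j ∈ Finset.range J, (∑' n, a n) ^ j *
        Gc hΦ hε.ne' b t' j (atyL (GC.PP f₀ ε) (fun c => ν c) ε t) p.2.1 p.2.2.1) ∂lam) +
      ∫⁻ p, δ * tE6 L hΦ hε f₀ η t p.1 ∂lam := lintegral_add5 m1 m2 m3 m4
    _ ≤ _ := by
        refine add_le_add (add_le_add (add_le_add (add_le_add (le_of_eq ?_) (le_of_eq ?_)) ?_) ?_)
          (le_of_eq ?_)
        · rw [lintegral_finsetSum _ fun j _ => (measurable_Gc_F6 h₀ hu j).const_mul _]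
          refine Finset.sum_congr rfl fun j _ => ?_
          rw [lintegral_const_mul _ (measurable_Gc_F6 h₀ hu j), lam_main_eq h₀ hu j]
        · rw [lintegral_const_mul _ (measurable_Gc_tE6 h₀ J), lam_rem_eq h₀ J]
        · exact lam_over_sum (hε := hε) h₀ hH hA' _ J
        · exact lam_aty_sum (hε := hε) h₀ hH hA hA' ν _ J
        · exact lintegral_const_mul _ m6

theorem measurable_Psi6 (h₀ : GoodDatum f₀ κ) {ν : Kernel (GC.Conf Ph) Src} [IsSFiniteKernel ν]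
    {J : ℕ} {A : ℝ≥0∞} {a : ℕ → ℝ≥0∞} {u : Src × Src → ℝ} (hu : Measurable u) {δ : ℝ≥0∞} :
    Measurable fun p : Src × Src =>
      Psi6 L hΦ hε f₀ b a (fun c => ν c) A η t w t' J δ (u p) p.1 p.2 := by
  unfold Psi6
  refine Measurable.add (Measurable.add (Measurable.add (Measurable.add ?_ ?_) ?_) ?_) ?_
  · exact Finset.measurable_sum _ fun j _ => (measurable_Gc_F6 h₀ hu j).const_mul _
  · exact (measurable_Gc_tE6 h₀ J).const_mul _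
  · exact ((measurable_powD A (measurable_snd.comp (measurable_snd.comp
      measurable_snd))).mul_const _).mul (Finset.measurable_sum _ fun j _ =>
        (measurable_Gc_line (hε := hε) j (measurable_FA h₀ hΦ hε)).const_mul _)
  · exact (Finset.measurable_sum _ fun j _ =>
      (measurable_Gc_line (hε := hε) j (measurable_atyL h₀ ν)).const_mul _).const_mul _
  · exact ((measurable_tE6' h₀).comp measurable_fst).const_mul _

end Vale.Agent.P119.PB
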