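import Vale.Agent.P119.PB.HitLaw
import Vale.Agent.P119.PB.Exc5R
import Vale.Agent.P119.PB.RelLim2

/-!
# P119, block PROB: a tree which is hit by a free line, the law (`helper256`)

* `WH`: the weight of the structure (`m = 1` tree, `q = 1` line);
* `LI_le_law`: the integral `LI` over a Gaussian line and the tree which it hits, as a structure law;
  the labels of the structure are not in the gas;
* `EW_krs_le`, `card_krs_le`: the lines of the tree.
-/

open MeasureTheory Filter Topology Set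
open scoped ENNReal NNReal

noncomputable section

namespace Vale.Agent.P119.PB.HL

open M CTree KU FL FB RB AU TL GC MM IND XT PB.CT

variable {Φ : E3 → ℝ} {ε T ρ : ℝ} {L : ℕ} {S : CTree} {σ : Src} {f₀ : Ph → ℝ} {κ₀ b c β t s : ℝ}
  {n : ℕ}

/-! ### Measurability -/

theorem measurableSet_Hst (hΦ : IsPotential Φ) (hε : 0 < ε) {X : Type} [MeasurableSpace X]
    {S : X → CTree} {σ : X → Src} (hS : Measurable S) (hσ : Measurable σ) :
    MeasurableSet {x | Hst Φ ε T L (σ x) (S x)} := by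
  have hl : Measurable fun x => ln Φ ε (S x) := (M.measurable_ln hΦ hε.ne').comp hS
  have hz : Measurable fun x => (σ x).2.1 := measurable_fst.comp (measurable_snd.comp hσ)
  have hq : Measurable fun x => ((σ x).2.1, ln Φ ε (S x)) := hz.prodMk hl
  have hh : Measurable fun x => hitT ε ((σ x).2.1, ln Φ ε (S x)) := measurable_hitT.comp hq
  have h1 : MeasurableSet {x | CTree.ok Φ ε (S x)} := hS (measurableSet_ok hΦ hε.ne')
  have h2 : MeasurableSet {x | (S x).depth ≤ L} := hS (M.measurable_depth measurableSet_Iic)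
  have h3 : MeasurableSet {x | 0 ≤ (σ x).1} :=
    measurableSet_le measurable_const (measurable_fst.comp hσ)
  have h4 : MeasurableSet {x | σ x ∉ (S x).leaves} :=
    ((MM.RS.leaves hS).measurableSet_mem_of hσ).compl
  have h5 : MeasurableSet {x | Meets ε ((σ x).2.1, ln Φ ε (S x))} :=
    measurableSet_meets.preimage hq
  have h6 : MeasurableSet {x | (σ x).1 < hitT ε ((σ x).2.1, ln Φ ε (S x))} :=
    measurableSet_lt (measurable_fst.comp hσ) hh
  have h7 : MeasurableSet {x | ext Φ ε (S x) < hitT ε ((σ x).2.1, ln Φ ε (S x))} :=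
    measurableSet_lt ((measurable_ext hΦ hε.ne').comp hS) hh
  have h8 : MeasurableSet {x | hitT ε ((σ x).2.1, ln Φ ε (S x)) ≤ T} :=
    measurableSet_le hh measurable_const
  convert h1.inter (h2.inter (h3.inter (h4.inter (h5.inter (h6.inter (h7.inter h8)))))) using 1
  ext x
  exact ⟨fun h => ⟨h.ok, h.depth, h.birth, h.notMem, h.meets, h.lt, h.ext_lt, h.le⟩,
    fun h => ⟨h.1, h.2.1, h.2.2.1, h.2.2.2.1, h.2.2.2.2.1, h.2.2.2.2.2.1, h.2.2.2.2.2.2.1,
      h.2.2.2.2.2.2.2⟩⟩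

/-- The weight of the structure. -/
def WH (Φ : E3 → ℝ) (ε T : ℝ) (L : ℕ) (c s : ℝ) (n : ℕ) (S : Fin 1 → CTree) (l : Fin 1 → Ph) :
    ℝ≥0∞ :=
  ENNReal.ofReal (Real.exp (c * ‖(l 0).2‖ ^ 2)) * ind (Hst Φ ε T L (s, l 0, n) (S 0))

theorem measurable_WH (hΦ : IsPotential Φ) (hε : 0 < ε) : Measurable fun p :
    (Fin 1 → CTree) × (Fin 1 → Ph) => WH Φ ε T L c s n p.1 p.2 := by
  have h1 : Measurable fun p : (Fin 1 → CTree) × (Fin 1 → Ph) => p.2 0 :=
    (measurable_pi_apply 0).comp measurable_snd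
  have h2 : Measurable fun p : (Fin 1 → CTree) × (Fin 1 → Ph) => p.1 0 :=
    (measurable_pi_apply 0).comp measurable_fst
  refine Measurable.mul ?_ (measurable_ind (measurableSet_Hst hΦ hε h2
    (measurable_const.prodMk (h1.prodMk measurable_const))))
  exact ENNReal.measurable_ofReal.comp (Real.measurable_exp.comp
    ((h1.snd.norm.pow_const 2).const_mul c))

theorem WH_le (hc : 0 ≤ c) (S : Fin 1 → CTree) (l : Fin 1 → Ph) :
    WH Φ ε T L c s n S l ≤ 1 * ENNReal.ofReal (Real.exp (c * enB S l)) := by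
  unfold WH
  rw [one_mul]
  calc _ ≤ ENNReal.ofReal (Real.exp (c * ‖(l 0).2‖ ^ 2)) * 1 := mul_le_mul_right (ind_le_one _) _
    _ ≤ _ := by
      rw [mul_one]
      refine ENNReal.ofReal_le_ofReal (Real.exp_le_exp.2 (mul_le_mul_of_nonneg_left ?_ hc))
      unfold enB
      simp only [Fin.sum_univ_one]
      linarith [enT_nonneg (S 0)]

theorem WH_ne_zero {S : Fin 1 → CTree} {l : Fin 1 → Ph} (h : WH Φ ε T L c s n S l ≠ 0) :
    Hst Φ ε T L (s, l 0, n) (S 0) := by
  by_contra hcon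
  unfold WH at h
  rw [ind_of_not hcon, mul_zero] at h
  exact h rfl

/-! ### The law -/

theorem lintegral_one_one (ν : Measure CTree) (F : (Fin 1 → CTree) → (Fin 1 → Ph) → ℝ≥0∞) :
    ∫⁻ S, ∫⁻ l : Fin 1 → Ph, F S l ∂volume ∂(Measure.pi fun _ : Fin 1 => ν) =
      ∫⁻ S, (∫⁻ z : Ph, F (fun _ => S) (fun _ => z)) ∂ν := by
  rw [XT.lintegral_pi_one]
  refine lintegral_congr fun S => ?_
  rw [volume_pi, XT.lintegral_pi_one]

/-- The labels of the structure are not in the gas. -/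
def FrH (s : ℝ) (n : ℕ) (S : CTree) (z : Ph) (w : Conf Ph) : Prop :=
  Disjoint S.leaves (wS (pts w) : Set Src) ∧ ((s, z, n) : Src) ∉ wS (pts w)

theorem ae_FrH (h : GoodDatum f₀ κ₀) (hε : 0 < ε) (S : CTree) (z : Ph) :
    ∀ᵐ w ∂(PP f₀ ε), FrH s n S z w := by
  filter_upwards [ae_forall_notMem_wS h hε.le S.leaves_finite, ae_notMem_wS h hε.le (s, z, n)]
    with w h1 h2
  exact ⟨disjoint_left.2 fun a ha hw => h1 a ha (Finset.mem_coe.1 hw), h2⟩

theorem ae_notMem_leaves (S : CTree) : ∀ᵐ z : Ph, ((s, z, n) : Src) ∉ S.leaves := by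
  have h1 : ∀ a ∈ S.leaves, ∀ᵐ z : Ph, z ≠ a.2.1 := fun a _ => by
    rw [ae_iff]
    simp only [not_not]
    exact vol_Ph_singleton a.2.1
  have h2 := (ae_ball_iff S.leaves_finite.countable).2 h1
  filter_upwards [h2] with z hz hm
  exact hz _ hm rfl

/-- **The integral over a Gaussian line and the tree which it hits**, as a structure law. -/
theorem LI_le_law (h : GoodDatum f₀ κ₀) (hΦ : IsPotential Φ) (hε : 0 < ε) (hs : 0 ≤ s)
    {G : Ph → Finset Src → CTree → ℝ≥0∞}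
    (hG : Measurable fun p : (Ph × CTree) × Conf Ph => G p.1.1 (wS (pts p.2)) p.1.2)
    (hG0 : ∀ z V S, alT Φ ε L t V S → hitI ε t (s, z, n) (ln Φ ε S) → G z V S ≠ 0 →
      ext Φ ε S < hitT ε (z, ln Φ ε S)) :
    LI f₀ Φ ε L (b - c) t s n G ≤ ∫⁻ S, ∫⁻ l : Fin 1 → Ph, (∏ j, g1 b (l j).2) *
      (WH Φ ε t L c s n S l * ∫⁻ w, ind (FrH s n (S 0) (l 0) w) *
        (ind (alT Φ ε L t (wS (pts w)) (S 0)) * G (l 0) (wS (pts w)) (S 0)) ∂(PP f₀ ε)) ∂volume
          ∂(Measure.pi fun _ : Fin 1 => tree (inten f₀ ε) L) := by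
  have hfin := isFiniteMeasure_inten (ε := ε) h
  have hprob := isProbability_PP (ε := ε) h
  rw [lintegral_one_one]
  -- measurability
  have hz : Measurable fun p : (Ph × CTree) × Conf Ph => p.1.1 :=
    measurable_fst.comp measurable_fst
  have hS : Measurable fun p : (Ph × CTree) × Conf Ph => p.1.2 :=
    measurable_snd.comp measurable_fst
  have m1 : Measurable fun p : (Ph × CTree) × Conf Ph =>
      ind (alT Φ ε L t (wS (pts p.2)) p.1.2) :=
    measurable_ind (measurableSet_alT hΦ hε (RM.rs_wS measurable_snd) hS measurable_const)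
  have m2 : Measurable fun p : (Ph × CTree) × Conf Ph =>
      ind (hitI ε t (s, p.1.1, n) (ln Φ ε p.1.2)) := by
    refine measurable_ind (measurableSet_hitI ?_ ((M.measurable_ln hΦ hε.ne').comp hS))
    exact measurable_const.prodMk (hz.prodMk measurable_const)
  obtain ⟨F, hF⟩ : ∃ F : Ph → CTree → Conf Ph → ℝ≥0∞, F = fun z S w =>
    ind (alT Φ ε L t (wS (pts w)) S) * (ind (hitI ε t (s, z, n) (ln Φ ε S)) *
      G z (wS (pts w)) S) := ⟨_, rfl⟩
  have mF : Measurable fun p : (Ph × CTree) × Conf Ph => F p.1.1 p.1.2 p.2 := by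
    rw [hF]
    exact m1.mul (m2.mul hG)
  have e1 : LI f₀ Φ ε L (b - c) t s n G =
      ∫⁻ z : Ph, gw (b - c) z.2 * ∫⁻ w, ∫⁻ S, F z S w ∂(tree (inten f₀ ε) L) ∂(PP f₀ ε) := by
    rw [hF]
    rfl
  have e2 : ∀ z : Ph, ∫⁻ w, ∫⁻ S, F z S w ∂(tree (inten f₀ ε) L) ∂(PP f₀ ε) =
      ∫⁻ S, ∫⁻ w, F z S w ∂(PP f₀ ε) ∂(tree (inten f₀ ε) L) := by
    intro z
    have m3 : Measurable fun p : Conf Ph × CTree => F z p.2 p.1 :=
      mF.comp ((measurable_const.prodMk measurable_snd).prodMk measurable_fst)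
    exact lintegral_lintegral_swap m3.aemeasurable
  have e3 : LI f₀ Φ ε L (b - c) t s n G =
      ∫⁻ S, (∫⁻ z : Ph, gw (b - c) z.2 * ∫⁻ w, F z S w ∂(PP f₀ ε)) ∂(tree (inten f₀ ε) L) := by
    rw [e1]
    have m4 : Measurable fun p : Ph × CTree => ∫⁻ w, F p.1 p.2 w ∂(PP f₀ ε) :=
      mF.lintegral_prod_right'
    have m5 : Measurable fun p : Ph × CTree =>
        gw (b - c) p.1.2 * ∫⁻ w, F p.1 p.2 w ∂(PP f₀ ε) :=
      ((measurable_gw (b - c)).comp (measurable_snd.comp measurable_fst)).mul m4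
    rw [← lintegral_lintegral_swap m5.aemeasurable]
    refine lintegral_congr fun z => ?_
    rw [e2 z, lintegral_const_mul' _ _ (show gw (b - c) z.2 ≠ ∞ from ENNReal.ofReal_ne_top)]
  rw [e3]
  refine lintegral_mono fun S => lintegral_mono_ae ?_
  filter_upwards [ae_notMem_leaves (s := s) (n := n) S] with z hzS
  rw [Fin.prod_univ_one]
  have e4 : gw (b - c) z.2 = g1 b z.2 * ENNReal.ofReal (Real.exp (c * ‖z.2‖ ^ 2)) := by
    unfold PB.gw g1
    rw [← ENNReal.ofReal_mul (Real.exp_pos _).le, ← Real.exp_add]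
    congr 2
    ring
  rw [e4]
  unfold WH
  rw [mul_assoc, mul_assoc]
  refine mul_le_mul_right (mul_le_mul_right ?_ _) _
  by_cases hH : Hst Φ ε t L (s, z, n) S
  · rw [ind_of hH, one_mul]
    refine lintegral_mono_ae ?_
    filter_upwards [ae_FrH (s := s) (n := n) h hε S z] with w hw
    rw [ind_of hw, one_mul, hF]
    refine mul_le_mul_right ?_ _
    calc _ ≤ 1 * G z (wS (pts w)) S := mul_le_mul_left (ind_le_one _) _
      _ = _ := one_mul _
  · rw [ind_of_not hH, zero_mul]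
    refine le_of_eq ((lintegral_congr fun w => ?_).trans lintegral_zero)
    rw [hF]
    beta_reduce
    by_cases h1 : alT Φ ε L t (wS (pts w)) S
    swap
    · rw [ind_of_not h1, zero_mul]
    by_cases h2 : hitI ε t (s, z, n) (ln Φ ε S)
    swap
    · rw [ind_of_not h2, zero_mul, mul_zero]
    by_cases h3 : G z (wS (pts w)) S = 0
    · rw [h3, mul_zero, mul_zero]
    exact absurd ⟨h1.ok, h1.depth, hs, hzS, h2.1, h2.2.1, hG0 z _ S h1 h2 h3, h2.2.2⟩ hH

/-! ### The lines of the tree -/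

theorem card_krs_le (hd : S.depth ≤ L) : (krs Φ ε S ρ).card ≤ 2 ^ (L + 2) + 1 := by
  classical
  have h1 : exl Φ ε S ⊆ (partsF S).image (rsrc Φ ε) := by
    intro a ha
    rw [← Finset.mem_coe, coe_exl] at ha
    obtain ⟨x, hx, rfl⟩ := ha
    exact Finset.mem_image.2 ⟨x, mem_partsF.2 (Or.inr hx), rfl⟩
  have h2 := (Finset.card_le_card h1).trans (Finset.card_image_le.trans (XT.card_partsF_le hd))
  unfold krs
  exact (Finset.card_insert_le _ _).trans (Nat.add_le_add_right h2 1)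

theorem EW_krs_le (hΦ : IsPotential Φ) (hε : 0 < ε) (hS : CTree.ok Φ ε S) (hd : S.depth ≤ L) :
    EW (krs Φ ε S ρ) ≤ (2 ^ (L + 2) + 1 : ℕ) * (1 + enT S) := by
  have h1 : ∀ a ∈ krs Φ ε S ρ, 1 + ‖a.2.1.2‖ ^ 2 ≤ 1 + enT S := by
    intro a ha
    obtain ⟨x, hx, rfl⟩ := (mem_krs hS).1 ha
    have h2 : ‖(ln Φ ε x).2‖ ^ 2 ≤ enT S := ln_sq_le_enT_outs hΦ hε.ne' hx
    exact add_le_add le_rfl h2
  unfold EW
  refine (Finset.sum_le_sum h1).trans ?_
  rw [Finset.sum_const, nsmul_eq_mul]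
  refine mul_le_mul_of_nonneg_right ?_ (by linarith [enT_nonneg S])
  exact_mod_cast card_krs_le hd

end Vale.Agent.P119.PB.HL
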