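import Vale.Agent.P119.PB.RelCases
import Vale.Agent.P119.PB.Pt6
import Vale.Agent.P119.FB.Unfelt

/-!
# P119, block PROB: squares with an inserted tree which is hit (`helper388`)

* `square_rho`: `square_cases` of `helper472` for a tree `T` with root reborn at the time `ρ`;
  `rel_rho`: the trees counted in `relW W U`;
* `HitA.lives`, `HitR.tgood`: TREE -> LINES for the tree which is hit;
* the world `A = V + e`: `GoodK.insert`, `Drp.of_insert`, `mem_D_lnw` (the particles of `V + e` which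
  are altered by the lines of `T`);
* **`square_hit6`**: the second events, the square of `e` and of the tree `T` which is hit by `m`;
  **`rel_hit6`**: the trees which are related to `T` in the world `V + e`.
-/

open MeasureTheory Filter Topology Set
open scoped ENNReal NNReal

noncomputable section

namespace Vale.Agent.P119.PB

open M CTree KU FB RB AU TL IND

variable {Φ : E3 → ℝ} {ε : ℝ} {L : ℕ} {hΦ : IsPotential Φ} {hε : 0 < ε}
  {U V W K : Finset Src} {R T : CTree} {ρ t s : ℝ} {a : Src}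

/-- **Squares with an inserted tree**, the root is reborn at the time `ρ`. -/
theorem square_rho (hR : R.leaves ⊆ (U : Set Src)) (h : TGood Φ ε L hΦ hε U T W ρ t)
    (hl : LGood Φ ε L U T ρ t) (hRt : ext Φ ε R ≤ t) (nU : Nice Φ ε L U R)
    (hA : ∀ a ∈ R.leaves, a ∉ (RB.Y Φ ε L hΦ hε).D U (lnw Φ ε U T ρ) t)
    (hK : GoodK Φ ε L (rm U R) R (krs Φ ε T ρ) t) :
    FB.Sys.Square (RB.Y Φ ε L hΦ hε) (rm W R) (rm U R) W U t ∨
      Drp Φ ε L (rm U R) R (outs T) (rho Φ ε T ρ) t := by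
  classical
  have hok := h.ok
  have hokR := nU.ok
  have hset := h.setup hl
  have hVU : (rm U R : Set Src) ⊆ (U : Set Src) := fun a ha => (mem_rm.1 ha).1
  have nL : Nice Φ ε L (lnw Φ ε U T ρ) R := nU.congr hΦ hε hRt fun a ha hD =>
    hA a ha (by rw [FB.Sys.D_comm]; exact hD)
  rcases nice_rm hR h hl nL hK with ⟨hn, hl'⟩ | h1
  swap
  · exact Or.inr h1
  left
  have hrmW := coe_rm_of_disjoint hR h.disj h.eq
  have hNs : srcs Φ ε R ⊆ srcs Φ ε R ∪ krs Φ ε T ρ := Finset.subset_union_left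
  have hTs : krs Φ ε T ρ ⊆ srcs Φ ε R ∪ krs Φ ε T ρ := Finset.subset_union_right
  have h0 := Finset.empty_subset (srcs Φ ε R ∪ krs Φ ε T ρ)
  have hTR : ∀ a ∈ krs Φ ε T ρ, a ∉ U := by
    intro a ha haU
    obtain ⟨x, hx, rfl⟩ := (mem_krs hok).1 ha
    exact hl.fresh x hx haU
  have eV : wF (rm U R) sgl ∅ = rm U R := wF_empty
  have hdR : ∀ I, (∀ a ∈ I, a ∉ U) → Disjoint (wF (rm U R) sgl I : Set Src) R.leaves := by
    intro I hI
    refine disjoint_left.2 fun a h1 h2 => ?_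
    rcases mem_wF_sgl'.1 h1 with h1 | h1
    · exact (mem_rm.1 h1).2 h2
    · exact hI a h1 (Finset.mem_coe.1 (hR h2))
  have hwR : ∀ I, (wF U sgl I : Set Src) = (wF (rm U R) sgl I : Set Src) ∪ R.leaves := by
    intro I
    ext a
    rw [mem_union, mem_wF_sgl', mem_wF_sgl', mem_rm]
    constructor
    · rintro (h | h)
      · by_cases h2 : a ∈ R.leaves
        · exact Or.inr h2
        · exact Or.inl (Or.inl ⟨h, h2⟩)
      · exact Or.inl (Or.inr h)
    · rintro ((h | h) | h)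
      · exact Or.inl h.1
      · exact Or.inr h
      · exact Or.inl (Finset.mem_coe.1 (hR h))
  -- the representations
  have r1 : MRep Φ ε L W (lnw Φ ε U T ρ) (fs Φ ε (rho Φ ε T ρ) T) t :=
    (h.rep hl).mrep
  have r2 : MRep Φ ε L (lnw Φ ε U T ρ) (wF (rm U R) sgl (krs Φ ε T ρ ∪ srcs Φ ε R))
      (fs Φ ε (rho Φ ε R (ext Φ ε R)) R) t := by
    refine mrep_of_good hΦ hε (linePk_srcs hK.inj) hNs hTs hK.disj.symm hK.good hRt (hdR _ hTR) ?_ nL
    rw [lnw_eq_krs]
    exact hwR _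
  have r3 := r1.trans hΦ hε r2
  have r4 : MRep Φ ε L U (wF (rm U R) sgl (∅ ∪ srcs Φ ε R)) (fs Φ ε (rho Φ ε R (ext Φ ε R)) R) t := by
    refine mrep_of_good hΦ hε (linePk_srcs hK.inj) hNs h0 (Finset.disjoint_empty_left _) hK.good hRt
      (hdR _ fun a ha => absurd ha (Finset.notMem_empty a)) ?_ nU
    rw [← hwR, wF_empty]
  have hfin : ((rm U R : Set Src) ∪ T.leaves).Finite :=
    (rm U R).finite_toSet.union T.leaves_finite
  have hset' : Setup Φ ε L (rm U R : Set Src) T (rho Φ ε T ρ) t :=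
    Setup.of_not_bad hΦ hε (rm U R).finite_toSet (h.disj.mono_left hVU) hl'.inj
      (fun x hx hm => hl'.fresh x hx (Finset.mem_coe.1 hm)) hset.le_r hn.alive hn.lives
      (fun x hx u hu _ hbad => hn.good x hx u hu hbad) hl'.indep
  have r5 : MRep Φ ε L (rm W R) (wF (rm U R) sgl (∅ ∪ krs Φ ε T ρ))
      (fs Φ ε (rho Φ ε T ρ) T) t := by
    refine MRep.of_setup hΦ hε hset' hrmW ?_ (fun a ha => ?_) (fun x hx => ?_)
      (fun x hx u hu => by rw [hrmW]; exact hn.good x hx u hu)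
    · rw [Finset.empty_union]
      exact coe_wF_krs hok
    · exact h.births a (mem_rm.1 ha).1
    · exact (rho_le hΦ hε hok (alive_pre h.alive).ext_le hx).trans h.le
  have r6 : MRep Φ ε L (rm U R) (wF (rm U R) sgl ∅) leaf t := by
    rw [eV]
    exact MRep.refl fun a ha => (hK.good.birthV a ha).1
  -- the histories
  have fT_U : ∀ a ∈ U, fs Φ ε (rho Φ ε T ρ) T a = leaf a := fun a ha =>
    fs_of_mem hset (Finset.mem_coe.2 ha)
  have fR_not : ∀ a, a ∉ srcs Φ ε R → fs Φ ε (rho Φ ε R (ext Φ ε R)) R a = leaf a := by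
    intro a ha
    unfold fs
    rw [dif_neg]
    rintro ⟨z, hz, rfl⟩
    rw [msrc_rho hokR hz] at ha
    exact ha (mem_srcs.2 ⟨z, hz, rfl⟩)
  have hVR : ∀ a ∈ rm U R, a ∉ srcs Φ ε R := fun a ha h' =>
    Finset.disjoint_left.1 (hK.good.disjV a (hNs h')) ha (Finset.mem_singleton_self _)
  have fR_R : ∀ z ∈ outs R, fs Φ ε (rho Φ ε R (ext Φ ε R)) R (rsrc Φ ε z) = z := by
    intro z hz
    have h1 : ∃ z' ∈ outs R, msrc Φ ε (rho Φ ε R (ext Φ ε R)) z' = rsrc Φ ε z :=
      ⟨z, hz, msrc_rho hokR hz⟩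
    unfold fs
    rw [dif_pos h1]
    have h2 := h1.choose_spec
    rw [msrc_rho hokR h2.1] at h2
    exact hK.inj h2.1 hz h2.2
  obtain ⟨f, hf⟩ : ∃ f : Src → CTree, f = fun a => sbs (fs Φ ε (rho Φ ε T ρ) T)
    (fs Φ ε (rho Φ ε R (ext Φ ε R)) R a) := ⟨_, rfl⟩
  rw [← hf] at r3
  have e4 : ∀ a ∈ wF (rm U R) sgl (∅ ∪ srcs Φ ε R), fs Φ ε (rho Φ ε R (ext Φ ε R)) R a = f a := by
    intro a ha
    rw [hf]
    rcases mem_wF_sgl.1 ha with ha | ha
    · beta_reduce
      rw [fR_not a (hVR a ha)]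
      exact (fT_U a (mem_rm.1 ha).1).symm
    · rw [Finset.empty_union] at ha
      obtain ⟨z, hz, rfl⟩ := mem_srcs.1 ha
      beta_reduce
      rw [fR_R z hz, sbs_congr (g := leaf) fun σ hσ => fT_U σ (Finset.mem_coe.1
        (hR (outs_leaves hz hσ))), sbs_leaf]
  have e5 : ∀ a ∈ wF (rm U R) sgl (∅ ∪ krs Φ ε T ρ), fs Φ ε (rho Φ ε T ρ) T a = f a := by
    intro a ha
    rw [hf]
    beta_reduce
    rw [fR_not a]
    · rfl
    · rcases mem_wF_sgl.1 ha with ha | ha
      · exact hVR a ha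
      · rw [Finset.empty_union] at ha
        exact fun h' => Finset.disjoint_left.1 hK.disj h' ha
  have e6 : ∀ a ∈ wF (rm U R) sgl ∅, leaf a = f a := by
    intro a ha
    rw [hf]
    rcases mem_wF_sgl.1 ha with ha | ha
    · beta_reduce
      rw [fR_not a (hVR a ha)]
      exact (fT_U a (mem_rm.1 ha).1).symm
    · exact absurd ha (Finset.notMem_empty a)
  have r4' := r4.congr hΦ hε e4
  have r5' := r5.congr hΦ hε e5
  have r6' := r6.congr hΦ hε e6
  rw [Finset.empty_union] at r4' r5'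
  -- the four worlds
  let Js : Fin 4 → Finset Src := ![krs Φ ε T ρ, ∅, krs Φ ε T ρ ∪ srcs Φ ε R, srcs Φ ε R]
  let Wr : Fin 4 → Finset Src := ![rm W R, rm U R, W, U]
  have hJs : ∀ k, Js k ⊆ krs Φ ε T ρ ∪ srcs Φ ε R := by
    intro k
    fin_cases k
    · exact Finset.subset_union_left
    · exact Finset.empty_subset _
    · exact Finset.Subset.refl _
    · exact Finset.subset_union_right
  have hRr : ∀ k, MRep Φ ε L (Wr k) (wF (rm U R) sgl (Js k)) f t := by
    intro k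
    fin_cases k
    · exact r5'
    · exact r6'
    · exact r3
    · exact r4'
  have hu : krs Φ ε T ρ ∪ srcs Φ ε R ⊆ srcs Φ ε R ∪ krs Φ ε T ρ := Finset.union_subset hTs hNs
  have hne : Nonempty Src := ⟨rsrc Φ ε T⟩
  have key := MRep.dep_on (K := srcs Φ ε R ∪ krs Φ ε T ρ) (Wl := wF (rm U R) sgl) hΦ hε hRr
    (fun k => (hJs k).trans hu)
    (fun k k' b hb b' hb' he => r3.bij.injOn (Finset.mem_coe.2 (wF_mono (hJs k) hb))
      (Finset.mem_coe.2 (wF_mono (hJs k') hb')) he)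
    fun a => hK.good.sta_dep hΦ hε a
  refine square_of_dep (I := krs Φ ε T ρ) (J := ∅) (N := srcs Φ ε R) hK.disj.symm
    (Finset.disjoint_empty_left _) fun a => ?_
  obtain ⟨i₀, hi₀⟩ := key a
  rw [Finset.empty_union]
  exact ⟨i₀, hi₀ 0 1, hi₀ 0 2, hi₀ 1 3, hi₀ 2 3⟩


/-- The trees which are related to an inserted tree with root reborn at `ρ`. -/
theorem rel_rho (h : TGood Φ ε L hΦ hε U T W ρ t) (hl : LGood Φ ε L U T ρ t)
    (hR : Rel L hΦ hε W U t R) :
    (∃ a ∈ R.leaves, a ∈ (RB.Y Φ ε L hΦ hε).D U (lnw Φ ε U T ρ) t) ∨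
      ¬GoodK Φ ε L (rm U R) R (krs Φ ε T ρ) t ∨
        Drp Φ ε L (rm U R) R (outs T) (rho Φ ε T ρ) t := by
  by_contra hcon
  push Not at hcon
  obtain ⟨h1, h2, h3⟩ := hcon
  exact (square_rho hR.sub h hl hR.ext_le (Nice.of_not_exp hR.alive hR.root) h1 h2).elim hR.rel h3

/-! ### Symmetries of the squares -/

/-- Squares: every label depends on one of the two parameters only. -/
theorem square_iff_D {P Q R S : Finset Src} :
    FB.Sys.Square (RB.Y Φ ε L hΦ hε) P Q R S t ↔ ∀ a,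
      (a ∉ (RB.Y Φ ε L hΦ hε).D P Q t ∧ a ∉ (RB.Y Φ ε L hΦ hε).D R S t) ∨
        (a ∉ (RB.Y Φ ε L hΦ hε).D P R t ∧ a ∉ (RB.Y Φ ε L hΦ hε).D Q S t) := by
  have key : ∀ {A B : Finset Src} {a : Src}, a ∉ (RB.Y Φ ε L hΦ hε).D A B t ↔
      ∀ s ≤ t, (RB.Y Φ ε L hΦ hε).st A a s = (RB.Y Φ ε L hΦ hε).st B a s := FB.Sys.not_mem_D
  constructor
  · intro h a
    by_cases ha : a ∈ (RB.Y Φ ε L hΦ hε).D P Q t
    · have h1 := h.disj a ha
      exact Or.inr ⟨h1, key.2 (h.eqY a h1)⟩
    · exact Or.inl ⟨ha, key.2 (h.eqX a ha)⟩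
  · intro h
    refine ⟨fun a h1 h2 => ?_, fun a h1 => ?_, fun a h1 => ?_⟩
    · rcases h a with h3 | h3
      · exact h3.1 h1
      · exact h3.1 h2
    · rcases h a with h3 | h3
      · exact key.1 h3.2
      · intro s hs
        rw [← key.1 h3.1 s hs, key.1 h1 s hs, key.1 h3.2 s hs]
    · rcases h a with h3 | h3
      · intro s hs
        rw [← key.1 h3.1 s hs, key.1 h1 s hs, key.1 h3.2 s hs]
      · exact key.1 h3.2

theorem square_flip {P Q R S : Finset Src} (h : FB.Sys.Square (RB.Y Φ ε L hΦ hε) P Q R S t) :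
    FB.Sys.Square (RB.Y Φ ε L hΦ hε) Q S P R t := by
  rw [square_iff_D] at h ⊢
  intro a
  rcases h a with ⟨h1, h2⟩ | ⟨h1, h2⟩
  · exact Or.inr ⟨by rw [FB.Sys.D_comm]; exact h1, by rw [FB.Sys.D_comm]; exact h2⟩
  · exact Or.inl ⟨h2, h1⟩

/-! ### The tree which is hit -/

section hit

variable {A : Finset Src} {m e : Src}

/-- The tree which is hit lives at the time of the hit, without a third body. -/
theorem HitA.lives (hΦ : IsPotential Φ) (hε : 0 < ε) (h : HitA Φ ε L m A T)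
    (hN : NoExc Φ ε L t m A T) (hm : Meets ε (m.2.1, ln Φ ε T))
    (hle : hitT ε (m.2.1, ln Φ ε T) ≤ t) :
    M.lives Φ ε L (addT A T : Set Src) T (hitT ε (m.2.1, ln Φ ε T)) := by
  have hfin := (addT A T).finite_toSet
  obtain ⟨hl, hx⟩ := (alive_iff_live hΦ hε hfin).1 h.alive
  rw [M.lives_iff]
  refine ⟨hl, fun T' hh ha => hN.tri ?_⟩
  obtain ⟨h1, h2, h3⟩ := (hit_after hΦ hε hl.ok h.lt.le).1 hh
  obtain ⟨h4, -⟩ := (alive_iff_live hΦ hε hfin).1 ha
  refine ⟨hitT ε (m.2.1, ln Φ ε T), hle, sig_eq.le, ?_, T', h4, fun hr => ?_, Or.inl ?_⟩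
  · rw [ext_eq hΦ]
    refine hitT_lt_sepT hΦ hε ?_ hm.2
    exact (exits_swap hΦ (ln Φ ε T, m.2.1)).2 hN.exits
  · exact disjoint_left.1 h2 T.root_mem_leaves (hr ▸ T'.root_mem_leaves)
  · rw [st_after hΦ hε h4.ok h1]
    exact h3

/-- TREE -> LINES for the tree which is hit. -/
theorem HitR.tgood (h : HitR L hΦ hε m A T) (hN : NoExc Φ ε L t m A T)
    (hm : Meets ε (m.2.1, ln Φ ε T)) (hle : hitT ε (m.2.1, ln Φ ε T) ≤ t)
    (hd : Disjoint (A : Set Src) T.leaves) (hA : ∀ a ∈ A, 0 ≤ a.1) :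
    TGood Φ ε L hΦ hε A T (addT A T) (hitT ε (m.2.1, ln Φ ε T)) t ∧
      LGood Φ ε L A T (hitT ε (m.2.1, ln Φ ε T)) t := by
  have hok := (alive_pre h.alive).ok
  refine ⟨⟨hd, coe_addT _ _, fun a ha => ?_, h.alive, Or.inr (h.toHitA.lives hΦ hε hN hm hle),
    h.unexp, hle⟩, ?_⟩
  · rcases mem_addT.1 ha with ha | ha
    · exact hA a ha
    · exact birth_of_ok hok a ha
  · have h1 := hN.lgood_A hΦ hε hok (by rw [sig_eq]; exact h.lt)
    rw [sig_eq] at h1
    exact h1

end hit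

/-! ### The world with one more line -/

section line

variable {e : Src} {V' : Finset Src}

theorem srcs_leaf : srcs Φ ε (leaf e) = {e} := by
  ext a
  rw [mem_srcs, Finset.mem_singleton]
  constructor
  · rintro ⟨x, hx, rfl⟩
    rcases hx with rfl | hx
    · rfl
    · exact absurd hx (notMem_empty _)
  · rintro rfl
    exact ⟨leaf a, Or.inl rfl, rfl⟩

open Classical in
/-- One of the lines becomes a part of the world. -/
theorem GoodK.insert_base (hΦ : IsPotential Φ) (hε : 0 < ε)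
    (h : GoodK Φ ε L V R (insert e K) t) (he : e ∉ K) : GoodK Φ ε L (insert e V) R K t := by
  have h1 : e ∉ srcs Φ ε R := fun h' =>
    Finset.disjoint_left.1 h.disj h' (Finset.mem_insert_self _ _)
  have h2 := h.good
  rw [Finset.union_insert] at h2
  have h3 := h2.face' hΦ hε (fun h' => (Finset.mem_union.1 h').elim h1 he)
  refine ⟨h.inj, h.disj.mono_right (Finset.subset_insert _ _), ?_⟩
  have h4 : V ∪ sgl e = insert e V := by
    ext a
    simp [sgl]
  rwa [h4] at h3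

open Classical in
/-- `Drp` in the world with one more line. -/
theorem Drp.of_insert (hΦ : IsPotential Φ) (hε : 0 < ε) {O : Set CTree} {r : CTree → ℝ}
    (h : Drp Φ ε L (insert e V) R O r t) (hK : GoodK Φ ε L V R (insert e K) t) :
    Drp Φ ε L V R O r t := by
  obtain ⟨z, hz, x, hx, y, s, h1, h2, h3, h4, h5, h6, h7⟩ := h
  have hne : Nonempty Src := ⟨e⟩
  have hzK : rsrc Φ ε z ∈ srcs Φ ε R := mem_srcs.2 ⟨z, hz, rfl⟩
  have hze : rsrc Φ ε z ≠ e := fun h' =>
    Finset.disjoint_left.1 hK.disj hzK (h' ▸ Finset.mem_insert_self _ _)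
  have hz' : rsrc Φ ε z ∈ srcs Φ ε R ∪ insert e K := Finset.mem_union_left _ hzK
  have he' : e ∈ srcs Φ ε R ∪ insert e K :=
    Finset.mem_union_right _ (Finset.mem_insert_self _ _)
  have w0 : (wF V sgl ∅ : Set Src) = (V : Set Src) := by rw [wF_empty]
  have w1 : (wF V sgl {e} : Set Src) = ((insert e V : Finset Src) : Set Src) := by
    rw [wF_sgl_singleton]
  have w2 : (wF V sgl {rsrc Φ ε z} : Set Src) = insert (rsrc Φ ε z) (V : Set Src) := by
    rw [wF_sgl_singleton, Finset.coe_insert]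
  have w3 : (wF V sgl {rsrc Φ ε z, e} : Set Src) =
      insert (rsrc Φ ε z) ((insert e V : Finset Src) : Set Src) := by
    ext a
    rw [mem_wF_sgl', mem_insert_iff, Finset.mem_coe, Finset.mem_insert, Finset.mem_insert,
      Finset.mem_singleton]
    tauto
  obtain ⟨i, hi⟩ := hK.good.live_dep hΦ hε y h1
  have s1 : ({e} : Finset Src) ⊆ srcs Φ ε R ∪ insert e K := Finset.singleton_subset_iff.2 he'
  have s2 : ({rsrc Φ ε z} : Finset Src) ⊆ srcs Φ ε R ∪ insert e K :=
    Finset.singleton_subset_iff.2 hz'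
  have s3 : ({rsrc Φ ε z, e} : Finset Src) ⊆ srcs Φ ε R ∪ insert e K :=
    Finset.insert_subset hz' s1
  have hie : i = rsrc Φ ε z := by
    by_contra hne
    have h8 : live Φ ε L (wF V sgl {e} : Set Src) y s ↔
        live Φ ε L (wF V sgl {rsrc Φ ε z, e} : Set Src) y s :=
      hi {e} {rsrc Φ ε z, e} s1 s3 (by simp [hne])
    rw [w1, w3] at h8
    exact h6 (h8.1 h5)
  subst hie
  refine ⟨z, hz, x, hx, y, s, h1, h2, h3, h4, ?_, fun h8 => h6 ?_, h7⟩
  · have h8 : live Φ ε L (wF V sgl {e} : Set Src) y s ↔ live Φ ε L (wF V sgl ∅ : Set Src) y s :=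
      hi {e} ∅ s1 (Finset.empty_subset _) (by simp [hze])
    rw [w1, w0] at h8
    exact h8.1 h5
  · have h9 : live Φ ε L (wF V sgl {rsrc Φ ε z} : Set Src) y s ↔
        live Φ ε L (wF V sgl {rsrc Φ ε z, e} : Set Src) y s :=
      hi {rsrc Φ ε z} {rsrc Φ ε z, e} s2 s3 (by simp)
    rw [w2, w3] at h9
    exact h9.1 h8

open Classical in
/-- The particles which are altered by lines of `K`. -/
theorem not_goodK_of_mem_D {I J : Finset Src} (haV : a ∉ V) (hI : I ⊆ K) (hJ : J ⊆ K)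
    (h : a ∈ (RB.Y Φ ε L hΦ hε).D (wF (insert a V) sgl I) (wF (insert a V) sgl J) t) :
    ¬GoodK Φ ε L V (leaf a) K t := by
  intro hK
  obtain ⟨s, hs, hne⟩ := h
  have hne' : Nonempty Src := ⟨a⟩
  have hg := hK.good
  rw [srcs_leaf] at hg
  obtain ⟨i, hi⟩ := hg.sta_dep hΦ hε a
  have s1 : ({a} : Finset Src) ⊆ {a} ∪ K := Finset.subset_union_left
  have w0 : wF V sgl ∅ = V := wF_empty
  have w1 : wF V sgl {a} = insert a V := wF_sgl_singleton
  have w2 : ∀ J, wF V sgl ({a} ∪ J) = wF (insert a V) sgl J := by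
    intro J
    ext b
    rw [mem_wF_sgl, mem_wF_sgl, Finset.mem_union, Finset.mem_insert, Finset.mem_singleton]
    tauto
  have hia : i = a := by
    by_contra hne1
    have h1 := hi {a} ∅ s1 (Finset.empty_subset _) (by simp [hne1]) s hs
    have h2 := mem_of_sta h1
    rw [w0, w1] at h2
    exact haV (Finset.mem_coe.1 (h2.1 (Finset.mem_coe.2 (Finset.mem_insert_self _ _))))
  subst hia
  have h1 := hi ({i} ∪ I) ({i} ∪ J) (Finset.union_subset_union_right hI)
    (Finset.union_subset_union_right hJ) (by simp) s hs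
  rw [w2, w2] at h1
  exact hne h1

theorem nice_leaf (hΦ : IsPotential Φ) (hε : 0 < ε) (heV : e ∈ V) (he : 0 ≤ e.1 ∧ e.2.2 ≤ L) :
    Nice Φ ε L V (leaf e) := by
  refine ⟨(alive_iff hΦ hε V.finite_toSet).2 ⟨⟨?_, he.1, he.2, le_rfl⟩, fun T' s hs hh _ => ?_⟩,
    fun x hx s hs hb => ?_⟩
  · intro a ha
    rw [show a = e from ha]
    exact heV
  · exact absurd hh.1 (not_le.2 hs)
  · rcases hx with rfl | hx
    · exact absurd hb.2.2.1 (not_le.2 hs)
    · exact absurd hx (notMem_empty _)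

open Classical in
theorem rm_insert_leaf (heV : e ∉ V) : rm (insert e V) (leaf e) = V := by
  ext a
  rw [mem_rm, Finset.mem_insert]
  constructor
  · rintro ⟨rfl | h, h'⟩
    · exact absurd rfl h'
    · exact h
  · intro h
    exact ⟨Or.inr h, fun h' => heV ((show a = e from h') ▸ h)⟩

end line

/-! ### The second events -/

section hit6

variable {m e : Src}

open Classical in
/-- **The square of `e` and of the tree which is hit by `m`.** -/
theorem square_hit6 (hV : ∀ a ∈ V, 0 ≤ a.1) (he0 : 0 ≤ e.1) (het : e.1 ≤ t) (hed : e.2.2 ≤ L)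
    (hd : Disjoint (V : Set Src) T.leaves) (heV : e ∉ V) (h : Hit6 L hΦ hε t V e m T)
    (hN : NoExc Φ ε L t m (insert e V) T) (hm : Meets ε (m.2.1, ln Φ ε T))
    (hle : hitT ε (m.2.1, ln Φ ε T) ≤ t)
    (hK : GoodK Φ ε L V (leaf e) (krs Φ ε T (hitT ε (m.2.1, ln Φ ε T))) t) :
    FB.Sys.Square (RB.Y Φ ε L hΦ hε) V (insert e V) (addT V T) (addT (insert e V) T) t ∨
      Drp Φ ε L V (leaf e) (outs T) (rho Φ ε T (hitT ε (m.2.1, ln Φ ε T))) t := by
  have hb : ∀ a ∈ insert e V, 0 ≤ a.1 := by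
    intro a ha
    rcases Finset.mem_insert.1 ha with rfl | ha
    · exact he0
    · exact hV a ha
  have hdU : Disjoint ((insert e V : Finset Src) : Set Src) T.leaves := by
    rw [Finset.coe_insert]
    exact disjoint_left.2 fun a ha haT => by
      rcases ha with rfl | ha
      · exact h.notMem haT
      · exact disjoint_left.1 hd ha haT
  obtain ⟨h1, h2⟩ := h.hit.tgood hN hm hle hdU hb
  have hrm := rm_insert_leaf heV
  have hR : (leaf e).leaves ⊆ ((insert e V : Finset Src) : Set Src) := by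
    intro a ha
    rw [show a = e from ha]
    exact Finset.mem_coe.2 (Finset.mem_insert_self _ _)
  have hrmW : rm (addT (insert e V) T) (leaf e) = addT V T := by
    ext a
    rw [mem_rm, mem_addT, mem_addT, Finset.mem_insert]
    constructor
    · rintro ⟨(rfl | h) | h, h'⟩
      · exact absurd rfl h'
      · exact Or.inl h
      · exact Or.inr h
    · rintro (h' | h')
      · exact ⟨Or.inl (Or.inr h'), fun h'' => heV ((show a = e from h'') ▸ h')⟩
      · exact ⟨Or.inr h', fun h'' => h.notMem ((show a = e from h'') ▸ h')⟩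
  have key := square_rho hR h1 h2 het (nice_leaf hΦ hε (Finset.mem_insert_self _ _) ⟨he0, hed⟩)
    (fun a ha hD => ?_) (by rw [hrm]; exact hK)
  · rw [hrmW, hrm] at key
    exact key.imp square_flip id
  · rw [show a = e from ha, lnw_eq_krs] at hD
    refine not_goodK_of_mem_D (hΦ := hΦ) (hε := hε) heV (Finset.empty_subset _)
      (Finset.Subset.refl _) ?_ hK
    rw [wF_empty]
    exact hD

open Classical in
/-- **The trees which are related to the tree which is hit by `m`**, in the world `V + e`. -/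
theorem rel_hit6 (hV : ∀ a ∈ V, 0 ≤ a.1) (he0 : 0 ≤ e.1)
    (hd : Disjoint (V : Set Src) T.leaves) (h : Hit6 L hΦ hε t V e m T)
    (hN : NoExc Φ ε L t m (insert e V) T) (hm : Meets ε (m.2.1, ln Φ ε T))
    (hle : hitT ε (m.2.1, ln Φ ε T) ≤ t)
    (hR : Rel L hΦ hε (addT (insert e V) T) (insert e V) t R) (heR : e ∉ R.leaves) :
    (∃ a ∈ R.leaves, a ∈ (RB.Y Φ ε L hΦ hε).D (insert e V)
      (lnw Φ ε (insert e V) T (hitT ε (m.2.1, ln Φ ε T))) t) ∨
    ¬GoodK Φ ε L (rm V R) R (insert e (krs Φ ε T (hitT ε (m.2.1, ln Φ ε T)))) t ∨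
      Drp Φ ε L (rm V R) R (outs T) (rho Φ ε T (hitT ε (m.2.1, ln Φ ε T))) t := by
  have hb : ∀ a ∈ insert e V, 0 ≤ a.1 := by
    intro a ha
    rcases Finset.mem_insert.1 ha with rfl | ha
    · exact he0
    · exact hV a ha
  have hdU : Disjoint ((insert e V : Finset Src) : Set Src) T.leaves := by
    rw [Finset.coe_insert]
    exact disjoint_left.2 fun a ha haT => by
      rcases ha with rfl | ha
      · exact h.notMem haT
      · exact disjoint_left.1 hd ha haT
  obtain ⟨h1, h2⟩ := h.hit.tgood hN hm hle hdU hb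
  have heK : e ∉ krs Φ ε T (hitT ε (m.2.1, ln Φ ε T)) := by
    intro hc
    obtain ⟨x, hx, hxe⟩ := (mem_krs h1.ok).1 hc
    exact h2.fresh x hx (by rw [hxe]; exact Finset.mem_insert_self _ _)
  have hrm : rm (insert e V) R = insert e (rm V R) := rm_insert heR
  by_cases hG : GoodK Φ ε L (rm V R) R (insert e (krs Φ ε T (hitT ε (m.2.1, ln Φ ε T)))) t
  swap
  · exact Or.inr (Or.inl hG)
  rcases rel_rho h1 h2 hR with h3 | h3 | h3
  · exact Or.inl h3
  · rw [hrm] at h3
    exact absurd (hG.insert_base hΦ hε heK) h3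
  · rw [hrm] at h3
    exact Or.inr (Or.inr (h3.of_insert hΦ hε hG))

open Classical in
/-- The particles which are altered by the lines of `T` in the world `V + e`. -/
theorem alt_hit6 (haV : a ∈ V) (hae : a ≠ e) {ρ : ℝ}
    (h : a ∈ (RB.Y Φ ε L hΦ hε).D (insert e V) (lnw Φ ε (insert e V) T ρ) t) :
    ¬GoodK Φ ε L (rm V (leaf a)) (leaf a) (insert e (krs Φ ε T ρ)) t := by
  have h0 : a ∉ rm V (leaf a) := fun h' => (mem_rm.1 h').2 rfl
  have h1 : insert a (rm V (leaf a)) = V := by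
    ext b
    rw [Finset.mem_insert, mem_rm]
    constructor
    · rintro (rfl | h)
      · exact haV
      · exact h.1
    · intro hb
      by_cases hba : b = a
      · exact Or.inl hba
      · exact Or.inr ⟨hb, hba⟩
  refine not_goodK_of_mem_D (hΦ := hΦ) (hε := hε) (I := {e}) (J := insert e (krs Φ ε T ρ)) h0
    (Finset.singleton_subset_iff.2 (Finset.mem_insert_self _ _)) (Finset.Subset.refl _) ?_
  rw [h1]
  have e1 : wF V sgl {e} = insert e V := wF_sgl_singleton
  have e2 : wF V sgl (insert e (krs Φ ε T ρ)) = lnw Φ ε (insert e V) T ρ := by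
    rw [lnw_eq_krs]
    ext b
    rw [mem_wF_sgl, mem_wF_sgl, Finset.mem_insert, Finset.mem_insert]
    tauto
  rw [e1, e2]
  exact h

end hit6

end Vale.Agent.P119.PB
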