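import Vale.Agent.P119.PB.RelCases

/-!
# P119, block PROB: the trees which are related to an inserted tree, births at `ρ` (`helper472`)

* **`square_cases_rho`**: `square_cases` when the root of the inserted tree `T` is reborn at any
  time `ρ`; the old tree `R` may be a leaf;
* `rel_cases_rho`: the trees `R` which are counted in `relW (addT U T) U`.
-/

open MeasureTheory Filter Topology Set
open scoped ENNReal NNReal

noncomputable section

namespace Vale.Agent.P119.PB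

open M CTree KU FB RB AU TL IND

variable {Φ : E3 → ℝ} {ε : ℝ} {L : ℕ} {hΦ : IsPotential Φ} {hε : 0 < ε}
  {U V W K : Finset Src} {R T : CTree} {ρ t s : ℝ} {a : Src}

/-- The setup of a nice tree. -/
theorem NiceT.setup_rho (hΦ : IsPotential Φ) (hε : 0 < ε) (hd : Disjoint (V : Set Src) T.leaves)
    (hn : TL.NiceT Φ ε L ((V : Set Src) ∪ T.leaves) T (rho Φ ε T ρ)) (hok : ok Φ ε T)
    (hρ : ext Φ ε T ≤ ρ) (hl : LGood Φ ε L V T ρ t) :
    Setup Φ ε L (V : Set Src) T (rho Φ ε T ρ) t :=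
  Setup.of_not_bad hΦ hε V.finite_toSet hd hl.inj
    (fun x hx hm => hl.fresh x hx (Finset.mem_coe.1 hm)) (fun _ hx => le_rho hok hρ hx) hn.alive
    hn.lives (fun x hx s hs _ => hn.good x hx s hs) hl.indep

/-- The square from the nice trees. -/
theorem square_rho_of_nice (hR : R.leaves ⊆ (U : Set Src)) (h : TGood Φ ε L hΦ hε U T W ρ t)
    (hl : LGood Φ ε L U T ρ t) (hRt : ext Φ ε R ≤ t) (nU : Nice Φ ε L U R)
    (nL : Nice Φ ε L (lnw Φ ε U T ρ) R) (hK : GoodK Φ ε L (rm U R) R (krs Φ ε T ρ) t)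
    (hn : TL.NiceT Φ ε L (rm U R ∪ T.leaves : Set Src) T (rho Φ ε T ρ))
    (hlV : LGood Φ ε L (rm U R) T ρ t) :
    FB.Sys.Square (Y Φ ε L hΦ hε) (rm W R) (rm U R) W U t := by
  classical
  have hok := h.ok
  have hokR := nU.ok
  have hset := h.setup hl
  have hVU : (rm U R : Set Src) ⊆ (U : Set Src) := fun a ha => (mem_rm.1 ha).1
  have hext : ext Φ ε T ≤ ρ := (alive_pre h.alive).ext_le
  have hrmW := coe_rm_of_disjoint hR h.disj h.eq
  have hsV : Setup Φ ε L (rm U R : Set Src) T (rho Φ ε T ρ) t :=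
    NiceT.setup_rho hΦ hε (h.disj.mono_left hVU) hn hok hext hlV
  rw [← hrmW] at hn
  have hNs : srcs Φ ε R ⊆ srcs Φ ε R ∪ krs Φ ε T ρ := Finset.subset_union_left
  have hTs : krs Φ ε T ρ ⊆ srcs Φ ε R ∪ krs Φ ε T ρ := Finset.subset_union_right
  have h0 := Finset.empty_subset (srcs Φ ε R ∪ krs Φ ε T ρ)
  have hTR : ∀ a ∈ krs Φ ε T ρ, a ∉ U := by
    intro a ha haU
    obtain ⟨x, hx, rfl⟩ := (mem_krs hok).1 ha
    exact hl.fresh x hx haU
  have eV : wF (rm U R) sgl ∅ = rm U R := wF_empty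
  have hdR : ∀ I, (∀ a ∈ I, a ∉ U) → Disjoint (wF (rm U R) sgl I : Set Src) R.leaves := by
    intro I hI
    refine disjoint_left.2 fun a h1 h2 => ?_
    rcases mem_wF_sgl'.1 h1 with h1 | h1
    · exact (mem_rm.1 h1).2 h2
    · exact hI a h1 (Finset.mem_coe.1 (hR h2))
  have hwR : ∀ I, (wF U sgl I : Set Src) = (wF (rm U R) sgl I : Set Src) ∪ R.leaves := by
    intro I
    ext a
    rw [mem_union, mem_wF_sgl', mem_wF_sgl', mem_rm]
    constructor
    · rintro (h | h)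
      · by_cases h2 : a ∈ R.leaves
        · exact Or.inr h2
        · exact Or.inl (Or.inl ⟨h, h2⟩)
      · exact Or.inl (Or.inr h)
    · rintro ((h | h) | h)
      · exact Or.inl h.1
      · exact Or.inr h
      · exact Or.inl (Finset.mem_coe.1 (hR h))
  -- the representations
  have r1 : MRep Φ ε L W (lnw Φ ε U T ρ) (fs Φ ε (rho Φ ε T ρ) T) t := (h.rep hl).mrep
  have r2 : MRep Φ ε L (lnw Φ ε U T ρ) (wF (rm U R) sgl (krs Φ ε T ρ ∪ srcs Φ ε R))
      (fs Φ ε (rho Φ ε R (ext Φ ε R)) R) t := by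
    refine mrep_of_good hΦ hε (linePk_srcs hK.inj) hNs hTs hK.disj.symm hK.good hRt (hdR _ hTR) ?_ nL
    rw [lnw_eq_krs]
    exact hwR _
  have r3 := r1.trans hΦ hε r2
  have r4 : MRep Φ ε L U (wF (rm U R) sgl (∅ ∪ srcs Φ ε R)) (fs Φ ε (rho Φ ε R (ext Φ ε R)) R) t := by
    refine mrep_of_good hΦ hε (linePk_srcs hK.inj) hNs h0 (Finset.disjoint_empty_left _) hK.good hRt
      (hdR _ fun a ha => absurd ha (Finset.notMem_empty a)) ?_ nU
    rw [← hwR, wF_empty]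
  have r5 : MRep Φ ε L (rm W R) (wF (rm U R) sgl (∅ ∪ krs Φ ε T ρ))
      (fs Φ ε (rho Φ ε T ρ) T) t := by
    rw [Finset.empty_union]
    refine MRep.of_setup hΦ hε hsV hrmW (coe_wF_krs hok) (fun a ha => ?_)
      (fun x hx => (rho_le hΦ hε hok hext hx).trans h.le) hn.good
    have ha' := Finset.mem_coe.2 ha
    rw [hrmW] at ha'
    rcases ha' with ha' | ha'
    · exact (hK.good.birthV a (Finset.mem_coe.1 ha')).1
    · exact birth_of_ok hok a ha'
  have r6 : MRep Φ ε L (rm U R) (wF (rm U R) sgl ∅) leaf t := by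
    rw [eV]
    exact MRep.refl fun a ha => (hK.good.birthV a ha).1
  -- the histories
  have fT_U : ∀ a ∈ U, fs Φ ε (rho Φ ε T ρ) T a = leaf a := fun a ha =>
    fs_of_mem hset (Finset.mem_coe.2 ha)
  have fR_not : ∀ a, a ∉ srcs Φ ε R → fs Φ ε (rho Φ ε R (ext Φ ε R)) R a = leaf a := by
    intro a ha
    unfold fs
    rw [dif_neg]
    rintro ⟨z, hz, rfl⟩
    rw [msrc_rho hokR hz] at ha
    exact ha (mem_srcs.2 ⟨z, hz, rfl⟩)
  have hVR : ∀ a ∈ rm U R, a ∉ srcs Φ ε R := fun a ha h' =>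
    Finset.disjoint_left.1 (hK.good.disjV a (hNs h')) ha (Finset.mem_singleton_self _)
  have fR_R : ∀ z ∈ outs R, fs Φ ε (rho Φ ε R (ext Φ ε R)) R (rsrc Φ ε z) = z := by
    intro z hz
    have h1 : ∃ z' ∈ outs R, msrc Φ ε (rho Φ ε R (ext Φ ε R)) z' = rsrc Φ ε z :=
      ⟨z, hz, msrc_rho hokR hz⟩
    unfold fs
    rw [dif_pos h1]
    have h2 := h1.choose_spec
    rw [msrc_rho hokR h2.1] at h2
    exact hK.inj h2.1 hz h2.2
  obtain ⟨f, hf⟩ : ∃ f : Src → CTree, f = fun a => sbs (fs Φ ε (rho Φ ε T ρ) T)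
    (fs Φ ε (rho Φ ε R (ext Φ ε R)) R a) := ⟨_, rfl⟩
  rw [← hf] at r3
  have e4 : ∀ a ∈ wF (rm U R) sgl (∅ ∪ srcs Φ ε R), fs Φ ε (rho Φ ε R (ext Φ ε R)) R a = f a := by
    intro a ha
    rw [hf]
    rcases mem_wF_sgl.1 ha with ha | ha
    · beta_reduce
      rw [fR_not a (hVR a ha)]
      exact (fT_U a (mem_rm.1 ha).1).symm
    · rw [Finset.empty_union] at ha
      obtain ⟨z, hz, rfl⟩ := mem_srcs.1 ha
      beta_reduce
      rw [fR_R z hz, sbs_congr (g := leaf) fun σ hσ => fT_U σ (Finset.mem_coe.1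
        (hR (outs_leaves hz hσ))), sbs_leaf]
  have e5 : ∀ a ∈ wF (rm U R) sgl (∅ ∪ krs Φ ε T ρ), fs Φ ε (rho Φ ε T ρ) T a = f a := by
    intro a ha
    rw [hf]
    beta_reduce
    rw [fR_not a]
    · rfl
    · rcases mem_wF_sgl.1 ha with ha | ha
      · exact hVR a ha
      · rw [Finset.empty_union] at ha
        exact fun h' => Finset.disjoint_left.1 hK.disj h' ha
  have e6 : ∀ a ∈ wF (rm U R) sgl ∅, leaf a = f a := by
    intro a ha
    rw [hf]
    rcases mem_wF_sgl.1 ha with ha | ha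
    · beta_reduce
      rw [fR_not a (hVR a ha)]
      exact (fT_U a (mem_rm.1 ha).1).symm
    · exact absurd ha (Finset.notMem_empty a)
  have r4' := r4.congr hΦ hε e4
  have r5' := r5.congr hΦ hε e5
  have r6' := r6.congr hΦ hε e6
  rw [Finset.empty_union] at r4' r5'
  -- the four worlds
  let Js : Fin 4 → Finset Src := ![krs Φ ε T ρ, ∅, krs Φ ε T ρ ∪ srcs Φ ε R, srcs Φ ε R]
  let Wr : Fin 4 → Finset Src := ![rm W R, rm U R, W, U]
  have hJs : ∀ k, Js k ⊆ krs Φ ε T ρ ∪ srcs Φ ε R := by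
    intro k
    fin_cases k
    · exact Finset.subset_union_left
    · exact Finset.empty_subset _
    · exact Finset.Subset.refl _
    · exact Finset.subset_union_right
  have hRr : ∀ k, MRep Φ ε L (Wr k) (wF (rm U R) sgl (Js k)) f t := by
    intro k
    fin_cases k
    · exact r5'
    · exact r6'
    · exact r3
    · exact r4'
  have hu : krs Φ ε T ρ ∪ srcs Φ ε R ⊆ srcs Φ ε R ∪ krs Φ ε T ρ := Finset.union_subset hTs hNs
  have hne : Nonempty Src := ⟨rsrc Φ ε T⟩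
  have key := MRep.dep_on (K := srcs Φ ε R ∪ krs Φ ε T ρ) (Wl := wF (rm U R) sgl) hΦ hε hRr
    (fun k => (hJs k).trans hu)
    (fun k k' b hb b' hb' he => r3.bij.injOn (Finset.mem_coe.2 (wF_mono (hJs k) hb))
      (Finset.mem_coe.2 (wF_mono (hJs k') hb')) he)
    fun a => hK.good.sta_dep hΦ hε a
  refine square_of_dep (I := krs Φ ε T ρ) (J := ∅) (N := srcs Φ ε R) hK.disj.symm
    (Finset.disjoint_empty_left _) fun a => ?_
  obtain ⟨i₀, hi₀⟩ := key a
  rw [Finset.empty_union]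
  exact ⟨i₀, hi₀ 0 1, hi₀ 0 2, hi₀ 1 3, hi₀ 2 3⟩

/-- **Squares with an inserted tree**, births at `ρ`. -/
theorem square_cases_rho (hR : R.leaves ⊆ (U : Set Src)) (h : TGood Φ ε L hΦ hε U T W ρ t)
    (hl : LGood Φ ε L U T ρ t) (hRt : ext Φ ε R ≤ t) (nU : Nice Φ ε L U R)
    (nL : Nice Φ ε L (lnw Φ ε U T ρ) R) (hK : GoodK Φ ε L (rm U R) R (krs Φ ε T ρ) t) :
    FB.Sys.Square (Y Φ ε L hΦ hε) (rm W R) (rm U R) W U t ∨
      Drp Φ ε L (rm U R) R (outs T) (rho Φ ε T ρ) t := by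
  rcases nice_rm hR h hl nL hK with ⟨hn, hlV⟩ | h1
  · exact Or.inl (square_rho_of_nice hR h hl hRt nU nL hK hn hlV)
  · exact Or.inr h1

/-- The tree `R` in the world of lines. -/
theorem nice_lnw (hRt : ext Φ ε R ≤ t) (nU : Nice Φ ε L U R)
    (hA : ∀ a ∈ R.leaves, a ∉ (Y Φ ε L hΦ hε).D U (lnw Φ ε U T ρ) t) :
    Nice Φ ε L (lnw Φ ε U T ρ) R :=
  nU.congr hΦ hε hRt fun a ha hD => hA a ha (by rw [FB.Sys.D_comm]; exact hD)

/-- **The trees which are related to an inserted tree**, births at `ρ`. -/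
theorem rel_cases_rho (h : TGood Φ ε L hΦ hε U T W ρ t) (hl : LGood Φ ε L U T ρ t)
    (hR : Rel L hΦ hε W U t R) :
    (∃ a ∈ R.leaves, a ∈ (Y Φ ε L hΦ hε).D U (lnw Φ ε U T ρ) t) ∨
      ¬GoodK Φ ε L (rm U R) R (krs Φ ε T ρ) t ∨
        Drp Φ ε L (rm U R) R (outs T) (rho Φ ε T ρ) t := by
  by_contra hcon
  push Not at hcon
  obtain ⟨h1, h2, h3⟩ := hcon
  have nU := Nice.of_not_exp hR.alive hR.root
  exact (square_cases_rho hR.sub h hl hR.ext_le nU (nice_lnw hR.ext_le nU h1) h2).elim hR.rel h3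

end Vale.Agent.P119.PB
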