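import Vale.Agent.P119.FB.Unfelt
import Vale.Agent.P119.PB.SqRho
import Vale.Agent.P119.PB.RelCases2
import Vale.Agent.P119.TL.Without2

/-!
# P119, block PROB: an inserted tree which is undisturbed without `R` (`helper472`)

* `DrpC`: `Drp` with a COLLIDING tree `y`;
* **`square_cases_c`**: `square_cases_rho` if `T` is alive without `R`, with `DrpC`;
* `lives_of_not_tri`: without third body there is no other hit at the time of the hit;
* **`square_hit6_c`**: the square of `e` and of the tree which is hit by `m`.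
-/

open MeasureTheory Filter Topology Set
open scoped ENNReal NNReal

noncomputable section

namespace Vale.Agent.P119.PB

open M CTree KU FB RB AU TL IND

variable {Φ : E3 → ℝ} {ε : ℝ} {L : ℕ} {hΦ : IsPotential Φ} {hε : 0 < ε}
  {U V W K : Finset Src} {R T : CTree} {ρ t s : ℝ} {a e m : Src}

/-- A COLLIDING tree `y`, which is live in `V` and is not live in `V` with one of the lines of `R`, is
in contact with one of the particles of `O` before the birth of its line. -/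
def DrpC (Φ : E3 → ℝ) (ε : ℝ) (L : ℕ) (V : Finset Src) (R : CTree) (O : Set CTree)
    (r : CTree → ℝ) (t : ℝ) : Prop :=
  ∃ z ∈ outs R, ∃ x ∈ O, ∃ y s, s ≤ t ∧ x.root.1 ≤ s ∧ s < r x ∧ Bg Φ ε y s ∧ s < ext Φ ε y ∧
    live Φ ε L (V : Set Src) y s ∧ ¬live Φ ε L (insert (rsrc Φ ε z) (V : Set Src)) y s ∧
    Ctc ε (st Φ ε y s) (st Φ ε (cur Φ ε x s) s)

theorem DrpC.drp {O : Set CTree} {r : CTree → ℝ} (h : DrpC Φ ε L V R O r t) :
    Drp Φ ε L V R O r t := by
  obtain ⟨z, hz, x, hx, y, s, h1, h2, h3, h4, -, h5⟩ := h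
  exact ⟨z, hz, x, hx, y, s, h1, h2, h3.le, h4, h5⟩

/-- **The tree `T` without `R`**, if it is undisturbed. -/
theorem nice_rm_c (hR : R.leaves ⊆ (U : Set Src)) (h : TGood Φ ε L hΦ hε U T W ρ t)
    (hl : LGood Φ ε L U T ρ t) (nR : Nice Φ ε L (lnw Φ ε U T ρ) R)
    (hK : GoodK Φ ε L (rm U R) R (krs Φ ε T ρ) t)
    (ha : M.alive Φ ε L (rm U R ∪ T.leaves : Set Src) T ρ)
    (hlv : ρ = ext Φ ε T ∨ M.lives Φ ε L (rm U R ∪ T.leaves : Set Src) T ρ) :
    (NiceT Φ ε L (rm U R ∪ T.leaves : Set Src) T (rho Φ ε T ρ) ∧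
      LGood Φ ε L (rm U R) T ρ t) ∨ DrpC Φ ε L (rm U R) R (outs T) (rho Φ ε T ρ) t := by
  classical
  have hok := h.ok
  have hset := h.setup hl
  have hne : Nonempty Src := ⟨rsrc Φ ε T⟩
  have hVU : (rm U R : Set Src) ⊆ (U : Set Src) := fun a ha => (mem_rm.1 ha).1
  have hKR : ∀ a ∈ krs Φ ε T ρ, a ∉ R.leaves := by
    intro a ha haR
    obtain ⟨x, hx, rfl⟩ := (mem_krs hok).1 ha
    exact hl.fresh x hx (Finset.mem_coe.1 (hR haR))
  have hIs : krs Φ ε T ρ ⊆ srcs Φ ε R ∪ krs Φ ε T ρ := Finset.subset_union_right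
  have hNs : srcs Φ ε R ⊆ srcs Φ ε R ∪ krs Φ ε T ρ := Finset.subset_union_left
  have hw : (lnw Φ ε U T ρ : Set Src) = (wF (rm U R) sgl (krs Φ ε T ρ) : Set Src) ∪ R.leaves := by
    rw [lnw_eq_krs]
    ext a
    rw [mem_union, mem_wF_sgl', mem_wF_sgl', mem_rm]
    constructor
    · rintro (h | h)
      · by_cases h2 : a ∈ R.leaves
        · exact Or.inr h2
        · exact Or.inl (Or.inl ⟨h, h2⟩)
      · exact Or.inl (Or.inr h)
    · rintro ((h | h) | h)
      · exact Or.inl h.1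
      · exact Or.inr h
      · exact Or.inl (Finset.mem_coe.1 (hR h))
  have hdR : Disjoint (wF (rm U R) sgl (krs Φ ε T ρ) : Set Src) R.leaves := by
    refine disjoint_left.2 fun a h1 h2 => ?_
    rcases mem_wF_sgl'.1 h1 with h1 | h1
    · exact (mem_rm.1 h1).2 h2
    · exact hKR a h1 h2
  -- the two replacements
  have hsR : Setup Φ ε L (wF (rm U R) sgl (krs Φ ε T ρ) : Set Src) R
      (rho Φ ε R (ext Φ ε R)) t :=
    setup_of_good hΦ hε (linePk_srcs hK.inj) hNs hIs hK.disj.symm hK.good hdR hw nR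
  have hlR : (wF (rm U R) sgl (krs Φ ε T ρ ∪ srcs Φ ε R) : Set Src) =
      lwd Φ ε (rho Φ ε R (ext Φ ε R)) (wF (rm U R) sgl (krs Φ ε T ρ) : Set Src) R :=
    wF_eq_lwd (linePk_srcs hK.inj) nR.ok
  have htrans : ∀ q s, s ≤ t → q.leaves ⊆ (wF (rm U R) sgl (krs Φ ε T ρ) : Set Src) →
      live Φ ε L (wF (rm U R) sgl (krs Φ ε T ρ ∪ srcs Φ ε R) : Set Src) q s →
      live Φ ε L (W : Set Src) (th Φ ε (rho Φ ε T ρ) T q) s := by
    intro q s hs hq hql
    rw [hlR] at hql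
    have h1 := ((TL.live_th hΦ hε hsR hs hql.sub).1 hql).1
    rw [th_of_subset hsR hq, ← hw, coe_lnw hok] at h1
    have h2 := ((TL.live_th hΦ hε hset hs h1.sub).1 h1).1
    rw [h.eq]
    exact h2
  have hinj := hl.inj
  have hfr : ∀ x ∈ outs T, msrc Φ ε (rho Φ ε T ρ) x ∉ (rm U R : Set Src) := fun x hx hm =>
    hl.fresh x hx (Finset.mem_coe.1 (hVU hm))
  have hdT : Disjoint (rm U R : Set Src) T.leaves := h.disj.mono_left hVU
  have hind : ∀ p y s, s ≤ t → live Φ ε L (lwd Φ ε (rho Φ ε T ρ) (rm U R : Set Src) T) p s →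
      alive Φ ε L (lwd Φ ε (rho Φ ε T ρ) (rm U R : Set Src) T) y s → Disjoint p.leaves y.leaves →
      hit Φ ε p y s → p.leaves ⊆ (rm U R : Set Src) ∨ y.leaves ⊆ (rm U R : Set Src) := by
    refine indep_of_NI hΦ hε (Wc := fun J => (wF (rm U R) sgl J : Set Src)) hK.good.cubeW hK.good.ni
      hIs ?_ (msrc Φ ε (rho Φ ε T ρ)) (fun x hx => ?_) hinj
    · exact (coe_wF_krs hok).symm
    · exact hK.good.idx (hIs ((mem_krs hok).2 ⟨x, hx, rfl⟩)) (Finset.mem_singleton_self _)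
  have hDD : ∀ q s, s ≤ t → Bg Φ ε q s →
      live Φ ε L (lwd Φ ε (rho Φ ε T ρ) (rm U R : Set Src) T) q s →
      live Φ ε L (W : Set Src) (th Φ ε (rho Φ ε T ρ) T q) s ∨
        (live Φ ε L (rm U R : Set Src) q s ∧ ∃ z ∈ outs R,
          ¬live Φ ε L (insert (rsrc Φ ε z) (rm U R : Set Src)) q s) := by
    intro q s hs _ hq
    rw [← coe_wF_krs hok] at hq
    obtain ⟨i, hi⟩ := hK.good.live_dep hΦ hε q hs
    have hu : krs Φ ε T ρ ∪ srcs Φ ε R ⊆ srcs Φ ε R ∪ krs Φ ε T ρ :=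
      Finset.union_subset hIs hNs
    by_cases hiN : i ∈ srcs Φ ε R
    · have hiT : i ∉ krs Φ ε T ρ := Finset.disjoint_left.1 hK.disj hiN
      by_cases hlive : live Φ ε L (wF (rm U R) sgl (krs Φ ε T ρ ∪ srcs Φ ε R) : Set Src) q s
      · exact Or.inl (htrans q s hs hq.sub hlive)
      · right
        have h1 : live Φ ε L (wF (rm U R) sgl ∅ : Set Src) q s := (hi _ _ hIs
          (Finset.empty_subset _) (iff_of_false hiT (Finset.notMem_empty _))).1 hq
        have h2 : ¬live Φ ε L (wF (rm U R) sgl {i} : Set Src) q s := fun h' => hlive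
          ((hi {i} _ (Finset.singleton_subset_iff.2 (hNs hiN)) hu
            (iff_of_true (Finset.mem_singleton_self _) (Finset.mem_union_right _ hiN))).1 h')
        rw [wF_empty] at h1
        obtain ⟨z, hz, rfl⟩ := mem_srcs.1 hiN
        rw [wF_sgl_singleton, Finset.coe_insert] at h2
        exact ⟨h1, z, hz, h2⟩
    · left
      refine htrans q s hs hq.sub ((hi _ _ hIs hu ?_).1 hq)
      rw [Finset.mem_union]
      tauto
  have hfin : ((rm U R : Set Src) ∪ T.leaves).Finite :=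
    (Finset.finite_toSet _).union T.leaves_finite
  have hal : ∀ x ∈ outs T, M.alive Φ ε L (rm U R ∪ T.leaves : Set Src) x (rho Φ ε T ρ x) := by
    intro x hx
    rcases hx with rfl | hx
    · rw [rho_self]; exact ha
    · rw [rho_exs hok hx]
      exact out_alive hΦ hε hfin ha hx
  have hlv' : ∀ x ∈ outs T, rho Φ ε T ρ x = ext Φ ε x ∨
      M.lives Φ ε L (rm U R ∪ T.leaves : Set Src) x (rho Φ ε T ρ x) := by
    intro x hx
    rcases hx with rfl | hx
    · rw [rho_self]; exact hlv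
    · exact Or.inl (rho_exs hok hx _)
  rcases nice_without_c hΦ hε (V := (rm U R : Set Src)) (W := (W : Set Src)) W.finite_toSet
    (TGood.niceT h hl) (rm U R).finite_toSet hdT hinj hfr hset.le_r
    (fun x hx => (rho_le hΦ hε hok (alive_pre h.alive).ext_le hx).trans h.le) hind hal hlv'
    (fun q s hq => hq.1.sub) hDD with h1 | h1
  · exact Or.inl ⟨h1, hinj, fun x hx hm => hfr x hx (Finset.mem_coe.2 hm), hind⟩
  · right
    obtain ⟨x, hx, q, s, h1, h2, h3, h4, h5, ⟨h6, z, hz, h7⟩, h8⟩ := h1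
    exact ⟨z, hz, x, hx, q, s, h1, h2, h3, h4, h5, h6, h7, h8⟩

/-- **Squares with an inserted tree which is undisturbed without `R`.** -/
theorem square_cases_c (hR : R.leaves ⊆ (U : Set Src)) (h : TGood Φ ε L hΦ hε U T W ρ t)
    (hl : LGood Φ ε L U T ρ t) (hRt : ext Φ ε R ≤ t) (nU : Nice Φ ε L U R)
    (nL : Nice Φ ε L (lnw Φ ε U T ρ) R) (hK : GoodK Φ ε L (rm U R) R (krs Φ ε T ρ) t)
    (ha : M.alive Φ ε L (rm U R ∪ T.leaves : Set Src) T ρ)
    (hlv : ρ = ext Φ ε T ∨ M.lives Φ ε L (rm U R ∪ T.leaves : Set Src) T ρ) :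
    FB.Sys.Square (RB.Y Φ ε L hΦ hε) (rm W R) (rm U R) W U t ∨
      DrpC Φ ε L (rm U R) R (outs T) (rho Φ ε T ρ) t := by
  rcases nice_rm_c hR h hl nL hK ha hlv with ⟨hn, hlV⟩ | h1
  · exact Or.inl (square_rho_of_nice hR h hl hRt nU nL hK hn hlV)
  · exact Or.inr h1

/-! ### The hit -/

/-- No other hit at the time of the hit. -/
theorem lives_of_not_tri (hΦ : IsPotential Φ) (hε : 0 < ε)
    (ha : M.alive Φ ε L (W : Set Src) T (hitT ε (m.2.1, CTree.ln Φ ε T)))
    (hlt : ext Φ ε T < hitT ε (m.2.1, CTree.ln Φ ε T))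
    (hx : Exits Φ (rel ε (CTree.ln Φ ε T, m.2.1))) (hm : Meets ε (m.2.1, CTree.ln Φ ε T))
    (hle : hitT ε (m.2.1, CTree.ln Φ ε T) ≤ t) (hn : ¬TriW Φ ε L W T m t) :
    M.lives Φ ε L (W : Set Src) T (hitT ε (m.2.1, CTree.ln Φ ε T)) := by
  have hfin := W.finite_toSet
  obtain ⟨hl, hx'⟩ := (alive_iff_live hΦ hε hfin).1 ha
  rw [M.lives_iff]
  refine ⟨hl, fun T' hh ha' => hn ?_⟩
  obtain ⟨h1, h2, h3⟩ := (hit_after hΦ hε hl.ok hlt.le).1 hh
  obtain ⟨h4, -⟩ := (alive_iff_live hΦ hε hfin).1 ha'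
  refine ⟨hitT ε (m.2.1, CTree.ln Φ ε T), hle, sig_eq.le, ?_, T', h4, fun hr => ?_, Or.inl ?_⟩
  · rw [ext_eq hΦ]
    exact hitT_lt_sepT hΦ hε ((exits_swap hΦ (CTree.ln Φ ε T, m.2.1)).2 hx) hm.2
  · exact disjoint_left.1 h2 T.root_mem_leaves (hr ▸ T'.root_mem_leaves)
  · rw [st_after hΦ hε h4.ok h1]
    exact h3

open Classical in
/-- **The square of `e` and of the tree which is hit by `m`**, if this tree is alive without `e`. -/
theorem square_hit6_c (hV : ∀ a ∈ V, 0 ≤ a.1) (he0 : 0 ≤ e.1) (het : e.1 ≤ t) (hed : e.2.2 ≤ L)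
    (hd : Disjoint (V : Set Src) T.leaves) (heV : e ∉ V) (h : Hit6 L hΦ hε t V e m T)
    (hal : M.alive Φ ε L (addT V T : Set Src) T (hitT ε (m.2.1, CTree.ln Φ ε T)))
    (hN : NoExc Φ ε L t m (insert e V) T) (hT : ¬TriW Φ ε L (addT V T) T m t)
    (hm : Meets ε (m.2.1, CTree.ln Φ ε T)) (hle : hitT ε (m.2.1, CTree.ln Φ ε T) ≤ t)
    (hK : GoodK Φ ε L V (leaf e) (krs Φ ε T (hitT ε (m.2.1, CTree.ln Φ ε T))) t) :
    FB.Sys.Square (RB.Y Φ ε L hΦ hε) V (insert e V) (addT V T) (addT (insert e V) T) t ∨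
      DrpC Φ ε L V (leaf e) (outs T) (rho Φ ε T (hitT ε (m.2.1, CTree.ln Φ ε T))) t := by
  have hb : ∀ a ∈ insert e V, 0 ≤ a.1 := by
    intro a ha
    rcases Finset.mem_insert.1 ha with rfl | ha
    · exact he0
    · exact hV a ha
  have hdU : Disjoint ((insert e V : Finset Src) : Set Src) T.leaves := by
    rw [Finset.coe_insert]
    exact disjoint_left.2 fun a ha haT => by
      rcases ha with rfl | ha
      · exact h.notMem haT
      · exact disjoint_left.1 hd ha haT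
  obtain ⟨h1, h2⟩ := h.hit.tgood hN hm hle hdU hb
  have hrm := rm_insert_leaf heV
  have hR : (leaf e).leaves ⊆ ((insert e V : Finset Src) : Set Src) := by
    intro a ha
    rw [show a = e from ha]
    exact Finset.mem_coe.2 (Finset.mem_insert_self _ _)
  have hrmW : rm (addT (insert e V) T) (leaf e) = addT V T := by
    ext a
    rw [mem_rm, mem_addT, mem_addT, Finset.mem_insert]
    constructor
    · rintro ⟨(rfl | h) | h, h'⟩
      · exact absurd rfl h'
      · exact Or.inl h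
      · exact Or.inr h
    · rintro (h' | h')
      · exact ⟨Or.inl (Or.inr h'), fun h'' => heV ((show a = e from h'') ▸ h')⟩
      · exact ⟨Or.inr h', fun h'' => h.notMem ((show a = e from h'') ▸ h')⟩
  have he : ∀ W : Finset Src, e ∈ W → Nice Φ ε L W (leaf e) := fun W heW =>
    nice_leaf hΦ hε heW ⟨he0, hed⟩
  have heL : e ∈ lnw Φ ε (insert e V) T (hitT ε (m.2.1, CTree.ln Φ ε T)) := by
    rw [lnw_eq_krs, mem_wF_sgl]
    exact Or.inl (Finset.mem_insert_self _ _)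
  have hlv := lives_of_not_tri (W := addT V T) (L := L) hΦ hε hal h.hit.lt hN.exits hm hle hT
  have e1 : ((rm (insert e V) (leaf e) : Finset Src) : Set Src) ∪ T.leaves =
      (addT V T : Set Src) := by rw [hrm, coe_addT]
  have key := square_cases_c hR h1 h2 het (he _ (Finset.mem_insert_self _ _)) (he _ heL)
    (by rw [hrm]; exact hK) (by rw [e1]; exact hal) (Or.inr (by rw [e1]; exact hlv))
  rw [hrmW, hrm] at key
  exact key.imp square_flip id

end Vale.Agent.P119.PB
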