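import Vale.Agent.P119.PB.RelX
import Vale.Agent.P119.IND.ExcProg

/-!
# P119, block PROB: related trees over the structure laws (`helper423`)

`rel_lim`: the expected number of the related trees, integrated over a structure law with `m` trees,
`q` free lines and `c₀` classes, is `o(μ^{c₀ + 1 - q})`, if the bad event for one more tree `R`
(`m + 1` trees, `c₀ + 1` classes) has the outputs of `exc_lim_prog`.
-/

open MeasureTheory Filter Topology Set
open scoped ENNReal NNReal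

noncomputable section

namespace Vale.Agent.P119.PB

open M CTree KU FB RB AU FL GC MM IND PB.CT

namespace RelX

variable {Φ : E3 → ℝ} {ε : ℝ} {L : ℕ} {f₀ : Ph → ℝ} {κ₀ b c : ℝ} {m q : ℕ}

/-! ### One more tree -/

/-- The integral over `m` trees and one more tree. -/
theorem lintegral_snoc (ν : Measure CTree) [SigmaFinite ν]
    {F : (Fin (m + 1) → CTree) → ℝ≥0∞} (hF : Measurable F) :
    ∫⁻ T : Fin (m + 1) → CTree, F T ∂(Measure.pi fun _ : Fin (m + 1) => ν) =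
      ∫⁻ T : Fin m → CTree, ∫⁻ R, F (Fin.snoc T R) ∂ν ∂(Measure.pi fun _ : Fin m => ν) := by
  have h1 := measurePreserving_piFinSuccAbove (fun _ : Fin (m + 1) => ν) (Fin.last m)
  have h2 := h1.symm.lintegral_comp_emb (MeasurableEquiv.measurableEmbedding _) F
  rw [← h2]
  have h3 : Measurable fun p : CTree × (Fin m → CTree) =>
      F ((MeasurableEquiv.piFinSuccAbove (fun _ : Fin (m + 1) => CTree) (Fin.last m)).symm p) :=
    hF.comp (MeasurableEquiv.measurable _)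
  rw [lintegral_prod_symm _ h3.aemeasurable]
  refine lintegral_congr fun T => lintegral_congr fun R => ?_
  congr 1
  exact Fin.insertNth_last' R T

/-! ### A fixed structure -/

theorem rs_const_finset {X : Type*} [MeasurableSpace X] (B : Finset Src) :
    MM.RS fun _ : X => (B : Set Src) :=
  ⟨B, inferInstance, fun i _ => i.1, fun _ => univ, fun _ => measurable_const,
    fun _ => MeasurableSet.univ, fun _ a => ⟨fun h => ⟨⟨a, h⟩, mem_univ _, rfl⟩,
      fun ⟨i, _, h⟩ => h ▸ i.2⟩⟩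

open Classical in
/-- **The expected number of the related trees**, for a fixed structure. -/
theorem lintegral_rel_le (hΦ : IsPotential Φ) (h : GoodDatum f₀ κ₀) (hε : 0 < ε) {t K : ℝ}
    (ht : 0 ≤ t) (hK : 1 ≤ K) {P : Conf Ph → CTree → Prop} {W₂ : Conf Ph → Finset Src}
    {B : Finset Src}
    (hP : ∀ w R, P w R → alive Φ ε L (W₂ w : Set Src) R (ext Φ ε R) ∧ ext Φ ε R ≤ t)
    (hW : ∀ w, ∀ a ∈ W₂ w, a ∈ wS (pts w) ∨ a ∈ B) {Bad : Finset Src → CTree → Prop}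
    (hm : MeasurableSet {p : CTree × Conf Ph | Bad (wS (pts p.2)) p.1})
    {Alt : Conf Ph → Src → Prop}
    (h1 : ∀ w R, P w R → R.leaves ⊆ (wS (pts w) : Set Src) →
      (∃ a ∈ R.leaves, Alt w a) ∨ Bad (rm (wS (pts w)) R) R)
    (h2 : ∀ w, ∀ a ∈ wS (pts w), Alt w a → Bad (rm (wS (pts w)) (leaf a)) (leaf a)) :
    ∫⁻ w, (∑' R : CTree, if P w R then wln Φ ε R else 0) ∂(PP f₀ ε) ≤
      (ENNReal.ofReal ((1 + K) * 2 ^ (L + 1)) + 1) * QB Φ ε L f₀ t Bad +
        (ENNReal.ofReal ((1 + K) * 2 ^ (L + 1)) * B.card +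
          ENNReal.ofReal (2 * (L + 1) / K) * (muE ε * m2 f₀ + ENNReal.ofReal (EW B))) := by
  have hprob := isProbability_PP (ε := ε) h
  obtain ⟨C₁, hC₁⟩ : ∃ C, C = ENNReal.ofReal ((1 + K) * 2 ^ (L + 1)) := ⟨_, rfl⟩
  obtain ⟨C₃, hC₃⟩ : ∃ C, C = ENNReal.ofReal (2 * (L + 1) / K) := ⟨_, rfl⟩
  have hC₁t : C₁ ≠ ∞ := by rw [hC₁]; exact ENNReal.ofReal_ne_top
  have hC₃t : C₃ ≠ ∞ := by rw [hC₃]; exact ENNReal.ofReal_ne_top
  rw [← hC₁, ← hC₃]
  have hmE : Measurable fun w : Conf Ph => C₃ * ENNReal.ofReal (EW (wS (pts w) ∪ B)) := by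
    refine (measurable_EW ?_).const_mul _
    have h5 : MM.RS fun w : Conf Ph => ((wS (pts w) : Finset Src) : Set Src) ∪ (B : Set Src) :=
      RM.rs_conf.union (rs_const_finset B)
    exact h5.congr fun w => Finset.coe_union _ _
  calc ∫⁻ w, (∑' R : CTree, if P w R then wln Φ ε R else 0) ∂(PP f₀ ε)
      ≤ ∫⁻ w, ((C₁ + 1) * NB Φ ε L t Bad (wS (pts w)) + (C₁ * B.card +
          C₃ * ENNReal.ofReal (EW (wS (pts w) ∪ B)))) ∂(PP f₀ ε) := by
        refine lintegral_mono fun w => ?_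
        have h4 := tsum_rel_le (L := L) (V := wS (pts w)) (W₂ := W₂ w) (B := B) (t := t)
          (P := P w) hΦ hε hK (hP w) (hW w) (fun a ha => ?_) (Bad := Bad) (Alt := Alt w) (h1 w)
          (h2 w)
        · rw [← hC₁, ← hC₃] at h4
          refine h4.trans ?_
          have h5 : ENNReal.ofReal (EW (W₂ w)) ≤ ENNReal.ofReal (EW (wS (pts w) ∪ B)) := by
            refine ENNReal.ofReal_le_ofReal (EW_mono fun a ha => ?_)
            rcases hW w a ha with h6 | h6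
            · exact Finset.mem_union_left _ h6
            · exact Finset.mem_union_right _ h6
          calc C₁ * (B.card + NB Φ ε L t Bad (wS (pts w))) +
                (NB Φ ε L t Bad (wS (pts w)) + C₃ * ENNReal.ofReal (EW (W₂ w)))
              ≤ C₁ * (B.card + NB Φ ε L t Bad (wS (pts w))) +
                (NB Φ ε L t Bad (wS (pts w)) + C₃ * ENNReal.ofReal (EW (wS (pts w) ∪ B))) := by
                gcongr
            _ = _ := by ring
        · obtain ⟨z, -, rfl⟩ := mem_wS.1 ha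
          exact ⟨le_rfl, ht, Nat.zero_le _⟩
    _ = (C₁ + 1) * ∫⁻ w, NB Φ ε L t Bad (wS (pts w)) ∂(PP f₀ ε) + (C₁ * B.card +
          C₃ * ∫⁻ w, ENNReal.ofReal (EW (wS (pts w) ∪ B)) ∂(PP f₀ ε)) := by
        rw [lintegral_add_right _ (hmE.const_add _), lintegral_add_right _ hmE,
          lintegral_const_mul' _ _ (ENNReal.add_ne_top.2 ⟨hC₁t, ENNReal.one_ne_top⟩),
          lintegral_const_mul' _ _ hC₃t, lintegral_const, measure_univ, mul_one]
    _ ≤ _ := by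
        have h6 := lintegral_NB_le (L := L) (t := t) hΦ h hε hm
        have h7 := lintegral_EW_union_le h hε.le B
        gcongr

/-! ### Measurability -/

theorem measurable_lns {X : Type*} [MeasurableSpace X] {s : Fin q → ℝ} {dl : Fin q → ℕ}
    {l : X → Fin q → Ph} (hl : Measurable l) (j : Fin q) : Measurable fun x => lns s dl (l x) j :=
  measurable_const.prodMk (((measurable_pi_apply j).comp hl).prodMk measurable_const)

theorem measurableSet_Base {X : Type} [MeasurableSpace X] (hΦ : IsPotential Φ) (hε : 0 < ε)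
    {T : X → Fin m → CTree} (hT : Measurable T) {s : Fin q → ℝ} {dl : Fin q → ℕ}
    {l : X → Fin q → Ph} (hl : Measurable l) :
    MeasurableSet {x | Base Φ ε (T x) (lns s dl (l x))} := by
  have hTj : ∀ j, Measurable fun x => T x j := fun j => (measurable_pi_apply j).comp hT
  have hlj := fun j => measurable_lns (s := s) (dl := dl) hl j
  have h1 : MeasurableSet (⋂ j, {x | CTree.ok Φ ε (T x j)}) :=
    MeasurableSet.iInter fun j => (hTj j) (measurableSet_ok hΦ hε.ne')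
  have h2 : MeasurableSet (⋂ i, ⋂ j, {x | i ≠ j → Disjoint (T x i).leaves (T x j).leaves}) := by
    refine MeasurableSet.iInter fun i => MeasurableSet.iInter fun j => ?_
    by_cases hij : i = j
    · simp [hij]
    · simpa [hij] using MM.measurableSet_tree_disjoint (hTj i) (hTj j)
  have h3 : MeasurableSet (⋂ i, ⋂ j, {x | lns s dl (l x) i = lns s dl (l x) j → i = j}) := by
    refine MeasurableSet.iInter fun i => MeasurableSet.iInter fun j => ?_
    by_cases hij : i = j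
    · simp [hij]
    · have h4 := (measurableSet_eq_fun (hlj i) (hlj j)).compl
      convert h4 using 1
      ext x
      simp [hij]
  have h4 : MeasurableSet (⋂ i, ⋂ j, {x | lns s dl (l x) j ∉ (T x i).leaves}) :=
    MeasurableSet.iInter fun i => MeasurableSet.iInter fun j =>
      ((MM.RS.leaves (hTj i)).measurableSet_mem_of (hlj j)).compl
  convert h1.inter (h2.inter (h3.inter h4)) using 1
  ext x
  simp only [mem_ofPred_eq, mem_inter_iff, mem_iInter]
  exact ⟨fun h => ⟨h.ok, h.disj, fun i j hij => h.inj hij, h.notMem⟩,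
    fun h => ⟨h.1, h.2.1, fun i j hij => h.2.2.1 i j hij, h.2.2.2⟩⟩

/-! ### The limit -/

theorem one_add_enB_le (hb : 0 < b) (T : Fin m → CTree) (l : Fin q → Ph) :
    1 + enB T l ≤ (1 + 8 / b) * Real.exp (b / 8 * enB T l) := by
  have h1 : b / 8 * enB T l + 1 ≤ Real.exp (b / 8 * enB T l) := Real.add_one_le_exp _
  have h2 : 0 ≤ b / 8 * enB T l := mul_nonneg (by positivity) (enB_nonneg T l)
  have h3 : enB T l ≤ 8 / b * Real.exp (b / 8 * enB T l) := by
    have h4 : enB T l = 8 / b * (b / 8 * enB T l) := by field_simp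
    calc enB T l = 8 / b * (b / 8 * enB T l) := h4
      _ ≤ _ := mul_le_mul_of_nonneg_left (by linarith) (by positivity)
  have h5 : 1 ≤ Real.exp (b / 8 * enB T l) := Real.one_le_exp h2
  nlinarith

theorem enB_snoc (T : Fin m → CTree) (R : CTree) (l : Fin q → Ph) :
    enB (Fin.snoc T R : Fin (m + 1) → CTree) l = enB T l + enT R := by
  unfold enB
  rw [Fin.sum_univ_castSucc]
  simp only [Fin.snoc_castSucc, Fin.snoc_last]
  ring

theorem wln_le_exp (hΦ : IsPotential Φ) (hε : 0 < ε) (hb : 0 < b) (R : CTree) :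
    wln Φ ε R ≤ ENNReal.ofReal (2 + 8 / b) * ENNReal.ofReal (Real.exp (b / 8 * enT R)) := by
  unfold wln
  rw [← ENNReal.ofReal_mul (by positivity)]
  refine ENNReal.ofReal_le_ofReal ?_
  have h1 := ln_sq_le_enT hΦ hε.ne' R
  have h2 : b / 8 * enT R + 1 ≤ Real.exp (b / 8 * enT R) := Real.add_one_le_exp _
  have h3 : 0 ≤ b / 8 * enT R := mul_nonneg (by positivity) (enT_nonneg R)
  have h5 : 1 ≤ Real.exp (b / 8 * enT R) := Real.one_le_exp h3
  have h4 : enT R = 8 / b * (b / 8 * enT R) := by field_simp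
  have h6 : ‖(ln Φ ε R).2‖ ≤ 1 + ‖(ln Φ ε R).2‖ ^ 2 := by nlinarith [sq_nonneg (‖(ln Φ ε R).2‖ - 1)]
  have h7 : enT R ≤ 8 / b * Real.exp (b / 8 * enT R) := by
    calc enT R = 8 / b * (b / 8 * enT R) := h4
      _ ≤ _ := mul_le_mul_of_nonneg_left (by linarith) (by positivity)
  nlinarith

theorem base_snoc {T : Fin m → CTree} {l : Fin q → Src} {R : CTree} (h : Base Φ ε T l)
    (hR : ok Φ ε R) (h1 : ∀ j, Disjoint (T j).leaves R.leaves) (h2 : ∀ j, l j ∉ R.leaves) :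
    Base Φ ε (Fin.snoc T R : Fin (m + 1) → CTree) l := by
  refine ⟨fun j => ?_, fun i j hij => ?_, h.inj, fun i j => ?_⟩
  · induction j using Fin.lastCases with
    | last => rw [Fin.snoc_last]; exact hR
    | cast j => rw [Fin.snoc_castSucc]; exact h.ok j
  · induction i using Fin.lastCases with
    | last =>
      induction j using Fin.lastCases with
      | last => exact absurd rfl hij
      | cast j => rw [Fin.snoc_last, Fin.snoc_castSucc]; exact (h1 j).symm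
    | cast i =>
      induction j using Fin.lastCases with
      | last => rw [Fin.snoc_last, Fin.snoc_castSucc]; exact h1 i
      | cast j =>
        rw [Fin.snoc_castSucc, Fin.snoc_castSucc]
        exact h.disj i j fun he => hij (by rw [he])
  · induction i using Fin.lastCases with
    | last => rw [Fin.snoc_last]; exact h2 j
    | cast i => rw [Fin.snoc_castSucc]; exact h.notMem i j

theorem measurableSet_OKt (hΦ : IsPotential Φ) (hε : 0 < ε) (t : ℝ) :
    MeasurableSet {T : CTree | OKt Φ ε L t T} :=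
  (measurableSet_ok hΦ hε.ne').inter ((M.measurable_depth (measurableSet_Iic (a := L))).inter
    (measurableSet_le (measurable_ext hΦ hε.ne') measurable_const))

/-- The weight of the structure with one more tree. -/
def Wsn (Φ : E3 → ℝ) (ε : ℝ) (L : ℕ) (t : ℝ) (s : Fin q → ℝ) (dl : Fin q → ℕ)
    (W : (Fin m → CTree) → (Fin q → Ph) → ℝ≥0∞) (T : Fin (m + 1) → CTree) (l : Fin q → Ph) :
    ℝ≥0∞ :=
  W (Fin.init T) l * (ind (OKt Φ ε L t (T (Fin.last m))) * (wln Φ ε (T (Fin.last m)) *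
    ind (Base Φ ε T (lns s dl l))))

theorem measurable_Wsn (hΦ : IsPotential Φ) (hε : 0 < ε) (t : ℝ) (s : Fin q → ℝ) (dl : Fin q → ℕ)
    {W : (Fin m → CTree) → (Fin q → Ph) → ℝ≥0∞}
    (hW : Measurable fun p : (Fin m → CTree) × (Fin q → Ph) => W p.1 p.2) :
    Measurable fun p : (Fin (m + 1) → CTree) × (Fin q → Ph) => Wsn Φ ε L t s dl W p.1 p.2 := by
  have h1 : Measurable fun p : (Fin (m + 1) → CTree) × (Fin q → Ph) =>
      ((Fin.init p.1 : Fin m → CTree), p.2) := by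
    refine Measurable.prodMk ?_ measurable_snd
    refine measurable_pi_lambda _ fun j => ?_
    exact (measurable_pi_apply _).comp measurable_fst
  have h2 : Measurable fun p : (Fin (m + 1) → CTree) × (Fin q → Ph) => p.1 (Fin.last m) :=
    (measurable_pi_apply _).comp measurable_fst
  exact (hW.comp h1).mul ((measurable_ind (h2 (measurableSet_OKt hΦ hε t))).mul
    (((measurable_wln hΦ hε).comp h2).mul
      (measurable_ind (measurableSet_Base hΦ hε measurable_fst measurable_snd))))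

theorem Wsn_snoc {s : Fin q → ℝ} {dl : Fin q → ℕ} {t : ℝ}
    {W : (Fin m → CTree) → (Fin q → Ph) → ℝ≥0∞} (T : Fin m → CTree) (R : CTree)
    (l : Fin q → Ph) : Wsn Φ ε L t s dl W (Fin.snoc T R) l = W T l * (ind (OKt Φ ε L t R) *
      (wln Φ ε R * ind (Base Φ ε (Fin.snoc T R : Fin (m + 1) → CTree) (lns s dl l)))) := by
  unfold Wsn
  rw [Fin.init_snoc, Fin.snoc_last]

/-- The structure with one more tree. -/
theorem eq_snoc (T : Fin (m + 1) → CTree) :
    T = (Fin.snoc (Fin.init T : Fin m → CTree) (T (Fin.last m)) : Fin (m + 1) → CTree) :=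
  (Fin.snoc_init_self T).symm

theorem Wsn_ne_zero {s : Fin q → ℝ} {dl : Fin q → ℕ} {t : ℝ}
    {W : (Fin m → CTree) → (Fin q → Ph) → ℝ≥0∞} {T : Fin (m + 1) → CTree} {l : Fin q → Ph}
    (h : Wsn Φ ε L t s dl W T l ≠ 0) : W (Fin.init T) l ≠ 0 ∧ OKt Φ ε L t (T (Fin.last m)) ∧
      Base Φ ε T (lns s dl l) := by
  unfold Wsn at h
  refine ⟨fun h0 => h (by rw [h0, zero_mul]), ?_, ?_⟩
  · by_contra hcon
    exact h (by rw [ind_of_not hcon, zero_mul, mul_zero])
  · by_contra hcon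
    exact h (by rw [ind_of_not hcon, mul_zero, mul_zero, mul_zero])

theorem Wsn_le (hΦ : IsPotential Φ) (hε : 0 < ε) (hb : 0 < b) (hc : 0 ≤ c) {s : Fin q → ℝ}
    {dl : Fin q → ℕ} {t : ℝ} {W : (Fin m → CTree) → (Fin q → Ph) → ℝ≥0∞} {CW : ℝ≥0∞}
    (hWb : ∀ T l, W T l ≤ CW * ENNReal.ofReal (Real.exp (c * enB T l)))
    (T : Fin (m + 1) → CTree) (l : Fin q → Ph) : Wsn Φ ε L t s dl W T l ≤
      CW * ENNReal.ofReal (2 + 8 / b) * ENNReal.ofReal (Real.exp ((c + b / 8) * enB T l)) := by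
  have e1 : enB T l = enB (Fin.init T : Fin m → CTree) l + enT (T (Fin.last m)) := by
    conv_lhs => rw [eq_snoc T]
    exact enB_snoc _ _ _
  have h1 : Wsn Φ ε L t s dl W T l ≤ W (Fin.init T) l * wln Φ ε (T (Fin.last m)) := by
    unfold Wsn
    refine mul_le_mul_right ?_ _
    calc ind (OKt Φ ε L t (T (Fin.last m))) * (wln Φ ε (T (Fin.last m)) *
          ind (Base Φ ε T (lns s dl l))) ≤ 1 * (wln Φ ε (T (Fin.last m)) * 1) :=
          mul_le_mul' (ind_le_one _) (mul_le_mul_right (ind_le_one _) _)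
      _ = _ := by rw [one_mul, mul_one]
  refine h1.trans ((mul_le_mul' (hWb _ _) (wln_le_exp hΦ hε hb _)).trans ?_)
  rw [e1]
  have h2 : 0 ≤ enB (Fin.init T : Fin m → CTree) l := enB_nonneg _ _
  have h3 : 0 ≤ enT (T (Fin.last m)) := enT_nonneg _
  calc CW * ENNReal.ofReal (Real.exp (c * enB (Fin.init T : Fin m → CTree) l)) *
        (ENNReal.ofReal (2 + 8 / b) * ENNReal.ofReal (Real.exp (b / 8 * enT (T (Fin.last m)))))
      = CW * ENNReal.ofReal (2 + 8 / b) *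
        (ENNReal.ofReal (Real.exp (c * enB (Fin.init T : Fin m → CTree) l)) *
          ENNReal.ofReal (Real.exp (b / 8 * enT (T (Fin.last m))))) := by ring
    _ ≤ _ := by
        rw [← ENNReal.ofReal_mul (Real.exp_pos _).le, ← Real.exp_add]
        refine mul_le_mul_right (ENNReal.ofReal_le_ofReal (Real.exp_le_exp.2 ?_)) _
        have h4 : 0 ≤ b / 8 * enB (Fin.init T : Fin m → CTree) l := by positivity
        have h5 : 0 ≤ c * enT (T (Fin.last m)) := by positivity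
        nlinarith

/-- The mass of a base structure. -/
def MassB (Φ : E3 → ℝ) (f₀ : Ph → ℝ) (b c : ℝ) (m q L c₀ N₀ : ℕ) (T₀ : ℝ) : Prop :=
  ∃ C : ℝ≥0∞, C ≠ ∞ ∧ ∀ ε : ℝ, 0 < ε → ε ≤ 1 → ∀ s : Fin q → ℝ, (∀ j, 0 ≤ s j) →
    ∀ (dl : Fin q → ℕ) (W : (Fin m → CTree) → (Fin q → Ph) → ℝ≥0∞),
    (Measurable fun p : (Fin m → CTree) × (Fin q → Ph) => W p.1 p.2) → ∀ CW : ℝ≥0∞,
    (∀ T l, W T l ≤ CW * ENNReal.ofReal (Real.exp (c * enB T l))) →
    (∀ T l, W T l ≠ 0 → Base Φ ε T (lns s dl l)) →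
    (∀ T l, W T l ≠ 0 → PrgO Φ ε T₀ c₀ N₀ T (lns s dl l) ∅) →
    muE ε ^ q * ∫⁻ T, ∫⁻ l : Fin q → Ph, (∏ j, g1 b (l j).2) * W T l ∂volume
      ∂(Measure.pi fun _ : Fin m => tree (inten f₀ ε) L) ≤ CW * (muE ε ^ c₀ * C)

theorem measurable_snoc (T : Fin m → CTree) : Measurable fun R : CTree =>
    (Fin.snoc T R : Fin (m + 1) → CTree) := by
  refine measurable_pi_lambda _ fun j => ?_
  induction j using Fin.lastCases with
  | last => simp only [Fin.snoc_last]; exact measurable_id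
  | cast j => simp only [Fin.snoc_castSucc]; exact measurable_const

theorem measurableSet_bad_init
    {Bad : (Fin m → CTree) → (Fin q → Ph) → Finset Src → CTree → Prop}
    (hBm : MeasurableSet {p : (((Fin m → CTree) × (Fin q → Ph)) × CTree) × Conf Ph |
        Bad p.1.1.1 p.1.1.2 (wS (pts p.2)) p.1.2}) :
    MeasurableSet {p : ((Fin (m + 1) → CTree) × (Fin q → Ph)) × Conf Ph |
      Bad (Fin.init p.1.1) p.1.2 (wS (pts p.2)) (p.1.1 (Fin.last m))} := by
  have e1 : Measurable fun p : ((Fin (m + 1) → CTree) × (Fin q → Ph)) × Conf Ph =>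
      ((((Fin.init p.1.1 : Fin m → CTree), p.1.2), p.1.1 (Fin.last m)), p.2) := by
    refine Measurable.prodMk (Measurable.prodMk (Measurable.prodMk ?_ ?_) ?_) measurable_snd
    · exact measurable_pi_lambda _ fun j =>
        (measurable_pi_apply _).comp (measurable_fst.comp measurable_fst)
    · exact measurable_snd.comp measurable_fst
    · exact (measurable_pi_apply _).comp (measurable_fst.comp measurable_fst)
  exact e1 hBm

theorem lintegral_ind_and {p : Conf Ph → Prop} {r : Prop} (hp : MeasurableSet {w | p w}) :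
    ∫⁻ w, ind (p w ∧ r) ∂(PP f₀ ε) = ind r * (PP f₀ ε) {w | p w} := by
  by_cases hr : r
  · rw [ind_of hr, one_mul, ← lintegral_indicator_one hp]
    refine lintegral_congr fun w => ?_
    by_cases hw : p w
    · rw [indicator_of_mem (show w ∈ {w | p w} from hw), ind_of ⟨hw, hr⟩]
      rfl
    · rw [indicator_of_notMem (show w ∉ {w | p w} from hw), ind_of_not fun h => hw h.1]
  · rw [ind_of_not hr, zero_mul]
    exact (lintegral_congr fun w => ind_of_not fun h => hr h.2).trans lintegral_zero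

/-- The measure of a bad event. -/
def MB (Φ : E3 → ℝ) (ε : ℝ) (L : ℕ) (f₀ : Ph → ℝ) (t : ℝ) (s : Fin q → ℝ) (dl : Fin q → ℕ)
    (W : (Fin m → CTree) → (Fin q → Ph) → ℝ≥0∞)
    (Bad : (Fin m → CTree) → (Fin q → Ph) → Finset Src → CTree → Prop)
    (T : Fin (m + 1) → CTree) (l : Fin q → Ph) : ℝ≥0∞ :=
  Wsn Φ ε L t s dl W T l * (PP f₀ ε) {w | Bad (Fin.init T) l (wS (pts w)) (T (Fin.last m))}

theorem measurable_MB (h : GoodDatum f₀ κ₀) (hΦ : IsPotential Φ) (hε : 0 < ε) {t : ℝ}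
    {s : Fin q → ℝ} {dl : Fin q → ℕ} {W : (Fin m → CTree) → (Fin q → Ph) → ℝ≥0∞}
    (hW : Measurable fun p : (Fin m → CTree) × (Fin q → Ph) => W p.1 p.2)
    {Bad : (Fin m → CTree) → (Fin q → Ph) → Finset Src → CTree → Prop}
    (hBm : MeasurableSet {p : (((Fin m → CTree) × (Fin q → Ph)) × CTree) × Conf Ph |
        Bad p.1.1.1 p.1.1.2 (wS (pts p.2)) p.1.2}) :
    Measurable fun p : (Fin (m + 1) → CTree) × (Fin q → Ph) =>
      MB Φ ε L f₀ t s dl W Bad p.1 p.2 := by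
  have hprob := isProbability_PP (ε := ε) h
  exact (measurable_Wsn hΦ hε t s dl hW).mul
    (measurable_measure_prodMk_left (measurableSet_bad_init hBm))

theorem QB_eq {t : ℝ} {s : Fin q → ℝ} {dl : Fin q → ℕ}
    {W : (Fin m → CTree) → (Fin q → Ph) → ℝ≥0∞} (hW0 : ∀ T l, W T l ≠ ∞)
    {Bad : (Fin m → CTree) → (Fin q → Ph) → Finset Src → CTree → Prop}
    (hBm : MeasurableSet {p : (((Fin m → CTree) × (Fin q → Ph)) × CTree) × Conf Ph |
        Bad p.1.1.1 p.1.1.2 (wS (pts p.2)) p.1.2}) (T : Fin m → CTree) (l : Fin q → Ph) :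
    W T l * QB Φ ε L f₀ t (fun V R => Bad T l V R ∧
        Base Φ ε (Fin.snoc T R : Fin (m + 1) → CTree) (lns s dl l)) =
      ∫⁻ R, MB Φ ε L f₀ t s dl W Bad (Fin.snoc T R) l ∂(tree (inten f₀ ε) L) := by
  unfold QB
  rw [← lintegral_const_mul' _ _ (hW0 T l)]
  refine lintegral_congr fun R => ?_
  have e5 : MeasurableSet {w : Conf Ph | Bad T l (wS (pts w)) R} := by
    have e1 : Measurable fun w : Conf Ph => (((T, l), R), w) :=
      measurable_const.prodMk measurable_id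
    exact e1 hBm
  have e6 : MB Φ ε L f₀ t s dl W Bad (Fin.snoc T R) l = Wsn Φ ε L t s dl W (Fin.snoc T R) l *
      (PP f₀ ε) {w | Bad T l (wS (pts w)) R} := by
    unfold MB
    rw [Fin.init_snoc, Fin.snoc_last]
  rw [e6, Wsn_snoc, lintegral_ind_and e5]
  ring

theorem measurable_snoc2 (T : Fin m → CTree) : Measurable fun p : CTree × (Fin q → Ph) =>
    ((Fin.snoc T p.1 : Fin (m + 1) → CTree), p.2) :=
  ((measurable_snoc T).comp measurable_fst).prodMk measurable_snd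

theorem measurable_snoc3 (T : Fin m → CTree)
    {F : (Fin (m + 1) → CTree) × (Fin q → Ph) → ℝ≥0∞} (hF : Measurable F) :
    Measurable fun p : CTree × (Fin q → Ph) => F (Fin.snoc T p.1, p.2) :=
  hF.comp (measurable_snoc2 T)

/-- Fubini for the structure with one more tree. -/
theorem lintegral_snoc2 (ν : Measure CTree) [SigmaFinite ν]
    {F : (Fin (m + 1) → CTree) × (Fin q → Ph) → ℝ≥0∞} (hF : Measurable F) :
    ∫⁻ T, ∫⁻ l : Fin q → Ph, F (T, l) ∂volume ∂(Measure.pi fun _ : Fin (m + 1) => ν) =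
      ∫⁻ T, ∫⁻ l : Fin q → Ph, ∫⁻ R, F (Fin.snoc T R, l) ∂ν ∂volume
        ∂(Measure.pi fun _ : Fin m => ν) := by
  rw [lintegral_snoc _ hF.lintegral_prod_right']
  refine lintegral_congr fun T => ?_
  rw [lintegral_lintegral_swap (measurable_snoc3 T hF).aemeasurable]

/-- The integral over the pair. -/
theorem lintegral_MB (h : GoodDatum f₀ κ₀) (hΦ : IsPotential Φ) (hε : 0 < ε) {t : ℝ}
    {s : Fin q → ℝ} {dl : Fin q → ℕ} {W : (Fin m → CTree) → (Fin q → Ph) → ℝ≥0∞}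
    (hW : Measurable fun p : (Fin m → CTree) × (Fin q → Ph) => W p.1 p.2)
    (hW0 : ∀ T l, W T l ≠ ∞)
    {Bad : (Fin m → CTree) → (Fin q → Ph) → Finset Src → CTree → Prop}
    (hBm : MeasurableSet {p : (((Fin m → CTree) × (Fin q → Ph)) × CTree) × Conf Ph |
        Bad p.1.1.1 p.1.1.2 (wS (pts p.2)) p.1.2}) :
    ∫⁻ T, ∫⁻ l : Fin q → Ph, (∏ j, g1 b (l j).2) * (W T l *
        QB Φ ε L f₀ t (fun V R => Bad T l V R ∧
          Base Φ ε (Fin.snoc T R : Fin (m + 1) → CTree) (lns s dl l))) ∂volume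
        ∂(Measure.pi fun _ : Fin m => tree (inten f₀ ε) L) =
      ∫⁻ T, ∫⁻ l : Fin q → Ph, (∏ j, g1 b (l j).2) * MB Φ ε L f₀ t s dl W Bad T l ∂volume
        ∂(Measure.pi fun _ : Fin (m + 1) => tree (inten f₀ ε) L) := by
  have hfin := isFiniteMeasure_inten (ε := ε) h
  have hg1 : Measurable fun l : Fin q → Ph => ∏ j, g1 b (l j).2 :=
    Finset.measurable_prod _ fun j _ => (measurable_g1 b).comp (measurable_pi_apply j)
  have hM := measurable_MB (L := L) (t := t) (s := s) (dl := dl) h hΦ hε hW hBm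
  have hmF : Measurable fun p : (Fin (m + 1) → CTree) × (Fin q → Ph) =>
      (∏ j, g1 b (p.2 j).2) * MB Φ ε L f₀ t s dl W Bad p.1 p.2 :=
    (hg1.comp measurable_snd).mul hM
  rw [lintegral_snoc2 _ hmF]
  refine lintegral_congr fun T => lintegral_congr fun l => ?_
  rw [QB_eq hW0 hBm]
  exact (lintegral_const_mul' _ _ (ENNReal.prod_ne_top fun j _ => g1_ne_top)).symm

open Classical in
/-- **The related trees over a structure law.** -/
theorem rel_lim_aux {M₀ M₁ : ℝ} (h : GoodDatum f₀ κ₀) (hΦ : IsPotential Φ) (hb : 0 < b)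
    (hc : 0 ≤ c) (hcb : c ≤ b / 2) (hM₀ : 0 ≤ M₀)
    (hf : ∀ z, f₀ z ≤ M₀ * Real.exp (-b * ‖z.2‖ ^ 2)) (hM₁ : 0 ≤ M₁)
    (hmarg : ∀ v, ∫⁻ x, ENNReal.ofReal (f₀ (x, v)) ≤
      ENNReal.ofReal (M₁ * Real.exp (-b * ‖v‖ ^ 2)))
    (m q L nA nB c₀ N₀ N₁ : ℕ) (N : ℕ → ℕ) {T₀ : ℝ} (hT₀ : 0 ≤ T₀) {X : ℕ → Set Rln}
    (hX : ∀ J, (X J).Finite) (hXs : ∀ J, ∀ r ∈ X J, r.Small f₀ b (c + b / 8) (c₀ + 1))
    (hmass : MassB Φ f₀ b (c + b / 8) m q L c₀ N₀ T₀) :
    ∃ Dl : ℝ → ℝ≥0∞, Tendsto Dl (𝓝[>] 0) (𝓝 0) ∧ ∀ (ε : ℝ) (hε : 0 < ε), ε ≤ 1 →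
      ∀ t t₁ t₂ : ℝ, 0 ≤ t → t₁ ≤ T₀ → t₂ ≤ T₀ + 1 → ∀ s : Fin q → ℝ, (∀ j, 0 ≤ s j) →
      ∀ (dl : Fin q → ℕ) (W : (Fin m → CTree) → (Fin q → Ph) → ℝ≥0∞),
      (Measurable fun p : (Fin m → CTree) × (Fin q → Ph) => W p.1 p.2) → ∀ CW : ℝ≥0∞, CW ≠ ∞ →
      (∀ T l, W T l ≤ CW * ENNReal.ofReal (Real.exp (c * enB T l))) →
      (∀ T l, W T l ≠ 0 → Base Φ ε T (lns s dl l)) →
      (∀ T l, W T l ≠ 0 → PrgO Φ ε T₀ c₀ N₀ T (lns s dl l) ∅) →
      (∀ T l R, W T l ≠ 0 → OKt Φ ε L t R →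
        Base Φ ε (Fin.snoc T R : Fin (m + 1) → CTree) (lns s dl l) →
        PrgO Φ ε T₀ (c₀ + 1) N₁ (Fin.snoc T R : Fin (m + 1) → CTree) (lns s dl l) ∅) →
      ∀ B : (Fin m → CTree) → (Fin q → Ph) → Finset Src,
      (∀ T l, W T l ≠ 0 → (B T l).card ≤ nB ∧ EW (B T l) ≤ nB * (1 + enB T l)) →
      ∀ (W₂ : (Fin m → CTree) → (Fin q → Ph) → Conf Ph → Finset Src)
        (P : (Fin m → CTree) → (Fin q → Ph) → Conf Ph → CTree → Prop),
      (∀ T l, W T l ≠ 0 → ∀ w R, P T l w R →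
        alive Φ ε L (W₂ T l w : Set Src) R (ext Φ ε R) ∧ ext Φ ε R ≤ t) →
      (∀ T l, W T l ≠ 0 → ∀ w, ∀ a ∈ W₂ T l w, a ∈ wS (pts w) ∨ a ∈ B T l) →
      (∀ T l, W T l ≠ 0 → ∀ w R, P T l w R → (∀ j, Disjoint (T j).leaves (wS (pts w) : Set Src)) ∧
        ∀ j, lns s dl l j ∉ wS (pts w)) →
      ∀ Bad : (Fin m → CTree) → (Fin q → Ph) → Finset Src → CTree → Prop,
      MeasurableSet {p : (((Fin m → CTree) × (Fin q → Ph)) × CTree) × Conf Ph |
        Bad p.1.1.1 p.1.1.2 (wS (pts p.2)) p.1.2} →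
      ∀ Alt : (Fin m → CTree) → (Fin q → Ph) → Conf Ph → Src → Prop,
      (∀ T l, W T l ≠ 0 → ∀ w R, P T l w R → R.leaves ⊆ (wS (pts w) : Set Src) →
        (∃ a ∈ R.leaves, Alt T l w a) ∨ Bad T l (rm (wS (pts w)) R) R) →
      (∀ T l, W T l ≠ 0 → ∀ w, ∀ a ∈ wS (pts w), Alt T l w a →
        Bad T l (rm (wS (pts w)) (leaf a)) (leaf a)) →
      ∀ A : (Fin (m + 1) → CTree) → (Fin q → Ph) → Finset (ℝ × Ph),
      (∀ T l R, W T l ≠ 0 → OKt Φ ε L t R →
        Base Φ ε (Fin.snoc T R : Fin (m + 1) → CTree) (lns s dl l) →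
        (A (Fin.snoc T R) l).card ≤ nA ∧ ∀ σ ∈ A (Fin.snoc T R) l, 0 ≤ σ.1 ∧ σ.1 ≤ t₂ ∧
          ‖σ.2.2‖ ^ 2 ≤ enB (Fin.snoc T R : Fin (m + 1) → CTree) l) →
      (∀ J, ∀ T l R, W T l ≠ 0 → OKt Φ ε L t R →
        Base Φ ε (Fin.snoc T R : Fin (m + 1) → CTree) (lns s dl l) →
        ∀ᵐ w ∂(PP f₀ ε), Bad T l (wS (pts w)) R →
        (∃ σ ∈ A (Fin.snoc T R) l,
          HasClean hΦ hε.ne' L t₁ t₂ J (world (pts w : Set Ph)) σ.1 σ.2) ∨
          PrgC Φ ε T₀ (c₀ + 1) (N J) (Fin.snoc T R : Fin (m + 1) → CTree) (lns s dl l) (pts w) ∨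
          PrgO Φ ε T₀ c₀ (N J) (Fin.snoc T R : Fin (m + 1) → CTree) (lns s dl l) (pts w) ∨
          SBad (X J) ε (Fin.snoc T R : Fin (m + 1) → CTree) (lns s dl l) (pts w)) →
      muE ε ^ q * ∫⁻ T, ∫⁻ l : Fin q → Ph, (∏ j, g1 b (l j).2) * (W T l *
        ∫⁻ w, (∑' R : CTree, if P T l w R then wln Φ ε R else 0) ∂(PP f₀ ε)) ∂volume
          ∂(Measure.pi fun _ : Fin m => tree (inten f₀ ε) L) ≤
      CW * (muE ε ^ (c₀ + 1) * Dl ε) := by
  obtain ⟨Cm, hCm, hmass⟩ := hmass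
  obtain ⟨D₁, hD₁, hex⟩ := exc_lim_prog (c := c + b / 8) h hΦ hb (by positivity) (by linarith) hM₀
    hf hM₁ hmarg (m + 1) q L nA (c₀ + 1) N₁ (Nat.succ_pos _) N hT₀ hX hXs
  have hm2 : m2 f₀ ≠ ∞ := (m2_lt_top h hM₁ hb hmarg).ne
  -- the constants
  obtain ⟨c₁, hc₁⟩ : ∃ c₁ : ℝ≥0∞, c₁ = ENNReal.ofReal (2 + 8 / b) := ⟨_, rfl⟩
  have hc₁t : c₁ ≠ ∞ := by rw [hc₁]; exact ENNReal.ofReal_ne_top
  obtain ⟨c₂, hc₂⟩ : ∃ c₂ : ℝ≥0∞, c₂ = ENNReal.ofReal (1 + 8 / b) := ⟨_, rfl⟩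
  have hc₂t : c₂ ≠ ∞ := by rw [hc₂]; exact ENNReal.ofReal_ne_top
  obtain ⟨C₁, hC₁⟩ : ∃ C₁ : ℕ → ℝ≥0∞, ∀ K, C₁ K =
    ENNReal.ofReal ((1 + ((K : ℝ) + 1)) * 2 ^ (L + 1)) := ⟨_, fun _ => rfl⟩
  obtain ⟨C₃, hC₃⟩ : ∃ C₃ : ℕ → ℝ≥0∞, ∀ K, C₃ K =
    ENNReal.ofReal (2 * (L + 1) / ((K : ℝ) + 1)) := ⟨_, fun _ => rfl⟩
  have hC₁t : ∀ K, C₁ K ≠ ∞ := fun K => by rw [hC₁]; exact ENNReal.ofReal_ne_top
  have hC₃t : ∀ K, C₃ K ≠ ∞ := fun K => by rw [hC₃]; exact ENNReal.ofReal_ne_top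
  obtain ⟨Br, hBr⟩ : ∃ Br : ℕ → ℝ → ℝ≥0∞, ∀ K ε, Br K ε = (C₁ K + 1) * (c₁ * D₁ ε) +
    c₂ * Cm * ((C₁ K + C₃ K) * nB * ENNReal.ofReal (ε ^ 2) + C₃ K * m2 f₀) :=
    ⟨_, fun _ _ => rfl⟩
  refine ⟨fun ε => ⨅ K, Br K ε, ?_, ?_⟩
  · rw [ENNReal.tendsto_nhds_zero]
    intro δ hδ
    have h1 : Tendsto (fun K : ℕ => c₂ * Cm * (C₃ K * m2 f₀)) atTop (𝓝 0) := by
      have h2 : Tendsto C₃ atTop (𝓝 0) := by
        have h3 : Tendsto (fun K : ℕ => 2 * ((L : ℝ) + 1) / ((K : ℝ) + 1)) atTop (𝓝 0) := by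
          have h4 := tendsto_one_div_add_atTop_nhds_zero_nat (𝕜 := ℝ)
          have h5 := h4.const_mul (2 * ((L : ℝ) + 1))
          rw [mul_zero] at h5
          refine h5.congr fun K => ?_
          ring
        have h6 := ENNReal.tendsto_ofReal h3
        rw [ENNReal.ofReal_zero] at h6
        exact h6.congr fun K => (hC₃ K).symm
      have h3 := ENNReal.Tendsto.mul_const (b := m2 f₀) h2 (Or.inr hm2)
      rw [zero_mul] at h3
      have h4 := ENNReal.Tendsto.const_mul (a := c₂ * Cm) h3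
        (Or.inr (ENNReal.mul_ne_top hc₂t hCm))
      rwa [mul_zero] at h4
    obtain ⟨K, hK⟩ := ((ENNReal.tendsto_nhds_zero.1 h1) (δ / 2) (ENNReal.half_pos hδ.ne')).exists
    have h5 : Tendsto (fun ε : ℝ => (C₁ K + 1) * (c₁ * D₁ ε) +
        c₂ * Cm * ((C₁ K + C₃ K) * nB * ENNReal.ofReal (ε ^ 2))) (𝓝[>] 0) (𝓝 0) := by
      have e1 := ENNReal.Tendsto.const_mul (a := c₁) hD₁ (Or.inr hc₁t)
      rw [mul_zero] at e1
      have e2 := ENNReal.Tendsto.const_mul (a := C₁ K + 1) e1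
        (Or.inr (ENNReal.add_ne_top.2 ⟨hC₁t K, ENNReal.one_ne_top⟩))
      rw [mul_zero] at e2
      have e3 : Tendsto (fun ε : ℝ => ENNReal.ofReal (ε ^ 2)) (𝓝[>] 0) (𝓝 0) := by
        have h6 : Tendsto (fun ε : ℝ => ε ^ 2) (𝓝[>] 0) (𝓝 (0 ^ 2)) :=
          ((continuous_pow 2).tendsto 0).mono_left nhdsWithin_le_nhds
        simpa using ENNReal.tendsto_ofReal h6
      have e4 := ENNReal.Tendsto.const_mul (a := (C₁ K + C₃ K) * nB) e3
        (Or.inr (ENNReal.mul_ne_top (ENNReal.add_ne_top.2 ⟨hC₁t K, hC₃t K⟩)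
          (ENNReal.natCast_ne_top _)))
      rw [mul_zero] at e4
      have e5 := ENNReal.Tendsto.const_mul (a := c₂ * Cm) e4
        (Or.inr (ENNReal.mul_ne_top hc₂t hCm))
      rw [mul_zero] at e5
      have e6 := e2.add e5
      rwa [add_zero] at e6
    filter_upwards [(ENNReal.tendsto_nhds_zero.1 h5) (δ / 2) (ENNReal.half_pos hδ.ne')] with ε hε
    calc ⨅ K, Br K ε ≤ Br K ε := iInf_le _ K
      _ = ((C₁ K + 1) * (c₁ * D₁ ε) + c₂ * Cm * ((C₁ K + C₃ K) * nB * ENNReal.ofReal (ε ^ 2))) +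
          c₂ * Cm * (C₃ K * m2 f₀) := by rw [hBr]; ring
      _ ≤ δ / 2 + δ / 2 := add_le_add hε hK
      _ = δ := ENNReal.add_halves δ
  intro ε hε hε1 t t₁ t₂ ht ht₁ ht₂ s hs dl W hW CW hCW hWb hbase hprg hprg' B hB W₂ P hP hW₂ hfr
    Bad hBm Alt h1 h2 A hA hbad
  have hfin := isFiniteMeasure_inten (ε := ε) h
  have hprob := isProbability_PP (ε := ε) h
  have hW0 : ∀ T l, W T l ≠ ∞ := fun T l => ((hWb T l).trans_lt
    (ENNReal.mul_lt_top hCW.lt_top ENNReal.ofReal_lt_top)).ne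
  -- the structure law of the pair
  obtain ⟨bad', hbad'⟩ : ∃ bad' : (Fin (m + 1) → CTree) → (Fin q → Ph) → Conf Ph → Prop,
      ∀ T l w, bad' T l w ↔ Bad (Fin.init T) l (wS (pts w)) (T (Fin.last m)) :=
    ⟨_, fun _ _ _ => Iff.rfl⟩
  have hex' := hex ε hε hε1 t₁ t₂ ht₁ ht₂ s hs dl (Wsn Φ ε L t s dl W)
    (measurable_Wsn hΦ hε t s dl hW) (CW * c₁) (ENNReal.mul_ne_top hCW hc₁t) (fun T l => ?_)
    (fun T l hne => ?_) (fun T l hne => ?_) A (fun T l hne => ?_) bad' (fun J T l hne => ?_)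
  rotate_left
  · rw [hc₁]
    exact Wsn_le hΦ hε hb hc hWb T l
  · exact (Wsn_ne_zero hne).2.2
  · obtain ⟨g1, g2, g3⟩ := Wsn_ne_zero hne
    rw [eq_snoc T] at g3 ⊢
    exact hprg' _ l _ g1 g2 g3
  · obtain ⟨g1, g2, g3⟩ := Wsn_ne_zero hne
    rw [eq_snoc T] at g3 ⊢
    exact hA _ l _ g1 g2 g3
  · obtain ⟨g1, g2, g3⟩ := Wsn_ne_zero hne
    rw [eq_snoc T] at g3 ⊢
    filter_upwards [hbad J _ l _ g1 g2 g3] with w hw hb'
    rw [hbad', Fin.init_snoc, Fin.snoc_last] at hb'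
    exact hw hb'
  -- the mass of the law
  have hmE : Measurable fun p : (Fin m → CTree) × (Fin q → Ph) =>
      ENNReal.ofReal (1 + enB p.1 p.2) :=
    ENNReal.measurable_ofReal.comp (measurable_const.add measurable_enB)
  have hmass' := hmass ε hε hε1 s hs dl (fun T l => W T l * ENNReal.ofReal (1 + enB T l))
    (hW.mul hmE) (CW * c₂) (fun T l => by
      calc W T l * ENNReal.ofReal (1 + enB T l)
          ≤ (CW * ENNReal.ofReal (Real.exp (c * enB T l))) *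
            (c₂ * ENNReal.ofReal (Real.exp (b / 8 * enB T l))) := by
            refine mul_le_mul' (hWb T l) ?_
            rw [hc₂, ← ENNReal.ofReal_mul (by positivity)]
            exact ENNReal.ofReal_le_ofReal (one_add_enB_le hb T l)
        _ = CW * c₂ * (ENNReal.ofReal (Real.exp (c * enB T l)) *
              ENNReal.ofReal (Real.exp (b / 8 * enB T l))) := by ring
        _ = _ := by
            rw [← ENNReal.ofReal_mul (Real.exp_pos _).le, ← Real.exp_add]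
            ring_nf)
    (fun T l hne => hbase T l fun h0 => hne (by rw [h0, zero_mul]))
    (fun T l hne => hprg T l fun h0 => hne (by rw [h0, zero_mul]))
  -- the bad trees of one structure
  obtain ⟨QT, hQT⟩ : ∃ QT : (Fin m → CTree) → (Fin q → Ph) → ℝ≥0∞, ∀ T l, QT T l =
      QB Φ ε L f₀ t (fun V R => Bad T l V R ∧
        Base Φ ε (Fin.snoc T R : Fin (m + 1) → CTree) (lns s dl l)) := ⟨_, fun _ _ => rfl⟩
  have hBmT : ∀ T l, MeasurableSet {p : CTree × Conf Ph | Bad T l (wS (pts p.2)) p.1} := by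
    intro T l
    have e1 : Measurable fun p : CTree × Conf Ph => (((T, l), p.1), p.2) :=
      ((measurable_const.prodMk measurable_fst).prodMk measurable_snd)
    exact e1 hBm
  have hsnoc : ∀ T : Fin m → CTree, Measurable fun R : CTree =>
      (Fin.snoc T R : Fin (m + 1) → CTree) := by
    intro T
    refine measurable_pi_lambda _ fun j => ?_
    induction j using Fin.lastCases with
    | last => simp only [Fin.snoc_last]; exact measurable_id
    | cast j => simp only [Fin.snoc_castSucc]; exact measurable_const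
  have hBs : ∀ T l, MeasurableSet {R : CTree |
      Base Φ ε (Fin.snoc T R : Fin (m + 1) → CTree) (lns s dl l)} := fun T l =>
    measurableSet_Base hΦ hε (hsnoc T) (measurable_const (a := l))
  have key1 : ∀ T l, W T l ≠ 0 → ∀ K : ℕ,
      ∫⁻ w, (∑' R : CTree, if P T l w R then wln Φ ε R else 0) ∂(PP f₀ ε) ≤
      (C₁ K + 1) * QT T l + ((C₁ K + C₃ K) * nB + C₃ K * (muE ε * m2 f₀)) *
        ENNReal.ofReal (1 + enB T l) := by
    intro T l hne K
    have hK1 : (1 : ℝ) ≤ (K : ℝ) + 1 := by linarith [(Nat.cast_nonneg K : (0 : ℝ) ≤ K)]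
    obtain ⟨Fr, hFr⟩ : ∃ Fr : Conf Ph → Prop, ∀ w, Fr w ↔
      ((∀ j, Disjoint (T j).leaves (wS (pts w) : Set Src)) ∧
        ∀ j, lns s dl l j ∉ wS (pts w)) := ⟨_, fun _ => Iff.rfl⟩
    have hbs : ∀ w R, Fr w → R.leaves ⊆ (wS (pts w) : Set Src) → ok Φ ε R →
        Base Φ ε (Fin.snoc T R : Fin (m + 1) → CTree) (lns s dl l) := by
      intro w R hw hR hok
      rw [hFr] at hw
      exact base_snoc (hbase T l hne) hok (fun j => (hw.1 j).mono_right hR)
        fun j hj => hw.2 j (Finset.mem_coe.1 (hR hj))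
    have hmB : MeasurableSet {p : CTree × Conf Ph | Bad T l (wS (pts p.2)) p.1 ∧
        Base Φ ε (Fin.snoc T p.1 : Fin (m + 1) → CTree) (lns s dl l)} :=
      (hBmT T l).inter (measurable_fst (hBs T l))
    have h3 := lintegral_rel_le (L := L) (K := (K : ℝ) + 1) (B := B T l) hΦ h hε ht hK1
      (hP T l hne) (hW₂ T l hne) (Bad := fun V R => Bad T l V R ∧
        Base Φ ε (Fin.snoc T R : Fin (m + 1) → CTree) (lns s dl l)) hmB
      (Alt := fun w a => Alt T l w a ∧ Fr w) (fun w R hPR hR => ?_) (fun w a ha hA' => ?_)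
    · rw [← hQT, ← hC₁, ← hC₃] at h3
      refine h3.trans (add_le_add le_rfl ?_)
      obtain ⟨h4, h5⟩ := hB T l hne
      have h6 : (1 : ℝ≥0∞) ≤ ENNReal.ofReal (1 + enB T l) := by
        rw [← ENNReal.ofReal_one]
        exact ENNReal.ofReal_le_ofReal (by linarith [enB_nonneg T l])
      have h7 : ENNReal.ofReal (EW (B T l)) ≤ nB * ENNReal.ofReal (1 + enB T l) := by
        refine (ENNReal.ofReal_le_ofReal h5).trans (le_of_eq ?_)
        rw [ENNReal.ofReal_mul (Nat.cast_nonneg _), ENNReal.ofReal_natCast]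
      have h8 : ((B T l).card : ℝ≥0∞) ≤ nB := by exact_mod_cast h4
      calc C₁ K * (B T l).card + C₃ K * (muE ε * m2 f₀ + ENNReal.ofReal (EW (B T l)))
          ≤ C₁ K * (nB * ENNReal.ofReal (1 + enB T l)) +
            C₃ K * (muE ε * m2 f₀ * ENNReal.ofReal (1 + enB T l) +
              nB * ENNReal.ofReal (1 + enB T l)) := by
            refine add_le_add (mul_le_mul_right (h8.trans ?_) _)
              (mul_le_mul_right (add_le_add ?_ h7) _)
            · exact le_mul_of_one_le_right' h6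
            · exact le_mul_of_one_le_right' h6
        _ = _ := by ring
    · have h4 := hfr T l hne w R hPR
      rcases h1 T l hne w R hPR hR with ⟨a, ha, h5⟩ | h5
      · exact Or.inl ⟨a, ha, h5, (hFr w).2 h4⟩
      · exact Or.inr ⟨h5, hbs w R ((hFr w).2 h4) hR (alive_pre (hP T l hne w R hPR).1).ok⟩
    · refine ⟨h2 T l hne w a ha hA'.1, hbs w (leaf a) hA'.2 ?_ ?_⟩
      · rintro b (rfl : b = a)
        exact Finset.mem_coe.2 ha
      · obtain ⟨z, -, rfl⟩ := mem_wS.1 ha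
        exact le_rfl (a := (0 : ℝ))
  -- the sum
  have hWsn : ∀ T l, Wsn Φ ε L t s dl W T l * (PP f₀ ε) {w | bad' T l w} =
      MB Φ ε L f₀ t s dl W Bad T l := by
    intro T l
    have e4 : {w | bad' T l w} = {w | Bad (Fin.init T) l (wS (pts w)) (T (Fin.last m))} :=
      Set.ext fun w => hbad' T l w
    rw [e4]
    rfl
  simp only [hWsn] at hex'
  rw [← lintegral_MB h hΦ hε hW hW0 hBm] at hex'
  simp only [← hQT] at hex'
  have hg1 : Measurable fun l : Fin q → Ph => ∏ j, g1 b (l j).2 :=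
    Finset.measurable_prod _ fun j _ => (measurable_g1 b).comp (measurable_pi_apply j)
  have hm2' : Measurable fun p : (Fin m → CTree) × (Fin q → Ph) =>
      (∏ j, g1 b (p.2 j).2) * (W p.1 p.2 * ENNReal.ofReal (1 + enB p.1 p.2)) :=
    (hg1.comp measurable_snd).mul (hW.mul hmE)
  have key : ∀ K, muE ε ^ q * ∫⁻ T, ∫⁻ l : Fin q → Ph, (∏ j, g1 b (l j).2) * (W T l *
      ∫⁻ w, (∑' R : CTree, if P T l w R then wln Φ ε R else 0) ∂(PP f₀ ε)) ∂volume
        ∂(Measure.pi fun _ : Fin m => tree (inten f₀ ε) L) ≤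
      CW * muE ε ^ (c₀ + 1) * Br K ε := by
    intro K
    obtain ⟨E₁, hE₁⟩ : ∃ E₁ : ℝ≥0∞, E₁ = (C₁ K + C₃ K) * nB + C₃ K * (muE ε * m2 f₀) :=
      ⟨_, rfl⟩
    have hE₁t : E₁ ≠ ∞ := by
      rw [hE₁]
      exact ENNReal.add_ne_top.2 ⟨ENNReal.mul_ne_top (ENNReal.add_ne_top.2 ⟨hC₁t K, hC₃t K⟩)
        (ENNReal.natCast_ne_top _), ENNReal.mul_ne_top (hC₃t K)
          (ENNReal.mul_ne_top muE_ne_top hm2)⟩
    have hC₁t' : C₁ K + 1 ≠ ∞ := ENNReal.add_ne_top.2 ⟨hC₁t K, ENNReal.one_ne_top⟩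
    have s1 : ∀ T l, (∏ j, g1 b (l j).2) * (W T l *
        ∫⁻ w, (∑' R : CTree, if P T l w R then wln Φ ε R else 0) ∂(PP f₀ ε)) ≤
        E₁ * ((∏ j, g1 b (l j).2) * (W T l * ENNReal.ofReal (1 + enB T l))) +
          (C₁ K + 1) * ((∏ j, g1 b (l j).2) * (W T l * QT T l)) := by
      intro T l
      by_cases h0 : W T l = 0
      · rw [h0, zero_mul, mul_zero]
        exact zero_le
      · have h3 := key1 T l h0 K
        rw [← hE₁] at h3
        calc (∏ j, g1 b (l j).2) * (W T l *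
              ∫⁻ w, (∑' R : CTree, if P T l w R then wln Φ ε R else 0) ∂(PP f₀ ε))
            ≤ (∏ j, g1 b (l j).2) * (W T l *
              ((C₁ K + 1) * QT T l + E₁ * ENNReal.ofReal (1 + enB T l))) := by gcongr
          _ = _ := by ring
    have s2 : ∫⁻ T, ∫⁻ l : Fin q → Ph, (∏ j, g1 b (l j).2) * (W T l *
        ∫⁻ w, (∑' R : CTree, if P T l w R then wln Φ ε R else 0) ∂(PP f₀ ε)) ∂volume
          ∂(Measure.pi fun _ : Fin m => tree (inten f₀ ε) L) ≤
        E₁ * ∫⁻ T, ∫⁻ l : Fin q → Ph, (∏ j, g1 b (l j).2) *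
          (W T l * ENNReal.ofReal (1 + enB T l)) ∂volume
          ∂(Measure.pi fun _ : Fin m => tree (inten f₀ ε) L) +
        (C₁ K + 1) * ∫⁻ T, ∫⁻ l : Fin q → Ph, (∏ j, g1 b (l j).2) * (W T l * QT T l) ∂volume
          ∂(Measure.pi fun _ : Fin m => tree (inten f₀ ε) L) := by
      refine (lintegral_mono fun T => lintegral_mono fun l => s1 T l).trans (le_of_eq ?_)
      rw [lintegral2_add_left (hm2'.const_mul E₁), lintegral2_const_mul hm2']
      congr 1
      rw [← lintegral_const_mul' _ _ hC₁t']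
      refine lintegral_congr fun T => ?_
      rw [← lintegral_const_mul' _ _ hC₁t']
    have hμ : muE ε * ENNReal.ofReal (ε ^ 2) = 1 := muE_mul hε
    calc muE ε ^ q * ∫⁻ T, ∫⁻ l : Fin q → Ph, (∏ j, g1 b (l j).2) * (W T l *
        ∫⁻ w, (∑' R : CTree, if P T l w R then wln Φ ε R else 0) ∂(PP f₀ ε)) ∂volume
          ∂(Measure.pi fun _ : Fin m => tree (inten f₀ ε) L)
        ≤ muE ε ^ q * (E₁ * ∫⁻ T, ∫⁻ l : Fin q → Ph, (∏ j, g1 b (l j).2) *
          (W T l * ENNReal.ofReal (1 + enB T l)) ∂volume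
          ∂(Measure.pi fun _ : Fin m => tree (inten f₀ ε) L) +
        (C₁ K + 1) * ∫⁻ T, ∫⁻ l : Fin q → Ph, (∏ j, g1 b (l j).2) * (W T l * QT T l) ∂volume
          ∂(Measure.pi fun _ : Fin m => tree (inten f₀ ε) L)) := mul_le_mul_right s2 _
      _ = E₁ * (muE ε ^ q * ∫⁻ T, ∫⁻ l : Fin q → Ph, (∏ j, g1 b (l j).2) *
          (W T l * ENNReal.ofReal (1 + enB T l)) ∂volume
          ∂(Measure.pi fun _ : Fin m => tree (inten f₀ ε) L)) +
        (C₁ K + 1) * (muE ε ^ q * ∫⁻ T, ∫⁻ l : Fin q → Ph, (∏ j, g1 b (l j).2) *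
          (W T l * QT T l) ∂volume
          ∂(Measure.pi fun _ : Fin m => tree (inten f₀ ε) L)) := by ring
      _ ≤ E₁ * (CW * c₂ * (muE ε ^ c₀ * Cm)) +
          (C₁ K + 1) * (CW * c₁ * (muE ε ^ (c₀ + 1) * D₁ ε)) := by
          gcongr
      _ = (CW * c₂ * Cm) * ((C₁ K + C₃ K) * nB * (muE ε ^ c₀ * (muE ε * ENNReal.ofReal (ε ^ 2))) +
            C₃ K * (muE ε ^ c₀ * muE ε * m2 f₀)) +
          (C₁ K + 1) * (CW * c₁ * (muE ε ^ (c₀ + 1) * D₁ ε)) := by
          rw [hE₁, hμ, mul_one]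
          ring
      _ = _ := by
          rw [hBr, pow_succ]
          ring
  have hCt : CW * muE ε ^ (c₀ + 1) ≠ ∞ :=
    ENNReal.mul_ne_top hCW (ENNReal.pow_ne_top muE_ne_top)
  rw [← mul_assoc]
  by_cases hC0 : CW * muE ε ^ (c₀ + 1) = 0
  · have h3 := key 0
    rw [hC0, zero_mul] at h3
    rw [hC0, zero_mul]
    exact h3
  · rw [ENNReal.mul_iInf_of_ne hC0 hCt]
    exact le_iInf key

end RelX

end Vale.Agent.P119.PB
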