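import Vale.Agent.P119.IND.MLaw
import Vale.Agent.P119.IND.MBaseK
import Vale.Agent.P119.IND.Irrs
import Vale.Agent.P119.IND.TriLaw
import Vale.Agent.P119.PB.ExcPair
import Vale.Agent.P119.PB.RelLim

/-!
# P119, block PROB: marked pairs and one more tree, hit by the second line (`helper119`)

* `lawC_lim`: the limit of the exceptional events (`exc_lim_prog`), if the outputs are `LawC`;
* `HK`: the tree `R` is hit by the line `k`; `Mk.hit`: the marked pairs with one more tree;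
* `Mk.prgO`: the program of a marked pair;
* **`mlaw_hit_lim`**: the limit of the exceptional events for the laws of marked pairs with one more
  tree which is hit by the second line.
-/

open MeasureTheory Filter Topology Set
open scoped ENNReal NNReal

noncomputable section

namespace Vale.Agent.P119.PB.MH

open M CTree KU FL FB RB AU TL GC IND XT PB.CT

variable {Φ : E3 → ℝ} {ε t T₀ : ℝ} {L m q N : ℕ} {f₀ : Ph → ℝ} {κ₀ b c M₀ M₁ : ℝ}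

/-! ### The limit for `LawC` -/

/-- **The limit of the exceptional events**, if the outputs are `LawC` with `c₀` and the base structure
has `c₀ + 1` classes. -/
theorem lawC_lim (h : GoodDatum f₀ κ₀) (hΦ : IsPotential Φ) (hb : 0 < b) (hc : 0 ≤ c)
    (hcb : c + b / 4 < b) (hM₀ : 0 ≤ M₀) (hf : ∀ z, f₀ z ≤ M₀ * Real.exp (-b * ‖z.2‖ ^ 2))
    (hM₁ : 0 ≤ M₁)
    (hmarg : ∀ v, ∫⁻ x, ENNReal.ofReal (f₀ (x, v)) ≤ ENNReal.ofReal (M₁ * Real.exp (-b * ‖v‖ ^ 2)))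
    (m q L nA c₀ N₀ : ℕ) (N : ℕ → ℕ) (hT₀ : 0 ≤ T₀) :
    ∃ Dl : ℝ → ℝ≥0∞, Tendsto Dl (𝓝[>] 0) (𝓝 0) ∧ ∀ (ε : ℝ) (hε : 0 < ε), ε ≤ 1 →
      ∀ t ∈ Icc 0 T₀, ∀ s : Fin q → ℝ, (∀ j, 0 ≤ s j) → ∀ (dl : Fin q → ℕ)
      (W : (Fin m → CTree) → (Fin q → Ph) → ℝ≥0∞),
      (Measurable fun p : (Fin m → CTree) × (Fin q → Ph) => W p.1 p.2) → ∀ CW : ℝ≥0∞, CW ≠ ∞ →
      (∀ T l, W T l ≤ CW * ENNReal.ofReal (Real.exp (c * enB T l))) →
      (∀ T l, W T l ≠ 0 → Base Φ ε T (lns s dl l)) →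
      (∀ T l, W T l ≠ 0 → PrgO Φ ε t (c₀ + 1) N₀ T (lns s dl l) ∅) →
      ∀ A : (Fin m → CTree) → (Fin q → Ph) → Finset Src,
      (∀ T l, W T l ≠ 0 → (A T l).card ≤ nA ∧
        ∀ σ ∈ A T l, 0 ≤ σ.1 ∧ σ.1 ≤ t + 1 ∧ ‖σ.2.1.2‖ ^ 2 ≤ enB T l) →
      ∀ bad : (Fin m → CTree) → (Fin q → Ph) → Conf Ph → Prop,
      (∀ J, ∀ T l, W T l ≠ 0 → ∀ᵐ w ∂(PP f₀ ε), bad T l w →
        LawC hΦ hε L t J c₀ (N J) T (lns s dl l) (pts w) (A T l : Set Src)) →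
      muE ε ^ q * ∫⁻ T, ∫⁻ l : Fin q → Ph, (∏ j, g1 b (l j).2) * (W T l *
        (PP f₀ ε) {w | bad T l w}) ∂volume ∂(Measure.pi fun _ : Fin m => tree (inten f₀ ε) L) ≤
      CW * (muE ε ^ (c₀ + 1) * Dl ε) := by
  classical
  obtain ⟨Dl, hDl, h1⟩ := exc_lim_prog h hΦ hb hc hcb hM₀ hf hM₁ hmarg m q L nA (c₀ + 1) N₀
    (Nat.succ_pos c₀) N hT₀ (X := fun J => irrs hΦ T₀ (N J) (c₀ + 1))
    (fun J => irrs_finite hΦ T₀ (N J) (c₀ + 1))
    (fun J r hr => irrs_small hΦ h.meas hM₁ hmarg (by linarith) hT₀ hr)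
  refine ⟨Dl, hDl, fun ε hε hε1 t ht s hs dl W hW CW hCW hWb hbase hprg A hA bad hbad => ?_⟩
  have hlf : ∀ {T : Fin m → CTree} {l : Fin q → Ph}, Base Φ ε T (lns s dl l) →
      ∀ j, ∀ σ ∈ (T j).leaves, 0 ≤ σ.1 := fun hB j σ hσ => leaf_nonneg (hB.ok j) hσ
  have hln : ∀ (l : Fin q → Ph) j, 0 ≤ (lns s dl l j).1 := fun l j => hs j
  refine h1 ε hε hε1 t (t + 1) ht.2 (by linarith [ht.2]) s hs dl W hW CW hCW hWb hbase
    (fun T l hTl => (hprg T l hTl).mono_t hΦ hε ht.2 (hlf (hbase T l hTl)) (hln l))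
    (fun T l => (A T l).image fun σ => (σ.1, σ.2.1)) (fun T l hTl => ?_) bad
    fun J T l hTl => ?_
  · refine ⟨Finset.card_image_le.trans (hA T l hTl).1, fun σ hσ => ?_⟩
    obtain ⟨a, ha, rfl⟩ := Finset.mem_image.1 hσ
    exact (hA T l hTl).2 a ha
  · filter_upwards [hbad J T l hTl] with w hw hb'
    have hB := hbase T l hTl
    rcases hw hb' with ⟨σ, hσ, h2⟩ | h2 | h2 | h2
    · refine Or.inl ⟨(σ.1, σ.2.1), Finset.mem_image.2 ⟨σ, Finset.mem_coe.1 hσ, rfl⟩, ?_⟩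
      rw [coe_wS] at h2
      exact h2
    · exact Or.inr (Or.inl (h2.mono_t hΦ hε ht.2 (hlf hB) (hln l)))
    · exact Or.inr (Or.inr (Or.inl (h2.mono_t hΦ hε ht.2 (hlf hB) (hln l))))
    · exact Or.inr (Or.inr (Or.inr (h2.sbad_of_le hΦ hε ht.2 le_rfl le_rfl)))

/-! ### One more tree -/

/-- The tree `R` is hit by the line `k`, not later than `t`. -/
structure HK (Φ : E3 → ℝ) (ε : ℝ) (L : ℕ) (t : ℝ) (k : Src) (R : CTree) : Prop where
  ok : CTree.ok Φ ε R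
  depth : R.depth ≤ L
  meets : Meets ε (k.2.1, ln Φ ε R)
  birth : k.1 < hitT ε (k.2.1, ln Φ ε R)
  ext : ext Φ ε R < hitT ε (k.2.1, ln Φ ε R)
  le : hitT ε (k.2.1, ln Φ ε R) ≤ t

/-- The labels with one more tree. -/
theorem mlab_snoc [DecidableEq CTree] {T : Fin m → CTree} {l : Fin q → Src} {F : Finset CTree}
    {R : CTree} (h : MLab T l F) :
    MLab (Fin.snoc T R : Fin (m + 1) → CTree) l (F ∪ partsF R) := by
  refine ⟨fun σ hσ => ?_, fun j σ hσ => ?_, fun j => ?_⟩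
  · rcases (MBase.mem_lab_union' σ).1 hσ with h1 | h1
    · rcases h.mem σ h1 with ⟨j, h2⟩ | h2
      · exact Or.inl ⟨j.castSucc, by rw [Fin.snoc_castSucc]; exact h2⟩
      · exact Or.inr h2
    · exact Or.inl ⟨Fin.last m, by rw [Fin.snoc_last]; exact h1⟩
  · rw [Finset.mem_coe, MBase.mem_lab_union']
    induction j using Fin.lastCases with
    | last => rw [Fin.snoc_last] at hσ; exact Or.inr hσ
    | cast j => rw [Fin.snoc_castSucc] at hσ; exact Or.inl (Finset.mem_coe.1 (h.trees j hσ))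
  · exact (MBase.mem_lab_union' _).2 (Or.inl (h.lines j))

/-- The leaves of a new tree are not labels. -/
theorem mlab_disj {T : Fin m → CTree} {l : Fin q → Src} {F : Finset CTree} {R : CTree}
    (h : MLab T l F) (h1 : ∀ j, Disjoint (T j).leaves R.leaves) (h2 : ∀ j, l j ∉ R.leaves) :
    ∀ σ ∈ R.leaves, σ ∉ lab F := by
  intro σ hσ hσF
  rcases h.mem σ hσF with ⟨j, h3⟩ | ⟨j, h3⟩
  · exact Set.disjoint_left.1 (h1 j) h3 hσ
  · exact h2 j (h3 ▸ hσ)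

/-- **The marked pairs with one more tree**, which is hit by the second line; its root line goes on. -/
theorem mk_hit (hΦ : IsPotential Φ) (hε : 0 < ε) {T : Fin m → CTree} {l : Fin q → Src}
    {e k : Src} {R : CTree} (h : Mk Φ ε t N T l e k) (hR : HK Φ ε L t k R)
    (h1 : ∀ j, Disjoint (T j).leaves R.leaves) (h2 : ∀ j, l j ∉ R.leaves) (d : ℕ) :
    Mk Φ ε t (N + (2 * 2 ^ (L + 2) + 2)) (Fin.snoc T R : Fin (m + 1) → CTree) l e
      (hitT ε (k.2.1, ln Φ ε R), ln Φ ε R, d) := by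
  classical
  obtain ⟨F, G, E, S, h3, h4, h5, h6, h7, h8⟩ := h
  have hm := hR.meets
  have hb := hR.birth
  have he := hR.ext
  have hle := hR.le
  rw [h8] at hm hb he hle ⊢
  obtain ⟨G', p1, h9⟩ := h3.ghost hΦ hε hR.ok (mlab_disj h4 h1 h2) hm hb he hle
  refine ⟨F ∪ partsF R, G', E, R, h9, mlab_snoc h4, ?_, h6, h7, rfl⟩
  have h10 := MBase.card_perm (F := F) (R := R) p1
  have h11 : (partsF R).card ≤ 2 ^ (L + 2) := XT.card_partsF_le hR.depth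
  omega

/-- **The program of a marked pair.** -/
theorem mk_prgO (hΦ : IsPotential Φ) (hε : 0 < ε) (hm : 0 < m) {T : Fin m → CTree}
    {l : Fin q → Src} {e k : Src} (hB : Base Φ ε T l) (h : Mk Φ ε t N T l e k)
    (w : Finset Ph) : PrgO Φ ε t 1 N T l w := by
  obtain ⟨F, G, D₀, X, τe, τk, R₀, h1, h2, h3, -⟩ := h.kbase hm hB
  exact (prgO_of_slab hΦ hε h1.fam h2 w).mono le_rfl h3

/-- The base structure without the last tree. -/
theorem base_init {T : Fin (m + 1) → CTree} {l : Fin q → Src} (h : Base Φ ε T l) :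
    Base Φ ε (Fin.init T : Fin m → CTree) l ∧
      (∀ j, Disjoint ((Fin.init T : Fin m → CTree) j).leaves (T (Fin.last m)).leaves) ∧
      ∀ j, l j ∉ (T (Fin.last m)).leaves :=
  ⟨⟨fun _ => h.ok _, fun _ _ hij => h.disj _ _ fun he => hij (Fin.castSucc_injective m he),
    h.inj, fun _ _ => h.notMem _ _⟩, fun j => h.disj _ _ (Fin.castSucc_lt_last j).ne,
    fun _ => h.notMem _ _⟩

theorem enB_init (T : Fin (m + 1) → CTree) (l : Fin q → Ph) :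
    enB T l = enB (Fin.init T : Fin m → CTree) l + enT (T (Fin.last m)) := by
  conv_lhs => rw [RelX.eq_snoc T]
  exact RelX.enB_snoc _ _ _

/-- **The exceptional events for the laws of marked pairs with one more tree**, which is hit by the
second line. -/
theorem mlaw_hit_lim (h : GoodDatum f₀ κ₀) (hΦ : IsPotential Φ) (hb : 0 < b) (hc : 0 ≤ c)
    (hcb : c + b / 4 < b) (hM₀ : 0 ≤ M₀) (hf : ∀ z, f₀ z ≤ M₀ * Real.exp (-b * ‖z.2‖ ^ 2))
    (hM₁ : 0 ≤ M₁)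
    (hmarg : ∀ v, ∫⁻ x, ENNReal.ofReal (f₀ (x, v)) ≤ ENNReal.ofReal (M₁ * Real.exp (-b * ‖v‖ ^ 2)))
    (m q L N nA : ℕ) (N' : ℕ → ℕ) (hT₀ : 0 ≤ T₀) :
    ∃ Dl : ℝ → ℝ≥0∞, Tendsto Dl (𝓝[>] 0) (𝓝 0) ∧ ∀ (ε : ℝ) (hε : 0 < ε), ε ≤ 1 →
      ∀ t ∈ Icc 0 T₀, ∀ (s : Fin q → ℝ) (dl : Fin q → ℕ)
      (W : (Fin m → CTree) → (Fin q → Ph) → ℝ≥0∞) (e k : (Fin m → CTree) → (Fin q → Ph) → Src)
      (CW : ℝ≥0∞), CW ≠ ∞ → MLaw Φ ε t c L N s dl W e k CW →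
      ∀ W' : (Fin (m + 1) → CTree) → (Fin q → Ph) → ℝ≥0∞,
      (Measurable fun p : (Fin (m + 1) → CTree) × (Fin q → Ph) => W' p.1 p.2) →
      (∀ T l, W' T l ≤ W (Fin.init T) l) →
      (∀ T l, W' T l ≠ 0 → Base Φ ε T (lns s dl l) ∧
        HK Φ ε L t (k (Fin.init T) l) (T (Fin.last m))) →
      ∀ A : (Fin (m + 1) → CTree) → (Fin q → Ph) → Finset Src,
      (∀ T l, W' T l ≠ 0 → (A T l).card ≤ nA ∧
        ∀ σ ∈ A T l, 0 ≤ σ.1 ∧ σ.1 ≤ t + 1 ∧ ‖σ.2.1.2‖ ^ 2 ≤ enB T l) →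
      ∀ bad : (Fin (m + 1) → CTree) → (Fin q → Ph) → Conf Ph → Prop,
      (∀ J, ∀ T l, W' T l ≠ 0 → ∀ᵐ w ∂(PP f₀ ε), bad T l w →
        LawC hΦ hε L t J 0 (N' J) T (lns s dl l) (pts w) (A T l : Set Src)) →
      muE ε ^ q * ∫⁻ T, ∫⁻ l : Fin q → Ph, (∏ j, g1 b (l j).2) * (W' T l *
        (PP f₀ ε) {w | bad T l w}) ∂volume
        ∂(Measure.pi fun _ : Fin (m + 1) => tree (inten f₀ ε) L) ≤ CW * (muE ε * Dl ε) := by
  obtain ⟨Dl, hDl, h1⟩ := lawC_lim h hΦ hb hc hcb hM₀ hf hM₁ hmarg (m + 1) q L nA 0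
    (N + (2 * 2 ^ (L + 2) + 2)) N' hT₀
  refine ⟨Dl, hDl, fun ε hε hε1 t ht s dl W e k CW hCW hM W' hW' hle hsup A hA bad hbad => ?_⟩
  have h2 := h1 ε hε hε1 t ht s hM.nonneg dl W' hW' CW hCW (fun T l => ?_)
    (fun T l hTl => (hsup T l hTl).1) (fun T l hTl => ?_) A hA bad hbad
  · rwa [zero_add, pow_one] at h2
  · refine (hle T l).trans ((hM.le _ _).trans (mul_le_mul_right (ENNReal.ofReal_le_ofReal
      (Real.exp_le_exp.2 (mul_le_mul_of_nonneg_left ?_ hc))) _))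
    rw [enB_init]
    exact le_add_of_nonneg_right (enT_nonneg _)
  · obtain ⟨hB, hH⟩ := hsup T l hTl
    obtain ⟨hB1, hB2, hB3⟩ := base_init hB
    have hW0 : W (Fin.init T) l ≠ 0 := fun h0 => hTl (le_antisymm ((hle T l).trans h0.le) zero_le)
    have h3 := mk_hit hΦ hε (hM.mrk _ _ hW0) hH hB2 hB3 0
    have h4 : (Fin.snoc (Fin.init T : Fin m → CTree) (T (Fin.last m)) : Fin (m + 1) → CTree) = T :=
      Fin.snoc_init_self T
    rw [h4] at h3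
    exact mk_prgO hΦ hε (Nat.succ_pos m) hB h3 ∅

end Vale.Agent.P119.PB.MH
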