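import Vale.Agent.P119.PB.IrrNs
import Vale.Agent.P119.PB.MkHit
import Vale.Agent.P119.IND.NearDet
import Vale.Agent.P119.IND.X6b

/-!
# P119, block PROB: colliding trees of the gas near the particles of a tree (`helper939`)

* `lnC`: the lines of the particles and of the pairs of a tree; `exists_lnC`: every particle of the tree
  is near one of these lines;
* `NearC`: a colliding tree of the gas is in contact with a particle of the tree `T`;
* **`nearC_best`**: for a fixed tree the probability of `NearC` is uniformly small;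
* `mlaw_hit_mass`: the mass of the laws of the marked pairs with one more tree;
  **`mlaw_hit_nearC`**: `NearC` for the last tree.
-/

open MeasureTheory Filter Topology Set
open scoped ENNReal NNReal

noncomputable section

namespace Vale.Agent.P119.PB

open M CTree KU FL FB RB AU TL GC IND XT PB.CT

variable {Φ : E3 → ℝ} {ε t s T₀ : ℝ} {L m q N : ℕ} {f₀ : Ph → ℝ} {κ₀ b c M₀ M₁ : ℝ}

/-! ### The lines of a tree -/

/-- The line of the centre of mass of the last pair of a tree. -/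
def cmL (Φ : E3 → ℝ) (ε : ℝ) : CTree → Ph
  | leaf a => a.2.1
  | node a b => com (ln Φ ε a, ln Φ ε b)

open Classical in
/-- The lines of the particles and of the pairs of a tree. -/
def lnC (Φ : E3 → ℝ) (ε : ℝ) (T : CTree) : Finset Ph :=
  (partsF T).image (ln Φ ε) ∪ (partsF T).image (cmL Φ ε)

theorem mem_lnC {T : CTree} {p : Ph} :
    p ∈ lnC Φ ε T ↔ ∃ P ∈ parts T, p = ln Φ ε P ∨ p = cmL Φ ε P := by
  unfold lnC
  rw [Finset.mem_union, Finset.mem_image, Finset.mem_image]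
  constructor
  · rintro (⟨P, h, rfl⟩ | ⟨P, h, rfl⟩)
    · exact ⟨P, mem_partsF.1 h, Or.inl rfl⟩
    · exact ⟨P, mem_partsF.1 h, Or.inr rfl⟩
  · rintro ⟨P, h, rfl | rfl⟩
    · exact Or.inl ⟨P, mem_partsF.2 h, rfl⟩
    · exact Or.inr ⟨P, mem_partsF.2 h, rfl⟩

theorem card_lnC_le {T : CTree} (h : T.depth ≤ L) : (lnC Φ ε T).card ≤ 2 ^ (L + 3) := by
  classical
  unfold lnC
  refine (Finset.card_union_le _ _).trans ?_
  have h1 : (partsF T).card ≤ 2 ^ (L + 2) := IND.card_partsF_le h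
  have h2 := (Finset.card_image_le (s := partsF T) (f := ln Φ ε)).trans h1
  have h3 := (Finset.card_image_le (s := partsF T) (f := cmL Φ ε)).trans h1
  have h4 : 2 ^ (L + 3) = 2 ^ (L + 2) + 2 ^ (L + 2) := by ring
  omega

theorem enT_parts {P T : CTree} (h : P ∈ parts T) : enT P ≤ enT T := by
  rcases h with h | h
  · exact enT_sub h
  · exact enT_outs (Or.inr h)

theorem com_sq_le {q : Ph × Ph} : ‖(com q).2‖ ^ 2 ≤ ‖q.1.2‖ ^ 2 + ‖q.2.2‖ ^ 2 := by
  have h2 : ‖(com q).2‖ ≤ 2⁻¹ * (‖q.1.2‖ + ‖q.2.2‖) := by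
    unfold com
    simp only
    rw [norm_smul]
    have h4 : ‖(2 : ℝ)⁻¹‖ = 2⁻¹ := by norm_num
    rw [h4]
    exact mul_le_mul_of_nonneg_left (norm_add_le _ _) (by norm_num)
  have h3 := norm_nonneg (com q).2
  have h5 : ‖(com q).2‖ ^ 2 ≤ (2⁻¹ * (‖q.1.2‖ + ‖q.2.2‖)) ^ 2 := pow_le_pow_left₀ h3 h2 2
  refine h5.trans ?_
  nlinarith [sq_nonneg (‖q.1.2‖ - ‖q.2.2‖), sq_nonneg ‖q.1.2‖, sq_nonneg ‖q.2.2‖]

theorem lnC_sq_le (hΦ : IsPotential Φ) (hε : 0 < ε) {T : CTree} {p : Ph}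
    (hp : p ∈ lnC Φ ε T) : ‖p.2‖ ^ 2 ≤ enT T := by
  obtain ⟨P, hP, rfl | rfl⟩ := mem_lnC.1 hp
  · exact (ln_sq_le_enT hΦ hε.ne' P).trans (enT_parts hP)
  · refine le_trans ?_ (enT_parts hP)
    cases P with
    | leaf a => exact ln_sq_le_enT hΦ hε.ne' (leaf a)
    | node x y =>
      refine com_sq_le.trans ?_
      exact add_le_add (ln_sq_le_enT hΦ hε.ne' x) (ln_sq_le_enT hΦ hε.ne' y)

/-- **Every particle of the tree is near one of its lines.** -/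
theorem exists_lnC (hΦ : IsPotential Φ) (hε : 0 < ε) {T x : CTree} (hT : ok Φ ε T)
    (hx : x ∈ outs T) (hs : x.root.1 ≤ s) :
    ∃ p ∈ lnC Φ ε T, ‖(st Φ ε (cur Φ ε x s) s).1 - (KU.free s p).1‖ ≤ ε / 2 := by
  have hsp := cur_spine (Φ := Φ) (ε := ε) x s
  have hxp : x ∈ parts T := by
    rcases hx with rfl | hx
    · exact self_mem_parts _
    · exact Or.inr hx
  have hP : cur Φ ε x s ∈ parts T := mem_parts_of_sub hxp (sub_of_spine hsp)
  have hok : ok Φ ε (cur Φ ε x s) := parts_ok hΦ hP hT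
  have hsig : sig Φ ε (cur Φ ε x s) ≤ s := sig_cur_le hs
  rcases le_or_gt (ext Φ ε (cur Φ ε x s)) s with h1 | h1
  · refine ⟨_, mem_lnC.2 ⟨_, hP, Or.inl rfl⟩, ?_⟩
    rw [st_after hΦ hε hok h1, sub_self, norm_zero]
    positivity
  · refine ⟨_, mem_lnC.2 ⟨_, hP, Or.inr rfl⟩, ?_⟩
    generalize cur Φ ε x s = Y at hok hsig h1
    cases Y with
    | leaf a => exact absurd (lt_of_lt_of_le h1 hsig) (lt_irrefl _)
    | node x y => exact st_near hΦ hε hok hsig h1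

/-! ### Colliding trees of the gas -/

/-- A colliding tree of the gas is in contact with a particle of the tree `T`. -/
def NearC (Φ : E3 → ℝ) (ε : ℝ) (L : ℕ) (V : Finset Src) (T : CTree) (t : ℝ) : Prop :=
  ∃ x ∈ outs T, ∃ y s, s ≤ t ∧ x.root.1 ≤ s ∧ s < ext Φ ε y ∧ live Φ ε L (V : Set Src) y s ∧
    Ctc ε (st Φ ε y s) (st Φ ε (cur Φ ε x s) s)

theorem NearC.irrN (hΦ : IsPotential Φ) (hε : 0 < ε) {V : Finset Src} {T : CTree}
    (hT : ok Φ ε T) (h : NearC Φ ε L V T t) :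
    ∃ p ∈ lnC Φ ε T, IrM.IrrN Φ ε L V p t := by
  obtain ⟨x, hx, y, s, hst, hxs, hey, hly, hc⟩ := h
  obtain ⟨p, hp, h1⟩ := exists_lnC hΦ hε hT hx hxs
  have hsig := hly.sig_le
  have h4 : ‖(st Φ ε y s).1 - (st Φ ε (cur Φ ε x s) s).1‖ ≤ ε := hc.1
  have hs0 : 0 ≤ s := (leaf_nonneg (outs_ok hΦ hT hx) x.root_mem_leaves).trans hxs
  refine ⟨p, hp, y, hly.ok, hly.depth, hly.sub, s, hst, hs0, hsig, hey.le, ?_, ?_⟩
  · cases y with
    | leaf a => exact absurd (lt_of_lt_of_le hey hsig) (lt_irrefl _)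
    | node A B => exact ⟨A, B, rfl⟩
  · have h5 : (st Φ ε y s).1 - (KU.free s p).1 =
        ((st Φ ε y s).1 - (st Φ ε (cur Φ ε x s) s).1) +
          ((st Φ ε (cur Φ ε x s) s).1 - (KU.free s p).1) := by abel
    rw [h5]
    refine (norm_add_le _ _).trans ?_
    linarith

/-- **The probability of `NearC`**, for a fixed tree. -/
theorem nearC_best (hΦ : IsPotential Φ) (hg : GoodDatum f₀ κ₀) (hb : 0 < b) (hM₀ : 0 ≤ M₀)
    (hf : ∀ z, f₀ z ≤ M₀ * Real.exp (-b * ‖z.2‖ ^ 2)) (L : ℕ) (hT₀ : 0 ≤ T₀) {d : ℝ}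
    (hd : 0 < d) :
    ∃ D : ℝ → ℝ≥0∞, Tendsto D (𝓝[>] 0) (𝓝 0) ∧ ∀ ε, 0 < ε → ∀ t ∈ Icc 0 T₀, ∀ T : CTree,
      ok Φ ε T → T.depth ≤ L → (PP f₀ ε) {w | NearC Φ ε L (wS (pts w)) T t} ≤
        D ε * ENNReal.ofReal (Real.exp (d * enT T)) := by
  obtain ⟨K, hK, hpw⟩ := pw_le_expd 1 hd
  have key : ∀ ρ : ℝ, 0 < ρ → ∀ᶠ ε : ℝ in 𝓝[>] 0, ∀ x : {x : ℝ × CTree // x.1 ∈ Icc 0 T₀ ∧
      x.2.depth ≤ L}, (PP f₀ ε) {w | ok Φ ε x.1.2 ∧ NearC Φ ε L (wS (pts w)) x.1.2 x.1.1} ≤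
        ENNReal.ofReal ρ * ENNReal.ofReal (Real.exp (d * enT x.1.2)) := by
    intro ρ hρ
    set n : ℝ := (2 ^ (L + 3) : ℕ) * (K.toReal + 1) with hn
    have hn0 : 0 < n := by positivity
    filter_upwards [irrN_small hΦ hg hb (show 0 < T₀ + 1 by linarith) hM₀ hf L (div_pos hρ hn0),
      self_mem_nhdsWithin] with ε h1 hε x
    have hε' : 0 < ε := hε
    obtain ⟨⟨t, T⟩, ht, hT⟩ := x
    change (PP f₀ ε) {w | ok Φ ε T ∧ NearC Φ ε L (wS (pts w)) T t} ≤ _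
    have hm : ∀ p : Ph, MeasurableSet {w : Conf Ph | IrM.IrrN Φ ε L (wS (pts w)) p t} := fun p =>
      RM.measurableSet_IrrN hΦ hε' (RM.rs_wS measurable_id) measurable_const measurable_const
    have h2 : ∀ p : Ph, (PP f₀ ε) {w | IrM.IrrN Φ ε L (wS (pts w)) p t} ≤
        ENNReal.ofReal (ρ / n) * ML.pw 1 p.2 := by
      intro p
      have h3 := h1 t (by have := ht.2; simp only at this; linarith) p
      refine le_trans (le_of_eq ?_) h3
      rw [← lintegral_indicator_one (hm p)]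
      refine lintegral_congr fun w => ?_
      by_cases hw : IrM.IrrN Φ ε L (wS (pts w)) p t
      · rw [indicator_of_mem (show w ∈ {w | IrM.IrrN Φ ε L (wS (pts w)) p t} from hw), ind_of hw]
        rfl
      · rw [indicator_of_notMem (show w ∉ {w | IrM.IrrN Φ ε L (wS (pts w)) p t} from hw),
          ind_of_not hw]
    have h4 : {w : Conf Ph | ok Φ ε T ∧ NearC Φ ε L (wS (pts w)) T t} ⊆
        ⋃ p ∈ lnC Φ ε T, {w | IrM.IrrN Φ ε L (wS (pts w)) p t} := by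
      intro w hw
      obtain ⟨p, hp, h5⟩ := NearC.irrN hΦ hε' hw.1 hw.2
      rw [mem_iUnion₂]
      exact ⟨p, hp, h5⟩
    have h5 : ∀ p ∈ lnC Φ ε T, ENNReal.ofReal (ρ / n) * ML.pw 1 p.2 ≤
        ENNReal.ofReal (ρ / n) * (K * ENNReal.ofReal (Real.exp (d * enT T))) := fun p hp =>
      mul_le_mul' le_rfl ((hpw p.2).trans (mul_le_mul' le_rfl (ENNReal.ofReal_le_ofReal
        (Real.exp_le_exp.2 (mul_le_mul_of_nonneg_left (lnC_sq_le hΦ hε' hp) hd.le)))))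
    refine (measure_mono h4).trans ((measure_biUnion_finset_le _ _).trans
      ((Finset.sum_le_sum fun p hp => (h2 p).trans (h5 p hp)).trans ?_))
    rw [Finset.sum_const, nsmul_eq_mul]
    have h6 : ((lnC Φ ε T).card : ℝ≥0∞) ≤ ((2 ^ (L + 3) : ℕ) : ℝ≥0∞) := by
      exact_mod_cast card_lnC_le hT
    have h7 : K ≤ ENNReal.ofReal (K.toReal + 1) := IrM.le_real_add_one hK
    calc ((lnC Φ ε T).card : ℝ≥0∞) * (ENNReal.ofReal (ρ / n) *
          (K * ENNReal.ofReal (Real.exp (d * enT T))))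
        ≤ ((2 ^ (L + 3) : ℕ) : ℝ≥0∞) * (ENNReal.ofReal (ρ / n) *
          (ENNReal.ofReal (K.toReal + 1) * ENNReal.ofReal (Real.exp (d * enT T)))) :=
          mul_le_mul' h6 (mul_le_mul' le_rfl (mul_le_mul' h7 le_rfl))
      _ = (ENNReal.ofReal n * ENNReal.ofReal (ρ / n)) *
          ENNReal.ofReal (Real.exp (d * enT T)) := by
          rw [hn, ENNReal.ofReal_mul (Nat.cast_nonneg _), ENNReal.ofReal_natCast]
          ring
      _ = _ := by
          rw [← ENNReal.ofReal_mul hn0.le, mul_div_cancel₀ _ hn0.ne']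
  have hx0 : ∀ x : ℝ, ENNReal.ofReal (Real.exp x) ≠ 0 := fun x =>
    (ENNReal.ofReal_pos.2 (Real.exp_pos x)).ne'
  obtain ⟨D, hD, h1⟩ := exists_best (X := {x : ℝ × CTree // x.1 ∈ Icc 0 T₀ ∧ x.2.depth ≤ L})
    (f := fun ε x => (PP f₀ ε) {w | ok Φ ε x.1.2 ∧ NearC Φ ε L (wS (pts w)) x.1.2 x.1.1})
    (g := fun _ x => ENNReal.ofReal (Real.exp (d * enT x.1.2)))
    (fun _ _ => hx0 _) (fun _ _ => ENNReal.ofReal_ne_top) key
  refine ⟨D, hD, fun ε hε t ht T hok hT => ?_⟩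
  have h2 : {w : Conf Ph | NearC Φ ε L (wS (pts w)) T t} ⊆
      {w | ok Φ ε T ∧ NearC Φ ε L (wS (pts w)) T t} := fun w hw => ⟨hok, hw⟩
  exact (measure_mono h2).trans (h1 ε ⟨(t, T), ht, hT⟩)

/-! ### The laws of the marked pairs with one more tree -/

open MH in
/-- **The mass of the laws of the marked pairs with one more tree**, with an exponential of the energy
of the last tree. -/
theorem mlaw_hit_mass (h : GoodDatum f₀ κ₀) (hΦ : IsPotential Φ) (hb : 0 < b) (hc : 0 ≤ c)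
    (hcb : c + b / 4 < b) (hM₀ : 0 ≤ M₀) (hf : ∀ z, f₀ z ≤ M₀ * Real.exp (-b * ‖z.2‖ ^ 2))
    (hM₁ : 0 ≤ M₁)
    (hmarg : ∀ v, ∫⁻ x, ENNReal.ofReal (f₀ (x, v)) ≤ ENNReal.ofReal (M₁ * Real.exp (-b * ‖v‖ ^ 2)))
    (m q L N : ℕ) (hT₀ : 0 ≤ T₀) :
    ∃ C : ℝ≥0∞, C ≠ ∞ ∧ ∀ (ε : ℝ), 0 < ε → ε ≤ 1 →
      ∀ t ∈ Icc 0 T₀, ∀ (s : Fin q → ℝ) (dl : Fin q → ℕ)
      (W : (Fin m → CTree) → (Fin q → Ph) → ℝ≥0∞) (e k : (Fin m → CTree) → (Fin q → Ph) → Src)
      (CW : ℝ≥0∞), MLaw Φ ε t c L N s dl W e k CW →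
      ∀ W' : (Fin (m + 1) → CTree) → (Fin q → Ph) → ℝ≥0∞,
      (Measurable fun p : (Fin (m + 1) → CTree) × (Fin q → Ph) => W' p.1 p.2) →
      (∀ T l, W' T l ≤ W (Fin.init T) l) →
      (∀ T l, W' T l ≠ 0 → Base Φ ε T (lns s dl l) ∧
        HK Φ ε L t (k (Fin.init T) l) (T (Fin.last m))) →
      muE ε ^ q * ∫⁻ T, ∫⁻ l : Fin q → Ph, (∏ j, g1 b (l j).2) * (W' T l *
        ENNReal.ofReal (Real.exp (b / 4 * enT (T (Fin.last m))))) ∂volume
        ∂(Measure.pi fun _ : Fin (m + 1) => tree (inten f₀ ε) L) ≤ CW * (muE ε * C) := by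
  obtain ⟨C, hC, h1⟩ := mass_prog (c := c + b / 4) h hΦ (by linarith) (by linarith)
    hM₀ hf hM₁ hmarg (m + 1) q L 1 (N + (2 * 2 ^ (L + 2) + 2)) hT₀
  refine ⟨C, hC, fun ε hε hε1 t ht s dl W e k CW hM W' hW' hle hsup => ?_⟩
  have hne : ∀ T l, W' T l * ENNReal.ofReal (Real.exp (b / 4 * enT (T (Fin.last m)))) ≠ 0 →
      W' T l ≠ 0 := fun T l h2 h3 => h2 (by rw [h3, zero_mul])
  have h2 := h1 ε hε hε1 s hM.nonneg dl
    (fun T l => W' T l * ENNReal.ofReal (Real.exp (b / 4 * enT (T (Fin.last m)))))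
    (hW'.mul (ENNReal.measurable_ofReal.comp (Real.measurable_exp.comp
      ((measurable_enT.comp ((measurable_pi_apply (Fin.last m)).comp measurable_fst)).const_mul
        _)))) CW (fun T l => ?_) (fun T l h3 => (hsup T l (hne T l h3)).1) (fun T l h3 => ?_)
  · rwa [pow_one] at h2
  · have e1 := enB_init T l
    have h4 := (hle T l).trans (hM.le (Fin.init T) l)
    refine (mul_le_mul' h4 le_rfl).trans ?_
    rw [mul_assoc, ← ENNReal.ofReal_mul (Real.exp_pos _).le, ← Real.exp_add]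
    refine mul_le_mul' le_rfl (ENNReal.ofReal_le_ofReal (Real.exp_le_exp.2 ?_))
    have h5 := enT_nonneg (T (Fin.last m))
    have h6 : 0 ≤ enB (Fin.init T : Fin m → CTree) l := by
      unfold enB
      exact add_nonneg (Finset.sum_nonneg fun j _ => enT_nonneg _)
        (Finset.sum_nonneg fun j _ => sq_nonneg _)
    rw [e1]
    nlinarith
  · obtain ⟨hB, hH⟩ := hsup T l (hne T l h3)
    obtain ⟨hB1, hB2, hB3⟩ := base_init hB
    have hW0 : W (Fin.init T) l ≠ 0 := fun h0 =>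
      hne T l h3 (le_antisymm ((hle T l).trans h0.le) zero_le)
    have h4 := mk_hit hΦ hε (hM.mrk _ _ hW0) hH hB2 hB3 0
    have h5 : (Fin.snoc (Fin.init T : Fin m → CTree) (T (Fin.last m)) : Fin (m + 1) → CTree) = T :=
      Fin.snoc_init_self T
    rw [h5] at h4
    exact (mk_prgO hΦ hε (Nat.succ_pos m) hB h4 ∅).mono_t hΦ hε ht.2
      (fun j σ hσ => leaf_nonneg (hB.ok j) hσ) fun j => hM.nonneg j

end Vale.Agent.P119.PB
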