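import Vale.Agent.P119.PB.X6e
import Vale.Agent.P119.PB.NearC
import Vale.Agent.P119.PB.HitGood
import Vale.Agent.P119.IND.HitK
import Vale.Agent.P119.IND.HitMk

/-!
# P119, block PROB: the square of the first marked line and of the tree hit by the second one (`helper939`)

* `A6d`: the lines which are seen by the gas;
* `law_goodK`: the first marked line interacts with the lines of the tree over the gas;
* `law_tri'`: a third body at the hit;
* `law_Bd`: a broken square gives the alternatives of the laws, or a colliding tree of the gas is in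
  contact with a particle of the tree (`NearC`);
* **`lim_Bd`**, **`kneg_Bd`** (X6d).
-/

open MeasureTheory Filter Topology Set
open scoped ENNReal NNReal

noncomputable section

namespace Vale.Agent.P119.PB.X6d

open M CTree KU FL FB RB AU TL GC IND XT PB.CT M6 MH

variable {Φ : E3 → ℝ} {ε t T₀ : ℝ} {L m q N : ℕ} {f₀ : Ph → ℝ} {κ₀ b c M₀ M₁ : ℝ}

/-! ### The lines -/

/-- The lines which are seen by the gas. -/
def A6d (Φ : E3 → ℝ) (ε : ℝ) (e k : Src) (R : CTree) : Finset Src := by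
  classical
  exact insert e (krs Φ ε R (hitT ε (k.2.1, ln Φ ε R)))

theorem mem_A6d {e k a : Src} {R : CTree} :
    a ∈ A6d Φ ε e k R ↔ a = e ∨ a ∈ krs Φ ε R (hitT ε (k.2.1, ln Φ ε R)) := by
  classical
  unfold A6d
  rw [Finset.mem_insert]

theorem card_A6d_le {e k : Src} {R : CTree} (hd : R.depth ≤ L) :
    (A6d Φ ε e k R).card ≤ 2 ^ (L + 2) + 2 := by
  classical
  have h1 := NE.card_exl_le (Φ := Φ) (ε := ε) hd
  unfold A6d krs
  refine (Finset.card_insert_le _ _).trans ?_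
  have := Finset.card_insert_le (hitT ε (k.2.1, ln Φ ε R), ln Φ ε R, R.depth) (exl Φ ε R)
  omega

section

variable {T₀ : Fin m → CTree} {l : Fin q → Src} {e k : Src} {R : CTree} {w : Finset Ph}
  {T : ℝ}

open Classical in
/-- **The first marked line interacts with the lines of the tree** which is hit by the second one. -/
theorem law_goodK (hΦ : IsPotential Φ) (hε : 0 < ε) (hT : 0 ≤ T) (h : Mk Φ ε T N T₀ l e k)
    (hB : Base Φ ε (Fin.snoc T₀ R : Fin (m + 1) → CTree) l) (hed : e.2.2 ≤ L) (hRd : R.depth ≤ L)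
    (hm : Meets ε (k.2.1, ln Φ ε R)) (hu : k.1 < hitT ε (k.2.1, ln Φ ε R))
    (hRu : ext Φ ε R < hitT ε (k.2.1, ln Φ ε R)) (hle : hitT ε (k.2.1, ln Φ ε R) ≤ T)
    (hTw : ∀ j, ∀ σ ∈ (T₀ j).leaves, σ ∉ wS w) (hlw : ∀ j, l j ∉ wS w)
    (hRw : ∀ σ ∈ R.leaves, σ ∉ wS w) (hAw : ∀ σ ∈ A6d Φ ε e k R, σ ∉ wS w) (ht : t ≤ T)
    (hno : ¬GoodK Φ ε L (wS w) (leaf e) (krs Φ ε R (hitT ε (k.2.1, ln Φ ε R))) t) (J : ℕ) :
    LawC hΦ hε L T J 0 (N + 2 * 2 ^ (L + 2) + 2 + 2 * Nb0 L J + 1)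
      (Fin.snoc T₀ R : Fin (m + 1) → CTree) l w (A6d Φ ε e k R : Set Src) := by
  obtain ⟨F, G, E, S, h1, h2, h3, h4, h5, h6⟩ := h
  have hR : CTree.ok Φ ε R := by
    have := hB.ok (Fin.last m)
    rwa [Fin.snoc_last] at this
  have hd : ∀ σ ∈ R.leaves, σ ∉ lab F := by
    intro σ hσ hσF
    rcases h2.mem σ hσF with ⟨j, hj⟩ | ⟨j, rfl⟩
    · have h7 := hB.disj j.castSucc (Fin.last m) (Fin.castSucc_lt_last j).ne
      rw [Fin.snoc_castSucc, Fin.snoc_last] at h7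
      exact Set.disjoint_left.1 h7 hj hσ
    · have h7 := hB.notMem (Fin.last m) j
      rw [Fin.snoc_last] at h7
      exact h7 hσ
  set ρ := hitT ε (k.2.1, ln Φ ε R) with hρ
  obtain ⟨G', p1, p2, p3⟩ := h1.hitK hΦ hε h4 h5 h6 hR hd hm hu hRu hle
  obtain ⟨R₀, h7⟩ := (h2.snoc R).slab (Nat.succ_pos m) hB p2.jn
  have hsz : szB (F ∪ partsF R) G' ≤ N + 2 * 2 ^ (L + 2) + 2 := by
    have h8 := MBase.card_perm (F := F) (R := R) p1
    have h9 := XT.card_partsF_le hRd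
    omega
  have hEF : E.root ∈ lab F := h1.root_mem_E
  have hER : E.root ∉ R.leaves := fun h8 => hd _ h8 hEF
  have hXE : XK Φ ε R ρ e E.root = e := XK_of_notMem hER
  have hcase : ∀ σ ∈ lab (F ∪ partsF R), σ ∉ {σ | σ ∉ R.leaves ∧ σ ≠ E.root} →
      XK Φ ε R ρ e σ ∈ A6d Φ ε e k R := by
    intro σ _ hσD
    by_cases h8 : σ ∈ R.leaves
    · obtain ⟨x, hx, rfl⟩ := TL.exists_out h8
      rw [XK_out hR hx, mem_A6d]
      exact Or.inr ((mem_krs hR).2 ⟨x, hx, rfl⟩)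
    · have h9 : σ = E.root := by
        by_contra h9
        exact hσD ⟨h8, h9⟩
      rw [h9, hXE]
      exact mem_A6d.2 (Or.inl rfl)
  have hzw : ∀ σ ∈ lab (F ∪ partsF R), σ ∉ wS w := by
    intro σ hσ
    rcases (MBase.mem_lab_union' σ).1 hσ with h8 | h8
    · rcases h2.mem σ h8 with ⟨j, hj⟩ | ⟨j, rfl⟩
      · exact hTw j σ hj
      · exact hlw j
    · exact hRw σ h8
  have h10 := p3.law_not_good (K := A6d Φ ε e k R) (t := t) (L := L) hΦ hε hT h7 hzw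
    (fun σ hσ hσD => hAw _ (hcase σ hσ hσD)) (fun σ hσ => ?_) ht (fun hi hg => ?_) J
  · exact h10.imp id (Or.imp (PrgC.mono le_rfl (by omega))
      (Or.imp (PrgO.mono le_rfl (by omega)) (IrrO.mono le_rfl (by omega))))
  · rcases mem_A6d.1 hσ with rfl | hσ
    · refine ⟨⟨?_, hed⟩, E.root, p2.root_mem_E, fun h8 => h8.2 rfl, hXE⟩
      rw [h4]
      exact M.ext_nonneg hΦ hε (h1.fam.ok _ h1.lastE.mem)
    · obtain ⟨x, hx, rfl⟩ := (mem_krs hR).1 hσ
      have h8 : x.root ∈ R.leaves := outs_leaves hx x.root_mem_leaves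
      refine ⟨⟨?_, (outs_depth hx).trans hRd⟩, x.root, (MBase.mem_lab_union' _).2 (Or.inr h8),
        fun h9 => h9.1 h8, XK_out hR hx⟩
      rcases hx with rfl | hx
      · change 0 ≤ rho Φ ε x _ x
        rw [rho_self]
        exact (h1.nonneg hΦ hε).trans hu.le
      · change 0 ≤ rho Φ ε R _ x
        rw [rho_exs hR hx]
        exact M.ext_nonneg hΦ hε (outs_ok hΦ hR (Or.inr hx))
  · refine hno ⟨?_, ?_, ?_⟩
    · rintro x (hx | hx) y (hy | hy) _
      · exact (mem_singleton_iff.1 hx).trans (mem_singleton_iff.1 hy).symm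
      · exact absurd hy (notMem_empty _)
      · exact absurd hx (notMem_empty _)
      · exact absurd hx (notMem_empty _)
    · rw [srcs_leaf, Finset.disjoint_singleton_left]
      intro h8
      obtain ⟨x, hx, h9⟩ := (mem_krs hR).1 h8
      have h11 : x.root ∈ R.leaves := outs_leaves hx x.root_mem_leaves
      have h12 : XK Φ ε R ρ e x.root = XK Φ ε R ρ e E.root := by
        rw [XK_out hR hx, hXE, h9]
      have h13 := hi ⟨Finset.mem_coe.2 ((MBase.mem_lab_union' _).2 (Or.inr h11)),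
        fun h9 => h9.1 h11⟩ ⟨Finset.mem_coe.2 p2.root_mem_E, fun h8 => h8.2 rfl⟩ h12
      exact hER (h13 ▸ h11)
    · have e1 : srcs Φ ε (leaf e) ∪ krs Φ ε R ρ = A6d Φ ε e k R := by
        ext a
        rw [srcs_leaf, Finset.mem_union, Finset.mem_singleton, mem_A6d]
      rw [e1]
      exact hg

open Classical in
/-- **A third body** at the hit of the tree by the second marked line, over the gas. -/
theorem law_tri' (hΦ : IsPotential Φ) (hε : 0 < ε) (hT : 0 ≤ T) (hm : 0 < m)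
    (h : Mk Φ ε T N T₀ l e k)
    (hB : Base Φ ε (Fin.snoc T₀ R : Fin (m + 1) → CTree) l) (hk : HM Φ ε T k R)
    (hRd : R.depth ≤ L) (heR : e ∉ R.leaves) (hkR : k ∉ R.leaves)
    (hTw : ∀ j, ∀ σ ∈ (T₀ j).leaves, σ ∉ wS w) (hlw : ∀ j, l j ∉ wS w)
    (hRw : ∀ σ ∈ R.leaves, σ ∉ wS w) (hew : e ∉ wS w) (hkw : k ∉ wS w) (ht : t ≤ T)
    (hal : alive Φ ε L (addT (wS w) R : Set Src) R (hitT ε (k.2.1, ln Φ ε R)))
    (htri : TriW Φ ε L (addT (wS w) R) R k t) (J : ℕ) (A : Set Src) :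
    LawC hΦ hε L T J 0 (N + 4 * 2 ^ (L + 2) + 2)
      (Fin.snoc T₀ R : Fin (m + 1) → CTree) l w A := by
  obtain ⟨F, G, D, X, E, S, R₀, h1, h2, h3, h4, h5, h6, h7, h8, h9, h10⟩ := h.hb hm hB hk
  have h11 : ∀ σ ∈ lab F, σ ∉ wS w := by
    intro σ hσ
    rcases h3.mem σ hσ with ⟨j, hj⟩ | ⟨j, rfl⟩
    · exact hTw j σ hj
    · exact hlw j
  have h12 : 2 ^ (L + 3) = 2 * 2 ^ (L + 2) := by ring
  have h13 : 0 < 2 ^ (L + 2) := by positivity
  by_cases hi : InjOn X ((lab F : Set Src) \ D)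
  · refine Or.inr (Or.inr (Or.inr ((h1.law_tri (A := ∅) (V := wS w) hΦ hε h2 hB hi hRd h11 hRw
      (fun σ hσ hσD => ?_) (fun σ hσ => absurd hσ (Finset.notMem_empty _)) (fun a => ?_)
      (fun σ hσ hσD => ?_) (by rw [h9, HM.sig_eq]; exact hal) ht (by rw [h9]; exact htri)).mono
        le_rfl (by omega))))
    · rcases h10 σ hσ hσD with h' | h' <;> rw [h']
      · exact hew
      · exact hkw
    · simp
    · rcases h10 σ hσ hσD with h' | h' <;> rw [h']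
      · exact heR
      · exact hkR
  · rcases h1.law_coin (l := l) (w := w) hΦ hε hT h2 hRd hi with h' | h'
    · exact Or.inr (Or.inl (h'.mono le_rfl (by omega)))
    · exact Or.inr (Or.inr (Or.inl (h'.mono le_rfl (by omega))))

end

/-! ### The alternatives of the laws -/

variable {s : Fin q → ℝ} {dl : Fin q → ℕ} {e k : (Fin m → CTree) → (Fin q → Ph) → Src}
  {T : Fin (m + 1) → CTree} {l : Fin q → Ph}

/-- The births and the energies of the lines. -/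
theorem A6d_ok (hΦ : IsPotential Φ) (hε : 0 < ε) (h : Str6 Φ ε t L N s dl e k T l) {a : Src}
    (ha : a ∈ A6d Φ ε (e (Fin.init T) l) (k (Fin.init T) l) (T (Fin.last m))) :
    0 ≤ a.1 ∧ a.1 ≤ t ∧ ‖a.2.1.2‖ ^ 2 ≤ enB T l := by
  have hb := h.mrk.births hΦ hε
  have he := h.mrk.energy hΦ hε h.base'
  have hen := enB_init T l
  have hH := h.hit
  rcases mem_A6d.1 ha with rfl | h1
  · refine ⟨hb.1.1, hb.1.2, he.1.trans ?_⟩
    rw [hen]
    exact le_add_of_nonneg_right (enT_nonneg _)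
  · obtain ⟨x, hx, rfl⟩ := (mem_krs hH.ok).1 h1
    have h2 : ‖(ln Φ ε x).2‖ ^ 2 ≤ enB T l := by
      refine (ln_sq_le_enT_outs hΦ hε.ne' hx).trans ?_
      rw [hen]
      refine le_add_of_nonneg_left ?_
      unfold enB
      exact add_nonneg (Finset.sum_nonneg fun j _ => enT_nonneg _)
        (Finset.sum_nonneg fun j _ => sq_nonneg _)
    refine ⟨?_, ?_, h2⟩
    · change 0 ≤ rho Φ ε (T (Fin.last m)) _ x
      rcases hx with rfl | hx
      · rw [rho_self]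
        exact hb.2.1.trans hH.lt.le
      · rw [rho_exs hH.ok hx]
        exact M.ext_nonneg hΦ hε (outs_ok hΦ hH.ok (Or.inr hx))
    · change rho Φ ε (T (Fin.last m)) _ x ≤ t
      rcases hx with rfl | hx
      · rw [rho_self]
        exact hH.le
      · rw [rho_exs hH.ok hx]
        exact ((out_ext_le hΦ hε hH.ok (Or.inr hx)).trans hH.ext_lt.le).trans hH.le

open Classical in
/-- **A broken square** gives the alternatives of the laws, or a colliding tree of the gas near the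
tree which is hit. -/
theorem law_Bd (h₀ : GoodDatum f₀ κ₀) (hΦ : IsPotential Φ) (hε : 0 < ε) (ht : 0 ≤ t)
    (hm : 0 < m) (h : Str6 Φ ε t L N s dl e k T l) (J : ℕ) :
    ∀ᵐ w ∂(PP f₀ ε), (Bd L hΦ hε t (e (Fin.init T) l) (k (Fin.init T) l) (wS (pts w))
      (T (Fin.last m)) ∧ ¬NearC Φ ε L (wS (pts w)) (T (Fin.last m)) t) →
      LawC hΦ hε L t J 0 (N + 4 * 2 ^ (L + 2) + 3 + 2 * Nb0 L J) T (lns s dl l) (pts w)
        (A6d Φ ε (e (Fin.init T) l) (k (Fin.init T) l) (T (Fin.last m)) : Set Src) := by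
  obtain ⟨e', he'⟩ : ∃ e', e (Fin.init T) l = e' := ⟨_, rfl⟩
  obtain ⟨k', hk'⟩ : ∃ k', k (Fin.init T) l = k' := ⟨_, rfl⟩
  have hM := h.mrk
  have hed := h.dep_e
  have hH := h.hit
  have hbirths := hM.births hΦ hε
  rw [he', hk'] at hM hbirths
  rw [he'] at hed
  rw [hk'] at hH
  rw [he', hk']
  have eT : (Fin.snoc (Fin.init T : Fin m → CTree) (T (Fin.last m)) : Fin (m + 1) → CTree) = T :=
    Fin.snoc_init_self T
  have hB : Base Φ ε (Fin.snoc (Fin.init T : Fin m → CTree) (T (Fin.last m)) :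
      Fin (m + 1) → CTree) (lns s dl l) := by rw [eT]; exact h.base
  obtain ⟨R, hR⟩ : ∃ R, T (Fin.last m) = R := ⟨_, rfl⟩
  rw [hR] at hH hB eT ⊢
  have hA : {σ : Src | ∃ j, σ ∈ ((Fin.init T : Fin m → CTree) j).leaves}.Finite := by
    have : {σ : Src | ∃ j, σ ∈ ((Fin.init T : Fin m → CTree) j).leaves} =
        ⋃ j, ((Fin.init T : Fin m → CTree) j).leaves := by
      ext σ
      simp
    rw [this]
    exact Set.finite_iUnion fun j => CTree.leaves_finite _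
  filter_upwards [ae_forall_notMem_wS h₀ hε.le hA,
    ae_forall_notMem_wS h₀ hε.le (Set.finite_range (lns s dl l)),
    ae_forall_notMem_wS h₀ hε.le R.leaves_finite, ae_notMem_wS h₀ hε.le k',
    ae_forall_notMem_wS h₀ hε.le (A6d Φ ε e' k' R).finite_toSet] with w w1 w2 w3 w4 w5 hbad
  obtain ⟨⟨hH6, hN, hsq⟩, hnC⟩ := hbad
  have v1 : ∀ j, ∀ σ ∈ ((Fin.init T : Fin m → CTree) j).leaves, σ ∉ wS (pts w) :=
    fun j σ hσ => w1 σ ⟨j, hσ⟩
  have v2 : ∀ j, lns s dl l j ∉ wS (pts w) := fun j => w2 _ ⟨j, rfl⟩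
  have v3 : ∀ σ ∈ A6d Φ ε e' k' R, σ ∉ wS (pts w) := fun σ hσ => w5 σ (Finset.mem_coe.2 hσ)
  have v4 : e' ∉ wS (pts w) := v3 _ (mem_A6d.2 (Or.inl rfl))
  have hV : ∀ a ∈ wS (pts w), 0 ≤ a.1 := by
    intro a ha
    obtain ⟨z, -, rfl⟩ := mem_wS.1 ha
    exact le_rfl
  have hdR : Disjoint (wS (pts w) : Set Src) R.leaves :=
    Set.disjoint_right.2 fun σ hσ h' => w3 σ hσ (Finset.mem_coe.1 h')
  by_cases hK : GoodK Φ ε L (wS (pts w)) (leaf e') (krs Φ ε R (hitT ε (k'.2.1, ln Φ ε R))) t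
  swap
  · have h1 := law_goodK hΦ hε ht hM hB hed hH.depth hH.meets hH.lt hH.ext_lt hH.le v1 v2 w3 v3
      le_rfl hK J
    rw [eT] at h1
    refine NE.LawC.mono_set (fun _ h => h) ?_ h1
    have : 0 < 2 ^ (L + 2) := by positivity
    omega
  by_cases htri : TriW Φ ε L (addT (wS (pts w)) R) R k' t
  · have h1 := law_tri' hΦ hε ht hm hM hB ⟨hH.meets, hH.exits' hΦ, hH.lt, hH.ext_lt, hH.le⟩
      hH.depth hH6.notMem hH.notMem v1 v2 w3 v4 w4 le_rfl hH6.al htri J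
      (A6d Φ ε e' k' R : Set Src)
    rw [eT] at h1
    exact NE.LawC.mono_set (fun _ h => h) (by omega) h1
  exfalso
  rcases square_hit6_c hV hbirths.1.1 hbirths.1.2 hed hdR v4 hH6 hH6.al hN htri hH.meets hH.le hK
    with h1 | h1
  · exact hsq h1
  · refine hnC ?_
    obtain ⟨z, hz, x, hx, y, s, g1, g2, g3, g4, g5, g6, g7, g8⟩ := h1
    exact ⟨x, hx, y, s, g1, g2, g5, g6, g8⟩

/-! ### The limit -/

/-- **The broken squares are negligible.** -/
theorem lim_Bd (h : GoodDatum f₀ κ₀) (hΦ : IsPotential Φ) (hb : 0 < b) (hc : 0 ≤ c)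
    (hcb : c + b / 4 < b) (hM₀ : 0 ≤ M₀) (hf : ∀ z, f₀ z ≤ M₀ * Real.exp (-b * ‖z.2‖ ^ 2))
    (hM₁ : 0 ≤ M₁)
    (hmarg : ∀ v, ∫⁻ x, ENNReal.ofReal (f₀ (x, v)) ≤ ENNReal.ofReal (M₁ * Real.exp (-b * ‖v‖ ^ 2)))
    (m q L N : ℕ) (hm : 0 < m) (hT₀ : 0 ≤ T₀) :
    ∃ Dl : ℝ → ℝ≥0∞, Tendsto Dl (𝓝[>] 0) (𝓝 0) ∧ ∀ (ε : ℝ) (hε : 0 < ε), ε ≤ 1 →
      ∀ t ∈ Icc 0 T₀, ∀ (s : Fin q → ℝ) (dl : Fin q → ℕ)
      (W : (Fin m → CTree) → (Fin q → Ph) → ℝ≥0∞) (e k : (Fin m → CTree) → (Fin q → Ph) → Src)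
      (CW : ℝ≥0∞), CW ≠ ∞ → MLaw Φ ε t c L N s dl W e k CW →
      muE ε ^ q * ∫⁻ T, ∫⁻ l : Fin q → Ph, (∏ j, g1 b (l j).2) * (W6 Φ ε L t s dl W k T l *
        (PP f₀ ε) {w | Bd L hΦ hε t (e (Fin.init T) l) (k (Fin.init T) l) (wS (pts w))
          (T (Fin.last m))}) ∂volume
        ∂(Measure.pi fun _ : Fin (m + 1) => tree (inten f₀ ε) L) ≤ CW * (muE ε * Dl ε) := by
  obtain ⟨Dl, hDl, h1⟩ := mlaw_hit_lim h hΦ hb hc hcb hM₀ hf hM₁ hmarg m q L N
    (2 ^ (L + 2) + 2) (fun J => N + 4 * 2 ^ (L + 2) + 3 + 2 * Nb0 L J) hT₀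
  obtain ⟨C, hC, h2⟩ := mlaw_hit_mass h hΦ hb hc hcb hM₀ hf hM₁ hmarg m q L N hT₀
  obtain ⟨D, hD, h3⟩ := nearC_best hΦ h hb hM₀ hf L hT₀ (show 0 < b / 4 by linarith)
  refine ⟨fun ε => C * D ε + Dl ε, ?_, fun ε hε hε1 t ht s dl W e k CW hCW hM => ?_⟩
  · have h4 := (ENNReal.Tendsto.const_mul hD (Or.inr hC) (a := C)).add hDl
    rwa [mul_zero, add_zero] at h4
  have := GC.isFiniteMeasure_inten (ε := ε) h
  have hW6le : ∀ T l, W6 Φ ε L t s dl W k T l ≤ W (Fin.init T) l := fun T l => by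
    unfold W6
    exact mul_le_of_le_one_right' (ind_le_one _)
  have hsup : ∀ T l, W6 Φ ε L t s dl W k T l ≠ 0 → Base Φ ε T (lns s dl l) ∧
      HK Φ ε L t (k (Fin.init T) l) (T (Fin.last m)) := fun T l hTl => by
    have h2 := str6 hM hTl
    exact ⟨h2.base, h2.hit.ok, h2.hit.depth, h2.hit.meets, h2.hit.lt, h2.hit.ext_lt, h2.hit.le⟩
  have hmW := measurable_W6 (L := L) (t := t) (s := s) (dl := dl) hΦ hε hM.meas hM.meas_k
  have k1 := h1 ε hε hε1 t ht s dl W e k CW hCW hM (W6 Φ ε L t s dl W k) hmW hW6le hsup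
    (fun T l => A6d Φ ε (e (Fin.init T) l) (k (Fin.init T) l) (T (Fin.last m)))
    (fun T l hTl => by
      have h2 := str6 hM hTl
      refine ⟨card_A6d_le h2.hit.depth, fun σ hσ => ?_⟩
      obtain ⟨h3, h4, h5⟩ := A6d_ok hΦ hε h2 hσ
      exact ⟨h3, by linarith, h5⟩)
    (fun T l w => Bd L hΦ hε t (e (Fin.init T) l) (k (Fin.init T) l)
      (wS (pts w)) (T (Fin.last m)) ∧ ¬NearC Φ ε L (wS (pts w)) (T (Fin.last m)) t)
    fun J T l hTl => law_Bd h hΦ hε ht.1 hm (str6 hM hTl) J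
  have k2 := h2 ε hε hε1 t ht s dl W e k CW hM (W6 Φ ε L t s dl W k) hmW hW6le hsup
  have hmE : Measurable fun p : (Fin (m + 1) → CTree) × (Fin q → Ph) =>
      W6 Φ ε L t s dl W k p.1 p.2 * ENNReal.ofReal (Real.exp (b / 4 * enT (p.1 (Fin.last m)))) :=
    hmW.mul (ENNReal.measurable_ofReal.comp (Real.measurable_exp.comp
      ((measurable_enT.comp ((measurable_pi_apply (Fin.last m)).comp measurable_fst)).const_mul
        _)))
  have hpt : ∀ T l, W6 Φ ε L t s dl W k T l * (PP f₀ ε) {w | Bd L hΦ hε t (e (Fin.init T) l)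
      (k (Fin.init T) l) (wS (pts w)) (T (Fin.last m))} ≤
      D ε * (W6 Φ ε L t s dl W k T l *
        ENNReal.ofReal (Real.exp (b / 4 * enT (T (Fin.last m))))) +
      W6 Φ ε L t s dl W k T l * (PP f₀ ε) {w | Bd L hΦ hε t (e (Fin.init T) l)
        (k (Fin.init T) l) (wS (pts w)) (T (Fin.last m)) ∧
          ¬NearC Φ ε L (wS (pts w)) (T (Fin.last m)) t} := by
    intro T l
    by_cases h0 : W6 Φ ε L t s dl W k T l = 0
    · rw [h0, zero_mul]
      exact zero_le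
    obtain ⟨-, h5⟩ := hsup T l h0
    have h6 := h3 ε hε t ht (T (Fin.last m)) h5.ok h5.depth
    have h7 : (PP f₀ ε) {w | Bd L hΦ hε t (e (Fin.init T) l) (k (Fin.init T) l) (wS (pts w))
        (T (Fin.last m))} ≤ (PP f₀ ε) {w | NearC Φ ε L (wS (pts w)) (T (Fin.last m)) t} +
        (PP f₀ ε) {w | Bd L hΦ hε t (e (Fin.init T) l) (k (Fin.init T) l) (wS (pts w))
          (T (Fin.last m)) ∧ ¬NearC Φ ε L (wS (pts w)) (T (Fin.last m)) t} := by
      refine le_trans (measure_mono fun w hw => ?_) (measure_union_le _ _)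
      by_cases h8 : NearC Φ ε L (wS (pts w)) (T (Fin.last m)) t
      · exact Or.inl h8
      · exact Or.inr ⟨hw, h8⟩
    refine (mul_le_mul' le_rfl (h7.trans (add_le_add h6 le_rfl))).trans (le_of_eq ?_)
    ring
  have hg1 : Measurable fun l : Fin q → Ph => ∏ j, g1 b (l j).2 :=
    Finset.measurable_prod _ fun j _ => (measurable_g1 b).comp (measurable_pi_apply j)
  have h4 := lintegral_add_two (μ := Measure.pi fun _ : Fin (m + 1) => tree (inten f₀ ε) L)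
    (ν := (volume : Measure (Fin q → Ph))) (A := fun T l => (∏ j, g1 b (l j).2) * (D ε *
      (W6 Φ ε L t s dl W k T l * ENNReal.ofReal (Real.exp (b / 4 * enT (T (Fin.last m)))))))
    (A' := fun T l => (∏ j, g1 b (l j).2) * (W6 Φ ε L t s dl W k T l * (PP f₀ ε) {w |
      Bd L hΦ hε t (e (Fin.init T) l) (k (Fin.init T) l) (wS (pts w)) (T (Fin.last m)) ∧
        ¬NearC Φ ε L (wS (pts w)) (T (Fin.last m)) t}))
    ((hg1.comp measurable_snd).mul (hmE.const_mul _))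
  have h5 := lint_const (b := b) (a := D ε)
    (ν := Measure.pi fun _ : Fin (m + 1) => tree (inten f₀ ε) L) hmE
    (I := fun T l => D ε * (W6 Φ ε L t s dl W k T l *
      ENNReal.ofReal (Real.exp (b / 4 * enT (T (Fin.last m)))))) fun T l => le_rfl
  calc _ ≤ muE ε ^ q * ∫⁻ T, ∫⁻ l : Fin q → Ph, ((∏ j, g1 b (l j).2) * (D ε *
          (W6 Φ ε L t s dl W k T l * ENNReal.ofReal (Real.exp (b / 4 * enT (T (Fin.last m)))))) +
        (∏ j, g1 b (l j).2) * (W6 Φ ε L t s dl W k T l * (PP f₀ ε) {w |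
          Bd L hΦ hε t (e (Fin.init T) l) (k (Fin.init T) l) (wS (pts w)) (T (Fin.last m)) ∧
            ¬NearC Φ ε L (wS (pts w)) (T (Fin.last m)) t})) ∂volume
        ∂(Measure.pi fun _ : Fin (m + 1) => tree (inten f₀ ε) L) := by
        refine mul_le_mul' le_rfl (lintegral_mono fun T => lintegral_mono fun l => ?_)
        rw [← mul_add]
        exact mul_le_mul' le_rfl (hpt T l)
    _ ≤ CW * (muE ε * (C * D ε)) + CW * (muE ε * Dl ε) := by
        rw [h4, mul_add]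
        refine add_le_add ?_ k1
        refine (mul_le_mul' le_rfl h5).trans ?_
        rw [mul_left_comm]
        refine (mul_le_mul' le_rfl k2).trans (le_of_eq ?_)
        ring
    _ = _ := by ring

open Classical in
/-- **(X6d)** The trees which are hit by the second marked line and are not independent of the first
one are negligible. -/
theorem kneg_Bd (h : GoodDatum f₀ κ₀) (hΦ : IsPotential Φ) (hb : 0 < b) (hc : 0 ≤ c)
    (hcb : c ≤ b / 2) (hM₀ : 0 ≤ M₀) (hf : ∀ z, f₀ z ≤ M₀ * Real.exp (-b * ‖z.2‖ ^ 2))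
    (hM₁ : 0 ≤ M₁)
    (hmarg : ∀ v, ∫⁻ x, ENNReal.ofReal (f₀ (x, v)) ≤ ENNReal.ofReal (M₁ * Real.exp (-b * ‖v‖ ^ 2)))
    (m q L N : ℕ) (hm : 0 < m) (hT₀ : 0 ≤ T₀) :
    KNeg Φ f₀ b c m q L N T₀ fun ε hε t e k => ∫⁻ w, relHit L hΦ hε t
      (fun V T => ¬NoExc Φ ε L t k V T) (wS (pts w)) e k ∂(PP f₀ ε) := by
  obtain ⟨Dl, hDl, h1⟩ := lim_Bd h hΦ hb hc (by linarith) hM₀ hf hM₁ hmarg m q L N hm hT₀
  refine ⟨Dl, hDl, fun ε hε hε1 t ht s dl W e k CW hCW hM => le_trans (mul_le_mul_right ?_ _)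
    (h1 ε hε hε1 t ht s dl W e k CW hCW hM)⟩
  exact mecke_Bd h hΦ hε hb hM₀ hf hM hCW

end Vale.Agent.P119.PB.X6d
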