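import Vale.Agent.P119.PB.X1D
import Vale.Agent.P119.PB.X6d

/-!
# P119, block PROB: the exceptional terms of the second events vanish (`helper228`)

**`x1`**: the statement `X1`, unconditional.
-/

open MeasureTheory Filter Topology Set
open scoped ENNReal NNReal

noncomputable section

namespace Vale.Agent.P119.PB

open M CTree KU FB RB AU FL GC MM IND PB.CT TL RelX

variable {Φ : E3 → ℝ} {f₀ : Ph → ℝ} {κ₀ b c M₀ M₁ : ℝ}

/-- **The exceptional terms of the second events vanish** under the laws of the marked pairs. -/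
theorem x1 (h : GoodDatum f₀ κ₀) (hΦ : IsPotential Φ) (hb : 0 < b) (hc : 0 ≤ c)
    (hcb : c ≤ b / 2) (hM₀ : 0 ≤ M₀) (hf : ∀ z, f₀ z ≤ M₀ * Real.exp (-b * ‖z.2‖ ^ 2))
    (hM₁ : 0 ≤ M₁) (hmarg : ∀ v, ∫⁻ x, ENNReal.ofReal (f₀ (x, v)) ≤
      ENNReal.ofReal (M₁ * Real.exp (-b * ‖v‖ ^ 2))) : X1 hΦ f₀ b c :=
  x1_of_d h hΦ hb hc hcb hM₀ hf hM₁ hmarg fun m q L N _ hm hT =>
    X6d.kneg_Bd h hΦ hb hc hcb hM₀ hf hM₁ hmarg m q L N hm hT

end Vale.Agent.P119.PB
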