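import Vale.Agent.P119.PB.P8End
import Vale.Agent.P119.PB.X1All
import Vale.Agent.P119.PB.Cr1
import Vale.Agent.P119.PB.Cr2
import Vale.Agent.P119.PB.Cr3b
import Vale.Agent.P119.PB.RE6

/-!
# P119, block PROB, P8: the inequality P8 (`helper336`)

* `cr8`: the crude laws;
* `p8In`: **P8**, in the form of `AU.P8In`.
-/

open MeasureTheory Filter Topology Set ProbabilityTheory
open scoped ENNReal NNReal

noncomputable section

namespace Vale.Agent.P119.PB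

open M CTree KU FB RB AU FL TL EX

variable {Φ : E3 → ℝ} {f₀ : Ph → ℝ} {κ T b b₀ l₁ l₂ Q M₀ : ℝ} {m α a : ℕ → ℝ}

/-- **The crude laws are small.** -/
theorem cr8 (hP : Par T b₀ m b l₁ l₂ Q α a) (hΦ : IsPotential Φ) (hg : GoodDatum f₀ κ)
    (hM : 0 ≤ M₀) (hf : ∀ z, f₀ z ≤ M₀ * Real.exp (-b₀ * ‖z.2‖ ^ 2))
    (hx : ∀ v : E3, ∫⁻ x : E3, ENNReal.ofReal (f₀ (x, v)) ≤
      ENNReal.ofReal (M₀ * Real.exp (-b₀ * ‖v‖ ^ 2))) :
    Cr8 hΦ f₀ T (b₀ / 2) (b / 2) (a8 T m) := by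
  have hT := hP.T0.le
  have hb₀ := hP.b₀0
  have hb := hP.b0
  have hb2 : 0 < b / 2 := half_pos hb
  have hbe := hP.hb
  have hbb : b ≤ b₀ := by
    rw [hbe]
    linarith
  have hle : b ≤ b₀ / 2 + b / 2 := by
    rw [hbe]
    linarith
  have ha := tsum_a8_ne_top' (T := T) hP.msup
  have hX : IND.X1J hΦ f₀ b (b / 2) (b₀ / 2) := IND.x1J_of_x1 hg hle
    (x1 hg hΦ hb hb2.le le_rfl hM (fun z => (hf z).trans (RE.exp_min_le hM hbb)) hM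
      fun v => (hx v).trans (ENNReal.ofReal_le_ofReal (RE.exp_min_le hM hbb)))
  exact {
    c1 := Eventually.of_forall fun L η θ hη _ hθ J ρ hρ =>
      C3.ev_of_lim (F := fun ε hε t => cr1 Φ ε L f₀ t (XJt L hΦ hε f₀ (b₀ / 2) (a8 T m) η θ t J))
        (cr1_lim hg hb2 hX L J _ ha hT hη hθ) ρ hρ
    c2 := Eventually.of_forall fun L η θ hη _ hθ J ρ hρ =>
      C2.cr2_small hg hb2.le (by linarith) hX hT L ha hη hθ J hρ
    c2p := Eventually.of_forall fun L η θ _ _ hθ ρ hρ =>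
      (RE.cr2p_lim (b := b / 2) hg hΦ hb₀ hb2 hM hf hM hx hT L hθ hρ).mono
        fun ε h hε t ht => h hε t ht η
    c3a := Eventually.of_forall fun L => C3.c3a_of_x1J hg hb2 hX hT ha L
    c3b := Eventually.of_forall fun L => C3.c3b_of_x1J hg hb2 hX hT ha L
    c3c := Eventually.of_forall fun L η θ _ _ hθ ρ hρ =>
      (RE.cr3c_lim hg hΦ hb₀ hM hf hM hx hT L hθ hρ).mono fun ε h hε t ht => h hε t ht η }

/-- **The inequality P8.** -/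
theorem p8In (hΦ : IsPotential Φ) (hst : IsStable Φ) (hg : GoodDatum f₀ κ) (hb₀ : 0 < b₀)
    (hM : 0 ≤ M₀) (hf : ∀ z, f₀ z ≤ M₀ * Real.exp (-b₀ * ‖z.2‖ ^ 2))
    (hx : ∀ v : E3, ∫⁻ x : E3, ENNReal.ofReal (f₀ (x, v)) ≤
      ENNReal.ofReal (M₀ * Real.exp (-b₀ * ‖v‖ ^ 2)))
    (hI1 : ∀ᶠ L in atTop, Cap.InI1 Φ f₀ L T) (hbad : BadS Φ f₀ T) :
    AU.P8In hΦ f₀ T b₀ :=
  p8In_of_cr hst hg hb₀ hM hf hx hI1 hbad fun _ _ _ _ _ _ _ hP => cr8 hP hΦ hg hM hf hx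

end Vale.Agent.P119.PB
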