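import Vale.Agent.P119.FL.Mass

/-!
# P119: reverse chain mass (`helper778`)

A chain of hits starts with a free line of Gaussian density; for every function `G ≥ 0` of the
last pair of lines (no majorant) the chain mass is bounded by the integral of `G` over Gaussian
pairs which meet.
-/

open MeasureTheory Set Filter Topology Metric ProbabilityTheory
open scoped ENNReal

namespace Vale.Agent.P119.PB

open KU FL

variable {Φ : E3 → ℝ} {ε : ℝ}

theorem crd_rev (p : Ph) : crd (rev p) = -crd p := by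
  unfold crd rev
  simp only [inner_neg_right, norm_neg]
  ring

theorem perp_rev (p : Ph) : perp (rev p) = perp p := by
  unfold perp
  rw [crd_rev]
  unfold rev
  simp

theorem half_rev (p : Ph) : half (rev p) = half p := by
  unfold half
  rw [perp_rev]
  unfold rev
  simp

theorem hitT_sc2inv (hΦ : IsPotential Φ) (hε : ε ≠ 0) (q : Ph × Ph) :
    hitT ε (sc2inv Φ ε q) = -(ε * tout Φ (rev (rel ε q))) := by
  unfold sc2inv hitT tin tout
  rw [rel_rev, crd_rev, half_rev, rel_sc2 hε, half_scat hΦ, rel_rev]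
  ring

theorem hitT_sc2inv_partner (hΦ : IsPotential Φ) (hε : ε ≠ 0) (l : Ph) {u : E3}
    (hu : l.2 - u ≠ 0) (s : ℝ) (ρ : E3) :
    hitT ε (sc2inv Φ ε (l, partner ε l u s ρ)) = s - ε * tout Φ (rev (ρ, l.2 - u)) := by
  have h1 : rev (free (-(s / ε)) (ρ, l.2 - u)) = free (s / ε) (rev (ρ, l.2 - u)) := by
    have := rev_free (-(s / ε)) (rev (ρ, l.2 - u))
    rw [rev_rev, neg_neg] at this
    exact this
  have h2 : (rev (ρ, l.2 - u)).2 ≠ 0 := by
    unfold rev; exact neg_ne_zero.2 hu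
  rw [hitT_sc2inv hΦ hε, rel_partner hε, h1, tout_free hΦ h2, mul_sub, mul_div_cancel₀ _ hε]
  ring

/-- The law of the (incoming) hitting time for a given OUTGOING line. -/
theorem lintegral_hit_inv (hΦ : IsPotential Φ) (hε : 0 < ε) (l : Ph) {G : ℝ → E3 → ℝ≥0∞}
    (hG : Measurable fun q : ℝ × E3 => G q.1 q.2) :
    ∫⁻ l' in {l' : Ph | Meets ε (l, l')}, G (hitT ε (sc2inv Φ ε (l, l'))) l'.2 =
      ENNReal.ofReal (ε ^ 2) * (ENNReal.ofReal Real.pi * ∫⁻ u : E3, ‖l.2 - u‖ₑ * ∫⁻ τ, G τ u) := by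
  have hm : Measurable fun l' : Ph => G (hitT ε (sc2inv Φ ε (l, l'))) l'.2 :=
    hG.comp ((measurable_hitT.comp ((measurable_sc2inv hΦ hε.ne').comp
      (measurable_const.prodMk measurable_id))).prodMk measurable_snd)
  rw [lintegral_partner hε l hm]
  congr 1
  have hGm : Measurable fun u : E3 => ∫⁻ τ, G τ u := by
    have h : Measurable fun q : E3 × ℝ => G q.2 q.1 := hG.comp measurable_swap
    exact h.lintegral_prod_right'
  have hGm3 : Measurable fun u : E3 => ‖l.2 - u‖ₑ * ∫⁻ τ, G τ u :=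
    (by fun_prop : Measurable fun u : E3 => ‖l.2 - u‖ₑ).mul hGm
  rw [← lintegral_const_mul _ hGm3]
  refine lintegral_congr fun u => ?_
  rcases eq_or_ne (l.2 - u) 0 with h0 | h0
  · rw [h0]; simp
  have h1 : ∀ s : ℝ, ∫⁻ ρ, G (hitT ε (sc2inv Φ ε (l, partner ε l u s ρ))) (partner ε l u s ρ).2
      ∂(kappa (l.2 - u)) = ∫⁻ ρ, G (s - ε * tout Φ (rev (ρ, l.2 - u))) u ∂(kappa (l.2 - u)) := by
    intro s
    refine lintegral_congr fun ρ => ?_
    rw [hitT_sc2inv_partner hΦ hε.ne' l h0 s ρ]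
    rfl
  simp_rw [h1]
  have hGm2 : Measurable fun q : ℝ × E3 => G (q.1 - ε * tout Φ (rev (q.2, l.2 - u))) u := by
    refine hG.comp (Measurable.prodMk ?_ measurable_const)
    refine measurable_fst.sub (Measurable.const_mul ?_ ε)
    exact (measurable_tout hΦ).comp (continuous_rev.measurable.comp
      (measurable_snd.prodMk measurable_const))
  rw [lintegral_lintegral_swap hGm2.aemeasurable]
  have h2 : ∀ ρ : E3, ∫⁻ s : ℝ, G (s - ε * tout Φ (rev (ρ, l.2 - u))) u = ∫⁻ τ, G τ u := by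
    intro ρ
    exact lintegral_sub_right_eq_self (fun τ => G τ u) _
  simp_rw [h2]
  rw [lintegral_const, kappa_univ h0]
  ring

/-- Integration over pairs of lines which meet. -/
theorem lintegral_meets {F : Ph × Ph → ℝ≥0∞} (hF : Measurable F) :
    ∫⁻ q in {q : Ph × Ph | Meets ε q}, F q =
      ∫⁻ l : Ph, ∫⁻ p in {p : Ph | Meets ε (l, p)}, F (l, p) := by
  rw [← lintegral_indicator measurableSet_meets, Measure.volume_eq_prod,
    lintegral_prod _ (hF.indicator measurableSet_meets).aemeasurable]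
  refine lintegral_congr fun l => ?_
  have hm : MeasurableSet {p : Ph | Meets ε (l, p)} := measurable_prodMk_left measurableSet_meets
  rw [← lintegral_indicator hm]
  rfl

theorem lintegral_meets_sw {F : Ph × Ph → ℝ≥0∞} (hF : Measurable F) :
    ∫⁻ q in {q : Ph × Ph | Meets ε q}, F q.swap = ∫⁻ q in {q : Ph × Ph | Meets ε q}, F q := by
  have h1 : MeasurePreserving (Prod.swap : Ph × Ph → Ph × Ph) (volume.prod volume)
      (volume.prod volume) := Measure.measurePreserving_swap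
  have h2 := h1.setLIntegral_comp_preimage (measurableSet_meets (ε := ε)) hF
  rw [Measure.volume_eq_prod, ← h2]
  congr 2
  ext q
  exact (meets_swap q).symm

/-- The right-hand side of the reversibility formula. -/
noncomputable def revR (ε b : ℝ) (H : ℝ → Ph → ℝ≥0∞) : ℝ≥0∞ :=
  ENNReal.ofReal (ε ^ 2) * (ENNReal.ofReal Real.pi * ∫⁻ l' : Ph, ∫⁻ u : E3, ‖l'.2 - u‖ₑ *
    (ENNReal.ofReal (Real.exp (-b * (‖l'.2‖ ^ 2 + ‖u‖ ^ 2))) * ∫⁻ τ, H τ l'))

/-- A step is reversible when Gaussian pairs produce the flux of a Gaussian line. -/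
def RevStep (ε : ℝ) (S : Step) : Prop :=
  ∀ (b : ℝ) (H : ℝ → Ph → ℝ≥0∞), (Measurable fun q : ℝ × Ph => H q.1 q.2) →
    ∫⁻ q in {q : Ph × Ph | Meets ε q}, ENNReal.ofReal
      (Real.exp (-b * (‖q.1.2‖ ^ 2 + ‖q.2.2‖ ^ 2))) * H (hitT ε q) (S.f q) = revR ε b H

theorem measurable_gauss2 (b : ℝ) : Measurable fun q : Ph × Ph => ENNReal.ofReal
    (Real.exp (-b * (‖q.1.2‖ ^ 2 + ‖q.2.2‖ ^ 2))) := by fun_prop

theorem revStep_aux (b : ℝ) {H : ℝ → Ph → ℝ≥0∞}
    (hH : Measurable fun q : ℝ × Ph => H q.1 q.2) (T : Ph × Ph → ℝ) (hT : Measurable T)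
    (hf : ∀ (l : Ph) {G : ℝ → E3 → ℝ≥0∞}, (Measurable fun q : ℝ × E3 => G q.1 q.2) →
      ∫⁻ l' in {l' : Ph | Meets ε (l, l')}, G (T (l, l')) l'.2 =
        ENNReal.ofReal (ε ^ 2) * (ENNReal.ofReal Real.pi *
          ∫⁻ u : E3, ‖l.2 - u‖ₑ * ∫⁻ τ, G τ u)) :
    ∫⁻ q in {q : Ph × Ph | Meets ε q}, ENNReal.ofReal
      (Real.exp (-b * (‖q.1.2‖ ^ 2 + ‖q.2.2‖ ^ 2))) * H (T q) q.1 = revR ε b H := by
  have hm : Measurable fun q : Ph × Ph => ENNReal.ofReal
      (Real.exp (-b * (‖q.1.2‖ ^ 2 + ‖q.2.2‖ ^ 2))) * H (T q) q.1 :=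
    (measurable_gauss2 b).mul (hH.comp (hT.prodMk measurable_fst))
  rw [lintegral_meets hm]
  unfold revR
  rw [← lintegral_const_mul' _ _ ENNReal.ofReal_ne_top,
    ← lintegral_const_mul' _ _ ENNReal.ofReal_ne_top]
  refine lintegral_congr fun l => ?_
  have hG : Measurable fun q : ℝ × E3 => ENNReal.ofReal
      (Real.exp (-b * (‖l.2‖ ^ 2 + ‖q.2‖ ^ 2))) * H q.1 l := by
    refine Measurable.mul (by fun_prop) (hH.comp (measurable_fst.prodMk measurable_const))
  have h1 := hf l (G := fun τ u => ENNReal.ofReal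
      (Real.exp (-b * (‖l.2‖ ^ 2 + ‖u‖ ^ 2))) * H τ l) hG
  rw [h1]
  congr 2
  refine lintegral_congr fun u => ?_
  rw [lintegral_const_mul' _ _ ENNReal.ofReal_ne_top]

theorem revStep_keep (hε : 0 < ε) : RevStep ε Step.keep := by
  intro b H hH
  exact revStep_aux b hH (hitT ε) measurable_hitT fun l _ hG => lintegral_hit hε l hG

theorem revStep_old (hε : 0 < ε) : RevStep ε Step.old := by
  intro b H hH
  rw [← revStep_keep hε b H hH, ← lintegral_meets_sw]
  · refine lintegral_congr fun q => ?_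
    simp only [Prod.fst_swap, Prod.snd_swap, Step.old, Step.keep, hitT_swap]
    rw [add_comm]
  · exact (measurable_gauss2 b).mul (hH.comp (measurable_hitT.prodMk measurable_snd))

theorem revStep_out1 (hΦ : IsPotential Φ) (hε : 0 < ε) :
    RevStep ε (Step.out1 hΦ hε.ne') := by
  intro b H hH
  have hm : Measurable fun q : (Ph × Ph) × (Ph × Ph) => ENNReal.ofReal
      (Real.exp (-b * (‖q.2.1.2‖ ^ 2 + ‖q.2.2.2‖ ^ 2))) * H (hitT ε q.1) q.2.1 :=
    ((measurable_gauss2 b).comp measurable_snd).mul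
      (hH.comp ((measurable_hitT.comp measurable_fst).prodMk measurable_snd.fst))
  have h1 := lintegral_sc2 (ε := ε) hΦ hε.ne' (F := fun q q' => ENNReal.ofReal
      (Real.exp (-b * (‖q'.1.2‖ ^ 2 + ‖q'.2.2‖ ^ 2))) * H (hitT ε q) q'.1) hm
  have h2 : ∀ q : Ph × Ph, ENNReal.ofReal
      (Real.exp (-b * (‖q.1.2‖ ^ 2 + ‖q.2.2‖ ^ 2))) * H (hitT ε q) ((Step.out1 hΦ hε.ne').f q) =
      ENNReal.ofReal (Real.exp (-b * (‖(sc2 Φ ε q).1.2‖ ^ 2 + ‖(sc2 Φ ε q).2.2‖ ^ 2))) *
        H (hitT ε q) (sc2 Φ ε q).1 := by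
    intro q
    rw [energy_sc2 hΦ hε.ne']
    rfl
  simp_rw [h2]
  rw [h1]
  exact revStep_aux b hH (fun q => hitT ε (sc2inv Φ ε q))
    (measurable_hitT.comp (measurable_sc2inv hΦ hε.ne')) fun l _ hG => lintegral_hit_inv hΦ hε l hG

theorem revStep_out2 (hΦ : IsPotential Φ) (hε : 0 < ε) :
    RevStep ε (Step.out2 hΦ hε.ne') := by
  intro b H hH
  rw [← revStep_out1 hΦ hε b H hH, ← lintegral_meets_sw]
  · refine lintegral_congr fun q => ?_
    simp only [Prod.fst_swap, Prod.snd_swap, Step.out1, Step.out2, hitT_swap, sc2_swap hΦ]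
    rw [add_comm]
  · exact (measurable_gauss2 b).mul (hH.comp (measurable_hitT.prodMk
      (Step.out2 hΦ hε.ne').meas))

/-- Gaussian pairs which meet in the time interval `(s, t)`, with the weight `(hitT - s)^m / m!`. -/
noncomputable def pairR (ε β s t : ℝ) (m : ℕ) (G : Ph × Ph → ℝ≥0∞) : ℝ≥0∞ :=
  muE ε * ∫⁻ q in {q : Ph × Ph | Meets ε q}, ENNReal.ofReal
    (Real.exp (-β * (‖q.1.2‖ ^ 2 + ‖q.2.2‖ ^ 2))) *
      ((Ioo s t).indicator (fun τ => ENNReal.ofReal ((τ - s) ^ m / m.factorial)) (hitT ε q) * G q)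

theorem pairR_lint {β s t : ℝ} (m : ℕ) {G : Ph × Ph → ℝ≥0∞} (hG : Measurable G) :
    ∫⁻ τ in Ioo s t, pairR ε β τ t m G = pairR ε β s t (m + 1) G := by
  unfold pairR
  have hmw : Measurable fun q : ℝ × (Ph × Ph) => (Ioo q.1 t).indicator
      (fun τ => ENNReal.ofReal ((τ - q.1) ^ m / m.factorial)) (hitT ε q.2) := by
    have hA : MeasurableSet {q : ℝ × (Ph × Ph) | q.1 < hitT ε q.2 ∧ hitT ε q.2 < t} :=
      (measurableSet_lt measurable_fst (measurable_hitT.comp measurable_snd)).inter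
        (measurableSet_lt (measurable_hitT.comp measurable_snd) measurable_const)
    have hB : Measurable fun q : ℝ × (Ph × Ph) =>
        ENNReal.ofReal ((hitT ε q.2 - q.1) ^ m / m.factorial) :=
      ((((measurable_hitT.comp measurable_snd).sub measurable_fst).pow_const m).div_const
        _).ennreal_ofReal
    exact hB.indicator hA
  have hm2 : Measurable fun q : ℝ × (Ph × Ph) => ENNReal.ofReal
      (Real.exp (-β * (‖q.2.1.2‖ ^ 2 + ‖q.2.2.2‖ ^ 2))) * ((Ioo q.1 t).indicator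
      (fun τ => ENNReal.ofReal ((τ - q.1) ^ m / m.factorial)) (hitT ε q.2) * G q.2) :=
    ((measurable_gauss2 β).comp measurable_snd).mul (hmw.mul (hG.comp measurable_snd))
  rw [lintegral_const_mul _ hm2.lintegral_prod_right']
  congr 1
  rw [lintegral_lintegral_swap hm2.aemeasurable]
  refine lintegral_congr fun q => ?_
  have hm3 : Measurable fun τ : ℝ => (Ioo τ t).indicator
      (fun τ' => ENNReal.ofReal ((τ' - τ) ^ m / m.factorial)) (hitT ε q) :=
    hmw.comp (measurable_id.prodMk measurable_const)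
  have h1 : ∀ τ : ℝ, ENNReal.ofReal (Real.exp (-β * (‖q.1.2‖ ^ 2 + ‖q.2.2‖ ^ 2))) *
      ((Ioo τ t).indicator (fun τ' => ENNReal.ofReal ((τ' - τ) ^ m / m.factorial)) (hitT ε q) *
        G q) = ENNReal.ofReal (Real.exp (-β * (‖q.1.2‖ ^ 2 + ‖q.2.2‖ ^ 2))) *
      (G q * (Ioo τ t).indicator (fun τ' => ENNReal.ofReal ((τ' - τ) ^ m / m.factorial))
        (hitT ε q)) := by
    intro τ; ring
  simp_rw [h1]
  rw [lintegral_const_mul' _ _ ENNReal.ofReal_ne_top, lintegral_const_mul _ hm3, mul_comm (G q)]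
  congr 2
  set h : ℝ := hitT ε q with hh
  by_cases hq : h ∈ Ioo s t
  · rw [indicator_of_mem hq]
    have h2 : ∀ τ : ℝ, (Ioo s t).indicator (fun τ => (Ioo τ t).indicator
        (fun τ' => ENNReal.ofReal ((τ' - τ) ^ m / m.factorial)) h) τ =
        (Ioo s h).indicator (fun τ => ENNReal.ofReal ((m.factorial : ℝ)⁻¹) *
          ENNReal.ofReal ((h - τ) ^ m)) τ := by
      intro τ
      by_cases hτ : τ ∈ Ioo s h
      · rw [indicator_of_mem hτ, indicator_of_mem (show τ ∈ Ioo s t from ⟨hτ.1, hτ.2.trans hq.2⟩),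
          indicator_of_mem (show h ∈ Ioo τ t from ⟨hτ.2, hq.2⟩),
          ← ENNReal.ofReal_mul (by positivity)]
        congr 1
        ring
      · rw [indicator_of_notMem hτ]
        by_cases hτ2 : τ ∈ Ioo s t
        · rw [indicator_of_mem hτ2, indicator_of_notMem]
          intro h3
          exact hτ ⟨hτ2.1, h3.1⟩
        · rw [indicator_of_notMem hτ2]
    rw [← lintegral_indicator measurableSet_Ioo]
    simp_rw [h2]
    rw [lintegral_indicator measurableSet_Ioo, lintegral_const_mul' _ _ ENNReal.ofReal_ne_top,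
      lintegral_pow hq.1.le, ← ENNReal.ofReal_mul (by positivity)]
    congr 1
    rw [Nat.factorial_succ]
    push_cast
    field_simp
  · rw [indicator_of_notMem hq]
    rw [← nonpos_iff_eq_zero, ← lintegral_zero (μ := volume.restrict (Ioo s t))]
    refine setLIntegral_mono' measurableSet_Ioo fun τ hτ => ?_
    rw [indicator_of_notMem]
    intro h3
    exact hq ⟨hτ.1.trans h3.1, h3.2⟩

theorem pairR_mono {β β' s t : ℝ} (hβ : β' ≤ β) (m : ℕ) (G : Ph × Ph → ℝ≥0∞) :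
    pairR ε β s t m G ≤ pairR ε β' s t m G := by
  unfold pairR
  gcongr

/-- The integral over the partners of a chain, `G` being a function of the last pair. -/
noncomputable def inner' (ε b t : ℝ) (S : ℕ → Step) (m : ℕ) (G : Ph × Ph → ℝ≥0∞) (s : ℝ)
    (l : Ph) : ℝ≥0∞ :=
  ∫⁻ p : Fin (m + 1) → Ph, {p | Chain ε t S (m + 1) s l p}.indicator
    (fun p => FL.wt b ε (m + 1) p * G (lastPair S m l p)) p

theorem measurable_inner_aux {b t : ℝ} (S : ℕ → Step) (m : ℕ) {G : Ph × Ph → ℝ≥0∞}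
    (hG : Measurable G) : Measurable fun q : (ℝ × Ph) × (Fin (m + 1) → Ph) =>
      {p | Chain ε t S (m + 1) q.1.1 q.1.2 p}.indicator
        (fun p => FL.wt b ε (m + 1) p * G (lastPair S m q.1.2 p)) q.2 := by
  have h1 : Measurable fun q : (ℝ × Ph) × (Fin (m + 1) → Ph) =>
      FL.wt b ε (m + 1) q.2 * G (lastPair S m q.1.2 q.2) :=
    ((FL.measurable_wt b ε (m + 1)).comp measurable_snd).mul (hG.comp
      ((measurable_lastPair m S).comp (measurable_fst.snd.prodMk measurable_snd)))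
  have h2 : MeasurableSet {q : (ℝ × Ph) × (Fin (m + 1) → Ph) |
      Chain ε t S (m + 1) q.1.1 q.1.2 q.2} :=
    (measurable_fst.fst.prodMk (measurable_fst.snd.prodMk measurable_snd) :
      Measurable fun q : (ℝ × Ph) × (Fin (m + 1) → Ph) => (q.1.1, q.1.2, q.2))
      (measurableSet_chain (m + 1) S)
  exact h1.indicator h2

theorem measurable_inner {b t : ℝ} (S : ℕ → Step) (m : ℕ) {G : Ph × Ph → ℝ≥0∞}
    (hG : Measurable G) : Measurable fun q : ℝ × Ph => inner' ε b t S m G q.1 q.2 :=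
  (measurable_inner_aux S m hG).lintegral_prod_right'

/-- One hit followed by a function of the time of the hit and of the next line. -/
theorem first_hit_le (hε : 0 < ε) {b β s t : ℝ} (hb : 0 < b) {M : ℕ} (hM : 1 ≤ M)
    (hβ : b / 2 ≤ β) (hβb : β ≤ b) {S : Step} (hS : RevStep ε S) {H : ℝ → Ph → ℝ≥0∞}
    (hH : Measurable fun q : ℝ × Ph => H q.1 q.2) :
    ∫⁻ l : Ph, ENNReal.ofReal (Real.exp (-β * ‖l.2‖ ^ 2)) *
      ∫⁻ a in {a : Ph | Meets ε (l, a)}, muE ε * ENNReal.ofReal (Real.exp (-b * ‖a.2‖ ^ 2)) *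
        (Ioo s t).indicator (fun τ => H τ (S.f (l, a))) (hitT ε (l, a)) ≤
    ENNReal.ofReal (Kb b * √M) * ∫⁻ l : Ph,
      ENNReal.ofReal (Real.exp (-(β - b / (2 * M)) * ‖l.2‖ ^ 2)) * ∫⁻ τ in Ioo s t, H τ l := by
  have hM1 : (1 : ℝ) ≤ M := by exact_mod_cast hM
  have hM0 : (0 : ℝ) < M := by linarith
  set H' : ℝ → Ph → ℝ≥0∞ := fun τ l => (Ioo s t).indicator (fun τ => H τ l) τ with hH'
  have hHm : Measurable fun q : ℝ × Ph => H' q.1 q.2 :=
    hH.indicator (measurable_fst measurableSet_Ioo)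
  have e1 : ∫⁻ l : Ph, ENNReal.ofReal (Real.exp (-β * ‖l.2‖ ^ 2)) *
      ∫⁻ a in {a : Ph | Meets ε (l, a)}, muE ε * ENNReal.ofReal (Real.exp (-b * ‖a.2‖ ^ 2)) *
        (Ioo s t).indicator (fun τ => H τ (S.f (l, a))) (hitT ε (l, a)) ≤
      muE ε * revR ε β H' := by
    have hmm : Measurable fun q : Ph × Ph => ENNReal.ofReal
        (Real.exp (-β * (‖q.1.2‖ ^ 2 + ‖q.2.2‖ ^ 2))) * H' (hitT ε q) (S.f q) :=
      (measurable_gauss2 β).mul (hHm.comp (measurable_hitT.prodMk S.meas))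
    rw [← hS β H' hHm, lintegral_meets hmm, ← lintegral_const_mul' _ _ muE_ne_top]
    refine lintegral_mono fun l => ?_
    rw [← lintegral_const_mul' _ _ ENNReal.ofReal_ne_top, ← lintegral_const_mul' _ _ muE_ne_top]
    refine lintegral_mono fun a => ?_
    have h1 : ENNReal.ofReal (Real.exp (-b * ‖a.2‖ ^ 2)) ≤
        ENNReal.ofReal (Real.exp (-β * ‖a.2‖ ^ 2)) := by
      apply ENNReal.ofReal_le_ofReal
      apply Real.exp_le_exp.2
      nlinarith [sq_nonneg ‖a.2‖]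
    have h2 : ENNReal.ofReal (Real.exp (-β * (‖l.2‖ ^ 2 + ‖a.2‖ ^ 2))) =
        ENNReal.ofReal (Real.exp (-β * ‖l.2‖ ^ 2)) * ENNReal.ofReal (Real.exp (-β * ‖a.2‖ ^ 2)) := by
      rw [← ENNReal.ofReal_mul (Real.exp_nonneg _), ← Real.exp_add]
      congr 2
      ring
    simp only
    rw [h2]
    calc ENNReal.ofReal (Real.exp (-β * ‖l.2‖ ^ 2)) *
          (muE ε * ENNReal.ofReal (Real.exp (-b * ‖a.2‖ ^ 2)) *
          (Ioo s t).indicator (fun τ => H τ (S.f (l, a))) (hitT ε (l, a)))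
        ≤ ENNReal.ofReal (Real.exp (-β * ‖l.2‖ ^ 2)) *
          (muE ε * ENNReal.ofReal (Real.exp (-β * ‖a.2‖ ^ 2)) *
          (Ioo s t).indicator (fun τ => H τ (S.f (l, a))) (hitT ε (l, a))) := by gcongr
      _ = _ := by rw [hH']; ring
  refine e1.trans ?_
  unfold revR
  have hI : I0 b = ENNReal.ofReal (I0 b).toReal := (ENNReal.ofReal_toReal (I0_ne_top hb)).symm
  have h3 : ∀ l' : Ph, ∫⁻ u : E3, ‖l'.2 - u‖ₑ *
      (ENNReal.ofReal (Real.exp (-β * (‖l'.2‖ ^ 2 + ‖u‖ ^ 2))) * ∫⁻ τ, H' τ l') ≤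
      ENNReal.ofReal (√M * (1 + 1 / √b) * (I0 b).toReal) *
        (ENNReal.ofReal (Real.exp (-(β - b / (2 * M)) * ‖l'.2‖ ^ 2)) *
          ∫⁻ τ in Ioo s t, H τ l') := by
    intro l'
    have h4 : ∫⁻ τ, H' τ l' = ∫⁻ τ in Ioo s t, H τ l' := by
      rw [← lintegral_indicator measurableSet_Ioo]
    rw [h4]
    have h5 : ∀ u : E3, ‖l'.2 - u‖ₑ *
        (ENNReal.ofReal (Real.exp (-β * (‖l'.2‖ ^ 2 + ‖u‖ ^ 2))) * ∫⁻ τ in Ioo s t, H τ l') =
        ‖l'.2 - u‖ₑ * ENNReal.ofReal (Real.exp (-b * ‖u‖ ^ 2) * Real.exp ((b - β) * ‖u‖ ^ 2)) *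
        (ENNReal.ofReal (Real.exp (-β * ‖l'.2‖ ^ 2)) * ∫⁻ τ in Ioo s t, H τ l') := by
      intro u
      have h6 : Real.exp (-β * (‖l'.2‖ ^ 2 + ‖u‖ ^ 2)) =
          Real.exp (-β * ‖l'.2‖ ^ 2) * (Real.exp (-b * ‖u‖ ^ 2) * Real.exp ((b - β) * ‖u‖ ^ 2)) := by
        rw [← Real.exp_add, ← Real.exp_add]
        congr 1
        ring
      rw [h6, ENNReal.ofReal_mul (Real.exp_nonneg _)]
      ring
    simp_rw [h5]
    rw [lintegral_mul_const _ (by fun_prop)]
    have h7 := lintegral_vel_le (b := b) l'.2 (κ := b - β) (by linarith)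
    have h8 := one_add_le (x := ‖l'.2‖) hb hM1
    have h9 : ENNReal.ofReal (1 + ‖l'.2‖) * ENNReal.ofReal (I0 b).toReal *
        ENNReal.ofReal (Real.exp (-β * ‖l'.2‖ ^ 2)) ≤
        ENNReal.ofReal (√M * (1 + 1 / √b) * (I0 b).toReal) *
        ENNReal.ofReal (Real.exp (-(β - b / (2 * M)) * ‖l'.2‖ ^ 2)) := by
      rw [← ENNReal.ofReal_mul (by positivity), ← ENNReal.ofReal_mul (by positivity),
        ← ENNReal.ofReal_mul (by positivity)]
      apply ENNReal.ofReal_le_ofReal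
      have h10 : Real.exp (-(β - b / (2 * M)) * ‖l'.2‖ ^ 2) =
          Real.exp (b / (2 * M) * ‖l'.2‖ ^ 2) * Real.exp (-β * ‖l'.2‖ ^ 2) := by
        rw [← Real.exp_add]; congr 1; ring
      rw [h10]
      calc (1 + ‖l'.2‖) * (I0 b).toReal * Real.exp (-β * ‖l'.2‖ ^ 2)
          ≤ (√M * (1 + 1 / √b) * Real.exp (b / (2 * M) * ‖l'.2‖ ^ 2)) * (I0 b).toReal *
            Real.exp (-β * ‖l'.2‖ ^ 2) := by gcongr
        _ = _ := by ring
    calc (∫⁻ u : E3, ‖l'.2 - u‖ₑ *
          ENNReal.ofReal (Real.exp (-b * ‖u‖ ^ 2) * Real.exp ((b - β) * ‖u‖ ^ 2))) *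
          (ENNReal.ofReal (Real.exp (-β * ‖l'.2‖ ^ 2)) * ∫⁻ τ in Ioo s t, H τ l')
        ≤ (ENNReal.ofReal (1 + ‖l'.2‖) * I0 b) *
          (ENNReal.ofReal (Real.exp (-β * ‖l'.2‖ ^ 2)) * ∫⁻ τ in Ioo s t, H τ l') := by gcongr
      _ = (ENNReal.ofReal (1 + ‖l'.2‖) * ENNReal.ofReal (I0 b).toReal *
          ENNReal.ofReal (Real.exp (-β * ‖l'.2‖ ^ 2))) * ∫⁻ τ in Ioo s t, H τ l' := by
          rw [← hI]; ring
      _ ≤ (ENNReal.ofReal (√M * (1 + 1 / √b) * (I0 b).toReal) *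
        ENNReal.ofReal (Real.exp (-(β - b / (2 * M)) * ‖l'.2‖ ^ 2))) *
          ∫⁻ τ in Ioo s t, H τ l' := by gcongr
      _ = _ := by ring
  calc muE ε * (ENNReal.ofReal (ε ^ 2) * (ENNReal.ofReal Real.pi * ∫⁻ l' : Ph, ∫⁻ u : E3,
        ‖l'.2 - u‖ₑ * (ENNReal.ofReal (Real.exp (-β * (‖l'.2‖ ^ 2 + ‖u‖ ^ 2))) *
          ∫⁻ τ, H' τ l')))
      ≤ muE ε * (ENNReal.ofReal (ε ^ 2) * (ENNReal.ofReal Real.pi * ∫⁻ l' : Ph,
        ENNReal.ofReal (√M * (1 + 1 / √b) * (I0 b).toReal) *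
        (ENNReal.ofReal (Real.exp (-(β - b / (2 * M)) * ‖l'.2‖ ^ 2)) *
          ∫⁻ τ in Ioo s t, H τ l'))) := by
        gcongr with l'
        exact h3 l'
    _ = (muE ε * ENNReal.ofReal (ε ^ 2)) * (ENNReal.ofReal Real.pi *
        ENNReal.ofReal (√M * (1 + 1 / √b) * (I0 b).toReal)) * ∫⁻ l' : Ph,
        (ENNReal.ofReal (Real.exp (-(β - b / (2 * M)) * ‖l'.2‖ ^ 2)) *
          ∫⁻ τ in Ioo s t, H τ l') := by
        rw [lintegral_const_mul' _ _ ENNReal.ofReal_ne_top]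
        ring
    _ = _ := by
        rw [muE_mul hε, one_mul, ← ENNReal.ofReal_mul Real.pi_pos.le]
        congr 2
        unfold Kb
        ring

theorem lintegral_fin_zero (F : (Fin 0 → Ph) → ℝ≥0∞) :
    ∫⁻ p : Fin 0 → Ph, F p = F (fun i => i.elim0) := by
  have h1 : (volume : Measure (Fin 0 → Ph)) univ = 1 := by
    rw [volume_pi, Measure.pi_univ]; simp
  rw [lintegral_unique, h1, mul_one]
  congr 1

theorem inner_zero {b t : ℝ} (S : ℕ → Step) {G : Ph × Ph → ℝ≥0∞} (hG : Measurable G) (s : ℝ)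
    (l : Ph) : inner' ε b t S 0 G s l = ∫⁻ a in {a : Ph | Meets ε (l, a)},
      muE ε * ENNReal.ofReal (Real.exp (-b * ‖a.2‖ ^ 2)) *
        (Ioo s t).indicator (fun _ => G (l, a)) (hitT ε (l, a)) := by
  unfold inner'
  have hmeas : Measurable fun p : Fin (0 + 1) → Ph => {p | Chain ε t S (0 + 1) s l p}.indicator
      (fun p => FL.wt b ε (0 + 1) p * G (lastPair S 0 l p)) p :=
    (measurable_inner_aux S 0 hG).comp (measurable_const.prodMk measurable_id :
      Measurable fun p : Fin (0 + 1) → Ph => (((s, l) : ℝ × Ph), p))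
  rw [lintegral_cons hmeas]
  have hms : MeasurableSet {a : Ph | Meets ε (l, a)} := measurable_prodMk_left measurableSet_meets
  rw [← lintegral_indicator hms]
  refine lintegral_congr fun a => ?_
  rw [lintegral_fin_zero]
  by_cases hc : Meets ε (l, a)
  · rw [indicator_of_mem (show a ∈ {a : Ph | Meets ε (l, a)} from hc)]
    by_cases hτ : hitT ε (l, a) ∈ Ioo s t
    · rw [indicator_of_mem hτ, indicator_of_mem (show (Fin.cons a fun i => i.elim0) ∈
        {p : Fin (0 + 1) → Ph | Chain ε t S (0 + 1) s l p} from ⟨hc, hτ.1, hτ.2, trivial⟩)]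
      rw [wt_cons, wt_zero, mul_one]
      rfl
    · rw [indicator_of_notMem hτ, mul_zero, indicator_of_notMem]
      intro h
      exact hτ ⟨h.2.1, h.2.2.1⟩
  · rw [indicator_of_notMem (show a ∉ {a : Ph | Meets ε (l, a)} from hc), indicator_of_notMem]
    intro h
    exact hc h.1

theorem inner_succ {b t : ℝ} (S : ℕ → Step) (m : ℕ) {G : Ph × Ph → ℝ≥0∞} (hG : Measurable G)
    (s : ℝ) (l : Ph) : inner' ε b t S (m + 1) G s l = ∫⁻ a in {a : Ph | Meets ε (l, a)},
      muE ε * ENNReal.ofReal (Real.exp (-b * ‖a.2‖ ^ 2)) *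
        (Ioo s t).indicator (fun τ => inner' ε b t (fun n => S (n + 1)) m G τ ((S 0).f (l, a)))
          (hitT ε (l, a)) := by
  unfold inner'
  have hmeas : Measurable fun p : Fin (m + 1 + 1) → Ph =>
      {p | Chain ε t S (m + 1 + 1) s l p}.indicator
      (fun p => FL.wt b ε (m + 1 + 1) p * G (lastPair S (m + 1) l p)) p :=
    (measurable_inner_aux S (m + 1) hG).comp (measurable_const.prodMk measurable_id :
      Measurable fun p : Fin (m + 1 + 1) → Ph => (((s, l) : ℝ × Ph), p))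
  rw [lintegral_cons hmeas]
  have hms : MeasurableSet {a : Ph | Meets ε (l, a)} := measurable_prodMk_left measurableSet_meets
  rw [← lintegral_indicator hms]
  refine lintegral_congr fun a => ?_
  by_cases hc : Meets ε (l, a)
  · rw [indicator_of_mem (show a ∈ {a : Ph | Meets ε (l, a)} from hc)]
    by_cases hτ : hitT ε (l, a) ∈ Ioo s t
    · rw [indicator_of_mem hτ, ← lintegral_const_mul' _ _
        (ENNReal.mul_ne_top muE_ne_top ENNReal.ofReal_ne_top)]
      refine lintegral_congr fun q => ?_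
      have hiff : (Fin.cons a q : Fin (m + 1 + 1) → Ph) ∈ {p | Chain ε t S (m + 1 + 1) s l p} ↔
          q ∈ {p | Chain ε t (fun n => S (n + 1)) (m + 1) (hitT ε (l, a)) ((S 0).f (l, a)) p} :=
        ⟨fun h => h.2.2.2, fun h => ⟨hc, hτ.1, hτ.2, h⟩⟩
      by_cases hq : q ∈ {p | Chain ε t (fun n => S (n + 1)) (m + 1) (hitT ε (l, a))
          ((S 0).f (l, a)) p}
      · rw [indicator_of_mem (hiff.2 hq), indicator_of_mem hq, wt_cons, mul_assoc]
        rfl
      · rw [indicator_of_notMem (fun h => hq (hiff.1 h)), indicator_of_notMem hq, mul_zero]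
    · rw [indicator_of_notMem hτ, mul_zero]
      rw [← lintegral_zero (μ := (volume : Measure (Fin (m + 1) → Ph)))]
      refine lintegral_congr fun q => ?_
      rw [indicator_of_notMem]
      intro h
      exact hτ ⟨h.2.1, h.2.2.1⟩
  · rw [indicator_of_notMem (show a ∉ {a : Ph | Meets ε (l, a)} from hc),
      ← lintegral_zero (μ := (volume : Measure (Fin (m + 1) → Ph)))]
    refine lintegral_congr fun q => ?_
    rw [indicator_of_notMem]
    intro h
    exact hc h.1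

/-- **(CM') reverse chain mass, with a parameter `M`.** -/
theorem rev_aux (hε : 0 < ε) {b t : ℝ} (hb : 0 < b) {M : ℕ} (hM : 1 ≤ M)
    {G : Ph × Ph → ℝ≥0∞} (hG : Measurable G) :
    ∀ m k : ℕ, k + m ≤ M → ∀ S : ℕ → Step, (∀ n, RevStep ε (S n)) → ∀ s : ℝ,
      ∫⁻ l : Ph, ENNReal.ofReal (Real.exp (-(b - b / 2 * (k / M)) * ‖l.2‖ ^ 2)) *
        inner' ε b t S m G s l ≤
        ENNReal.ofReal ((Kb b * √M) ^ m) * pairR ε (b - b / 2 * ((k + m : ℕ) / M)) s t m G := by
  have hM1 : (1 : ℝ) ≤ M := by exact_mod_cast hM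
  have hM0 : (0 : ℝ) < M := by linarith
  intro m
  induction m with
  | zero =>
    intro k hk S hS s
    have hk0 : (0 : ℝ) ≤ b / 2 * ((k : ℝ) / M) := by positivity
    set β : ℝ := b - b / 2 * (k / M) with hβ
    have hβb : β ≤ b := by linarith
    rw [pow_zero, ENNReal.ofReal_one, one_mul, add_zero]
    unfold pairR
    rw [lintegral_meets, ← lintegral_const_mul' _ _ muE_ne_top]
    · refine lintegral_mono fun l => ?_
      rw [inner_zero S hG, ← lintegral_const_mul' _ _ ENNReal.ofReal_ne_top,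
        ← lintegral_const_mul' _ _ muE_ne_top]
      refine lintegral_mono fun a => ?_
      have h1 : ENNReal.ofReal (Real.exp (-b * ‖a.2‖ ^ 2)) ≤
          ENNReal.ofReal (Real.exp (-β * ‖a.2‖ ^ 2)) := by
        apply ENNReal.ofReal_le_ofReal
        apply Real.exp_le_exp.2
        nlinarith [sq_nonneg ‖a.2‖]
      have h2 : ENNReal.ofReal (Real.exp (-β * (‖l.2‖ ^ 2 + ‖a.2‖ ^ 2))) =
          ENNReal.ofReal (Real.exp (-β * ‖l.2‖ ^ 2)) *
            ENNReal.ofReal (Real.exp (-β * ‖a.2‖ ^ 2)) := by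
        rw [← ENNReal.ofReal_mul (Real.exp_nonneg _), ← Real.exp_add]
        congr 2
        ring
      have h3 : (Ioo s t).indicator (fun _ => G (l, a)) (hitT ε (l, a)) =
          (Ioo s t).indicator (fun τ => ENNReal.ofReal ((τ - s) ^ 0 / (Nat.factorial 0)))
            (hitT ε (l, a)) * G (l, a) := by
        by_cases hτ : hitT ε (l, a) ∈ Ioo s t
        · rw [indicator_of_mem hτ, indicator_of_mem hτ]; simp
        · rw [indicator_of_notMem hτ, indicator_of_notMem hτ, zero_mul]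
      simp only
      rw [h2, h3]
      calc ENNReal.ofReal (Real.exp (-β * ‖l.2‖ ^ 2)) *
            (muE ε * ENNReal.ofReal (Real.exp (-b * ‖a.2‖ ^ 2)) *
            ((Ioo s t).indicator (fun τ => ENNReal.ofReal ((τ - s) ^ 0 / (Nat.factorial 0)))
            (hitT ε (l, a)) * G (l, a)))
          ≤ ENNReal.ofReal (Real.exp (-β * ‖l.2‖ ^ 2)) *
            (muE ε * ENNReal.ofReal (Real.exp (-β * ‖a.2‖ ^ 2)) *
            ((Ioo s t).indicator (fun τ => ENNReal.ofReal ((τ - s) ^ 0 / (Nat.factorial 0)))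
            (hitT ε (l, a)) * G (l, a))) := by gcongr
        _ = _ := by ring
    · refine (measurable_gauss2 β).mul (Measurable.mul ?_ hG)
      have hmi : Measurable fun τ : ℝ => (Ioo s t).indicator (fun τ =>
          ENNReal.ofReal ((τ - s) ^ 0 / (Nat.factorial 0))) τ :=
        (by fun_prop : Measurable fun τ : ℝ =>
          ENNReal.ofReal ((τ - s) ^ 0 / (Nat.factorial 0))).indicator measurableSet_Ioo
      exact hmi.comp measurable_hitT
  | succ m ih =>
    intro k hk S hS s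
    have hk0 : (0 : ℝ) ≤ b / 2 * ((k : ℝ) / M) := by positivity
    have hkM : ((k : ℝ) / M) ≤ 1 := by
      rw [div_le_one hM0]; exact_mod_cast (by omega : k ≤ M)
    set β : ℝ := b - b / 2 * (k / M) with hβ
    have hβb : β ≤ b := by linarith
    have hβ2 : b / 2 ≤ β := by
      have : b / 2 * ((k : ℝ) / M) ≤ b / 2 * 1 := by gcongr
      linarith
    have hm1 := measurable_inner (ε := ε) (b := b) (t := t) (fun n => S (n + 1)) m hG
    simp_rw [inner_succ S m hG]
    refine (first_hit_le hε hb hM hβ2 hβb (hS 0) hm1).trans ?_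
    have hm2 : Measurable fun q : Ph × ℝ => ENNReal.ofReal
        (Real.exp (-(β - b / (2 * M)) * ‖q.1.2‖ ^ 2)) *
        inner' ε b t (fun n => S (n + 1)) m G q.2 q.1 :=
      Measurable.mul (by fun_prop) (hm1.comp measurable_swap)
    have e1 : ∫⁻ l : Ph, ENNReal.ofReal (Real.exp (-(β - b / (2 * M)) * ‖l.2‖ ^ 2)) *
        ∫⁻ τ in Ioo s t, inner' ε b t (fun n => S (n + 1)) m G τ l =
        ∫⁻ τ in Ioo s t, ∫⁻ l : Ph, ENNReal.ofReal (Real.exp (-(β - b / (2 * M)) * ‖l.2‖ ^ 2)) *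
          inner' ε b t (fun n => S (n + 1)) m G τ l := by
      rw [← lintegral_lintegral_swap hm2.aemeasurable]
      refine lintegral_congr fun l => ?_
      rw [lintegral_const_mul' _ _ ENNReal.ofReal_ne_top]
    rw [e1]
    have hβk : β - b / (2 * M) = b - b / 2 * ((k + 1 : ℕ) / M) := by
      rw [hβ]; push_cast; field_simp; ring
    have hkm : k + 1 + m = k + (m + 1) := by omega
    rw [hβk]
    calc ENNReal.ofReal (Kb b * √M) * ∫⁻ τ in Ioo s t, ∫⁻ l : Ph,
          ENNReal.ofReal (Real.exp (-(b - b / 2 * ((k + 1 : ℕ) / M)) * ‖l.2‖ ^ 2)) *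
          inner' ε b t (fun n => S (n + 1)) m G τ l
        ≤ ENNReal.ofReal (Kb b * √M) * ∫⁻ τ in Ioo s t, ENNReal.ofReal ((Kb b * √M) ^ m) *
            pairR ε (b - b / 2 * ((k + (m + 1) : ℕ) / M)) τ t m G := by
          gcongr with τ
          have := ih (k + 1) (by omega) (fun n => S (n + 1)) (fun n => hS (n + 1)) τ
          rw [hkm] at this
          exact this
      _ = (ENNReal.ofReal (Kb b * √M) * ENNReal.ofReal ((Kb b * √M) ^ m)) *
            ∫⁻ τ in Ioo s t, pairR ε (b - b / 2 * ((k + (m + 1) : ℕ) / M)) τ t m G := by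
          rw [lintegral_const_mul' _ _ ENNReal.ofReal_ne_top, mul_assoc]
      _ = _ := by
          rw [pairR_lint m hG, ← ENNReal.ofReal_mul (mul_nonneg (Kb_nonneg b) (Real.sqrt_nonneg _)),
            pow_succ' (Kb b * √M)]

/-- Gaussian pairs which meet in the time interval `(s, t)`. -/
noncomputable def pairG (ε β s t : ℝ) (G : Ph × Ph → ℝ≥0∞) : ℝ≥0∞ :=
  muE ε * ∫⁻ q in {q : Ph × Ph | Meets ε q}, ENNReal.ofReal
    (Real.exp (-β * (‖q.1.2‖ ^ 2 + ‖q.2.2‖ ^ 2))) *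
      (Ioo s t).indicator (fun _ => G q) (hitT ε q)

/-- **(CM') Reverse chain mass**: a chain of `m + 1` hits which starts with a Gaussian line; `G` is
an arbitrary function of the last pair of lines. -/
theorem chain_mass_rev (hε : 0 < ε) {b s t : ℝ} (hb : 0 < b) (m : ℕ) {S : ℕ → Step}
    (hS : ∀ n, RevStep ε (S n)) {G : Ph × Ph → ℝ≥0∞} (hG : Measurable G) :
    ∫⁻ l : Ph, ENNReal.ofReal (Real.exp (-b * ‖l.2‖ ^ 2)) * inner' ε b t S m G s l ≤
      ENNReal.ofReal ((Kc b * (t - s)) ^ m / √(m.factorial : ℝ)) * pairG ε (b / 2) s t G := by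
  set M : ℕ := max m 1 with hM
  have hM1 : 1 ≤ M := le_max_right _ _
  have hmM : m ≤ M := le_max_left _ _
  have hM0 : (0 : ℝ) < M := by exact_mod_cast hM1
  have h1 := rev_aux (t := t) hε hb hM1 hG m 0 (by omega) S hS s
  have e1 : b - b / 2 * ((0 : ℕ) / M) = b := by simp
  rw [e1, zero_add] at h1
  refine h1.trans ?_
  have h2 : b / 2 ≤ b - b / 2 * ((m : ℕ) / M) := by
    have h3 : ((m : ℝ) / M) ≤ 1 := by
      rw [div_le_one hM0]; exact_mod_cast hmM
    have : b / 2 * ((m : ℝ) / M) ≤ b / 2 * 1 := by gcongr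
    linarith
  refine (mul_le_mul' le_rfl (pairR_mono (s := s) (t := t) h2 m G)).trans ?_
  unfold pairR pairG
  have hA : ENNReal.ofReal ((Kb b * √M) ^ m) ≠ ∞ := ENNReal.ofReal_ne_top
  rw [mul_left_comm, mul_left_comm (ENNReal.ofReal ((Kc b * (t - s)) ^ m / √(m.factorial : ℝ))),
    ← lintegral_const_mul' _ _ hA, ← lintegral_const_mul' _ _ ENNReal.ofReal_ne_top]
  refine mul_le_mul' le_rfl (lintegral_mono fun q => ?_)
  simp only
  rw [mul_left_comm, mul_left_comm (ENNReal.ofReal ((Kc b * (t - s)) ^ m / √(m.factorial : ℝ)))]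
  refine mul_le_mul' le_rfl ?_
  by_cases hq : hitT ε q ∈ Ioo s t
  · rw [indicator_of_mem hq, indicator_of_mem hq, ← mul_assoc,
      ← ENNReal.ofReal_mul (pow_nonneg (mul_nonneg (Kb_nonneg b) (Real.sqrt_nonneg _)) _)]
    refine mul_le_mul' (ENNReal.ofReal_le_ofReal ?_) le_rfl
    have h4 : 0 ≤ (hitT ε q - s) ^ m := pow_nonneg (sub_nonneg.2 hq.1.le) m
    have h5 : (hitT ε q - s) ^ m ≤ (t - s) ^ m :=
      pow_le_pow_left₀ (sub_nonneg.2 hq.1.le) (by linarith [hq.2]) m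
    have h6 : (√(M : ℝ)) ^ m / m.factorial ≤ (√(Real.exp 1)) ^ m / √(m.factorial : ℝ) := by
      rcases Nat.eq_zero_or_pos m with rfl | hm
      · simp
      · have : M = m := max_eq_left hm
        rw [this]
        exact sqrt_pow_div_factorial_le m
    have h7 : 0 ≤ (Kb b) ^ m := pow_nonneg (Kb_nonneg b) m
    calc (Kb b * √M) ^ m * ((hitT ε q - s) ^ m / m.factorial)
        = (Kb b) ^ m * (hitT ε q - s) ^ m * ((√(M : ℝ)) ^ m / m.factorial) := by
          rw [mul_pow]; ring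
      _ ≤ (Kb b) ^ m * (t - s) ^ m * ((√(Real.exp 1)) ^ m / √(m.factorial : ℝ)) := by
          have h8 : 0 ≤ (Kb b) ^ m * (t - s) ^ m := mul_nonneg h7 (h4.trans h5)
          gcongr
      _ = _ := by unfold Kc; rw [mul_pow, mul_pow]; ring
  · rw [indicator_of_notMem hq, indicator_of_notMem hq, zero_mul, mul_zero, mul_zero]

end Vale.Agent.P119.PB
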