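import Vale.Agent.P119.FL.First
import Vale.Agent.P119.PB.CMrev

/-!
# P119: second events, line level (`helper778`)

Versions of the flux of the sister line in which the guard and the target depend on the exit time.
-/

open MeasureTheory Set Filter Topology Metric ProbabilityTheory
open scoped ENNReal

namespace Vale.Agent.P119.PB

open KU FL

/-- The sisters of `e` with exit time in `[0, t]`, in the parameters (exit time, impact, velocity). -/
theorem sister_param {ε t : ℝ} (hε : 0 < ε) (e : Ph) {F : Ph → ℝ≥0∞} (hF : Measurable F)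
    (h0 : ∀ β, F β ≠ 0 → Meets ε (e, β) ∧ exT ε (e, β) ∈ Icc 0 t) :
    ∫⁻ β, F β = ∫⁻ σ in Icc (0 : ℝ) t, ∫⁻ ξ, (∫⁻ u : E3, (ENNReal.ofReal (ε ^ 2) * ‖e.2 - u‖ₑ) *
      F (sis ε e u σ ξ)) ∂K1.sig := by
  set F' : ℝ → Ph → ℝ≥0∞ := fun σ β => (Icc (0 : ℝ) t).indicator (fun _ => F β) σ with hF'
  have hFm : Measurable fun q : ℝ × Ph => F' q.1 q.2 := by
    have : (fun q : ℝ × Ph => F' q.1 q.2) = (Prod.fst ⁻¹' Icc (0 : ℝ) t).indicator
        (fun q : ℝ × Ph => F q.2) := by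
      funext q
      rfl
    rw [this]
    exact (hF.comp measurable_snd).indicator (measurable_fst measurableSet_Icc)
  have hMm : MeasurableSet {β : Ph | Meets ε (e, β)} := measurable_prodMk_left measurableSet_meets
  have e1 : ∫⁻ β, F β = ∫⁻ β in {β : Ph | Meets ε (e, β)}, F' (exT ε (e, β)) β := by
    rw [← lintegral_indicator hMm]
    refine lintegral_congr fun β => ?_
    by_cases h1 : F β = 0
    · rw [h1]
      by_cases hβ : β ∈ {β : Ph | Meets ε (e, β)}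
      · rw [indicator_of_mem hβ, hF']
        simp only
        by_cases h2 : exT ε (e, β) ∈ Icc 0 t
        · rw [indicator_of_mem h2, h1]
        · rw [indicator_of_notMem h2]
      · rw [indicator_of_notMem hβ]
    · obtain ⟨a1, a2⟩ := h0 β h1
      rw [indicator_of_mem (show β ∈ {β : Ph | Meets ε (e, β)} from a1), hF']
      simp only
      rw [indicator_of_mem a2]
  rw [e1, lintegral_sister hε e hFm]
  have hsm : Measurable fun q : E3 × (ℝ × E3) => sis ε e q.1 q.2.1 q.2.2 := measurable_sis e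
  have hJs : Measurable fun q : E3 × (ℝ × E3) => F (sis ε e q.1 q.2.1 q.2.2) :=
    hF.comp hsm
  rw [swap3 (by fun_prop : Measurable fun u : E3 => ‖e.2 - u‖ₑ) hJs t,
    ← lintegral_const_mul' _ _ ENNReal.ofReal_ne_top]
  have hsw : Measurable fun q : (ℝ × E3) × E3 => ((q.2, q.1) : E3 × (ℝ × E3)) :=
    measurable_snd.prodMk measurable_fst
  have hm6 : Measurable fun q : (ℝ × E3) × E3 => F (sis ε e q.2 q.1.1 q.1.2) := by
    have h := hJs.comp hsw
    simp only [Function.comp_def] at h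
    exact h
  have hm7 : Measurable fun q : (ℝ × E3) × E3 => ‖e.2 - q.2‖ₑ := by fun_prop
  have hm4 : Measurable fun q : (ℝ × E3) × E3 => ‖e.2 - q.2‖ₑ * F (sis ε e q.2 q.1.1 q.1.2) :=
    hm7.mul hm6
  have hm5 : Measurable fun q : ℝ × E3 => ENNReal.ofReal (ε ^ 2) *
      ∫⁻ u : E3, ‖e.2 - u‖ₑ * F (sis ε e u q.1 q.2) :=
    (hm4.lintegral_prod_right' (ν := (volume : Measure E3))).const_mul _
  rw [lintegral_prod _ hm5.aemeasurable]
  refine lintegral_congr fun σ => lintegral_congr fun ξ => ?_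
  rw [← lintegral_const_mul' _ _ ENNReal.ofReal_ne_top]
  refine lintegral_congr fun u => ?_
  simp only
  rw [mul_assoc]

/-- Bound of an integral over the parameters, for almost every impact parameter. -/
theorem param_le {t : ℝ} {F : ℝ → E3 → ℝ≥0∞} {h : ℝ → ℝ≥0∞}
    (H : ∀ σ ∈ Icc (0 : ℝ) t, ∀ ξ ∈ K1.disc K1.e0, F σ ξ ≤ h σ) :
    ∫⁻ σ in Icc (0 : ℝ) t, ∫⁻ ξ, F σ ξ ∂K1.sig ≤ K1.sig univ * ∫⁻ σ in Icc (0 : ℝ) t, h σ := by
  rw [← lintegral_const_mul' _ _ (measure_ne_top K1.sig univ)]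
  refine setLIntegral_mono' measurableSet_Icc fun σ hσ => ?_
  have h2 : ∀ᵐ ξ ∂K1.sig, ξ ∈ K1.disc K1.e0 := ae_restrict_mem (K1.measurableSet_disc _)
  calc ∫⁻ ξ, F σ ξ ∂K1.sig ≤ ∫⁻ _, h σ ∂K1.sig := by
        refine lintegral_mono_ae ?_
        filter_upwards [h2] with ξ hξ
        exact H σ hσ ξ hξ
    _ = _ := by rw [lintegral_const, mul_comm]

/-- The flux for a fixed exit time and impact parameter, with a constant factor; the target is only
needed after the exit time. -/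
theorem sister_aux {ε b a t δ c₁ : ℝ} (hε : 0 < ε) (hb : 0 < b) (hδ : 0 < δ)
    (hc₁ : 0 ≤ c₁) {m : ℕ} {S : ℕ → Step} (P : ChainPath ε t S m c₁) (e : Ph)
    {σ : ℝ} {ξ : E3} (hσ : σ ∈ Icc 0 t) (hξ : ξ ∈ K1.disc K1.e0)
    {Y : ℝ → E3} {y' : ℝ → ℝ≥0∞} (hYc : ContinuousOn Y (Icc a t)) (hYs : SpeedOn Y y' a t)
    (hy' : AEMeasurable y' (volume.restrict (Icc a t))) {g : ℝ≥0∞} (hg : g ≠ ∞)
    {Ψ : Ph → (Fin m → Ph) → ℝ≥0∞} (hΨm : Measurable fun q : Ph × (Fin m → Ph) => Ψ q.1 q.2)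
    (hΨ : ∀ β p, exT ε (e, β) = σ → Ψ β p ≠ 0 →
      Chain ε t S m σ β p ∧
      (∃ τ ∈ Icc (max (max a (σ + δ)) (time ε S m σ β p)) t, ‖P.X β p τ - Y τ‖ ≤ ε) ∧
      Ψ β p ≤ g * (muE ε * ENNReal.ofReal (Real.exp (-b * ‖β.2‖ ^ 2)) * FL.wt b ε m p)) :
    ∫⁻ u : E3, ∫⁻ p, (ENNReal.ofReal (ε ^ 2) * ‖e.2 - u‖ₑ) * Ψ (sis ε e u σ ξ) p ≤
      g * (ENNReal.ofReal (Ke b e) * FL.B1 ε (b / 2) σ a t δ 1 c₁ m y') := by
  have hKe := Ke_pos b e
  have hsu : Measurable fun u : E3 => sis ε e u σ ξ := measurable_sis_u e σ ξ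
  by_cases hg0 : g = 0
  · rw [hg0, zero_mul]
    refine le_of_eq ?_
    rw [← lintegral_zero (μ := (volume : Measure E3))]
    refine lintegral_congr fun u => ?_
    rw [← lintegral_zero (μ := (volume : Measure (Fin m → Ph)))]
    refine lintegral_congr fun p => ?_
    by_cases hV : e.2 - u = 0
    · simp [hV]
    · have hex : exT ε (e, sis ε e u σ ξ) = σ := exT_sis hε.ne' e hV σ hξ
      by_cases h : Ψ (sis ε e u σ ξ) p = 0
      · simp [h]
      · have := (hΨ _ p hex h).2.2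
        rw [hg0, zero_mul] at this
        exact absurd (nonpos_iff_eq_zero.1 this) h
  have hy : Measurable fun u : E3 => (sis ε e u σ ξ).1 + σ • u :=
    hsu.fst.add (measurable_id.const_smul σ)
  have hΨ'm : Measurable fun r : E3 × (Fin m → Ph) => (ENNReal.ofReal (ε ^ 2) *
      ‖e.2 - r.1‖ₑ) * Ψ (sis ε e r.1 σ ξ) r.2 := by
    refine Measurable.mul (by fun_prop) ?_
    exact hΨm.comp ((hsu.comp measurable_fst).prodMk measurable_snd)
  have hK : g * ENNReal.ofReal (Ke b e) ≠ ∞ := ENNReal.mul_ne_top hg ENNReal.ofReal_ne_top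
  have hK0 : g * ENNReal.ofReal (Ke b e) ≠ 0 := mul_ne_zero hg0 (by simpa using hKe)
  have h1 := one_line_const (s := σ) hε (by positivity : 0 < b / 2) hδ zero_le_one hc₁ hσ.2 P hy
    (fun u => sis_pos hε.le e u σ hξ) hYc hYs hy' hK0 hK
    (Ψ := fun u p => (ENNReal.ofReal (ε ^ 2) * ‖e.2 - u‖ₑ) * Ψ (sis ε e u σ ξ) p) hΨ'm
    (by
      intro u p hne
      have hΨ0 : Ψ (sis ε e u σ ξ) p ≠ 0 := fun h => hne (by simp only [h, mul_zero])
      have hV : e.2 - u ≠ 0 := by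
        intro h
        apply hne
        simp [h]
      have hex : exT ε (e, sis ε e u σ ξ) = σ := exT_sis hε.ne' e hV σ hξ
      have hst : (((sis ε e u σ ξ).1 + σ • u - σ • u, u) : Ph) = sis ε e u σ ξ := by
        rw [add_sub_cancel_right]
        exact Prod.ext rfl (sis_snd e u σ ξ).symm
      obtain ⟨a3, a4, a5⟩ := hΨ _ p hex hΨ0
      rw [hst]
      refine ⟨a3, a4, ?_⟩
      rw [sis_snd] at a5
      calc (ENNReal.ofReal (ε ^ 2) * ‖e.2 - u‖ₑ) * Ψ (sis ε e u σ ξ) p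
          ≤ (ENNReal.ofReal (ε ^ 2) * ‖e.2 - u‖ₑ) *
            (g * (muE ε * ENNReal.ofReal (Real.exp (-b * ‖u‖ ^ 2)) * FL.wt b ε m p)) := by gcongr
        _ = g * ((muE ε * ENNReal.ofReal (ε ^ 2)) *
            ((‖e.2 - u‖ₑ * ENNReal.ofReal (Real.exp (-b * ‖u‖ ^ 2))) * FL.wt b ε m p)) := by ring
        _ = g * (ENNReal.ofReal (‖e.2 - u‖ * Real.exp (-b * ‖u‖ ^ 2)) * FL.wt b ε m p) := by
            rw [muE_mul hε, one_mul, ← ofReal_norm, ← ENNReal.ofReal_mul (norm_nonneg _)]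
        _ ≤ g * (ENNReal.ofReal (Ke b e * Real.exp (-(b / 2) * ‖u‖ ^ 2)) * FL.wt (b / 2) ε m p) := by
            refine mul_le_mul' le_rfl (mul_le_mul' (ENNReal.ofReal_le_ofReal (vel_gauss hb e.2 u))
              (wt_mono (by linarith) m p))
        _ = _ := by rw [ENNReal.ofReal_mul hKe.le]; ring)
  refine h1.trans (le_of_eq ?_)
  rw [mul_assoc]

/-- **Flux of the sister of a given line**: guard and target depend on the exit time. -/
theorem sister_flux_g {ε b t δ c₁ : ℝ} {a : ℝ → ℝ} (hε : 0 < ε) (hb : 0 < b) (hδ : 0 < δ)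
    (hc₁ : 0 ≤ c₁) {m : ℕ} {S : ℕ → Step} (P : ChainPath ε t S m c₁) (e : Ph)
    {Y : ℝ → ℝ → E3} {y' : ℝ → ℝ → ℝ≥0∞} (hYc : ∀ σ ∈ Icc 0 t, ContinuousOn (Y σ) (Icc (a σ) t))
    (hYs : ∀ σ ∈ Icc 0 t, SpeedOn (Y σ) (y' σ) (a σ) t)
    (hy' : ∀ σ ∈ Icc 0 t, AEMeasurable (y' σ) (volume.restrict (Icc (a σ) t)))
    {g : ℝ → ℝ≥0∞} (hg : ∀ σ, g σ ≠ ∞)
    {Ψ : Ph → (Fin m → Ph) → ℝ≥0∞} (hΨm : Measurable fun q : Ph × (Fin m → Ph) => Ψ q.1 q.2)
    (hΨ : ∀ β p, Ψ β p ≠ 0 → Meets ε (e, β) ∧ exT ε (e, β) ∈ Icc 0 t ∧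
      Chain ε t S m (exT ε (e, β)) β p ∧
      (∃ τ ∈ Icc (max (max (a (exT ε (e, β))) (exT ε (e, β) + δ))
        (time ε S m (exT ε (e, β)) β p)) t, ‖P.X β p τ - Y (exT ε (e, β)) τ‖ ≤ ε) ∧
      Ψ β p ≤ g (exT ε (e, β)) *
        (muE ε * ENNReal.ofReal (Real.exp (-b * ‖β.2‖ ^ 2)) * FL.wt b ε m p)) :
    ∫⁻ β, ∫⁻ p, Ψ β p ≤ K1.sig univ * ∫⁻ σ in Icc (0 : ℝ) t,
      g σ * (ENNReal.ofReal (Ke b e) * FL.B1 ε (b / 2) σ (a σ) t δ 1 c₁ m (y' σ)) := by
  have hJm : Measurable fun β : Ph => ∫⁻ p, Ψ β p := hΨm.lintegral_prod_right'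
  rw [sister_param (t := t) hε e hJm]
  · refine param_le fun σ hσ ξ hξ => ?_
    have h1 := sister_aux hε hb hδ hc₁ P e hσ hξ (hYc σ hσ) (hYs σ hσ) (hy' σ hσ) (hg σ) hΨm
      (by
        intro β p hex hne
        obtain ⟨-, -, a3, a4, a5⟩ := hΨ β p hne
        rw [hex] at a3 a4 a5
        exact ⟨a3, a4, a5⟩)
    refine le_trans (le_of_eq ?_) h1
    refine lintegral_congr fun u => ?_
    rw [lintegral_const_mul' _ _ (ENNReal.mul_ne_top ENNReal.ofReal_ne_top enorm_ne_top)]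
  · intro β hβ
    obtain ⟨p, hp⟩ : ∃ p, Ψ β p ≠ 0 := by
      by_contra hcon
      push Not at hcon
      apply hβ
      simp [hcon]
    obtain ⟨a1, a2, -⟩ := hΨ β p hp
    exact ⟨a1, a2⟩

end Vale.Agent.P119.PB
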