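import Vale.Agent.P119.PB.SplitD

/-!
# P119, block PROB: sums over exhausts and pairs of exhausts of alive trees (`helper298`)

`exh q` is the exhaust at the marked node `q`, `exU q o S` the exhaust at the node above.

* `sumM`, `sumA`, `sumC`: the sums over one marked node, over two marked nodes (one above the other,
  in different branches), with independent pieces of law `Θ`;
* `one_le`: sums over the exhausts of the trees of `Al`, with a weight `R T` which is at most a power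
  of the root velocity;
* `pairs_le`: the same for pairs of exhausts.
-/

open MeasureTheory Filter Topology Set
open scoped ENNReal NNReal

noncomputable section

namespace Vale.Agent.P119.M

open KU CTree FL PB Cap

variable {Φ : E3 → ℝ} {ε b t : ℝ} {ν : Measure Ph} {L : ℕ} {Al : Set CTree} {g : CTree → ℝ≥0∞}

/-- The exhaust at a marked node. -/
def exh {i : ℕ} (q : Mk CTree i) : CTree := node q.2.1 q.1

/-- The output side at a marked node. -/
def top {i : ℕ} (q : Mk CTree i) : CTree := plug i (node q.1 q.2.1) q.2.2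

/-- The exhaust at the node above. -/
def exU {i : ℕ} (q : Mk CTree i) (o : Bool) (S : CTree) : CTree := stepT (top q) (!o, S)

theorem measurable_exh (i : ℕ) : Measurable (exh : Mk CTree i → CTree) :=
  measurable_node.comp ((measurable_fst.comp measurable_snd).prodMk measurable_fst)

theorem measurable_top (i : ℕ) : Measurable (top : Mk CTree i → CTree) :=
  (measurable_plug i).comp ((measurable_node.comp (measurable_fst.prodMk
    (measurable_fst.comp measurable_snd))).prodMk (measurable_snd.comp measurable_snd))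

theorem measurable_exU (i : ℕ) :
    Measurable fun p : Mk CTree i × (Bool × CTree) => exU p.1 p.2.1 p.2.2 :=
  measurable_stepT.comp (((measurable_top i).comp measurable_fst).prodMk
    (((measurable_of_countable (fun o : Bool => !o)).comp (measurable_fst.comp
      measurable_snd)).prodMk (measurable_snd.comp measurable_snd)))

/-- Sums over pairs of nodes are measurable. -/
theorem measurable_marksA
    {F : (k i : ℕ) → Mk CTree i → Bool → CTree → (Fin k → Bool × CTree) → ℝ≥0∞}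
    (hF : ∀ k i, Measurable fun p : Mk CTree i × (Bool × CTree) × (Fin k → Bool × CTree) =>
      F k i p.1 p.2.1.1 p.2.1.2 p.2.2) : Measurable fun T => marksA T F := by
  unfold marksA
  have hb : ∀ (o : Bool) (k : ℕ), Measurable fun p : CTree × CTree × (Fin k → Bool × CTree) =>
      marks p.1 (fun i a b r₁ => F k i (a, b, r₁) o p.2.1 p.2.2) := fun o k =>
    measurable_marks (F := fun i a b r₁ (x : CTree × (Fin k → Bool × CTree)) =>
      F k i (a, b, r₁) o x.1 x.2) fun i => (hF k i).comp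
        (measurable_fst.prodMk ((measurable_const.prodMk
        (measurable_fst.comp measurable_snd)).prodMk (measurable_snd.comp measurable_snd)))
  have h2 := measurable_marks (X := Unit) (F := fun k A B r _ =>
    marks A (fun i a b r₁ => F k i (a, b, r₁) true B r) +
    marks B (fun i a b r₁ => F k i (a, b, r₁) false A r)) (fun k => by
      refine Measurable.add ?_ ?_
      · exact ((hb true k).comp measurable_fst)
      · exact ((hb false k).comp (((measurable_fst.comp measurable_snd).prodMk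
          (measurable_fst.prodMk (measurable_snd.comp measurable_snd))).comp measurable_fst)))
  exact h2.comp (measurable_id.prodMk (measurable_const (a := ())))

/-- The sum over one marked node, with independent pieces. -/
def sumM (Φ : E3 → ℝ) (ε t : ℝ) (L : ℕ) (Θ : Measure CTree) (R Ψ : CTree → ℝ≥0∞) : ℝ≥0∞ :=
  ∑' i, ∫⁻ q : Mk CTree i, (okT Φ ε t L).indicator (fun _ => R (top q) * Ψ (exh q)) (top q)
    ∂(mkM Θ i)

/-- The sum over two marked nodes, one above the other, with independent pieces. -/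
def sumA (Φ : E3 → ℝ) (ε t : ℝ) (L : ℕ) (Θ : Measure CTree) (R : CTree → ℝ≥0∞)
    (Ψ : CTree → CTree → ℝ≥0∞) : ℝ≥0∞ :=
  ∑' k, ∑' i, ∫⁻ q : Mk CTree i, ∫⁻ s : Bool × CTree, ∫⁻ r : Fin k → Bool × CTree,
    (okT Φ ε t L).indicator (fun _ => R (treeA k i q s.1 s.2 r) *
      (Ψ (exh q) (exU q s.1 s.2) + Ψ (exU q s.1 s.2) (exh q))) (treeA k i q s.1 s.2 r)
      ∂(spM Θ k) ∂(stM Θ) ∂(mkM Θ i)

/-- The sum over two marked nodes in different branches, with independent pieces. -/
def sumC (Φ : E3 → ℝ) (ε t : ℝ) (L : ℕ) (Θ : Measure CTree) (R : CTree → ℝ≥0∞)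
    (Ψ : CTree → CTree → ℝ≥0∞) : ℝ≥0∞ :=
  ∑' k, ∑' i, ∑' i', ∫⁻ q : Mk CTree i, ∫⁻ q' : Mk CTree i', ∫⁻ r : Fin k → Bool × CTree,
    (okT Φ ε t L).indicator (fun _ => R (treeC k i i' q q' r) *
      (Ψ (exh q) (exh q') + Ψ (exh q') (exh q))) (treeC k i i' q q' r)
      ∂(spM Θ k) ∂(mkM Θ i') ∂(mkM Θ i)

/-- **Sums over the exhausts of the trees of `Al`.** -/
theorem one_le [IsFiniteMeasure ν] (h : SplitData Φ ε t L Al g) (hb : 0 < b) {K : ℝ≥0∞}
    {L' : ℕ} (hK : LineLaw Φ ε b K ((tree ν L').restrict (okT Φ ε t L))) {q₀ : ℕ} {c : ℝ≥0∞}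
    {R : CTree → ℝ≥0∞} (hRm : Measurable R) (hR : ∀ T ∈ Al, R T ≤ pw q₀ (ln Φ ε T).2)
    {Ψ : CTree → ℝ≥0∞} (hΨm : Measurable Ψ) (hΨ : ∀ x, Ψ x ≤ c) {α : Measure Ph}
    (hα : ∀ F : Ph → ℝ≥0∞, Measurable F →
      ∫⁻ T in Al, (1 - g T) * F (ln Φ ε T) ∂(tree ν L') ≤ ∫⁻ z, F z ∂α) :
    ∫⁻ T in Al, R T * exsum T Ψ ∂(tree ν L') ≤
      sumM Φ ε t L (typT Al g (tree ν L')) R Ψ +
      (L + 1 : ℕ) * (2 ^ L * c * (errC b t K q₀ L *
        (∫⁻ T in bad1 Al, pw (q₀ + L) (ln Φ ε T).2 ∂(tree ν L') + ∫⁻ z, pw (q₀ + L) z.2 ∂α))) := by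
  set F : (i : ℕ) → Mk CTree i → ℝ≥0∞ := fun i q => R (top q) * Ψ (exh q) with hF
  have hFm : ∀ i, Measurable (F i) := fun i =>
    (hRm.comp (measurable_top i)).mul (hΨm.comp (measurable_exh i))
  have h1 : ∀ T, R T * exsum T Ψ ≤ marks T fun i a b r => F i (a, b, r) := by
    intro T
    calc R T * exsum T Ψ
        ≤ R T * marks T fun _ a b _ => Ψ (node b a) := by
          gcongr; exact exsum_le Ψ
      _ = marks T fun _ a b _ => R T * Ψ (node b a) := by rw [marks_mul]
      _ ≤ _ := marks_mono fun i a b r hr => by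
          rw [hF]
          unfold top exh
          simp only
          rw [hr]
  have h2 : ∀ T ∈ Al, marks T (fun i a b r => F i (a, b, r)) ≤
      2 ^ L * c * pw q₀ (ln Φ ε T).2 := by
    intro T hT
    refine (marks_le_const (c := c * pw q₀ (ln Φ ε T).2) fun i a b r hr => ?_).trans ?_
    · rw [hF]
      unfold top exh
      simp only
      rw [hr, mul_comm]
      exact mul_le_mul' (hΨ _) (hR T hT)
    · rw [mul_assoc]
      exact mul_le_mul_left (pow_le_pow_right₀ (by norm_num) (h.sub hT).2.2) _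
  refine (lintegral_mono h1).trans ((splitM_le h L' hFm).trans (add_le_add le_rfl ?_))
  exact mul_le_mul_right (error_le h hb hK q₀ h2 hα) _

/-- The sum over one marked node, with independent pieces: a function of the tree and of the
exhaust. -/
def sumJ (Φ : E3 → ℝ) (ε t : ℝ) (L : ℕ) (Θ : Measure CTree) (F : CTree → CTree → ℝ≥0∞) : ℝ≥0∞ :=
  ∑' i, ∫⁻ q : Mk CTree i, (okT Φ ε t L).indicator (fun _ => F (top q) (exh q)) (top q)
    ∂(mkM Θ i)

/-- **Sums over the exhausts of the trees of `Al`**, functions of the tree and of the exhaust. -/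
theorem joint_le [IsFiniteMeasure ν] (h : SplitData Φ ε t L Al g) (hb : 0 < b) {K : ℝ≥0∞}
    {L' : ℕ} (hK : LineLaw Φ ε b K ((tree ν L').restrict (okT Φ ε t L))) {q₀ : ℕ} {c : ℝ≥0∞}
    {F : CTree → CTree → ℝ≥0∞} (hFm : Measurable fun p : CTree × CTree => F p.1 p.2)
    (hF : ∀ T ∈ Al, ∀ x, F T x ≤ c * pw q₀ (ln Φ ε T).2) {α : Measure Ph}
    (hα : ∀ F : Ph → ℝ≥0∞, Measurable F →
      ∫⁻ T in Al, (1 - g T) * F (ln Φ ε T) ∂(tree ν L') ≤ ∫⁻ z, F z ∂α) :
    ∫⁻ T in Al, exsum T (F T) ∂(tree ν L') ≤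
      sumJ Φ ε t L (typT Al g (tree ν L')) F +
      (L + 1 : ℕ) * (2 ^ L * c * (errC b t K q₀ L *
        (∫⁻ T in bad1 Al, pw (q₀ + L) (ln Φ ε T).2 ∂(tree ν L') + ∫⁻ z, pw (q₀ + L) z.2 ∂α))) := by
  set H : (i : ℕ) → Mk CTree i → ℝ≥0∞ := fun i q => F (top q) (exh q) with hH
  have hHm : ∀ i, Measurable (H i) := fun i =>
    hFm.comp ((measurable_top i).prodMk (measurable_exh i))
  have h1 : ∀ T, exsum T (F T) ≤ marks T fun i a b r => H i (a, b, r) := by
    intro T
    refine (exsum_le (F T)).trans (marks_mono fun i a b r hr => ?_)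
    rw [hH]
    unfold top exh
    simp only
    rw [hr]
  have h2 : ∀ T ∈ Al, marks T (fun i a b r => H i (a, b, r)) ≤
      2 ^ L * c * pw q₀ (ln Φ ε T).2 := by
    intro T hT
    refine (marks_le_const (c := c * pw q₀ (ln Φ ε T).2) fun i a b r hr => ?_).trans ?_
    · rw [hH]
      unfold top exh
      simp only
      rw [hr]
      exact hF T hT _
    · rw [mul_assoc]
      exact mul_le_mul_left (pow_le_pow_right₀ (by norm_num) (h.sub hT).2.2) _
  refine (lintegral_mono h1).trans ((splitM_le h L' hHm).trans (add_le_add le_rfl ?_))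
  exact mul_le_mul_right (error_le h hb hK q₀ h2 hα) _

/-- **Sums over the pairs of exhausts of the trees of `Al`.** -/
theorem pairs_le' [IsFiniteMeasure ν] (h : SplitData Φ ε t L Al g) (hb : 0 < b) {K : ℝ≥0∞}
    {L' : ℕ} (hK : LineLaw Φ ε b K ((tree ν L').restrict (okT Φ ε t L))) {q₀ : ℕ} {c c₁ : ℝ≥0∞}
    {R : CTree → ℝ≥0∞} (hRm : Measurable R) (hR : ∀ T ∈ Al, R T ≤ c₁ * pw q₀ (ln Φ ε T).2)
    {Ψ : CTree → CTree → ℝ≥0∞} (hΨm : Measurable fun p : CTree × CTree => Ψ p.1 p.2)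
    (hΨ : ∀ x y, Ψ x y ≤ c) {α : Measure Ph}
    (hα : ∀ F : Ph → ℝ≥0∞, Measurable F →
      ∫⁻ T in Al, (1 - g T) * F (ln Φ ε T) ∂(tree ν L') ≤ ∫⁻ z, F z ∂α) :
    ∫⁻ T in Al, R T *
        exsum T (fun x => exsum T fun y => open Classical in if x = y then 0 else Ψ x y)
        ∂(tree ν L') ≤
      (sumA Φ ε t L (typT Al g (tree ν L')) R Ψ + sumC Φ ε t L (typT Al g (tree ν L')) R Ψ) +
      (3 * L + 2 : ℕ) * (2 * 2 ^ L * 2 ^ L * 2 ^ L * (2 * c * c₁) * (errC b t K q₀ L *
        (∫⁻ T in bad1 Al, pw (q₀ + L) (ln Φ ε T).2 ∂(tree ν L') + ∫⁻ z, pw (q₀ + L) z.2 ∂α))) := by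
  classical
  set Θ := tree ν L' with hΘ
  set FA : (k i : ℕ) → Mk CTree i → Bool → CTree → (Fin k → Bool × CTree) → ℝ≥0∞ :=
    fun k i q o S r => R (treeA k i q o S r) *
      (Ψ (exh q) (exU q o S) + Ψ (exU q o S) (exh q)) with hFA
  set FC : (k i i' : ℕ) → Mk CTree i → Mk CTree i' → (Fin k → Bool × CTree) → ℝ≥0∞ :=
    fun k i i' q q' r => R (treeC k i i' q q' r) *
      (Ψ (exh q) (exh q') + Ψ (exh q') (exh q)) with hFC
  have mA : ∀ k i, Measurable fun p : Mk CTree i × (Bool × CTree) × (Fin k → Bool × CTree) =>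
      FA k i p.1 p.2.1.1 p.2.1.2 p.2.2 := fun k i => by
    have hx : Measurable fun p : Mk CTree i × (Bool × CTree) × (Fin k → Bool × CTree) =>
        exh p.1 := (measurable_exh i).comp measurable_fst
    have hy : Measurable fun p : Mk CTree i × (Bool × CTree) × (Fin k → Bool × CTree) =>
        exU p.1 p.2.1.1 p.2.1.2 := (measurable_exU i).comp
          (measurable_fst.prodMk (measurable_fst.comp measurable_snd))
    exact (hRm.comp (measurable_treeA k i)).mul
      ((hΨm.comp (hx.prodMk hy)).add (hΨm.comp (hy.prodMk hx)))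
  have mC : ∀ k i i', Measurable fun p : Mk CTree i × Mk CTree i' × (Fin k → Bool × CTree) =>
      FC k i i' p.1 p.2.1 p.2.2 := fun k i i' => by
    have hx : Measurable fun p : Mk CTree i × Mk CTree i' × (Fin k → Bool × CTree) =>
        exh p.1 := (measurable_exh i).comp measurable_fst
    have hy : Measurable fun p : Mk CTree i × Mk CTree i' × (Fin k → Bool × CTree) =>
        exh p.2.1 := (measurable_exh i').comp (measurable_fst.comp measurable_snd)
    exact (hRm.comp (measurable_treeC k i i')).mul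
      ((hΨm.comp (hx.prodMk hy)).add (hΨm.comp (hy.prodMk hx)))
  have h1 : ∀ T, R T *
      exsum T (fun x => exsum T fun y => if x = y then 0 else Ψ x y) ≤
      marksA T FA + marksC T FC := by
    intro T
    calc R T * exsum T (fun x => exsum T fun y => if x = y then 0 else Ψ x y)
        ≤ R T * (marksA T (fun _ i q o S _ => Ψ (exh q) (exU q o S) +
            Ψ (exU q o S) (exh q)) + marksC T (fun _ _ _ q q' _ => Ψ (exh q) (exh q') +
            Ψ (exh q') (exh q))) := mul_le_mul_right (exsum_pairs_le Ψ) _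
      _ = marksA T (fun _ i q o S _ => R T * (Ψ (exh q) (exU q o S) +
            Ψ (exU q o S) (exh q))) + marksC T (fun _ _ _ q q' _ => R T *
            (Ψ (exh q) (exh q') + Ψ (exh q') (exh q))) := by
          rw [mul_add, marksA_mul, marksC_mul]
      _ ≤ _ := by
          refine add_le_add (marksA_mono fun k i q o S r hr => ?_)
            (marksC_mono fun k i i' q q' r hr => ?_)
          · rw [hFA]; simp only; rw [hr]
          · rw [hFC]; simp only; rw [hr]
  have h2 : ∀ x y, Ψ x y + Ψ y x ≤ 2 * c := fun x y => by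
    rw [two_mul]; exact add_le_add (hΨ _ _) (hΨ _ _)
  have hA : ∀ T ∈ Al, marksA T FA ≤ 2 * 2 ^ L * 2 ^ L * 2 ^ L * (2 * c * c₁) * pw q₀ (ln Φ ε T).2 := by
    intro T hT
    refine (marksA_le_const (h.sub hT).2.2 (c := 2 * c * (c₁ * pw q₀ (ln Φ ε T).2))
      fun k i q o S r hr => ?_).trans ?_
    · rw [hFA]
      simp only
      rw [hr, mul_comm]
      exact mul_le_mul' (h2 _ _) (hR T hT)
    · have h3 : (1 : ℝ≥0∞) ≤ 2 ^ L := one_le_pow₀ (by norm_num)
      calc (2 : ℝ≥0∞) ^ L * (2 * 2 ^ L) * (2 * c * (c₁ * pw q₀ (ln Φ ε T).2))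
          = 1 * (2 * 2 ^ L * 2 ^ L * (2 * c * c₁) * pw q₀ (ln Φ ε T).2) := by ring
        _ ≤ 2 ^ L * (2 * 2 ^ L * 2 ^ L * (2 * c * c₁) * pw q₀ (ln Φ ε T).2) := by gcongr
        _ = _ := by ring
  have hC : ∀ T ∈ Al, marksC T FC ≤ 2 * 2 ^ L * 2 ^ L * 2 ^ L * (2 * c * c₁) * pw q₀ (ln Φ ε T).2 := by
    intro T hT
    refine (marksC_le_const (h.sub hT).2.2 (c := 2 * c * (c₁ * pw q₀ (ln Φ ε T).2))
      fun k i i' q q' r hr => ?_).trans ?_
    · rw [hFC]
      simp only
      rw [hr, mul_comm]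
      exact mul_le_mul' (h2 _ _) (hR T hT)
    · have h3 : (1 : ℝ≥0∞) ≤ 2 := by norm_num
      calc (2 : ℝ≥0∞) ^ L * (2 ^ L * 2 ^ L) * (2 * c * (c₁ * pw q₀ (ln Φ ε T).2))
          = 1 * (2 ^ L * 2 ^ L * 2 ^ L * (2 * c * c₁) * pw q₀ (ln Φ ε T).2) := by ring
        _ ≤ 2 * (2 ^ L * 2 ^ L * 2 ^ L * (2 * c * c₁) * pw q₀ (ln Φ ε T).2) := by gcongr
        _ = _ := by ring
  have eA := error_le h hb hK q₀ hA hα
  have eC := error_le h hb hK q₀ hC hα
  have sA := splitA_le (ν := ν) h L' mA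
  have sC := splitC_le (ν := ν) h L' mC
  set EE : ℝ≥0∞ := 2 * 2 ^ L * 2 ^ L * 2 ^ L * (2 * c * c₁) * (errC b t K q₀ L *
    (∫⁻ T in bad1 Al, pw (q₀ + L) (ln Φ ε T).2 ∂Θ + ∫⁻ z, pw (q₀ + L) z.2 ∂α)) with hEE
  have hm : Measurable fun T => marksA T FA := measurable_marksA mA
  have e : ∀ x y z : ℝ≥0∞, (x + (L + 1 : ℕ) * z) + (y + (2 * L + 1 : ℕ) * z) =
      (x + y) + (3 * L + 2 : ℕ) * z := fun x y z => by push_cast; ring
  refine (lintegral_mono h1).trans (((lintegral_add_left hm _).le).trans ?_)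
  rw [← e]
  refine add_le_add (sA.trans (add_le_add le_rfl ?_)) (sC.trans (add_le_add le_rfl ?_))
  · exact mul_le_mul_right eA _
  · exact mul_le_mul_right eC _

/-- **Sums over the pairs of exhausts of the trees of `Al`.** -/
theorem pairs_le [IsFiniteMeasure ν] (h : SplitData Φ ε t L Al g) (hb : 0 < b) {K : ℝ≥0∞}
    {L' : ℕ} (hK : LineLaw Φ ε b K ((tree ν L').restrict (okT Φ ε t L))) {q₀ : ℕ} {c : ℝ≥0∞}
    {R : CTree → ℝ≥0∞} (hRm : Measurable R) (hR : ∀ T ∈ Al, R T ≤ pw q₀ (ln Φ ε T).2)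
    {Ψ : CTree → CTree → ℝ≥0∞} (hΨm : Measurable fun p : CTree × CTree => Ψ p.1 p.2)
    (hΨ : ∀ x y, Ψ x y ≤ c) {α : Measure Ph}
    (hα : ∀ F : Ph → ℝ≥0∞, Measurable F →
      ∫⁻ T in Al, (1 - g T) * F (ln Φ ε T) ∂(tree ν L') ≤ ∫⁻ z, F z ∂α) :
    ∫⁻ T in Al, R T *
        exsum T (fun x => exsum T fun y => open Classical in if x = y then 0 else Ψ x y)
        ∂(tree ν L') ≤
      (sumA Φ ε t L (typT Al g (tree ν L')) R Ψ + sumC Φ ε t L (typT Al g (tree ν L')) R Ψ) +
      (3 * L + 2 : ℕ) * (2 * 2 ^ L * 2 ^ L * 2 ^ L * (2 * c) * (errC b t K q₀ L *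
        (∫⁻ T in bad1 Al, pw (q₀ + L) (ln Φ ε T).2 ∂(tree ν L') + ∫⁻ z, pw (q₀ + L) z.2 ∂α))) := by
  have h1 := pairs_le' h hb hK (c₁ := 1) hRm (fun T hT => by rw [one_mul]; exact hR T hT) hΨm
    hΨ hα
  rwa [mul_one] at h1

end Vale.Agent.P119.M
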