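import Vale.Agent.P119.PB.Int6b

/-!
# P119, block PROB: second events, iteration (`helper178`)

* `cut0`: cut off of the negative births; `KOp_cut`, `Gc_congr_nonneg`;
* `overX_le`: creation of a too deep tree, in line form; `FA`;
* `F6`: the sources of the second events in line form.
-/

open MeasureTheory Filter Topology Set ProbabilityTheory
open scoped ENNReal NNReal

noncomputable section

namespace Vale.Agent.P119.PB

open M CTree KU FB RB AU FL TL

variable {Φ : E3 → ℝ} {ε : ℝ} {L : ℕ} {hΦ : IsPotential Φ} {hε : 0 < ε} {f₀ : Ph → ℝ}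
  {κ b Tm t η η' w u θ : ℝ} {σ e m : Src}

/-! ### Negative births -/

/-- Cut off of the negative births. -/
def cut0 (F : Src → ℝ≥0∞) (m : Src) : ℝ≥0∞ := by
  classical
  exact if 0 ≤ m.1 then F m else 0

theorem cut0_of {F : Src → ℝ≥0∞} (h : 0 ≤ m.1) : cut0 F m = F m := by
  classical
  unfold cut0
  rw [if_pos h]

theorem cut0_neg {F : Src → ℝ≥0∞} (h : ¬0 ≤ m.1) : cut0 F m = 0 := by
  classical
  unfold cut0
  rw [if_neg h]

theorem cut0_le (F : Src → ℝ≥0∞) (m : Src) : cut0 F m ≤ F m := by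
  by_cases h : 0 ≤ m.1
  · rw [cut0_of h]
  · rw [cut0_neg h]; exact zero_le

theorem measurable_cut0 {F : Src → ℝ≥0∞} (hF : Measurable F) : Measurable (cut0 F) := by
  classical
  unfold cut0
  exact Measurable.ite (measurableSet_le measurable_const measurable_fst) hF measurable_const

/-- The fresh lines have nonnegative births. -/
theorem KOp_cut (hΦ : IsPotential Φ) (hε : 0 < ε) {α : ℕ → ℝ≥0∞} (F : Src → ℝ≥0∞)
    (hm : 0 ≤ m.1) : KOp Φ ε b t α F m ≤ KOp Φ ε b t α (cut0 F) m := by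
  have hq : Measurable fun z' : Ph => ((m.2.1, z') : Ph × Ph) := by fun_prop
  have hS : MeasurableSet {z' : Ph | Meets ε (m.2.1, z') ∧ m.1 < hitT ε (m.2.1, z')} :=
    measurable_prodMk_left (x := m) measurableSet_hit
  unfold KOp
  refine mul_le_mul' le_rfl (ENNReal.tsum_le_tsum fun n => mul_le_mul' le_rfl ?_)
  refine lintegral_mono_ae ?_
  rw [ae_restrict_iff' hS]
  filter_upwards [ae_exits_left hΦ hε.ne' m.2.1] with z' hz' hM
  refine mul_le_mul' le_rfl ?_
  have h1 : m.1 < hitT ε (m.2.1, z') := hM.2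
  have h2 : hitT ε (m.2.1, z') < sepT Φ ε (m.2.1, z') := hitT_lt_sepT hΦ hε hz' hM.1.2
  unfold fresh
  have key : ∀ (τ : ℝ) (z : Ph) (k : ℕ), 0 ≤ τ → (Iic t).indicator (fun τ => F (τ, z, k)) τ ≤
      (Iic t).indicator (fun τ => cut0 F (τ, z, k)) τ := by
    intro τ z k hτ
    refine indicator_le_indicator_of fun _ => ?_
    rw [cut0_of (m := (τ, z, k)) hτ]
  exact add_le_add (add_le_add (key _ _ _ (hm.trans (h1.trans h2).le))
    (key _ _ _ (hm.trans (h1.trans h2).le))) (key _ _ _ (hm.trans h1.le))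

/-- The iterates only depend on the values after the birth. -/
theorem Gc_congr_nonneg (hΦ : IsPotential Φ) (hε : ε ≠ 0) (b t' : ℝ) (j : ℕ)
    {F F' : ℝ → Ph → ℝ≥0∞} (h : ∀ s, 0 ≤ s → ∀ l, F s l = F' s l) {s : ℝ} (hs : 0 ≤ s) (l : Ph) :
    Gc hΦ hε b t' j F s l = Gc hΦ hε b t' j F' s l := by
  induction j generalizing s l with
  | zero => exact h s hs l
  | succ j ih =>
    rw [Gc_succ, Gc_succ]
    refine Finset.sum_congr rfl fun o _ => ?_
    refine setLIntegral_congr_fun (measurableSet_hitO t' s l) fun z' hz' => ?_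
    have h1 : s < hitT ε (l, z') := hz'.2.1
    rw [ih (hs.trans h1.le)]

/-- The iterates of a sum. -/
theorem Gc_add (hΦ : IsPotential Φ) (hε : ε ≠ 0) (b t' : ℝ) (j : ℕ)
    {F F' : ℝ → Ph → ℝ≥0∞} (hF : Measurable fun q : ℝ × Ph => F q.1 q.2) (s : ℝ) (l : Ph) :
    Gc hΦ hε b t' j (fun s l => F s l + F' s l) s l =
      Gc hΦ hε b t' j F s l + Gc hΦ hε b t' j F' s l := by
  induction j generalizing s l with
  | zero => rfl
  | succ j ih =>
    rw [Gc_succ, Gc_succ, Gc_succ, ← Finset.sum_add_distrib]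
    refine Finset.sum_congr rfl fun o _ => ?_
    have hq : Measurable fun z' : Ph => ((l, z') : Ph × Ph) := by fun_prop
    have h1 : Measurable fun z' : Ph => muE ε * gw b z'.2 *
        Gc hΦ hε b t' j F (hitT ε (l, z')) ((stp hΦ hε o).f (l, z')) := by
      refine (((measurable_gw b).comp measurable_snd).const_mul _).mul ?_
      exact (measurable_Gc hΦ hε b t' j hF).comp
        ((measurable_hitT.comp hq).prodMk ((stp hΦ hε o).meas.comp hq))
    rw [← lintegral_add_left h1]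
    refine lintegral_congr fun z' => ?_
    rw [ih, mul_add]

/-- The iterates of a multiple. -/
theorem Gc_const_mul (hΦ : IsPotential Φ) (hε : ε ≠ 0) (b t' : ℝ) (j : ℕ) (c : ℝ≥0∞)
    {F : ℝ → Ph → ℝ≥0∞} (hF : Measurable fun q : ℝ × Ph => F q.1 q.2) (s : ℝ) (l : Ph) :
    Gc hΦ hε b t' j (fun s l => c * F s l) s l = c * Gc hΦ hε b t' j F s l := by
  induction j generalizing s l with
  | zero => rfl
  | succ j ih =>
    rw [Gc_succ, Gc_succ, Finset.mul_sum]
    refine Finset.sum_congr rfl fun o _ => ?_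
    have hq : Measurable fun z' : Ph => ((l, z') : Ph × Ph) := by fun_prop
    have h1 : Measurable fun z' : Ph => muE ε * gw b z'.2 *
        Gc hΦ hε b t' j F (hitT ε (l, z')) ((stp hΦ hε o).f (l, z')) := by
      refine (((measurable_gw b).comp measurable_snd).const_mul _).mul ?_
      exact (measurable_Gc hΦ hε b t' j hF).comp
        ((measurable_hitT.comp hq).prodMk ((stp hΦ hε o).meas.comp hq))
    rw [← lintegral_const_mul _ h1]
    refine lintegral_congr fun z' => ?_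
    rw [ih]
    ring

/-! ### Too deep trees -/

/-- The trees which are hit by the line `l` after the time `s`, with the weight `A ^ depth` (real
law). -/
def FA (f₀ : Ph → ℝ) (Φ : E3 → ℝ) (ε : ℝ) (L : ℕ) (t : ℝ) (A : ℝ≥0∞) (s : ℝ) (l : Ph) : ℝ≥0∞ :=
  XX Φ ε L f₀ t fun _ T => ind (hitI ε t (s, l, 0) (ln Φ ε T)) * A ^ T.depth

theorem FA_anti {A : ℝ≥0∞} {s s' : ℝ} (l : Ph) (h : s ≤ s') :
    FA f₀ Φ ε L t A s' l ≤ FA f₀ Φ ε L t A s l := by
  unfold FA
  refine XX_mono fun U T _ => mul_le_mul' (ind_mono ?_) le_rfl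
  rintro ⟨h1, h2, h3⟩
  exact ⟨h1, h.trans_lt h2, h3⟩

theorem measurable_FA (h₀ : GoodDatum f₀ κ) (hΦ : IsPotential Φ) (hε : 0 < ε) {A : ℝ≥0∞} :
    Measurable fun q : ℝ × Ph => FA f₀ Φ ε L t A q.1 q.2 := by
  have := GC.isFiniteMeasure_inten (ε := ε) h₀
  have := GC.isProbability_PP (ε := ε) h₀
  have hdep : Measurable fun p : ((ℝ × Ph) × GC.Conf Ph) × CTree => A ^ p.2.depth :=
    (measurable_from_top (f := fun n : ℕ => A ^ n)).comp (M.measurable_depth.comp measurable_snd)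
  have h1 : Measurable fun p : ((ℝ × Ph) × GC.Conf Ph) × CTree =>
      ind (alT Φ ε L t (wS (GC.pts p.1.2)) p.2) *
        (ind (hitI ε t ((p.1.1.1, p.1.1.2, 0) : Src) (ln Φ ε p.2)) * A ^ p.2.depth) := by
    refine (measurable_ind (measurableSet_alT hΦ hε
      (RM.rs_wS (measurable_snd.comp measurable_fst)) measurable_snd measurable_const)).mul
      ((measurable_ind (measurableSet_hitI ?_ ((M.measurable_ln hΦ hε.ne').comp
        measurable_snd))).mul hdep)
    exact (measurable_fst.comp (measurable_fst.comp measurable_fst)).prodMk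
      ((measurable_snd.comp (measurable_fst.comp measurable_fst)).prodMk measurable_const)
  have h2 := h1.lintegral_prod_right' (ν := tree (GC.inten f₀ ε) L)
  exact h2.lintegral_prod_right' (ν := GC.PP f₀ ε)

theorem overX_le {A : ℝ≥0∞} (hA : 1 ≤ A) (hA' : A ≠ ∞) (σ : Src) :
    overX f₀ Φ ε L t σ ≤ A ^ σ.2.2 * ((A ^ L)⁻¹ * FA f₀ Φ ε L t A σ.1 σ.2.1) := by
  have hAL : A ^ L ≠ ∞ := ENNReal.pow_ne_top hA'
  have hAL0 : A ^ L ≠ 0 := pow_ne_zero _ (zero_lt_one.trans_le hA).ne'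
  have hc : A ^ σ.2.2 * (A ^ L)⁻¹ ≠ ∞ :=
    ENNReal.mul_ne_top (ENNReal.pow_ne_top hA') (ENNReal.inv_ne_top.2 hAL0)
  have key : ∀ T : CTree, ovr L σ T ≤ A ^ σ.2.2 * (A ^ L)⁻¹ * A ^ T.depth := by
    intro T
    unfold ovr
    split_ifs with h
    · have h1 : A ^ L ≤ A ^ σ.2.2 * A ^ T.depth := by
        rw [← pow_add]
        refine pow_le_pow_right₀ hA ?_
        have := Nat.lt_succ_iff.1 h
        omega
      calc (1 : ℝ≥0∞) = A ^ L * (A ^ L)⁻¹ := (ENNReal.mul_inv_cancel hAL0 hAL).symm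
        _ ≤ A ^ σ.2.2 * A ^ T.depth * (A ^ L)⁻¹ := mul_le_mul' h1 le_rfl
        _ = _ := by ring
    · exact zero_le
  calc overX f₀ Φ ε L t σ
      ≤ XX Φ ε L f₀ t fun _ T => A ^ σ.2.2 * (A ^ L)⁻¹ *
        (ind (hitI ε t (σ.1, σ.2.1, 0) (ln Φ ε T)) * A ^ T.depth) := by
        unfold overX XI
        refine XX_mono fun U T _ => ?_
        calc ind (hitI ε t σ (ln Φ ε T)) * ovr L σ T
            ≤ ind (hitI ε t σ (ln Φ ε T)) * (A ^ σ.2.2 * (A ^ L)⁻¹ * A ^ T.depth) :=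
              mul_le_mul' le_rfl (key T)
          _ = A ^ σ.2.2 * (A ^ L)⁻¹ *
              (ind (hitI ε t (σ.1, σ.2.1, 0) (ln Φ ε T)) * A ^ T.depth) := by
              rw [show ind (hitI ε t (σ.1, σ.2.1, 0) (ln Φ ε T)) =
                ind (hitI ε t σ (ln Φ ε T)) from rfl]
              ring
    _ = A ^ σ.2.2 * (A ^ L)⁻¹ * FA f₀ Φ ε L t A σ.1 σ.2.1 := by
        unfold FA XX
        rw [← lintegral_const_mul' _ _ hc]
        refine lintegral_congr fun c => ?_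
        rw [← lintegral_const_mul' _ _ hc]
        refine lintegral_congr fun T => ?_
        ring
    _ = _ := by ring

/-! ### The sources in line form -/

variable (L hΦ hε) in
/-- **The sources of the second events**, at the line `l` born at the time `s`. -/
def F6 (f₀ : Ph → ℝ) (b : ℝ) (α : ℕ → ℝ≥0∞) (η t w u : ℝ) (e : Src) (s : ℝ) (l : Ph) : ℝ≥0∞ :=
  sS6 L hΦ hε f₀ η t w u e (s, l, 0) + pG6 L hΦ hε f₀ b α η t w e (s, l, 0) +
    yG6 L hΦ hε f₀ b α η t u e (s, l, 0)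

theorem F6_eq {α : ℕ → ℝ≥0∞} : F6 L hΦ hε f₀ b α η t w u e m.1 m.2.1 =
    sS6 L hΦ hε f₀ η t w u e m + pG6 L hΦ hε f₀ b α η t w e m +
      yG6 L hΦ hε f₀ b α η t u e m := rfl

theorem measurable_F6 (h₀ : GoodDatum f₀ κ) {α : ℕ → ℝ≥0∞} :
    Measurable fun q : ℝ × Ph => F6 L hΦ hε f₀ b α η t w u e q.1 q.2 := by
  have hq : Measurable fun q : ℝ × Ph => ((q.1, q.2, 0) : Src) :=
    measurable_fst.prodMk (measurable_snd.prodMk measurable_const)
  exact (((measurable_sS6 h₀).comp hq).add ((measurable_pG6 h₀).comp hq)).add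
    (measurable_yG6.comp hq)

theorem F6_mono {α : ℕ → ℝ≥0∞} (h0 : 0 < η) (h : η ≤ η') (ht : 0 ≤ t) (s : ℝ) (l : Ph) :
    F6 L hΦ hε f₀ b α η t w u e s l ≤ F6 L hΦ hε f₀ b α η' t w u e s l :=
  add_le_add (add_le_add (sS6_mono h0 h ht) (pG6_mono h0 h ht)) (yG6_mono h0 h ht)

/-- Later births. -/
theorem DirG_anti {V : Finset Src} (hη : 0 < η) (ht : 0 ≤ t) (hw : t ≤ w) {s s' : ℝ} (hs : 0 ≤ s)
    (h : s ≤ s') {l : Ph} {n : ℕ} (hD : DirG L hΦ hε η t w V e (s', l, n)) :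
    DirG L hΦ hε η t w V e (s, l, n) := by
  classical
  obtain ⟨h1, r, h2, h3, h4⟩ := hD
  refine ⟨h1, r, h.trans h2, le_min (h3.trans (min_le_left _ _)) ?_, h4⟩
  have h5 := (h3.trans (min_le_left _ _)).trans (hz_le hη ht)
  exact (h5.trans hw).trans (le_add_of_nonneg_left hs)

theorem PairG_anti {V : Finset Src} (hη : 0 < η) (ht : 0 ≤ t) (hw : t ≤ w) {s s' : ℝ} (hs : 0 ≤ s)
    (h : s ≤ s') {l z' : Ph} {n : ℕ} (hD : PairG L hΦ hε η t w V e (s', l, n) z') :
    PairG L hΦ hε η t w V e (s, l, n) z' := by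
  classical
  obtain ⟨h1, h6, h7, r, h2, h3, h4⟩ := hD
  refine ⟨h1, h6, lt_of_le_of_lt h h7, r, h2, le_min (h3.trans (min_le_left _ _)) ?_, h4⟩
  have h5 := (h3.trans (min_le_left _ _)).trans (hz_le hη ht)
  exact (h5.trans hw).trans (le_add_of_nonneg_left hs)

theorem FelL_anti {V : Finset Src} {s s' : ℝ} (h : s ≤ s') {l : Ph} {n : ℕ}
    (hD : FelL L hΦ hε η t u V e (s', l, n)) : FelL L hΦ hε η t u V e (s, l, n) := by
  obtain ⟨h1, T, hT, h2, h3, h4⟩ := hD
  exact ⟨h1, T, hT, h2, lt_of_le_of_lt h h3, h4⟩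

theorem FelS_anti {V : Finset Src} {s s' : ℝ} (h : s ≤ s') {l : Ph} {n : ℕ}
    (hD : FelS L hΦ hε η t u V e (s', l, n)) : FelS L hΦ hε η t u V e (s, l, n) := by
  obtain ⟨h1, T, hT, h2, h3, h4⟩ := hD
  exact ⟨h1, T, hT, h2, lt_of_le_of_lt h h3, h4⟩

theorem TEu_anti {V : Finset Src} {s s' : ℝ} (h : s ≤ s') {l : Ph} {n : ℕ}
    (hD : TEu L hΦ hε η t u V e (s', l, n)) : TEu L hΦ hε η t u V e (s, l, n) :=
  ⟨lt_of_le_of_lt h hD.1, hD.2⟩

theorem F6_anti {α : ℕ → ℝ≥0∞} (hη : 0 < η) (ht : 0 ≤ t) (hw : t ≤ w) {s s' : ℝ} (hs : 0 ≤ s)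
    (h : s ≤ s') (l : Ph) :
    F6 L hΦ hε f₀ b α η t w u e s' l ≤ F6 L hΦ hε f₀ b α η t w u e s l := by
  unfold F6
  refine add_le_add (add_le_add ?_ ?_) ?_
  · refine lintegral_mono fun c => ?_
    unfold S6
    exact add_le_add (add_le_add (add_le_add (ind_mono (DirG_anti hη ht hw hs h))
      (ind_mono (FelL_anti h))) (ind_mono (TEu_anti h))) (ind_mono (FelS_anti h))
  · unfold pG6
    refine mul_le_mul' le_rfl (ENNReal.tsum_le_tsum fun n => mul_le_mul' le_rfl ?_)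
    exact lintegral_mono fun z' => mul_le_mul' le_rfl
      (lintegral_mono fun c => ind_mono (PairG_anti hη ht hw hs h))
  · unfold yG6
    refine mul_le_mul' (mul_le_mul' le_rfl (lintegral_mono_set ?_)) le_rfl
    rintro z' ⟨⟨h1, h2, h3⟩, h4⟩
    exact ⟨⟨h1, lt_of_le_of_lt h h2, h3⟩, h4⟩

end Vale.Agent.P119.PB
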