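import Vale.Agent.P119.PB.SE13

/-!
# P119: second events, the pair operator and the law A (`helper778`)
-/

open MeasureTheory Set Filter Topology Metric ProbabilityTheory
open scoped ENNReal

namespace Vale.Agent.P119.PB

open KU FL

variable {Φ : E3 → ℝ} {ε bE b t t₂ h t₁ δ c₁ : ℝ} {N : ℕ} {S : ℕ → Step}

/-- The pair operator: one more hit, and a function of the two lines. -/
noncomputable def opP (ε b t₂ : ℝ) (K : Ph × Ph → ℝ≥0∞) (s : ℝ) (l : Ph) : ℝ≥0∞ :=
  ∫⁻ z' in hitO ε t₂ s l, muE ε * gw b z'.2 * K (l, z')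

theorem measurable_opP_param {P : Type*} [MeasurableSpace P] {K : P → Ph × Ph → ℝ≥0∞}
    (hK : Measurable fun q : P × (Ph × Ph) => K q.1 q.2) :
    Measurable fun q : P × ℝ × Ph => opP ε b t₂ (K q.1) q.2.1 q.2.2 := by
  have e : (fun q : P × ℝ × Ph => opP ε b t₂ (K q.1) q.2.1 q.2.2) = fun q : P × ℝ × Ph =>
      ∫⁻ z' : Ph, ({r : (P × ℝ × Ph) × Ph | r.2 ∈ hitO ε t₂ r.1.2.1 r.1.2.2}).indicator
        (fun r => muE ε * gw b r.2.2 * K r.1.1 (r.1.2.2, r.2)) (q, z') := by
    funext q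
    unfold opP
    rw [← lintegral_indicator (measurableSet_hitO t₂ q.2.1 q.2.2)]
    rfl
  rw [e]
  refine Measurable.lintegral_prod_right' (Measurable.indicator ?_ ?_)
  · exact (((measurable_gw b).comp measurable_snd.snd).const_mul _).mul
      (hK.comp (measurable_fst.fst.prodMk (measurable_fst.snd.snd.prodMk measurable_snd)))
  · exact (measurable_fst.snd.prodMk measurable_snd : Measurable fun r : (P × ℝ × Ph) × Ph =>
      (r.1.2, r.2)) (measurableSet_hitO3 t₂)

/-- The integrand of `inner'`. -/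
noncomputable def innI (ε b t₂ : ℝ) (n : ℕ) (S : ℕ → Step) (K : Ph × Ph → ℝ≥0∞) (s : ℝ) (l : Ph)
    (p : Fin (n + 1) → Ph) : ℝ≥0∞ :=
  {p | Chain ε t₂ S (n + 1) s l p}.indicator
    (fun p => FL.wt b ε (n + 1) p * K (lastPair S n l p)) p

theorem measurable_innI (n : ℕ) (S : ℕ → Step) {K : Ph × Ph → ℝ≥0∞} (hK : Measurable K) (s : ℝ)
    (l : Ph) : Measurable (innI ε b t₂ n S K s l) := by
  have h := (measurable_inner_aux (ε := ε) (b := b) (t := t₂) S n hK).comp
    (measurable_const.prodMk measurable_id : Measurable fun p : Fin (n + 1) → Ph =>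
      (((s, l) : ℝ × Ph), p))
  exact h

theorem innI_of {n : ℕ} {S : ℕ → Step} {K : Ph × Ph → ℝ≥0∞} {s : ℝ} {l : Ph}
    {p : Fin (n + 1) → Ph} (h : Chain ε t₂ S (n + 1) s l p) :
    innI ε b t₂ n S K s l p = FL.wt b ε (n + 1) p * K (lastPair S n l p) :=
  indicator_of_mem (show p ∈ {p | Chain ε t₂ S (n + 1) s l p} from h) _

theorem innI_of_not {n : ℕ} {S : ℕ → Step} {K : Ph × Ph → ℝ≥0∞} {s : ℝ} {l : Ph}
    {p : Fin (n + 1) → Ph} (h : ¬Chain ε t₂ S (n + 1) s l p) :
    innI ε b t₂ n S K s l p = 0 :=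
  indicator_of_notMem (show p ∉ {p | Chain ε t₂ S (n + 1) s l p} from h) _

theorem inner_def (n : ℕ) (S : ℕ → Step) (K : Ph × Ph → ℝ≥0∞) (s : ℝ) (l : Ph) :
    inner' ε b t₂ S n K s l = ∫⁻ p, innI ε b t₂ n S K s l p := rfl

/-- The pair operator after a chain. -/
theorem opn_opP (n : ℕ) : ∀ (S : ℕ → Step) {K : Ph × Ph → ℝ≥0∞}, Measurable K →
    ∀ (s : ℝ) (l : Ph), opn ε b t₂ n S (opP ε b t₂ K) s l = inner' ε b t₂ S n K s l := by
  induction n with
  | zero =>
    intro S K hK s l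
    rw [inner_def, lintegral_cons (measurable_innI 0 S hK s l)]
    change opP ε b t₂ K s l = _
    unfold opP
    rw [← lintegral_indicator (measurableSet_hitO t₂ s l)]
    refine lintegral_congr fun z' => ?_
    by_cases hz : z' ∈ hitO ε t₂ s l
    · rw [indicator_of_mem hz]
      have : ∀ q : Fin 0 → Ph, innI ε b t₂ 0 S K s l (Fin.cons z' q) =
          muE ε * gw b z'.2 * K (l, z') := by
        intro q
        rw [innI_of (show Chain ε t₂ S 1 s l (Fin.cons z' q) from ⟨hz.1, hz.2.1, hz.2.2, trivial⟩),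
          wt_cons, FL.wt_zero, mul_one]
        rfl
      simp only [this, lintegral_fin0]
    · rw [indicator_of_notMem hz]
      have : ∀ q : Fin 0 → Ph, innI ε b t₂ 0 S K s l (Fin.cons z' q) = 0 := fun q =>
        innI_of_not (show ¬Chain ε t₂ S 1 s l (Fin.cons z' q) from
          fun h => hz ⟨h.1, h.2.1, h.2.2.1⟩)
      simp only [this, lintegral_zero]
  | succ n ih =>
    intro S K hK s l
    rw [inner_def, lintegral_cons (measurable_innI (n + 1) S hK s l), opn_succ,
      ← lintegral_indicator (measurableSet_hitO t₂ s l)]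
    refine lintegral_congr fun z' => ?_
    by_cases hz : z' ∈ hitO ε t₂ s l
    · rw [indicator_of_mem hz, ih (fun k => S (k + 1)) hK, inner_def,
        ← lintegral_const_mul _ (measurable_innI n (fun k => S (k + 1)) hK _ _)]
      refine lintegral_congr fun q => ?_
      by_cases hq : Chain ε t₂ (fun k => S (k + 1)) (n + 1) (hitT ε (l, z')) ((S 0).f (l, z')) q
      · rw [innI_of hq, innI_of (show Chain ε t₂ S (n + 1 + 1) s l (Fin.cons z' q) from
          ⟨hz.1, hz.2.1, hz.2.2, hq⟩), wt_cons]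
        have e2 : lastPair S (n + 1) l (Fin.cons z' q) =
            lastPair (fun k => S (k + 1)) n ((S 0).f (l, z')) q := rfl
        rw [e2]
        unfold gw
        ring
      · rw [innI_of_not hq, innI_of_not (show ¬Chain ε t₂ S (n + 1 + 1) s l (Fin.cons z' q) from
          fun h => hq h.2.2.2), mul_zero]
    · rw [indicator_of_notMem hz]
      have : ∀ q : Fin (n + 1) → Ph, innI ε b t₂ (n + 1) S K s l (Fin.cons z' q) = 0 := fun q =>
        innI_of_not (show ¬Chain ε t₂ S (n + 1 + 1) s l (Fin.cons z' q) from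
          fun h => hz ⟨h.1, h.2.1, h.2.2.1⟩)
      simp only [this, lintegral_zero]

/-- The last pair of the law A. -/
noncomputable def lpA {N : ℕ} (S : ℕ → Step) (x : XA (N + 1)) : Ph × Ph :=
  lastPair S N x.2.1 x.2.2

theorem measurable_lpA {N : ℕ} (S : ℕ → Step) : Measurable (lpA S : XA (N + 1) → Ph × Ph) :=
  (measurable_lastPair N S).comp (measurable_snd.fst.prodMk measurable_snd.snd)

/-- The law A, for functions of the end. -/
theorem lintegral_lawA_end (n : ℕ) (R : ℕ → Step) {G : ℝ × Ph → ℝ → Ph → ℝ≥0∞}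
    (hG : Measurable fun q : (ℝ × Ph) × ℝ × Ph => G q.1 q.2.1 q.2.2) :
    ∫⁻ x, G (srcA ε x) (endA ε R x).1 (endA ε R x).2 ∂(lawA ε bE b t t₂ n R) =
      ∫⁻ e : Ph, ∫⁻ β : Ph, {β : Ph | Meets ε (e, β) ∧ exT ε (e, β) ∈ Icc 0 t}.indicator
        (fun β => gw bE e.2 * (muE ε * gw b β.2) *
          opn ε b t₂ n R (G (exT ε (e, β), e)) (exT ε (e, β)) β) β := by
  have hGm : Measurable fun x : XA n => G (srcA ε x) (endA ε R x).1 (endA ε R x).2 :=
    hG.comp (measurable_srcA.prodMk (measurable_endA R))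
  rw [lintegral_lawA R hGm]
  refine lintegral_congr fun e => lintegral_congr fun β => ?_
  by_cases hβ : β ∈ {β : Ph | Meets ε (e, β) ∧ exT ε (e, β) ∈ Icc 0 t}
  · have hGq : Measurable fun q : ℝ × Ph => G (exT ε (e, β), e) q.1 q.2 :=
      hG.comp (measurable_const.prodMk measurable_id : Measurable fun q : ℝ × Ph =>
        ((exT ε (e, β), e), q))
    rw [indicator_of_mem hβ, opn_eq n R hGq,
      ← lintegral_const_mul _ (measurable_opI_p n R hGq _ _)]
    refine lintegral_congr fun p => ?_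
    by_cases hc : Chain ε t₂ R n (exT ε (e, β)) β p
    · rw [wA_of (show (e, β, p) ∈ evA ε t t₂ R from ⟨hβ.1, hβ.2, hc⟩), opI_of hc]
      simp only [srcA, endA]
      ring
    · rw [wA_of_not (show (e, β, p) ∉ evA ε t t₂ R from fun h => hc h.2.2), opI_of_not hc,
        zero_mul, mul_zero]
  · rw [indicator_of_notMem hβ]
    refine (lintegral_congr fun p => ?_).trans lintegral_zero
    rw [wA_of_not (show (e, β, p) ∉ evA ε t t₂ R from fun h => hβ ⟨h.1, h.2.1⟩), zero_mul]

/-- The law A, for functions of the last pair. -/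
theorem lintegral_lawA_lp (n : ℕ) (R : ℕ → Step) {K : ℝ × Ph → Ph × Ph → ℝ≥0∞}
    (hK : Measurable fun q : (ℝ × Ph) × (Ph × Ph) => K q.1 q.2) :
    ∫⁻ x, K (srcA ε x) (lpA R x) ∂(lawA ε bE b t t₂ (n + 1) R) =
      ∫⁻ e : Ph, ∫⁻ β : Ph, {β : Ph | Meets ε (e, β) ∧ exT ε (e, β) ∈ Icc 0 t}.indicator
        (fun β => gw bE e.2 * (muE ε * gw b β.2) *
          inner' ε b t₂ R n (K (exT ε (e, β), e)) (exT ε (e, β)) β) β := by
  have hR : Measurable fun x : XA (n + 1) => K (srcA ε x) (lpA R x) :=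
    hK.comp (measurable_srcA.prodMk (measurable_lpA R))
  rw [lintegral_lawA R hR]
  refine lintegral_congr fun e => lintegral_congr fun β => ?_
  by_cases hβ : β ∈ {β : Ph | Meets ε (e, β) ∧ exT ε (e, β) ∈ Icc 0 t}
  · have hKq : Measurable (K (exT ε (e, β), e)) :=
      hK.comp (measurable_const.prodMk measurable_id : Measurable fun q : Ph × Ph =>
        ((exT ε (e, β), e), q))
    rw [indicator_of_mem hβ, inner_def,
      ← lintegral_const_mul _ (measurable_innI n R hKq _ _)]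
    refine lintegral_congr fun p => ?_
    by_cases hc : Chain ε t₂ R (n + 1) (exT ε (e, β)) β p
    · rw [wA_of (show (e, β, p) ∈ evA ε t t₂ R from ⟨hβ.1, hβ.2, hc⟩), innI_of hc]
      simp only [srcA, lpA]
      ring
    · rw [wA_of_not (show (e, β, p) ∉ evA ε t t₂ R from fun h => hc h.2.2), innI_of_not hc,
        zero_mul, mul_zero]
  · rw [indicator_of_notMem hβ]
    refine (lintegral_congr fun p => ?_).trans lintegral_zero
    rw [wA_of_not (show (e, β, p) ∉ evA ε t t₂ R from fun h => hβ ⟨h.1, h.2.1⟩), zero_mul]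

/-- **The pair operator after the law A.** -/
theorem lawA_opP {N : ℕ} (S : ℕ → Step) {K : ℝ × Ph → Ph × Ph → ℝ≥0∞}
    (hK : Measurable fun q : (ℝ × Ph) × (Ph × Ph) => K q.1 q.2) :
    ∫⁻ x, opP ε b t₂ (K (srcA ε x)) (endA ε S x).1 (endA ε S x).2
        ∂(lawA ε bE b t t₂ N S) =
      ∫⁻ x, K (srcA ε x) (lpA S x) ∂(lawA ε bE b t t₂ (N + 1) S) := by
  rw [lintegral_lawA_lp N S hK, lintegral_lawA_end N S (G := fun a s l => opP ε b t₂ (K a) s l)
    (measurable_opP_param hK)]
  refine lintegral_congr fun e => lintegral_congr fun β => ?_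
  have hKq : Measurable (K (exT ε (e, β), e)) :=
    hK.comp (measurable_const.prodMk measurable_id : Measurable fun q : Ph × Ph =>
      ((exT ε (e, β), e), q))
  by_cases hβ : β ∈ {β : Ph | Meets ε (e, β) ∧ exT ε (e, β) ∈ Icc 0 t}
  · rw [indicator_of_mem hβ, indicator_of_mem hβ]
    exact congrArg _ (opn_opP N S hKq _ _)
  · rw [indicator_of_notMem hβ, indicator_of_notMem hβ]

end Vale.Agent.P119.PB
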