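import Vale.Agent.P119.PB.CrudeTheta
import Vale.Agent.P119.PB.Def6

/-!
# P119, block PROB: the number of particles times the flux of the touching lines (`helper185`)

* `lintegral_card_EW_le`: `E (#V + 2) EW V ≤ μ (μ + 2) m₂`;
* `TE.hits`, `TE_flux`: the flux of the sources which touch a fixed world, for any horizon;
* **`card_TE_le`**: `E (#V + 1) ε³ sup_{s, n} ∫ gw 1{TE V (s, z, n)} dz ≤ C ε`.
-/

open MeasureTheory Set Filter Topology Metric ProbabilityTheory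
open scoped ENNReal

namespace Vale.Agent.P119.PB

open M CTree KU FB RB AU FL EN

variable {Φ : E3 → ℝ} {ε : ℝ} {L : ℕ}

/-! ### Moments -/

/-- The random number of particles. -/
theorem measurable_card_pts : Measurable fun c : GC.Conf Ph => ((GC.pts c).card : ℝ≥0∞) := by
  have h := (RM.rs_conf).measurable_encard
  have e : (fun c : GC.Conf Ph => ((GC.pts c).card : ℝ≥0∞)) =
      fun c => (((wS (GC.pts c) : Set Src).encard : ℕ∞) : ℝ≥0∞) := by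
    funext c
    rw [Set.encard_coe_eq_coe_finsetCard]
    unfold wS
    rw [Finset.card_map]
    rfl
  rw [e]
  exact h

theorem lintegral_card_le {f₀ : Ph → ℝ} {κ : ℝ} (hg : GoodDatum f₀ κ) (hε : 0 ≤ ε) :
    ∫⁻ c, ((GC.pts c).card : ℝ≥0∞) ∂(GC.PP f₀ ε) ≤ muE ε := by
  have h1 := GC.lintegral_card_tup_le (ε := ε) hg hε 1
  simp only [GC.card_tup, Nat.descFactorial_one, pow_one] at h1
  exact h1

/-- The first moment of the energy times the number of particles. -/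
theorem lintegral_card_EW_le {f₀ : Ph → ℝ} {κ : ℝ} (hg : GoodDatum f₀ κ) (hε : 0 ≤ ε) :
    ∫⁻ c, (((wS (GC.pts c)).card : ℝ≥0∞) + 1) * ENNReal.ofReal (EW (wS (GC.pts c)))
      ∂(GC.PP f₀ ε) ≤ muE ε * m2 f₀ * (muE ε + 2) := by
  classical
  have := GC.isFiniteMeasure_inten (ε := ε) hg
  have := GC.isProbability_PP (ε := ε) hg
  have hm : Measurable fun z : Ph => ENNReal.ofReal (1 + ‖z.2‖ ^ 2) := by fun_prop
  have hF : Measurable fun p : (Fin 1 → Ph) × GC.Conf Ph =>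
      ENNReal.ofReal (1 + ‖(p.1 0).2‖ ^ 2) * (((GC.pts p.2).card : ℝ≥0∞) + 2) :=
    (hm.comp ((measurable_pi_apply (0 : Fin 1)).comp measurable_fst)).mul
      ((measurable_card_pts.comp measurable_snd).add_const 2)
  have h1 := GC.gnz_PP_le (ε := ε) hg hε 1
    (F := fun z w => ENNReal.ofReal (1 + ‖(z 0).2‖ ^ 2) * ((w.card : ℝ≥0∞) + 2)) hF
  have h2 : ∀ c : GC.Conf Ph, (((wS (GC.pts c)).card : ℝ≥0∞) + 1) *
      ENNReal.ofReal (EW (wS (GC.pts c))) =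
      ∑ z ∈ GC.tup 1 (GC.pts c), ENNReal.ofReal (1 + ‖(z 0).2‖ ^ 2) *
        (((GC.pts c \ Finset.univ.image z).card : ℝ≥0∞) + 2) := by
    intro c
    have h3 : ∀ z ∈ GC.tup 1 (GC.pts c), ((GC.pts c \ Finset.univ.image z).card : ℝ≥0∞) + 2 =
        ((GC.pts c).card : ℝ≥0∞) + 1 := by
      intro z hz
      have h4 : Finset.univ.image z = {z 0} := by
        ext a
        simp
      have h5 : z 0 ∈ GC.pts c := (GC.mem_tup.1 hz).1 0
      have h6 : (GC.pts c \ Finset.univ.image z).card + 1 = (GC.pts c).card := by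
        rw [h4, Finset.sdiff_singleton_eq_erase, Finset.card_erase_add_one h5]
      rw [← h6]
      push_cast
      ring
    rw [Finset.sum_congr rfl fun z hz => by rw [h3 z hz], ← Finset.sum_mul,
      sum_tup_one (GC.pts c) fun z : Ph => ENNReal.ofReal (1 + ‖z.2‖ ^ 2), EW_wS, card_wS,
      ENNReal.ofReal_sum_of_nonneg (fun z _ => by positivity), mul_comm]
  simp only [h2]
  refine h1.trans ?_
  have h3 : ∀ z : Fin 1 → Ph, ∫⁻ c, ENNReal.ofReal (1 + ‖(z 0).2‖ ^ 2) *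
      (((GC.pts c).card : ℝ≥0∞) + 2) ∂(GC.PP f₀ ε) ≤
      ENNReal.ofReal (1 + ‖(z 0).2‖ ^ 2) * (muE ε + 2) := by
    intro z
    rw [lintegral_const_mul' _ _ ENNReal.ofReal_ne_top, lintegral_add_right _ measurable_const,
      lintegral_const, measure_univ, mul_one]
    exact mul_le_mul_right (add_le_add (lintegral_card_le hg hε) le_rfl) _
  refine (lintegral_mono h3).trans ?_
  have hmt : muE ε + 2 ≠ ∞ := ENNReal.add_ne_top.2 ⟨muE_ne_top, by norm_num⟩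
  rw [lintegral_mul_const' _ _ hmt, GC.lintegral_pi_one _ hm]
  refine mul_le_mul_left (le_of_eq ?_) _
  unfold GC.inten m2 muE
  rw [lintegral_smul_measure, smul_eq_mul]

/-! ### The flux of the touching lines -/

/-- A touching source hits a path (any horizon). -/
theorem TE.hits {hΦ : IsPotential Φ} {hε : 0 < ε} {W : Finset Src} (h0 : ∀ a ∈ W, a.1 = 0)
    {η t : ℝ} (hη : 0 < η) (ht : 0 ≤ t) {σ : Src} (hσ : 0 ≤ σ.1) (hd : σ.2.2 ≤ L)
    (h : TE L hΦ hε η t W σ) :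
    ∃ r, σ.1 ≤ r ∧ r ≤ t ∧ ∃ c ∈ W, Hits Φ ε L W c r (KU.free r σ.2.1) := by
  classical
  unfold TE at h
  have hσW : σ ∉ W := by
    intro hmem
    have h1 : insert σ W = W := Finset.insert_eq_of_mem hmem
    rw [h1] at h
    obtain ⟨a, ha, -⟩ := h
    rw [FB.Sys.D_self] at ha
    exact ha
  obtain ⟨r, h1, h2, h3⟩ := hits_of_touch (fun a ha => (h0 a ha).ge) hσW hσ hd h
  exact ⟨r, h2, h1.trans (hz_le hη ht), h3⟩

/-- The flux of the touching lines, for a fixed world. -/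
theorem TE_flux (hΦ : IsPotential Φ) {B : ℝ} (hB : RW.StableWith Φ B) (hε : 0 < ε)
    {W : Finset Src} (h0 : ∀ a ∈ W, a.1 = 0)
    (hexcl : ∀ a ∈ W, ∀ a' ∈ W, a ≠ a' → ε ≤ ‖a.2.1.1 - a'.2.1.1‖)
    {b T η t s : ℝ} (hb : 0 < b) (hη : 0 < η) (hs : s ∈ Icc 0 t) (htT : t ≤ T) {n : ℕ}
    (hn : n ≤ L) :
    ∫⁻ z : Ph, gw b z.2 * ind (TE L hΦ hε η t W (s, z, n)) ≤ crG B b T ε W := by
  refine le_trans ?_ ((all_flux (L := L) (h := t) hΦ hB hε h0 hexcl hb hs.1).trans ?_)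
  · refine lintegral_mono fun z => mul_le_mul_right ?_ _
    unfold ind
    split_ifs with h2 h3
    · exact le_rfl
    · exact absurd (TE.hits h0 hη (hs.1.trans hs.2) hs.1 hn h2) h3
    · exact zero_le
    · exact le_rfl
  · unfold crG
    have h1 : ENNReal.ofReal (t - s) ≤ ENNReal.ofReal T :=
      ENNReal.ofReal_le_ofReal (by linarith [hs.1])
    gcongr

/-- The constant of the flux of the touching lines. -/
noncomputable def kTE (B b T : ℝ) : ℝ≥0∞ :=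
  Cd b * (2 * (1 + ENNReal.ofReal T) * ENNReal.ofReal (2 + 2 * B))

theorem kTE_ne_top (B b T : ℝ) : kTE B b T ≠ ∞ := by
  unfold kTE
  exact ENNReal.mul_ne_top (Cd_ne_top _) (ENNReal.mul_ne_top (ENNReal.mul_ne_top (by norm_num)
    (ENNReal.add_ne_top.2 ⟨ENNReal.one_ne_top, ENNReal.ofReal_ne_top⟩)) ENNReal.ofReal_ne_top)

theorem crG_le (hε1 : ε ≤ 1) {B b T : ℝ} (hB : 0 ≤ B) (W : Finset Src) :
    crG B b T ε W ≤ ENNReal.ofReal (ε ^ 2) * kTE B b T * ENNReal.ofReal (EW W) := by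
  unfold crG kTE
  have h3 : ENNReal.ofReal ε ≤ 1 := by
    rw [← ENNReal.ofReal_one]
    exact ENNReal.ofReal_le_ofReal hε1
  rw [ENNReal.ofReal_mul (by positivity)]
  calc ENNReal.ofReal (ε ^ 2) * (Cd b * (2 * (ENNReal.ofReal ε + ENNReal.ofReal T) *
        (ENNReal.ofReal (2 + 2 * B) * ENNReal.ofReal (EW W))))
      ≤ ENNReal.ofReal (ε ^ 2) * (Cd b * (2 * (1 + ENNReal.ofReal T) *
        (ENNReal.ofReal (2 + 2 * B) * ENNReal.ofReal (EW W)))) := by gcongr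
    _ = _ := by ring

/-- `E (#V + 1) ε³ (flux) ≤ C ε`, for any quantity bounded by the flux `crG`. -/
theorem lintegral_card_crG_le {f₀ : Ph → ℝ} {κ : ℝ} (hg : GoodDatum f₀ κ) (hε : 0 < ε)
    (hε1 : ε ≤ 1) {B b T : ℝ} (hB : 0 ≤ B) {X : GC.Conf Ph → ℝ≥0∞} {A : ℝ≥0∞} (hA : A ≠ ∞)
    (hX : ∀ᵐ c ∂(GC.PP f₀ ε), X c ≤ A * crG B b T ε (wS (GC.pts c))) :
    ∫⁻ c, ((((wS (GC.pts c)).card : ℝ≥0∞) + 1) * ENNReal.ofReal ε ^ 3) * X c ∂(GC.PP f₀ ε) ≤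
      A * (3 * (kTE B b T * m2 f₀)) * ENNReal.ofReal ε := by
  obtain ⟨e, he⟩ : ∃ e, e = ENNReal.ofReal ε := ⟨_, rfl⟩
  have he2 : ENNReal.ofReal (ε ^ 2) = e ^ 2 := by rw [he, ENNReal.ofReal_pow hε.le]
  have he1 : e ≤ 1 := by
    rw [he, ← ENNReal.ofReal_one]
    exact ENNReal.ofReal_le_ofReal hε1
  have hmu : muE ε * e ^ 2 = 1 := by rw [← he2]; exact muE_mul hε
  have h1 : ∀ᵐ c ∂(GC.PP f₀ ε), ((((wS (GC.pts c)).card : ℝ≥0∞) + 1) * e ^ 3) * X c ≤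
      (A * (e ^ 5 * kTE B b T)) * ((((wS (GC.pts c)).card : ℝ≥0∞) + 1) *
        ENNReal.ofReal (EW (wS (GC.pts c)))) := by
    filter_upwards [hX] with c hc
    calc ((((wS (GC.pts c)).card : ℝ≥0∞) + 1) * e ^ 3) * X c
        ≤ ((((wS (GC.pts c)).card : ℝ≥0∞) + 1) * e ^ 3) * (A * (e ^ 2 * kTE B b T *
          ENNReal.ofReal (EW (wS (GC.pts c))))) := by
          rw [← he2]
          exact mul_le_mul_right (hc.trans (mul_le_mul_right (crG_le hε1 hB _) _)) _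
      _ = _ := by ring
  rw [← he]
  refine (lintegral_mono_ae h1).trans ?_
  have hKt : A * (e ^ 5 * kTE B b T) ≠ ∞ := by
    refine ENNReal.mul_ne_top hA (ENNReal.mul_ne_top (ENNReal.pow_ne_top ?_) (kTE_ne_top _ _ _))
    rw [he]
    exact ENNReal.ofReal_ne_top
  rw [lintegral_const_mul' _ _ hKt]
  calc A * (e ^ 5 * kTE B b T) * ∫⁻ c, (((wS (GC.pts c)).card : ℝ≥0∞) + 1) *
        ENNReal.ofReal (EW (wS (GC.pts c))) ∂(GC.PP f₀ ε)
      ≤ A * (e ^ 5 * kTE B b T) * (muE ε * m2 f₀ * (muE ε + 2)) := by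
        gcongr
        exact lintegral_card_EW_le hg hε.le
    _ = A * e * (muE ε * e ^ 2) * (muE ε * e ^ 2 + 2 * e ^ 2) * (kTE B b T * m2 f₀) := by ring
    _ = A * e * (1 + 2 * e ^ 2) * (kTE B b T * m2 f₀) := by rw [hmu, mul_one]
    _ ≤ A * e * (1 + 2 * 1) * (kTE B b T * m2 f₀) := by
        have h5 : e ^ 2 ≤ 1 := pow_le_one₀ zero_le he1
        gcongr
    _ = _ := by
        have h6 : (1 : ℝ≥0∞) + 2 * 1 = 3 := by norm_num
        rw [h6]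
        ring

/-- The touching flux of a configuration: the supremum over the births and the depths. -/
noncomputable def sTE (L : ℕ) (hΦ : IsPotential Φ) (hε : 0 < ε) (b η t : ℝ) (V : Finset Src) :
    ℝ≥0∞ :=
  ⨆ s ∈ Icc (0 : ℝ) t, ⨆ n ≤ L, ∫⁻ z : Ph, gw b z.2 * ind (TE L hΦ hε η t V (s, z, n))

theorem le_sTE {hΦ : IsPotential Φ} {hε : 0 < ε} {b η t s : ℝ} {n : ℕ} (V : Finset Src)
    (hs : s ∈ Icc (0 : ℝ) t) (hn : n ≤ L) :
    ∫⁻ z : Ph, gw b z.2 * ind (TE L hΦ hε η t V (s, z, n)) ≤ sTE L hΦ hε b η t V := by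
  unfold sTE
  refine le_trans ?_ (le_iSup₂ (f := fun (s : ℝ) (_ : s ∈ Icc (0 : ℝ) t) =>
    ⨆ n ≤ L, ∫⁻ z : Ph, gw b z.2 * ind (TE L hΦ hε η t V (s, z, n))) s hs)
  exact le_iSup₂ (f := fun (n : ℕ) (_ : n ≤ L) =>
    ∫⁻ z : Ph, gw b z.2 * ind (TE L hΦ hε η t V (s, z, n))) n hn

theorem sTE_le (hΦ : IsPotential Φ) {B : ℝ} (hB : RW.StableWith Φ B) (hε : 0 < ε)
    {c : GC.Conf Ph} (hc : c.2 ∈ excl ε c.1) {b T η t : ℝ} (hb : 0 < b) (hη : 0 < η)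
    (htT : t ≤ T) : sTE L hΦ hε b η t (wS (GC.pts c)) ≤ crG B b T ε (wS (GC.pts c)) := by
  unfold sTE
  refine iSup₂_le fun s hs => iSup₂_le fun n hn => ?_
  refine TE_flux hΦ hB hε ?_ ?_ hb hη hs htT hn
  · intro a ha
    obtain ⟨z, -, rfl⟩ := mem_wS.1 ha
    rfl
  · intro a ha a' ha' hne
    obtain ⟨z, hz, rfl⟩ := mem_wS.1 ha
    obtain ⟨z', hz', rfl⟩ := mem_wS.1 ha'
    obtain ⟨i, rfl⟩ := GC.mem_pts.1 hz
    obtain ⟨j, rfl⟩ := GC.mem_pts.1 hz'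
    have hij : i ≠ j := fun h => hne (by rw [h])
    exact le_of_lt (hc i j hij)

/-- **The number of particles times the flux of the touching lines**: `E (#V + 1) ε³ sTE ≤ C ε`. -/
theorem card_TE_le (hΦ : IsPotential Φ) {B : ℝ} (hB : RW.StableWith Φ B) (hε : 0 < ε)
    (hε1 : ε ≤ 1) {f₀ : Ph → ℝ} {κ : ℝ} (hg : GoodDatum f₀ κ) {b T η t : ℝ} (hb : 0 < b)
    (hη : 0 < η) (htT : t ≤ T) :
    ∫⁻ c, ((((wS (GC.pts c)).card : ℝ≥0∞) + 1) * ENNReal.ofReal ε ^ 3) *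
      sTE L hΦ hε b η t (wS (GC.pts c)) ∂(GC.PP f₀ ε) ≤
      1 * (3 * (kTE B b T * m2 f₀)) * ENNReal.ofReal ε := by
  refine lintegral_card_crG_le (b := b) (T := T) hg hε hε1 hB.1 ENNReal.one_ne_top ?_
  filter_upwards [GC.ae_excl f₀ ε] with c hc
  rw [one_mul]
  exact sTE_le hΦ hB hε hc hb hη htT

/-- The same, with the integral over the births and the sum over the depths. -/
theorem card_TE_le' (hΦ : IsPotential Φ) {B : ℝ} (hB : RW.StableWith Φ B) (hε : 0 < ε)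
    (hε1 : ε ≤ 1) {f₀ : Ph → ℝ} {κ : ℝ} (hg : GoodDatum f₀ κ) {b T η t : ℝ} (hb : 0 < b)
    (hη : 0 < η) (htT : t ≤ T) :
    ∫⁻ c, ((((wS (GC.pts c)).card : ℝ≥0∞) + 1) * ENNReal.ofReal ε ^ 3) *
      (∑ n ∈ Finset.range (L + 1), ∫⁻ s in Icc 0 t, ∫⁻ z : Ph, gw b z.2 *
        ind (TE L hΦ hε η t (wS (GC.pts c)) (s, z, n))) ∂(GC.PP f₀ ε) ≤
      (((L : ℝ≥0∞) + 1) * ENNReal.ofReal T) * (3 * (kTE B b T * m2 f₀)) * ENNReal.ofReal ε := by
  refine lintegral_card_crG_le (b := b) (T := T) hg hε hε1 hB.1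
    (ENNReal.mul_ne_top (ENNReal.add_ne_top.2 ⟨ENNReal.natCast_ne_top L, ENNReal.one_ne_top⟩)
      ENNReal.ofReal_ne_top) ?_
  filter_upwards [GC.ae_excl f₀ ε] with c hc
  have h1 := sTE_le (L := L) hΦ hB hε hc hb hη htT
  obtain ⟨G, hG⟩ : ∃ G, G = crG B b T ε (wS (GC.pts c)) := ⟨_, rfl⟩
  rw [← hG] at h1 ⊢
  have h2 : ∀ n ∈ Finset.range (L + 1), ∫⁻ s in Icc 0 t, ∫⁻ z : Ph, gw b z.2 *
      ind (TE L hΦ hε η t (wS (GC.pts c)) (s, z, n)) ≤ ENNReal.ofReal T * G := by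
    intro n hn
    have hn' : n ≤ L := Nat.lt_succ_iff.1 (Finset.mem_range.1 hn)
    calc ∫⁻ s in Icc 0 t, ∫⁻ z : Ph, gw b z.2 * ind (TE L hΦ hε η t (wS (GC.pts c)) (s, z, n))
        ≤ ∫⁻ _ in Icc 0 t, G := setLIntegral_mono' measurableSet_Icc fun s hs =>
          (le_sTE _ hs hn').trans h1
      _ = ENNReal.ofReal (t - 0) * G := by
          rw [setLIntegral_const, Real.volume_Icc, mul_comm]
      _ ≤ _ := by
          rw [sub_zero]
          exact mul_le_mul_left (ENNReal.ofReal_le_ofReal htT) _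
  calc ∑ n ∈ Finset.range (L + 1), ∫⁻ s in Icc 0 t, ∫⁻ z : Ph, gw b z.2 *
        ind (TE L hΦ hε η t (wS (GC.pts c)) (s, z, n))
      ≤ ∑ _n ∈ Finset.range (L + 1), ENNReal.ofReal T * G := Finset.sum_le_sum h2
    _ = _ := by
        rw [Finset.sum_const, Finset.card_range, nsmul_eq_mul]
        push_cast
        ring

theorem card_eventually {C : ℝ≥0∞} (hC : C ≠ ∞) {ρ : ℝ} (hρ : 0 < ρ) :
    ∀ᶠ ε in 𝓝[>] (0 : ℝ), C * ENNReal.ofReal ε ≤ ENNReal.ofReal ρ := by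
  have h0 : Tendsto (fun ε : ℝ => ENNReal.ofReal ε) (𝓝 0) (𝓝 (ENNReal.ofReal 0)) :=
    ENNReal.tendsto_ofReal tendsto_id
  rw [ENNReal.ofReal_zero] at h0
  have h1 : Tendsto (fun ε => C * ENNReal.ofReal ε) (𝓝[>] (0 : ℝ)) (𝓝 (C * 0)) :=
    ENNReal.Tendsto.const_mul (h0.mono_left nhdsWithin_le_nhds) (Or.inr hC)
  rw [mul_zero] at h1
  exact h1.eventually (ge_mem_nhds (ENNReal.ofReal_pos.2 hρ))

/-- **The number of particles times the flux of the touching lines vanishes**, uniformly in the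
stopping level and in the time. -/
theorem card_TE_small (hΦ : IsPotential Φ) {B : ℝ} (hB : RW.StableWith Φ B) {f₀ : Ph → ℝ} {κ : ℝ}
    (hg : GoodDatum f₀ κ) (hm : m2 f₀ < ∞) {b : ℝ} (hb : 0 < b) (T : ℝ) (L : ℕ) {ρ : ℝ}
    (hρ : 0 < ρ) {K : ℝ≥0∞} (hK : K ≠ ∞) :
    ∀ᶠ ε in 𝓝[>] (0 : ℝ), ∀ hε : 0 < ε, ∀ η : ℝ, 0 < η → ∀ t ∈ Icc 0 T,
      K * (∫⁻ c, ((((wS (GC.pts c)).card : ℝ≥0∞) + 1) * ENNReal.ofReal ε ^ 3) *
        sTE L hΦ hε b η t (wS (GC.pts c)) ∂(GC.PP f₀ ε)) ≤ ENNReal.ofReal ρ ∧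
      K * (∫⁻ c, ((((wS (GC.pts c)).card : ℝ≥0∞) + 1) * ENNReal.ofReal ε ^ 3) *
        (∑ n ∈ Finset.range (L + 1), ∫⁻ s in Icc 0 t, ∫⁻ z : Ph, gw b z.2 *
          ind (TE L hΦ hε η t (wS (GC.pts c)) (s, z, n))) ∂(GC.PP f₀ ε)) ≤ ENNReal.ofReal ρ := by
  have hk : 3 * (kTE B b T * m2 f₀) ≠ ∞ :=
    ENNReal.mul_ne_top (by norm_num) (ENNReal.mul_ne_top (kTE_ne_top _ _ _) hm.ne)
  have h1 : K * (1 * (3 * (kTE B b T * m2 f₀))) ≠ ∞ :=
    ENNReal.mul_ne_top hK (ENNReal.mul_ne_top ENNReal.one_ne_top hk)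
  have h2 : K * ((((L : ℝ≥0∞) + 1) * ENNReal.ofReal T) * (3 * (kTE B b T * m2 f₀))) ≠ ∞ :=
    ENNReal.mul_ne_top hK (ENNReal.mul_ne_top (ENNReal.mul_ne_top (ENNReal.add_ne_top.2
      ⟨ENNReal.natCast_ne_top L, ENNReal.one_ne_top⟩) ENNReal.ofReal_ne_top) hk)
  filter_upwards [card_eventually h1 hρ, card_eventually h2 hρ,
    Ioc_mem_nhdsGT (zero_lt_one' ℝ)] with ε e1 e2 e3 hε η hη t ht
  refine ⟨le_trans ?_ e1, le_trans ?_ e2⟩
  · rw [mul_assoc K]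
    exact mul_le_mul_right (card_TE_le hΦ hB hε e3.2 hg hb hη ht.2) _
  · rw [mul_assoc K]
    exact mul_le_mul_right (card_TE_le' hΦ hB hε e3.2 hg hb hη ht.2) _

end Vale.Agent.P119.PB
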