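import Vale.Agent.P119.PB.Pairs
import Vale.Agent.P119.PB.P3c
import Vale.Agent.P119.ML.CapSplit

/-!
# P119, block PROB: sums over exhausts of alive trees, in the gas (`helper298`)

* `TypLaw`: the law of the root sources of the typical pieces is at most `μ` times the reference law;
* `exists_typ_als`: the splitting of the law of the alive trees in a world which satisfies CAP0;
* `lineLaw_crude`: the crude law of the lines;
* `sums_PP`: **sums over one exhaust, and over pairs of exhausts, of the alive trees are at most the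
  sums with independent typical pieces**, up to an error which vanishes with `ε`.
-/

open MeasureTheory Filter Topology Set
open scoped ENNReal NNReal

noncomputable section

namespace Vale.Agent.P119.PB

open M CTree KU FB RB AU EX

variable {Φ : E3 → ℝ} {ε b b₀ T M₀ κ : ℝ} {L : ℕ} {f₀ : Ph → ℝ} {m : ℕ → ℝ}

/-- The law of the root sources of the typical pieces. -/
structure TypLaw (Φ : E3 → ℝ) (ε b T : ℝ) (m : ℕ → ℝ) (Θ : Measure CTree) : Prop where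
  fin : IsFiniteMeasure Θ
  le : ∀ F : Src → ℝ≥0∞, Measurable F →
    ∫⁻ S, F (rsrc Φ ε S) ∂Θ ≤ FL.muE ε * ∫⁻ σ, F σ ∂(refM b T (dmeas m))

theorem gw_ne_top' (β : ℝ) (v : E3) : gw β v ≠ ∞ := by unfold gw; exact ENNReal.ofReal_ne_top

instance (β : ℝ) : SigmaFinite (gm β) := by
  unfold gm
  exact SigmaFinite.withDensity_of_ne_top (Eventually.of_forall fun z => gw_ne_top' β z.2)

instance (β T : ℝ) (κ : Measure ℕ) [SigmaFinite κ] : SigmaFinite (refM β T κ) := by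
  unfold refM; infer_instance

/-- **The splitting of the law of the alive trees.** -/
theorem exists_typ_als (hΦ : IsPotential Φ) (hε : 0 < ε) (h₀ : GoodDatum f₀ κ)
    [IsFiniteMeasure (dmeas m)] (c : GC.Conf Ph) {aty : Measure Src} [IsFiniteMeasure aty]
    (h : ∀ F : Src → ℝ≥0∞, Measurable F →
      ∫⁻ S in Als Φ ε L T (wS (GC.pts c)), F (rsrc Φ ε S) ∂(tree (GC.inten f₀ ε) L) ≤
        FL.muE ε * (∫⁻ σ, F σ ∂(refM b T (dmeas m)) + ∫⁻ σ, F σ ∂aty)) :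
    ∃ g : CTree → ℝ≥0∞, SplitData Φ ε T L (Als Φ ε L T (wS (GC.pts c))) g ∧
      TypLaw Φ ε b T m (typT (Als Φ ε L T (wS (GC.pts c))) g (tree (GC.inten f₀ ε) L)) ∧
      ∀ F : Src → ℝ≥0∞, Measurable F →
        ∫⁻ S in Als Φ ε L T (wS (GC.pts c)), (1 - g S) * F (rsrc Φ ε S)
          ∂(tree (GC.inten f₀ ε) L) ≤ FL.muE ε * ∫⁻ σ, F σ ∂aty := by
  have hfin : IsFiniteMeasure (GC.inten f₀ ε) := GC.isFiniteMeasure_inten h₀
  have hAl := measurableSet_Als hΦ hε L T c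
  have hmu : FL.muE ε ≠ ∞ := FL.muE_ne_top
  set μn : ℝ≥0 := (FL.muE ε).toNNReal with hμn
  have hμe : (μn : ℝ≥0∞) = FL.muE ε := ENNReal.coe_toNNReal hmu
  have hs : ∀ (P : Measure Src) (F : Src → ℝ≥0∞), ∫⁻ x, F x ∂(μn • P) =
      FL.muE ε * ∫⁻ x, F x ∂P := fun P F => by
    rw [← hμe]
    exact lintegral_smul_measure (μn : ℝ≥0) F
  obtain ⟨g, hgm, hg1, hgτ, hgα⟩ := exists_typ (measurable_rsrc hΦ hε.ne') hAl
    (Θ := tree (GC.inten f₀ ε) L) (τ := μn • refM b T (dmeas m)) (α := μn • aty)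
    (fun F hF => by rw [hs, hs, ← mul_add]; exact h F hF)
  have hsd : SplitData Φ ε T L (Als Φ ε L T (wS (GC.pts c))) g :=
    { pot := hΦ
      eps := hε
      meas := hAl
      sub := fun S hS => ⟨hS.ok, hS.ext_le, hS.depth⟩
      gm := hgm
      g1 := hg1
      bm := measurableSet_Bad1 hAl }
  refine ⟨g, hsd, ⟨hsd.isFiniteMeasure _, fun F hF => ?_⟩, fun F hF => ?_⟩
  · rw [← hs]; exact hgτ F hF
  · rw [← hs]; exact hgα F hF

/-- **The crude law of the lines.** -/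
theorem lineLaw_crude (hΦ : IsPotential Φ) (h₀ : GoodDatum f₀ κ) (hb₀ : 0 < b₀)
    (hb : b ≤ b₀) (hT : 0 ≤ T) (hM : 0 ≤ M₀)
    (hf : ∀ z, f₀ z ≤ M₀ * Real.exp (-b₀ * ‖z.2‖ ^ 2)) (L : ℕ) :
    ∃ K : ℝ≥0∞, K ≠ ∞ ∧ ∀ ε : ℝ, 0 < ε → LineLaw Φ ε (b / 2) K
      ((tree (GC.inten f₀ ε) L).restrict (okT Φ ε T L)) := by
  obtain ⟨C, hC, h⟩ := ML.crude_tree hΦ h₀ hb₀ hT hM hf L
  refine ⟨C * (1 + L * ENNReal.ofReal T), ENNReal.mul_ne_top hC (ENNReal.add_ne_top.2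
    ⟨ENNReal.one_ne_top, ENNReal.mul_ne_top (ENNReal.natCast_ne_top _) ENNReal.ofReal_ne_top⟩),
    fun ε hε F hF => ?_⟩
  have h1 : ∫⁻ S in okT Φ ε T L, F (ln Φ ε S) ∂(tree (GC.inten f₀ ε) L) ≤
      ∫⁻ S in {S | ok Φ ε S ∧ ext Φ ε S ≤ T}, F (rsrc Φ ε S).2.1 ∂(tree (GC.inten f₀ ε) L) :=
    lintegral_mono_set fun S hS => ⟨hS.1, hS.2.1⟩
  have hF' : Measurable fun σ : Src => F σ.2.1 := hF.comp (measurable_fst.comp measurable_snd)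
  refine h1.trans ((h ε hε _ hF').trans ?_)
  have hg1 : ∀ v : E3, CT.g1 (b₀ / 2) v ≤ gw (b / 2) v := fun v => gw_anti (by linarith) v
  set I : ℝ≥0∞ := ∫⁻ l : Ph, gw (b / 2) l.2 * F l with hI
  have hI1 : (∫⁻ l : Ph, CT.g1 (b₀ / 2) l.2 * F l) ≤ I :=
    lintegral_mono fun l => mul_le_mul_left (hg1 _) _
  have hm : Measurable fun z : Ph => gw (b / 2) z.2 * F z :=
    ((measurable_gw (b / 2)).comp measurable_snd).mul hF
  have hI2 : ∫⁻ z : Ph, FL.muE ε * gw (b / 2) z.2 * F z = FL.muE ε * I := by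
    rw [← lintegral_const_mul _ hm]
    exact lintegral_congr fun z => mul_assoc _ _ _
  rw [hI2]
  have hS : (∑ _d ∈ Finset.Icc 1 L, ∫⁻ _s in Icc 0 T, ∫⁻ l : Ph, CT.g1 (b₀ / 2) l.2 * F l) ≤
      L * (ENNReal.ofReal T * I) := by
    have h2 : (∫⁻ _s in Icc 0 T, ∫⁻ l : Ph, CT.g1 (b₀ / 2) l.2 * F l) ≤
        ENNReal.ofReal T * I := by
      rw [setLIntegral_const, Real.volume_Icc, sub_zero, mul_comm]
      gcongr
    refine (Finset.sum_le_card_nsmul _ _ _ fun _ _ => h2).trans ?_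
    rw [Nat.card_Icc, Nat.add_sub_cancel, nsmul_eq_mul]
  calc ENNReal.ofReal (mu ε) * (C * ((∫⁻ l : Ph, CT.g1 (b₀ / 2) l.2 * F l) +
        ∑ _d ∈ Finset.Icc 1 L, ∫⁻ _s in Icc 0 T, ∫⁻ l : Ph, CT.g1 (b₀ / 2) l.2 * F l))
      ≤ FL.muE ε * (C * (I + L * (ENNReal.ofReal T * I))) := by
        change FL.muE ε * _ ≤ _
        gcongr
    _ = _ := by ring

/-- The constant of the errors. -/
def errK (b T : ℝ) (K : ℝ≥0∞) (q L : ℕ) : ℝ≥0∞ :=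
  (3 * L + 2 : ℕ) * (2 * 2 ^ L * 2 ^ L * 2 ^ L * (2 * 1) * M.errC (b / 2) T K q L)

theorem errK_ne_top (hb : 0 < b) {K : ℝ≥0∞} (hK : K ≠ ∞) (q L : ℕ) : errK b T K q L ≠ ∞ := by
  have h2 : (2 : ℝ≥0∞) ≠ ∞ := by norm_num
  have h3 : ∀ n : ℕ, (2 : ℝ≥0∞) ^ n ≠ ∞ := fun n => ENNReal.pow_ne_top h2
  exact ENNReal.mul_ne_top (ENNReal.natCast_ne_top _) (ENNReal.mul_ne_top
    (ENNReal.mul_ne_top (ENNReal.mul_ne_top (ENNReal.mul_ne_top (ENNReal.mul_ne_top h2 (h3 L))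
      (h3 L)) (h3 L)) (ENNReal.mul_ne_top h2 ENNReal.one_ne_top))
    (M.errC_ne_top (half_pos hb) hK q L))

/-- The error in a world: the trees with a dead subtree, and the atypical root sources. -/
def errW (Φ : E3 → ℝ) (f₀ : Ph → ℝ) (ε T : ℝ) (L q : ℕ) (aty : Measure Src)
    (c : GC.Conf Ph) : ℝ≥0∞ :=
  ∫⁻ S in Cap.I1 Φ ε L T (GC.pts c : Set Ph), Cap.pw q (ln Φ ε S).2 ∂(tree (GC.inten f₀ ε) L) +
    FL.muE ε * ∫⁻ σ, vp q σ ∂aty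

/-- Sums over the exhausts of the trees of `Al` are at most the sums with independent pieces of
law `Θ`, up to the error `E`. -/
structure SumsLe (Φ : E3 → ℝ) (f₀ : Ph → ℝ) (ε T : ℝ) (L q : ℕ) (Al : Set CTree)
    (Θ : Measure CTree) (E : ℝ≥0∞) : Prop where
  one : ∀ R Ψ : CTree → ℝ≥0∞, Measurable R → (∀ S ∈ Al, R S ≤ Cap.pw q (ln Φ ε S).2) →
    Measurable Ψ → (∀ x, Ψ x ≤ 1) →
    ∫⁻ S in Al, R S * exsum S Ψ ∂(tree (GC.inten f₀ ε) L) ≤ sumM Φ ε T L Θ R Ψ + E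
  joint : ∀ F : CTree → CTree → ℝ≥0∞, (Measurable fun p : CTree × CTree => F p.1 p.2) →
    (∀ S ∈ Al, ∀ x, F S x ≤ Cap.pw q (ln Φ ε S).2) →
    ∫⁻ S in Al, exsum S (F S) ∂(tree (GC.inten f₀ ε) L) ≤ sumJ Φ ε T L Θ F + E
  pairs : ∀ (R : CTree → ℝ≥0∞) (Ψ : CTree → CTree → ℝ≥0∞), Measurable R →
    (∀ S ∈ Al, R S ≤ Cap.pw q (ln Φ ε S).2) →
    (Measurable fun p : CTree × CTree => Ψ p.1 p.2) → (∀ x y, Ψ x y ≤ 1) →
    ∫⁻ S in Al, R S *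
        exsum S (fun x => exsum S fun y => open Classical in if x = y then 0 else Ψ x y)
        ∂(tree (GC.inten f₀ ε) L) ≤ sumA Φ ε T L Θ R Ψ + sumC Φ ε T L Θ R Ψ + E

/-- **Sums over exhausts, in a world.** -/
theorem sums_pt (hΦ : IsPotential Φ) (hε : 0 < ε) (h₀ : GoodDatum f₀ κ) (hb : 0 < b)
    [IsFiniteMeasure (dmeas m)] {K : ℝ≥0∞}
    (hK : LineLaw Φ ε (b / 2) K ((tree (GC.inten f₀ ε) L).restrict (okT Φ ε T L)))
    (c : GC.Conf Ph) {aty : Measure Src} [IsFiniteMeasure aty]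
    (h : ∀ F : Src → ℝ≥0∞, Measurable F →
      ∫⁻ S in Als Φ ε L T (wS (GC.pts c)), F (rsrc Φ ε S) ∂(tree (GC.inten f₀ ε) L) ≤
        FL.muE ε * (∫⁻ σ, F σ ∂(refM b T (dmeas m)) + ∫⁻ σ, F σ ∂aty)) (q : ℕ) :
    ∃ Θ : Measure CTree, TypLaw Φ ε b T m Θ ∧
      SumsLe Φ f₀ ε T L q (Als Φ ε L T (wS (GC.pts c))) Θ
        (errK b T K q L * errW Φ f₀ ε T L (q + L) aty c) := by
  have hfin : IsFiniteMeasure (GC.inten f₀ ε) := GC.isFiniteMeasure_inten h₀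
  obtain ⟨g, hs, hty, hat⟩ := exists_typ_als (b := b) hΦ hε h₀ c h
  set α : Measure Ph := (FL.muE ε • aty).map fun σ : Src => σ.2.1 with hα
  have hmp : Measurable fun σ : Src => σ.2.1 := measurable_fst.comp measurable_snd
  have hαF : ∀ F : Ph → ℝ≥0∞, Measurable F →
      ∫⁻ z, F z ∂α = FL.muE ε * ∫⁻ σ, F σ.2.1 ∂aty := fun F hF => by
    rw [hα, lintegral_map hF hmp, lintegral_smul_measure, smul_eq_mul]
  have hα1 : ∀ F : Ph → ℝ≥0∞, Measurable F →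
      ∫⁻ S in Als Φ ε L T (wS (GC.pts c)), (1 - g S) * F (ln Φ ε S)
        ∂(tree (GC.inten f₀ ε) L) ≤ ∫⁻ z, F z ∂α := fun F hF => by
    rw [hαF F hF]
    exact hat (fun σ => F σ.2.1) (hF.comp hmp)
  have hE : (∫⁻ S in bad1 (Als Φ ε L T (wS (GC.pts c))), Cap.pw (q + L) (ln Φ ε S).2
      ∂(tree (GC.inten f₀ ε) L) + ∫⁻ z, Cap.pw (q + L) z.2 ∂α) ≤
      errW Φ f₀ ε T L (q + L) aty c := by
    have hpm : Measurable fun z : Ph => Cap.pw (q + L) z.2 :=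
      (M.measurable_pw' (q + L)).comp measurable_snd
    rw [hαF _ hpm]
    exact add_le_add (lintegral_mono_set (bad1_subset_I1 hΦ hε c)) le_rfl
  have h1 : ∀ n : ℕ, (1 : ℝ≥0∞) ≤ 2 ^ n := fun n => one_le_pow₀ (by norm_num)
  have hE1 : ((L + 1 : ℕ) : ℝ≥0∞) * (2 ^ L * 1 * (M.errC (b / 2) T K q L *
      (∫⁻ S in bad1 (Als Φ ε L T (wS (GC.pts c))), Cap.pw (q + L) (ln Φ ε S).2
        ∂(tree (GC.inten f₀ ε) L) + ∫⁻ z, Cap.pw (q + L) z.2 ∂α))) ≤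
      errK b T K q L * errW Φ f₀ ε T L (q + L) aty c := by
    calc ((L + 1 : ℕ) : ℝ≥0∞) * (2 ^ L * 1 * (M.errC (b / 2) T K q L *
          (∫⁻ S in bad1 (Als Φ ε L T (wS (GC.pts c))), Cap.pw (q + L) (ln Φ ε S).2
            ∂(tree (GC.inten f₀ ε) L) + ∫⁻ z, Cap.pw (q + L) z.2 ∂α)))
        ≤ ((3 * L + 2 : ℕ) : ℝ≥0∞) * (2 ^ L * 1 * (M.errC (b / 2) T K q L *
          errW Φ f₀ ε T L (q + L) aty c)) :=
          mul_le_mul' (Nat.cast_le.2 (by omega)) (by gcongr)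
      _ = (((3 * L + 2 : ℕ) : ℝ≥0∞) * (1 * 2 ^ L * 1 * 1 * (1 * 1) * M.errC (b / 2) T K q L)) *
          errW Φ f₀ ε T L (q + L) aty c := by ring
      _ ≤ errK b T K q L * errW Φ f₀ ε T L (q + L) aty c := by
          unfold errK
          have h2 : (1 : ℝ≥0∞) ≤ 2 := one_le_two
          gcongr
          all_goals exact h1 L
  refine ⟨typT (Als Φ ε L T (wS (GC.pts c))) g (tree (GC.inten f₀ ε) L), hty,
    ⟨fun R Ψ hRm hR hΨm hΨ => ?_, fun F hFm hF => ?_, fun R Ψ hRm hR hΨm hΨ => ?_⟩⟩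
  · exact (one_le hs (half_pos hb) hK hRm hR hΨm hΨ hα1).trans (add_le_add le_rfl hE1)
  · exact (joint_le hs (half_pos hb) hK (q₀ := q) (c := 1) hFm
      (fun S hS x => by rw [one_mul]; exact hF S hS x) hα1).trans (add_le_add le_rfl hE1)
  · refine (pairs_le hs (half_pos hb) hK hRm hR hΨm hΨ hα1).trans (add_le_add le_rfl ?_)
    calc ((3 * L + 2 : ℕ) : ℝ≥0∞) * (2 * 2 ^ L * 2 ^ L * 2 ^ L * (2 * 1) *
          (M.errC (b / 2) T K q L *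
          (∫⁻ S in bad1 (Als Φ ε L T (wS (GC.pts c))), Cap.pw (q + L) (ln Φ ε S).2
            ∂(tree (GC.inten f₀ ε) L) + ∫⁻ z, Cap.pw (q + L) z.2 ∂α)))
        ≤ ((3 * L + 2 : ℕ) : ℝ≥0∞) * (2 * 2 ^ L * 2 ^ L * 2 ^ L * (2 * 1) *
          (M.errC (b / 2) T K q L * errW Φ f₀ ε T L (q + L) aty c)) := by gcongr
      _ = errK b T K q L * errW Φ f₀ ε T L (q + L) aty c := by unfold errK; ring

theorem measurable_setLIntegral_param {X Y : Type*} [MeasurableSpace X] [MeasurableSpace Y]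
    {A : X → Set Y} (hA : MeasurableSet {p : X × Y | p.2 ∈ A p.1}) {F : Y → ℝ≥0∞}
    (hF : Measurable F) (ν : Measure Y) [SFinite ν] :
    Measurable fun x => ∫⁻ y in A x, F y ∂ν := by
  have h2 : Measurable fun p : X × Y => {p : X × Y | p.2 ∈ A p.1}.indicator (fun p => F p.2) p :=
    (hF.comp measurable_snd).indicator hA
  have h3 : ∀ x, ∫⁻ y in A x, F y ∂ν =
      ∫⁻ y, {p : X × Y | p.2 ∈ A p.1}.indicator (fun p => F p.2) (x, y) ∂ν := fun x => by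
    have h4 : MeasurableSet (A x) := hA.preimage (measurable_prodMk_left (x := x))
    rw [← lintegral_indicator h4]
    rfl
  simp only [h3]
  exact h2.lintegral_prod_right'

theorem measurable_errW (hΦ : IsPotential Φ) (hε : 0 < ε) (h₀ : GoodDatum f₀ κ) (q : ℕ)
    {aty : GC.Conf Ph → Measure Src} (ha : Measurable fun c => ∫⁻ σ, vp q σ ∂(aty c)) :
    Measurable fun c => errW Φ f₀ ε T L q (aty c) c := by
  have hfin : IsFiniteMeasure (GC.inten f₀ ε) := GC.isFiniteMeasure_inten h₀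
  have h1 := measurable_setLIntegral_param (A := fun c : GC.Conf Ph =>
    Cap.I1 Φ ε L T (GC.pts c : Set Ph))
    (Cap.measurableSet_I1 (c := fun p : GC.Conf Ph × CTree => p.1) (T := fun p => p.2) hΦ hε
      measurable_fst measurable_snd) (F := fun S => Cap.pw q (ln Φ ε S).2)
    ((M.measurable_pw' q).comp (measurable_snd.comp (measurable_ln hΦ hε.ne')))
    (tree (GC.inten f₀ ε) L)
  exact h1.add (ha.const_mul _)

/-- **Sums over exhausts, in the gas**: one exhaust (a weight of the tree times a function of the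
exhaust, or a function of both), and pairs of exhausts. -/
theorem sums_PP' (hΦ : IsPotential Φ) (h₀ : GoodDatum f₀ κ) (hb : 0 < b) (hbb : b ≤ b₀)
    (hM : 0 ≤ M₀) (hf : ∀ z, f₀ z ≤ M₀ * Real.exp (-b₀ * ‖z.2‖ ^ 2)) (hT : 0 ≤ T)
    [IsFiniteMeasure (dmeas m)] (hcap : CapH Φ f₀ L T b m) (hI1 : Cap.InI1 Φ f₀ L T) (q : ℕ)
    {ρ : ℝ} (hρ : 0 < ρ) :
    ∀ᶠ ε in 𝓝[>] (0 : ℝ), ∃ Θ : GC.Conf Ph → Measure CTree,
      (∀ᵐ c ∂(GC.PP f₀ ε), TypLaw Φ ε b T m (Θ c)) ∧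
      (∀ R Ψ : GC.Conf Ph → CTree → ℝ≥0∞, (∀ c, Measurable (R c)) →
        (∀ c, ∀ S ∈ Als Φ ε L T (wS (GC.pts c)), R c S ≤ Cap.pw q (ln Φ ε S).2) →
        (∀ c, Measurable (Ψ c)) → (∀ c x, Ψ c x ≤ 1) →
        (FL.muE ε)⁻¹ * ∫⁻ c, (∫⁻ S in Als Φ ε L T (wS (GC.pts c)), R c S * exsum S (Ψ c)
            ∂(tree (GC.inten f₀ ε) L)) ∂(GC.PP f₀ ε) ≤
          (FL.muE ε)⁻¹ * ∫⁻ c, sumM Φ ε T L (Θ c) (R c) (Ψ c) ∂(GC.PP f₀ ε) +
            ENNReal.ofReal ρ) ∧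
      (∀ F : GC.Conf Ph → CTree → CTree → ℝ≥0∞,
        (∀ c, Measurable fun p : CTree × CTree => F c p.1 p.2) →
        (∀ c, ∀ S ∈ Als Φ ε L T (wS (GC.pts c)), ∀ x, F c S x ≤ Cap.pw q (ln Φ ε S).2) →
        (FL.muE ε)⁻¹ * ∫⁻ c, (∫⁻ S in Als Φ ε L T (wS (GC.pts c)), exsum S (F c S)
            ∂(tree (GC.inten f₀ ε) L)) ∂(GC.PP f₀ ε) ≤
          (FL.muE ε)⁻¹ * ∫⁻ c, sumJ Φ ε T L (Θ c) (F c) ∂(GC.PP f₀ ε) +
            ENNReal.ofReal ρ) ∧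
      ∀ (R : GC.Conf Ph → CTree → ℝ≥0∞) (Ψ : GC.Conf Ph → CTree → CTree → ℝ≥0∞),
        (∀ c, Measurable (R c)) →
        (∀ c, ∀ S ∈ Als Φ ε L T (wS (GC.pts c)), R c S ≤ Cap.pw q (ln Φ ε S).2) →
        (∀ c, Measurable fun p : CTree × CTree => Ψ c p.1 p.2) → (∀ c x y, Ψ c x y ≤ 1) →
        (FL.muE ε)⁻¹ * ∫⁻ c, (∫⁻ S in Als Φ ε L T (wS (GC.pts c)), R c S *
            exsum S (fun x => exsum S fun y => open Classical in if x = y then 0 else Ψ c x y)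
            ∂(tree (GC.inten f₀ ε) L)) ∂(GC.PP f₀ ε) ≤
          (FL.muE ε)⁻¹ * ∫⁻ c, (sumA Φ ε T L (Θ c) (R c) (Ψ c) +
            sumC Φ ε T L (Θ c) (R c) (Ψ c)) ∂(GC.PP f₀ ε) + ENNReal.ofReal ρ := by
  obtain ⟨K, hK, hcr⟩ := lineLaw_crude (L := L) hΦ h₀ (hb.trans_le hbb) hbb hT hM hf
  obtain ⟨aty, ha1, ha2, ha3, ha4⟩ := hcap
  have hA : errK b T K q L ≠ ∞ := errK_ne_top hb hK q L
  have hρ2 : 0 < ρ / 2 := half_pos hρ
  filter_upwards [eventually_const_mul_le (ha4 (q + L)) hA hρ2,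
    eventually_const_mul_le (hI1 (q + L)) hA hρ2,
    eventually_const_mul_le (ha4 0) ENNReal.one_ne_top one_pos,
    self_mem_nhdsWithin] with ε e1 e2 e3 hε
  have hε : 0 < ε := hε
  have hfin : IsFiniteMeasure (GC.inten f₀ ε) := GC.isFiniteMeasure_inten h₀
  have hmu : FL.muE ε ≠ ∞ := FL.muE_ne_top
  have hmi : (FL.muE ε)⁻¹ * FL.muE ε = 1 :=
    ENNReal.inv_mul_cancel (ML.muE_ne_zero hε) hmu
  -- the atypical laws are finite
  have hae : ∀ᵐ c ∂(GC.PP f₀ ε), ∫⁻ σ, vp 0 σ ∂(aty ε c) < ∞ := by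
    refine ae_lt_top (ha2 ε hε 0) (ne_top_of_le_ne_top (ENNReal.ofReal_ne_top (r := 1)) ?_)
    rw [one_mul] at e3
    exact e3
  have hpt : ∀ᵐ c ∂(GC.PP f₀ ε), ∃ Θ : Measure CTree, TypLaw Φ ε b T m Θ ∧
      SumsLe Φ f₀ ε T L q (Als Φ ε L T (wS (GC.pts c))) Θ
        (errK b T K q L * errW Φ f₀ ε T L (q + L) (aty ε c) c) := by
    filter_upwards [ha3 ε hε, hae] with c hc hcf
    have : IsFiniteMeasure (aty ε c) := by
      refine ⟨lt_of_le_of_lt (le_of_eq ?_) hcf⟩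
      rw [← lintegral_one]
      refine lintegral_congr fun σ => ?_
      unfold vp
      rw [pow_zero, ENNReal.ofReal_one]
    exact sums_pt hΦ hε h₀ hb (hcr ε hε) c hc q
  -- the error
  have hEm : Measurable fun c => errK b T K q L * errW Φ f₀ ε T L (q + L) (aty ε c) c :=
    (measurable_errW hΦ hε h₀ (q + L) (ha2 ε hε (q + L))).const_mul _
  have hE : (FL.muE ε)⁻¹ * ∫⁻ c, errK b T K q L * errW Φ f₀ ε T L (q + L) (aty ε c) c
      ∂(GC.PP f₀ ε) ≤ ENNReal.ofReal ρ := by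
    have hm1 : Measurable fun c => FL.muE ε * ∫⁻ σ, vp (q + L) σ ∂(aty ε c) :=
      (ha2 ε hε (q + L)).const_mul _
    rw [lintegral_const_mul' _ _ hA]
    unfold errW
    rw [lintegral_add_right _ hm1, lintegral_const_mul' _ _ hmu]
    calc (FL.muE ε)⁻¹ * (errK b T K q L * (∫⁻ c, ∫⁻ S in Cap.I1 Φ ε L T (GC.pts c : Set Ph),
          Cap.pw (q + L) (ln Φ ε S).2 ∂(tree (GC.inten f₀ ε) L) ∂(GC.PP f₀ ε) +
          FL.muE ε * ∫⁻ c, ∫⁻ σ, vp (q + L) σ ∂(aty ε c) ∂(GC.PP f₀ ε)))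
        = errK b T K q L * ((FL.muE ε)⁻¹ * ∫⁻ c, ∫⁻ S in Cap.I1 Φ ε L T (GC.pts c : Set Ph),
          Cap.pw (q + L) (ln Φ ε S).2 ∂(tree (GC.inten f₀ ε) L) ∂(GC.PP f₀ ε)) +
          errK b T K q L * (((FL.muE ε)⁻¹ * FL.muE ε) *
            ∫⁻ c, ∫⁻ σ, vp (q + L) σ ∂(aty ε c) ∂(GC.PP f₀ ε)) := by ring
      _ ≤ ENNReal.ofReal (ρ / 2) + ENNReal.ofReal (ρ / 2) := by
          rw [hmi, one_mul]
          exact add_le_add e2 e1
      _ = ENNReal.ofReal ρ := by rw [← ENNReal.ofReal_add hρ2.le hρ2.le, add_halves]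
  classical
  set Θ : GC.Conf Ph → Measure CTree := fun c => if h : ∃ Θ : Measure CTree,
      TypLaw Φ ε b T m Θ ∧ SumsLe Φ f₀ ε T L q (Als Φ ε L T (wS (GC.pts c))) Θ
        (errK b T K q L * errW Φ f₀ ε T L (q + L) (aty ε c) c) then h.choose else 0 with hΘ
  have hΘs : ∀ᵐ c ∂(GC.PP f₀ ε), TypLaw Φ ε b T m (Θ c) ∧
      SumsLe Φ f₀ ε T L q (Als Φ ε L T (wS (GC.pts c))) (Θ c)
        (errK b T K q L * errW Φ f₀ ε T L (q + L) (aty ε c) c) := by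
    filter_upwards [hpt] with c hc
    rw [hΘ]
    simp only [dif_pos hc]
    exact hc.choose_spec
  have fin : ∀ X Y : GC.Conf Ph → ℝ≥0∞, (∀ᵐ c ∂(GC.PP f₀ ε), X c ≤ Y c +
      errK b T K q L * errW Φ f₀ ε T L (q + L) (aty ε c) c) →
      (FL.muE ε)⁻¹ * ∫⁻ c, X c ∂(GC.PP f₀ ε) ≤
        (FL.muE ε)⁻¹ * ∫⁻ c, Y c ∂(GC.PP f₀ ε) + ENNReal.ofReal ρ := by
    intro X Y h
    refine le_trans (mul_le_mul_right (lintegral_mono_ae h) _) ?_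
    rw [lintegral_add_right _ hEm, mul_add]
    exact add_le_add le_rfl hE
  refine ⟨Θ, hΘs.mono fun c hc => hc.1, fun R Ψ hRm hR hΨm hΨ => fin _ _ ?_,
    fun F hFm hF => fin _ _ ?_, fun R Ψ hRm hR hΨm hΨ => fin _ _ ?_⟩
  · filter_upwards [hΘs] with c hc
    exact hc.2.one (R c) (Ψ c) (hRm c) (hR c) (hΨm c) (hΨ c)
  · filter_upwards [hΘs] with c hc
    exact hc.2.joint (F c) (hFm c) (hF c)
  · filter_upwards [hΘs] with c hc
    exact hc.2.pairs (R c) (Ψ c) (hRm c) (hR c) (hΨm c) (hΨ c)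

/-- **Sums over exhausts, in the gas.** -/
theorem sums_PP (hΦ : IsPotential Φ) (h₀ : GoodDatum f₀ κ) (hb : 0 < b) (hbb : b ≤ b₀)
    (hM : 0 ≤ M₀) (hf : ∀ z, f₀ z ≤ M₀ * Real.exp (-b₀ * ‖z.2‖ ^ 2)) (hT : 0 ≤ T)
    [IsFiniteMeasure (dmeas m)] (hcap : CapH Φ f₀ L T b m) (hI1 : Cap.InI1 Φ f₀ L T) (q : ℕ)
    {ρ : ℝ} (hρ : 0 < ρ) :
    ∀ᶠ ε in 𝓝[>] (0 : ℝ), ∃ Θ : GC.Conf Ph → Measure CTree,
      (∀ᵐ c ∂(GC.PP f₀ ε), TypLaw Φ ε b T m (Θ c)) ∧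
      (∀ R Ψ : GC.Conf Ph → CTree → ℝ≥0∞, (∀ c, Measurable (R c)) →
        (∀ c, ∀ S ∈ Als Φ ε L T (wS (GC.pts c)), R c S ≤ Cap.pw q (ln Φ ε S).2) →
        (∀ c, Measurable (Ψ c)) → (∀ c x, Ψ c x ≤ 1) →
        (FL.muE ε)⁻¹ * ∫⁻ c, (∫⁻ S in Als Φ ε L T (wS (GC.pts c)), R c S * exsum S (Ψ c)
            ∂(tree (GC.inten f₀ ε) L)) ∂(GC.PP f₀ ε) ≤
          (FL.muE ε)⁻¹ * ∫⁻ c, sumM Φ ε T L (Θ c) (R c) (Ψ c) ∂(GC.PP f₀ ε) +
            ENNReal.ofReal ρ) ∧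
      ∀ (R : GC.Conf Ph → CTree → ℝ≥0∞) (Ψ : GC.Conf Ph → CTree → CTree → ℝ≥0∞),
        (∀ c, Measurable (R c)) →
        (∀ c, ∀ S ∈ Als Φ ε L T (wS (GC.pts c)), R c S ≤ Cap.pw q (ln Φ ε S).2) →
        (∀ c, Measurable fun p : CTree × CTree => Ψ c p.1 p.2) → (∀ c x y, Ψ c x y ≤ 1) →
        (FL.muE ε)⁻¹ * ∫⁻ c, (∫⁻ S in Als Φ ε L T (wS (GC.pts c)), R c S *
            exsum S (fun x => exsum S fun y => open Classical in if x = y then 0 else Ψ c x y)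
            ∂(tree (GC.inten f₀ ε) L)) ∂(GC.PP f₀ ε) ≤
          (FL.muE ε)⁻¹ * ∫⁻ c, (sumA Φ ε T L (Θ c) (R c) (Ψ c) +
            sumC Φ ε T L (Θ c) (R c) (Ψ c)) ∂(GC.PP f₀ ε) + ENNReal.ofReal ρ := by
  filter_upwards [sums_PP' hΦ h₀ hb hbb hM hf hT hcap hI1 q hρ] with ε h
  obtain ⟨Θ, h1, h2, _, h4⟩ := h
  exact ⟨Θ, h1, h2, h4⟩

end Vale.Agent.P119.PB
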