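import Vale.Agent.P119.PB.Op3

/-!
# P119, block PROB, P8: numeric sums (`helper776`)

* `sx x` : `Σ' n, x ^ n / √(n!)`; `sx_le : sx x ≤ 2 exp (x²)`;
* `sxx_le` (double sum), `sx_tail`, `sxx_tail` (tails), `sxk_le` (polynomial factors),
  `sx_sqrt_le` (`x = c √L`);
* `Wts.pair_le`, `Wts.spine_le` (depth weights).
-/

open Filter Topology
open scoped ENNReal Nat

namespace Vale.Agent.P119.PB.SC

/-- The term `x ^ n / √(n!)`. -/
noncomputable def sx (x : ℝ) (n : ℕ) : ℝ≥0∞ := ENNReal.ofReal (x ^ n / √(n ! : ℝ))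

theorem sqrt_fact_pos (n : ℕ) : 0 < √(n ! : ℝ) := Real.sqrt_pos.2 (by positivity)

theorem one_le_sqrt_fact (n : ℕ) : 1 ≤ √(n ! : ℝ) := by
  rw [Real.one_le_sqrt]
  exact_mod_cast Nat.one_le_iff_ne_zero.2 (Nat.factorial_ne_zero n)

theorem sx_ne_top (x : ℝ) (n : ℕ) : sx x n ≠ ∞ := ENNReal.ofReal_ne_top

theorem sx_mono {x y : ℝ} (hx : 0 ≤ x) (hxy : x ≤ y) (n : ℕ) : sx x n ≤ sx y n := by
  unfold sx
  apply ENNReal.ofReal_le_ofReal
  have := sqrt_fact_pos n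
  gcongr

/-- The terms are dominated by an exponential series and a geometric series. -/
theorem term_le (x : ℝ) (n : ℕ) : x ^ n / √(n ! : ℝ) ≤
    (Real.exp (-x ^ 2) * ((2 * x ^ 2) ^ n / (n ! : ℝ)) + Real.exp (x ^ 2) * (1 / 2) ^ n) / 2 := by
  have hf : (0 : ℝ) < n ! := by positivity
  set u : ℝ := Real.exp (-x ^ 2 / 2) * (√2 * x) ^ n / √(n ! : ℝ) with hu
  set v : ℝ := Real.exp (x ^ 2 / 2) * (1 / √2) ^ n with hv
  have h2 : (0 : ℝ) < √2 := by positivity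
  have e1 : u * v = x ^ n / √(n ! : ℝ) := by
    rw [hu, hv]
    have e2 : Real.exp (-x ^ 2 / 2) * Real.exp (x ^ 2 / 2) = 1 := by
      rw [← Real.exp_add]
      rw [show -x ^ 2 / 2 + x ^ 2 / 2 = 0 by ring, Real.exp_zero]
    have e3 : (√2 * x) ^ n * (1 / √2) ^ n = x ^ n := by
      rw [← mul_pow]
      congr 1
      field_simp
    calc Real.exp (-x ^ 2 / 2) * (√2 * x) ^ n / √(n ! : ℝ) *
          (Real.exp (x ^ 2 / 2) * (1 / √2) ^ n)
        = (Real.exp (-x ^ 2 / 2) * Real.exp (x ^ 2 / 2)) * ((√2 * x) ^ n * (1 / √2) ^ n) /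
            √(n ! : ℝ) := by ring
      _ = _ := by rw [e2, e3, one_mul]
  have e4 : u ^ 2 = Real.exp (-x ^ 2) * ((2 * x ^ 2) ^ n / (n ! : ℝ)) := by
    rw [hu, div_pow, Real.sq_sqrt hf.le, mul_pow, ← pow_mul, mul_comm n 2, pow_mul, mul_pow,
      Real.sq_sqrt (by norm_num : (0 : ℝ) ≤ 2), ← Real.exp_nat_mul]
    rw [mul_div_assoc]
    congr 2
    push_cast
    ring
  have e5 : v ^ 2 = Real.exp (x ^ 2) * (1 / 2) ^ n := by
    rw [hv, mul_pow, ← Real.exp_nat_mul, ← pow_mul, mul_comm n 2, pow_mul, div_pow,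
      Real.sq_sqrt (by norm_num : (0 : ℝ) ≤ 2), one_pow]
    congr 2
    push_cast
    ring
  rw [← e1, ← e4, ← e5]
  nlinarith [sq_nonneg (u - v)]

theorem tsum_sx_le {x : ℝ} (_hx : 0 ≤ x) : ∑' n, sx x n ≤ ENNReal.ofReal (2 * Real.exp (x ^ 2)) := by
  have h1 : HasSum (fun n : ℕ => (2 * x ^ 2) ^ n / (n ! : ℝ)) (Real.exp (2 * x ^ 2)) := by
    rw [Real.exp_eq_exp_ℝ]
    exact NormedSpace.expSeries_div_hasSum_exp (2 * x ^ 2)
  have h2 : HasSum (fun n : ℕ => (1 / 2 : ℝ) ^ n) 2 := hasSum_geometric_two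
  have h3 := (((h1.mul_left (Real.exp (-x ^ 2))).add (h2.mul_left (Real.exp (x ^ 2)))).div_const 2)
  have h4 : Real.exp (-x ^ 2) * Real.exp (2 * x ^ 2) = Real.exp (x ^ 2) := by
    rw [← Real.exp_add]
    congr 1
    ring
  rw [h4] at h3
  unfold sx
  calc ∑' n : ℕ, ENNReal.ofReal (x ^ n / √(n ! : ℝ))
      ≤ ∑' n : ℕ, ENNReal.ofReal ((Real.exp (-x ^ 2) * ((2 * x ^ 2) ^ n / (n ! : ℝ)) +
          Real.exp (x ^ 2) * (1 / 2) ^ n) / 2) :=
        ENNReal.tsum_le_tsum fun n => ENNReal.ofReal_le_ofReal (term_le x n)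
    _ = ENNReal.ofReal ((Real.exp (x ^ 2) + Real.exp (x ^ 2) * 2) / 2) := by
        rw [← ENNReal.ofReal_tsum_of_nonneg (fun n => by positivity) h3.summable, h3.tsum_eq]
    _ ≤ _ := by
        apply ENNReal.ofReal_le_ofReal
        have := Real.exp_pos (x ^ 2)
        linarith

theorem tsum_sx_ne_top {x : ℝ} (hx : 0 ≤ x) : ∑' n, sx x n ≠ ∞ :=
  ne_top_of_le_ne_top ENNReal.ofReal_ne_top (tsum_sx_le hx)

theorem sx_add_le {x : ℝ} (hx : 0 ≤ x) (i j : ℕ) : sx x (i + j) ≤ sx x i * sx x j := by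
  unfold sx
  rw [← ENNReal.ofReal_mul (by positivity)]
  apply ENNReal.ofReal_le_ofReal
  have h1 := sqrt_fact_pos i
  have h2 := sqrt_fact_pos j
  have h3 : √(i ! : ℝ) * √(j ! : ℝ) ≤ √((i + j)! : ℝ) := by
    rw [← Real.sqrt_mul (by positivity)]
    apply Real.sqrt_le_sqrt
    have h4 : i ! * j ! ≤ (i + j)! :=
      Nat.le_of_dvd (Nat.factorial_pos _) (Nat.factorial_mul_factorial_dvd_factorial_add i j)
    exact_mod_cast h4
  rw [div_mul_div_comm, ← pow_add]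
  gcongr

/-- **The double sum.** -/
theorem sxx_le {x : ℝ} (hx : 0 ≤ x) :
    ∑' i, ∑' j, sx x (i + j) ≤ ENNReal.ofReal (4 * Real.exp (2 * x ^ 2)) := by
  calc ∑' i, ∑' j, sx x (i + j) ≤ ∑' i, ∑' j, sx x i * sx x j :=
        ENNReal.tsum_le_tsum fun i => ENNReal.tsum_le_tsum fun j => sx_add_le hx i j
    _ = (∑' i, sx x i) * ∑' j, sx x j := by
        simp only [ENNReal.tsum_mul_left, ENNReal.tsum_mul_right]
    _ ≤ ENNReal.ofReal (2 * Real.exp (x ^ 2)) * ENNReal.ofReal (2 * Real.exp (x ^ 2)) :=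
        mul_le_mul' (tsum_sx_le hx) (tsum_sx_le hx)
    _ = _ := by
        rw [← ENNReal.ofReal_mul (by positivity)]
        congr 1
        rw [show 2 * x ^ 2 = x ^ 2 + x ^ 2 by ring, Real.exp_add]
        ring

theorem sxx_ne_top {x : ℝ} (hx : 0 ≤ x) : ∑' i, ∑' j, sx x (i + j) ≠ ∞ :=
  ne_top_of_le_ne_top ENNReal.ofReal_ne_top (sxx_le hx)

/-- **Tails.** -/
theorem sx_tail {x : ℝ} (hx : 0 ≤ x) {ρ : ℝ≥0∞} (hρ : 0 < ρ) :
    ∃ J₀ : ℕ, ∀ J ≥ J₀, ∑' i, sx x (i + J) ≤ ρ := by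
  have h1 := ENNReal.tendsto_sum_nat_add (sx x) (tsum_sx_ne_top hx)
  exact eventually_atTop.1 ((ENNReal.tendsto_nhds_zero.1 h1) ρ hρ)

theorem sx_tail' {x : ℝ} (hx : 0 ≤ x) {ρ : ℝ} (hρ : 0 < ρ) :
    ∃ J₀ : ℕ, ∀ J ≥ J₀, ∑' i, sx x (i + J) ≤ ENNReal.ofReal ρ :=
  sx_tail hx (ENNReal.ofReal_pos.2 hρ)

/-- Tails of the double sum. -/
theorem sxx_tail {x : ℝ} (hx : 0 ≤ x) {ρ : ℝ≥0∞} (hρ : 0 < ρ) :
    ∃ J₀ : ℕ, ∀ J ≥ J₀, ∑' i, ∑' j, sx x (i + j + J) ≤ ρ := by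
  set S := ∑' i, ∑' j, sx x (i + j) with hS
  have hSt : S ≠ ∞ := sxx_ne_top hx
  have h1 := ENNReal.tendsto_sum_nat_add (sx x) (tsum_sx_ne_top hx)
  have h2 : Tendsto (fun J => sx x J) atTop (𝓝 0) := by
    refine tendsto_of_tendsto_of_tendsto_of_le_of_le tendsto_const_nhds h1
      (fun _ => zero_le) fun J => ?_
    calc sx x J = sx x (0 + J) := by rw [zero_add]
      _ ≤ ∑' i, sx x (i + J) := ENNReal.le_tsum 0
  have h3 : Tendsto (fun J => S * sx x J) atTop (𝓝 0) := by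
    have h4 := ENNReal.Tendsto.const_mul h2 (Or.inr hSt)
    rwa [mul_zero] at h4
  obtain ⟨J₀, hJ⟩ := eventually_atTop.1 ((ENNReal.tendsto_nhds_zero.1 h3) ρ hρ)
  refine ⟨J₀, fun J hJ' => le_trans ?_ (hJ J hJ')⟩
  calc ∑' i, ∑' j, sx x (i + j + J) ≤ ∑' i, ∑' j, sx x (i + j) * sx x J :=
        ENNReal.tsum_le_tsum fun i => ENNReal.tsum_le_tsum fun j => sx_add_le hx (i + j) J
    _ = _ := by simp only [ENNReal.tsum_mul_right, hS]

/-! ### Polynomial factors -/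

theorem sx_poly_le {x : ℝ} (hx : 0 ≤ x) (k n : ℕ) :
    ENNReal.ofReal (((n : ℝ) + 1) ^ k) * sx x n ≤ sx (2 ^ k * x) n := by
  unfold sx
  rw [← ENNReal.ofReal_mul (by positivity)]
  apply ENNReal.ofReal_le_ofReal
  have h1 : ((n : ℝ) + 1) ^ k ≤ (2 ^ k) ^ n := by
    have h2 : (n : ℝ) + 1 ≤ 2 ^ n := by
      have h3 : n + 1 ≤ 2 ^ n := Nat.lt_two_pow_self
      exact_mod_cast h3
    calc ((n : ℝ) + 1) ^ k ≤ (2 ^ n) ^ k := pow_le_pow_left₀ (by positivity) h2 k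
      _ = _ := by rw [← pow_mul, ← pow_mul, mul_comm]
  rw [mul_pow, ← mul_div_assoc]
  have := sqrt_fact_pos n
  gcongr

/-- **Polynomial factors.** -/
theorem sxk_le {x : ℝ} (hx : 0 ≤ x) (k : ℕ) :
    ∑' n : ℕ, ENNReal.ofReal (((n : ℝ) + 1) ^ k) * sx x n ≤
      ENNReal.ofReal (2 * Real.exp (4 ^ k * x ^ 2)) := by
  refine (ENNReal.tsum_le_tsum fun n => sx_poly_le hx k n).trans
    ((tsum_sx_le (by positivity)).trans (le_of_eq ?_))
  congr 3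
  rw [mul_pow, ← pow_mul, mul_comm k 2, pow_mul]
  norm_num

theorem sxk_ne_top {x : ℝ} (hx : 0 ≤ x) (k : ℕ) :
    ∑' n : ℕ, ENNReal.ofReal (((n : ℝ) + 1) ^ k) * sx x n ≠ ∞ :=
  ne_top_of_le_ne_top ENNReal.ofReal_ne_top (sxk_le hx k)

/-- The double sum with polynomial factors. -/
theorem sxxk_le {x : ℝ} (hx : 0 ≤ x) (k : ℕ) :
    ∑' i : ℕ, ∑' j : ℕ, ENNReal.ofReal (((i : ℝ) + j + 1) ^ k) * sx x (i + j) ≤
      ENNReal.ofReal (4 * Real.exp (2 * 4 ^ k * x ^ 2)) := by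
  have h1 : ∀ i j : ℕ, ENNReal.ofReal (((i : ℝ) + j + 1) ^ k) * sx x (i + j) ≤
      sx (2 ^ k * x) (i + j) := fun i j => by
    have h2 := sx_poly_le hx k (i + j)
    push_cast at h2
    exact h2
  refine (ENNReal.tsum_le_tsum fun i => ENNReal.tsum_le_tsum fun j => h1 i j).trans
    ((sxx_le (by positivity)).trans (le_of_eq ?_))
  congr 3
  rw [mul_pow, ← pow_mul, mul_comm k 2, pow_mul]
  norm_num
  ring

theorem sxk_tail {x : ℝ} (hx : 0 ≤ x) (k : ℕ) {ρ : ℝ≥0∞} (hρ : 0 < ρ) : ∃ J₀ : ℕ, ∀ J ≥ J₀,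
    ∑' i : ℕ, ENNReal.ofReal (((i : ℝ) + J + 1) ^ k) * sx x (i + J) ≤ ρ := by
  obtain ⟨J₀, h⟩ := sx_tail (x := 2 ^ k * x) (by positivity) hρ
  refine ⟨J₀, fun J hJ => le_trans (ENNReal.tsum_le_tsum fun i => ?_) (h J hJ)⟩
  have h2 := sx_poly_le hx k (i + J)
  push_cast at h2
  exact h2

/-- **Arguments proportional to `√L`.** -/
theorem sx_sqrt_le {c : ℝ} (hc : 0 ≤ c) (L : ℕ) :
    ∑' n, sx (c * √(L : ℝ)) n ≤ ENNReal.ofReal (2 * Real.exp (c ^ 2) ^ L) := by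
  refine (tsum_sx_le (by positivity)).trans (le_of_eq ?_)
  rw [mul_pow, Real.sq_sqrt (Nat.cast_nonneg L), ← Real.exp_nat_mul]
  congr 3
  ring

theorem sxx_sqrt_le {c : ℝ} (hc : 0 ≤ c) (L : ℕ) :
    ∑' i, ∑' j, sx (c * √(L : ℝ)) (i + j) ≤ ENNReal.ofReal (4 * Real.exp (2 * c ^ 2) ^ L) := by
  refine (sxx_le (by positivity)).trans (le_of_eq ?_)
  rw [mul_pow, Real.sq_sqrt (Nat.cast_nonneg L), ← Real.exp_nat_mul]
  congr 3
  ring

/-! ### Depth weights -/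

variable {α a : ℕ → ℝ} {Q : ℝ}

/-- **One step of the spine.** -/
theorem Wts_spine_le (hw : Wts α a Q) {n L : ℕ} {f : ℕ → ℝ≥0∞} (hf1 : ∀ d, f d ≤ 1)
    (hf : ∀ d, L < max n d + 1 → f d = 0) :
    ∑' d, f d * ENNReal.ofReal (α d / a (max n d + 1)) ≤
      ENNReal.ofReal (√(L : ℝ) * Q / a n) := by
  have ha := hw.apos
  have h1 : ∀ d, f d * ENNReal.ofReal (α d / a (max n d + 1)) ≤
      ENNReal.ofReal (√(L : ℝ) / a n) * ENNReal.ofReal (α d * (a n / a (max n d + 1)) /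
        √((max n d + 1 : ℕ) : ℝ)) := by
    intro d
    by_cases hd : L < max n d + 1
    · rw [hf d hd, zero_mul]; exact zero_le
    have hd' : max n d + 1 ≤ L := not_lt.1 hd
    refine (mul_le_mul' (hf1 d) le_rfl).trans ?_
    rw [one_mul, ← ENNReal.ofReal_mul (div_nonneg (Real.sqrt_nonneg _) (ha n).le)]
    apply ENNReal.ofReal_le_ofReal
    have h2 : (0 : ℝ) < √((max n d + 1 : ℕ) : ℝ) := Real.sqrt_pos.2 (by positivity)
    have h3 : √((max n d + 1 : ℕ) : ℝ) ≤ √(L : ℝ) := Real.sqrt_le_sqrt (by exact_mod_cast hd')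
    have h4 : 0 ≤ α d / a (max n d + 1) := div_nonneg (hw.α0 d) (ha _).le
    have h5 := (ha n).ne'
    have h6 := (ha (max n d + 1)).ne'
    calc α d / a (max n d + 1) ≤ α d / a (max n d + 1) * (√(L : ℝ) / √((max n d + 1 : ℕ) : ℝ)) := by
          refine le_mul_of_one_le_right h4 ((one_le_div h2).2 h3)
      _ = _ := by
          field_simp
  calc _ ≤ ∑' d, ENNReal.ofReal (√(L : ℝ) / a n) * ENNReal.ofReal (α d *
        (a n / a (max n d + 1)) / √((max n d + 1 : ℕ) : ℝ)) := ENNReal.tsum_le_tsum h1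
    _ = ENNReal.ofReal (√(L : ℝ) / a n) * ∑' d, ENNReal.ofReal (α d *
        (a n / a (max n d + 1)) / √((max n d + 1 : ℕ) : ℝ)) := ENNReal.tsum_mul_left
    _ ≤ ENNReal.ofReal (√(L : ℝ) / a n) * ENNReal.ofReal Q := mul_le_mul' le_rfl (hw.w1 n)
    _ = _ := by
        rw [← ENNReal.ofReal_mul (div_nonneg (Real.sqrt_nonneg _) (ha n).le)]
        congr 1
        ring

theorem Wts_spine_if_le (hw : Wts α a Q) (n L : ℕ) :
    ∑' d, (if max n d + 1 ≤ L then ENNReal.ofReal (α d / a (max n d + 1)) else 0) ≤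
      ENNReal.ofReal (√(L : ℝ) * Q / a n) := by
  refine le_trans (ENNReal.tsum_le_tsum fun d => ?_) (Wts_spine_le hw (n := n) (L := L)
    (f := fun d => if max n d + 1 ≤ L then 1 else 0) (fun d => ?_) (fun d hd => ?_))
  · by_cases h : max n d + 1 ≤ L
    · simp [h]
    · simp [h]
  · by_cases h : max n d + 1 ≤ L
    · simp [h]
    · simp [h]
  · exact if_neg (not_le.2 hd)

/-- **The pairs.** -/
theorem Wts_pair_le (hw : Wts α a Q) {α' : ℕ → ℝ}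
    (h' : ∀ n : ℕ, α' n * √((n : ℝ) + 1) ≤ α n) (h0 : ∀ n, 0 ≤ α' n) :
    ∑' d, ∑' d', ENNReal.ofReal (α' d * α' d' / a (max d d' + 1)) ≤ ENNReal.ofReal (Q ^ 2) := by
  have ha := hw.apos
  have h1 : ∀ d d', ENNReal.ofReal (α' d * α' d' / a (max d d' + 1)) ≤
      ENNReal.ofReal (α d / a d) * ENNReal.ofReal (α d' * (a d / a (max d d' + 1)) /
        √((max d d' + 1 : ℕ) : ℝ)) := by
    intro d d'
    rw [← ENNReal.ofReal_mul (div_nonneg (hw.α0 d) (ha d).le)]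
    apply ENNReal.ofReal_le_ofReal
    have p1 : (0 : ℝ) < √((d : ℝ) + 1) := Real.sqrt_pos.2 (by positivity)
    have p2 : (0 : ℝ) < √((d' : ℝ) + 1) := Real.sqrt_pos.2 (by positivity)
    have p3 : (0 : ℝ) < √((max d d' + 1 : ℕ) : ℝ) := Real.sqrt_pos.2 (by positivity)
    have h3 : √((max d d' + 1 : ℕ) : ℝ) ≤ √((d : ℝ) + 1) * √((d' : ℝ) + 1) := by
      rw [← Real.sqrt_mul (by positivity)]
      apply Real.sqrt_le_sqrt
      have h4 : max d d' + 1 ≤ (d + 1) * (d' + 1) := by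
        rcases le_total d d' with h | h
        · rw [max_eq_right h]
          nlinarith
        · rw [max_eq_left h]
          nlinarith
      exact_mod_cast h4
    have h5 : α' d * α' d' * √((max d d' + 1 : ℕ) : ℝ) ≤ α d * α d' := by
      calc α' d * α' d' * √((max d d' + 1 : ℕ) : ℝ)
          ≤ α' d * α' d' * (√((d : ℝ) + 1) * √((d' : ℝ) + 1)) :=
            mul_le_mul_of_nonneg_left h3 (mul_nonneg (h0 d) (h0 d'))
        _ = (α' d * √((d : ℝ) + 1)) * (α' d' * √((d' : ℝ) + 1)) := by ring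
        _ ≤ α d * α d' := mul_le_mul (h' d) (h' d') (mul_nonneg (h0 d') p2.le) (hw.α0 d)
    have h6 := ha d
    have h7 := ha (max d d' + 1)
    have h8 : α d / a d * (α d' * (a d / a (max d d' + 1)) / √((max d d' + 1 : ℕ) : ℝ)) =
        α d * α d' / √((max d d' + 1 : ℕ) : ℝ) / a (max d d' + 1) := by
      field_simp
    rw [h8]
    refine div_le_div_of_nonneg_right ?_ h7.le
    rw [le_div_iff₀ p3]
    exact h5
  calc _ ≤ ∑' d, ∑' d', ENNReal.ofReal (α d / a d) * ENNReal.ofReal (α d' *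
        (a d / a (max d d' + 1)) / √((max d d' + 1 : ℕ) : ℝ)) :=
        ENNReal.tsum_le_tsum fun d => ENNReal.tsum_le_tsum fun d' => h1 d d'
    _ ≤ ∑' d, ENNReal.ofReal (α d / a d) * ENNReal.ofReal Q := by
        refine ENNReal.tsum_le_tsum fun d => ?_
        rw [ENNReal.tsum_mul_left]
        exact mul_le_mul' le_rfl (hw.w1 d)
    _ = (∑' d, ENNReal.ofReal (α d / a d)) * ENNReal.ofReal Q := ENNReal.tsum_mul_right
    _ ≤ ENNReal.ofReal Q * ENNReal.ofReal Q := mul_le_mul' hw.w2 le_rfl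
    _ = _ := by rw [← ENNReal.ofReal_mul hw.Q0, sq]

end Vale.Agent.P119.PB.SC
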