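import Vale.Agent.P119.PB.Top8

/-!
# P119, block PROB, P8 (second events): the free line integrated out (`helper336`)

* `frS`: the three lines which are created by the hit of `σ` on the line `z'` of depth `D`;
* `FXn`: the integral over the free line of the second events of a given exhaust `x` of `T`;
* `FX_eq`: `FX` is the integral of the sum over the exhausts of `FXn`; `FXn_le`: `μ FXn ≤ C (1+|v_T|)`.
-/

open MeasureTheory Filter Topology Set
open scoped ENNReal NNReal

noncomputable section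

namespace Vale.Agent.P119.PB

open M CTree KU FB RB AU FL TL

variable {Φ : E3 → ℝ} {ε : ℝ} {L : ℕ} {hΦ : IsPotential Φ} {hε : 0 < ε} {η t w b : ℝ} {σ : Src}
  {f₀ : Ph → ℝ} {κ : ℝ}

/-- The lines which are created by the hit of `σ` on the line `z'` of depth `D`. -/
def frS (Φ : E3 → ℝ) (ε : ℝ) (Ψ : Src → ℝ≥0∞) (σ : Src) (z' : Ph) (D : ℕ) : ℝ≥0∞ :=
  Ψ (sepT Φ ε (σ.2.1, z'), (sc2 Φ ε (σ.2.1, z')).1, max σ.2.2 D + 1) +
    Ψ (sepT Φ ε (σ.2.1, z'), (sc2 Φ ε (σ.2.1, z')).2, max σ.2.2 D + 1) +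
    Ψ (hitT ε (σ.2.1, z'), z', D)

theorem frG_eq (Ψ : Src → Src → ℝ≥0∞) (P : Src → Src → Ph → ℝ≥0∞) (T : CTree) :
    frG Φ ε Ψ P σ T = exsum T fun x => frS Φ ε (Ψ (rsrc Φ ε x)) σ (ln Φ ε T) T.depth +
      P (rsrc Φ ε x) σ (ln Φ ε T) := rfl

theorem frS_le {Ψ : Src → ℝ≥0∞} (h : ∀ m, Ψ m ≤ 1) (z' : Ph) (D : ℕ) :
    frS Φ ε Ψ σ z' D ≤ 3 := by
  unfold frS
  calc _ ≤ (1 : ℝ≥0∞) + 1 + 1 := add_le_add (add_le_add (h _) (h _)) (h _)
    _ = 3 := by norm_num

theorem gI_le_one {V : Finset Src} (e m : Src) : gI L hΦ hε η t V e m ≤ 1 := by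
  classical
  unfold gI
  split_ifs
  · exact ind_le_one _
  · exact zero_le

theorem pI_le_one {V : Finset Src} (e σ : Src) (z' : Ph) : pI L hΦ hε η t w V e σ z' ≤ 1 :=
  ind_le_one _

variable (L hΦ hε)

/-- The second events of the exhaust source `e` and of the hit of a free line on the root line `z'`
of depth `D`. -/
def frI (η t w : ℝ) (V : Finset Src) (e σ : Src) (z' : Ph) (D : ℕ) : ℝ≥0∞ :=
  frS Φ ε (gI L hΦ hε η t V e) σ z' D + pI L hΦ hε η t w V e σ z'

/-- The integral over the free line. -/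
def FXn (b η t w : ℝ) (n : ℕ) (V : Finset Src) (e : Src) (z' : Ph) (D : ℕ) : ℝ≥0∞ :=
  ∫⁻ z : Ph, gw b z.2 * (ind (hitI ε t (0, z, n) z') * frI L hΦ hε η t w V e (0, z, n) z' D)

variable {L hΦ hε}

theorem frI_le {V : Finset Src} (e : Src) (z' : Ph) (D : ℕ) :
    frI L hΦ hε η t w V e σ z' D ≤ 4 := by
  unfold frI
  calc _ ≤ (3 : ℝ≥0∞) + 1 := add_le_add (frS_le (fun m => gI_le_one _ _) _ _) (pI_le_one _ _ _)
    _ = 4 := by norm_num

theorem measurable_frI {X : Type} [MeasurableSpace X] {V : X → Finset Src} {e f : X → Src}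
    {z' : X → Ph} {D : X → ℕ} (hV : MM.RS fun x => (V x : Set Src)) (he : Measurable e)
    (hf : Measurable f) (hz : Measurable z') (hD : Measurable D) :
    Measurable fun x => frI L hΦ hε η t w (V x) (e x) (f x) (z' x) (D x) := by
  have hq : Measurable fun x => ((f x).2.1, z' x) :=
    (measurable_fst.comp (measurable_snd.comp hf)).prodMk hz
  have hh : Measurable fun x => hitT ε ((f x).2.1, z' x) := measurable_hitT.comp hq
  have hs : Measurable fun x => sepT Φ ε ((f x).2.1, z' x) := (measurable_sepT hΦ).comp hq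
  have hd : Measurable fun x => max (f x).2.2 (D x) + 1 :=
    ((measurable_snd.comp (measurable_snd.comp hf)).max hD).add_const 1
  have hsc := (measurable_sc2 hΦ hε.ne').comp hq
  have c0 : ∀ c : ℝ, Measurable fun _ : X => c := fun c => measurable_const
  unfold frI frS
  refine Measurable.add (Measurable.add (Measurable.add ?_ ?_) ?_) ?_
  · exact measurable_gI hV (c0 η) (c0 t) he (hs.prodMk (hsc.fst.prodMk hd))
  · exact measurable_gI hV (c0 η) (c0 t) he (hs.prodMk (hsc.snd.prodMk hd))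
  · exact measurable_gI hV (c0 η) (c0 t) he (hh.prodMk (hz.prodMk hD))
  · exact measurable_pI hV (c0 η) (c0 t) (c0 w) he hf hz

theorem measurable_FXn {X : Type} [MeasurableSpace X] {V : X → Finset Src} {e : X → Src}
    {z' : X → Ph} {D : X → ℕ} (n : ℕ) (hV : MM.RS fun x => (V x : Set Src)) (he : Measurable e)
    (hz : Measurable z') (hD : Measurable D) :
    Measurable fun x => FXn L hΦ hε b η t w n (V x) (e x) (z' x) (D x) := by
  have hg : Measurable fun p : X × Ph => gw b p.2.2 := (measurable_gw b).comp measurable_snd.snd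
  have hf : Measurable fun p : X × Ph => ((0 : ℝ), p.2, n) :=
    measurable_const.prodMk (measurable_snd.prodMk measurable_const)
  have hh : Measurable fun p : X × Ph => ind (hitI ε t (0, p.2, n) (z' p.1)) :=
    measurable_ind (measurableSet_hitI hf (hz.comp measurable_fst))
  have h1 : Measurable fun p : X × Ph =>
      frI L hΦ hε η t w (V p.1) (e p.1) (0, p.2, n) (z' p.1) (D p.1) :=
    measurable_frI (hV.comp measurable_fst) (he.comp measurable_fst) hf (hz.comp measurable_fst)
      (hD.comp measurable_fst)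
  have h2 : Measurable fun p : X × Ph => gw b p.2.2 * (ind (hitI ε t (0, p.2, n) (z' p.1)) *
      frI L hΦ hε η t w (V p.1) (e p.1) (0, p.2, n) (z' p.1) (D p.1)) := hg.mul (hh.mul h1)
  exact h2.lintegral_prod_right'

/-- `μ FXn` is at most `C (1 + |v|)`. -/
theorem FXn_le (hb : 0 < b) (ht : 0 ≤ t) (n : ℕ) (V : Finset Src) (e : Src) (z' : Ph) (D : ℕ) :
    muE ε * FXn L hΦ hε b η t w n V e z' D ≤
      4 * (ENNReal.ofReal Real.pi * I0 b * ENNReal.ofReal t) * ENNReal.ofReal (1 + ‖z'.2‖) := by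
  have h1 : FXn L hΦ hε b η t w n V e z' D ≤
      ∫⁻ z : Ph, 4 * (gw b z.2 * ind (hitI ε t (0, z, n) z')) := by
    refine lintegral_mono fun z => ?_
    calc gw b z.2 * (ind (hitI ε t (0, z, n) z') * frI L hΦ hε η t w V e (0, z, n) z' D)
        ≤ gw b z.2 * (ind (hitI ε t (0, z, n) z') * 4) := by gcongr; exact frI_le e z' D
      _ = _ := by ring
  rw [lintegral_const_mul' _ _ (by norm_num)] at h1
  calc muE ε * FXn L hΦ hε b η t w n V e z' D
      ≤ muE ε * (4 * ((muE ε)⁻¹ * (ENNReal.ofReal Real.pi * I0 b * ENNReal.ofReal t) *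
        ENNReal.ofReal (1 + ‖z'.2‖))) :=
        mul_le_mul_right (h1.trans (mul_le_mul_right (flux_hitI hε hb ht n z') _)) _
    _ = (muE ε * (muE ε)⁻¹) * (4 * (ENNReal.ofReal Real.pi * I0 b * ENNReal.ofReal t) *
        ENNReal.ofReal (1 + ‖z'.2‖)) := by ring
    _ = _ := by rw [ENNReal.mul_inv_cancel (muE_ne_zero8 hε) muE_ne_top, one_mul]

open Classical in
/-- Sums over the exhausts commute with integrals. -/
theorem lintegral_exsum' {X : Type} [MeasurableSpace X] {ν : Measure X} (T : CTree)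
    {F : X → CTree → ℝ≥0∞} (hF : ∀ y, Measurable fun x => F x y) :
    ∫⁻ x, exsum T (F x) ∂ν = exsum T fun y => ∫⁻ x, F x y ∂ν := by
  unfold exsum
  have h1 : ∀ x, ∑' y : CTree, (if y ∈ TL.exs T then F x y else 0) =
      ∑ y ∈ (TL.exs_finite T).toFinset, F x y := by
    intro x
    rw [tsum_eq_sum (s := (TL.exs_finite T).toFinset)]
    · refine Finset.sum_congr rfl fun y hy => ?_
      rw [if_pos ((TL.exs_finite T).mem_toFinset.1 hy)]
    · intro y hy
      rw [if_neg fun h => hy ((TL.exs_finite T).mem_toFinset.2 h)]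
  have h2 : ∑' y : CTree, (if y ∈ TL.exs T then ∫⁻ x, F x y ∂ν else 0) =
      ∑ y ∈ (TL.exs_finite T).toFinset, ∫⁻ x, F x y ∂ν := by
    rw [tsum_eq_sum (s := (TL.exs_finite T).toFinset)]
    · refine Finset.sum_congr rfl fun y hy => ?_
      rw [if_pos ((TL.exs_finite T).mem_toFinset.1 hy)]
    · intro y hy
      rw [if_neg fun h => hy ((TL.exs_finite T).mem_toFinset.2 h)]
  simp only [h1, h2]
  exact lintegral_finsetSum _ fun y _ => hF y

/-- **The free line is integrated out first.** -/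
theorem FX_eq (h₀ : GoodDatum f₀ κ) (n : ℕ) : FX L hΦ hε f₀ b η t w n =
    XX Φ ε L f₀ t fun V T => exsum T fun x => FXn L hΦ hε b η t w n V (rsrc Φ ε x) (ln Φ ε T)
      T.depth := by
  have hln : Measurable fun T : CTree => ln Φ ε T := M.measurable_ln hΦ hε.ne'
  have hc : MM.RS fun p : GC.Conf Ph × CTree => (wS (GC.pts p.1) : Set Src) :=
    RM.rs_conf.comp measurable_fst
  have hm1 : Measurable fun p : Ph × (GC.Conf Ph × CTree) =>
      gw b p.1.2 * (ind (hitI ε t (0, p.1, n) (ln Φ ε p.2.2)) *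
        frG Φ ε (gI L hΦ hε η t (wS (GC.pts p.2.1))) (pI L hΦ hε η t w (wS (GC.pts p.2.1)))
          (0, p.1, n) p.2.2) := by
    refine ((measurable_gw b).comp measurable_fst.snd).mul ?_
    refine (measurable_ind (measurableSet_hitI (measurable_const.prodMk
      (measurable_fst.prodMk measurable_const)) (hln.comp measurable_snd.snd))).mul ?_
    exact measurable_frG (hc.comp measurable_snd) measurable_snd.snd
      (measurable_const.prodMk (measurable_fst.prodMk measurable_const))
  unfold FX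
  have h1 : ∀ z : Ph, gw b z.2 * (XX Φ ε L f₀ t fun V T =>
      ind (hitI ε t (0, z, n) (ln Φ ε T)) *
        frG Φ ε (gI L hΦ hε η t V) (pI L hΦ hε η t w V) (0, z, n) T) =
      XX Φ ε L f₀ t fun V T => gw b z.2 * (ind (hitI ε t (0, z, n) (ln Φ ε T)) *
        frG Φ ε (gI L hΦ hε η t V) (pI L hΦ hε η t w V) (0, z, n) T) := fun z =>
    (XX_const_mul h₀ hΦ hε ENNReal.ofReal_ne_top).symm
  simp only [h1]
  rw [lintegral_XX h₀ hΦ hε (H := fun z V T => gw b z.2 * (ind (hitI ε t (0, z, n) (ln Φ ε T)) *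
        frG Φ ε (gI L hΦ hε η t V) (pI L hΦ hε η t w V) (0, z, n) T)) hm1]
  unfold XX
  refine lintegral_congr fun c => lintegral_congr fun T => ?_
  congr 1
  have hx : ∀ x : CTree, Measurable fun z : Ph => gw b z.2 *
      (ind (hitI ε t (0, z, n) (ln Φ ε T)) * frI L hΦ hε η t w (wS (GC.pts c)) (rsrc Φ ε x)
        (0, z, n) (ln Φ ε T) T.depth) := by
    intro x
    have hf : Measurable fun z : Ph => ((0 : ℝ), z, n) :=
      measurable_const.prodMk (measurable_id.prodMk measurable_const)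
    refine ((measurable_gw b).comp measurable_snd).mul ?_
    refine (measurable_ind (measurableSet_hitI hf measurable_const)).mul ?_
    exact measurable_frI (V := fun _ => wS (GC.pts c)) (RM.rs_wS measurable_const)
      measurable_const hf measurable_const measurable_const
  have e := lintegral_exsum' (ν := (volume : Measure Ph)) T (F := fun z x => gw b z.2 *
      (ind (hitI ε t (0, z, n) (ln Φ ε T)) * frI L hΦ hε η t w (wS (GC.pts c)) (rsrc Φ ε x)
        (0, z, n) (ln Φ ε T) T.depth)) hx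
  refine Eq.trans ?_ e
  refine lintegral_congr fun z => ?_
  rw [frG_eq]
  unfold exsum
  rw [← ENNReal.tsum_mul_left, ← ENNReal.tsum_mul_left]
  refine tsum_congr fun x => ?_
  split_ifs
  · rfl
  · simp

end Vale.Agent.P119.PB
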