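import Vale.Agent.P119.PB.Lam6d
import Vale.Agent.P119.PB.Top8b
import Vale.Agent.P119.PB.PairsX
import Vale.Agent.P119.PB.Exh4

/-!
# P119, block PROB, P8: the exceptional pairs (`helper178`, after `helper228` and `helper336`)

`BX` (`Lam6d`): the pairs `(e, m)` for which the exceptional terms are larger than `δ` times the
probability that `e` touches.

* `rE6`, `GX`: the sources `e` for which the relevant trees have a small probability;
  `mem_GX`: off `BX` the source `e` is in `GX`;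
* `Mn6`: the main terms; `lam_gT6_compl_le`: the second events off `BX`, for a law of the pairs;
* `XX_le_ok`, `XX_exsum_le`, ..: on `BX` the alive trees are replaced by all the trees, and the
  world is integrated first.
-/

open MeasureTheory Filter Topology Set ProbabilityTheory
open scoped ENNReal NNReal

noncomputable section

namespace Vale.Agent.P119.PB

open M CTree KU FB RB AU FL TL

variable {Φ : E3 → ℝ} {ε : ℝ} {L : ℕ} {hΦ : IsPotential Φ} {hε : 0 < ε} {f₀ : Ph → ℝ}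
  {κ b Tm t t' η η' w u θ : ℝ} {e m : Src}

/-! ### The relevant trees -/

open Classical in
/-- The probability that `e` touches and that the weight of the relevant trees is not small. -/
def rE6 (L : ℕ) (hΦ : IsPotential Φ) (hε : 0 < ε) (f₀ : Ph → ℝ) (η θ t : ℝ) (e : Src) : ℝ≥0∞ :=
  ∫⁻ c, ind (TE L hΦ hε η t (wS (GC.pts c)) e ∧ ENNReal.ofReal (θ * mu ε) <
    relW L hΦ hε (insert e (wS (GC.pts c))) (wS (GC.pts c)) t) ∂(GC.PP f₀ ε)

/-- The sources for which the relevant trees have a small probability. -/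
def GX (L : ℕ) (hΦ : IsPotential Φ) (hε : 0 < ε) (f₀ : Ph → ℝ) (η θ t : ℝ) (δ : ℝ≥0∞) :
    Set Src :=
  {e | rE6 L hΦ hε f₀ η θ t e ≤ δ * tE6 L hΦ hε f₀ η t e}

theorem rE6_le_tE6 : rE6 L hΦ hε f₀ η θ t e ≤ tE6 L hΦ hε f₀ η t e :=
  lintegral_mono fun _ => ind_mono fun h => h.1

theorem measurable_rE6 (h₀ : GoodDatum f₀ κ) : Measurable (rE6 L hΦ hε f₀ η θ t) := by
  classical
  have := GC.isProbability_PP (ε := ε) h₀
  have hV : MM.RS fun q : Src × GC.Conf Ph => (wS (GC.pts q.2) : Set Src) :=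
    MM.RS.comp RM.rs_conf measurable_snd
  have hR : Measurable fun q : Src × GC.Conf Ph =>
      relW L hΦ hε (insert q.1 (wS (GC.pts q.2))) (wS (GC.pts q.2)) t :=
    RM.measurable_relW (RM.rs_ins hV measurable_fst) hV measurable_const
  have hS : MeasurableSet {q : Src × GC.Conf Ph | ENNReal.ofReal (θ * mu ε) <
      relW L hΦ hε (insert q.1 (wS (GC.pts q.2))) (wS (GC.pts q.2)) t} :=
    measurableSet_lt measurable_const hR
  have hT : Measurable fun q : Src × GC.Conf Ph =>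
      ind (TE L hΦ hε η t (wS (GC.pts q.2)) q.1 ∧ ENNReal.ofReal (θ * mu ε) <
        relW L hΦ hε (insert q.1 (wS (GC.pts q.2))) (wS (GC.pts q.2)) t) :=
    measurable_ind ((RM.measurableSet_TE hV measurable_fst).inter hS)
  exact hT.lintegral_prod_right'

theorem measurableSet_GX (h₀ : GoodDatum f₀ κ) {δ : ℝ≥0∞} :
    MeasurableSet (GX L hΦ hε f₀ η θ t δ) :=
  measurableSet_le (measurable_rE6 h₀) ((measurable_tE6' h₀).const_mul _)

theorem rE6_le_exc6 : rE6 L hΦ hε f₀ η θ t e ≤ exc6 L hΦ hε f₀ η θ t e m := by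
  classical
  refine lintegral_mono fun c => ?_
  change _ ≤ ex6 L hΦ hε η θ t (wS (GC.pts c)) e m
  unfold ex6
  refine le_add_right (le_add_right (ind_mono fun h => ⟨h.1, ?_⟩))
  exact Or.inr (Or.inr h.2)

theorem rE6_le_XJ (hm0 : 0 ≤ m.1) (hmd : m.2.2 ≤ L) {a : ℕ → ℝ≥0∞} {J : ℕ} (hJ : 0 < J) :
    rE6 L hΦ hε f₀ η θ t e ≤ XJ L hΦ hε f₀ b a η θ t J e m := by
  have h1 : E6 L hΦ hε f₀ η θ t e m = exc6 L hΦ hε f₀ η θ t e m := if_pos ⟨hm0, hmd⟩
  refine (rE6_le_exc6 (m := m)).trans ?_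
  rw [← h1]
  exact Finset.single_le_sum (f := fun j => KIt Φ ε b t a j (E6 L hΦ hε f₀ η θ t e) m)
    (fun _ _ => zero_le) (Finset.mem_range.2 hJ)

/-- **Off the exceptional pairs the source `e` is in `GX`.** -/
theorem mem_GX (hm0 : 0 ≤ m.1) (hmd : m.2.2 ≤ L) {a : ℕ → ℝ≥0∞} {J : ℕ} (hJ : 0 < J)
    {δ : ℝ≥0∞} (h : (e, m) ∉ BX L hΦ hε f₀ b a η θ t J δ) :
    e ∈ GX L hΦ hε f₀ η θ t δ := by
  have h1 : XJ L hΦ hε f₀ b a η θ t J e m ≤ δ * tE6 L hΦ hε f₀ η t e := not_lt.1 h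
  exact (rE6_le_XJ hm0 hmd hJ).trans h1

theorem tE6_le_of_notMem {δ : ℝ≥0∞} (hδ : δ ≠ 0) (hδ' : δ ≠ ∞)
    (h : e ∉ GX L hΦ hε f₀ η θ t δ) :
    tE6 L hΦ hε f₀ η t e ≤ δ⁻¹ * rE6 L hΦ hε f₀ η θ t e := by
  have h1 : δ * tE6 L hΦ hε f₀ η t e < rE6 L hΦ hε f₀ η θ t e := not_le.1 h
  calc tE6 L hΦ hε f₀ η t e = δ⁻¹ * (δ * tE6 L hΦ hε f₀ η t e) := by
        rw [← mul_assoc, ENNReal.inv_mul_cancel hδ hδ', one_mul]
    _ ≤ _ := mul_le_mul' le_rfl h1.le

/-! ### Off the exceptional pairs -/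

/-- The main terms of the iterated second events. -/
def Mn6 (L : ℕ) (hΦ : IsPotential Φ) (hε : 0 < ε) (f₀ : Ph → ℝ) (b : ℝ) (a : ℕ → ℝ≥0∞)
    (η t w u t' : ℝ) (J : ℕ) (e m : Src) : ℝ≥0∞ :=
  (∑ j ∈ Finset.range J, (∑' n, a n) ^ j *
      Gc hΦ hε.ne' b t' j (F6 L hΦ hε f₀ b a η t w u e) m.1 m.2.1) +
    (∑' n, a n) ^ J * Gc hΦ hε.ne' b t' J (fun _ _ => tE6 L hΦ hε f₀ η t e) m.1 m.2.1

theorem measurable_Mn6 (h₀ : GoodDatum f₀ κ) {J : ℕ} {a : ℕ → ℝ≥0∞} {u : Src × Src → ℝ}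
    (hu : Measurable u) : Measurable fun p : Src × Src =>
      Mn6 L hΦ hε f₀ b a η t w (u p) t' J p.1 p.2 := by
  unfold Mn6
  exact (Finset.measurable_sum _ fun j _ => (measurable_Gc_F6 h₀ hu j).const_mul _).add
    ((measurable_Gc_tE6 h₀ J).const_mul _)

theorem HitLam.mono_measure {hε' : ε ≠ 0} {A : ℝ≥0∞} {lam lam' : Measure (Src × Src)}
    {C : ℕ → ℝ≥0∞} (h : HitLam hΦ hε' b t t' A lam C) (hl : lam' ≤ lam) :
    HitLam hΦ hε' b t t' A lam' C := fun j z' => (lintegral_mono' hl le_rfl).trans (h j z')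

/-- **The second events off the exceptional pairs**, for a law of the pairs. -/
theorem lam_gT6_compl_le (h₀ : GoodDatum f₀ κ) (ht : 0 ≤ t) (htT : t ≤ Tm) (hη : 0 < η)
    (hηη : η < η') (hw : t ≤ w) {α : ℕ → ℝ≥0∞} {ν : Kernel (GC.Conf Ph) Src}
    [IsSFiniteKernel ν] (hcap : CapI Φ ε L f₀ b Tm α fun c => ν c) {J : ℕ} (hJ : 0 < J)
    (htt : t < t') {A : ℝ≥0∞} (hA : 1 ≤ A) (hA' : A ≠ ∞) {a : ℕ → ℝ≥0∞}
    (ha : a = fun n => α n * ENNReal.ofReal (1 + Tm)) {lam : Measure (Src × Src)} [SFinite lam]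
    (hlam : ∀ᵐ p ∂lam, 0 ≤ p.1.1 ∧ p.1.2.2 ≤ L ∧ 0 ≤ p.2.1) {C : ℕ → ℝ≥0∞}
    (hH : HitLam hΦ hε.ne' b t t' A lam C) {u : Src × Src → ℝ} (hu : Measurable u) {δ : ℝ≥0∞} :
    ∫⁻ p in (BX L hΦ hε f₀ b a η' ((η' - η) / J) t J δ)ᶜ, gT6 L hΦ hε f₀ η t p.1 p.2 ∂lam ≤
      (∫⁻ p, ind (p.1 ∈ GX L hΦ hε f₀ η' ((η' - η) / J) t δ) *
        Mn6 L hΦ hε f₀ b a η' t w (u p) t' J p.1 p.2 ∂lam) +
      (A ^ L)⁻¹ * ((∑ j ∈ Finset.range J,
          (A * (∑' n, a n + ∑' n, a n * A ^ n)) ^ j * C j) * (ENNReal.ofReal (ε ^ 2) *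
        XX Φ ε L f₀ t fun _ T => A ^ T.depth * ENNReal.ofReal (1 + ‖(ln Φ ε T).2‖))) +
      5 * ((∑ j ∈ Finset.range J, (∑' n, a n) ^ j * C j) * (ENNReal.ofReal (ε ^ 2) *
        (muE ε * ∫⁻ c, ∫⁻ p, ENNReal.ofReal (1 + ‖p.2.1.2‖) ∂(ν c) ∂(GC.PP f₀ ε)))) +
      δ * ∫⁻ p, tE6 L hΦ hε f₀ η' t p.1 ∂lam := by
  classical
  have hBm : MeasurableSet (BX L hΦ hε f₀ b a η' ((η' - η) / J) t J δ)ᶜ :=
    (measurableSet_BX h₀).compl
  have m1 : Measurable fun p : Src × Src => ind (p.1 ∈ GX L hΦ hε f₀ η' ((η' - η) / J) t δ) *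
      Mn6 L hΦ hε f₀ b a η' t w (u p) t' J p.1 p.2 :=
    (measurable_ind (measurable_fst (measurableSet_GX h₀))).mul (measurable_Mn6 h₀ hu)
  have m3 : Measurable fun p : Src × Src => A ^ p.2.2.2 * (A ^ L)⁻¹ *
      (∑ j ∈ Finset.range J, (A * (∑' n, a n + ∑' n, a n * A ^ n)) ^ j *
        Gc hΦ hε.ne' b t' j (FA f₀ Φ ε L t A) p.2.1 p.2.2.1) :=
    ((measurable_powD A (measurable_snd.comp (measurable_snd.comp measurable_snd))).mul_const
      _).mul (Finset.measurable_sum _ fun j _ =>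
        (measurable_Gc_line (hε := hε) j (measurable_FA h₀ hΦ hε)).const_mul _)
  have m4 : Measurable fun p : Src × Src => 5 * (∑ j ∈ Finset.range J, (∑' n, a n) ^ j *
      Gc hΦ hε.ne' b t' j (atyL (GC.PP f₀ ε) (fun c => ν c) ε t) p.2.1 p.2.2.1) :=
    (Finset.measurable_sum _ fun j _ =>
      (measurable_Gc_line (hε := hε) j (measurable_atyL h₀ ν)).const_mul _).const_mul _
  have m6 : Measurable fun p : Src × Src => tE6 L hΦ hε f₀ η' t p.1 :=
    (measurable_tE6' h₀).comp measurable_fst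
  have hpt : ∀ᵐ p ∂lam, (BX L hΦ hε f₀ b a η' ((η' - η) / J) t J δ)ᶜ.indicator
      (fun p => gT6 L hΦ hε f₀ η t p.1 p.2) p ≤
      ind (p.1 ∈ GX L hΦ hε f₀ η' ((η' - η) / J) t δ) *
        Mn6 L hΦ hε f₀ b a η' t w (u p) t' J p.1 p.2 +
      A ^ p.2.2.2 * (A ^ L)⁻¹ * (∑ j ∈ Finset.range J,
        (A * (∑' n, a n + ∑' n, a n * A ^ n)) ^ j *
        Gc hΦ hε.ne' b t' j (FA f₀ Φ ε L t A) p.2.1 p.2.2.1) +
      5 * (∑ j ∈ Finset.range J, (∑' n, a n) ^ j *
        Gc hΦ hε.ne' b t' j (atyL (GC.PP f₀ ε) (fun c => ν c) ε t) p.2.1 p.2.2.1) +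
      δ * tE6 L hΦ hε f₀ η' t p.1 := by
    refine hlam.mono fun p hp => ?_
    by_cases hB : p ∈ (BX L hΦ hε f₀ b a η' ((η' - η) / J) t J δ)ᶜ
    swap
    · rw [indicator_of_notMem hB]
      exact zero_le
    rw [indicator_of_mem hB]
    by_cases hd : p.2.2.2 ≤ L
    swap
    · rw [gT6_of_depth (not_le.1 hd)]
      exact zero_le
    have h1 := gT6_le_Psi6 (e := p.1) (m := p.2) h₀ ht htT hη hηη hw hp.1 hp.2.1 hp.2.2 hcap hJ
      htt hA hA' ha hB (u p)
    have h2 : p.1 ∈ GX L hΦ hε f₀ η' ((η' - η) / J) t δ := mem_GX hp.2.2 hd hJ hB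
    rw [ind_of h2, one_mul]
    exact h1
  rw [← lintegral_indicator hBm]
  refine (lintegral_mono_ae hpt).trans ?_
  have a3 := m1.add m3
  have a4 := a3.add m4
  have e1 : ∀ f₁ f₂ f₃ f₄ : Src × Src → ℝ≥0∞, Measurable (fun p => f₁ p + f₂ p) →
      Measurable (fun p => f₁ p + f₂ p + f₃ p) → Measurable f₁ →
      ∫⁻ p, (f₁ p + f₂ p + f₃ p + f₄ p) ∂lam = (∫⁻ p, f₁ p ∂lam) + (∫⁻ p, f₂ p ∂lam) +
        (∫⁻ p, f₃ p ∂lam) + ∫⁻ p, f₄ p ∂lam := by
    intro f₁ f₂ f₃ f₄ h2 h3 h1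
    rw [lintegral_add_left h3, lintegral_add_left h2, lintegral_add_left h1]
  rw [e1 _ _ _ _ a3 a4 m1]
  refine add_le_add (add_le_add (add_le_add le_rfl ?_) ?_) (le_of_eq ?_)
  · exact lam_over_sum (hε := hε) h₀ hH hA' _ J
  · exact lam_aty_sum (hε := hε) h₀ hH hA hA' ν _ J
  · exact lintegral_const_mul _ m6

/-! ### On the exceptional pairs -/

/-- **The alive trees are replaced by all the trees**, and the world is integrated first. -/
theorem XX_le_ok (h₀ : GoodDatum f₀ κ) (hΦ : IsPotential Φ) (hε : 0 < ε)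
    {F : Finset Src → CTree → ℝ≥0∞}
    (hF : Measurable fun p : GC.Conf Ph × CTree => F (wS (GC.pts p.1)) p.2) :
    XX Φ ε L f₀ t F ≤ ∫⁻ T in okT Φ ε t L, ∫⁻ c, F (wS (GC.pts c)) T ∂(GC.PP f₀ ε)
      ∂(tree (GC.inten f₀ ε) L) := by
  have hfin := GC.isFiniteMeasure_inten (ε := ε) h₀
  have hP := GC.isProbability_PP (ε := ε) h₀
  have hok : MeasurableSet (okT Φ ε t L) := measurableSet_okT hΦ hε.ne' L
  calc XX Φ ε L f₀ t F ≤ ∫⁻ c, ∫⁻ T in okT Φ ε t L, F (wS (GC.pts c)) T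
        ∂(tree (GC.inten f₀ ε) L) ∂(GC.PP f₀ ε) := by
        refine lintegral_mono fun c => ?_
        rw [← lintegral_indicator hok]
        refine lintegral_mono fun T => ?_
        by_cases hT : alT Φ ε L t (wS (GC.pts c)) T
        · rw [ind_of hT, one_mul, indicator_of_mem (show T ∈ okT Φ ε t L from
            ⟨hT.ok, hT.ext_le, hT.depth⟩)]
        · rw [ind_of_not hT, zero_mul]
          exact zero_le
    _ = _ := lintegral_lintegral_swap hF.aemeasurable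

/-- The pairs of exhausts and outgoing lines, with the world integrated first. -/
theorem lintegral_twoG {X : Type} [MeasurableSpace X] {ν : Measure X} {Ψ : X → Src → Src → ℝ≥0∞}
    (hΨ : ∀ e m, Measurable fun x => Ψ x e m) (T : CTree) :
    ∫⁻ x, twoG Φ ε (Ψ x) T ∂ν = twoG Φ ε (fun e m => ∫⁻ x, Ψ x e m ∂ν) T := by
  classical
  have hy : ∀ x' y : CTree, Measurable fun x => if x' = y then (0 : ℝ≥0∞) else
      Ψ x (rsrc Φ ε x') (rsrc Φ ε y) := by
    intro x' y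
    by_cases h : x' = y
    · simp only [if_pos h, measurable_const]
    · simp only [if_neg h]
      exact hΨ _ _
  have hs : ∀ x' : CTree, Measurable fun x => exsum T fun y => if x' = y then (0 : ℝ≥0∞) else
      Ψ x (rsrc Φ ε x') (rsrc Φ ε y) := by
    intro x'
    have e1 : (fun x => exsum T fun y => if x' = y then (0 : ℝ≥0∞) else
        Ψ x (rsrc Φ ε x') (rsrc Φ ε y)) = fun x => ∑ y ∈ (TL.exs_finite T).toFinset,
        if x' = y then (0 : ℝ≥0∞) else Ψ x (rsrc Φ ε x') (rsrc Φ ε y) := by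
      funext x
      unfold exsum
      rw [tsum_eq_sum (s := (TL.exs_finite T).toFinset)]
      · refine Finset.sum_congr rfl fun y hy => ?_
        rw [if_pos ((TL.exs_finite T).mem_toFinset.1 hy)]
      · intro y hy
        rw [if_neg fun h => hy ((TL.exs_finite T).mem_toFinset.2 h)]
    rw [e1]
    exact Finset.measurable_sum _ fun y _ => hy x' y
  unfold twoG
  have hsum : ∀ x' : CTree, Measurable fun x => Ψ x (rsrc Φ ε x') (rsrc Φ ε T) +
      exsum T fun y => if x' = y then (0 : ℝ≥0∞) else Ψ x (rsrc Φ ε x') (rsrc Φ ε y) :=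
    fun x' => (hΨ _ _).add (hs x')
  rw [lintegral_exsum' T (F := fun x x' => Ψ x (rsrc Φ ε x') (rsrc Φ ε T) +
      exsum T fun y => if x' = y then (0 : ℝ≥0∞) else Ψ x (rsrc Φ ε x') (rsrc Φ ε y)) hsum]
  refine tsum_congr fun x' => ?_
  split_ifs with hx
  · change ∫⁻ x, (Ψ x (rsrc Φ ε x') (rsrc Φ ε T) + exsum T fun y => if x' = y then (0 : ℝ≥0∞) else
      Ψ x (rsrc Φ ε x') (rsrc Φ ε y)) ∂ν = (∫⁻ x, Ψ x (rsrc Φ ε x') (rsrc Φ ε T) ∂ν) +
      exsum T fun y => if x' = y then (0 : ℝ≥0∞) else ∫⁻ x, Ψ x (rsrc Φ ε x') (rsrc Φ ε y) ∂ν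
    rw [lintegral_add_left (hΨ _ _), lintegral_exsum' T (F := fun x y => if x' = y then
      (0 : ℝ≥0∞) else Ψ x (rsrc Φ ε x') (rsrc Φ ε y)) fun y => hy x' y]
    congr 1
    refine tsum_congr fun y => ?_
    by_cases h1 : y ∈ TL.exs T
    · by_cases h2 : x' = y
      · simp only [if_pos h2, lintegral_zero]
      · simp only [if_neg h2]
    · simp only [if_neg h1]
  · rfl

/-- The fresh lines, with the world integrated first. -/
theorem lintegral_frS {X : Type} [MeasurableSpace X] {ν : Measure X} {Ψ : X → Src → ℝ≥0∞}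
    (hΨ : ∀ m, Measurable fun x => Ψ x m) (σ : Src) (z' : Ph) (D : ℕ) :
    ∫⁻ x, frS Φ ε (Ψ x) σ z' D ∂ν = frS Φ ε (fun m => ∫⁻ x, Ψ x m ∂ν) σ z' D := by
  unfold frS
  have h1 := hΨ (sepT Φ ε (σ.2.1, z'), (sc2 Φ ε (σ.2.1, z')).1, max σ.2.2 D + 1)
  have h2 := hΨ (sepT Φ ε (σ.2.1, z'), (sc2 Φ ε (σ.2.1, z')).2, max σ.2.2 D + 1)
  have h3 : Measurable fun x => Ψ x (sepT Φ ε (σ.2.1, z'), (sc2 Φ ε (σ.2.1, z')).1,
      max σ.2.2 D + 1) + Ψ x (sepT Φ ε (σ.2.1, z'), (sc2 Φ ε (σ.2.1, z')).2, max σ.2.2 D + 1) :=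
    h1.add h2
  rw [lintegral_add_left h3, lintegral_add_left h1]

theorem twoG_const_mul {C : ℝ≥0∞} {Ψ : Src → Src → ℝ≥0∞} (T : CTree) :
    twoG Φ ε (fun e m => C * Ψ e m) T = C * twoG Φ ε Ψ T := by
  classical
  unfold twoG exsum
  rw [← ENNReal.tsum_mul_left]
  refine tsum_congr fun x => ?_
  by_cases hx : x ∈ TL.exs T
  · simp only [if_pos hx]
    rw [mul_add, ← ENNReal.tsum_mul_left]
    congr 1
    refine tsum_congr fun y => ?_
    by_cases h1 : y ∈ TL.exs T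
    · by_cases h2 : x = y
      · simp only [if_pos h2, mul_zero, ite_self]
      · simp only [if_neg h2, if_pos h1]
    · simp only [if_neg h1, mul_zero]
  · simp only [if_neg hx, mul_zero]

theorem frS_const_mul {C : ℝ≥0∞} {Ψ : Src → ℝ≥0∞} (σ : Src) (z' : Ph) (D : ℕ) :
    frS Φ ε (fun m => C * Ψ m) σ z' D = C * frS Φ ε Ψ σ z' D := by
  unfold frS
  ring

theorem exsum_const_mul {C : ℝ≥0∞} {F : CTree → ℝ≥0∞} (T : CTree) :
    exsum T (fun x => C * F x) = C * exsum T F := by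
  classical
  unfold exsum
  rw [← ENNReal.tsum_mul_left]
  refine tsum_congr fun x => ?_
  split_ifs
  · rfl
  · rw [mul_zero]

/-! ### The expectations on the exceptional pairs -/

variable {δ : ℝ≥0∞} {a : ℕ → ℝ≥0∞} {J : ℕ}

open Classical in
/-- The second events, on the exceptional pairs. -/
def gIB (L : ℕ) (hΦ : IsPotential Φ) (hε : 0 < ε) (f₀ : Ph → ℝ) (b : ℝ) (a : ℕ → ℝ≥0∞)
    (η η' θ t : ℝ) (J : ℕ) (δ : ℝ≥0∞) (V : Finset Src) (e m : Src) : ℝ≥0∞ :=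
  gI L hΦ hε η t V e m * ind ((e, m) ∈ BX L hΦ hε f₀ b a η' θ t J δ)

open Classical in
/-- The second events of a pair, for the sources which are not in `GX`. -/
def pIB (L : ℕ) (hΦ : IsPotential Φ) (hε : 0 < ε) (f₀ : Ph → ℝ)
    (η η' θ t w : ℝ) (δ : ℝ≥0∞) (V : Finset Src) (e σ : Src) (z' : Ph) : ℝ≥0∞ :=
  pI L hΦ hε η t w V e σ z' * ind (e ∉ GX L hΦ hε f₀ η' θ t δ)

theorem measurable_gIB (h₀ : GoodDatum f₀ κ) {X : Type} [MeasurableSpace X] {V : X → Finset Src}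
    {e m : X → Src} (hV : MM.RS fun x => (V x : Set Src)) (he : Measurable e)
    (hm : Measurable m) :
    Measurable fun x => gIB L hΦ hε f₀ b a η η' θ t J δ (V x) (e x) (m x) := by
  unfold gIB
  exact (measurable_gI hV measurable_const measurable_const he hm).mul
    (measurable_ind ((he.prodMk hm) (measurableSet_BX h₀)))

theorem measurable_pIB (h₀ : GoodDatum f₀ κ) {X : Type} [MeasurableSpace X] {V : X → Finset Src}
    {e σ : X → Src} {z' : X → Ph} (hV : MM.RS fun x => (V x : Set Src)) (he : Measurable e)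
    (hσ : Measurable σ) (hz : Measurable z') :
    Measurable fun x => pIB L hΦ hε f₀ η η' θ t w δ (V x) (e x) (σ x) (z' x) := by
  unfold pIB
  exact (measurable_pI hV measurable_const measurable_const measurable_const he hσ hz).mul
    (measurable_ind (he (measurableSet_GX h₀).compl))

theorem lintegral_gIB_le (ht : 0 ≤ t) (hη : 0 < η) (hηη : η ≤ η') (hδ : δ ≠ 0) (hδ' : δ ≠ ∞)
    (e m : Src) : ∫⁻ c, gIB L hΦ hε f₀ b a η η' θ t J δ (wS (GC.pts c)) e m ∂(GC.PP f₀ ε) ≤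
      δ⁻¹ * XJ L hΦ hε f₀ b a η' θ t J e m := by
  classical
  by_cases h : (e, m) ∈ BX L hΦ hε f₀ b a η' θ t J δ
  · refine le_trans (lintegral_mono fun c => ?_) (gT6_le_of_mem ht hη hηη hδ hδ' h)
    unfold gIB
    rw [ind_of h, mul_one]
    exact le_rfl
  · have h1 : ∀ c : GC.Conf Ph,
        gIB L hΦ hε f₀ b a η η' θ t J δ (wS (GC.pts c)) e m = 0 := by
      intro c
      unfold gIB
      rw [ind_of_not h, mul_zero]
    simp only [h1, lintegral_zero]
    exact zero_le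

theorem pI_le_TE {V : Finset Src} {σ : Src} {z' : Ph} :
    pI L hΦ hε η t w V e σ z' ≤ ind (TE L hΦ hε η t V e) := ind_mono fun h => h.1

theorem lintegral_pIB_le (ht : 0 ≤ t) (hη : 0 < η) (hηη : η ≤ η') (hδ : δ ≠ 0) (hδ' : δ ≠ ∞)
    (e σ : Src) (z' : Ph) :
    ∫⁻ c, pIB L hΦ hε f₀ η η' θ t w δ (wS (GC.pts c)) e σ z' ∂(GC.PP f₀ ε) ≤
      δ⁻¹ * rE6 L hΦ hε f₀ η' θ t e := by
  classical
  by_cases h : e ∉ GX L hΦ hε f₀ η' θ t δ
  · refine le_trans (lintegral_mono fun c => ?_)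
      ((tE6_mono hη hηη ht).trans (tE6_le_of_notMem hδ hδ' h))
    unfold pIB
    rw [ind_of h, mul_one]
    exact pI_le_TE
  · have h1 : ∀ c : GC.Conf Ph,
        pIB L hΦ hε f₀ η η' θ t w δ (wS (GC.pts c)) e σ z' = 0 := by
      intro c
      unfold pIB
      rw [ind_of_not h, mul_zero]
    simp only [h1, lintegral_zero]
    exact zero_le

/-- The decomposition of the second events. -/
theorem gI_split {V : Finset Src} : gI L hΦ hε η t V e m =
    gI L hΦ hε η t V e m * ind ((e, m) ∉ BX L hΦ hε f₀ b a η' θ t J δ) +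
      gIB L hΦ hε f₀ b a η η' θ t J δ V e m := by
  classical
  unfold gIB
  by_cases h : (e, m) ∈ BX L hΦ hε f₀ b a η' θ t J δ
  · rw [ind_of h, ind_of_not (not_not.2 h), mul_one, mul_zero, zero_add]
  · rw [ind_of_not h, ind_of h, mul_one, mul_zero, add_zero]

theorem pI_split {V : Finset Src} {σ : Src} {z' : Ph} : pI L hΦ hε η t w V e σ z' =
    pI L hΦ hε η t w V e σ z' * ind (e ∈ GX L hΦ hε f₀ η' θ t δ) +
      pIB L hΦ hε f₀ η η' θ t w δ V e σ z' := by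
  classical
  unfold pIB
  by_cases h : e ∈ GX L hΦ hε f₀ η' θ t δ
  · rw [ind_of h, ind_of_not (not_not.2 h), mul_one, mul_zero, add_zero]
  · rw [ind_of_not h, ind_of h, mul_one, mul_zero, zero_add]

/-! ### One tree -/

open Classical in
theorem measurable_twoGp {X : Type} [MeasurableSpace X] (hΦ : IsPotential Φ) (hε : 0 < ε)
    {Ψ : X → Src → Src → ℝ≥0∞}
    (hΨ : Measurable fun p : X × (Src × Src) => Ψ p.1 p.2.1 p.2.2) {T : X → CTree}
    (hT : Measurable T) : Measurable fun x => twoG Φ ε (Ψ x) (T x) := by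
  have hT1 : Measurable fun p : X × CTree => T p.1 := hT.comp measurable_fst
  have hr : Measurable fun p : X × CTree => rsrc Φ ε p.2 := RM.meas_rsrc hΦ hε measurable_snd
  have hrT : Measurable fun p : X × CTree => rsrc Φ ε (T p.1) := RM.meas_rsrc hΦ hε hT1
  have hr2 : Measurable fun q : (X × CTree) × CTree => rsrc Φ ε q.2 :=
    RM.meas_rsrc hΦ hε measurable_snd
  unfold twoG
  refine RM.measurable_exsum' hT (F := fun x y => Ψ x (rsrc Φ ε y) (rsrc Φ ε (T x)) +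
    exsum (T x) fun y' => if y = y' then 0 else Ψ x (rsrc Φ ε y) (rsrc Φ ε y')) ?_
  refine Measurable.add ?_ ?_
  · exact hΨ.comp (measurable_fst.prodMk (hr.prodMk hrT))
  · refine RM.measurable_exsum' (X := X × CTree) hT1 (F := fun p y' =>
      if p.2 = y' then 0 else Ψ p.1 (rsrc Φ ε p.2) (rsrc Φ ε y')) ?_
    refine Measurable.ite (measurableSet_eq_fun measurable_fst.snd measurable_snd)
      measurable_const ?_
    exact hΨ.comp ((measurable_fst.comp measurable_fst).prodMk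
      ((hr.comp measurable_fst).prodMk hr2))

theorem measurable_frSp {X : Type} [MeasurableSpace X] (hΦ : IsPotential Φ) (hε : 0 < ε)
    {Ψ : X → Src → ℝ≥0∞} (hΨ : Measurable fun p : X × Src => Ψ p.1 p.2)
    {f : X → Src} {z' : X → Ph} {D : X → ℕ} (hf : Measurable f) (hz : Measurable z')
    (hD : Measurable D) : Measurable fun x => frS Φ ε (Ψ x) (f x) (z' x) (D x) := by
  have hq : Measurable fun x => ((f x).2.1, z' x) :=
    (measurable_fst.comp (measurable_snd.comp hf)).prodMk hz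
  have hh : Measurable fun x => hitT ε ((f x).2.1, z' x) := measurable_hitT.comp hq
  have hs : Measurable fun x => sepT Φ ε ((f x).2.1, z' x) := (measurable_sepT hΦ).comp hq
  have hd : Measurable fun x => max (f x).2.2 (D x) + 1 :=
    ((measurable_snd.comp (measurable_snd.comp hf)).max hD).add_const 1
  have hsc := (measurable_sc2 hΦ hε.ne').comp hq
  have hx : Measurable fun x : X => x := measurable_id
  unfold frS
  refine Measurable.add (Measurable.add ?_ ?_) ?_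
  · exact hΨ.comp (hx.prodMk (hs.prodMk (hsc.fst.prodMk hd)))
  · exact hΨ.comp (hx.prodMk (hs.prodMk (hsc.snd.prodMk hd)))
  · exact hΨ.comp (hx.prodMk (hh.prodMk (hz.prodMk hD)))

/-- **One tree, pairs of outgoing lines**: the exceptional pairs. -/
theorem XX_twoG_ok_le (h₀ : GoodDatum f₀ κ) (hΦ : IsPotential Φ) (hε : 0 < ε)
    {ψ : Finset Src → Src → Src → ℝ≥0∞}
    (hψ : Measurable fun p : GC.Conf Ph × (Src × Src) => ψ (wS (GC.pts p.1)) p.2.1 p.2.2)
    {C : ℝ≥0∞} (hC : C ≠ ∞) {K : Src → Src → ℝ≥0∞}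
    (hK : ∀ e m, ∫⁻ c, ψ (wS (GC.pts c)) e m ∂(GC.PP f₀ ε) ≤ C * K e m)
    {g : CTree → ℝ≥0∞} (hg : Measurable g) :
    XX Φ ε L f₀ t (fun V T => g T * twoG Φ ε (ψ V) T) ≤
      C * ∫⁻ T in okT Φ ε t L, g T * twoG Φ ε K T ∂(tree (GC.inten f₀ ε) L) := by
  have h2 : Measurable fun p : GC.Conf Ph × CTree => twoG Φ ε (ψ (wS (GC.pts p.1))) p.2 :=
    measurable_twoGp hΦ hε (Ψ := fun p : GC.Conf Ph × CTree => ψ (wS (GC.pts p.1)))
      (hψ.comp ((measurable_fst.comp measurable_fst).prodMk measurable_snd)) measurable_snd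
  refine (XX_le_ok h₀ hΦ hε (F := fun V T => g T * twoG Φ ε (ψ V) T)
    ((hg.comp measurable_snd).mul h2)).trans ?_
  rw [← lintegral_const_mul' _ _ hC]
  refine lintegral_mono fun T => ?_
  have h3 : Measurable fun c : GC.Conf Ph => twoG Φ ε (ψ (wS (GC.pts c))) T :=
    h2.comp (measurable_id.prodMk measurable_const)
  have h4 : ∀ e m : Src, Measurable fun c : GC.Conf Ph => ψ (wS (GC.pts c)) e m := fun e m =>
    hψ.comp (measurable_id.prodMk (measurable_const (a := ((e, m) : Src × Src))))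
  change ∫⁻ c, g T * twoG Φ ε (ψ (wS (GC.pts c))) T ∂(GC.PP f₀ ε) ≤ _
  rw [lintegral_const_mul _ h3, lintegral_twoG (Ψ := fun c : GC.Conf Ph => ψ (wS (GC.pts c))) h4]
  calc g T * twoG Φ ε (fun e m => ∫⁻ c, ψ (wS (GC.pts c)) e m ∂(GC.PP f₀ ε)) T
      ≤ g T * twoG Φ ε (fun e m => C * K e m) T := mul_le_mul' le_rfl (twoG_mono hK)
    _ = C * (g T * twoG Φ ε K T) := by rw [twoG_const_mul]; ring

/-- **One tree, sums over the exhausts.** -/
theorem XX_exsum_ok_le (h₀ : GoodDatum f₀ κ) (hΦ : IsPotential Φ) (hε : 0 < ε)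
    {G : Finset Src → CTree → CTree → ℝ≥0∞}
    (hG : Measurable fun p : (GC.Conf Ph × CTree) × CTree =>
      G (wS (GC.pts p.1.1)) p.1.2 p.2)
    {C : ℝ≥0∞} (hC : C ≠ ∞) {K : CTree → CTree → ℝ≥0∞}
    (hK : ∀ T x, ∫⁻ c, G (wS (GC.pts c)) T x ∂(GC.PP f₀ ε) ≤ C * K T x)
    {g : CTree → ℝ≥0∞} (hg : Measurable g) :
    XX Φ ε L f₀ t (fun V T => g T * exsum T (G V T)) ≤
      C * ∫⁻ T in okT Φ ε t L, g T * exsum T (K T) ∂(tree (GC.inten f₀ ε) L) := by
  have h2 : Measurable fun p : GC.Conf Ph × CTree => exsum p.2 (G (wS (GC.pts p.1)) p.2) :=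
    RM.measurable_exsum' (X := GC.Conf Ph × CTree) (T := fun p => p.2) measurable_snd
      (F := fun p x => G (wS (GC.pts p.1)) p.2 x) hG
  refine (XX_le_ok h₀ hΦ hε (F := fun V T => g T * exsum T (G V T))
    ((hg.comp measurable_snd).mul h2)).trans ?_
  rw [← lintegral_const_mul' _ _ hC]
  refine lintegral_mono fun T => ?_
  have h3 : Measurable fun c : GC.Conf Ph => exsum T (G (wS (GC.pts c)) T) :=
    h2.comp (measurable_id.prodMk measurable_const)
  have h4 : ∀ x : CTree, Measurable fun c : GC.Conf Ph => G (wS (GC.pts c)) T x := fun x =>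
    hG.comp ((measurable_id.prodMk measurable_const).prodMk measurable_const)
  change ∫⁻ c, g T * exsum T (G (wS (GC.pts c)) T) ∂(GC.PP f₀ ε) ≤ _
  rw [lintegral_const_mul _ h3,
    lintegral_exsum' T (F := fun c : GC.Conf Ph => G (wS (GC.pts c)) T) h4]
  calc g T * exsum T (fun x => ∫⁻ c, G (wS (GC.pts c)) T x ∂(GC.PP f₀ ε))
      ≤ g T * exsum T (fun x => C * K T x) := mul_le_mul' le_rfl (exsum_mono fun x _ => hK T x)
    _ = C * (g T * exsum T (K T)) := by rw [exsum_const_mul]; ring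

/-- **The second events of the pairs of outgoing lines, on the exceptional pairs** (`P2g`). -/
theorem XX_gIB_le (h₀ : GoodDatum f₀ κ) (ht : 0 ≤ t) (hη : 0 < η) (hηη : η ≤ η') (hδ : δ ≠ 0)
    (hδ' : δ ≠ ∞) {g : CTree → ℝ≥0∞} (hg : Measurable g) :
    XX Φ ε L f₀ t (fun V T =>
      g T * twoG Φ ε (gIB L hΦ hε f₀ b a η η' θ t J δ V) T) ≤
      δ⁻¹ * ∫⁻ T in okT Φ ε t L, g T * twoG Φ ε (XJ L hΦ hε f₀ b a η' θ t J) T
        ∂(tree (GC.inten f₀ ε) L) :=
  XX_twoG_ok_le h₀ hΦ hε (measurable_gIB h₀ (RM.rs_conf.comp measurable_fst)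
    measurable_snd.fst measurable_snd.snd) (ENNReal.inv_ne_top.2 hδ)
    (fun e m => lintegral_gIB_le ht hη hηη hδ hδ' e m) hg

/-- **The second events of an exhaust and the fresh lines, on the exceptional pairs** (`FXg`), for
a fixed free line `z`. -/
theorem XX_frS_gIB_le (h₀ : GoodDatum f₀ κ) (ht : 0 ≤ t) (hη : 0 < η) (hηη : η ≤ η')
    (hδ : δ ≠ 0) (hδ' : δ ≠ ∞) {g : CTree → ℝ≥0∞} (hg : Measurable g) (σ : Src) :
    XX Φ ε L f₀ t (fun V T => g T * exsum T fun x =>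
      frS Φ ε (gIB L hΦ hε f₀ b a η η' θ t J δ V (rsrc Φ ε x)) σ (ln Φ ε T) T.depth) ≤
      δ⁻¹ * ∫⁻ T in okT Φ ε t L, g T * exsum T (fun x =>
        frS Φ ε (XJ L hΦ hε f₀ b a η' θ t J (rsrc Φ ε x)) σ (ln Φ ε T) T.depth)
        ∂(tree (GC.inten f₀ ε) L) := by
  have hV : MM.RS fun p : ((GC.Conf Ph × CTree) × CTree) × Src =>
      (wS (GC.pts p.1.1.1) : Set Src) :=
    RM.rs_conf.comp (measurable_fst.comp (measurable_fst.comp measurable_fst))
  have hr : Measurable fun p : ((GC.Conf Ph × CTree) × CTree) × Src => rsrc Φ ε p.1.2 :=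
    RM.meas_rsrc hΦ hε (measurable_snd.comp measurable_fst)
  have hln : Measurable fun p : (GC.Conf Ph × CTree) × CTree => ln Φ ε p.1.2 :=
    (M.measurable_ln hΦ hε.ne').comp (measurable_snd.comp measurable_fst)
  have hdp : Measurable fun p : (GC.Conf Ph × CTree) × CTree => p.1.2.depth :=
    M.measurable_depth.comp (measurable_snd.comp measurable_fst)
  refine XX_exsum_ok_le h₀ hΦ hε (G := fun V T x =>
    frS Φ ε (gIB L hΦ hε f₀ b a η η' θ t J δ V (rsrc Φ ε x)) σ (ln Φ ε T) T.depth)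
    (measurable_frSp hΦ hε (Ψ := fun p : (GC.Conf Ph × CTree) × CTree =>
      gIB L hΦ hε f₀ b a η η' θ t J δ (wS (GC.pts p.1.1)) (rsrc Φ ε p.2))
      (measurable_gIB h₀ hV hr measurable_snd) measurable_const hln hdp)
    (ENNReal.inv_ne_top.2 hδ) (fun T x => ?_) hg
  have hm : ∀ m : Src, Measurable fun c : GC.Conf Ph =>
      gIB L hΦ hε f₀ b a η η' θ t J δ (wS (GC.pts c)) (rsrc Φ ε x) m := fun m =>
    measurable_gIB h₀ RM.rs_conf measurable_const measurable_const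
  rw [lintegral_frS (Ψ := fun c : GC.Conf Ph =>
    gIB L hΦ hε f₀ b a η η' θ t J δ (wS (GC.pts c)) (rsrc Φ ε x)) hm, ← frS_const_mul]
  unfold frS
  exact add_le_add (add_le_add (lintegral_gIB_le ht hη hηη hδ hδ' _ _)
    (lintegral_gIB_le ht hη hηη hδ hδ' _ _)) (lintegral_gIB_le ht hη hηη hδ hδ' _ _)

/-- **The second events of an exhaust and a pair, on the exceptional sources** (`FXp`), for a fixed
free line. -/
theorem XX_pIB_le (h₀ : GoodDatum f₀ κ) (ht : 0 ≤ t) (hη : 0 < η) (hηη : η ≤ η')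
    (hδ : δ ≠ 0) (hδ' : δ ≠ ∞) {g : CTree → ℝ≥0∞} (hg : Measurable g) (σ : Src) :
    XX Φ ε L f₀ t (fun V T => g T * exsum T fun x =>
      pIB L hΦ hε f₀ η η' θ t w δ V (rsrc Φ ε x) σ (ln Φ ε T)) ≤
      δ⁻¹ * ∫⁻ T in okT Φ ε t L, g T * exsum T (fun x => rE6 L hΦ hε f₀ η' θ t (rsrc Φ ε x))
        ∂(tree (GC.inten f₀ ε) L) := by
  have hV : MM.RS fun p : (GC.Conf Ph × CTree) × CTree => (wS (GC.pts p.1.1) : Set Src) :=
    RM.rs_conf.comp (measurable_fst.comp measurable_fst)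
  have hr : Measurable fun p : (GC.Conf Ph × CTree) × CTree => rsrc Φ ε p.2 :=
    RM.meas_rsrc hΦ hε measurable_snd
  have hln : Measurable fun p : (GC.Conf Ph × CTree) × CTree => ln Φ ε p.1.2 :=
    (M.measurable_ln hΦ hε.ne').comp (measurable_snd.comp measurable_fst)
  exact XX_exsum_ok_le h₀ hΦ hε (G := fun V T x =>
    pIB L hΦ hε f₀ η η' θ t w δ V (rsrc Φ ε x) σ (ln Φ ε T))
    (measurable_pIB h₀ hV hr measurable_const hln)
    (ENNReal.inv_ne_top.2 hδ) (fun T x => lintegral_pIB_le ht hη hηη hδ hδ' _ _ _) hg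

/-- The integral over the free line. -/
theorem lintegral_const_mul3 {X : Type} [MeasurableSpace X] {ν : Measure X} {C : ℝ≥0∞}
    (hC : C ≠ ∞) {g H K : X → ℝ≥0∞} (h : ∀ x, H x ≤ C * K x) :
    ∫⁻ x, g x * H x ∂ν ≤ C * ∫⁻ x, g x * K x ∂ν := by
  rw [← lintegral_const_mul' _ _ hC]
  refine lintegral_mono fun x => ?_
  calc g x * H x ≤ g x * (C * K x) := mul_le_mul' le_rfl (h x)
    _ = C * (g x * K x) := by ring

/-! ### Two trees -/

/-- **Two trees**: the alive trees are replaced by all the trees, and the world is integrated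
first. -/
theorem Als2_ok_le (h₀ : GoodDatum f₀ κ)
    {W : CTree → CTree → ℝ≥0∞} (hW : Measurable fun p : CTree × CTree => W p.1 p.2)
    {G : Finset Src → CTree → CTree → ℝ≥0∞}
    (hG : Measurable fun p : (GC.Conf Ph × CTree) × CTree =>
      G (wS (GC.pts p.1.1)) p.1.2 p.2)
    {C : ℝ≥0∞} (hC : C ≠ ∞) {K : CTree → CTree → ℝ≥0∞}
    (hK : ∀ x y, ∫⁻ c, G (wS (GC.pts c)) x y ∂(GC.PP f₀ ε) ≤ C * K x y) :
    ∫⁻ c, ∫⁻ x in EX.Als Φ ε L t (wS (GC.pts c)), ∫⁻ y in EX.Als Φ ε L t (wS (GC.pts c)),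
      W x y * G (wS (GC.pts c)) x y ∂(tree (GC.inten f₀ ε) L) ∂(tree (GC.inten f₀ ε) L)
        ∂(GC.PP f₀ ε) ≤
      C * ∫⁻ x in okT Φ ε t L, ∫⁻ y in okT Φ ε t L, W x y * K x y
        ∂(tree (GC.inten f₀ ε) L) ∂(tree (GC.inten f₀ ε) L) := by
  have hfin := GC.isFiniteMeasure_inten (ε := ε) h₀
  have hP := GC.isProbability_PP (ε := ε) h₀
  have hsub : ∀ U, EX.Als Φ ε L t U ⊆ okT Φ ε t L := fun U T hT =>
    ⟨hT.ok, hT.ext_le, hT.depth⟩
  have hH : Measurable fun p : (GC.Conf Ph × CTree) × CTree =>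
      W p.1.2 p.2 * G (wS (GC.pts p.1.1)) p.1.2 p.2 :=
    (hW.comp (measurable_fst.snd.prodMk measurable_snd)).mul hG
  have hH1 : Measurable fun p : GC.Conf Ph × CTree => ∫⁻ y in okT Φ ε t L,
      W p.2 y * G (wS (GC.pts p.1)) p.2 y ∂(tree (GC.inten f₀ ε) L) :=
    hH.lintegral_prod_right'
  have hH2 : ∀ x : CTree, Measurable fun p : GC.Conf Ph × CTree =>
      W x p.2 * G (wS (GC.pts p.1)) x p.2 := fun x =>
    hH.comp ((measurable_fst.prodMk measurable_const).prodMk measurable_snd)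
  have hH3 : ∀ x y : CTree, Measurable fun c : GC.Conf Ph => G (wS (GC.pts c)) x y := fun x y =>
    hG.comp ((measurable_id.prodMk measurable_const).prodMk measurable_const)
  calc _ ≤ ∫⁻ c, ∫⁻ x in okT Φ ε t L, ∫⁻ y in okT Φ ε t L, W x y * G (wS (GC.pts c)) x y
        ∂(tree (GC.inten f₀ ε) L) ∂(tree (GC.inten f₀ ε) L) ∂(GC.PP f₀ ε) := by
        refine lintegral_mono fun c => ?_
        refine (lintegral_mono_set (hsub _)).trans (lintegral_mono fun x => ?_)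
        exact lintegral_mono_set (hsub _)
    _ = ∫⁻ x in okT Φ ε t L, ∫⁻ c, ∫⁻ y in okT Φ ε t L, W x y * G (wS (GC.pts c)) x y
        ∂(tree (GC.inten f₀ ε) L) ∂(GC.PP f₀ ε) ∂(tree (GC.inten f₀ ε) L) :=
        lintegral_lintegral_swap hH1.aemeasurable
    _ = ∫⁻ x in okT Φ ε t L, ∫⁻ y in okT Φ ε t L, ∫⁻ c, W x y * G (wS (GC.pts c)) x y
        ∂(GC.PP f₀ ε) ∂(tree (GC.inten f₀ ε) L) ∂(tree (GC.inten f₀ ε) L) := by
        refine lintegral_congr fun x => ?_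
        exact lintegral_lintegral_swap (hH2 x).aemeasurable
    _ ≤ ∫⁻ x in okT Φ ε t L, ∫⁻ y in okT Φ ε t L, C * (W x y * K x y)
        ∂(tree (GC.inten f₀ ε) L) ∂(tree (GC.inten f₀ ε) L) := by
        refine lintegral_mono fun x => lintegral_mono fun y => ?_
        calc ∫⁻ c, W x y * G (wS (GC.pts c)) x y ∂(GC.PP f₀ ε)
            = W x y * ∫⁻ c, G (wS (GC.pts c)) x y ∂(GC.PP f₀ ε) := lintegral_const_mul _ (hH3 x y)
          _ ≤ W x y * (C * K x y) := mul_le_mul' le_rfl (hK x y)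
          _ = C * (W x y * K x y) := by ring
    _ = _ := by
        rw [← lintegral_const_mul' _ _ hC]
        refine lintegral_congr fun x => ?_
        rw [lintegral_const_mul' _ _ hC]

/-- Sums over two lists of exhausts, with the world integrated first. -/
theorem lintegral_exsum₂_le {X : Type} [MeasurableSpace X] {ν : Measure X} (x y : CTree)
    {F : X → CTree → CTree → ℝ≥0∞} (hF : ∀ e m, Measurable fun ω => F ω e m) {C : ℝ≥0∞}
    {K : CTree → CTree → ℝ≥0∞} (hK : ∀ e m, ∫⁻ ω, F ω e m ∂ν ≤ C * K e m) :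
    ∫⁻ ω, exsum x (fun e => exsum y (F ω e)) ∂ν ≤
      C * exsum x (fun e => exsum y (K e)) := by
  classical
  have hs : ∀ e : CTree, Measurable fun ω => exsum y (F ω e) := by
    intro e
    have e1 : (fun ω => exsum y (F ω e)) = fun ω =>
        ∑ m ∈ (TL.exs_finite y).toFinset, F ω e m := by
      funext ω
      unfold exsum
      rw [tsum_eq_sum (s := (TL.exs_finite y).toFinset)]
      · refine Finset.sum_congr rfl fun m hm => ?_
        rw [if_pos ((TL.exs_finite y).mem_toFinset.1 hm)]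
      · intro m hm
        rw [if_neg fun h => hm ((TL.exs_finite y).mem_toFinset.2 h)]
    rw [e1]
    exact Finset.measurable_sum _ fun m _ => hF e m
  rw [lintegral_exsum' x (F := fun ω e => exsum y (F ω e)) hs, ← exsum_const_mul]
  refine exsum_mono fun e _ => ?_
  rw [lintegral_exsum' y (F := fun ω => F ω e) (hF e), ← exsum_const_mul]
  exact exsum_mono fun m _ => hK e m

theorem lintegral_exsum_le {X : Type} [MeasurableSpace X] {ν : Measure X} (x : CTree)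
    {F : X → CTree → ℝ≥0∞} (hF : ∀ e, Measurable fun ω => F ω e) {C : ℝ≥0∞}
    {K : CTree → ℝ≥0∞} (hK : ∀ e, ∫⁻ ω, F ω e ∂ν ≤ C * K e) :
    ∫⁻ ω, exsum x (F ω) ∂ν ≤ C * exsum x K := by
  rw [lintegral_exsum' x (F := F) hF, ← exsum_const_mul]
  exact exsum_mono fun e _ => hK e

end Vale.Agent.P119.PB
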