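import Vale.Agent.P119.PB.Iter6d

/-!
# P119, block PROB: second events, integrated over a law of pairs `(e, m)` (`helper178`)

* `F6w`: the sources of the second events over a fixed world; `F6_eq_F6w`;
* `lam_Gc_comm'`: Tonelli;
* **`lam_gT6_le`**: `gT6_split`, integrated over `lam` (with `HitLam`), everything which is not
  exceptional over a fixed world.
-/

open MeasureTheory Filter Topology Set ProbabilityTheory
open scoped ENNReal NNReal

noncomputable section

namespace Vale.Agent.P119.PB

open M CTree KU FB RB AU FL TL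

variable {Φ : E3 → ℝ} {ε : ℝ} {L : ℕ} {hΦ : IsPotential Φ} {hε : 0 < ε} {f₀ : Ph → ℝ}
  {κ b Tm t t' η η' w u θ : ℝ} {e m : Src}

/-! ### The sources over a fixed world -/

variable (L hΦ hε) in
/-- The pair of `m` and its partner is in contact, over the world `V`. -/
def pG6w (b : ℝ) (a : ℕ → ℝ≥0∞) (η t w : ℝ) (V : Finset Src) (e m : Src) : ℝ≥0∞ :=
  muE ε * ∑' n, a n * ∫⁻ z' : Ph, gw b z'.2 * ind (PairG L hΦ hε η t w V e m z')

/-- The hits of typical partners before `u`. -/
def yH6 (ε b : ℝ) (a : ℕ → ℝ≥0∞) (t u : ℝ) (m : Src) : ℝ≥0∞ :=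
  muE ε * (∑' n, a n) *
    (∫⁻ z' in {z' : Ph | hitI ε t m z' ∧ hitT ε (m.2.1, z') < u}, gw b z'.2)

variable (L hΦ hε) in
/-- **The sources of the second events over the world `V`**. -/
def F6w (b : ℝ) (a : ℕ → ℝ≥0∞) (η t w u : ℝ) (V : Finset Src) (e : Src) (s : ℝ) (l : Ph) :
    ℝ≥0∞ :=
  S6 L hΦ hε η t w u V e (s, l, 0) + pG6w L hΦ hε b a η t w V e (s, l, 0) +
    yH6 ε b a t u (s, l, 0) * ind (TE L hΦ hε η t V e)

section meas

variable {X : Type} [MeasurableSpace X] {V : X → Finset Src} {e m : X → Src} {u : X → ℝ}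

theorem measurable_pG6w {a : ℕ → ℝ≥0∞} (hV : MM.RS fun x => (V x : Set Src)) (he : Measurable e)
    (hm : Measurable m) : Measurable fun x => pG6w L hΦ hε b a η t w (V x) (e x) (m x) := by
  have h1 : Measurable fun p : X × Ph => gw b p.2.2 *
      ind (PairG L hΦ hε η t w (V p.1) (e p.1) (m p.1) p.2) :=
    ((measurable_gw b).comp (measurable_snd.comp measurable_snd)).mul
      (measurable_ind (measurableSet_PairG (hV.comp measurable_fst) measurable_const
        measurable_const measurable_const (he.comp measurable_fst) (hm.comp measurable_fst)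
        measurable_snd))
  have h2 := h1.lintegral_prod_right' (ν := (volume : Measure Ph))
  exact Measurable.const_mul (Measurable.tsum fun n => Measurable.const_mul h2 _) _

theorem measurable_yH6 {a : ℕ → ℝ≥0∞} (hu : Measurable u) (hm : Measurable m) :
    Measurable fun x => yH6 ε b a t (u x) (m x) := by
  have hq : Measurable fun p : X × Ph => ((m p.1).2.1, p.2) :=
    (measurable_fst.comp (measurable_snd.comp (hm.comp measurable_fst))).prodMk measurable_snd
  have hh : Measurable fun p : X × Ph => hitT ε ((m p.1).2.1, p.2) := measurable_hitT.comp hq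
  have hS : MeasurableSet {p : X × Ph | hitI ε t (m p.1) p.2 ∧
      hitT ε ((m p.1).2.1, p.2) < u p.1} :=
    (measurableSet_hitI (t := t) (ε := ε) (hm.comp measurable_fst) measurable_snd).inter
      (measurableSet_lt hh (hu.comp measurable_fst))
  have h2 : Measurable fun p : X × Ph => {p : X × Ph | hitI ε t (m p.1) p.2 ∧
      hitT ε ((m p.1).2.1, p.2) < u p.1}.indicator (fun p => gw b p.2.2) p :=
    ((measurable_gw b).comp (measurable_snd.comp measurable_snd)).indicator hS
  have h3 := h2.lintegral_prod_right' (ν := (volume : Measure Ph))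
  have e1 : (fun x => ∫⁻ z' in {z' : Ph | hitI ε t (m x) z' ∧ hitT ε ((m x).2.1, z') < u x},
      gw b z'.2) = fun x => ∫⁻ z' : Ph, {p : X × Ph | hitI ε t (m p.1) p.2 ∧
      hitT ε ((m p.1).2.1, p.2) < u p.1}.indicator (fun p => gw b p.2.2) (x, z') := by
    funext x
    rw [← lintegral_indicator (s := {z' : Ph | hitI ε t (m x) z' ∧
      hitT ε ((m x).2.1, z') < u x}) (measurable_prodMk_left (x := x) hS)]
    rfl
  unfold yH6
  refine Measurable.const_mul ?_ _
  rw [e1]
  exact h3

theorem measurable_F6w {a : ℕ → ℝ≥0∞} {s : X → ℝ} {l : X → Ph}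
    (hV : MM.RS fun x => (V x : Set Src)) (hu : Measurable u) (he : Measurable e)
    (hs : Measurable s) (hl : Measurable l) :
    Measurable fun x => F6w L hΦ hε b a η t w (u x) (V x) (e x) (s x) (l x) := by
  have hm : Measurable fun x => ((s x, l x, 0) : Src) :=
    hs.prodMk (hl.prodMk measurable_const)
  unfold F6w
  exact ((measurable_S6 hV measurable_const measurable_const measurable_const hu he hm).add
    (measurable_pG6w hV he hm)).add ((measurable_yH6 hu hm).mul
      (measurable_ind (measurableSet_TE hV measurable_const measurable_const he)))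

end meas

/-- The sources are the expectations of the sources over a fixed world. -/
theorem F6_eq_F6w (h₀ : GoodDatum f₀ κ) {a : ℕ → ℝ≥0∞} (s : ℝ) (l : Ph) :
    F6 L hΦ hε f₀ b a η t w u e s l =
      ∫⁻ c, F6w L hΦ hε b a η t w u (wS (GC.pts c)) e s l ∂(GC.PP f₀ ε) := by
  have := GC.isProbability_PP (ε := ε) h₀
  have hS : Measurable fun c : GC.Conf Ph =>
      S6 L hΦ hε η t w u (wS (GC.pts c)) e (s, l, 0) :=
    measurable_S6 RM.rs_conf measurable_const measurable_const measurable_const
      measurable_const measurable_const measurable_const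
  have hP : Measurable fun c : GC.Conf Ph => pG6w L hΦ hε b a η t w (wS (GC.pts c)) e (s, l, 0) :=
    measurable_pG6w RM.rs_conf measurable_const measurable_const
  have hT : Measurable fun c : GC.Conf Ph => ind (TE L hΦ hε η t (wS (GC.pts c)) e) :=
    measurable_ind (measurableSet_TE RM.rs_conf measurable_const measurable_const
      measurable_const)
  have hPG : Measurable fun q : GC.Conf Ph × Ph => gw b q.2.2 *
      ind (PairG L hΦ hε η t w (wS (GC.pts q.1)) e (s, l, 0) q.2) :=
    ((measurable_gw b).comp (measurable_snd.comp measurable_snd)).mul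
      (measurable_ind (measurableSet_PairG (MM.RS.comp RM.rs_conf measurable_fst)
        measurable_const measurable_const measurable_const measurable_const measurable_const
        measurable_snd))
  have hPc : Measurable fun c : GC.Conf Ph => ∫⁻ z' : Ph, gw b z'.2 *
      ind (PairG L hΦ hε η t w (wS (GC.pts c)) e (s, l, 0) z') := hPG.lintegral_prod_right'
  unfold F6w
  rw [lintegral_add3 hS hP, lintegral_const_mul _ hT]
  unfold F6
  congr 1
  congr 1
  unfold pG6 pG6w
  rw [lintegral_const_mul' _ _ (by unfold muE; exact ENNReal.ofReal_ne_top),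
    lintegral_tsum fun n => (hPc.const_mul _).aemeasurable]
  congr 1
  refine tsum_congr fun n => ?_
  rw [lintegral_const_mul _ hPc, lintegral_lintegral_swap hPG.aemeasurable]
  congr 1
  refine lintegral_congr fun z' => ?_
  have hz : Measurable fun c : GC.Conf Ph =>
      ind (PairG L hΦ hε η t w (wS (GC.pts c)) e (s, l, 0) z') :=
    measurable_ind (measurableSet_PairG RM.rs_conf measurable_const measurable_const
      measurable_const measurable_const measurable_const measurable_const)
  rw [lintegral_const_mul _ hz]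

/-! ### Tonelli -/

/-- Tonelli for the iterates, general parameter space. -/
theorem lam_Gc_comm' {Ω Y : Type*} [MeasurableSpace Ω] [MeasurableSpace Y] (hΦ : IsPotential Φ)
    (hε : ε ≠ 0) (b t' : ℝ) (j : ℕ) {P : Measure Ω} [SFinite P] {lam : Measure Y} [SFinite lam]
    {s : Y → ℝ} {l : Y → Ph} (hs : Measurable s) (hl : Measurable l)
    {F : Ω → Y → ℝ → Ph → ℝ≥0∞}
    (hF : Measurable fun q : Ω × Y × ℝ × Ph => F q.1 q.2.1 q.2.2.1 q.2.2.2) :
    ∫⁻ y, Gc hΦ hε b t' j (fun s z => ∫⁻ c, F c y s z ∂P) (s y) (l y) ∂lam =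
      ∫⁻ c, ∫⁻ y, Gc hΦ hε b t' j (F c y) (s y) (l y) ∂lam ∂P := by
  have h1 : ∀ y : Y, Measurable fun q : Ω × ℝ × Ph => F q.1 y q.2.1 q.2.2 := fun y =>
    hF.comp (measurable_fst.prodMk (measurable_const.prodMk measurable_snd))
  have h2 : ∀ y : Y, Gc hΦ hε b t' j (fun s z => ∫⁻ c, F c y s z ∂P) (s y) (l y) =
      ∫⁻ c, Gc hΦ hε b t' j (F c y) (s y) (l y) ∂P := fun y =>
    Gc_lintegral hΦ hε b t' j (h1 y) _ _
  simp only [h2]
  refine lintegral_lintegral_swap (Measurable.aemeasurable ?_)
  have h3 : Measurable fun q : (Y × Ω) × ℝ × Ph => F q.1.2 q.1.1 q.2.1 q.2.2 :=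
    hF.comp ((measurable_snd.comp measurable_fst).prodMk
      ((measurable_fst.comp measurable_fst).prodMk measurable_snd))
  have h4 := measurable_Gc_param hΦ hε b t' j (X := Y × Ω) (F := fun x => F x.2 x.1) h3
  exact h4.comp (measurable_id.prodMk ((hs.comp measurable_fst).prodMk (hl.comp measurable_fst)))

end Vale.Agent.P119.PB
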