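import Vale.Agent.P119.FL.Mass

/-!
# P119, block PROB: reverse mass of the chains (`helper776`)

`rev_chain_mass`: the law of the last line of a chain of `m` hits, whose first line and partners are
Gaussian, is at most `(K (t - s)) ^ m / √m!` times a Gaussian, for every pattern of steps
(`keep`, `old`, `out1`, `out2`), uniformly in `ε` and in the starting time.
-/

open MeasureTheory Set Filter Topology Metric ProbabilityTheory
open scoped ENNReal

namespace Vale.Agent.P119.PB.CT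

open KU FL

variable {Φ : E3 → ℝ} {ε : ℝ}

/-! ### The law of a time attached to a pair of lines -/

/-- The flux formula for an arbitrary time function. -/
theorem lintegral_time (hε : 0 < ε) (l : Ph) {T : Ph → ℝ} (hTm : Measurable fun l' : Ph => T l')
    {c : E3 × E3 → ℝ} (hc : Measurable c)
    (hT : ∀ (u : E3) (s : ℝ) (ρ : E3), l.2 - u ≠ 0 → (inner ℝ ρ (l.2 - u) : ℝ) = 0 →
      T (partner ε l u s ρ) = s + c (ρ, l.2 - u))
    {G : ℝ → E3 → ℝ≥0∞} (hG : Measurable fun q : ℝ × E3 => G q.1 q.2) :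
    ∫⁻ l' in {l' : Ph | Meets ε (l, l')}, G (T l') l'.2 =
      ENNReal.ofReal (ε ^ 2) * (ENNReal.ofReal Real.pi * ∫⁻ u : E3, ‖l.2 - u‖ₑ * ∫⁻ τ, G τ u) := by
  have hm : Measurable fun l' : Ph => G (T l') l'.2 :=
    hG.comp (hTm.prodMk measurable_snd)
  rw [lintegral_partner hε l hm]
  congr 1
  have hGm : Measurable fun u : E3 => ∫⁻ τ, G τ u := by
    have h : Measurable fun q : E3 × ℝ => G q.2 q.1 := hG.comp measurable_swap
    exact h.lintegral_prod_right'
  have hGm3 : Measurable fun u : E3 => ‖l.2 - u‖ₑ * ∫⁻ τ, G τ u :=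
    (by fun_prop : Measurable fun u : E3 => ‖l.2 - u‖ₑ).mul hGm
  rw [← lintegral_const_mul _ hGm3]
  refine lintegral_congr fun u => ?_
  rcases eq_or_ne (l.2 - u) 0 with h0 | h0
  · rw [h0]; simp
  have h1 : ∀ s : ℝ, ∫⁻ ρ, G (T (partner ε l u s ρ)) (partner ε l u s ρ).2
      ∂(kappa (l.2 - u)) = ∫⁻ ρ, G (s + c (ρ, l.2 - u)) u ∂(kappa (l.2 - u)) := by
    intro s
    refine lintegral_congr_ae ?_
    filter_upwards [ae_kappa h0] with ρ hρ
    rw [hT u s ρ h0 hρ.2]
    rfl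
  simp_rw [h1]
  have hGm2 : Measurable fun q : ℝ × E3 => G (q.1 + c (q.2, l.2 - u)) u := by
    refine hG.comp (Measurable.prodMk ?_ measurable_const)
    exact measurable_fst.add (hc.comp (measurable_snd.prodMk measurable_const))
  rw [lintegral_lintegral_swap hGm2.aemeasurable]
  have h2 : ∀ ρ : E3, ∫⁻ s : ℝ, G (s + c (ρ, l.2 - u)) u = ∫⁻ τ, G τ u := by
    intro ρ
    exact lintegral_add_right_eq_self (fun τ => G τ u) _
  simp_rw [h2]
  rw [lintegral_const, kappa_univ h0]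
  ring

/-- The entrance time of the pair whose outgoing lines are `q`. -/
noncomputable def inT (Φ : E3 → ℝ) (ε : ℝ) (q : Ph × Ph) : ℝ := hitT ε (sc2inv Φ ε q)

theorem measurable_inT (hΦ : IsPotential Φ) (hε : ε ≠ 0) : Measurable (inT Φ ε) :=
  measurable_hitT.comp (measurable_sc2inv hΦ hε)

theorem rel_sc2inv (hε : ε ≠ 0) (q : Ph × Ph) :
    rel ε (sc2inv Φ ε q) = rev (scat Φ (rev (rel ε q))) := by
  unfold sc2inv
  rw [rel_rev, rel_sc2 hε, rel_rev]

theorem free_rev (t : ℝ) (p : Ph) : free t (rev p) = rev (free (-t) p) := by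
  simp [rev, free]

theorem inT_partner (hΦ : IsPotential Φ) (hε : ε ≠ 0) (l : Ph) {u : E3} (hu : l.2 - u ≠ 0)
    (s : ℝ) (ρ : E3) :
    inT Φ ε (l, partner ε l u s ρ) = s + ε * tin (rev (scat Φ (rev (ρ, l.2 - u)))) := by
  unfold inT hitT
  rw [rel_sc2inv hε, rel_partner hε]
  have h1 : rev (free (-(s / ε)) (ρ, l.2 - u)) = free (s / ε) (rev (ρ, l.2 - u)) := by
    rw [free_rev]
  rw [h1, scat_free hΦ]
  have h2 : rev (free (s / ε) (scat Φ (rev (ρ, l.2 - u)))) =
      free (-(s / ε)) (rev (scat Φ (rev (ρ, l.2 - u)))) := by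
    rw [free_rev, neg_neg]
  have h3 : (rev (scat Φ (rev (ρ, l.2 - u)))).2 ≠ 0 := by
    have h4 : (scat Φ (rev (ρ, l.2 - u))).2 ≠ 0 := by
      apply scat_snd_ne hΦ
      have h5 : (rev (ρ, l.2 - u)).2 = -(l.2 - u) := rfl
      rw [h5]
      exact neg_ne_zero.2 hu
    simpa [rev] using h4
  rw [h2, tin_free h3]
  field_simp
  ring

/-! ### Steps which can be reversed -/

/-- The weight of a pair. -/
noncomputable def gw (b : ℝ) (v w : E3) : ℝ≥0∞ := ENNReal.ofReal (Real.exp (-b * (‖v‖ ^ 2 + ‖w‖ ^ 2)))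

theorem measurable_gw (b : ℝ) : Measurable fun q : E3 × E3 => gw b q.1 q.2 := by
  unfold gw
  refine Measurable.ennreal_ofReal ?_
  fun_prop

theorem measurable_gw2 (b : ℝ) : Measurable fun q : Ph × Ph => gw b q.1.2 q.2.2 := by
  unfold gw
  refine Measurable.ennreal_ofReal ?_
  fun_prop

theorem measurable_gw3 (b : ℝ) : Measurable fun q : Ph × E3 => gw b q.1.2 q.2 := by
  unfold gw
  refine Measurable.ennreal_ofReal ?_
  fun_prop

/-- The law of (hitting time, next line) for a pair of Gaussian lines. -/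
def RevStep (ε : ℝ) (X : Step) : Prop :=
  ∀ (b : ℝ) (H : ℝ → Ph → ℝ≥0∞), (Measurable fun q : ℝ × Ph => H q.1 q.2) →
    ∫⁻ q in {q : Ph × Ph | Meets ε q}, gw b q.1.2 q.2.2 * H (hitT ε q) (X.f q) =
      ENNReal.ofReal (ε ^ 2) * (ENNReal.ofReal Real.pi *
        ∫⁻ l : Ph, ∫⁻ u : E3, ‖l.2 - u‖ₑ * (gw b l.2 u * ∫⁻ τ, H τ l))

theorem lintegral_pair (hε : 0 < ε) {T : Ph × Ph → ℝ} (hTm : Measurable T)
    {c : E3 × E3 → ℝ} (hc : Measurable c)
    (hT : ∀ (l : Ph) (u : E3) (s : ℝ) (ρ : E3), l.2 - u ≠ 0 → (inner ℝ ρ (l.2 - u) : ℝ) = 0 →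
      T (l, partner ε l u s ρ) = s + c (ρ, l.2 - u)) (b : ℝ) (H : ℝ → Ph → ℝ≥0∞)
    (hH : Measurable fun q : ℝ × Ph => H q.1 q.2) :
    ∫⁻ q in {q : Ph × Ph | Meets ε q}, gw b q.1.2 q.2.2 * H (T q) q.1 =
      ENNReal.ofReal (ε ^ 2) * (ENNReal.ofReal Real.pi *
        ∫⁻ l : Ph, ∫⁻ u : E3, ‖l.2 - u‖ₑ * (gw b l.2 u * ∫⁻ τ, H τ l)) := by
  have hmeets : MeasurableSet {q : Ph × Ph | Meets ε q} := measurableSet_meets
  have hgw : Measurable fun q : Ph × Ph => gw b q.1.2 q.2.2 := measurable_gw2 b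
  have hF : Measurable fun q : Ph × Ph => gw b q.1.2 q.2.2 * H (T q) q.1 :=
    hgw.mul (hH.comp (hTm.prodMk measurable_fst))
  rw [← lintegral_indicator hmeets, Measure.volume_eq_prod,
    lintegral_prod _ (hF.indicator hmeets).aemeasurable]
  have hin : Measurable fun l : Ph => ∫⁻ τ, H τ l := by
    have h : Measurable fun q : Ph × ℝ => H q.2 q.1 := hH.comp measurable_swap
    exact h.lintegral_prod_right'
  have hout : Measurable fun l : Ph => ∫⁻ u : E3, ‖l.2 - u‖ₑ * (gw b l.2 u * ∫⁻ τ, H τ l) := by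
    have h : Measurable fun q : Ph × E3 => ‖q.1.2 - q.2‖ₑ * (gw b q.1.2 q.2 * ∫⁻ τ, H τ q.1) := by
      have h1 : Measurable fun q : Ph × E3 => ‖q.1.2 - q.2‖ₑ := by fun_prop
      have h2 : Measurable fun q : Ph × E3 => gw b q.1.2 q.2 := measurable_gw3 b
      exact h1.mul (h2.mul (hin.comp measurable_fst))
    exact h.lintegral_prod_right'
  rw [← lintegral_const_mul _ hout, ← lintegral_const_mul _ (hout.const_mul _)]
  refine lintegral_congr fun l => ?_
  have hml : MeasurableSet {l' : Ph | Meets ε (l, l')} := measurable_prodMk_left hmeets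
  have h1 : ∫⁻ l' : Ph, {q : Ph × Ph | Meets ε q}.indicator
      (fun q : Ph × Ph => gw b q.1.2 q.2.2 * H (T q) q.1) (l, l') =
      ∫⁻ l' in {l' : Ph | Meets ε (l, l')}, gw b l.2 l'.2 * H (T (l, l')) l := by
    rw [← lintegral_indicator hml]
    refine lintegral_congr fun l' => ?_
    by_cases h : Meets ε (l, l')
    · rw [indicator_of_mem (show (l, l') ∈ {q : Ph × Ph | Meets ε q} from h),
        indicator_of_mem (show l' ∈ {l' : Ph | Meets ε (l, l')} from h)]
    · rw [indicator_of_notMem (show (l, l') ∉ {q : Ph × Ph | Meets ε q} from h),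
        indicator_of_notMem (show l' ∉ {l' : Ph | Meets ε (l, l')} from h)]
  have hG : Measurable fun q : ℝ × E3 => gw b l.2 q.2 * H q.1 l := by
    have h2 : Measurable fun q : ℝ × E3 => gw b l.2 q.2 := by
      unfold gw
      refine Measurable.ennreal_ofReal ?_
      fun_prop
    exact h2.mul (hH.comp (measurable_fst.prodMk measurable_const))
  have hTl : Measurable fun l' : Ph => T (l, l') := hTm.comp (measurable_const.prodMk measurable_id)
  have h3 : ∫⁻ l' in {l' : Ph | Meets ε (l, l')}, gw b l.2 l'.2 * H (T (l, l')) l =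
      ENNReal.ofReal (ε ^ 2) * (ENNReal.ofReal Real.pi *
        ∫⁻ u : E3, ‖l.2 - u‖ₑ * ∫⁻ τ, gw b l.2 u * H τ l) :=
    lintegral_time (G := fun τ u => gw b l.2 u * H τ l) hε l hTl hc (hT l) hG
  refine h1.trans (h3.trans ?_)
  congr 2
  refine lintegral_congr fun u => ?_
  have h4 : Measurable fun τ : ℝ => H τ l := hH.comp (measurable_id.prodMk measurable_const)
  rw [lintegral_const_mul _ h4]

theorem revStep_keep (hε : 0 < ε) : RevStep ε Step.keep := by
  intro b H hH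
  refine lintegral_pair hε measurable_hitT (c := fun q => -(ε * half q)) ?_ ?_ b H hH
  · exact ((measurable_half).const_mul ε).neg
  · intro l u s ρ hu hρ
    rw [hitT_partner hε.ne' l hu s hρ]
    ring

theorem lintegral_swap_meets {F : Ph × Ph → ℝ≥0∞} (hF : Measurable F) :
    ∫⁻ q in {q : Ph × Ph | Meets ε q}, F q = ∫⁻ q in {q : Ph × Ph | Meets ε q}, F q.swap := by
  have hm : MeasurableSet {q : Ph × Ph | Meets ε q} := measurableSet_meets
  have hsw : MeasurePreserving (Prod.swap : Ph × Ph → Ph × Ph) volume volume := by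
    rw [Measure.volume_eq_prod]
    exact Measure.measurePreserving_swap
  rw [← hsw.setLIntegral_comp_preimage hm hF]
  have e : Prod.swap ⁻¹' {q : Ph × Ph | Meets ε q} = {q : Ph × Ph | Meets ε q} := by
    ext q; exact meets_swap q
  rw [e]

theorem gw_comm (b : ℝ) (v w : E3) : gw b v w = gw b w v := by
  unfold gw; rw [add_comm]

theorem revStep_old (hε : 0 < ε) : RevStep ε Step.old := by
  intro b H hH
  have hgw : Measurable fun q : Ph × Ph => gw b q.1.2 q.2.2 := measurable_gw2 b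
  have hF : Measurable fun q : Ph × Ph => gw b q.1.2 q.2.2 * H (hitT ε q) (Step.old.f q) :=
    hgw.mul (hH.comp (measurable_hitT.prodMk Step.old.meas))
  rw [lintegral_swap_meets hF]
  have h1 := revStep_keep hε b H hH
  rw [← h1]
  refine lintegral_congr fun q => ?_
  rw [hitT_swap, gw_comm]
  rfl

theorem gw_sc2 (hΦ : IsPotential Φ) (hε : ε ≠ 0) (b : ℝ) (q : Ph × Ph) :
    gw b (sc2 Φ ε q).1.2 (sc2 Φ ε q).2.2 = gw b q.1.2 q.2.2 := by
  unfold gw; rw [energy_sc2 hΦ hε]

theorem lintegral_out1 (hΦ : IsPotential Φ) (hε : 0 < ε) (b : ℝ) (H : ℝ → Ph → ℝ≥0∞)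
    (hH : Measurable fun q : ℝ × Ph => H q.1 q.2) :
    ∫⁻ q in {q : Ph × Ph | Meets ε q}, gw b q.1.2 q.2.2 * H (inT Φ ε q) q.1 =
      ENNReal.ofReal (ε ^ 2) * (ENNReal.ofReal Real.pi *
        ∫⁻ l : Ph, ∫⁻ u : E3, ‖l.2 - u‖ₑ * (gw b l.2 u * ∫⁻ τ, H τ l)) := by
  refine lintegral_pair hε (measurable_inT hΦ hε.ne')
    (c := fun q => ε * tin (rev (scat Φ (rev q)))) ?_ ?_ b H hH
  · have h1 : Measurable fun q : E3 × E3 => scat Φ (rev q) :=
      (measurePreserving_scat hΦ).measurable.comp continuous_rev.measurable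
    exact (measurable_tin.comp (continuous_rev.measurable.comp h1)).const_mul ε
  · intro l u s ρ hu _
    rw [inT_partner hΦ hε.ne' l hu s ρ]

theorem revStep_out1 (hΦ : IsPotential Φ) (hε : 0 < ε) : RevStep ε (Step.out1 hΦ hε.ne') := by
  intro b H hH
  rw [← lintegral_out1 hΦ hε b H hH]
  have hgw : Measurable fun q : Ph × Ph => gw b q.1.2 q.2.2 := measurable_gw2 b
  have hF : Measurable fun q : (Ph × Ph) × (Ph × Ph) =>
      gw b q.2.1.2 q.2.2.2 * H (hitT ε q.1) q.2.1 :=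
    (hgw.comp measurable_snd).mul (hH.comp ((measurable_hitT.comp measurable_fst).prodMk
      (measurable_fst.comp measurable_snd)))
  have h1 := lintegral_sc2 hΦ hε.ne' (F := fun q q' => gw b q'.1.2 q'.2.2 * H (hitT ε q) q'.1) hF
  rw [← show (∫⁻ q in {q : Ph × Ph | Meets ε q}, gw b q.1.2 q.2.2 *
    H (hitT ε (sc2inv Φ ε q)) q.1) = ∫⁻ q in {q : Ph × Ph | Meets ε q}, gw b q.1.2 q.2.2 *
    H (inT Φ ε q) q.1 from rfl, ← h1]
  refine lintegral_congr fun q => ?_
  rw [gw_sc2 hΦ hε.ne']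
  rfl

theorem revStep_out2 (hΦ : IsPotential Φ) (hε : 0 < ε) : RevStep ε (Step.out2 hΦ hε.ne') := by
  intro b H hH
  have hgw : Measurable fun q : Ph × Ph => gw b q.1.2 q.2.2 := measurable_gw2 b
  have hF : Measurable fun q : Ph × Ph =>
      gw b q.1.2 q.2.2 * H (hitT ε q) ((Step.out2 hΦ hε.ne').f q) :=
    hgw.mul (hH.comp (measurable_hitT.prodMk (Step.out2 hΦ hε.ne').meas))
  rw [lintegral_swap_meets hF, ← revStep_out1 hΦ hε b H hH]
  refine lintegral_congr fun q => ?_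
  have h1 : (Step.out2 hΦ hε.ne').f q.swap = (Step.out1 hΦ hε.ne').f q := by
    change (sc2 Φ ε q.swap).2 = (sc2 Φ ε q).1
    rw [sc2_swap hΦ]
    rfl
  rw [hitT_swap, gw_comm, h1]
  rfl

/-! ### Chains -/

/-- The mass of the chains which start with `l` at time `s`, with a function of the time of the last
hit and of the last line. -/
noncomputable def J (b ε t : ℝ) (S : ℕ → Step) (m : ℕ) (G : ℝ → Ph → ℝ≥0∞) (s : ℝ) (l : Ph) :
    ℝ≥0∞ :=
  ∫⁻ p : Fin m → Ph, {p | Chain ε t S m s l p}.indicator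
    (fun p => FL.wt b ε m p * G (time ε S m s l p) (line S m l p)) p

theorem measurable_J (b ε t : ℝ) (S : ℕ → Step) (m : ℕ) {G : ℝ → Ph → ℝ≥0∞}
    (hG : Measurable fun q : ℝ × Ph => G q.1 q.2) :
    Measurable fun q : ℝ × Ph => J b ε t S m G q.1 q.2 := by
  unfold J
  have h1 : Measurable fun q : (ℝ × Ph) × (Fin m → Ph) =>
      {q : ℝ × Ph × (Fin m → Ph) | Chain ε t S m q.1 q.2.1 q.2.2}.indicator
        (fun q => FL.wt b ε m q.2.2 * G (time ε S m q.1 q.2.1 q.2.2) (line S m q.2.1 q.2.2))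
          (q.1.1, q.1.2, q.2) := by
    have h2 : Measurable fun q : ℝ × Ph × (Fin m → Ph) => FL.wt b ε m q.2.2 *
        G (time ε S m q.1 q.2.1 q.2.2) (line S m q.2.1 q.2.2) :=
      ((FL.measurable_wt b ε m).comp (measurable_snd.comp measurable_snd)).mul
        (hG.comp ((measurable_time m S).prodMk ((measurable_line m S).comp measurable_snd)))
    have h3 := h2.indicator (measurableSet_chain (ε := ε) (t := t) m S)
    exact h3.comp (((measurable_fst.comp measurable_fst)).prodMk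
      ((measurable_snd.comp measurable_fst).prodMk measurable_snd))
  exact h1.lintegral_prod_right'

theorem J_zero (b ε t : ℝ) (S : ℕ → Step) (G : ℝ → Ph → ℝ≥0∞) (s : ℝ) (l : Ph) :
    J b ε t S 0 G s l = G s l := by
  have h1 : (volume : Measure (Fin 0 → Ph)) univ = 1 := by
    rw [volume_pi, Measure.pi_univ]; simp
  unfold J
  simp [Chain, FL.wt, line, time, lintegral_unique, h1]

theorem J_succ (b ε t : ℝ) (S : ℕ → Step) (m : ℕ) {G : ℝ → Ph → ℝ≥0∞}
    (hG : Measurable fun q : ℝ × Ph => G q.1 q.2) (s : ℝ) (l : Ph) :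
    J b ε t S (m + 1) G s l =
      ∫⁻ a in {a : Ph | Meets ε (l, a)}, (muE ε * ENNReal.ofReal (Real.exp (-b * ‖a.2‖ ^ 2))) *
        (Ioo s t).indicator (fun τ => J b ε t (fun n => S (n + 1)) m G τ ((S 0).f (l, a)))
          (hitT ε (l, a)) := by
  have hmeas : Measurable ({p : Fin (m + 1) → Ph | Chain ε t S (m + 1) s l p}.indicator
      (fun p => FL.wt b ε (m + 1) p * G (time ε S (m + 1) s l p) (line S (m + 1) l p))) := by
    refine Measurable.indicator ?_ ?_
    · have h1 : Measurable fun p : Fin (m + 1) → Ph => (s, l, p) :=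
        measurable_const.prodMk (measurable_const.prodMk measurable_id)
      exact (FL.measurable_wt b ε (m + 1)).mul (hG.comp (((measurable_time (m + 1) S).comp
        h1).prodMk ((measurable_line (m + 1) S).comp (measurable_const.prodMk measurable_id))))
    · exact (measurable_const.prodMk (measurable_const.prodMk measurable_id) :
        Measurable fun p : Fin (m + 1) → Ph => (s, l, p)) (measurableSet_chain (m + 1) S)
  have hml : MeasurableSet {a : Ph | Meets ε (l, a)} := measurable_prodMk_left measurableSet_meets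
  unfold J
  rw [lintegral_cons hmeas, ← lintegral_indicator hml]
  refine lintegral_congr fun a => ?_
  by_cases hcond : Meets ε (l, a) ∧ s < hitT ε (l, a) ∧ hitT ε (l, a) < t
  · have hτ : hitT ε (l, a) ∈ Ioo s t := ⟨hcond.2.1, hcond.2.2⟩
    rw [indicator_of_mem (show a ∈ {a : Ph | Meets ε (l, a)} from hcond.1), indicator_of_mem hτ,
      ← lintegral_const_mul' _ _ (ENNReal.mul_ne_top muE_ne_top ENNReal.ofReal_ne_top)]
    refine lintegral_congr fun q => ?_
    have hiff : (Fin.cons a q : Fin (m + 1) → Ph) ∈ {p | Chain ε t S (m + 1) s l p} ↔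
        q ∈ {p | Chain ε t (fun n => S (n + 1)) m (hitT ε (l, a)) ((S 0).f (l, a)) p} := by
      constructor
      · intro hc
        exact hc.2.2.2
      · intro hc
        exact ⟨hcond.1, hcond.2.1, hcond.2.2, hc⟩
    by_cases hq : q ∈ {p | Chain ε t (fun n => S (n + 1)) m (hitT ε (l, a))
        ((S 0).f (l, a)) p}
    · rw [indicator_of_mem (hiff.2 hq), indicator_of_mem hq, FL.wt_cons, mul_assoc]
      rfl
    · rw [indicator_of_notMem (fun h => hq (hiff.1 h)), indicator_of_notMem hq, mul_zero]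
  · have h0 : ∀ q : Fin m → Ph, {p | Chain ε t S (m + 1) s l p}.indicator
        (fun p => FL.wt b ε (m + 1) p * G (time ε S (m + 1) s l p) (line S (m + 1) l p))
          (Fin.cons a q) = 0 := by
      intro q
      apply indicator_of_notMem
      intro hc
      exact hcond ⟨hc.1, hc.2.1, hc.2.2.1⟩
    simp_rw [h0]
    rw [lintegral_zero]
    symm
    by_cases hM : Meets ε (l, a)
    · rw [indicator_of_mem (show a ∈ {a : Ph | Meets ε (l, a)} from hM),
        indicator_of_notMem (fun h => hcond ⟨hM, h.1, h.2⟩), mul_zero]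
    · rw [indicator_of_notMem (show a ∉ {a : Ph | Meets ε (l, a)} from hM)]

/-- The Gaussian weight of one line. -/
noncomputable def g1 (b : ℝ) (v : E3) : ℝ≥0∞ := ENNReal.ofReal (Real.exp (-b * ‖v‖ ^ 2))

theorem measurable_g1 (b : ℝ) : Measurable fun l : Ph => g1 b l.2 := by
  unfold g1
  refine Measurable.ennreal_ofReal ?_
  fun_prop

theorem g1_ne_top {b : ℝ} {v : E3} : g1 b v ≠ ∞ := ENNReal.ofReal_ne_top

theorem g1_mul_le {b b' : ℝ} (hbb : b' ≤ b) (v w : E3) : g1 b' v * g1 b w ≤ gw b' v w := by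
  unfold g1 gw
  rw [← ENNReal.ofReal_mul (Real.exp_nonneg _), ← Real.exp_add]
  apply ENNReal.ofReal_le_ofReal
  apply Real.exp_le_exp.2
  nlinarith [sq_nonneg ‖w‖]

theorem gw_eq (b : ℝ) (v w : E3) : gw b v w = g1 b v * g1 b w := by
  unfold g1 gw
  rw [← ENNReal.ofReal_mul (Real.exp_nonneg _), ← Real.exp_add]
  congr 2
  ring

/-- The total rate of the partners, in the form used in the induction. -/
theorem rate_le {b b' : ℝ} (hb : 0 < b) (hb' : b / 2 ≤ b') {M : ℕ} (hM : 1 ≤ M) (v : E3) :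
    ENNReal.ofReal Real.pi * ∫⁻ u : E3, ‖v - u‖ₑ * gw b' v u ≤
      ENNReal.ofReal (Kb b * √M) * g1 (b' - b / (2 * M)) v := by
  have hM1 : (1 : ℝ) ≤ M := by exact_mod_cast hM
  have h1 : ∀ u : E3, ‖v - u‖ₑ * gw b' v u ≤ g1 b' v * (‖v - u‖ₑ *
      ENNReal.ofReal (Real.exp (-b * ‖u‖ ^ 2) * Real.exp (b / 2 * ‖u‖ ^ 2))) := by
    intro u
    rw [gw_eq]
    have h2 : g1 b' u ≤ ENNReal.ofReal (Real.exp (-b * ‖u‖ ^ 2) * Real.exp (b / 2 * ‖u‖ ^ 2)) := by
      unfold g1
      apply ENNReal.ofReal_le_ofReal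
      rw [← Real.exp_add]
      apply Real.exp_le_exp.2
      nlinarith [sq_nonneg ‖u‖]
    calc ‖v - u‖ₑ * (g1 b' v * g1 b' u) = g1 b' v * (‖v - u‖ₑ * g1 b' u) := by ring
      _ ≤ _ := by gcongr
  have h3 : ∫⁻ u : E3, ‖v - u‖ₑ * gw b' v u ≤ g1 b' v * (ENNReal.ofReal (1 + ‖v‖) * I0 b) := by
    refine (lintegral_mono h1).trans ?_
    rw [lintegral_const_mul' _ _ g1_ne_top]
    gcongr
    exact lintegral_vel_le v le_rfl
  have hI : I0 b = ENNReal.ofReal (I0 b).toReal := (ENNReal.ofReal_toReal (I0_ne_top hb)).symm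
  calc ENNReal.ofReal Real.pi * ∫⁻ u : E3, ‖v - u‖ₑ * gw b' v u
      ≤ ENNReal.ofReal Real.pi * (g1 b' v * (ENNReal.ofReal (1 + ‖v‖) * I0 b)) := by gcongr
    _ = ENNReal.ofReal (Real.pi * (Real.exp (-b' * ‖v‖ ^ 2) * ((1 + ‖v‖) * (I0 b).toReal))) := by
        rw [hI]
        unfold g1
        rw [← ENNReal.ofReal_mul (by positivity), ← ENNReal.ofReal_mul (by positivity),
          ← ENNReal.ofReal_mul (by positivity)]
        simp [ENNReal.toReal_nonneg]
    _ ≤ ENNReal.ofReal ((Kb b * √M) * Real.exp (-(b' - b / (2 * M)) * ‖v‖ ^ 2)) := by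
        apply ENNReal.ofReal_le_ofReal
        have h4 := one_add_le (x := ‖v‖) hb hM1
        have h5 : Real.exp (-b' * ‖v‖ ^ 2) * Real.exp (b / (2 * M) * ‖v‖ ^ 2) =
            Real.exp (-(b' - b / (2 * M)) * ‖v‖ ^ 2) := by
          rw [← Real.exp_add]
          congr 1
          ring
        calc Real.pi * (Real.exp (-b' * ‖v‖ ^ 2) * ((1 + ‖v‖) * (I0 b).toReal))
            ≤ Real.pi * (Real.exp (-b' * ‖v‖ ^ 2) * ((√M * (1 + 1 / √b) *
              Real.exp (b / (2 * M) * ‖v‖ ^ 2)) * (I0 b).toReal)) := by gcongr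
          _ = (Real.pi * (1 + 1 / √b) * (I0 b).toReal * √M) *
              (Real.exp (-b' * ‖v‖ ^ 2) * Real.exp (b / (2 * M) * ‖v‖ ^ 2)) := by ring
          _ = _ := by rw [h5]; rfl
    _ = _ := by
        unfold g1
        rw [ENNReal.ofReal_mul (mul_nonneg (Kb_nonneg b) (Real.sqrt_nonneg _))]

/-- One step of the reverse recursion. -/
theorem rev_step {b b' t : ℝ} (hε : 0 < ε) (hb : 0 < b) (hb1 : b' ≤ b) (hb2 : b / 2 ≤ b') {M : ℕ}
    (hM : 1 ≤ M) (m : ℕ) {S : ℕ → Step} (hS : RevStep ε (S 0)) {G : ℝ → Ph → ℝ≥0∞}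
    (hG : Measurable fun q : ℝ × Ph => G q.1 q.2) (s : ℝ) :
    ∫⁻ l : Ph, g1 b' l.2 * J b ε t S (m + 1) G s l ≤
      ENNReal.ofReal (Kb b * √M) * ∫⁻ τ in Ioo s t,
        ∫⁻ l : Ph, g1 (b' - b / (2 * M)) l.2 * J b ε t (fun n => S (n + 1)) m G τ l := by
  set S' : ℕ → Step := fun n => S (n + 1) with hS'
  set H : ℝ → Ph → ℝ≥0∞ := fun τ l => (Ioo s t).indicator (fun τ => J b ε t S' m G τ l) τ with hH
  have hJm : Measurable fun q : ℝ × Ph => J b ε t S' m G q.1 q.2 := measurable_J b ε t S' m hG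
  have hHm : Measurable fun q : ℝ × Ph => H q.1 q.2 := by
    have h1 : (fun q : ℝ × Ph => H q.1 q.2) =
        {q : ℝ × Ph | q.1 ∈ Ioo s t}.indicator (fun q : ℝ × Ph => J b ε t S' m G q.1 q.2) := by
      funext q
      by_cases hq : q.1 ∈ Ioo s t
      · simp only [hH]
        rw [indicator_of_mem hq, indicator_of_mem (show q ∈ {q : ℝ × Ph | q.1 ∈ Ioo s t} from hq)]
      · simp only [hH]
        rw [indicator_of_notMem hq,
          indicator_of_notMem (show q ∉ {q : ℝ × Ph | q.1 ∈ Ioo s t} from hq)]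
    rw [h1]
    exact hJm.indicator (measurable_fst measurableSet_Ioo)
  have hmeets : MeasurableSet {q : Ph × Ph | Meets ε q} := measurableSet_meets
  -- as an integral over pairs
  have hQ : Measurable fun q : Ph × Ph => g1 b' q.1.2 * ((muE ε * g1 b q.2.2) *
      H (hitT ε q) ((S 0).f q)) := by
    refine ((measurable_g1 b').comp measurable_fst).mul ?_
    refine (((measurable_g1 b).comp measurable_snd).const_mul _).mul ?_
    exact hHm.comp (measurable_hitT.prodMk (S 0).meas)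
  have h1 : ∫⁻ l : Ph, g1 b' l.2 * J b ε t S (m + 1) G s l =
      ∫⁻ q in {q : Ph × Ph | Meets ε q}, g1 b' q.1.2 * ((muE ε * g1 b q.2.2) *
      H (hitT ε q) ((S 0).f q)) := by
    have hv : (volume : Measure (Ph × Ph)) = (volume : Measure Ph).prod volume :=
      Measure.volume_eq_prod _ _
    rw [← lintegral_indicator hmeets, hv,
      lintegral_prod _ (hQ.indicator hmeets).aemeasurable]
    refine lintegral_congr fun l => ?_
    have hml : MeasurableSet {a : Ph | Meets ε (l, a)} := measurable_prodMk_left hmeets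
    rw [J_succ b ε t S m hG s l, ← lintegral_const_mul' _ _ g1_ne_top,
      ← lintegral_indicator hml]
    refine lintegral_congr fun a => ?_
    by_cases h : Meets ε (l, a)
    · rw [indicator_of_mem (show (l, a) ∈ {q : Ph × Ph | Meets ε q} from h),
        indicator_of_mem (show a ∈ {a : Ph | Meets ε (l, a)} from h)]
      rfl
    · rw [indicator_of_notMem (show (l, a) ∉ {q : Ph × Ph | Meets ε q} from h),
        indicator_of_notMem (show a ∉ {a : Ph | Meets ε (l, a)} from h)]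
  have h2 : ∫⁻ q in {q : Ph × Ph | Meets ε q}, g1 b' q.1.2 * ((muE ε * g1 b q.2.2) *
      H (hitT ε q) ((S 0).f q)) ≤ muE ε *
      ∫⁻ q in {q : Ph × Ph | Meets ε q}, gw b' q.1.2 q.2.2 * H (hitT ε q) ((S 0).f q) := by
    rw [← lintegral_const_mul' _ _ muE_ne_top]
    refine lintegral_mono fun q => ?_
    have h3 := g1_mul_le hb1 q.1.2 q.2.2
    calc g1 b' q.1.2 * ((muE ε * g1 b q.2.2) * H (hitT ε q) ((S 0).f q))
        = muE ε * ((g1 b' q.1.2 * g1 b q.2.2) * H (hitT ε q) ((S 0).f q)) := by ring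
      _ ≤ _ := by gcongr
  rw [h1]
  refine h2.trans ?_
  rw [hS b' H hHm]
  -- integrate the velocity of the partner
  have hin : Measurable fun l : Ph => ∫⁻ τ, H τ l := by
    have h : Measurable fun q : Ph × ℝ => H q.2 q.1 := hHm.comp measurable_swap
    exact h.lintegral_prod_right'
  have h4 : ENNReal.ofReal Real.pi *
      ∫⁻ l : Ph, ∫⁻ u : E3, ‖l.2 - u‖ₑ * (gw b' l.2 u * ∫⁻ τ, H τ l) ≤
      ENNReal.ofReal (Kb b * √M) * ∫⁻ l : Ph, g1 (b' - b / (2 * M)) l.2 * ∫⁻ τ, H τ l := by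
    rw [← lintegral_const_mul' _ _ ENNReal.ofReal_ne_top,
      ← lintegral_const_mul' _ _ ENNReal.ofReal_ne_top]
    refine lintegral_mono fun l => ?_
    have h5 : ∫⁻ u : E3, ‖l.2 - u‖ₑ * (gw b' l.2 u * ∫⁻ τ, H τ l) =
        (∫⁻ u : E3, ‖l.2 - u‖ₑ * gw b' l.2 u) * ∫⁻ τ, H τ l := by
      rw [← lintegral_mul_const]
      · refine lintegral_congr fun u => ?_
        rw [mul_assoc]
      · have h6 : Measurable fun u : E3 => ‖l.2 - u‖ₑ := by fun_prop
        have h7 : Measurable fun u : E3 => gw b' l.2 u := by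
          unfold gw
          refine Measurable.ennreal_ofReal ?_
          fun_prop
        exact h6.mul h7
    simp only
    rw [h5, ← mul_assoc, ← mul_assoc]
    exact mul_le_mul' (rate_le hb hb2 hM l.2) le_rfl
  -- exchange the integrals
  have h8 : ∫⁻ l : Ph, g1 (b' - b / (2 * M)) l.2 * ∫⁻ τ, H τ l =
      ∫⁻ τ in Ioo s t, ∫⁻ l : Ph, g1 (b' - b / (2 * M)) l.2 * J b ε t S' m G τ l := by
    have h9 : ∀ l : Ph, g1 (b' - b / (2 * M)) l.2 * ∫⁻ τ, H τ l =
        ∫⁻ τ in Ioo s t, g1 (b' - b / (2 * M)) l.2 * J b ε t S' m G τ l := by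
      intro l
      rw [lintegral_const_mul' _ _ g1_ne_top, ← lintegral_indicator measurableSet_Ioo]
    simp_rw [h9]
    rw [lintegral_lintegral_swap]
    have h10 : Measurable fun q : Ph × ℝ => g1 (b' - b / (2 * M)) q.1.2 *
        J b ε t S' m G q.2 q.1 :=
      ((measurable_g1 _).comp measurable_fst).mul (hJm.comp measurable_swap)
    exact h10.aemeasurable
  calc muE ε * (ENNReal.ofReal (ε ^ 2) * (ENNReal.ofReal Real.pi *
        ∫⁻ l : Ph, ∫⁻ u : E3, ‖l.2 - u‖ₑ * (gw b' l.2 u * ∫⁻ τ, H τ l)))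
      = (muE ε * ENNReal.ofReal (ε ^ 2)) * (ENNReal.ofReal Real.pi *
        ∫⁻ l : Ph, ∫⁻ u : E3, ‖l.2 - u‖ₑ * (gw b' l.2 u * ∫⁻ τ, H τ l)) := by ring
    _ = ENNReal.ofReal Real.pi *
        ∫⁻ l : Ph, ∫⁻ u : E3, ‖l.2 - u‖ₑ * (gw b' l.2 u * ∫⁻ τ, H τ l) := by
        rw [muE_mul hε, one_mul]
    _ ≤ _ := by rw [← h8]; exact h4

theorem setLIntegral_triangle {s t : ℝ} {F : ℝ → ℝ → ℝ≥0∞}
    (hF : Measurable fun q : ℝ × ℝ => F q.1 q.2) :
    ∫⁻ τ in Ioo s t, ∫⁻ r in Ioo τ t, F τ r = ∫⁻ r in Ioo s t, ∫⁻ τ in Ioo s r, F τ r := by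
  have h1 : ∀ τ, ∫⁻ r in Ioo τ t, F τ r = ∫⁻ r, (Ioo τ t).indicator (fun r => F τ r) r := fun τ => by
    rw [lintegral_indicator measurableSet_Ioo]
  have h2 : ∀ r, ∫⁻ τ in Ioo s r, F τ r = ∫⁻ τ, (Ioo s r).indicator (fun τ => F τ r) τ := fun r => by
    rw [lintegral_indicator measurableSet_Ioo]
  rw [← lintegral_indicator measurableSet_Ioo, ← lintegral_indicator measurableSet_Ioo]
  have hA : MeasurableSet {q : ℝ × ℝ | s < q.1 ∧ q.1 < q.2 ∧ q.2 < t} :=
    (measurableSet_lt measurable_const measurable_fst).inter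
      ((measurableSet_lt measurable_fst measurable_snd).inter
        (measurableSet_lt measurable_snd measurable_const))
  have h3 : ∀ τ, (Ioo s t).indicator (fun τ => ∫⁻ r in Ioo τ t, F τ r) τ =
      ∫⁻ r, {q : ℝ × ℝ | s < q.1 ∧ q.1 < q.2 ∧ q.2 < t}.indicator (fun q => F q.1 q.2) (τ, r) := by
    intro τ
    by_cases hτ : τ ∈ Ioo s t
    · rw [indicator_of_mem hτ, h1]
      refine lintegral_congr fun r => ?_
      by_cases hr : r ∈ Ioo τ t
      · rw [indicator_of_mem hr, indicator_of_mem]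
        exact ⟨hτ.1, hr.1, hr.2⟩
      · rw [indicator_of_notMem hr, indicator_of_notMem]
        exact fun h => hr ⟨h.2.1, h.2.2⟩
    · rw [indicator_of_notMem hτ, ← lintegral_zero (μ := (volume : Measure ℝ))]
      refine lintegral_congr fun r => ?_
      rw [indicator_of_notMem]
      exact fun h => hτ ⟨h.1, lt_trans h.2.1 h.2.2⟩
  have h4 : ∀ r, (Ioo s t).indicator (fun r => ∫⁻ τ in Ioo s r, F τ r) r =
      ∫⁻ τ, {q : ℝ × ℝ | s < q.1 ∧ q.1 < q.2 ∧ q.2 < t}.indicator (fun q => F q.1 q.2) (τ, r) := by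
    intro r
    by_cases hr : r ∈ Ioo s t
    · rw [indicator_of_mem hr, h2]
      refine lintegral_congr fun τ => ?_
      by_cases hτ : τ ∈ Ioo s r
      · rw [indicator_of_mem hτ, indicator_of_mem]
        exact ⟨hτ.1, hτ.2, hr.2⟩
      · rw [indicator_of_notMem hτ, indicator_of_notMem]
        exact fun h => hτ ⟨h.1, h.2.1⟩
    · rw [indicator_of_notMem hr, ← lintegral_zero (μ := (volume : Measure ℝ))]
      refine lintegral_congr fun τ => ?_
      rw [indicator_of_notMem]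
      exact fun h => hr ⟨lt_trans h.1 h.2.1, h.2.2⟩
  simp_rw [h3, h4]
  rw [lintegral_lintegral_swap]
  exact (hF.indicator hA).aemeasurable

theorem lintegral_pow_left {s t : ℝ} (hst : s ≤ t) (m : ℕ) :
    ∫⁻ τ in Ioo s t, ENNReal.ofReal ((t - τ) ^ m / m.factorial) =
      ENNReal.ofReal ((t - s) ^ (m + 1) / (m + 1).factorial) := by
  have h1 : ∀ τ ∈ Ioo s t, ENNReal.ofReal ((t - τ) ^ m / m.factorial) =
      ENNReal.ofReal ((t - τ) ^ m) * ENNReal.ofReal (1 / m.factorial) := by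
    intro τ hτ
    rw [← ENNReal.ofReal_mul (pow_nonneg (by linarith [hτ.2]) m)]
    congr 1
    ring
  rw [setLIntegral_congr_fun measurableSet_Ioo h1, lintegral_mul_const, lintegral_pow hst,
    ← ENNReal.ofReal_mul]
  · congr 1
    rw [Nat.factorial_succ]
    push_cast
    field_simp
  · exact div_nonneg (pow_nonneg (sub_nonneg.2 hst) _) (by positivity)
  · exact ((measurable_const.sub measurable_id).pow_const m).ennreal_ofReal

/-- **Reverse mass**, with a parameter `M`; with the time of the last hit. -/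
theorem rev_aux {b t : ℝ} (hε : 0 < ε) (hb : 0 < b) {M : ℕ} (hM : 1 ≤ M) {G : ℝ → Ph → ℝ≥0∞}
    (hG : Measurable fun q : ℝ × Ph => G q.1 q.2) :
    ∀ (m k : ℕ), m + 1 + k ≤ M → ∀ (S : ℕ → Step), (∀ n, RevStep ε (S n)) → ∀ s : ℝ,
      ∫⁻ l : Ph, g1 (b - b / (2 * M) * k) l.2 * J b ε t S (m + 1) G s l ≤
        ENNReal.ofReal ((Kb b * √M) ^ (m + 1)) * ∫⁻ τ in Ioo s t,
          ENNReal.ofReal ((τ - s) ^ m / m.factorial) *
            ∫⁻ l : Ph, g1 (b - b / (2 * M) * (m + 1 + k : ℕ)) l.2 * G τ l := by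
  have hM1 : (1 : ℝ) ≤ M := by exact_mod_cast hM
  have hK : 0 ≤ Kb b * √M := mul_nonneg (Kb_nonneg b) (Real.sqrt_nonneg _)
  have hX : ∀ c : ℝ, Measurable fun τ : ℝ => ∫⁻ l : Ph, g1 c l.2 * G τ l := by
    intro c
    have h : Measurable fun q : ℝ × Ph => g1 c q.2.2 * G q.1 q.2 :=
      ((measurable_g1 c).comp measurable_snd).mul hG
    exact h.lintegral_prod_right'
  intro m
  induction m with
  | zero =>
    intro k hk S hS s
    have hkM : (k : ℝ) ≤ M := by exact_mod_cast (by omega : k ≤ M)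
    have hb1 : b - b / (2 * M) * k ≤ b := by
      have : 0 ≤ b / (2 * M) * k := by positivity
      linarith
    have hb2 : b / 2 ≤ b - b / (2 * M) * k := by
      have h1 : b / (2 * M) * k ≤ b / (2 * M) * M := by gcongr
      have h2 : b / (2 * M) * M = b / 2 := by field_simp
      linarith
    have h1 := rev_step (t := t) hε hb hb1 hb2 hM 0 (hS 0) hG s
    refine h1.trans (le_of_eq ?_)
    simp_rw [J_zero]
    have e : b - b / (2 * (M : ℝ)) * k - b / (2 * M) = b - b / (2 * M) * ((0 + 1 + k : ℕ) : ℝ) := by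
      push_cast; ring
    rw [e]
    simp
  | succ m ih =>
    intro k hk S hS s
    have hkM : (k : ℝ) ≤ M := by exact_mod_cast (by omega : k ≤ M)
    have hb1 : b - b / (2 * M) * k ≤ b := by
      have : 0 ≤ b / (2 * M) * k := by positivity
      linarith
    have hb2 : b / 2 ≤ b - b / (2 * M) * k := by
      have h1 : b / (2 * M) * k ≤ b / (2 * M) * M := by gcongr
      have h2 : b / (2 * M) * M = b / 2 := by field_simp
      linarith
    have h1 := rev_step (t := t) hε hb hb1 hb2 hM (m + 1) (hS 0) hG s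
    refine h1.trans ?_
    have e : b - b / (2 * (M : ℝ)) * k - b / (2 * M) = b - b / (2 * M) * ((k + 1 : ℕ) : ℝ) := by
      push_cast; ring
    rw [e]
    set X : ℝ → ℝ≥0∞ := fun τ => ∫⁻ l : Ph, g1 (b - b / (2 * M) * (m + 1 + 1 + k : ℕ)) l.2 * G τ l
      with hXd
    have hXm : Measurable X := hX _
    have h2 : ∀ τ, ∫⁻ l : Ph, g1 (b - b / (2 * M) * ((k + 1 : ℕ) : ℝ)) l.2 *
        J b ε t (fun n => S (n + 1)) (m + 1) G τ l ≤
        ENNReal.ofReal ((Kb b * √M) ^ (m + 1)) * ∫⁻ r in Ioo τ t,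
          ENNReal.ofReal ((r - τ) ^ m / m.factorial) * X r := by
      intro τ
      have h3 := ih (k + 1) (by omega) (fun n => S (n + 1)) (fun n => hS (n + 1)) τ
      have e2 : m + 1 + (k + 1) = m + 1 + 1 + k := by ring
      rw [e2] at h3
      exact h3
    have hF : Measurable fun q : ℝ × ℝ => ENNReal.ofReal ((q.2 - q.1) ^ m / m.factorial) * X q.2 := by
      refine Measurable.mul ?_ (hXm.comp measurable_snd)
      exact (((measurable_snd.sub measurable_fst).pow_const m).div_const _).ennreal_ofReal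
    calc ENNReal.ofReal (Kb b * √M) * ∫⁻ τ in Ioo s t,
          ∫⁻ l : Ph, g1 (b - b / (2 * M) * ((k + 1 : ℕ) : ℝ)) l.2 *
            J b ε t (fun n => S (n + 1)) (m + 1) G τ l
        ≤ ENNReal.ofReal (Kb b * √M) * ∫⁻ τ in Ioo s t,
            ENNReal.ofReal ((Kb b * √M) ^ (m + 1)) * ∫⁻ r in Ioo τ t,
              ENNReal.ofReal ((r - τ) ^ m / m.factorial) * X r := by
          refine mul_le_mul' le_rfl (lintegral_mono fun τ => h2 τ)
      _ = ENNReal.ofReal ((Kb b * √M) ^ (m + 1 + 1)) * ∫⁻ τ in Ioo s t, ∫⁻ r in Ioo τ t,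
              ENNReal.ofReal ((r - τ) ^ m / m.factorial) * X r := by
          rw [lintegral_const_mul' _ _ ENNReal.ofReal_ne_top, ← mul_assoc,
            ← ENNReal.ofReal_mul hK]
          congr 2
          ring
      _ = ENNReal.ofReal ((Kb b * √M) ^ (m + 1 + 1)) * ∫⁻ r in Ioo s t,
            ENNReal.ofReal ((r - s) ^ (m + 1) / (m + 1).factorial) * X r := by
          rw [setLIntegral_triangle (F := fun τ r => ENNReal.ofReal ((r - τ) ^ m / m.factorial) * X r)
            hF]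
          congr 1
          refine setLIntegral_congr_fun measurableSet_Ioo fun r hr => ?_
          rw [lintegral_mul_const, lintegral_pow_left hr.1.le]
          exact (((measurable_const.sub measurable_id).pow_const m).div_const _).ennreal_ofReal

/-- **(CM') Reverse mass of the chains**: the first line has a Gaussian density, the last line and
the time of the last hit have a density at most Gaussian times Lebesgue, with a constant summable
in the number of hits. -/
theorem rev_chain_time {b t : ℝ} (hε : 0 < ε) (hb : 0 < b) (m : ℕ) {S : ℕ → Step}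
    (hS : ∀ n, RevStep ε (S n)) (s : ℝ) {G : ℝ → Ph → ℝ≥0∞}
    (hG : Measurable fun q : ℝ × Ph => G q.1 q.2) :
    ∫⁻ l : Ph, g1 b l.2 * J b ε t S (m + 1) G s l ≤
      ENNReal.ofReal ((Kb b * √(m + 1)) ^ (m + 1) / m.factorial) * ∫⁻ τ in Ioo s t,
        ENNReal.ofReal ((τ - s) ^ m) * ∫⁻ l : Ph, g1 (b / 2) l.2 * G τ l := by
  have h0 := rev_aux (t := t) hε hb (Nat.succ_le_succ (Nat.zero_le m)) hG m 0 (by simp) S hS s
  have hm0 : ((m + 1 : ℕ) : ℝ) ≠ 0 := by exact_mod_cast Nat.succ_ne_zero m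
  have e1 : b - b / (2 * ((m + 1 : ℕ) : ℝ)) * ((0 : ℕ) : ℝ) = b := by simp
  have e2 : b - b / (2 * ((m + 1 : ℕ) : ℝ)) * ((m + 1 + 0 : ℕ) : ℝ) = b / 2 := by
    rw [add_zero]; field_simp; ring
  rw [Nat.succ_eq_add_one, e1, e2] at h0
  refine h0.trans (le_of_eq ?_)
  have h1 : ∀ τ ∈ Ioo s t, ENNReal.ofReal ((τ - s) ^ m / m.factorial) *
      ∫⁻ l : Ph, g1 (b / 2) l.2 * G τ l = ENNReal.ofReal (1 / m.factorial) *
      (ENNReal.ofReal ((τ - s) ^ m) * ∫⁻ l : Ph, g1 (b / 2) l.2 * G τ l) := by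
    intro τ hτ
    rw [← mul_assoc, ← ENNReal.ofReal_mul (by positivity)]
    congr 2
    ring
  rw [setLIntegral_congr_fun measurableSet_Ioo h1, lintegral_const_mul' _ _ ENNReal.ofReal_ne_top,
    ← mul_assoc, ← ENNReal.ofReal_mul (pow_nonneg (mul_nonneg (Kb_nonneg b) (Real.sqrt_nonneg _)) _)]
  congr 2
  push_cast
  ring

/-- The reverse mass, with a function of the last line only. -/
theorem rev_chain_mass {b t : ℝ} (hε : 0 < ε) (hb : 0 < b) (m : ℕ) {S : ℕ → Step}
    (hS : ∀ n, RevStep ε (S n)) {s : ℝ} (hst : s ≤ t) {G : Ph → ℝ≥0∞} (hG : Measurable G) :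
    ∫⁻ l : Ph, g1 b l.2 * J b ε t S m (fun _ => G) s l ≤
      ENNReal.ofReal ((Kc b * (t - s)) ^ m / √(m.factorial : ℝ)) *
        ∫⁻ l : Ph, g1 (b / 2) l.2 * G l := by
  have hG' : Measurable fun q : ℝ × Ph => (fun _ : ℝ => G) q.1 q.2 := hG.comp measurable_snd
  rcases Nat.eq_zero_or_pos m with rfl | hm
  · simp_rw [J_zero]
    simp only [pow_zero, Nat.factorial_zero, Nat.cast_one, Real.sqrt_one, div_one,
      ENNReal.ofReal_one, one_mul]
    refine lintegral_mono fun l => ?_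
    have h1 : g1 b l.2 ≤ g1 (b / 2) l.2 := by
      unfold g1
      apply ENNReal.ofReal_le_ofReal
      apply Real.exp_le_exp.2
      nlinarith [sq_nonneg ‖l.2‖]
    gcongr
  · obtain ⟨n, rfl⟩ : ∃ n, m = n + 1 := ⟨m - 1, by omega⟩
    refine (rev_chain_time (t := t) hε hb n hS s hG').trans ?_
    have h1 : ∫⁻ τ in Ioo s t, ENNReal.ofReal ((τ - s) ^ n) *
        ∫⁻ l : Ph, g1 (b / 2) l.2 * G l =
        ENNReal.ofReal ((t - s) ^ (n + 1) / (n + 1)) * ∫⁻ l : Ph, g1 (b / 2) l.2 * G l := by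
      have h2 : ∫ τ in s..t, (τ - s) ^ n = (t - s) ^ (n + 1) / (n + 1) := by
        rw [intervalIntegral.integral_comp_sub_right (fun x => x ^ n) s, sub_self, integral_pow]
        simp
      rw [lintegral_mul_const]
      · congr 1
        rw [← h2, intervalIntegral.integral_of_le hst, ofReal_integral_eq_lintegral_ofReal]
        · rw [setLIntegral_congr Ioo_ae_eq_Ioc]
        · exact ((by fun_prop : Continuous fun τ : ℝ => (τ - s) ^ n).integrableOn_Icc).mono_set
            Ioc_subset_Icc_self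
        · filter_upwards [ae_restrict_mem measurableSet_Ioc] with τ hτ
          exact pow_nonneg (sub_nonneg.2 hτ.1.le) n
      · exact ((measurable_id.sub measurable_const).pow_const n).ennreal_ofReal
    rw [h1, ← mul_assoc, ← ENNReal.ofReal_mul (div_nonneg
      (pow_nonneg (mul_nonneg (Kb_nonneg b) (Real.sqrt_nonneg _)) _) (by positivity))]
    gcongr
    have h1 := sqrt_pow_div_factorial_le (n + 1)
    have h2 : 0 ≤ (t - s) ^ (n + 1) := pow_nonneg (sub_nonneg.2 hst) _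
    have h3 : 0 ≤ (Kb b) ^ (n + 1) := pow_nonneg (Kb_nonneg b) _
    have h4 : (((n + 1 : ℕ) : ℝ)) = (n : ℝ) + 1 := by push_cast; ring
    rw [h4] at h1
    calc (Kb b * √((n : ℝ) + 1)) ^ (n + 1) / n.factorial * ((t - s) ^ (n + 1) / ((n : ℝ) + 1))
        = (Kb b) ^ (n + 1) * (t - s) ^ (n + 1) * ((√((n : ℝ) + 1)) ^ (n + 1) / (n + 1).factorial) := by
          rw [mul_pow, Nat.factorial_succ]
          push_cast
          field_simp
      _ ≤ (Kb b) ^ (n + 1) * (t - s) ^ (n + 1) * ((√(Real.exp 1)) ^ (n + 1) /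
          √((n + 1).factorial : ℝ)) := by gcongr
      _ = _ := by unfold Kc; rw [mul_pow, mul_pow]; ring

end Vale.Agent.P119.PB.CT
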