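import Vale.Agent.P119.PB.IrrUm1
import Vale.Agent.P119.RM.IrrU

/-!
# P119, block PROB: irregular contacts of a fixed line with the histories of the gas (`helper758`)

* `irrU_cases`: the cases of `IrrU`;
* **`irrU_small`**: for a fixed line `m` with birth `≥ 0` the probability of an irregular contact with
  some history of the gas (no liveness) is at most `ρ (1 + |v|²)`, for small `ε`, uniformly in `m` and in
  the horizon.
-/

open MeasureTheory Set Filter Topology Metric ProbabilityTheory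
open scoped ENNReal

namespace Vale.Agent.P119.PB

open KU FL M CTree RB AU FB

variable {Φ : E3 → ℝ} {ε b : ℝ} {L : ℕ} {f₀ : Ph → ℝ} {κ : ℝ}

namespace IrM

/-! ### The cases -/

/-- **The cases of `IrrU`.** -/
theorem irrU_cases (hΦ : IsPotential Φ) (hε : 0 < ε) {t T : ℝ} (htT : t ≤ T) {U : Finset Src}
    {m : Src} (hU : ∀ a ∈ U, a.1 = 0) (hm : 0 ≤ m.1) (h : FB.IrrU Φ ε L U m t) :
    (∃ S ∈ trs L U, (ok Φ ε S ∧ ext Φ ε S ≤ T) ∧
      ‖(KU.free m.1 (ln Φ ε S)).1 - (KU.free m.1 m.2.1).1‖ ≤ ε) ∨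
    (∃ p ∈ prs Φ ε L U t, m.2.1 ∈ tubeL Φ ε m.1 t (ln Φ ε p.1, ln Φ ε p.2)) ∨
    (∃ S ∈ trs L U, (ok Φ ε S ∧ ext Φ ε S ≤ T) ∧ ln Φ ε S ∈ ML.grazeL ε m.2.1) := by
  obtain ⟨S, hok, hdep, hsub, s, hs, hms, hsig, hc, h1⟩ := h
  have hS : S ∈ trs L U := mem_trs.2 ⟨hsub, hdep⟩
  -- the contact with a history which has exited, at the birth of `m`
  have key1 : s = m.1 → ext Φ ε S ≤ s → ∃ S ∈ trs L U, (ok Φ ε S ∧ ext Φ ε S ≤ T) ∧
      ‖(KU.free m.1 (ln Φ ε S)).1 - (KU.free m.1 m.2.1).1‖ ≤ ε := by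
    intro h2 h3
    refine ⟨S, hS, ⟨hok, h3.trans (hs.trans htT)⟩, ?_⟩
    rw [st_after hΦ hε hok h3, h2] at hc
    rw [norm_sub_rev]
    exact hc.le
  -- the contact before the exit
  have key2 : s ≤ ext Φ ε S → (∃ S ∈ trs L U, (ok Φ ε S ∧ ext Φ ε S ≤ T) ∧
      ‖(KU.free m.1 (ln Φ ε S)).1 - (KU.free m.1 m.2.1).1‖ ≤ ε) ∨
      (∃ p ∈ prs Φ ε L U t, m.2.1 ∈ tubeL Φ ε m.1 t (ln Φ ε p.1, ln Φ ε p.2)) := by
    intro h2
    cases S with
    | leaf a =>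
      left
      have h3 : a.1 = 0 := hU a (Finset.mem_coe.1 (hsub (by simp [leaves])))
      have h4 : s ≤ a.1 := h2
      refine key1 ?_ ?_
      · linarith
      · change a.1 ≤ s
        linarith
    | node A B =>
      right
      set q : Ph × Ph := (ln Φ ε A, ln Φ ε B) with hq
      have hmt : Meets ε q := hok.2.2.2.1
      have hx : Exits Φ (rel ε q) := hok.2.2.2.2.1
      have hr1 : hitT ε q ≤ s := hsig
      have hr2 : s ≤ sepT Φ ε q := h2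
      have h3 := (ML.norm_pairLine_sub_com hΦ hε hmt hx hr1 hr2).1
      have h4 : ‖(KU.free s m.2.1).1 - (pairLine Φ ε q s).1.1‖ ≤ ε := hc.le
      have hAB : max A.depth B.depth + 1 ≤ L := hdep
      refine ⟨(A, B), ?_, s, ⟨max_le hr1 hms, le_min hs hr2⟩, ?_⟩
      · refine mem_prs.2 ⟨?_, hok, hr1.trans hs⟩
        rw [Finset.mem_product, mem_trs, mem_trs]
        refine ⟨⟨fun x hx => hsub (Or.inl hx), ?_⟩, fun x hx => hsub (Or.inr hx), ?_⟩
        · change A.depth ≤ L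
          have := le_max_left A.depth B.depth
          omega
        · change B.depth ≤ L
          have := le_max_right A.depth B.depth
          omega
      · have h5 : m.2.1.1 + s • m.2.1.2 - ((com q).1 + s • (com q).2) =
            ((KU.free s m.2.1).1 - (pairLine Φ ε q s).1.1) +
              ((pairLine Φ ε q s).1.1 - (KU.free s (com q)).1) := by
          unfold KU.free
          simp only
          abel
        change ‖m.2.1.1 + s • m.2.1.2 - ((com q).1 + s • (com q).2)‖ ≤ 2 * ε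
        rw [h5]
        refine (norm_add_le _ _).trans ?_
        linarith
  rcases h1 with h1 | h1 | ⟨h1, h2, h3⟩
  · rcases le_total (ext Φ ε S) s with h2 | h2
    · exact Or.inl (key1 h1 h2)
    · rcases key2 h2 with h3 | h3
      · exact Or.inl h3
      · exact Or.inr (Or.inl h3)
  · rcases key2 h1 with h3 | h3
    · exact Or.inl h3
    · exact Or.inr (Or.inl h3)
  · exact Or.inr (Or.inr ⟨S, hS, ⟨hok, h1.le.trans (hs.trans htT)⟩, ML.mem_grazeL hε h2 h3⟩)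

/-! ### Extraction -/

/-- The trees of the gas with a property. -/
theorem lintegral_exists_tree_le (hΦ : IsPotential Φ) (hg : GoodDatum f₀ κ) (hε : 0 < ε)
    {N : Set CTree} (hN : MeasurableSet N) (hok : ∀ S ∈ N, ok Φ ε S) :
    ∫⁻ c, ind (∃ S ∈ trs L (wS (GC.pts c)), S ∈ N) ∂(GC.PP f₀ ε) ≤
      tree (GC.inten f₀ ε) L N := by
  classical
  have hfin : IsFiniteMeasure (GC.inten f₀ ε) := GC.isFiniteMeasure_inten hg
  have hprob := GC.isProbability_PP (ε := ε) hg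
  set N' : Set CTree := N ∩ {S | S.depth ≤ L} with hN'
  have hN'm : MeasurableSet N' := hN.inter (measurable_depth (measurableSet_Iic (a := L)))
  have h1 := extract_le (Φ := Φ) (ε := ε) (L := L) (ν := GC.inten f₀ ε) (C := GC.Cx ε)
    (GC.measurableSet_Cx ε) (GC.Cx_symm ε) (GC.Cx_irrefl hε.le)
    (F := fun T _ => N'.indicator 1 T) (fun T w hne => by
      by_cases hT : T ∈ N'
      · exact ⟨hok T hT.1, hT.2⟩
      · exact absurd (indicator_of_notMem hT _) hne)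
    ((measurable_one.indicator hN'm).comp measurable_fst)
  refine le_trans (lintegral_mono fun c => ?_) (h1.trans ?_)
  · by_cases h2 : ∃ S ∈ trs L (wS (GC.pts c)), S ∈ N
    · obtain ⟨S, h3, h4⟩ := h2
      refine (ind_le_one _).trans ?_
      obtain ⟨h5, h6⟩ := mem_trs.1 h3
      rw [coe_wS] at h5
      refine le_trans ?_ (ENNReal.le_tsum S)
      rw [if_pos h5, indicator_of_mem (show S ∈ N' from ⟨h4, h6⟩)]
      exact le_rfl
    · rw [ind_of_not h2]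
      exact zero_le
  · have h2 : ∀ T : CTree, ∫⁻ _ : GC.Conf Ph, N'.indicator (1 : CTree → ℝ≥0∞) T
        ∂(GC.gc (GC.inten f₀ ε) (GC.Cx ε)) = N'.indicator 1 T := by
      intro T
      have h3 : (GC.gc (GC.inten f₀ ε) (GC.Cx ε)) univ = 1 := hprob.measure_univ
      rw [lintegral_const, h3, mul_one]
    simp only [h2]
    rw [lintegral_indicator_one hN'm]
    exact measure_mono inter_subset_left

/-- The weight of a pair of trees. -/
noncomputable def Gq (Φ : E3 → ℝ) (ε : ℝ) (T : ℝ) (G : Ph × Ph → ℝ≥0∞) (A B : CTree) : ℝ≥0∞ :=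
  {S | ok Φ ε S ∧ ext Φ ε S ≤ T}.indicator 1 A *
    ({S | ok Φ ε S ∧ ext Φ ε S ≤ T}.indicator 1 B * G (ln Φ ε A, ln Φ ε B))

theorem measurable_Gq (hΦ : IsPotential Φ) (hε : 0 < ε) (T : ℝ) {G : Ph × Ph → ℝ≥0∞}
    (hG : Measurable G) : Measurable fun p : CTree × CTree => Gq Φ ε T G p.1 p.2 := by
  have h1 : Measurable fun p : CTree × CTree => ((ln Φ ε p.1, ln Φ ε p.2) : Ph × Ph) :=
    ((measurable_ln hΦ hε.ne').comp measurable_fst).prodMk
      ((measurable_ln hΦ hε.ne').comp measurable_snd)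
  have h2 : Measurable fun S : CTree =>
      {S : CTree | ok Φ ε S ∧ ext Φ ε S ≤ T}.indicator (1 : CTree → ℝ≥0∞) S :=
    measurable_one.indicator (measurableSet_okExt hΦ hε T)
  exact (h2.comp measurable_fst).mul ((h2.comp measurable_snd).mul (hG.comp h1))

open Classical in
/-- The weight of a pair of fresh trees. -/
noncomputable def Fq (Φ : E3 → ℝ) (ε : ℝ) (L : ℕ) (T : ℝ) (G : Ph × Ph → ℝ≥0∞)
    (S : Fin 2 → CTree) : ℝ≥0∞ :=
  {S : Fin 2 → CTree | IND.Fresh Φ ε L S}.indicator (fun S => Gq Φ ε T G (S 0) (S 1)) S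

theorem measurable_Fq (hΦ : IsPotential Φ) (hε : 0 < ε) (L : ℕ) (T : ℝ) {G : Ph × Ph → ℝ≥0∞}
    (hG : Measurable G) : Measurable (Fq Φ ε L T G) := by
  have h1 : Measurable fun S : Fin 2 → CTree => ((S 0, S 1) : CTree × CTree) :=
    (measurable_pi_apply 0).prodMk (measurable_pi_apply 1)
  have h2 : Measurable fun S : Fin 2 → CTree => Gq Φ ε T G (S 0) (S 1) :=
    (measurable_Gq hΦ hε T hG).comp h1
  exact h2.indicator (IND.measurableSet_fresh (L := L) hΦ hε.ne' 2)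

open Classical in
/-- The sum over the colliding pairs of a world. -/
theorem sum_prs_leG {G : Ph × Ph → ℝ≥0∞} {t T : ℝ} (htT : t ≤ T) (w : Finset Ph) :
    ∑ p ∈ prs Φ ε L (wS w) t, G (ln Φ ε p.1, ln Φ ε p.2) ≤
      ∑' S : Fin 2 → CTree, (if IND.InW (world (w : Set Ph)) S then Fq Φ ε L T G S else 0) := by
  set F : (Fin 2 → CTree) → ℝ≥0∞ := fun S =>
    if IND.InW (world (w : Set Ph)) S then Fq Φ ε L T G S else 0 with hF
  have h1 : ∀ p ∈ prs Φ ε L (wS w) t, G (ln Φ ε p.1, ln Φ ε p.2) =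
      F ((finTwoArrowEquiv CTree).symm p) := by
    intro p hp
    obtain ⟨h2, h3, h4⟩ := mem_prs.1 hp
    rw [Finset.mem_product, mem_trs, mem_trs, coe_wS] at h2
    obtain ⟨⟨h5, h6⟩, h7, h8⟩ := h2
    set S : Fin 2 → CTree := (finTwoArrowEquiv CTree).symm p with hS
    have e0 : S 0 = p.1 := rfl
    have e1 : S 1 = p.2 := rfl
    have hW : IND.InW (world (w : Set Ph)) S := by
      intro k
      fin_cases k
      · exact h5
      · exact h7
    have hFr : IND.Fresh Φ ε L S := by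
      refine ⟨fun k => ?_, fun k => ?_, fun j k hjk => ?_⟩
      · fin_cases k
        · exact h3.1
        · exact h3.2.1
      · fin_cases k
        · exact h6
        · exact h8
      · fin_cases j <;> fin_cases k
        · exact absurd rfl hjk
        · exact h3.2.2.1
        · exact h3.2.2.1.symm
        · exact absurd rfl hjk
    have hA : p.1 ∈ {S : CTree | ok Φ ε S ∧ ext Φ ε S ≤ T} :=
      ⟨h3.1, (h3.2.2.2.2.2.1.le.trans h4).trans htT⟩
    have hB : p.2 ∈ {S : CTree | ok Φ ε S ∧ ext Φ ε S ≤ T} :=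
      ⟨h3.2.1, (h3.2.2.2.2.2.2.le.trans h4).trans htT⟩
    rw [hF]
    simp only
    rw [if_pos hW]
    unfold Fq
    rw [indicator_of_mem (show S ∈ {S : Fin 2 → CTree | IND.Fresh Φ ε L S} from hFr)]
    unfold Gq
    rw [e0, e1, indicator_of_mem hA, indicator_of_mem hB, Pi.one_apply, Pi.one_apply, one_mul,
      one_mul]
  rw [Finset.sum_congr rfl h1, ← (finTwoArrowEquiv CTree).symm.tsum_eq F]
  exact ENNReal.sum_le_tsum _

theorem Fq_ne_zero {T : ℝ} {G : Ph × Ph → ℝ≥0∞} {S : Fin 2 → CTree}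
    (h : Fq Φ ε L T G S ≠ 0) : IND.Fresh Φ ε L S := by
  by_contra hcon
  exact h (indicator_of_notMem hcon _)

/-- The expectation of the sum over the colliding pairs. -/
theorem lintegral_prs_leG (hΦ : IsPotential Φ) (hg : GoodDatum f₀ κ) (hε : 0 < ε)
    {G : Ph × Ph → ℝ≥0∞} (hG : Measurable G) {t T : ℝ} (htT : t ≤ T) :
    ∫⁻ c, ∑ p ∈ prs Φ ε L (wS (GC.pts c)) t, G (ln Φ ε p.1, ln Φ ε p.2) ∂(GC.PP f₀ ε) ≤
      ∫⁻ A, ∫⁻ B, Gq Φ ε T G A B ∂(tree (GC.inten f₀ ε) L) ∂(tree (GC.inten f₀ ε) L) := by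
  classical
  have hfin : IsFiniteMeasure (GC.inten f₀ ε) := GC.isFiniteMeasure_inten hg
  have h1 := IND.multi_extract_le (Φ := Φ) (ε := ε) (L := L) (ν := GC.inten f₀ ε)
    (C := GC.Cx ε) (GC.measurableSet_Cx ε) (GC.Cx_symm ε) (GC.Cx_irrefl hε.le) 2
    (F := Fq Φ ε L T G) (measurable_Fq hΦ hε L T hG) fun S hS => Fq_ne_zero hS
  refine (lintegral_mono fun c => sum_prs_leG htT (GC.pts c)).trans (h1.trans ?_)
  have h2 : ∀ S : Fin 2 → CTree, Fq Φ ε L T G S ≤ Gq Φ ε T G (S 0) (S 1) := fun S =>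
    indicator_le_self' (fun _ _ => zero_le) S
  refine (lintegral_mono h2).trans (le_of_eq ?_)
  have h3 := (measurePreserving_finTwoArrow (tree (GC.inten f₀ ε) L)).lintegral_comp
    (measurable_Gq (Φ := Φ) hΦ hε T hG)
  have h4 := measurable_Gq (Φ := Φ) hΦ hε T hG
  rw [← lintegral_prod _ h4.aemeasurable, ← h3]
  rfl

/-! ### The bound -/

theorem muE_sq_mul (hε : 0 < ε) : muE ε ^ 2 * ENNReal.ofReal (ε ^ 4) = 1 := by
  have h1 := muE_mul hε
  have h2 : ENNReal.ofReal (ε ^ 4) = ENNReal.ofReal (ε ^ 2) * ENNReal.ofReal (ε ^ 2) := by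
    rw [← ENNReal.ofReal_mul (by positivity)]
    congr 1
    ring
  rw [h2, pow_two]
  calc muE ε * muE ε * (ENNReal.ofReal (ε ^ 2) * ENNReal.ofReal (ε ^ 2))
      = (muE ε * ENNReal.ofReal (ε ^ 2)) * (muE ε * ENNReal.ofReal (ε ^ 2)) := by ring
    _ = 1 := by rw [h1, one_mul]

theorem measurable_ind_trs {N : Set CTree} (hN : MeasurableSet N) :
    Measurable fun c : GC.Conf Ph => ind (∃ S ∈ trs L (wS (GC.pts c)), S ∈ N) := by
  refine measurable_ind ?_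
  have h1 : MM.RS fun c : GC.Conf Ph => ((wS (GC.pts c) : Finset Src) : Set Src) :=
    RM.rs_wS measurable_id
  have hm : MeasurableSet {p : GC.Conf Ph × CTree | p.2.depth ≤ L ∧ p.2 ∈ N} :=
    (measurable_snd (measurable_depth (measurableSet_Iic (a := L)))).inter (measurable_snd hN)
  have h2 := (MM.RS.trees h1).measurableSet_exists hm
  refine h2.congr ?_
  ext c
  constructor
  · rintro ⟨S, h3, h4, h5⟩
    exact ⟨S, mem_trs.2 ⟨h3, h4⟩, h5⟩
  · rintro ⟨S, h3, h5⟩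
    exact ⟨S, (mem_trs.1 h3).1, (mem_trs.1 h3).2, h5⟩

/-- The lines near the line `m` at its birth. -/
def Nb (Φ : E3 → ℝ) (ε T : ℝ) (m : Src) : Set CTree :=
  ML.nearT Φ ε T (fun _ => m.1) (fun _ => (KU.free m.1 m.2.1).1) (ε * 1)

/-- The grazing lines. -/
def Ng (Φ : E3 → ℝ) (ε T : ℝ) (m : Src) : Set CTree :=
  {S | (ok Φ ε S ∧ ext Φ ε S ≤ T) ∧ ln Φ ε S ∈ ML.grazeL ε m.2.1}

theorem measurableSet_Nb (hΦ : IsPotential Φ) (hε : 0 < ε) {T : ℝ} {m : Src} :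
    MeasurableSet (Nb Φ ε T m) :=
  ML.measurableSet_nearT hΦ hε.ne' measurable_const measurable_const _

theorem measurableSet_Ng (hΦ : IsPotential Φ) (hε : 0 < ε) {T : ℝ} {m : Src} :
    MeasurableSet (Ng Φ ε T m) :=
  (measurableSet_okExt hΦ hε T).inter
    (measurable_ln hΦ hε.ne' (ML.measurableSet_grazeL ε m.2.1))

theorem Gt_eq_one {s t T : ℝ} {l : Ph} {q : Ph × Ph} (h1 : Meets ε q) (h2 : 0 < hitT ε q)
    (h3 : hitT ε q ≤ T) (h4 : l ∈ tubeL Φ ε s t q) : Gt Φ ε T s t l q = 1 := by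
  unfold Gt
  rw [indicator_of_mem]
  · rfl
  · exact ⟨⟨h1, h2, h3⟩, h4⟩

/-- The cases, as a bound of the indicator. -/
theorem ind_irrU_le (hΦ : IsPotential Φ) (hε : 0 < ε) {t T : ℝ} (htT : t ≤ T) {w : Finset Ph}
    {m : Src} (hm : 0 ≤ m.1) :
    ind (FB.IrrU Φ ε L (wS w) m t) ≤ ind (∃ S ∈ trs L (wS w), S ∈ Nb Φ ε T m) +
      (ind (∃ S ∈ trs L (wS w), S ∈ Ng Φ ε T m) + ∑ p ∈ prs Φ ε L (wS w) t,
        Gt Φ ε T m.1 t m.2.1 (ln Φ ε p.1, ln Φ ε p.2)) := by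
  by_cases h : FB.IrrU Φ ε L (wS w) m t
  swap
  · rw [ind_of_not h]
    exact zero_le
  rw [ind_of h]
  have hU : ∀ a ∈ wS w, a.1 = 0 := by
    intro a ha
    obtain ⟨z, -, rfl⟩ := mem_wS.1 ha
    rfl
  rcases irrU_cases hΦ hε htT hU hm h with ⟨S, hS, h3, h4⟩ | ⟨p, hp, h3⟩ | ⟨S, hS, h3, h4⟩
  · have h5 : S ∈ Nb Φ ε T m := by
      refine ⟨h3, h4.trans ?_⟩
      have := mul_nonneg hε.le (norm_nonneg (ln Φ ε S).2)
      change ε ≤ ε * 1 * (1 + ‖(ln Φ ε S).2‖)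
      linarith
    have h6 : ∃ S ∈ trs L (wS w), S ∈ Nb Φ ε T m := ⟨S, hS, h5⟩
    rw [ind_of h6]
    exact le_self_add
  · obtain ⟨h5, h6, h7⟩ := mem_prs.1 hp
    have h8 : Gt Φ ε T m.1 t m.2.1 (ln Φ ε p.1, ln Φ ε p.2) = 1 :=
      Gt_eq_one h6.2.2.2.1 (hitT_pos_of_ok hΦ hε h6) (h7.trans htT) h3
    have h9 : Gt Φ ε T m.1 t m.2.1 (ln Φ ε p.1, ln Φ ε p.2) ≤
        ∑ p ∈ prs Φ ε L (wS w) t, Gt Φ ε T m.1 t m.2.1 (ln Φ ε p.1, ln Φ ε p.2) :=
      Finset.single_le_sum (f := fun p : CTree × CTree =>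
        Gt Φ ε T m.1 t m.2.1 (ln Φ ε p.1, ln Φ ε p.2)) (fun _ _ => zero_le) hp
    rw [h8] at h9
    exact le_add_left (le_add_left h9)
  · have h6 : ∃ S ∈ trs L (wS w), S ∈ Ng Φ ε T m := ⟨S, hS, h3, h4⟩
    rw [ind_of h6]
    exact le_add_left le_self_add

theorem le_real_add_one {C : ℝ≥0∞} (hC : C ≠ ∞) : C ≤ ENNReal.ofReal (C.toReal + 1) := by
  calc C = ENNReal.ofReal C.toReal := (ENNReal.ofReal_toReal hC).symm
    _ ≤ _ := ENNReal.ofReal_le_ofReal (by linarith)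

/-- The contacts at the birth. -/
theorem nb_small (hΦ : IsPotential Φ) (hg : GoodDatum f₀ κ) {b₀ T M₀ : ℝ}
    (hb₀ : 0 < b₀) (hT : 0 ≤ T) (hM : 0 ≤ M₀)
    (hf : ∀ z, f₀ z ≤ M₀ * Real.exp (-b₀ * ‖z.2‖ ^ 2)) (L : ℕ) {ρ : ℝ} (hρ : 0 < ρ) :
    ∀ᶠ ε in 𝓝[>] (0 : ℝ), ∀ m : Src,
      ∫⁻ c, ind (∃ S ∈ trs L (wS (GC.pts c)), S ∈ Nb Φ ε T m) ∂(GC.PP f₀ ε) ≤
        ENNReal.ofReal ρ := by
  obtain ⟨C₁, hC₁, h₁⟩ := ML.near_mass_eps (T₀ := T) hΦ hg hb₀ hT hM hf L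
  set k₁ : ℝ := C₁.toReal + 1 with hk₁
  have hk₁0 : 0 < k₁ := by positivity
  have hev : ∀ᶠ ε in 𝓝[>] (0 : ℝ), ε ≤ ρ / k₁ := by
    have : (0 : ℝ) < ρ / k₁ := by positivity
    filter_upwards [Ioc_mem_nhdsGT this] with ε hε
    exact hε.2
  filter_upwards [hev, self_mem_nhdsWithin] with ε hεk hε m
  have hε' : 0 < ε := hε
  refine (lintegral_exists_tree_le hΦ hg hε' (measurableSet_Nb hΦ hε')
    fun S hS => hS.1.1).trans ?_
  refine (h₁ ε hε' _ _ measurable_const measurable_const 1 zero_le_one).trans ?_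
  calc C₁ * ENNReal.ofReal (ε * 1 ^ 3) ≤ ENNReal.ofReal k₁ * ENNReal.ofReal (ρ / k₁) := by
        refine mul_le_mul' (le_real_add_one hC₁) (ENNReal.ofReal_le_ofReal ?_)
        rw [one_pow, mul_one]
        exact hεk
    _ = ENNReal.ofReal ρ := by
        rw [← ENNReal.ofReal_mul hk₁0.le]
        congr 1
        field_simp

/-- The contacts with colliding pairs. -/
theorem pr_small (hΦ : IsPotential Φ) (hg : GoodDatum f₀ κ) {b₀ T M₀ : ℝ}
    (hb₀ : 0 < b₀) (hT : 0 < T) (hM : 0 ≤ M₀)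
    (hf : ∀ z, f₀ z ≤ M₀ * Real.exp (-b₀ * ‖z.2‖ ^ 2)) (L : ℕ) {ρ : ℝ} (hρ : 0 < ρ) :
    ∀ᶠ ε in 𝓝[>] (0 : ℝ), ∀ t ≤ T, ∀ m : Src, 0 ≤ m.1 →
      ∫⁻ c, ∑ p ∈ prs Φ ε L (wS (GC.pts c)) t,
        Gt Φ ε T m.1 t m.2.1 (ln Φ ε p.1, ln Φ ε p.2) ∂(GC.PP f₀ ε) ≤
      ENNReal.ofReal ρ * ML.pw 1 m.2.1.2 := by
  obtain ⟨C₂, hC₂, h₂⟩ := crude_two hΦ hg hb₀ hT.le hM hf L
  set k₂ : ℝ := C₂.toReal + 1 with hk₂
  have hk₂0 : 0 < k₂ := by positivity
  filter_upwards [lintegral_Gt_small hΦ (half_pos hb₀) hT (show 0 < ρ / 2 / k₂ by positivity),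
    self_mem_nhdsWithin] with ε hG hε t ht m hm
  have hε' : 0 < ε := hε
  refine (lintegral_prs_leG hΦ hg hε' (measurable_Gt hΦ ε T m.1 t m.2.1) ht).trans ?_
  refine (h₂ ε hε' _ (measurable_Gt hΦ ε T m.1 t m.2.1)).trans ?_
  have h3 := hG t ht m.1 hm m.2.1
  have e3 : ∀ z : Ph, CT.g1 (b₀ / 2) z.2 = gw (b₀ / 2) z.2 := fun _ => rfl
  simp only [e3]
  refine (mul_le_mul_right (mul_le_mul' (le_real_add_one hC₂) h3) _).trans ?_
  have e4 : ENNReal.ofReal ρ = ENNReal.ofReal (ρ / 2) * 2 := by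
    rw [← ENNReal.ofReal_ofNat, ← ENNReal.ofReal_mul (by positivity)]
    congr 1
    ring
  calc muE ε ^ 2 * (ENNReal.ofReal k₂ * (ENNReal.ofReal (ε ^ 4) *
        (ENNReal.ofReal (ρ / 2 / k₂) * ENNReal.ofReal (1 + ‖m.2.1.2‖))))
      = (muE ε ^ 2 * ENNReal.ofReal (ε ^ 4)) * ((ENNReal.ofReal k₂ *
        ENNReal.ofReal (ρ / 2 / k₂)) * ENNReal.ofReal (1 + ‖m.2.1.2‖)) := by ring
    _ = ENNReal.ofReal (ρ / 2) * ENNReal.ofReal (1 + ‖m.2.1.2‖) := by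
        rw [muE_sq_mul hε', one_mul, ← ENNReal.ofReal_mul hk₂0.le]
        congr 2
        field_simp
    _ ≤ ENNReal.ofReal (ρ / 2) * (2 * ML.pw 1 m.2.1.2) :=
        mul_le_mul_right (ML.one_add_norm_le_pw _) _
    _ = _ := by
        rw [e4]
        ring

end IrM

open IrM in
/-- **Irregular contacts of a fixed line with the histories of the gas.** -/
theorem irrU_small (hΦ : IsPotential Φ) (hg : GoodDatum f₀ κ) {b₀ T M₀ : ℝ}
    (hb₀ : 0 < b₀) (hT : 0 < T) (hM : 0 ≤ M₀)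
    (hf : ∀ z, f₀ z ≤ M₀ * Real.exp (-b₀ * ‖z.2‖ ^ 2)) (L : ℕ) {ρ : ℝ} (hρ : 0 < ρ) :
    ∀ᶠ ε in 𝓝[>] (0 : ℝ), ∀ t ≤ T, ∀ m : Src, 0 ≤ m.1 →
      ∫⁻ c, ind (FB.IrrU Φ ε L (wS (GC.pts c)) m t) ∂(GC.PP f₀ ε) ≤
        ENNReal.ofReal ρ * ML.pw 1 m.2.1.2 := by
  have hρ2 : 0 < ρ / 2 := half_pos hρ
  filter_upwards [nb_small hΦ hg hb₀ hT.le hM hf L hρ2, pr_small hΦ hg hb₀ hT hM hf L hρ2,
    self_mem_nhdsWithin] with ε b1 b2 hε t ht m hm
  have hε' : 0 < ε := hε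
  have b3 : ∫⁻ c, ind (∃ S ∈ trs L (wS (GC.pts c)), S ∈ Ng Φ ε T m) ∂(GC.PP f₀ ε) ≤ 0 := by
    refine (lintegral_exists_tree_le hΦ hg hε' (measurableSet_Ng hΦ hε')
      fun S hS => hS.1.1).trans (le_of_eq ?_)
    exact ML.null_mass hΦ hε' hg hb₀ hT.le hM hf L (ML.measurableSet_grazeL ε m.2.1)
      (ML.volume_grazeL m.2.1)
  refine (lintegral_mono fun c => ind_irrU_le hΦ hε' ht hm).trans ?_
  rw [lintegral_add_left (measurable_ind_trs (measurableSet_Nb hΦ hε')),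
    lintegral_add_left (measurable_ind_trs (measurableSet_Ng hΦ hε'))]
  refine (add_le_add (b1 m) (add_le_add b3 (b2 t ht m hm))).trans ?_
  calc ENNReal.ofReal (ρ / 2) + (0 + ENNReal.ofReal (ρ / 2) * ML.pw 1 m.2.1.2)
      ≤ ENNReal.ofReal (ρ / 2) * ML.pw 1 m.2.1.2 +
        (0 + ENNReal.ofReal (ρ / 2) * ML.pw 1 m.2.1.2) :=
        add_le_add (le_mul_of_one_le_right' (ML.one_le_pw 1 _)) le_rfl
    _ = _ := by
        rw [zero_add, ← add_mul, ← ENNReal.ofReal_add (by positivity) (by positivity), add_halves]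

end Vale.Agent.P119.PB
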