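import Vale.Agent.P119.FB.Conc1
import Vale.Agent.P119.PB.Def
import Vale.Agent.P119.RB.Part

/-!
# P119, block PROB: a touching source hits a real path or an M-path (`helper185`)

* `hits_of_mcon`: the first M-contact of an inserted source is a contact of its free line with an
  M-path of the base world;
* `hits_of_touch`: if the inserted source `l` touches the world `w` up to the time `t`, then its free
  line is, at a time `r ≤ t` after its birth, in contact with the real path or the M-path of a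
  label of `w`.
-/

open MeasureTheory Filter Topology Set

noncomputable section

namespace Vale.Agent.P119.PB

open M CTree KU FB RB

variable {Φ : E3 → ℝ} {ε : ℝ} {L : ℕ} {hΦ : IsPotential Φ} {hε : 0 < ε} {w : Finset Src}
  {l a b : Src} {s t : ℝ}

open Classical in
/-- The first M-contact of an inserted source. -/
theorem hits_of_mcon (hΦ : IsPotential Φ) (hε : 0 < ε) (hl : l ∉ w) (h0 : 0 ≤ l.1)
    (hd : l.2.2 ≤ L) {σ : ℝ}
    (hn : ∀ r < σ, ∀ b, ¬mcon Φ ε L (insert l w : Finset Src) r l b)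
    (hc : ∃ b, mcon Φ ε L (insert l w : Finset Src) σ l b) :
    l.1 ≤ σ ∧ ∃ b ∈ w, Hits Φ ε L w b σ (KU.free σ l.2.1) := by
  obtain ⟨b, hc⟩ := hc
  have hW : ((insert l w : Finset Src) : Set Src).Finite := Finset.finite_toSet _
  have hlσ : l.1 ≤ σ := (hc.birth_le hΦ hε).1
  have hbw : b ∈ w := by
    rcases Finset.mem_insert.1 (Finset.mem_coe.1 hc.mem.2) with h | h
    · exact absurd h.symm hc.1
    · exact h
  refine ⟨hlσ, b, hbw, Or.inr ?_⟩
  obtain ⟨hne, T, S, hT, hS, h3, h4, h5⟩ := hc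
  have hbl : b ≠ l := Ne.symm hne
  have hD : (sys Φ ε L (XR Φ ε) hΦ hε (XR_isFam hΦ hε)).Dlt w (insert l w) σ ⊆ {l} :=
    dlt_subset_single hl hn
  have hbD : b ∉ (sys Φ ε L (XR Φ ε) hΦ hε (XR_isFam hΦ hε)).Dlt w (insert l w) σ :=
    fun h => hbl (hD h)
  have hlive : live Φ ε L (insert l w : Finset Src) (leaf l) σ :=
    live_leaf_of hΦ hε hW (by simp) h0 hd hlσ hn
  have e1 : st Φ ε T σ = KU.free σ l.2.1 := by
    have := st_eq_free hΦ hε hW h3 (by rw [hT]; exact hlive)
    rw [this, hT]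
  have hsb : ∀ q < σ, stat Φ ε L ((insert l w : Finset Src) : Set Src) S.root q =
      stat Φ ε L (w : Set Src) S.root q := by
    intro q hq
    by_contra hcon
    refine hbD ⟨q, hq, q, le_rfl, fun h => hcon ?_⟩
    rw [hS]
    exact (stat_of_sta h).symm
  obtain ⟨S', h6, h7, h8⟩ := live_congr' hΦ hε hW w.finite_toSet
    (fun _ => by rw [hS]; exact Finset.mem_coe.2 hbw) hsb h4
  refine ⟨S', h6.trans hS, h7, ?_⟩
  rw [h8, ← e1]
  exact h5

open Classical in
/-- **A touching source hits a path of the base world.** -/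
theorem hits_of_touch (hw : ∀ a ∈ w, 0 ≤ a.1) (hl : l ∉ w) (h0 : 0 ≤ l.1) (hd : l.2.2 ≤ L)
    (ht : (RB.Y Φ ε L hΦ hε).Touch w (insert l w) t) :
    ∃ r ≤ t, l.1 ≤ r ∧ ∃ b ∈ w, Hits Φ ε L w b r (KU.free r l.2.1) := by
  have hW : ((insert l w : Finset Src) : Set Src).Finite := Finset.finite_toSet _
  have hw' : ∀ a ∈ insert l w, 0 ≤ a.1 := by
    intro a ha
    rcases Finset.mem_insert.1 ha with rfl | h
    · exact h0
    · exact hw a h
  -- an M-contact up to the time `t`
  by_cases hm : ∃ σ ≤ t, ∃ b, mcon Φ ε L (insert l w : Finset Src) σ l b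
  · obtain ⟨σ₀, hσ₀, b₀, hb₀⟩ := hm
    have hcl : DClosed {s | ∃ b ∈ insert l w, s ∈ {s | mcon Φ ε L (insert l w : Finset Src) s l b}} :=
      DClosed.biUnion _ fun b _ => mcon_closed hΦ hε hW l b
    obtain ⟨σ, h1, h2, h3⟩ := hcl.first (m := 0) (fun s ⟨b, _, hb⟩ => mcon.nonneg hΦ hε hb)
      (t := σ₀) ⟨b₀, Finset.mem_coe.1 hb₀.mem.2, hb₀⟩
    obtain ⟨b, hbm, hb⟩ := h2
    obtain ⟨h4, h5⟩ := hits_of_mcon hΦ hε hl h0 hd (σ := σ)
      (fun r hr b hb => h3 r hr ⟨b, Finset.mem_coe.1 hb.mem.2, hb⟩) ⟨b, hb⟩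
    exact ⟨σ, h1.trans hσ₀, h4, h5⟩
  · push Not at hm
    obtain ⟨τ, hτt, hτ, hfirst⟩ := FB.Sys.Touch.first ht
    set Y := RB.Y Φ ε L hΦ hε with hY
    have hn : ∀ r < τ, ∀ b, ¬mcon Φ ε L (insert l w : Finset Src) r l b :=
      fun r hr b => hm r (hr.le.trans hτt) b
    have hD : Y.Dlt w (insert l w) τ ⊆ {l} := dlt_subset_single hl hn
    have hlD : ∀ s, l ∈ Y.D w (insert l w) s := fun s => mem_D_of_mem (by simp [hl]) s
    have hunexp : ∀ q < τ, ¬Y.Exp (insert l w) l q := fun q hq h =>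
      hfirst q hq ⟨l, hlD q, Or.inr h⟩
    have hlive : ∀ r ≤ τ, l.1 ≤ r → live Φ ε L (insert l w : Finset Src) (leaf l) r :=
      fun r hr hb => live_leaf_of hΦ hε hW (by simp) h0 hd hb fun q hq => hn q (by linarith)
    rcases Sys.direct (X := {l}) (fun h => RB.con.symm h) (Finset.subset_insert l w)
      (fun a ha => by rw [mem_singleton_iff.1 ha]; exact hl) (Y_loc hΦ hε hw hw') hD hτ hfirst with
      ⟨x, hx, b, r, hr, hb, hc⟩ | ⟨a, r, hr, h1, h2⟩
    · rw [mem_singleton_iff.1 hx] at hc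
      have hbw : b ∈ w := hb.mem
      have hbl : b ≠ l := fun h => hl (h ▸ hbw)
      have hrD : Y.Dlt w (insert l w) r ⊆ {l} := fun z ⟨q, hq, hz⟩ => hD ⟨q, by linarith, hz⟩
      have hbD : b ∉ Y.Dlt w (insert l w) r := fun h => hbl (hrD h)
      have hlr : l.1 ≤ r := (RB.con.birth_le hΦ hε hc).1
      have hbr : b.1 ≤ r := (RB.con.birth_le hΦ hε hc).2
      refine ⟨r, hr.trans hτt, hlr, b, hbw, ?_⟩
      rcases hc with hc | h3
      · exact absurd hc (hm r (hr.trans hτt) b)
      · left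
        refine ⟨hbr, ?_⟩
        have e1 : XR Φ ε (insert l w) r l = KU.free r l.2.1 :=
          Y_real_st hΦ hε hw' (T := leaf l) (fun q hq => hunexp q (by linarith)) (hlive r hr hlr)
        have e2 : XR Φ ε w r b = XR Φ ε (insert l w) r b :=
          Y_real_eq hΦ hε hw hw' (fun s hs => hfirst s (by linarith)) hbD le_rfl
        have h4 := h3.2.2.2.2.2.2
        rw [e1, ← e2] at h4
        exact h4
    · exfalso
      have haD : a ∈ Y.D w (insert l w) r := ⟨r, le_rfl, fun h => h2 (by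
        have := badc_of_sta h
        change badc Φ ε L (w : Set Src) a r
        rw [this]
        exact h1)⟩
      have h1' : badc Φ ε L ((insert l w : Finset Src) : Set Src) a r := h1
      by_cases hal : a = l
      · subst hal
        obtain ⟨q, hq, hq1, hq2, hq3, hq4⟩ := h1'
        have hq5 : q ≤ t := hq.trans (hr.trans hτt)
        rcases hq4 with hq4 | ⟨c, hc, -⟩
        · rw [stat_eq_none_iff] at hq4
          exact hq4 (leaf a) rfl (lives_leaf hΦ hε hW (by simp) h0 hd hq3
            fun r' hr' b => hm r' (hr'.trans hq5) b)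
        · exact hm q hq5 c hc
      · have hrτ : r = τ := by
          rcases hr.lt_or_eq with h | h
          · exact absurd (hD ⟨r, h, haD⟩) hal
          · exact h
        subst hrτ
        have haw : a ∈ w := by
          have := Finset.mem_coe.1 (badc.mem h1')
          rcases Finset.mem_insert.1 this with h | h
          · exact absurd h hal
          · exact h
        obtain ⟨b, hb, z, hz, h3⟩ := new' w (insert l w) r a haw (Finset.mem_insert_of_mem haw) haD
          fun h => hal (hD h)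
        rw [mem_singleton_iff.1 (hD hz)] at h3
        rcases h3 with ⟨-, h4⟩ | ⟨-, h4⟩
        · exact absurd (Finset.mem_coe.1 h4.mem.2) hl
        · exact hm r hτt b h4.symm

end Vale.Agent.P119.PB
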