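import Vale.Agent.P119.PB.Op7
import Vale.Agent.P119.PB.TouchHit

/-!
# P119, block PROB: crude flux of a Gaussian line into all the paths of an ordinary world
(`helper185`)

* `AB W t`: the labels of `W` born up to the time `t`; `expo2_all`: the family `AB W` satisfies the
  assumptions of Lemma E;
* `realA`, `ghostA`: the real path and the M-path of a label, as targets from the time `0` on;
* `all_flux`: flux of a Gaussian line into all the paths of a world whose labels are born at time `0`.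
-/

open MeasureTheory Set Filter Topology Metric ProbabilityTheory
open scoped ENNReal

namespace Vale.Agent.P119.PB

open M CTree KU FB RB AU FL EN

variable {Φ : E3 → ℝ} {ε : ℝ} {L : ℕ} {W : Finset Src} {c : Src}

/-! ### All labels -/

/-- The labels born up to the time `t`. -/
noncomputable def AB (W : Finset Src) (t : ℝ) : Finset Src := W.filter fun a => a.1 ≤ t

theorem mem_AB {t : ℝ} {a : Src} : a ∈ AB W t ↔ a ∈ W ∧ a.1 ≤ t := Finset.mem_filter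

theorem expo2_all (hΦ : IsPotential Φ) (hε : 0 < ε) (hW : ∀ a ∈ W, 0 ≤ a.1) :
    Expo2 Φ ε L W (AB W) where
  nonneg := hW
  sub t c hc := (mem_AB.1 hc).1
  born t c hc := (mem_AB.1 hc).2
  mono s t hst c hc := mem_AB.2 ⟨(mem_AB.1 hc).1, (mem_AB.1 hc).2.trans hst⟩
  right t := by
    have h1 : ∀ᶠ s in 𝓝[>] t, ∀ c ∈ W, t < c.1 → s < c.1 := by
      rw [Filter.eventually_all_finset]
      intro c _
      by_cases hc : t < c.1
      · filter_upwards [Ioo_mem_nhdsGT hc] with s hs _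
        exact hs.2
      · exact Eventually.of_forall fun _ h => absurd h hc
    filter_upwards [h1, self_mem_nhdsWithin] with s hs hst
    have hst : t < s := hst
    ext c
    rw [mem_AB, mem_AB]
    constructor
    · rintro ⟨hc, hcs⟩
      refine ⟨hc, ?_⟩
      by_contra hcon
      exact absurd hcs (not_le.2 (hs c hc (not_le.1 hcon)))
    · rintro ⟨hc, hct⟩
      exact ⟨hc, hct.trans hst.le⟩
  bad t c h := mem_AB.2 ⟨Finset.mem_coe.1 h.1, h.2.2.1⟩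
  mcon t c b h _ := mem_AB.2 ⟨Finset.mem_coe.1 h.mem.1, (h.birth_le hΦ hε).1⟩
  rcon t c hc b _ _ hct _ := mem_AB.2 ⟨hc, hct⟩
  lemH t c hc hct hn := absurd (mem_AB.2 ⟨hc, hct⟩) hn

theorem tau_AB (hc : c ∈ W) : tau (AB W) c = c.1 := by
  unfold tau
  have h1 : {t | c ∈ AB W t} = Ici c.1 := by
    ext t
    simp only [mem_ofPred_eq, mem_AB, mem_Ici]
    exact ⟨fun h => h.2, fun h => ⟨hc, h⟩⟩
  rw [h1, csInf_Ici]

theorem wt_AB (hΦ : IsPotential Φ) (hε : 0 < ε) (hc : c ∈ W) :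
    EN.wt Φ ε L W (AB W) c = ‖c.2.1.2‖ ^ 2 := by
  have key : ∀ S, PS Φ ε L (W : Set Src) c c.1 S → S = leaf c := by
    rintro S ⟨h1, h2, h3 | h3⟩
    · exact h3
    · have h4 := root_birth_le_sig hΦ hε h2.ok
      rw [h1] at h4
      exact absurd h3 (not_lt.2 h4)
  have h2 : ptree Φ ε L (W : Set Src) c c.1 = leaf c := by
    unfold ptree
    split_ifs with h
    · exact key _ h.choose_spec
    · rfl
  unfold EN.wt
  rw [tau_AB hc, h2]
  rfl

/-- The number and the energy of the labels. -/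
noncomputable def EW (W : Finset Src) : ℝ := ∑ c ∈ W, (1 + ‖c.2.1.2‖ ^ 2)

theorem EW_nonneg (W : Finset Src) : 0 ≤ EW W := Finset.sum_nonneg fun c _ => by positivity

theorem card_le_EW (W : Finset Src) : (W.card : ℝ) ≤ EW W := by
  have h : ∑ c ∈ W, (1 : ℝ) ≤ EW W := Finset.sum_le_sum fun c _ => by
    have := sq_nonneg ‖c.2.1.2‖
    linarith
  simpa using h

theorem AB_eq (h0 : ∀ a ∈ W, a.1 = 0) {s : ℝ} (hs : 0 ≤ s) : AB W s = W := by
  ext c
  rw [mem_AB]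
  exact ⟨fun h => h.1, fun h => ⟨h, by rw [h0 c h]; exact hs⟩⟩

/-- The squares of the M-velocities. -/
theorem sum_vs_le (hΦ : IsPotential Φ) {B : ℝ} (hB : RW.StableWith Φ B) (hε : 0 < ε)
    (h0 : ∀ a ∈ W, a.1 = 0) {s : ℝ} (hs : 0 ≤ s) :
    ∑ c ∈ W, (2 + vs Φ ε L W c s) ≤ (2 + 2 * B) * EW W := by
  have hX := (expo2_all (L := L) hΦ hε (fun a ha => (h0 a ha).ge)).expo hΦ hε
  have h1 := hX.ghost_vel hΦ hB hε s
  rw [AB_eq h0 hs] at h1
  have h2 : ∑ c ∈ W, (EN.wt Φ ε L W (AB W) c + 2 * B) = ∑ c ∈ W, (‖c.2.1.2‖ ^ 2 + 2 * B) :=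
    Finset.sum_congr rfl fun c hc => by rw [wt_AB hΦ hε hc]
  rw [h2] at h1
  rw [Finset.sum_add_distrib]
  have h3 : ∑ c ∈ W, (2 : ℝ) + ∑ c ∈ W, (‖c.2.1.2‖ ^ 2 + 2 * B) ≤ (2 + 2 * B) * EW W := by
    unfold EW
    rw [← Finset.sum_add_distrib, Finset.mul_sum]
    refine Finset.sum_le_sum fun c _ => ?_
    have := hB.1
    nlinarith [sq_nonneg ‖c.2.1.2‖, mul_nonneg this (sq_nonneg ‖c.2.1.2‖)]
  linarith

open Classical in
/-- The squares of the real velocities. -/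
theorem sum_xr_le (hΦ : IsPotential Φ) {B : ℝ} (hB : RW.StableWith Φ B) (hε : 0 < ε)
    (h0 : ∀ a ∈ W, a.1 = 0) (hexcl : ∀ a ∈ W, ∀ a' ∈ W, a ≠ a' → ε ≤ ‖a.2.1.1 - a'.2.1.1‖)
    {s : ℝ} (hs : 0 ≤ s) :
    ∑ c ∈ W, (2 + ‖(XR Φ ε W s c).2‖ ^ 2) ≤ (2 + 2 * B) * EW W := by
  have hX := expo2_all (L := 0) hΦ hε (fun a ha => (h0 a ha).ge)
  have h1 := hX.real_vel hΦ hB hε (fun a ha a' ha' hne _ _ => hexcl a ha a' ha' hne) s
  rw [AB_eq h0 hs] at h1
  have hk : (W.filter fun a => a.1 ≠ 0).card = 0 := by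
    rw [Finset.card_eq_zero, Finset.filter_eq_empty_iff]
    intro a ha h
    exact h (h0 a ha)
  rw [hk] at h1
  have h2 : ∑ c ∈ W, (EN.wt Φ ε 0 W (AB W) c + 2 * B * (1 + 2 * ((0 : ℕ) : ℝ))) =
      ∑ c ∈ W, (‖c.2.1.2‖ ^ 2 + 2 * B) :=
    Finset.sum_congr rfl fun c hc => by
      rw [wt_AB hΦ hε hc, Nat.cast_zero]
      ring
  rw [h2] at h1
  rw [Finset.sum_add_distrib]
  have h3 : ∑ c ∈ W, (2 : ℝ) + ∑ c ∈ W, (‖c.2.1.2‖ ^ 2 + 2 * B) ≤ (2 + 2 * B) * EW W := by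
    unfold EW
    rw [← Finset.sum_add_distrib, Finset.mul_sum]
    refine Finset.sum_le_sum fun c _ => ?_
    have := hB.1
    nlinarith [sq_nonneg ‖c.2.1.2‖, mul_nonneg this (sq_nonneg ‖c.2.1.2‖)]
  have h4 : ∀ c, xr Φ ε W s c = XR Φ ε W s c := fun c => rfl
  simp only [h4] at h1
  linarith

/-! ### The targets -/

open Classical in
/-- The real path of `c`, as a target. -/
noncomputable def realA (Φ : E3 → ℝ) (ε : ℝ) (hΦ : IsPotential Φ) (hε : 0 < ε)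
    (W : Finset Src) (h : ℝ) (c : Src) : Target h :=
  if hc : c ∈ W then bwTarget (XR_isBW hΦ hε W) hc h 0 else lineTarget h 0 c.2.1

theorem realA_eq {hΦ : IsPotential Φ} {hε : 0 < ε} {h : ℝ} (hc : c ∈ W) :
    realA Φ ε hΦ hε W h c = bwTarget (XR_isBW hΦ hε W) hc h 0 := by
  unfold realA
  rw [dif_pos hc]

theorem realA_a {hΦ : IsPotential Φ} {hε : 0 < ε} {h : ℝ} :
    (realA Φ ε hΦ hε W h c).a = 0 := by
  unfold realA
  split_ifs <;> rfl

theorem realA_Y {hΦ : IsPotential Φ} {hε : 0 < ε} {h : ℝ} (hc : c ∈ W) (r : ℝ) :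
    (realA Φ ε hΦ hε W h c).Y r = (XR Φ ε W r c).1 := by
  rw [realA_eq hc]
  rfl

theorem realA_y' {hΦ : IsPotential Φ} {hε : 0 < ε} {h : ℝ} (hc : c ∈ W) (r : ℝ) :
    (realA Φ ε hΦ hε W h c).y' r = ‖(XR Φ ε W r c).2‖ₑ := by
  rw [realA_eq hc]
  rfl

open Classical in
/-- The M-path of `c`, stopped when it dies, as a target. -/
noncomputable def ghostA (Φ : E3 → ℝ) (ε : ℝ) (L : ℕ) (hΦ : IsPotential Φ) (hε : 0 < ε)
    (W : Finset Src) (h : ℝ) (c : Src) : Target h :=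
  if hc : ∃ S : CTree, ∃ s, S.root = c ∧ s ≤ h ∧ live Φ ε L (W : Set Src) S s then
    ghostTarget hΦ hε (T := (ghost_exists (L := L) hΦ hε hc).choose)
      (ghost_exists (L := L) hΦ hε hc).choose_spec.choose_spec.2.2.1.ok
      (ghost_exists (L := L) hΦ hε hc).choose_spec.choose h 0
  else nullTarget h 0

theorem ghostA_a {hΦ : IsPotential Φ} {hε : 0 < ε} {h : ℝ} :
    (ghostA Φ ε L hΦ hε W h c).a = 0 := by
  unfold ghostA
  split_ifs <;> rfl

theorem ghostA_Y {hΦ : IsPotential Φ} {hε : 0 < ε} {h r : ℝ}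
    (hr : r ≤ h) {S : CTree} (hS : S.root = c) (hl : live Φ ε L (W : Set Src) S r) :
    (ghostA Φ ε L hΦ hε W h c).Y r = (st Φ ε S r).1 := by
  have hc : ∃ S : CTree, ∃ s, S.root = c ∧ s ≤ h ∧ live Φ ε L (W : Set Src) S s :=
    ⟨S, r, hS, hr, hl⟩
  unfold ghostA
  rw [dif_pos hc]
  obtain ⟨-, -, -, h1, -, -⟩ := (ghost_exists (L := L) hΦ hε hc).choose_spec.choose_spec
  obtain ⟨h2, h3⟩ := h1 S r hS hr hl
  change (path Φ ε _ (min r _)).1 = _
  rw [min_eq_left h2, h3]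

theorem ghostA_y' {hΦ : IsPotential Φ} {hε : 0 < ε} {h r : ℝ} (hcr : c.1 ≤ r) :
    (ghostA Φ ε L hΦ hε W h c).y' r ≤ ENNReal.ofReal (√(vs Φ ε L W c r)) := by
  unfold ghostA
  split_ifs with hc
  · obtain ⟨-, -, -, -, h1, -⟩ := (ghost_exists (L := L) hΦ hε hc).choose_spec.choose_spec
    set T := (ghost_exists (L := L) hΦ hε hc).choose with hT
    set E := (ghost_exists (L := L) hΦ hε hc).choose_spec.choose with hE
    change (Iio E).indicator (fun τ => ‖(path Φ ε T τ).2‖ₑ) r ≤ _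
    by_cases h2 : r < E
    · rw [indicator_of_mem (show r ∈ Iio E from h2), vs_some (h1 r hcr h2),
        Real.sqrt_sq (norm_nonneg _), ofReal_norm]
      exact le_rfl
    · rw [indicator_of_notMem (show r ∉ Iio E from h2)]
      exact zero_le
  · exact zero_le

/-- All the targets: real paths (`true`) and M-paths (`false`). -/
noncomputable def allT (Φ : E3 → ℝ) (ε : ℝ) (L : ℕ) (hΦ : IsPotential Φ) (hε : 0 < ε)
    (W : Finset Src) (h : ℝ) (i : Bool × Src) : Target h :=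
  if i.1 then realA Φ ε hΦ hε W h i.2 else ghostA Φ ε L hΦ hε W h i.2

theorem sum_realA_speed (hΦ : IsPotential Φ) {B : ℝ} (hB : RW.StableWith Φ B) (hε : 0 < ε)
    (h0 : ∀ a ∈ W, a.1 = 0) (hexcl : ∀ a ∈ W, ∀ a' ∈ W, a ≠ a' → ε ≤ ‖a.2.1.1 - a'.2.1.1‖)
    (h : ℝ) {s : ℝ} (hs : 0 ≤ s) :
    ∑ c ∈ W, (1 + (realA Φ ε hΦ hε W h c).y' s) ≤ ENNReal.ofReal ((2 + 2 * B) * EW W) := by
  calc ∑ c ∈ W, (1 + (realA Φ ε hΦ hε W h c).y' s)
      ≤ ∑ c ∈ W, ENNReal.ofReal (2 + ‖(XR Φ ε W s c).2‖ ^ 2) := by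
        refine Finset.sum_le_sum fun c hc => ?_
        rw [realA_y' hc, ← ofReal_norm, ← ENNReal.ofReal_one,
          ← ENNReal.ofReal_add zero_le_one (norm_nonneg _)]
        apply ENNReal.ofReal_le_ofReal
        nlinarith [sq_nonneg (‖(XR Φ ε W s c).2‖ - 1), norm_nonneg (XR Φ ε W s c).2]
    _ = ENNReal.ofReal (∑ c ∈ W, (2 + ‖(XR Φ ε W s c).2‖ ^ 2)) := by
        rw [ENNReal.ofReal_sum_of_nonneg]
        intro c _
        positivity
    _ ≤ _ := ENNReal.ofReal_le_ofReal (sum_xr_le hΦ hB hε h0 hexcl hs)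

theorem sum_ghostA_speed (hΦ : IsPotential Φ) {B : ℝ} (hB : RW.StableWith Φ B) (hε : 0 < ε)
    (h0 : ∀ a ∈ W, a.1 = 0) (h : ℝ) {s : ℝ} (hs : 0 ≤ s) :
    ∑ c ∈ W, (1 + (ghostA Φ ε L hΦ hε W h c).y' s) ≤ ENNReal.ofReal ((2 + 2 * B) * EW W) := by
  have hv : ∀ c, 0 ≤ vs Φ ε L W c s := by
    intro c
    unfold vs
    split <;> positivity
  calc ∑ c ∈ W, (1 + (ghostA Φ ε L hΦ hε W h c).y' s)
      ≤ ∑ c ∈ W, ENNReal.ofReal (2 + vs Φ ε L W c s) := by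
        refine Finset.sum_le_sum fun c hc => ?_
        have h4 := ghostA_y' (L := L) (hΦ := hΦ) (hε := hε) (W := W) (h := h) (c := c) (r := s)
          (by rw [h0 c hc]; exact hs)
        calc 1 + (ghostA Φ ε L hΦ hε W h c).y' s
            ≤ ENNReal.ofReal 1 + ENNReal.ofReal (√(vs Φ ε L W c s)) := by
              rw [ENNReal.ofReal_one]
              exact add_le_add le_rfl h4
          _ = ENNReal.ofReal (1 + √(vs Φ ε L W c s)) :=
              (ENNReal.ofReal_add zero_le_one (Real.sqrt_nonneg _)).symm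
          _ ≤ _ := by
              apply ENNReal.ofReal_le_ofReal
              have h5 := Real.sq_sqrt (hv c)
              nlinarith [sq_nonneg (√(vs Φ ε L W c s) - 1), Real.sqrt_nonneg (vs Φ ε L W c s)]
    _ = ENNReal.ofReal (∑ c ∈ W, (2 + vs Φ ε L W c s)) := by
        rw [ENNReal.ofReal_sum_of_nonneg]
        intro c _
        have := hv c
        positivity
    _ ≤ _ := ENNReal.ofReal_le_ofReal (sum_vs_le hΦ hB hε h0 hs)

/-- The total speed of the targets. -/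
theorem sum_allT_speed (hΦ : IsPotential Φ) {B : ℝ} (hB : RW.StableWith Φ B) (hε : 0 < ε)
    (h0 : ∀ a ∈ W, a.1 = 0) (hexcl : ∀ a ∈ W, ∀ a' ∈ W, a ≠ a' → ε ≤ ‖a.2.1.1 - a'.2.1.1‖)
    (h : ℝ) {s : ℝ} (hs : 0 ≤ s) :
    ∑ i ∈ (Finset.univ : Finset Bool) ×ˢ W, (1 + (allT Φ ε L hΦ hε W h i).y' s) ≤
      2 * ENNReal.ofReal ((2 + 2 * B) * EW W) := by
  rw [Finset.sum_product, Fintype.sum_bool, two_mul]
  exact add_le_add (sum_realA_speed hΦ hB hε h0 hexcl h hs) (sum_ghostA_speed hΦ hB hε h0 h hs)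

/-- The total size of the targets. -/
theorem sum_allT_cut (hΦ : IsPotential Φ) {B : ℝ} (hB : RW.StableWith Φ B) (hε : 0 < ε)
    (h0 : ∀ a ∈ W, a.1 = 0) (hexcl : ∀ a ∈ W, ∀ a' ∈ W, a ≠ a' → ε ≤ ‖a.2.1.1 - a'.2.1.1‖)
    {s h : ℝ} (hs : 0 ≤ s) :
    ∑ i ∈ (Finset.univ : Finset Bool) ×ˢ W, ((allT Φ ε L hΦ hε W h i).cut s h le_rfl).w ε ≤
      2 * (ENNReal.ofReal ε + ENNReal.ofReal (h - s)) * ENNReal.ofReal ((2 + 2 * B) * EW W) := by
  have h1 : (((Finset.univ : Finset Bool) ×ˢ W).card : ℝ≥0∞) ≤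
      2 * ENNReal.ofReal ((2 + 2 * B) * EW W) := by
    rw [Finset.card_product, Finset.card_univ, Fintype.card_bool, Nat.cast_mul]
    refine mul_le_mul' (by norm_num) ?_
    rw [← ENNReal.ofReal_natCast]
    refine ENNReal.ofReal_le_ofReal ?_
    have h2 := card_le_EW W
    have h3 := EW_nonneg W
    nlinarith [mul_nonneg hB.1 h3]
  refine (sum_cut_w_le (ε := ε) _ _ (fun _ => (Finset.univ : Finset Bool) ×ˢ W)
    (fun i hi _ _ _ _ => hi)).trans ?_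
  have h4 : ∫⁻ r in Icc s h, ∑ i ∈ (Finset.univ : Finset Bool) ×ˢ W,
      (1 + (allT Φ ε L hΦ hε W h i).y' r) ≤
      2 * ENNReal.ofReal ((2 + 2 * B) * EW W) * ENNReal.ofReal (h - s) := by
    calc ∫⁻ r in Icc s h, ∑ i ∈ (Finset.univ : Finset Bool) ×ˢ W,
          (1 + (allT Φ ε L hΦ hε W h i).y' r)
        ≤ ∫⁻ _ in Icc s h, 2 * ENNReal.ofReal ((2 + 2 * B) * EW W) :=
          setLIntegral_mono' measurableSet_Icc fun r hr =>
            sum_allT_speed hΦ hB hε h0 hexcl h (hs.trans hr.1)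
      _ = _ := by
          rw [setLIntegral_const, Real.volume_Icc]
  calc (((Finset.univ : Finset Bool) ×ˢ W).card : ℝ≥0∞) * ENNReal.ofReal ε +
        ∫⁻ r in Icc s h, ∑ i ∈ (Finset.univ : Finset Bool) ×ˢ W,
          (1 + (allT Φ ε L hΦ hε W h i).y' r)
      ≤ 2 * ENNReal.ofReal ((2 + 2 * B) * EW W) * ENNReal.ofReal ε +
        2 * ENNReal.ofReal ((2 + 2 * B) * EW W) * ENNReal.ofReal (h - s) := by
        exact add_le_add (mul_le_mul' h1 le_rfl) h4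
    _ = _ := by ring

/-- A hit is a contact with a target. -/
theorem exists_allT (h0 : ∀ a ∈ W, a.1 = 0) {hΦ : IsPotential Φ} {hε : 0 < ε} {h r : ℝ}
    (hr : r ≤ h) {p : Ph} (hc : c ∈ W) (hp : Hits Φ ε L W c r p) :
    ∃ i ∈ (Finset.univ : Finset Bool) ×ˢ W, (allT Φ ε L hΦ hε W h i).a ≤ r ∧
      ‖p.1 - (allT Φ ε L hΦ hε W h i).Y r‖ ≤ ε := by
  rcases hp with ⟨h1, h2⟩ | ⟨S, h1, h2, h3⟩
  · refine ⟨(true, c), Finset.mem_product.2 ⟨Finset.mem_univ _, hc⟩, ?_, ?_⟩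
    · change (realA Φ ε hΦ hε W h c).a ≤ r
      rw [realA_a, ← h0 c hc]
      exact h1
    · change ‖p.1 - (realA Φ ε hΦ hε W h c).Y r‖ ≤ ε
      rw [realA_Y hc]
      exact h2.1
  · refine ⟨(false, c), Finset.mem_product.2 ⟨Finset.mem_univ _, hc⟩, ?_, ?_⟩
    · change (ghostA Φ ε L hΦ hε W h c).a ≤ r
      rw [ghostA_a]
      exact (root_birth_nonneg h2.ok).trans (live.birth_le hΦ hε h2)
    · change ‖p.1 - (ghostA Φ ε L hΦ hε W h c).Y r‖ ≤ ε
      rw [ghostA_Y hr h1 h2]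
      exact h3.1

/-- **Flux of a Gaussian line into all the paths of a fixed world.** -/
theorem all_flux (hΦ : IsPotential Φ) {B : ℝ} (hB : RW.StableWith Φ B) (hε : 0 < ε)
    (h0 : ∀ a ∈ W, a.1 = 0) (hexcl : ∀ a ∈ W, ∀ a' ∈ W, a ≠ a' → ε ≤ ‖a.2.1.1 - a'.2.1.1‖)
    {b : ℝ} (hb : 0 < b) {s h : ℝ} (hs : 0 ≤ s) :
    ∫⁻ z : Ph, gw b z.2 * ind (∃ r, s ≤ r ∧ r ≤ h ∧ ∃ c ∈ W,
        Hits Φ ε L W c r (KU.free r z)) ≤
      ENNReal.ofReal (ε ^ 2) * (Cd b * (2 * (ENNReal.ofReal ε + ENNReal.ofReal (h - s)) *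
        ENNReal.ofReal ((2 + 2 * B) * EW W))) := by
  have h1 := lctc_family (s := s) hε hb ((Finset.univ : Finset Bool) ×ˢ W)
    (allT Φ ε L hΦ hε W h)
  have h2 := sum_allT_cut (L := L) hΦ hB hε h0 hexcl (h := h) hs
  calc ∫⁻ z : Ph, gw b z.2 * ind (∃ r, s ≤ r ∧ r ≤ h ∧ ∃ c ∈ W,
        Hits Φ ε L W c r (KU.free r z))
      ≤ ∫⁻ z : Ph, gw b z.2 * ({z : Ph | ∃ i ∈ (Finset.univ : Finset Bool) ×ˢ W,
          z ∈ lctc ε s h (allT Φ ε L hΦ hε W h i).a (allT Φ ε L hΦ hε W h i).Y}).indicator 1 z := by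
        refine lintegral_mono fun z => mul_le_mul_right ?_ _
        unfold ind
        split_ifs with hz
        · obtain ⟨r, h3, h4, c, hc, h5⟩ := hz
          obtain ⟨i, hi, h6, h7⟩ := exists_allT h0 (hΦ := hΦ) (hε := hε) h4 hc h5
          rw [indicator_of_mem]
          · exact le_rfl
          · exact ⟨i, hi, r, ⟨max_le h6 h3, h4⟩, h7⟩
        · exact zero_le
    _ ≤ _ := h1
    _ ≤ ENNReal.ofReal (ε ^ 2) * Cd b * (2 * (ENNReal.ofReal ε + ENNReal.ofReal (h - s)) *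
        ENNReal.ofReal ((2 + 2 * B) * EW W)) := by gcongr
    _ = _ := by ring

end Vale.Agent.P119.PB
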