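import Vale.Agent.P119.PB.LamA
import Vale.Agent.P119.PB.SumC

/-!
# P119, block PROB, P8: sums over the indices of a marked node (`helper498`)

* `tsum_fin_prod_pow`: `∑' c : Fin N → C, ∏ j, f (c j) = (∑' c, f c) ^ N`;
* `sum_aw_pow_le`: the weights `aw` with a power of the depth of the exhaust;
* **`sum_awB_le`**: the weights `aw`, divided by the weight `a` of the depth of the root, on the
  indices whose root has depth `≤ L`.
-/

open Set Filter Topology
open scoped ENNReal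

set_option linter.unusedSectionVars false

noncomputable section

namespace Vale.Agent.P119.PB

open SC

/-! ### Products -/

theorem tsum_fin_prod_pow {C : Type*} [Countable C] (f : C → ℝ≥0∞) (N : ℕ) :
    ∑' c : Fin N → C, ∏ j, f (c j) = (∑' c, f c) ^ N := by
  induction N with
  | zero =>
    rw [tsum_fintype]
    simp
  | succ N ih =>
    rw [tsum_fcons, pow_succ']
    simp only [Fin.prod_univ_succ, Fin.cons_zero, Fin.cons_succ]
    simp only [ENNReal.tsum_mul_left, ih, ENNReal.tsum_mul_right]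

/-- Sums over the indices of products. -/
theorem sum_aw_mul {α : ℕ → ℝ≥0∞} {N : ℕ} (f : ℕ → ℕ → ℝ≥0∞) :
    ∑' y : Ix N, aw α y * f y.1 y.2.1 =
      (∑' d, ∑' d', α d * α d' * f d d') * (2 * ∑' d, α d) ^ N := by
  have h1 : ∀ (d d' : ℕ) (c : Fin N → Bool × ℕ), aw α (d, d', c) * f d d' =
      α d * α d' * f d d' * ∏ j, α (c j).2 := by
    intro d d' c
    unfold aw
    simp only
    ring
  have h2 : ∑' c : Bool × ℕ, α c.2 = 2 * ∑' d, α d := by
    rw [ENNReal.tsum_prod', tsum_fintype]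
    simp only [Finset.sum_const, Finset.card_univ, Fintype.card_bool, nsmul_eq_mul]
    norm_num
  rw [ENNReal.tsum_prod']
  simp only [ENNReal.tsum_prod' (f := fun y : ℕ × (Fin N → Bool × ℕ) => _)]
  simp only [h1, ENNReal.tsum_mul_left, tsum_fin_prod_pow (fun c : Bool × ℕ => α c.2) N, h2,
    ENNReal.tsum_mul_right]

/-- **The weights with a power of the depth of the exhaust.** -/
theorem sum_aw_pow_le {α : ℕ → ℝ≥0∞} {N : ℕ} {A : ℝ≥0∞} (hA : 1 ≤ A) :
    ∑' y : Ix N, aw α y * A ^ (max y.1 y.2.1 + 1) ≤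
      A * (∑' d, α d * A ^ d) ^ 2 * (2 * ∑' d, α d) ^ N := by
  rw [sum_aw_mul (fun d d' => A ^ (max d d' + 1))]
  refine mul_le_mul' ?_ le_rfl
  have h1 : ∀ d d' : ℕ, α d * α d' * A ^ (max d d' + 1) ≤ A * (α d * A ^ d) * (α d' * A ^ d') := by
    intro d d'
    have h2 : A ^ (max d d' + 1) ≤ A * A ^ d * A ^ d' := by
      rw [mul_assoc, ← pow_add, ← pow_succ']
      exact pow_le_pow_right₀ hA (by omega)
    calc α d * α d' * A ^ (max d d' + 1) ≤ α d * α d' * (A * A ^ d * A ^ d') :=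
          mul_le_mul' le_rfl h2
      _ = _ := by ring
  calc ∑' d, ∑' d', α d * α d' * A ^ (max d d' + 1)
      ≤ ∑' d, ∑' d', A * (α d * A ^ d) * (α d' * A ^ d') :=
        ENNReal.tsum_le_tsum fun d => ENNReal.tsum_le_tsum fun d' => h1 d d'
    _ = _ := by
        simp only [ENNReal.tsum_mul_left, ENNReal.tsum_mul_right]
        ring

/-! ### The weight of the depth of the root -/

variable {α a : ℕ → ℝ} {Q : ℝ}

/-- The inverse of the weight of the depth. -/
def ga (a : ℕ → ℝ) (L n : ℕ) : ℝ≥0∞ := if n ≤ L then (ENNReal.ofReal (a n))⁻¹ else 0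

/-- One step. -/
theorem sum_ga_le (hw : Wts α a Q) {α' : ℕ → ℝ} (h' : ∀ n, α' n ≤ α n) (n L : ℕ) :
    ∑' d, ENNReal.ofReal (α' d) * ga a L (max n d + 1) ≤
      ENNReal.ofReal (√(L : ℝ) * Q) * ga a L n := by
  have ha := hw.apos
  rcases le_or_gt n L with hn | hn
  · have h1 : ∀ d, ENNReal.ofReal (α' d) * ga a L (max n d + 1) ≤
        (if max n d + 1 ≤ L then ENNReal.ofReal (α d / a (max n d + 1)) else 0) := by
      intro d
      unfold ga
      split_ifs with h
      · rw [ENNReal.ofReal_div_of_pos (ha _), div_eq_mul_inv]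
        exact mul_le_mul' (ENNReal.ofReal_le_ofReal (h' d)) le_rfl
      · rw [mul_zero]
    refine (ENNReal.tsum_le_tsum h1).trans ((Wts_spine_if_le hw n L).trans (le_of_eq ?_))
    unfold ga
    rw [if_pos hn, ENNReal.ofReal_div_of_pos (ha _), div_eq_mul_inv]
  · have h1 : ∀ d, ENNReal.ofReal (α' d) * ga a L (max n d + 1) = 0 := by
      intro d
      unfold ga
      rw [if_neg, mul_zero]
      have := le_max_left n d
      omega
    simp only [h1, tsum_zero]
    exact zero_le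

/-- The spine. -/
theorem sum_dpt_le (hw : Wts α a Q) {α' : ℕ → ℝ} (h' : ∀ n, α' n ≤ α n) (L : ℕ) :
    ∀ (N n : ℕ), ∑' ds : Fin N → ℕ, (∏ j, ENNReal.ofReal (α' (ds j))) * ga a L (dpt N n ds) ≤
      ENNReal.ofReal (√(L : ℝ) * Q) ^ N * ga a L n
  | 0, n => by
    rw [tsum_fintype]
    simp [dpt]
  | N + 1, n => by
    rw [tsum_fcons]
    have h1 : ∀ (d : ℕ) (ds : Fin N → ℕ),
        (∏ j, ENNReal.ofReal (α' ((Fin.cons d ds : Fin (N + 1) → ℕ) j))) *
          ga a L (dpt (N + 1) n (Fin.cons d ds)) =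
        ENNReal.ofReal (α' d) * ((∏ j, ENNReal.ofReal (α' (ds j))) *
          ga a L (dpt N (max n d + 1) ds)) := by
      intro d ds
      rw [Fin.prod_univ_succ]
      simp only [Fin.cons_zero, Fin.cons_succ]
      rw [mul_assoc]
      rfl
    simp only [h1, ENNReal.tsum_mul_left]
    calc ∑' d, ENNReal.ofReal (α' d) * ∑' ds : Fin N → ℕ, (∏ j, ENNReal.ofReal (α' (ds j))) *
          ga a L (dpt N (max n d + 1) ds)
        ≤ ∑' d, ENNReal.ofReal (α' d) * (ENNReal.ofReal (√(L : ℝ) * Q) ^ N *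
          ga a L (max n d + 1)) :=
          ENNReal.tsum_le_tsum fun d => mul_le_mul' le_rfl (sum_dpt_le hw h' L N _)
      _ = ENNReal.ofReal (√(L : ℝ) * Q) ^ N * ∑' d, ENNReal.ofReal (α' d) *
          ga a L (max n d + 1) := by
          rw [← ENNReal.tsum_mul_left]
          exact tsum_congr fun d => by ring
      _ ≤ ENNReal.ofReal (√(L : ℝ) * Q) ^ N * (ENNReal.ofReal (√(L : ℝ) * Q) * ga a L n) :=
          mul_le_mul' le_rfl (sum_ga_le hw h' n L)
      _ = _ := by rw [pow_succ]; ring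

/-- **The weights, divided by the weight of the depth of the root.** -/
theorem sum_awB_le (hw : Wts α a Q) {α' : ℕ → ℝ} (h' : ∀ n : ℕ, α' n * √((n : ℝ) + 1) ≤ α n)
    (h0 : ∀ n, 0 ≤ α' n) (N L : ℕ) :
    ∑' y : Ix N, aw (fun n => ENNReal.ofReal (α' n)) y *
        (if dM y ≤ L then (ENNReal.ofReal (a (dM y)))⁻¹ else 0) ≤
      ENNReal.ofReal (Q ^ 2) * (2 * ENNReal.ofReal (√(L : ℝ) * Q)) ^ N := by
  have ha := hw.apos
  have hle : ∀ n, α' n ≤ α n := by
    intro n
    refine le_trans ?_ (h' n)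
    refine le_mul_of_one_le_right (h0 n) ?_
    rw [Real.one_le_sqrt]
    have : (0 : ℝ) ≤ n := Nat.cast_nonneg n
    linarith
  rw [tsum_Ix]
  have h1 : ∀ (d d' : ℕ) (ds : Fin N → ℕ),
      ∑ o : Fin N → Bool, aw (fun n => ENNReal.ofReal (α' n)) ((d, d', fun j => (o j, ds j)) : Ix N) *
        (if dM ((d, d', fun j => (o j, ds j)) : Ix N) ≤ L then
          (ENNReal.ofReal (a (dM ((d, d', fun j => (o j, ds j)) : Ix N))))⁻¹ else 0) =
      2 ^ N * (ENNReal.ofReal (α' d) * ENNReal.ofReal (α' d')) *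
        ((∏ j, ENNReal.ofReal (α' (ds j))) * ga a L (dpt N (max d d' + 1) ds)) := by
    intro d d' ds
    have h2 : ∀ o : Fin N → Bool, aw (fun n => ENNReal.ofReal (α' n))
        ((d, d', fun j => (o j, ds j)) : Ix N) *
        (if dM ((d, d', fun j => (o j, ds j)) : Ix N) ≤ L then
          (ENNReal.ofReal (a (dM ((d, d', fun j => (o j, ds j)) : Ix N))))⁻¹ else 0) =
        ENNReal.ofReal (α' d) * ENNReal.ofReal (α' d') *
        ((∏ j, ENNReal.ofReal (α' (ds j))) * ga a L (dpt N (max d d' + 1) ds)) := by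
      intro o
      unfold aw ga dM
      simp only
      ring
    rw [Finset.sum_congr rfl fun o _ => h2 o, Finset.sum_const, Finset.card_univ,
      Fintype.card_pi, nsmul_eq_mul]
    simp only [Fintype.card_bool, Finset.prod_const, Finset.card_univ, Fintype.card_fin]
    push_cast
    ring
  simp only [h1, ENNReal.tsum_mul_left]
  have h3 : ∀ d d' : ℕ, 2 ^ N * (ENNReal.ofReal (α' d) * ENNReal.ofReal (α' d')) *
      ∑' ds : Fin N → ℕ, (∏ j, ENNReal.ofReal (α' (ds j))) * ga a L (dpt N (max d d' + 1) ds) ≤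
      (2 * ENNReal.ofReal (√(L : ℝ) * Q)) ^ N *
        ENNReal.ofReal (α' d * α' d' / a (max d d' + 1)) := by
    intro d d'
    have h4 : ga a L (max d d' + 1) ≤ (ENNReal.ofReal (a (max d d' + 1)))⁻¹ := by
      unfold ga
      split_ifs
      · exact le_rfl
      · exact zero_le
    rw [ENNReal.ofReal_div_of_pos (ha _), ENNReal.ofReal_mul (h0 d), div_eq_mul_inv]
    calc _ ≤ 2 ^ N * (ENNReal.ofReal (α' d) * ENNReal.ofReal (α' d')) *
          (ENNReal.ofReal (√(L : ℝ) * Q) ^ N * (ENNReal.ofReal (a (max d d' + 1)))⁻¹) :=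
          mul_le_mul' le_rfl ((sum_dpt_le hw hle L N _).trans (mul_le_mul' le_rfl h4))
      _ = _ := by rw [mul_pow]; ring
  calc _ ≤ ∑' d, ∑' d', (2 * ENNReal.ofReal (√(L : ℝ) * Q)) ^ N *
        ENNReal.ofReal (α' d * α' d' / a (max d d' + 1)) :=
        ENNReal.tsum_le_tsum fun d => ENNReal.tsum_le_tsum fun d' => h3 d d'
    _ = (2 * ENNReal.ofReal (√(L : ℝ) * Q)) ^ N *
        ∑' d, ∑' d', ENNReal.ofReal (α' d * α' d' / a (max d d' + 1)) := by
        simp only [ENNReal.tsum_mul_left]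
    _ ≤ (2 * ENNReal.ofReal (√(L : ℝ) * Q)) ^ N * ENNReal.ofReal (Q ^ 2) :=
        mul_le_mul' le_rfl (Wts_pair_le hw h' h0)
    _ = _ := mul_comm _ _

end Vale.Agent.P119.PB
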