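import Vale.Agent.P119.PB.Pt5
import Vale.Agent.P119.RM.Exs
import Vale.Agent.P119.RM.Rel

/-!
# P119, block PROB: ONE STEP, integrated, final form (`helper336`)

* `measurable_secN`, `measurable_secW`: measurability of the sum of the second events;
* `theta_le_of_step`: the integrated ONE STEP inequality from the deterministic alternatives.
-/

open MeasureTheory Filter Topology Set
open scoped ENNReal NNReal

noncomputable section

namespace Vale.Agent.P119.PB

open M CTree KU FB RB AU FL TL

variable {Φ : E3 → ℝ} {ε : ℝ} {L : ℕ} {hΦ : IsPotential Φ} {hε : 0 < ε} {η t w : ℝ} {σ : Src}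

/-- The second events of two sources are measurable. -/
theorem measurable_gI {X : Type} [MeasurableSpace X] {V : X → Finset Src} {e m : X → Src}
    {η t : X → ℝ} (hV : MM.RS fun x => (V x : Set Src)) (hη : Measurable η) (ht : Measurable t)
    (he : Measurable e) (hm : Measurable m) :
    Measurable fun x => gI L hΦ hε (η x) (t x) (V x) (e x) (m x) := by
  unfold gI
  exact Measurable.ite ((measurable_snd.comp (measurable_snd.comp hm)) (measurableSet_Iic (a := L)))
    (measurable_ind (RM.measurableSet_GG hV hη ht he hm)) measurable_const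

/-- The second events of a source and a pair are measurable. -/
theorem measurable_pI {X : Type} [MeasurableSpace X] {V : X → Finset Src} {e f : X → Src}
    {z' : X → Ph} {η t w : X → ℝ} (hV : MM.RS fun x => (V x : Set Src)) (hη : Measurable η)
    (ht : Measurable t) (hw : Measurable w) (he : Measurable e) (hf : Measurable f)
    (hz : Measurable z') :
    Measurable fun x => pI L hΦ hε (η x) (t x) (w x) (V x) (e x) (f x) (z' x) := by
  have hins : MM.RS fun x => ((insert (e x) (V x) : Finset Src) : Set Src) :=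
    RM.rs_insert hV he
  exact measurable_ind ((RM.measurableSet_touch hV hins (RM.measurable_hz hins hη ht)).inter
    (RM.measurableSet_PairC hins hη ht hw hf hz))

open Classical in
/-- The second events are measurable. -/
theorem measurable_secN {X : Type} [MeasurableSpace X] {V : X → Finset Src} {T : X → CTree}
    {f : X → Src} (hV : MM.RS fun x => (V x : Set Src)) (hT : Measurable T) (hf : Measurable f) :
    Measurable fun x => secN L hΦ hε η t w (V x) (f x) (T x) := by
  -- quantities on `X × CTree`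
  have hV1 : MM.RS fun p : X × CTree => (V p.1 : Set Src) := hV.comp measurable_fst
  have hT1 : Measurable fun p : X × CTree => T p.1 := hT.comp measurable_fst
  have hf1 : Measurable fun p : X × CTree => f p.1 := hf.comp measurable_fst
  have hy : Measurable fun p : X × CTree => p.2 := measurable_snd
  have hr : Measurable fun p : X × CTree => rsrc Φ ε p.2 := RM.meas_rsrc hΦ hε hy
  have hln : Measurable fun p : X × CTree => ln Φ ε (T p.1) :=
    (M.measurable_ln hΦ hε.ne').comp hT1
  have hq : Measurable fun p : X × CTree => ((f p.1).2.1, ln Φ ε (T p.1)) :=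
    (measurable_fst.comp (measurable_snd.comp hf1)).prodMk hln
  have hh : Measurable fun p : X × CTree => hitT ε ((f p.1).2.1, ln Φ ε (T p.1)) :=
    measurable_hitT.comp hq
  have hs : Measurable fun p : X × CTree => sepT Φ ε ((f p.1).2.1, ln Φ ε (T p.1)) :=
    (measurable_sepT hΦ).comp hq
  have hdT : Measurable fun p : X × CTree => (T p.1).depth := M.measurable_depth.comp hT1
  have hd : Measurable fun p : X × CTree => max (f p.1).2.2 (T p.1).depth + 1 :=
    ((measurable_snd.comp (measurable_snd.comp hf1)).max hdT).add_const 1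
  have hsc := (measurable_sc2 hΦ hε.ne').comp hq
  have c0 : ∀ c : ℝ, Measurable fun _ : X × CTree => c := fun c => measurable_const
  unfold secN
  refine RM.measurable_exsum' hT (F := fun x y =>
    (gI L hΦ hε η t (V x) (rsrc Φ ε y)
        (sepT Φ ε ((f x).2.1, ln Φ ε (T x)), (sc2 Φ ε ((f x).2.1, ln Φ ε (T x))).1,
          max (f x).2.2 (T x).depth + 1) +
      gI L hΦ hε η t (V x) (rsrc Φ ε y)
        (sepT Φ ε ((f x).2.1, ln Φ ε (T x)), (sc2 Φ ε ((f x).2.1, ln Φ ε (T x))).2,
          max (f x).2.2 (T x).depth + 1) +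
      gI L hΦ hε η t (V x) (rsrc Φ ε y)
        (hitT ε ((f x).2.1, ln Φ ε (T x)), ln Φ ε (T x), (T x).depth) +
      pI L hΦ hε η t w (V x) (rsrc Φ ε y) (f x) (ln Φ ε (T x))) +
    exsum (T x) fun y' => if y = y' then 0 else
      gI L hΦ hε η t (V x) (rsrc Φ ε y) (rsrc Φ ε y')) ?_
  refine Measurable.add (Measurable.add (Measurable.add (Measurable.add ?_ ?_) ?_) ?_) ?_
  · exact measurable_gI hV1 (c0 η) (c0 t) hr (hs.prodMk (hsc.fst.prodMk hd))
  · exact measurable_gI hV1 (c0 η) (c0 t) hr (hs.prodMk (hsc.snd.prodMk hd))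
  · exact measurable_gI hV1 (c0 η) (c0 t) hr (hh.prodMk (hln.prodMk hdT))
  · exact measurable_pI hV1 (c0 η) (c0 t) (c0 w) hr hf1 hln
  · refine RM.measurable_exsum' (X := X × CTree) hT1 (F := fun p y' =>
      if p.2 = y' then 0 else gI L hΦ hε η t (V p.1) (rsrc Φ ε p.2) (rsrc Φ ε y')) ?_
    refine Measurable.ite (measurableSet_eq_fun measurable_fst.snd measurable_snd)
      measurable_const ?_
    exact measurable_gI (hV1.comp measurable_fst) measurable_const
      measurable_const (hr.comp measurable_fst) (RM.meas_rsrc hΦ hε measurable_snd)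

/-- The second events after a hit within the time `w` are measurable. -/
theorem measurable_secW {X : Type} [MeasurableSpace X] {V : X → Finset Src} {T : X → CTree}
    {f : X → Src} (hV : MM.RS fun x => (V x : Set Src)) (hT : Measurable T) (hf : Measurable f) :
    Measurable fun x => secW L hΦ hε η t w (V x) (f x) (T x) := by
  have hq : Measurable fun x => ((f x).2.1, ln Φ ε (T x)) :=
    (measurable_fst.comp (measurable_snd.comp hf)).prodMk ((M.measurable_ln hΦ hε.ne').comp hT)
  exact (measurable_ind ((measurableSet_le (measurable_hitT.comp hq) (hf.fst.add_const w)).inter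
    (measurableSet_le ((M.measurable_ext hΦ hε.ne').comp hT) (measurable_hitT.comp hq)))).mul
    (measurable_secN hV hT hf)

theorem wS_nonneg (w : Finset Ph) : ∀ a ∈ wS w, 0 ≤ a.1 := by
  intro a ha
  obtain ⟨z, -, rfl⟩ := mem_wS.1 ha
  exact le_rfl

theorem wS_depth (w : Finset Ph) : ∀ a ∈ wS w, a.2.2 ≤ L := by
  intro a ha
  obtain ⟨z, -, rfl⟩ := mem_wS.1 ha
  exact Nat.zero_le _

variable {f₀ : Ph → ℝ} {κ b η' : ℝ}

open Classical in
/-- **ONE STEP, integrated**, from the deterministic alternatives `StepC` and CAP0. -/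
theorem theta_le_of_step (h₀ : GoodDatum f₀ κ) {Tm : ℝ} (ht : 0 ≤ t) (htT : t ≤ Tm) (hη : 0 < η)
    (hηη : η < η') {α : ℕ → ℝ≥0∞} {ν : GC.Conf Ph → Measure Src}
    {E : Finset Src → CTree → Prop} {I : Finset Src → Prop}
    (hcap : ∀ c, ∀ F : Src → ℝ≥0∞, Measurable F →
      ∫⁻ T in Cap.AL Φ ε L Tm (GC.pts c : Set Ph), F (rsrc Φ ε T) ∂(tree (GC.inten f₀ ε) L) ≤
        muE ε * (typI b Tm α F + ∫⁻ p, F p ∂(ν c)))
    (hstep : ∀ c : GC.Conf Ph, ∀ τ, 0 ≤ τ → τ ≤ t →
      (RB.Y Φ ε L hΦ hε).Touch (wS (GC.pts c)) (insert σ (wS (GC.pts c))) τ →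
      (∀ s < τ, ¬(RB.Y Φ ε L hΦ hε).Touch (wS (GC.pts c)) (insert σ (wS (GC.pts c))) s) →
      FB.Direct Φ ε L hΦ hε (wS (GC.pts c)) σ τ ∨ I (wS (GC.pts c)) ∨
        ∃ T ∈ trs L (wS (GC.pts c)), HitC Φ ε L t (wS (GC.pts c)) σ T ∧
          hitT ε (σ.2.1, ln Φ ε T) ≤ τ ∧ HitR L hΦ hε σ (rm (wS (GC.pts c)) T) T ∧
          StepC L hΦ hε t E (wS (GC.pts c)) σ T τ) :
    theta L hΦ hε f₀ η t w σ ≤ dirS L hΦ hε f₀ η t w σ + feltS L hΦ hε f₀ η t w σ +
      (pairS L hΦ hε f₀ b (fun n => α n * ENNReal.ofReal (1 + Tm)) η' t w σ +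
        KOp Φ ε b t (fun n => α n * ENNReal.ofReal (1 + Tm)) (thL L hΦ hε f₀ η' t w) σ +
        4 * atyS (GC.PP f₀ ε) ν ε t σ) +
      overX f₀ Φ ε L t σ + secS L hΦ hε f₀ η' t w σ +
      ∫⁻ c, (ind (I (wS (GC.pts c))) +
        sumHit Φ ε L t σ (BB L hΦ hε ((η' - η) / 2) t E σ) (wS (GC.pts c))) ∂(GC.PP f₀ ε) :=
  theta_le h₀ htT (ht.trans htT) hcap
    (fun _ _ _ _ hV hT => measurable_secW (hΦ := hΦ) (hε := hε) hV hT measurable_const)
    fun c => pt5_of_step hη hηη ht (wS_nonneg _) (hstep c)

/-- The exceptional terms, extracted. -/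
theorem exc_le (h₀ : GoodDatum f₀ κ) (hΦ : IsPotential Φ) (hε : 0 < ε) {I : GC.Conf Ph → ℝ≥0∞}
    (hI : Measurable I) {B : Finset Src → CTree → ℝ≥0∞}
    (hB : Measurable fun p : CTree × GC.Conf Ph => B (wS (GC.pts p.2)) p.1) :
    ∫⁻ c, (I c + sumHit Φ ε L t σ B (wS (GC.pts c))) ∂(GC.PP f₀ ε) ≤
      (∫⁻ c, I c ∂(GC.PP f₀ ε)) + XI f₀ Φ ε L t σ B := by
  rw [lintegral_add_left hI]
  exact add_le_add le_rfl (sum_hit_le h₀ hΦ hε hB)

/-- A hit of a live tree is measurable. -/
theorem measurableSet_HitA (hΦ : IsPotential Φ) (hε : 0 < ε) {X : Type} [MeasurableSpace X]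
    {V : X → Finset Src} {T : X → CTree} {f : X → Src} (hV : MM.RS fun x => (V x : Set Src))
    (hT : Measurable T) (hf : Measurable f) :
    MeasurableSet {x | HitA Φ ε L (f x) (V x) (T x)} := by
  have hh : Measurable fun x => hitT ε ((f x).2.1, ln Φ ε (T x)) :=
    measurable_hitT.comp ((measurable_fst.comp (measurable_snd.comp hf)).prodMk
      ((M.measurable_ln hΦ hε.ne').comp hT))
  have h1 := measurableSet_lt ((M.measurable_ext hΦ hε.ne').comp hT) hh
  have h2 := MM.measurableSet_tree_alive hΦ hε (rs_addT hV hT) hT hh (L := L)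
  convert h1.inter h2 using 1
  ext x
  exact ⟨fun h => ⟨h.lt, h.alive⟩, fun h => ⟨h.1, h.2⟩⟩

theorem measurableSet_HitR {X : Type} [MeasurableSpace X]
    {V : X → Finset Src} {T : X → CTree} {f : X → Src} (hV : MM.RS fun x => (V x : Set Src))
    (hT : Measurable T) (hf : Measurable f) :
    MeasurableSet {x | HitR L hΦ hε (f x) (V x) (T x)} := by
  have hh : Measurable fun x => hitT ε ((f x).2.1, ln Φ ε (T x)) :=
    measurable_hitT.comp ((measurable_fst.comp (measurable_snd.comp hf)).prodMk
      ((M.measurable_ln hΦ hε.ne').comp hT))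
  have hadd : MM.RS fun x => (addT (V x) (T x) : Set Src) := rs_addT hV hT
  have h1 : MeasurableSet {x | HitA Φ ε L (f x) (V x) (T x)} := measurableSet_HitA hΦ hε hV hT hf
  have h3 : MeasurableSet {x | ∃ s < hitT ε ((f x).2.1, ln Φ ε (T x)),
      (RB.Y Φ ε L hΦ hε).Exp (addT (V x) (T x)) (T x).root s} :=
    (RM.msys_Y hΦ hε).measurableSet_exp_lt hadd (MM.meas_root hT) hh
  convert h1.inter h3.compl using 1
  ext x
  exact ⟨fun h => ⟨h.toHitA, fun ⟨s, hs, he⟩ => h.unexp s hs he⟩,
    fun h => ⟨h.1, fun s hs he => h.2 ⟨s, hs, he⟩⟩⟩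

open Classical in
/-- The exceptional terms are measurable. -/
theorem measurable_BB {θ : ℝ} {E : Finset Src → CTree → Prop} {X : Type} [MeasurableSpace X]
    {V : X → Finset Src} {T : X → CTree} {f : X → Src} (hV : MM.RS fun x => (V x : Set Src))
    (hT : Measurable T) (hf : Measurable f) (hE : MeasurableSet {x | E (V x) (T x)}) :
    Measurable fun x => BB L hΦ hε θ t E (f x) (V x) (T x) := by
  have hq : Measurable fun x => ((f x).2.1, ln Φ ε (T x)) :=
    (measurable_fst.comp (measurable_snd.comp hf)).prodMk ((M.measurable_ln hΦ hε.ne').comp hT)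
  have hh : Measurable fun x => hitT ε ((f x).2.1, ln Φ ε (T x)) := measurable_hitT.comp hq
  have hadd : MM.RS fun x => (addT (V x) (T x) : Set Src) := rs_addT hV hT
  have h0 : MeasurableSet {x | HitA Φ ε L (f x) (V x) (T x)} := measurableSet_HitA hΦ hε hV hT hf
  have h1 : MeasurableSet {x | HitR L hΦ hε (f x) (V x) (T x)} := measurableSet_HitR hV hT hf
  have h2 : Measurable fun x => relW L hΦ hε (addT (V x) (T x)) (V x) t :=
    RM.measurable_relW hadd hV measurable_const
  have h3 : Measurable fun x => relT Φ ε L (V x) (T x) (addT (V x) (T x))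
      (hitT ε ((f x).2.1, ln Φ ε (T x))) t :=
    RM.measurable_relT hΦ hε hV hadd hT hh measurable_const
  have h5 := MM.measurableSet_tree_lives hΦ hε hadd (fun _ => Finset.finite_toSet _) hT hh
    (L := L)
  have hV1 : MM.RS fun p : X × CTree => (V p.1 : Set Src) := hV.comp measurable_fst
  have hins : MM.RS fun p : X × CTree => ((insert (rsrc Φ ε p.2) (V p.1) : Finset Src) : Set Src) :=
    RM.rs_insert_rsrc hΦ hε hV1 measurable_snd
  have h4 : Measurable fun p : X × CTree => relW L hΦ hε
      (lnw Φ ε (V p.1) (T p.1) (hitT ε ((f p.1).2.1, ln Φ ε (T p.1))))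
        (insert (rsrc Φ ε p.2) (V p.1)) t :=
    RM.measurable_relW (RM.rs_lnw hΦ hε hV1 (hT.comp measurable_fst) (hh.comp measurable_fst))
      hins measurable_const
  unfold BB
  refine (((measurable_ind (h0.inter hE)).add (measurable_ind (h1.inter
    (measurableSet_lt measurable_const h2)))).add (measurable_ind (h1.inter (h5.inter
      (measurableSet_lt measurable_const h3))))).add ?_
  exact RM.measurable_exsum' hT (F := fun x y => ind (HitR L hΦ hε (f x) (V x) (T x) ∧
    ENNReal.ofReal (θ * mu ε) < relW L hΦ hε (lnw Φ ε (V x) (T x)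
      (hitT ε ((f x).2.1, ln Φ ε (T x)))) (insert (rsrc Φ ε y) (V x)) t))
    (measurable_ind ((measurable_fst h1).inter (measurableSet_lt measurable_const h4)))

end Vale.Agent.P119.PB
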