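import Vale.Agent.P119.PB.Def6
import Vale.Agent.P119.PB.Int5b
import Vale.Agent.P119.RM.Good

/-!
# P119, block PROB: second events, measurability and monotonicity (`helper178`)

The functionals of `PB/Def6.lean` are measurable, and monotone in the stopping level.
-/

open MeasureTheory Filter Topology Set
open scoped ENNReal NNReal

noncomputable section

namespace Vale.Agent.P119.PB

open M CTree KU FB RB AU FL TL

variable {Φ : E3 → ℝ} {ε : ℝ} {L : ℕ} {hΦ : IsPotential Φ} {hε : 0 < ε}

/-! ### Measurability -/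

section meas

variable {X : Type} [MeasurableSpace X] {V : X → Finset Src} {e m : X → Src} {z' : X → Ph}
  {n : X → ℕ} {η t w u : X → ℝ}

theorem measurableSet_TE (hV : MM.RS fun x => (V x : Set Src)) (hη : Measurable η)
    (ht : Measurable t) (he : Measurable e) :
    MeasurableSet {x | TE L hΦ hε (η x) (t x) (V x) (e x)} := by
  have h1 : MM.RS fun x => ((insert (e x) (V x) : Finset Src) : Set Src) := RM.rs_insert hV he
  exact RM.measurableSet_touch hV h1 (RM.measurable_hz h1 hη ht)

theorem measurable_GGL (hV : MM.RS fun x => (V x : Set Src)) (hη : Measurable η)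
    (ht : Measurable t) (he : Measurable e) (hm : Measurable m) :
    Measurable fun x => GGL L hΦ hε (η x) (t x) (V x) (e x) (m x) := by
  unfold GGL
  exact Measurable.ite ((measurable_snd.comp (measurable_snd.comp hm)) (measurableSet_Iic (a := L)))
    (measurable_ind (RM.measurableSet_GG hV hη ht he hm)) measurable_const

theorem measurableSet_DirG (hV : MM.RS fun x => (V x : Set Src)) (hη : Measurable η)
    (ht : Measurable t) (hw : Measurable w) (he : Measurable e) (hm : Measurable m) :
    MeasurableSet {x | DirG L hΦ hε (η x) (t x) (w x) (V x) (e x) (m x)} := by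
  have h1 : MM.RS fun x => ((insert (e x) (V x) : Finset Src) : Set Src) := RM.rs_insert hV he
  exact (measurableSet_TE hV hη ht he).inter (RM.measurableSet_DirC h1 hη ht hw hm)

theorem measurableSet_PairG (hV : MM.RS fun x => (V x : Set Src)) (hη : Measurable η)
    (ht : Measurable t) (hw : Measurable w) (he : Measurable e) (hm : Measurable m)
    (hz : Measurable z') :
    MeasurableSet {x | PairG L hΦ hε (η x) (t x) (w x) (V x) (e x) (m x) (z' x)} := by
  have h1 : MM.RS fun x => ((insert (e x) (V x) : Finset Src) : Set Src) := RM.rs_insert hV he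
  exact (measurableSet_TE hV hη ht he).inter (RM.measurableSet_PairC h1 hη ht hw hm hz)

theorem measurableSet_TEu (hV : MM.RS fun x => (V x : Set Src)) (hη : Measurable η)
    (ht : Measurable t) (hu : Measurable u) (he : Measurable e) (hm : Measurable m) :
    MeasurableSet {x | TEu L hΦ hε (η x) (t x) (u x) (V x) (e x) (m x)} := by
  have h1 : MM.RS fun x => ((insert (e x) (V x) : Finset Src) : Set Src) := RM.rs_insert hV he
  exact (measurableSet_lt hm.fst hu).inter
    (RM.measurableSet_touch hV h1 ((RM.measurable_hz h1 hη ht).min hu))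

theorem measurableSet_FelL (hV : MM.RS fun x => (V x : Set Src)) (hη : Measurable η)
    (ht : Measurable t) (hu : Measurable u) (he : Measurable e) (hm : Measurable m) :
    MeasurableSet {x | FelL L hΦ hε (η x) (t x) (u x) (V x) (e x) (m x)} := by
  have h1 : MM.RS fun x => ((insert (e x) (V x) : Finset Src) : Set Src) := RM.rs_insert hV he
  have hV2 : MM.RS fun p : X × CTree =>
      ((insert (e p.1) (V p.1) : Finset Src) : Set Src) := h1.comp measurable_fst
  have hl : Measurable fun p : X × CTree => ((m p.1).2.1, ln Φ ε p.2) :=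
    (measurable_fst.comp (measurable_snd.comp (hm.comp measurable_fst))).prodMk
      ((M.measurable_ln hΦ hε.ne').comp measurable_snd)
  have hh : Measurable fun p : X × CTree => hitT ε ((m p.1).2.1, ln Φ ε p.2) :=
    measurable_hitT.comp hl
  have hz1 : Measurable fun p : X × CTree => hz L hΦ hε (η p.1) (t p.1) (insert (e p.1) (V p.1)) :=
    (RM.measurable_hz h1 hη ht).comp measurable_fst
  have h5 : MeasurableSet {p : X × CTree | ∃ s < hz L hΦ hε (η p.1) (t p.1)
      (insert (e p.1) (V p.1)), fl L hΦ hε (insert (e p.1) (V p.1)) s p.2} :=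
    (RM.SC.fl hV2 measurable_snd).exists_lt hz1
  have hP : MeasurableSet {p : X × CTree | Meets ε ((m p.1).2.1, ln Φ ε p.2) ∧
      (m p.1).1 < hitT ε ((m p.1).2.1, ln Φ ε p.2) ∧
      u p.1 ≤ hitT ε ((m p.1).2.1, ln Φ ε p.2) ∧
      hitT ε ((m p.1).2.1, ln Φ ε p.2) ≤ hz L hΦ hε (η p.1) (t p.1) (insert (e p.1) (V p.1)) ∧
      ∃ s < hz L hΦ hε (η p.1) (t p.1) (insert (e p.1) (V p.1)),
        fl L hΦ hε (insert (e p.1) (V p.1)) s p.2} :=
    (measurableSet_meets.preimage hl).inter
      ((measurableSet_lt (hm.comp measurable_fst).fst hh).inter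
        ((measurableSet_le (hu.comp measurable_fst) hh).inter
          ((measurableSet_le hh hz1).inter h5)))
  exact (measurableSet_TE hV hη ht he).inter ((RM.rs_trs hV).measurableSet_exists hP)

theorem measurableSet_FelS (hV : MM.RS fun x => (V x : Set Src)) (hη : Measurable η)
    (ht : Measurable t) (hu : Measurable u) (he : Measurable e) (hm : Measurable m) :
    MeasurableSet {x | FelS L hΦ hε (η x) (t x) (u x) (V x) (e x) (m x)} := by
  have hV2 : MM.RS fun p : X × CTree => ((V p.1 : Finset Src) : Set Src) :=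
    hV.comp measurable_fst
  have hl : Measurable fun p : X × CTree => ((m p.1).2.1, ln Φ ε p.2) :=
    (measurable_fst.comp (measurable_snd.comp (hm.comp measurable_fst))).prodMk
      ((M.measurable_ln hΦ hε.ne').comp measurable_snd)
  have hh : Measurable fun p : X × CTree => hitT ε ((m p.1).2.1, ln Φ ε p.2) :=
    measurable_hitT.comp hl
  have hz1 : Measurable fun p : X × CTree => hz L hΦ hε (η p.1) (t p.1) (V p.1) :=
    (RM.measurable_hz hV hη ht).comp measurable_fst
  have hP : MeasurableSet {p : X × CTree | Meets ε ((m p.1).2.1, ln Φ ε p.2) ∧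
      (m p.1).1 < hitT ε ((m p.1).2.1, ln Φ ε p.2) ∧
      hitT ε ((m p.1).2.1, ln Φ ε p.2) < u p.1 ∧
      hitT ε ((m p.1).2.1, ln Φ ε p.2) ≤ hz L hΦ hε (η p.1) (t p.1) (V p.1) ∧
      fl L hΦ hε (V p.1) (hz L hΦ hε (η p.1) (t p.1) (V p.1)) p.2} :=
    (measurableSet_meets.preimage hl).inter
      ((measurableSet_lt (hm.comp measurable_fst).fst hh).inter
        ((measurableSet_lt hh (hu.comp measurable_fst)).inter
          ((measurableSet_le hh hz1).inter (RM.measurableSet_fl hV2 measurable_snd hz1))))
  exact (measurableSet_TE hV hη ht he).inter ((RM.rs_trs hV).measurableSet_exists hP)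

theorem measurable_S6 (hV : MM.RS fun x => (V x : Set Src)) (hη : Measurable η)
    (ht : Measurable t) (hw : Measurable w) (hu : Measurable u) (he : Measurable e)
    (hm : Measurable m) :
    Measurable fun x => S6 L hΦ hε (η x) (t x) (w x) (u x) (V x) (e x) (m x) :=
  (((measurable_ind (measurableSet_DirG hV hη ht hw he hm)).add
    (measurable_ind (measurableSet_FelL hV hη ht hu he hm))).add
    (measurable_ind (measurableSet_TEu hV hη ht hu he hm))).add
    (measurable_ind (measurableSet_FelS hV hη ht hu he hm))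

/-- `fresh` of a measurable family is measurable. -/
theorem measurable_fresh' (hΦ : IsPotential Φ) (hε : 0 < ε) {t : ℝ} {θ : X → Src → ℝ≥0∞}
    (hθ : Measurable fun p : X × Src => θ p.1 p.2) (hm : Measurable m) (hz : Measurable z')
    (hn : Measurable n) :
    Measurable fun x => fresh Φ ε t (θ x) (m x) (z' x) (n x) := by
  have hq : Measurable fun x => ((m x).2.1, z' x) :=
    (measurable_fst.comp (measurable_snd.comp hm)).prodMk hz
  have hh : Measurable fun x => hitT ε ((m x).2.1, z' x) := measurable_hitT.comp hq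
  have hs : Measurable fun x => sepT Φ ε ((m x).2.1, z' x) := (measurable_sepT hΦ).comp hq
  have hd : Measurable fun x => max (m x).2.2 (n x) + 1 :=
    ((measurable_snd.comp (measurable_snd.comp hm)).max hn).add_const 1
  have hsc := (measurable_sc2 hΦ hε.ne').comp hq
  have key : ∀ (τ : X → ℝ) (z : X → Ph) (k : X → ℕ), Measurable τ → Measurable z → Measurable k →
      Measurable fun x => (Iic t).indicator (fun τ => θ x (τ, z x, k x)) (τ x) := by
    intro τ z k h1 h2 h3
    classical
    have e : (fun x => (Iic t).indicator (fun τ => θ x (τ, z x, k x)) (τ x)) =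
        fun x => if τ x ∈ Iic t then θ x (τ x, z x, k x) else 0 := by
      funext x
      rw [indicator_apply]
    rw [e]
    exact Measurable.ite (h1 measurableSet_Iic)
      (hθ.comp (measurable_id.prodMk (h1.prodMk (h2.prodMk h3)))) measurable_const
  unfold fresh
  exact ((key _ _ _ hs hsc.fst hd).add (key _ _ _ hs hsc.snd hd)).add (key _ _ _ hh hz hn)

theorem measurable_main6 {η t w u : ℝ} (hV : MM.RS fun x => (V x : Set Src))
    (he : Measurable e) (hm : Measurable m)
    (hz : Measurable z') (hn : Measurable n) :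
    Measurable fun x => main6 L hΦ hε η t w u (V x) (e x) (m x) (z' x) (n x) := by
  have hq : Measurable fun x => ((m x).2.1, z' x) :=
    (measurable_fst.comp (measurable_snd.comp hm)).prodMk hz
  have hh : Measurable fun x => hitT ε ((m x).2.1, z' x) := measurable_hitT.comp hq
  unfold main6
  refine ((measurable_ind (measurableSet_PairG hV measurable_const measurable_const
    measurable_const he hm hz)).add (measurable_fresh' hΦ hε ?_ hm hz hn)).add
    (Measurable.ite (measurableSet_lt hh measurable_const)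
      (measurable_ind (measurableSet_TE hV measurable_const measurable_const he))
      measurable_const)
  exact measurable_GGL (η := fun _ => η) (t := fun _ => t) (hV.comp measurable_fst)
    measurable_const measurable_const (he.comp measurable_fst) measurable_snd

end meas

/-! ### Monotonicity -/

variable {V : Finset Src} {e m : Src} {z' : Ph} {n : ℕ} {t η η' w u : ℝ}

theorem TE_mono (h0 : 0 < η) (h : η ≤ η') (ht : 0 ≤ t) (hT : TE L hΦ hε η t V e) :
    TE L hΦ hε η' t V e := by
  unfold TE at hT ⊢
  exact hT.mono (hz_mono_left h h0 ht)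

theorem GGL_le_TE : GGL L hΦ hε η t V e m ≤ ind (TE L hΦ hε η t V e) := by
  unfold GGL
  split_ifs
  · exact ind_mono fun h => h.1
  · exact zero_le

theorem GGL_le_one : GGL L hΦ hε η t V e m ≤ 1 := GGL_le_TE.trans (ind_le_one _)

theorem DirG_mono (h0 : 0 < η) (h : η ≤ η') (ht : 0 ≤ t) (hD : DirG L hΦ hε η t w V e m) :
    DirG L hΦ hε η' t w V e m := by
  obtain ⟨h1, r, h2, h3, h4⟩ := hD
  exact ⟨TE_mono h0 h ht h1, r, h2, h3.trans (min_le_min_right _ (hz_mono_left h h0 ht)), h4⟩

theorem PairG_mono (h0 : 0 < η) (h : η ≤ η') (ht : 0 ≤ t) (hD : PairG L hΦ hε η t w V e m z') :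
    PairG L hΦ hε η' t w V e m z' := by
  obtain ⟨h1, h5, h6, r, h2, h3, h4⟩ := hD
  exact ⟨TE_mono h0 h ht h1, h5, h6, r, h2,
    h3.trans (min_le_min_right _ (hz_mono_left h h0 ht)), h4⟩

theorem FelL_mono (h0 : 0 < η) (h : η ≤ η') (ht : 0 ≤ t) (hD : FelL L hΦ hε η t u V e m) :
    FelL L hΦ hε η' t u V e m := by
  classical
  obtain ⟨h1, T, hT, h2, h3, h4, h5, s, h6, h7⟩ := hD
  exact ⟨TE_mono h0 h ht h1, T, hT, h2, h3, h4, h5.trans (hz_mono_left h h0 ht), s,
    h6.trans_le (hz_mono_left h h0 ht), h7⟩

theorem TEu_mono (h0 : 0 < η) (h : η ≤ η') (ht : 0 ≤ t) (hD : TEu L hΦ hε η t u V e m) :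
    TEu L hΦ hε η' t u V e m := by
  obtain ⟨h1, h2⟩ := hD
  exact ⟨h1, h2.mono (min_le_min_right _ (hz_mono_left h h0 ht))⟩

theorem FelS_mono (h0 : 0 < η) (h : η ≤ η') (ht : 0 ≤ t) (hD : FelS L hΦ hε η t u V e m) :
    FelS L hΦ hε η' t u V e m := by
  obtain ⟨h1, T, hT, h2, h3, h4, h5, h6⟩ := hD
  exact ⟨TE_mono h0 h ht h1, T, hT, h2, h3, h4, h5.trans (hz_mono_left h h0 ht),
    h6.mono (hz_mono_left h h0 ht)⟩

theorem S6_mono (h0 : 0 < η) (h : η ≤ η') (ht : 0 ≤ t) :
    S6 L hΦ hε η t w u V e m ≤ S6 L hΦ hε η' t w u V e m := by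
  unfold S6
  exact add_le_add (add_le_add (add_le_add (ind_mono (DirG_mono h0 h ht))
    (ind_mono (FelL_mono h0 h ht))) (ind_mono (TEu_mono h0 h ht)))
    (ind_mono (FelS_mono h0 h ht))

theorem main6_le : main6 L hΦ hε η t w u V e m z' n ≤ 5 := by
  unfold main6
  calc _ ≤ (1 : ℝ≥0∞) + 3 + 1 := by
        refine add_le_add (add_le_add (ind_le_one _) (fresh_le_three (fun m => GGL_le_one) z' n)) ?_
        split_ifs
        · exact ind_le_one _
        · exact zero_le
    _ = 5 := by norm_num

end Vale.Agent.P119.PB
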