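import Vale.Agent.P119.PB.Thr
import Vale.Agent.P119.PB.Src

/-!
# P119: second events with short lag: contacts with exposed labels before a touch (`helper778`)
-/

open MeasureTheory Filter Topology Set
open scoped ENNReal NNReal

noncomputable section

namespace Vale.Agent.P119.PB

open M CTree KU FB RB AU FL

variable {Φ : E3 → ℝ} {ε : ℝ} {L : ℕ} {hΦ : IsPotential Φ} {hε : 0 < ε}
  {W₁ W₂ : Finset Src} {r : ℝ} {x : E3}

/-- Without a touch the contacts with exposed labels are the same. -/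
theorem CC.of_not_touch (h₁ : ∀ a ∈ W₁, 0 ≤ a.1) (h₂ : ∀ a ∈ W₂, 0 ≤ a.1)
    (hn : ¬(RB.Y Φ ε L hΦ hε).Touch W₁ W₂ r) (h : CC L hΦ hε W₁ r x) : CC L hΦ hε W₂ r x := by
  obtain ⟨a, ha, h3⟩ := h
  have ha' : a ∈ ex L hΦ hε W₂ r := ex_eq_of_not_touch h₁ h₂ hn le_rfl ▸ ha
  have hD : a ∉ (RB.Y Φ ε L hΦ hε).D W₁ W₂ r := fun hD => hn ⟨a, hD, Or.inl (mem_ex.1 ha)⟩
  have hlt : a ∉ (RB.Y Φ ε L hΦ hε).Dlt W₁ W₂ r := fun ⟨s, hs, h4⟩ => hD (FB.Sys.D_mono hs.le h4)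
  refine ⟨a, ha', ?_⟩
  rcases h3 with h3 | ⟨T, hT, h4, h5⟩
  · left
    rw [← Y_real_eq (L := L) hΦ hε h₁ h₂ (fun s hs ht => hn (ht.mono hs.le)) hlt le_rfl]
    exact h3
  · right
    have hm := mem_of_sta (sta_eq_of_not_mem_D hD le_rfl)
    obtain ⟨T', h6, h7, h8⟩ := live_congr' hΦ hε W₁.finite_toSet W₂.finite_toSet
      (by rw [hT]; exact hm.1)
      (fun s hs => by rw [hT]; exact stat_of_sta (sta_eq_of_not_mem_D hD hs.le)) h4
    exact ⟨T', h6.trans hT, h7, by rw [h8]; exact h5⟩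

end Vale.Agent.P119.PB
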