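import Vale.Agent.P119.PB.SE15
import Vale.Agent.P119.PB.Meas6
import Vale.Agent.P119.PB.SENear
import Vale.Agent.P119.PB.Thr
import Vale.Agent.P119.FL.Guard

/-!
# P119, block PROB: bounded elementary laws (`helper778`)

A bounded elementary law `BL ν ..` is a measure `ν` on the data of a structure with a source `e`
(birth and line `eS`) and a moving point `X` (the position of the second line, of a particle of the
second pair), alive after the time `tl`; `u` is the end of the short window. The three bounds: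

* `mass`: the mass, relative to the source `e`;
* `long`: contact of the moving point, after `u`, with a family of targets which depends on `e`;
* `young`: contact, before `u`, with a fixed family of targets.

`BL.split`: the measure of an event which is the union of the four cases (`e` touches early,
exceptional relation, early contact with a fixed target, late contact with a target of `V + e`).
-/

open MeasureTheory Set Filter Topology Metric ProbabilityTheory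
open scoped ENNReal NNReal

noncomputable section

namespace Vale.Agent.P119.PB

open KU M M.CTree FL FB RB EN

/-- The integral over the sources with Gaussian lines and birth times in `[0, t]`. -/
def srcJ (β t : ℝ) (g : ℝ × Ph → ℝ≥0∞) : ℝ≥0∞ :=
  ∫⁻ σ in Icc (0 : ℝ) t, ∫⁻ z : Ph, gw β z.2 * g (σ, z)

theorem srcJ_mono {β t : ℝ} {g g' : ℝ × Ph → ℝ≥0∞} (h : ∀ y, g y ≤ g' y) :
    srcJ β t g ≤ srcJ β t g' :=
  lintegral_mono fun _ => lintegral_mono fun _ => mul_le_mul' le_rfl (h _)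

/-- The measure of a set of sources. -/
def srcS (β t : ℝ) (G : Set (ℝ × Ph)) : ℝ≥0∞ := srcJ β t (G.indicator fun _ => 1)

theorem srcS_mono {β t : ℝ} {G G' : Set (ℝ × Ph)} (h : G ⊆ G') : srcS β t G ≤ srcS β t G' :=
  srcJ_mono fun y => indicator_le_indicator_of_subset h (fun _ => zero_le) y

/-- **Bounded elementary laws.** -/
structure BL {Ω : Type} [MeasurableSpace Ω] (ν : Measure Ω) (E : Set Ω) (ε t t₁ δ β : ℝ)
    (eS : Ω → ℝ × Ph) (u tl : Ω → ℝ) (X : Ω → ℝ → E3) (Cm Cl Cy : ℝ≥0∞) : Prop where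
  em : Measurable eS
  um : Measurable u
  tm : Measurable tl
  Xm : ∀ τ, Measurable fun x => X x τ
  Xc : ∀ x, Continuous (X x)
  ue : ∀ x ∈ E, u x ≤ (eS x).1 + δ
  tl0 : ∀ x ∈ E, 0 ≤ tl x
  mass : ∀ (F : Ω → ℝ≥0∞) (g : ℝ × Ph → ℝ≥0∞), Measurable F → Measurable g →
    (∀ x ∈ E, F x ≠ 0 → (eS x).1 ≤ t ∧ F x ≤ g (eS x)) → ∫⁻ x, F x ∂ν ≤ Cm * srcJ β t g
  long : ∀ (ι : Type) (h : ℝ × Ph → ℝ) (I : ℝ × Ph → Finset ι) (T : ∀ y, ι → Target (h y))
    (F : Ω → ℝ≥0∞) (g : ℝ × Ph → ℝ≥0∞) (K : ℝ≥0∞), (∀ y, h y < t₁) → Measurable F →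
    Measurable g → (∀ y, g y ≠ ∞) → (∀ y, g y ≠ 0 → ∑ i ∈ I y, (T y i).w ε ≤ K) →
    (∀ x ∈ E, F x ≠ 0 → (eS x).1 ≤ t ∧ (∃ i ∈ I (eS x), ∃ τ ∈ Icc (max (max (T (eS x) i).a (u x))
      (tl x)) (h (eS x)), ‖X x τ - (T (eS x) i).Y τ‖ ≤ ε) ∧ F x ≤ g (eS x)) →
    ∫⁻ x, F x ∂ν ≤ Cl * (ENNReal.ofReal (ε ^ 2) * K) * srcJ β t g
  young : ∀ (ι : Type) (h : ℝ) (I : Finset ι) (T : ι → Target h) (F : Ω → ℝ≥0∞), h < t₁ →
    Measurable F → (∀ x ∈ E, F x ≠ 0 → (∃ i ∈ I, ∃ τ ∈ Icc (max (T i).a (tl x)) h, τ ≤ u x ∧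
      ‖X x τ - (T i).Y τ‖ ≤ ε) ∧ F x ≤ 1) →
    ∫⁻ x, F x ∂ν ≤ Cy * (ENNReal.ofReal (ε ^ 2) * yW ε t δ I T)

section split

variable {Ω : Type} [MeasurableSpace Ω] {ν : Measure Ω} {E : Set Ω} {ε t t₁ δ β : ℝ}
  {eS : Ω → ℝ × Ph} {u tl : Ω → ℝ} {X : Ω → ℝ → E3} {Cm Cl Cy : ℝ≥0∞}

theorem ind1_ne {α : Type*} {S : Set α} {x : α} (h : S.indicator (fun _ => (1 : ℝ≥0∞)) x ≠ 0) :
    x ∈ S := by
  by_contra hx
  exact h (indicator_of_notMem hx _)

/-- The measure of a set of data which is controlled by `e`. -/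
theorem BL.mass_set (H : BL ν E ε t t₁ δ β eS u tl X Cm Cl Cy) {Ev : Set Ω}
    (hEv : MeasurableSet Ev) {G : Set (ℝ × Ph)} (hG : MeasurableSet G)
    (h1 : ∀ x ∈ E, x ∈ Ev → (eS x).1 ≤ t ∧ eS x ∈ G) : ν Ev ≤ Cm * srcS β t G := by
  have h := H.mass (Ev.indicator fun _ => 1) (G.indicator fun _ => 1)
    (measurable_const.indicator hEv) (measurable_const.indicator hG) (fun x hx hne => by
      have hxE := ind1_ne hne
      obtain ⟨h2, h3⟩ := h1 x hx hxE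
      exact ⟨h2, by rw [indicator_of_mem hxE, indicator_of_mem h3]⟩)
  rwa [lintegral_indicator hEv, lintegral_one, Measure.restrict_apply_univ] at h

/-- The measure of the young contacts. -/
theorem BL.young_set (H : BL ν E ε t t₁ δ β eS u tl X Cm Cl Cy) {Ev : Set Ω}
    (hEv : MeasurableSet Ev) {ι : Type} {h : ℝ} (I : Finset ι) (T : ι → Target h) (hh : h < t₁)
    (h1 : ∀ x ∈ E, x ∈ Ev → ∃ i ∈ I, ∃ τ ∈ Icc (max (T i).a (tl x)) h, τ ≤ u x ∧
      ‖X x τ - (T i).Y τ‖ ≤ ε) : ν Ev ≤ Cy * (ENNReal.ofReal (ε ^ 2) * yW ε t δ I T) := by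
  have h2 := H.young ι h I T (Ev.indicator fun _ => 1) hh (measurable_const.indicator hEv)
    (fun x hx hne => by
      have hxE := ind1_ne hne
      exact ⟨h1 x hx hxE, by rw [indicator_of_mem hxE]⟩)
  rwa [lintegral_indicator hEv, lintegral_one, Measure.restrict_apply_univ] at h2

/-- The measure of the late contacts. -/
theorem BL.long_set (H : BL ν E ε t t₁ δ β eS u tl X Cm Cl Cy) {Ev : Set Ω}
    (hEv : MeasurableSet Ev) {G : Set (ℝ × Ph)} (hG : MeasurableSet G) {ι : Type}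
    {h : ℝ × Ph → ℝ} (I : ℝ × Ph → Finset ι) (T : ∀ y, ι → Target (h y)) {K : ℝ≥0∞}
    (hh : ∀ y, h y < t₁) (hK : ∀ y ∈ G, ∑ i ∈ I y, (T y i).w ε ≤ K)
    (h1 : ∀ x ∈ E, x ∈ Ev → (eS x).1 ≤ t ∧ eS x ∈ G ∧ ∃ i ∈ I (eS x),
      ∃ τ ∈ Icc (max (max (T (eS x) i).a (u x)) (tl x)) (h (eS x)),
        ‖X x τ - (T (eS x) i).Y τ‖ ≤ ε) :
    ν Ev ≤ Cl * (ENNReal.ofReal (ε ^ 2) * K) * srcS β t G := by
  have h2 := H.long ι h I T (Ev.indicator fun _ => 1) (G.indicator fun _ => 1) K hh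
    (measurable_const.indicator hEv) (measurable_const.indicator hG)
    (fun y => by
      by_cases hy : y ∈ G
      · rw [indicator_of_mem hy]; exact ENNReal.one_ne_top
      · rw [indicator_of_notMem hy]; exact ENNReal.zero_ne_top)
    (fun y hy => hK y (ind1_ne hy)) (fun x hx hne => by
      have hxE := ind1_ne hne
      obtain ⟨h3, h4, h5⟩ := h1 x hx hxE
      exact ⟨h3, h5, by rw [indicator_of_mem hxE, indicator_of_mem h4]⟩)
  rwa [lintegral_indicator hEv, lintegral_one, Measure.restrict_apply_univ] at h2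

/-- **The four cases.** -/
theorem BL.split (H : BL ν E ε t t₁ δ β eS u tl X Cm Cl Cy) {Ev AY : Set Ω}
    (hEv : MeasurableSet Ev) (hAY : MeasurableSet AY) {g4 gR gT : Set (ℝ × Ph)}
    (m4 : MeasurableSet g4) (mR : MeasurableSet gR) (mT : MeasurableSet gT)
    {ι : Type} {h : ℝ × Ph → ℝ} (I : ℝ × Ph → Finset ι) (T : ∀ y, ι → Target (h y)) {K : ℝ≥0∞}
    (hh : ∀ y, h y < t₁) (hK : ∀ y ∈ gT, ∑ i ∈ I y, (T y i).w ε ≤ K)
    {ι' : Type} {h' : ℝ} (I' : Finset ι') (T' : ι' → Target h') (hh' : h' < t₁)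
    (h1 : ∀ x ∈ E, x ∈ Ev → (eS x).1 ≤ t ∧ eS x ∈ gT ∧ (eS x ∈ g4 ∨ eS x ∈ gR ∨ x ∈ AY ∨
      ∃ i ∈ I (eS x), ∃ τ ∈ Icc (max (max (T (eS x) i).a (u x)) (tl x)) (h (eS x)),
        ‖X x τ - (T (eS x) i).Y τ‖ ≤ ε))
    (h2 : ∀ x ∈ E, x ∈ AY → ∃ i ∈ I', ∃ τ ∈ Icc (max (T' i).a (tl x)) h', τ ≤ u x ∧
      ‖X x τ - (T' i).Y τ‖ ≤ ε) :
    ν Ev ≤ Cm * srcS β t g4 + Cm * srcS β t gR +
      Cy * (ENNReal.ofReal (ε ^ 2) * yW ε t δ I' T') +
      Cl * (ENNReal.ofReal (ε ^ 2) * K) * srcS β t gT := by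
  have s4 : MeasurableSet (Ev ∩ eS ⁻¹' g4) := hEv.inter (H.em m4)
  have sR : MeasurableSet (Ev ∩ eS ⁻¹' gR) := hEv.inter (H.em mR)
  have sL : MeasurableSet (Ev \ (eS ⁻¹' g4 ∪ eS ⁻¹' gR ∪ AY)) :=
    hEv.diff (((H.em m4).union (H.em mR)).union hAY)
  have c1 : Ev ⊆ (Ev ∩ eS ⁻¹' g4) ∪ (Ev ∩ eS ⁻¹' gR) ∪ AY ∪
      (Ev \ (eS ⁻¹' g4 ∪ eS ⁻¹' gR ∪ AY)) := by
    intro x hx
    by_cases a1 : x ∈ eS ⁻¹' g4
    · exact Or.inl (Or.inl (Or.inl ⟨hx, a1⟩))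
    by_cases a2 : x ∈ eS ⁻¹' gR
    · exact Or.inl (Or.inl (Or.inr ⟨hx, a2⟩))
    by_cases a3 : x ∈ AY
    · exact Or.inl (Or.inr a3)
    · refine Or.inr ⟨hx, ?_⟩
      rintro ((h | h) | h)
      · exact a1 h
      · exact a2 h
      · exact a3 h
  refine (measure_mono c1).trans ((measure_union_le _ _).trans (add_le_add
    ((measure_union_le _ _).trans (add_le_add ((measure_union_le _ _).trans (add_le_add ?_ ?_))
      ?_)) ?_))
  · exact H.mass_set s4 m4 fun x hx h => ⟨(h1 x hx h.1).1, h.2⟩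
  · exact H.mass_set sR mR fun x hx h => ⟨(h1 x hx h.1).1, h.2⟩
  · exact H.young_set hAY I' T' hh' h2
  · refine H.long_set sL mT I T hh hK fun x hx h => ?_
    obtain ⟨h3, h4, h5⟩ := h1 x hx h.1
    refine ⟨h3, h4, ?_⟩
    rcases h5 with h5 | h5 | h5 | h5
    · exact absurd (Or.inl (Or.inl h5)) h.2
    · exact absurd (Or.inl (Or.inr h5)) h.2
    · exact absurd (Or.inr h5) h.2
    · exact h5

end split

end Vale.Agent.P119.PB
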