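import Vale.Agent.P119.PB.BLS

/-!
# P119, block PROB: the law A is a bounded elementary law (`helper860`)

* `BL_lineA`: the law A of `N` hits, the moving point is on the last line;
* `BL_pairA1`, `BL_pairA2`: the law A of `N + 1` hits, the moving point is a particle of the last
  pair.
-/

open MeasureTheory Set Filter Topology Metric ProbabilityTheory
open scoped ENNReal NNReal

noncomputable section

namespace Vale.Agent.P119.PB

open KU M M.CTree FL FB RB EN AU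

variable {Φ : E3 → ℝ} {ε bE b t t₂ t₁ δ c₁ : ℝ} {N : ℕ} {S : ℕ → Step}

/-! ### The integral over the sources -/

theorem swap_srcJ {β : ℝ} {g : ℝ × Ph → ℝ≥0∞} (hg : Measurable g) :
    ∫⁻ e : Ph, ∫⁻ σ in Icc (0 : ℝ) t, gw β e.2 * g (σ, e) = srcJ β t g := by
  refine lintegral_lintegral_swap (f := fun (e : Ph) (σ : ℝ) => gw β e.2 * g (σ, e))
    (Measurable.aemeasurable ?_)
  exact ((measurable_gw β).comp measurable_fst.snd).mul (hg.comp measurable_swap)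

theorem int_le_srcJ {β : ℝ} {g : ℝ × Ph → ℝ≥0∞} (hg : Measurable g) {K : ℝ≥0∞}
    {F : Ph → ℝ → ℝ≥0∞} (h : ∀ e, ∀ σ ∈ Icc (0 : ℝ) t, F e σ ≤ K * (gw β e.2 * g (σ, e))) :
    ∫⁻ e : Ph, ∫⁻ σ in Icc (0 : ℝ) t, F e σ ≤ K * srcJ β t g := by
  have hm : Measurable fun q : Ph × ℝ => gw β q.1.2 * g (q.2, q.1) :=
    ((measurable_gw β).comp measurable_fst.snd).mul (hg.comp measurable_swap)
  have hme : ∀ e : Ph, Measurable fun σ : ℝ => gw β e.2 * g (σ, e) := fun e =>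
    (hg.comp (measurable_id.prodMk measurable_const : Measurable fun σ : ℝ => (σ, e))).const_mul _
  have hmi : Measurable fun e : Ph => ∫⁻ σ in Icc (0 : ℝ) t, gw β e.2 * g (σ, e) :=
    Measurable.lintegral_prod_right' (f := fun q : Ph × ℝ => gw β q.1.2 * g (q.2, q.1)) hm
  calc ∫⁻ e : Ph, ∫⁻ σ in Icc (0 : ℝ) t, F e σ
      ≤ ∫⁻ e : Ph, K * ∫⁻ σ in Icc (0 : ℝ) t, gw β e.2 * g (σ, e) := by
        refine lintegral_mono fun e => ?_
        rw [← lintegral_const_mul _ (hme e)]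
        exact setLIntegral_mono' measurableSet_Icc (h e)
    _ = K * ∫⁻ e : Ph, ∫⁻ σ in Icc (0 : ℝ) t, gw β e.2 * g (σ, e) := lintegral_const_mul _ hmi
    _ = _ := by rw [swap_srcJ hg]

/-! ### The constants -/

/-- The constant of the mass. -/
def CmA (bE b t₂ : ℝ) (N : ℕ) : ℝ≥0∞ :=
  K1.sig univ * (ENNReal.ofReal (1 + 1 / √bE) * cM b t₂ N)

/-- The constant of the late contacts. -/
def ClA (bE b c₁ δ t₁ : ℝ) (N : ℕ) : ℝ≥0∞ :=
  K1.sig univ * (ENNReal.ofReal (√2 * (1 + 1 / √b)) * ENNReal.ofReal (1 + 1 / √bE) *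
    cH b c₁ δ t₁ N)

/-- The constant of the early contacts. -/
def CyA (b t c₁ t₁ : ℝ) (N : ℕ) : ℝ≥0∞ :=
  (K1.sig univ * cM b t 0 * ENNReal.ofReal (1 + 1 / √b)) * cF1 (b / 2) c₁ t₁ N

theorem mass_A (hε : 0 < ε) (hb : 0 < b) (hbE : b ≤ bE) (ht₂ : t ≤ t₂) {F : XA N → ℝ≥0∞}
    {g : ℝ × Ph → ℝ≥0∞} (hF : Measurable F) (hg : Measurable g)
    (h : ∀ x ∈ evA ε t t₂ S, F x ≤ g (srcA ε x)) :
    ∫⁻ x, F x ∂(lawA ε bE b t t₂ N S) ≤ CmA bE b t₂ N * srcJ (bE / 2) t g := by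
  have hbE0 : 0 < bE := hb.trans_le hbE
  refine (lawA_mass hε hb ht₂ hF h).trans ?_
  unfold CmA
  rw [mul_assoc]
  refine mul_le_mul' le_rfl (int_le_srcJ hg fun e σ _ => ?_)
  calc gw bE e.2 * g (σ, e) * (ENNReal.ofReal (1 + ‖e.2‖) * cM b t₂ N)
      = (gw bE e.2 * ENNReal.ofReal (1 + ‖e.2‖)) * (g (σ, e) * cM b t₂ N) := by ring
    _ ≤ (ENNReal.ofReal (1 + 1 / √bE) * gw (bE / 2) e.2) * (g (σ, e) * cM b t₂ N) :=
        mul_le_mul' (gw_one_add hbE0 e.2) le_rfl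
    _ = _ := by ring

theorem long_A (hε : 0 < ε) (hb : 0 < b) (hbE : b ≤ bE) (hδ : 0 < δ) (hc₁ : 0 ≤ c₁)
    (X : PathFam ε S N c₁) (ht₁ : t ≤ t₁) {ι : Type} (h : ℝ × Ph → ℝ) (I : ℝ × Ph → Finset ι)
    (T : ∀ y, ι → Target (h y)) (F : XA N → ℝ≥0∞) (g : ℝ × Ph → ℝ≥0∞) (K : ℝ≥0∞)
    (hh : ∀ y, h y < t₁) (hF : Measurable F) (hg : Measurable g) (hgt : ∀ y, g y ≠ ∞)
    (hK : ∀ y, g y ≠ 0 → ∑ i ∈ I y, (T y i).w ε ≤ K)
    (H : ∀ x ∈ evA ε t t₂ S, F x ≠ 0 → (∃ i ∈ I (srcA ε x),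
      ∃ τ ∈ Icc (max (max (T (srcA ε x) i).a ((srcA ε x).1 + δ)) (endA ε S x).1)
        (h (srcA ε x)), ‖X.X x.2.1 x.2.2 τ - (T (srcA ε x) i).Y τ‖ ≤ ε) ∧ F x ≤ g (srcA ε x)) :
    ∫⁻ x, F x ∂(lawA ε bE b t t₂ N S) ≤
      ClA bE b c₁ δ t₁ N * (ENNReal.ofReal (ε ^ 2) * K) * srcJ (bE / 2) t g := by
  have hbE0 : 0 < bE := hb.trans_le hbE
  have h1 := lawA_long (bE := bE) (t₂ := t₂) (S := S) hε hb hδ hc₁ X
    (h := fun e σ => h (σ, e)) ht₁ (fun e σ _ => hh (σ, e)) (fun e σ => I (σ, e))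
    (fun e σ => T (σ, e)) hF hgt H
  refine h1.trans ?_
  unfold ClA
  calc K1.sig univ * ∫⁻ e : Ph, ∫⁻ σ in Icc (0 : ℝ) t,
        gw bE e.2 * g (σ, e) * ENNReal.ofReal (Ke b e) *
        (ENNReal.ofReal (ε ^ 2) * cH b c₁ δ t₁ N) * ∑ i ∈ I (σ, e), (T (σ, e) i).w ε
      ≤ K1.sig univ * (((ENNReal.ofReal (√2 * (1 + 1 / √b)) * ENNReal.ofReal (1 + 1 / √bE) *
        cH b c₁ δ t₁ N) * (ENNReal.ofReal (ε ^ 2) * K)) * srcJ (bE / 2) t g) := by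
        refine mul_le_mul' le_rfl (int_le_srcJ hg fun e σ _ => ?_)
        by_cases h3 : g (σ, e) = 0
        · simp [h3]
        have h4 := hK _ h3
        have h5 : gw bE e.2 * ENNReal.ofReal (Ke b e) ≤
            ENNReal.ofReal (√2 * (1 + 1 / √b)) * ENNReal.ofReal (1 + 1 / √bE) *
              gw (bE / 2) e.2 := by
          have e1 : ENNReal.ofReal (Ke b e) =
              ENNReal.ofReal (1 + ‖e.2‖) * ENNReal.ofReal (√2 * (1 + 1 / √b)) := by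
            unfold Ke
            rw [ENNReal.ofReal_mul (by positivity)]
          rw [e1]
          calc gw bE e.2 * (ENNReal.ofReal (1 + ‖e.2‖) * ENNReal.ofReal (√2 * (1 + 1 / √b)))
              = (gw bE e.2 * ENNReal.ofReal (1 + ‖e.2‖)) *
                ENNReal.ofReal (√2 * (1 + 1 / √b)) := by ring
            _ ≤ (ENNReal.ofReal (1 + 1 / √bE) * gw (bE / 2) e.2) *
                ENNReal.ofReal (√2 * (1 + 1 / √b)) := mul_le_mul' (gw_one_add hbE0 e.2) le_rfl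
            _ = _ := by ring
        calc gw bE e.2 * g (σ, e) * ENNReal.ofReal (Ke b e) *
              (ENNReal.ofReal (ε ^ 2) * cH b c₁ δ t₁ N) * ∑ i ∈ I (σ, e), (T (σ, e) i).w ε
            = (gw bE e.2 * ENNReal.ofReal (Ke b e)) * (g (σ, e) *
              (ENNReal.ofReal (ε ^ 2) * cH b c₁ δ t₁ N)) *
                ∑ i ∈ I (σ, e), (T (σ, e) i).w ε := by ring
          _ ≤ (ENNReal.ofReal (√2 * (1 + 1 / √b)) * ENNReal.ofReal (1 + 1 / √bE) *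
              gw (bE / 2) e.2) * (g (σ, e) *
              (ENNReal.ofReal (ε ^ 2) * cH b c₁ δ t₁ N)) * K :=
              mul_le_mul' (mul_le_mul' h5 le_rfl) h4
          _ = _ := by ring
    _ = _ := by ring

/-- **The law A is a bounded elementary law**, general form. -/
theorem BL_A (hε : 0 < ε) (hb : 0 < b) (hbE : b ≤ bE) (hδ : 0 < δ) (hc₁ : 0 ≤ c₁)
    (ht₁ : t ≤ t₁) (ht₂ : t ≤ t₂) (X : PathFam ε S N c₁) {P : XA N → ℝ → E3}
    (hP : ∀ x τ, P x τ = X.X x.2.1 x.2.2 τ) (hPm : ∀ τ, Measurable fun x => P x τ)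
    (hPc : ∀ x, Continuous (P x))
    (hy : ∀ (ι : Type) (h : ℝ) (I : Finset ι) (T : ι → Target h) (F : XA N → ℝ≥0∞), h < t₁ →
      Measurable F → (∀ x ∈ evA ε t t₂ S, F x ≠ 0 →
        (∃ i ∈ I, ∃ τ ∈ Icc (max (T i).a (endA ε S x).1) h, τ ≤ (srcA ε x).1 + δ ∧
          ‖X.X x.2.1 x.2.2 τ - (T i).Y τ‖ ≤ ε) ∧ F x ≤ 1) →
      ∫⁻ x, F x ∂(lawA ε bE b t t₂ N S) ≤
        (K1.sig univ * cM b t 0 * ENNReal.ofReal (1 + 1 / √b)) *
          (ENNReal.ofReal (ε ^ 2) * cF1 (b / 2) c₁ t₁ N * yW ε t δ I T)) :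
    BL (lawA ε bE b t t₂ N S) (evA ε t t₂ S) ε t t₁ δ (bE / 2) (srcA ε)
      (fun x => (srcA ε x).1 + δ) (fun x => (endA ε S x).1) P
      (CmA bE b t₂ N) (ClA bE b c₁ δ t₁ N) (CyA b t c₁ t₁ N) where
  em := measurable_srcA
  um := measurable_srcA.fst.add_const δ
  tm := (measurable_endA S).fst
  Xm := hPm
  Xc := hPc
  ue := fun _ _ => le_rfl
  tl0 := by
    intro x hx
    have h3 : 0 ≤ exT ε (x.1, x.2.1) := hx.2.1.1
    exact h3.trans (chain_time N S _ _ _ hx.2.2)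
  mass := by
    intro F g hF hg h
    refine mass_A hε hb hbE ht₂ hF hg fun x hx => ?_
    by_cases h0 : F x = 0
    · rw [h0]; exact zero_le
    · exact (h x hx h0).2
  long := by
    intro ι h I T F g K hh hF hg hgt hK H
    refine long_A hε hb hbE hδ hc₁ X ht₁ h I T F g K hh hF hg hgt hK fun x hx hne => ?_
    obtain ⟨-, ⟨i, hi, τ, h1, h2⟩, h3⟩ := H x hx hne
    rw [hP] at h2
    exact ⟨⟨i, hi, τ, h1, h2⟩, h3⟩
  young := by
    intro ι h I T F hh hF H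
    refine (hy ι h I T F hh hF fun x hx hne => ?_).trans (le_of_eq ?_)
    · obtain ⟨⟨i, hi, τ, h1, h2, h3⟩, h4⟩ := H x hx hne
      rw [hP] at h3
      exact ⟨⟨i, hi, τ, h1, h2, h3⟩, h4⟩
    · unfold CyA
      ring

/-- **The law A, last line.** -/
theorem BL_lineA (hε : 0 < ε) (hb : 0 < b) (hbE : b ≤ bE) (hδ : 0 < δ) (ht : 0 ≤ t)
    (ht₁ : t ≤ t₁) (ht₂ : t ≤ t₂) :
    BL (lawA ε bE b t t₂ N S) (evA ε t t₂ S) ε t t₁ δ (bE / 2) (srcA ε)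
      (fun x => (srcA ε x).1 + δ) (fun x => (endA ε S x).1)
      (lineX fun x : XA N => (endA ε S x).2)
      (CmA bE b t₂ N) (ClA bE b 1 δ t₁ N) (CyA b t 1 t₁ N) := by
  refine BL_A hε hb hbE hδ zero_le_one ht₁ ht₂ (lineFam ε S N) (fun _ _ => rfl)
    (measurable_lineX (measurable_endA S).snd) (continuous_lineX _) ?_
  intro ι h I T F hh hF H
  exact lawA_young hε hb hbE hδ ht hh I T hF H

/-- **The law A, first particle of the last pair.** -/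
theorem BL_pairA1 (hΦ : IsPotential Φ) (hε : 0 < ε) (hb : 0 < b) (hbE : b ≤ bE) (hδ : 0 < δ)
    (ht₁ : t ≤ t₁) (ht₂ : t ≤ t₂) :
    BL (lawA ε bE b t t₂ (N + 1) S) (evA ε t t₂ S) ε t t₁ δ (bE / 2) (srcA ε)
      (fun x => (srcA ε x).1 + δ) (fun x => (endA ε S x).1)
      (fun x τ => (pairLine Φ ε (lpA S x) τ).1.1)
      (CmA bE b t₂ (N + 1)) (ClA bE b (cS hΦ) δ t₁ (N + 1)) (CyA b t (cS hΦ) t₁ (N + 1)) := by
  have hm := RM.MPath.pair₁ (ε := ε) hΦ (X := XA (N + 1)) (measurable_lpA S).fst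
    (measurable_lpA S).snd
  refine BL_A hε hb hbE hδ (cS_nonneg hΦ) ht₁ ht₂ (pairFam1 hΦ hε.ne' S N) (fun _ _ => rfl)
    (fun τ => (hm.meas τ).fst) (fun x => continuous_fst.comp (hm.cont x)) ?_
  intro ι h I T F hh hF H
  exact lawA_young_pair hε hb hbE (cS_nonneg hΦ) hh (pairFam1 hΦ hε.ne' S N) I T hF H

/-- **The law A, second particle of the last pair.** -/
theorem BL_pairA2 (hΦ : IsPotential Φ) (hε : 0 < ε) (hb : 0 < b) (hbE : b ≤ bE) (hδ : 0 < δ)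
    (ht₁ : t ≤ t₁) (ht₂ : t ≤ t₂) :
    BL (lawA ε bE b t t₂ (N + 1) S) (evA ε t t₂ S) ε t t₁ δ (bE / 2) (srcA ε)
      (fun x => (srcA ε x).1 + δ) (fun x => (endA ε S x).1)
      (fun x τ => (pairLine Φ ε (lpA S x) τ).2.1)
      (CmA bE b t₂ (N + 1)) (ClA bE b (cS hΦ) δ t₁ (N + 1)) (CyA b t (cS hΦ) t₁ (N + 1)) := by
  have hm := RM.MPath.pair₂ (ε := ε) hΦ (X := XA (N + 1)) (measurable_lpA S).fst
    (measurable_lpA S).snd
  refine BL_A hε hb hbE hδ (cS_nonneg hΦ) ht₁ ht₂ (pairFam2 hΦ hε.ne' S N) (fun _ _ => rfl)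
    (fun τ => (hm.meas τ).fst) (fun x => continuous_fst.comp (hm.cont x)) ?_
  intro ι h I T F hh hF H
  exact lawA_young_pair hε hb hbE (cS_nonneg hΦ) hh (pairFam2 hΦ hε.ne' S N) I T hF H

end Vale.Agent.P119.PB
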