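import Vale.Agent.P119.PB.BLA
import Vale.Agent.P119.PB.Lam6

/-!
# P119, block PROB: the sources of the second events under the law A, fixed world (`helper860`)

* `S6_A`: the terms `S6`; `pG6_A`: contact of the pair; `yH6_A`: hits of typical partners before
  `u`, under the law A of `N` hits.
-/

open MeasureTheory Set Filter Topology Metric ProbabilityTheory
open scoped ENNReal NNReal

noncomputable section

namespace Vale.Agent.P119.PB

open KU M M.CTree FL FB RB EN AU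

variable {Φ : E3 → ℝ} {ε : ℝ} {L : ℕ} {hΦ : IsPotential Φ} {hε : 0 < ε}
  {bE b b' η η' t t₂ t₁ δ w : ℝ} {c : GC.Conf Ph} {n : ℕ} {G : Set (ℝ × Ph)}
  {N : ℕ} {S : ℕ → Step}

theorem lint_ind {Ω : Type} [MeasurableSpace Ω] {ν : Measure Ω} {p : Ω → Prop}
    (h : MeasurableSet {x | p x}) : ∫⁻ x, ind (p x) ∂ν = ν {x | p x} := by
  classical
  have e : (fun x => ind (p x)) = {x | p x}.indicator fun _ => (1 : ℝ≥0∞) := by
    funext x
    by_cases hx : p x
    · rw [ind_of hx, indicator_of_mem (show x ∈ {x | p x} from hx)]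
    · rw [ind_of_not hx, indicator_of_notMem (show x ∉ {x | p x} from hx)]
  rw [e, lintegral_indicator h, lintegral_one, Measure.restrict_apply_univ]

theorem lint_ind4 {Ω : Type} [MeasurableSpace Ω] {ν : Measure Ω} {p₁ p₂ p₃ p₄ : Ω → Prop}
    (h₁ : MeasurableSet {x | p₁ x}) (h₂ : MeasurableSet {x | p₂ x})
    (h₃ : MeasurableSet {x | p₃ x}) (h₄ : MeasurableSet {x | p₄ x}) :
    ∫⁻ x, (ind (p₁ x) + ind (p₂ x) + ind (p₃ x) + ind (p₄ x)) ∂ν =
      ν {x | p₁ x} + ν {x | p₂ x} + ν {x | p₃ x} + ν {x | p₄ x} := by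
  have i1 := measurable_ind h₁
  have i2 := measurable_ind h₂
  have i3 := measurable_ind h₃
  have e1 : ∫⁻ x, (ind (p₁ x) + ind (p₂ x) + ind (p₃ x) + ind (p₄ x)) ∂ν =
      ∫⁻ x, (ind (p₁ x) + ind (p₂ x) + ind (p₃ x)) ∂ν + ∫⁻ x, ind (p₄ x) ∂ν :=
    lintegral_add_left ((i1.add i2).add i3) _
  have e2 : ∫⁻ x, (ind (p₁ x) + ind (p₂ x) + ind (p₃ x)) ∂ν =
      ∫⁻ x, (ind (p₁ x) + ind (p₂ x)) ∂ν + ∫⁻ x, ind (p₃ x) ∂ν :=
    lintegral_add_left (i1.add i2) _
  rw [e1, e2, lintegral_add_left i1, lint_ind h₁, lint_ind h₂, lint_ind h₃, lint_ind h₄]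

/-- The law A lives on its event. -/
theorem ae_evA : ∀ᵐ x ∂(lawA ε bE b t t₂ N S), x ∈ evA ε t t₂ S := by
  unfold lawA
  rw [ae_withDensity_iff (measurable_wA S)]
  refine ae_of_all _ fun x hx => ?_
  by_contra hcon
  exact hx (wA_of_not hcon)

theorem endA_nonneg {x : XA N} (hx : x ∈ evA ε t t₂ S) : 0 ≤ (endA ε S x).1 := by
  have h3 : 0 ≤ exT ε (x.1, x.2.1) := hx.2.1.1
  exact h3.trans (chain_time N S _ _ _ hx.2.2)

variable (L hΦ hε) in
/-- The size of the targets of the exposed labels, in short windows. -/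
def yE (η t δ : ℝ) (c : GC.Conf Ph) : ℝ≥0∞ :=
  yW ε t δ (expI Φ ε L hΦ hε (wS (GC.pts c)) (hz L hΦ hε η t (wS (GC.pts c))))
    (expT Φ ε L hΦ hε (wS (GC.pts c)) (hz L hΦ hε η t (wS (GC.pts c))))

variable (L hΦ hε) in
/-- The size of the lines of the felt trees, in short windows. -/
def yF (η t δ : ℝ) (c : GC.Conf Ph) : ℝ≥0∞ :=
  yW ε t δ (flJ L hΦ hε (wS (GC.pts c)) (hz L hΦ hε η t (wS (GC.pts c))))
    (fun T => lineTarget (hz L hΦ hε η t (wS (GC.pts c))) 0 (ln Φ ε T))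

/-- The source of the end of the law A. -/
def mA (ε : ℝ) (S : ℕ → Step) (x : XA N) : Src := ((endA ε S x).1, (endA ε S x).2, 0)

theorem measurable_mA : Measurable (mA ε S : XA N → Src) :=
  (measurable_endA S).fst.prodMk ((measurable_endA S).snd.prodMk measurable_const)

/-- **The terms of order zero.** -/
theorem S6_A {B : ℝ} (hB : RW.StableWith Φ B) (hb : 0 < b) (hbE : b ≤ bE) (hδ : 0 < δ)
    (hc : c.2 ∈ excl ε c.1) (hη : 0 < η) (hηη : η ≤ η') (ht : 0 ≤ t) (ht₁ : t < t₁)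
    (ht₂ : t ≤ t₂) (hG : MeasurableSet G) :
    ∫⁻ x, ind (srcA ε x ∈ gP G) * S6 L hΦ hε η t w ((srcA ε x).1 + δ) (wS (GC.pts c))
      (srcN n (srcA ε x)) (mA ε S x) ∂(lawA ε bE b t t₂ N S) ≤
      2 * CmA bE b t₂ N * srcS (bE / 2) t (gTd L hΦ hε η t δ c n G) +
      CmA bE b t₂ N * srcS (bE / 2) t (gRL L hΦ hε η (η' - η) t c n G) +
      CyA b t 1 t₁ N * (ENNReal.ofReal (ε ^ 2) * (yE L hΦ hε η' t δ c + yF L hΦ hε η t δ c)) +
      2 * ClA bE b 1 δ t₁ N * (ENNReal.ofReal (ε ^ 2) * cWE B t ε η c) *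
        srcS (bE / 2) t (gTE L hΦ hε η t c n G) := by
  have H := BL_lineA (N := N) (S := S) hε hb hbE hδ ht ht₁.le ht₂
  have hl : Measurable fun x : XA N => (endA ε S x).2 := (measurable_endA S).snd
  have hN := measurable_srcN n
  have hg : MeasurableSet {x : XA N | srcA ε x ∈ gP G} := measurable_srcA (measurableSet_gP hG)
  have h1 := H.dirG (w := w) (n := n) (L := L) (hΦ := hΦ) (hε := hε) hB hc hη hηη ht ht₁ hG
  have h2 := H.felL (n := n) (L := L) (hΦ := hΦ) (hε := hε) hl hB hc hη ht ht₁ hG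
  have h3 := H.teu (c := c) (n := n) (L := L) (hΦ := hΦ) (hε := hε) hl hη ht hG
  have h4 := H.felS (c := c) (n := n) (L := L) (hΦ := hΦ) (hε := hε) hl hη ht ht₁ hG
  have m1 := hg.inter (measurableSet_DirG (w := fun _ => w) (L := L) (hΦ := hΦ) (hε := hε)
    (rs_const c) (measurable_const (a := η)) (measurable_const (a := t)) measurable_const
    (hN.comp (measurable_srcA (ε := ε) (N := N))) (measurable_mA (ε := ε) (S := S) (N := N)))
  have m2 := hg.inter (measurableSet_FelL (L := L) (hΦ := hΦ) (hε := hε)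
    (rs_const c) (measurable_const (a := η)) (measurable_const (a := t)) H.um
    (hN.comp (measurable_srcA (ε := ε) (N := N))) (measurable_mA (ε := ε) (S := S) (N := N)))
  have m3 := hg.inter (measurableSet_TEu (L := L) (hΦ := hΦ) (hε := hε)
    (rs_const c) (measurable_const (a := η)) (measurable_const (a := t)) H.um
    (hN.comp (measurable_srcA (ε := ε) (N := N))) (measurable_mA (ε := ε) (S := S) (N := N)))
  have m4 := hg.inter (measurableSet_FelS (L := L) (hΦ := hΦ) (hε := hε)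
    (rs_const c) (measurable_const (a := η)) (measurable_const (a := t)) H.um
    (hN.comp (measurable_srcA (ε := ε) (N := N))) (measurable_mA (ε := ε) (S := S) (N := N)))
  have e0 : ∀ x : XA N, ind (srcA ε x ∈ gP G) * S6 L hΦ hε η t w ((srcA ε x).1 + δ)
      (wS (GC.pts c)) (srcN n (srcA ε x)) (mA ε S x) =
      ind (srcA ε x ∈ gP G ∧ DirG L hΦ hε η t w (wS (GC.pts c)) (srcN n (srcA ε x))
        (mA ε S x)) +
      ind (srcA ε x ∈ gP G ∧ FelL L hΦ hε η t ((srcA ε x).1 + δ) (wS (GC.pts c))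
        (srcN n (srcA ε x)) (mA ε S x)) +
      ind (srcA ε x ∈ gP G ∧ TEu L hΦ hε η t ((srcA ε x).1 + δ) (wS (GC.pts c))
        (srcN n (srcA ε x)) (mA ε S x)) +
      ind (srcA ε x ∈ gP G ∧ FelS L hΦ hε η t ((srcA ε x).1 + δ) (wS (GC.pts c))
        (srcN n (srcA ε x)) (mA ε S x)) := by
    intro x
    rw [ind_and, ind_and, ind_and, ind_and]
    unfold S6
    ring
  simp only [e0]
  refine (lint_ind4 (ν := lawA ε bE b t t₂ N S) m1 m2 m3 m4).le.trans ?_
  refine (add_le_add (add_le_add (add_le_add h1 h2) h3) h4).trans (le_of_eq ?_)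
  unfold yE yF
  ring

/-! ### Contact of the pair -/

/-- The birth of the line can be replaced by an earlier one. -/
theorem PairC_zero {V : Finset Src} {s : ℝ} {z z' : Ph} (hη : 0 < η) (ht : 0 ≤ t)
    (hs : 0 ≤ s) (hw : t ≤ w) (h : PairC L hΦ hε η t w V (s, z, 0) z') :
    PairC L hΦ hε η t w V (0, z, 0) z' := by
  obtain ⟨h1, h2, r, h3, h4, h5⟩ := h
  refine ⟨h1, hs.trans_lt h2, r, h3, le_min (h4.trans (min_le_left _ _)) ?_, h5⟩
  have := (h4.trans (min_le_left _ _)).trans (hz_le hη ht)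
  change r ≤ 0 + w
  linarith

/-- The contact of the pair as a pair operator. -/
theorem pG6w_le_opP {a : ℕ → ℝ≥0∞} {V : Finset Src} {e : Src} {s : ℝ} {l : Ph} (hbb : b ≤ b')
    (hη : 0 < η) (ht : 0 ≤ t) (hw : t ≤ w) (ht₂ : t < t₂) (hs : 0 ≤ s) :
    pG6w L hΦ hε b' a η t w V e (s, l, 0) ≤
      (∑' n, a n) * opP ε b t₂ (fun q => ind (PairG L hΦ hε η t w V e (0, q.1, 0) q.2)) s l := by
  have h1 : muE ε * ∫⁻ z' : Ph, gw b' z'.2 * ind (PairG L hΦ hε η t w V e (s, l, 0) z') ≤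
      opP ε b t₂ (fun q => ind (PairG L hΦ hε η t w V e (0, q.1, 0) q.2)) s l := by
    unfold opP
    rw [← lintegral_const_mul' _ _ muE_ne_top, ← lintegral_indicator (measurableSet_hitO t₂ s l)]
    refine lintegral_mono fun z' => ?_
    by_cases hP : PairG L hΦ hε η t w V e (s, l, 0) z'
    · have hz : z' ∈ hitO ε t₂ s l := by
        obtain ⟨-, h2, h3, r, h4, h5, -⟩ := hP
        exact ⟨h2, h3, (h4.trans ((h5.trans (min_le_left _ _)).trans (hz_le hη ht))).trans_lt ht₂⟩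
      have hP' : PairG L hΦ hε η t w V e (0, l, 0) z' :=
        ⟨hP.1, PairC_zero hη ht hs hw hP.2⟩
      rw [indicator_of_mem hz]
      simp only [ind_of hP, ind_of hP', mul_one]
      exact mul_le_mul_right (gw_anti hbb z'.2) _
    · simp only [ind_of_not hP, mul_zero]
      exact zero_le
  unfold pG6w
  rw [ENNReal.tsum_mul_right, ← mul_assoc, mul_comm (muE ε), mul_assoc]
  exact mul_le_mul_right h1 _

/-- The kernel of the contact of the pair. -/
theorem measurable_KP (hG : MeasurableSet G) : Measurable fun q : (ℝ × Ph) × (Ph × Ph) =>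
    ind (q.1 ∈ gP G ∧ PairG L hΦ hε η t w (wS (GC.pts c)) (srcN n q.1) (0, q.2.1, 0) q.2.2) := by
  refine measurable_ind ((measurable_fst (measurableSet_gP hG)).inter
    (measurableSet_PairG (X := (ℝ × Ph) × (Ph × Ph)) (w := fun _ => w) (rs_const c)
    (measurable_const (a := η)) (measurable_const (a := t)) measurable_const
    ((measurable_srcN n).comp measurable_fst)
    (measurable_const.prodMk (measurable_snd.fst.prodMk measurable_const)) measurable_snd.snd))

/-- **Contact of the pair with an exposed label.** -/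
theorem pG6_A {a : ℕ → ℝ≥0∞} {B : ℝ} (hB : RW.StableWith Φ B) (hb : 0 < b) (hbE : b ≤ bE)
    (hbb : b ≤ b') (hδ : 0 < δ) (hc : c.2 ∈ excl ε c.1) (hη : 0 < η) (hηη : η ≤ η')
    (ht : 0 ≤ t) (ht₁ : t < t₁) (ht₂ : t < t₂) (hw : t ≤ w) (hG : MeasurableSet G) :
    ∫⁻ x, ind (srcA ε x ∈ gP G) * pG6w L hΦ hε b' a η t w (wS (GC.pts c))
      (srcN n (srcA ε x)) (mA ε S x) ∂(lawA ε bE b t t₂ N S) ≤
      (∑' k, a k) * (2 * (CmA bE b t₂ (N + 1) * srcS (bE / 2) t (gTd L hΦ hε η t δ c n G) +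
      CmA bE b t₂ (N + 1) * srcS (bE / 2) t (gRL L hΦ hε η (η' - η) t c n G) +
      CyA b t (cS hΦ) t₁ (N + 1) * (ENNReal.ofReal (ε ^ 2) * yE L hΦ hε η' t δ c) +
      ClA bE b (cS hΦ) δ t₁ (N + 1) * (ENNReal.ofReal (ε ^ 2) * cWE B t ε η c) *
        srcS (bE / 2) t (gTE L hΦ hε η t c n G))) := by
  set K : ℝ × Ph → Ph × Ph → ℝ≥0∞ := fun y q =>
    ind (y ∈ gP G ∧ PairG L hΦ hε η t w (wS (GC.pts c)) (srcN n y) (0, q.1, 0) q.2) with hK
  have hKm : Measurable fun q : (ℝ × Ph) × (Ph × Ph) => K q.1 q.2 := measurable_KP hG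
  have hop : Measurable fun x : XA N =>
      opP ε b t₂ (K (srcA ε x)) (endA ε S x).1 (endA ε S x).2 :=
    (measurable_opP_param hKm).comp (measurable_srcA.prodMk (measurable_endA S))
  have h1 : ∫⁻ x, ind (srcA ε x ∈ gP G) * pG6w L hΦ hε b' a η t w (wS (GC.pts c))
      (srcN n (srcA ε x)) (mA ε S x) ∂(lawA ε bE b t t₂ N S) ≤
      ∫⁻ x, (∑' k, a k) * opP ε b t₂ (K (srcA ε x)) (endA ε S x).1 (endA ε S x).2
        ∂(lawA ε bE b t t₂ N S) := by
    refine lintegral_mono_ae ?_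
    filter_upwards [ae_evA] with x hx
    by_cases hg : srcA ε x ∈ gP G
    · rw [ind_of hg, one_mul]
      refine (pG6w_le_opP hbb hη ht hw ht₂ (endA_nonneg hx)).trans (le_of_eq ?_)
      rw [hK]
      simp only [ind_and, ind_of hg, one_mul]
    · rw [ind_of_not hg, zero_mul]
      exact zero_le
  refine h1.trans ?_
  rw [lintegral_const_mul _ hop, lawA_opP S hKm]
  refine mul_le_mul_right ?_ _
  have hm : MeasurableSet {x : XA (N + 1) | srcA ε x ∈ gP G ∧
      PairG L hΦ hε η t w (wS (GC.pts c)) (srcN n (srcA ε x)) (0, (lpA S x).1, 0)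
        (lpA S x).2} := by
    have hlp := measurable_lpA (N := N) S
    exact (measurable_srcA (measurableSet_gP hG)).inter
      (measurableSet_PairG (w := fun _ => w) (rs_const c) (measurable_const (a := η))
        (measurable_const (a := t)) measurable_const ((measurable_srcN n).comp measurable_srcA)
        (measurable_const.prodMk (hlp.fst.prodMk measurable_const)) hlp.snd)
  refine (lint_ind (ν := lawA ε bE b t t₂ (N + 1) S) hm).le.trans ?_
  have H1 := BL_pairA1 (N := N) (S := S) hΦ hε hb hbE hδ ht₁.le ht₂.le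
  have H2 := BL_pairA2 (N := N) (S := S) hΦ hε hb hbE hδ ht₁.le ht₂.le
  exact H1.pairG (s := fun _ => (0 : ℝ)) (q := lpA S) (w := w) (n := n) (L := L) (hΦ := hΦ)
    (hε := hε) H2 (fun _ _ => rfl) (fun _ _ => rfl)
    (fun x => time_lastPair N S (exT ε (x.1, x.2.1)) x.2.1 x.2.2) hB hc hη hηη ht ht₁ hG

/-! ### Hits of typical partners before `u` -/

theorem yH6_le_opP {a : ℕ → ℝ≥0∞} {s u : ℝ} {l : Ph} (hbb : b ≤ b') (ht₂ : t < t₂) :
    yH6 ε b' a t u (s, l, 0) ≤
      (∑' n, a n) * opP ε b t₂ (fun q => ind (hitT ε q < u)) s l := by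
  have hS : MeasurableSet {z' : Ph | hitI ε t (s, l, 0) z' ∧ hitT ε (l, z') < u} := by
    have hq : Measurable fun z' : Ph => (l, z') := measurable_const.prodMk measurable_id
    exact (measurableSet_hitI (measurable_const (a := ((s, l, 0) : Src)))
      measurable_id).inter (measurableSet_lt (measurable_hitT.comp hq) measurable_const)
  have h1 : muE ε * (∫⁻ z' in {z' : Ph | hitI ε t (s, l, 0) z' ∧ hitT ε (l, z') < u},
      gw b' z'.2) ≤ opP ε b t₂ (fun q => ind (hitT ε q < u)) s l := by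
    unfold opP
    rw [← lintegral_const_mul' _ _ muE_ne_top, ← lintegral_indicator hS,
      ← lintegral_indicator (measurableSet_hitO t₂ s l)]
    refine lintegral_mono fun z' => ?_
    by_cases hz : z' ∈ {z' : Ph | hitI ε t (s, l, 0) z' ∧ hitT ε (l, z') < u}
    · have hz' : z' ∈ hitO ε t₂ s l := ⟨hz.1.1, hz.1.2.1, hz.1.2.2.trans_lt ht₂⟩
      rw [indicator_of_mem hz, indicator_of_mem hz']
      simp only [ind_of hz.2, mul_one]
      exact mul_le_mul_right (gw_anti hbb z'.2) _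
    · rw [indicator_of_notMem hz]
      exact zero_le
  unfold yH6
  calc muE ε * (∑' n, a n) * (∫⁻ z' in {z' : Ph | hitI ε t (s, l, 0) z' ∧
        hitT ε (l, z') < u}, gw b' z'.2)
      = (∑' n, a n) * (muE ε * (∫⁻ z' in {z' : Ph | hitI ε t (s, l, 0) z' ∧
        hitT ε (l, z') < u}, gw b' z'.2)) := by ring
    _ ≤ _ := mul_le_mul_right h1 _

/-- **Hits of typical partners within the time `δ`.** -/
theorem yH6_A {a : ℕ → ℝ≥0∞} (hb : 0 < b) (hbE : b ≤ bE) (hbb : b ≤ b') (hδ : 0 ≤ δ)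
    (ht₂ : t < t₂) (hG : MeasurableSet G) :
    ∫⁻ x, ind (srcA ε x ∈ gP G) * (yH6 ε b' a t ((srcA ε x).1 + δ) (mA ε S x) *
      ind (TE L hΦ hε η t (wS (GC.pts c)) (srcN n (srcA ε x)))) ∂(lawA ε bE b t t₂ N S) ≤
      (∑' k, a k) * (CmA bE b δ (N + 1) * srcS (bE / 2) t (gTE L hΦ hε η t c n G)) := by
  have hbE0 : 0 < bE := hb.trans_le hbE
  set K : ℝ × Ph → Ph × Ph → ℝ≥0∞ := fun y q =>
    ind (y ∈ gTE L hΦ hε η t c n G ∧ hitT ε q < y.1 + δ) with hK
  have hKm : Measurable fun q : (ℝ × Ph) × (Ph × Ph) => K q.1 q.2 :=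
    measurable_ind ((measurable_fst (measurableSet_gTE hG)).inter
      (measurableSet_lt (measurable_hitT.comp measurable_snd)
        (measurable_fst.fst.add_const δ)))
  have hop : Measurable fun x : XA N =>
      opP ε b t₂ (K (srcA ε x)) (endA ε S x).1 (endA ε S x).2 :=
    (measurable_opP_param hKm).comp (measurable_srcA.prodMk (measurable_endA S))
  have h1 : ∫⁻ x, ind (srcA ε x ∈ gP G) * (yH6 ε b' a t ((srcA ε x).1 + δ) (mA ε S x) *
      ind (TE L hΦ hε η t (wS (GC.pts c)) (srcN n (srcA ε x)))) ∂(lawA ε bE b t t₂ N S) ≤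
      ∫⁻ x, (∑' k, a k) * opP ε b t₂ (K (srcA ε x)) (endA ε S x).1 (endA ε S x).2
        ∂(lawA ε bE b t t₂ N S) := by
    refine lintegral_mono fun x => ?_
    by_cases hg : srcA ε x ∈ gTE L hΦ hε η t c n G
    · have h2 : srcA ε x ∈ gP G := ⟨hg.1, hg.2.1⟩
      simp only [ind_of h2, ind_of hg.2.2, one_mul, mul_one]
      refine (yH6_le_opP (ε := ε) (a := a) hbb ht₂).trans (le_of_eq ?_)
      rw [hK]
      simp only [ind_and, ind_of hg, one_mul]
    · refine le_trans (le_of_eq ?_) zero_le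
      by_cases h2 : srcA ε x ∈ gP G
      · have h3 : ¬TE L hΦ hε η t (wS (GC.pts c)) (srcN n (srcA ε x)) := fun h =>
          hg ⟨h2.1, h2.2, h⟩
        rw [ind_of_not h3, mul_zero, mul_zero]
      · rw [ind_of_not h2, zero_mul]
  refine h1.trans ?_
  rw [lintegral_const_mul _ hop, lawA_opP S hKm]
  refine mul_le_mul_right ?_ _
  have hFm : Measurable fun x : XA (N + 1) => K (srcA ε x) (lpA S x) :=
    hKm.comp (measurable_srcA.prodMk (measurable_lpA S))
  set g : ℝ × Ph → ℝ≥0∞ := (gTE L hΦ hε η t c n G).indicator fun _ => 1 with hg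
  have hgm : Measurable g := measurable_const.indicator (measurableSet_gTE hG)
  refine (lawA_short (S := S) (t₂ := t₂) (t := t) (g := g) hε hb hδ hFm ?_).trans ?_
  · intro x _ hne
    have h3 : srcA ε x ∈ gTE L hΦ hε η t c n G ∧ hitT ε (lpA S x) < (srcA ε x).1 + δ := by
      by_contra hcon
      exact hne (ind_of_not hcon)
    refine ⟨?_, ?_⟩
    · have e1 : (endA ε S x).1 = hitT ε (lpA S x) :=
        time_lastPair N S (exT ε (x.1, x.2.1)) x.2.1 x.2.2
      rw [e1]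
      exact h3.2
    · rw [hg, indicator_of_mem h3.1]
      exact ind_le_one _
  · unfold CmA
    rw [mul_assoc]
    refine mul_le_mul' le_rfl (int_le_srcJ hgm fun e σ _ => ?_)
    calc gw bE e.2 * g (σ, e) * (ENNReal.ofReal (1 + ‖e.2‖) * cM b δ (N + 1))
        = (gw bE e.2 * ENNReal.ofReal (1 + ‖e.2‖)) * (g (σ, e) * cM b δ (N + 1)) := by ring
      _ ≤ (ENNReal.ofReal (1 + 1 / √bE) * gw (bE / 2) e.2) * (g (σ, e) * cM b δ (N + 1)) :=
          mul_le_mul' (gw_one_add hbE0 e.2) le_rfl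
      _ = _ := by ring

end Vale.Agent.P119.PB
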