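import Vale.Agent.P119.PB.BLS
import Vale.Agent.P119.PB.CardTE
import Vale.Agent.P119.PB.TEG

/-!
# P119, block PROB: the expectation of the bounds for the second events (`helper778`)

* `bk1`, `bk2`: the two brackets in the bounds for a fixed world;
* `lintegral_bk_le`: their expectations, in terms of the norm of the first order quantity, of the
  exposed energy and of the number of the felt trees.

The set `G` of the sources `e` satisfies: for `e ∈ G` the probability that `e` touches and is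
exceptional is at most `δ₁` times the probability that `e` touches.
-/

open MeasureTheory Set Filter Topology Metric ProbabilityTheory
open scoped ENNReal NNReal

noncomputable section

namespace Vale.Agent.P119.PB

open KU M M.CTree FL FB RB EN AU

variable {Φ : E3 → ℝ} {ε : ℝ} {L : ℕ} {hΦ : IsPotential Φ} {hε : 0 < ε}
  {η η' θ t t₁ δ w β : ℝ} {c : GC.Conf Ph} {n : ℕ} {G : Set (ℝ × Ph)} {f₀ : Ph → ℝ}

/-! ### Pointwise -/

open Classical in
/-- Threshold transfer for a touch. -/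
theorem touch_transfer {V : Finset Src} {e : Src} {u : ℝ} (hV : ∀ a ∈ V, 0 ≤ a.1) (he : 0 ≤ e.1)
    (hη : 0 < η) (hηη : η ≤ η') (ht : 0 ≤ t)
    (h : (RB.Y Φ ε L hΦ hε).Touch V (insert e V) (min (hz L hΦ hε η t (insert e V)) u))
    (hR : ¬ENNReal.ofReal ((η' - η) * mu ε) < relW L hΦ hε (insert e V) V t) :
    (RB.Y Φ ε L hΦ hε).Touch V (insert e V) (min (hz L hΦ hε η' t V) u) := by
  have hVe : ∀ a ∈ insert e V, 0 ≤ a.1 := by
    intro a ha
    rcases Finset.mem_insert.1 ha with rfl | ha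
    · exact he
    · exact hV a ha
  obtain ⟨σ, h1, h2, h3⟩ := FB.Sys.Touch.first h
  refine h2.mono (le_min ?_ (h1.trans (min_le_right _ _)))
  exact hz_transfer hVe hV hη ht (fun s hs h4 => h3 s hs h4.symm) (not_lt.1 hR) hηη
    (h1.trans (min_le_left _ _))

open Classical in
/-- `e` touches: first order touch at the larger level, or exceptional. -/
theorem TE_cases {V : Finset Src} {e : Src} (hV : ∀ a ∈ V, 0 ≤ a.1) (he : 0 ≤ e.1)
    (hη : 0 < η) (hηη : η ≤ η') (ht : 0 ≤ t) (hw : t ≤ w) (h : TE L hΦ hε η t V e) :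
    TT L hΦ hε η' t w V e ∨ (TE L hΦ hε η t V e ∧
      ENNReal.ofReal ((η' - η) * mu ε) < relW L hΦ hε (insert e V) V t) := by
  by_cases hR : ENNReal.ofReal ((η' - η) * mu ε) < relW L hΦ hε (insert e V) V t
  · exact Or.inr ⟨h, hR⟩
  left
  have h1 : (RB.Y Φ ε L hΦ hε).Touch V (insert e V) (min (hz L hΦ hε η t (insert e V)) t) := by
    rw [min_eq_left (hz_le hη ht)]
    exact h
  refine (touch_transfer hV he hη hηη ht h1 hR).mono ?_
  exact min_le_min_left _ (by linarith)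

theorem half_absorb {x a : ℝ≥0∞} (hx : x ≠ ∞) (h : x ≤ a + ENNReal.ofReal (1 / 2) * x) :
    x ≤ 2 * a := by
  by_cases ha : a = ∞
  · rw [ha, ENNReal.mul_top (by norm_num)]
    exact le_top
  lift x to ℝ≥0 using hx
  lift a to ℝ≥0 using ha
  have h2 : ENNReal.ofReal (1 / 2) = ((1 / 2 : ℝ≥0) : ℝ≥0∞) := by
    rw [ENNReal.ofReal_eq_coe_nnreal (by norm_num)]
    congr 1
  rw [h2, ← ENNReal.coe_mul, ← ENNReal.coe_add, ENNReal.coe_le_coe, ← NNReal.coe_le_coe] at h
  push_cast at h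
  have h3 : (x : ℝ) ≤ 2 * a := by linarith
  have h4 : x ≤ 2 * a := by
    rw [← NNReal.coe_le_coe]
    push_cast
    exact h3
  exact_mod_cast h4

/-! ### Tonelli -/

theorem lintegral_srcJ {A : Type} [MeasurableSpace A] (P : Measure A) [SFinite P]
    {F : A → ℝ × Ph → ℝ≥0∞} (hF : Measurable fun p : A × (ℝ × Ph) => F p.1 p.2) :
    ∫⁻ c, srcJ β t (F c) ∂P = srcJ β t fun y => ∫⁻ c, F c y ∂P := by
  unfold srcJ
  have h0 : Measurable fun q : (A × ℝ) × Ph => gw β q.2.2 * F q.1.1 (q.1.2, q.2) :=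
    ((measurable_gw β).comp measurable_snd.snd).mul (hF.comp (measurable_fst.fst.prodMk
      (measurable_fst.snd.prodMk measurable_snd)))
  have h1 : Measurable (Function.uncurry fun (c : A) (σ : ℝ) =>
      ∫⁻ z : Ph, gw β z.2 * F c (σ, z)) := h0.lintegral_prod_right'
  have e1 := lintegral_lintegral_swap (μ := P) (ν := volume.restrict (Icc (0 : ℝ) t))
    (f := fun (c : A) (σ : ℝ) => ∫⁻ z : Ph, gw β z.2 * F c (σ, z)) h1.aemeasurable
  refine e1.trans (lintegral_congr fun σ => ?_)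
  have m : Measurable fun q : A × Ph => (q.1, ((σ, q.2) : ℝ × Ph)) :=
    measurable_fst.prodMk (measurable_const.prodMk measurable_snd)
  have m' : Measurable fun q : A × Ph => F q.1 (σ, q.2) := hF.comp m
  have h2 : Measurable (Function.uncurry fun (c : A) (z : Ph) => gw β z.2 * F c (σ, z)) :=
    ((measurable_gw β).comp measurable_snd.snd).mul m'
  have e2 := lintegral_lintegral_swap (μ := P) (ν := (volume : Measure Ph))
    (f := fun (c : A) (z : Ph) => gw β z.2 * F c (σ, z)) h2.aemeasurable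
  refine e2.trans (lintegral_congr fun z => ?_)
  exact lintegral_const_mul' _ _ (by unfold gw; exact ENNReal.ofReal_ne_top)

theorem srcJ_add {g g' : ℝ × Ph → ℝ≥0∞} (hg : Measurable g) :
    srcJ β t (fun y => g y + g' y) = srcJ β t g + srcJ β t g' := by
  unfold srcJ
  have h0 : Measurable fun q : ℝ × Ph => gw β q.2.2 * g q :=
    ((measurable_gw β).comp measurable_snd.snd).mul hg
  have h1 : ∀ σ, ∫⁻ z : Ph, gw β z.2 * (g (σ, z) + g' (σ, z)) =
      (∫⁻ z : Ph, gw β z.2 * g (σ, z)) + ∫⁻ z : Ph, gw β z.2 * g' (σ, z) := fun σ => by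
    simp only [mul_add]
    exact lintegral_add_left (h0.comp (measurable_const.prodMk measurable_id)) _
  simp only [h1]
  exact lintegral_add_left h0.lintegral_prod_right' _

theorem srcJ_const_mul {g : ℝ × Ph → ℝ≥0∞} {C : ℝ≥0∞} (hC : C ≠ ∞) :
    srcJ β t (fun y => C * g y) = C * srcJ β t g := by
  unfold srcJ
  rw [← lintegral_const_mul' _ _ hC]
  refine lintegral_congr fun σ => ?_
  rw [← lintegral_const_mul' _ _ hC]
  refine lintegral_congr fun z => ?_
  ring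

/-- The sources with depth `n ≤ L` in the norm. -/
theorem srcJ_le_Nm {b T l₁ l₂ : ℝ} {a : ℕ → ℝ} {θ : Src → ℝ≥0∞} (hb : 0 < b) (hT : 0 < T)
    (hβ : b ≤ β) (hl₁ : 0 ≤ l₁) (hl₂ : 0 ≤ l₂) (ha : 0 < a n) :
    srcJ β t (fun y => θ (srcN n y)) ≤
      ENNReal.ofReal t * ((ENNReal.ofReal (a n))⁻¹ * Nm b T l₁ l₂ a t θ) := by
  have h1 : ∀ σ ∈ Icc (0 : ℝ) t, ∫⁻ z : Ph, gw β z.2 * θ (srcN n (σ, z)) ≤
      (ENNReal.ofReal (a n))⁻¹ * Nm b T l₁ l₂ a t θ := by
    intro σ hσ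
    have h2 : ∫⁻ z : Ph, gw β z.2 * θ (srcN n (σ, z)) ≤ Y b T θ σ n :=
      lintegral_mono fun z => mul_le_mul' (gw_anti ((bt_le hb hT hσ.1).trans hβ) z.2) le_rfl
    have h3 : ENNReal.ofReal (a n) * Y b T θ σ n ≤ Nm b T l₁ l₂ a t θ := by
      refine (mul_le_mul' (ENNReal.ofReal_le_ofReal ?_) le_rfl).trans (le_Nm hσ n θ)
      unfold wgt
      have h4 : 1 ≤ Real.exp ((l₁ * n + l₂) * σ) :=
        Real.one_le_exp (mul_nonneg (by positivity) hσ.1)
      nlinarith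
    have h5 : ENNReal.ofReal (a n) ≠ 0 := by simpa using ha
    calc ∫⁻ z : Ph, gw β z.2 * θ (srcN n (σ, z)) ≤ Y b T θ σ n := h2
      _ = (ENNReal.ofReal (a n))⁻¹ * (ENNReal.ofReal (a n) * Y b T θ σ n) := by
          rw [← mul_assoc, ENNReal.inv_mul_cancel h5 ENNReal.ofReal_ne_top, one_mul]
      _ ≤ _ := mul_le_mul' le_rfl h3
  unfold srcJ
  refine (setLIntegral_mono' measurableSet_Icc h1).trans (le_of_eq ?_)
  rw [setLIntegral_const, Real.volume_Icc, sub_zero, mul_comm]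


/-! ### Measurability in the world -/

theorem measurableSet_gTE2 (hG : MeasurableSet G) :
    MeasurableSet {p : GC.Conf Ph × (ℝ × Ph) | p.2 ∈ gTE L hΦ hε η t p.1 n G} := by
  have h1 : MM.RS fun p : GC.Conf Ph × (ℝ × Ph) => ((wS (GC.pts p.1) : Finset Src) : Set Src) :=
    RM.rs_wS measurable_fst
  exact (measurable_snd hG).inter ((measurableSet_lt measurable_const measurable_snd.fst).inter
    (measurableSet_TE h1 measurable_const measurable_const ((measurable_srcN n).comp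
      measurable_snd)))

theorem measurableSet_gTd2 (hG : MeasurableSet G) :
    MeasurableSet {p : GC.Conf Ph × (ℝ × Ph) | p.2 ∈ gTd L hΦ hε η t δ p.1 n G} := by
  classical
  have h0 : MM.RS fun p : GC.Conf Ph × (ℝ × Ph) => ((wS (GC.pts p.1) : Finset Src) : Set Src) :=
    RM.rs_wS measurable_fst
  have h1 := RM.rs_insert h0 ((measurable_srcN n).comp measurable_snd)
  exact (measurable_snd hG).inter ((measurableSet_lt measurable_const measurable_snd.fst).inter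
    (RM.measurableSet_touch h0 h1
      ((RM.measurable_hz h1 measurable_const measurable_const).min
        (measurable_snd.fst.add_const δ))))

theorem measurableSet_gRL2 (hG : MeasurableSet G) :
    MeasurableSet {p : GC.Conf Ph × (ℝ × Ph) | p.2 ∈ gRL L hΦ hε η θ t p.1 n G} := by
  classical
  have h0 : MM.RS fun p : GC.Conf Ph × (ℝ × Ph) => ((wS (GC.pts p.1) : Finset Src) : Set Src) :=
    RM.rs_wS measurable_fst
  have h1 := RM.rs_insert h0 ((measurable_srcN n).comp measurable_snd)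
  exact (measurableSet_gTE2 hG).inter (measurableSet_lt measurable_const
    (RM.measurable_relW h1 h0 measurable_const))

theorem measurable_srcS {A : Type} [MeasurableSpace A] {S : A → Set (ℝ × Ph)}
    (hS : MeasurableSet {p : A × (ℝ × Ph) | p.2 ∈ S p.1}) :
    Measurable fun c => srcS β t (S c) := by
  unfold srcS srcJ
  have h0 : Measurable fun q : (A × ℝ) × Ph =>
      gw β q.2.2 * (S q.1.1).indicator (fun _ => (1 : ℝ≥0∞)) (q.1.2, q.2) := by
    have h1 : Measurable fun p : A × (ℝ × Ph) => (S p.1).indicator (fun _ => (1 : ℝ≥0∞)) p.2 := by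
      have : (fun p : A × (ℝ × Ph) => (S p.1).indicator (fun _ => (1 : ℝ≥0∞)) p.2) =
          {p : A × (ℝ × Ph) | p.2 ∈ S p.1}.indicator fun _ => 1 := by
        funext p
        by_cases hp : p.2 ∈ S p.1
        · rw [indicator_of_mem hp, indicator_of_mem (show p ∈ {p : A × (ℝ × Ph) | p.2 ∈ S p.1} from
            hp)]
        · rw [indicator_of_notMem hp, indicator_of_notMem (show p ∉ {p : A × (ℝ × Ph) |
            p.2 ∈ S p.1} from hp)]
      rw [this]
      exact measurable_const.indicator hS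
    have m : Measurable fun q : (A × ℝ) × Ph => (q.1.1, ((q.1.2, q.2) : ℝ × Ph)) :=
      measurable_fst.fst.prodMk (measurable_fst.snd.prodMk measurable_snd)
    have m' : Measurable fun q : (A × ℝ) × Ph =>
      (S q.1.1).indicator (fun _ => (1 : ℝ≥0∞)) (q.1.2, q.2) := h1.comp m
    exact ((measurable_gw β).comp measurable_snd.snd).mul m'
  exact h0.lintegral_prod_right'.lintegral_prod_right'

theorem lintegral_srcS {A : Type} [MeasurableSpace A] (P : Measure A) [SFinite P]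
    {S : A → Set (ℝ × Ph)} (hS : MeasurableSet {p : A × (ℝ × Ph) | p.2 ∈ S p.1}) :
    ∫⁻ c, srcS β t (S c) ∂P = srcJ β t fun y => ∫⁻ c, ind (y ∈ S c) ∂P := by
  have e : ∀ c, srcS β t (S c) = srcJ β t fun y => ind (y ∈ S c) := by
    intro c
    unfold srcS
    refine congrArg (srcJ β t) (funext fun y => ?_)
    by_cases hy : y ∈ S c
    · rw [indicator_of_mem hy, ind_of hy]
    · rw [indicator_of_notMem hy, ind_of_not hy]
  simp only [e]
  exact lintegral_srcJ P (measurable_ind hS)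

/-! ### Expectations -/

section expect

variable {κ : ℝ} {δ₁ : ℝ≥0∞}

variable (L hΦ hε) in
open Classical in
/-- For the sources in `G` the related trees cost at most the fraction `δ₁`. -/
def GOk (f₀ : Ph → ℝ) (η η' t : ℝ) (n : ℕ) (G : Set (ℝ × Ph)) (δ₁ : ℝ≥0∞) : Prop :=
  ∀ y ∈ G, 0 < y.1 → ∫⁻ c, ind (TE L hΦ hε η t (wS (GC.pts c)) (srcN n y) ∧
    ENNReal.ofReal ((η' - η) * mu ε) < relW L hΦ hε (insert (srcN n y) (wS (GC.pts c)))
      (wS (GC.pts c)) t) ∂(GC.PP f₀ ε) ≤ δ₁ * tE6 L hΦ hε f₀ η t (srcN n y)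

theorem tE6_G (h₀ : GoodDatum f₀ κ) (hn : n ≤ L) (hη : 0 < η) (hηη : η ≤ η') (ht : 0 ≤ t)
    (htw : t ≤ w) (hδ : δ₁ ≤ 2⁻¹) (hG : GOk L hΦ hε f₀ η η' t n G δ₁) {y : ℝ × Ph} (hy : y ∈ G)
    (hy0 : 0 < y.1) :
    tE6 L hΦ hε f₀ η t (srcN n y) ≤ 2 * thL L hΦ hε f₀ η' t w (srcN n y) := by
  have h := tE6_le_two_theta (L := L) (hΦ := hΦ) (hε := hε) (η := η) (θ := η' - η) (w := w)
    (e := srcN n y) h₀ hy0.le hη (sub_nonneg.2 hηη) ht htw hδ (hG y hy hy0)
  rw [add_sub_cancel] at h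
  have h1 : thL L hΦ hε f₀ η' t w (srcN n y) = theta L hΦ hε f₀ η' t w (srcN n y) := if_pos hn
  rw [h1]
  exact h

/-- **The sources which touch.** -/
theorem E_gTE (h₀ : GoodDatum f₀ κ) (hn : n ≤ L) (hη : 0 < η) (hηη : η ≤ η') (ht : 0 ≤ t)
    (htw : t ≤ w) (hδ : δ₁ ≤ 2⁻¹) (hGm : MeasurableSet G)
    (hG : GOk L hΦ hε f₀ η η' t n G δ₁) :
    ∫⁻ c, srcS β t (gTE L hΦ hε η t c n G) ∂(GC.PP f₀ ε) ≤
      2 * srcJ β t fun y => thL L hΦ hε f₀ η' t w (srcN n y) := by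
  have := GC.isProbability_PP (ε := ε) h₀
  rw [lintegral_srcS _ (measurableSet_gTE2 hGm), ← srcJ_const_mul (by norm_num)]
  refine srcJ_mono fun y => ?_
  by_cases hy : y ∈ G ∧ 0 < y.1
  · refine le_trans (lintegral_mono fun c => ind_mono fun h => h.2.2) ?_
    exact tE6_G h₀ hn hη hηη ht htw hδ hG hy.1 hy.2
  · have : ∀ c : GC.Conf Ph, ind (y ∈ gTE L hΦ hε η t c n G) = 0 := fun c =>
      ind_of_not fun h => hy ⟨h.1, h.2.1⟩
    simp only [this, lintegral_zero]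
    exact zero_le

/-- **The exceptional sources.** -/
theorem E_gRL (h₀ : GoodDatum f₀ κ) (hn : n ≤ L) (hη : 0 < η) (hηη : η ≤ η') (ht : 0 ≤ t)
    (htw : t ≤ w) (hδ : δ₁ ≤ 2⁻¹) (hGm : MeasurableSet G)
    (hG : GOk L hΦ hε f₀ η η' t n G δ₁) :
    ∫⁻ c, srcS β t (gRL L hΦ hε η (η' - η) t c n G) ∂(GC.PP f₀ ε) ≤
      (2 * δ₁) * srcJ β t fun y => thL L hΦ hε f₀ η' t w (srcN n y) := by
  have := GC.isProbability_PP (ε := ε) h₀
  have hδ' : 2 * δ₁ ≠ ∞ := ENNReal.mul_ne_top (by norm_num)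
    (hδ.trans_lt (by norm_num : (2 : ℝ≥0∞)⁻¹ < ∞)).ne
  rw [lintegral_srcS _ (measurableSet_gRL2 hGm), ← srcJ_const_mul hδ']
  refine srcJ_mono fun y => ?_
  by_cases hy : y ∈ G ∧ 0 < y.1
  · refine le_trans (lintegral_mono fun c => ind_mono fun h => ⟨h.1.2.2, h.2⟩)
      ((hG y hy.1 hy.2).trans ?_)
    rw [mul_comm 2 δ₁, mul_assoc]
    exact mul_le_mul_right (tE6_G h₀ hn hη hηη ht htw hδ hG hy.1 hy.2) _
  · have : ∀ c : GC.Conf Ph, ind (y ∈ gRL L hΦ hε η (η' - η) t c n G) = 0 := fun c =>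
      ind_of_not fun h => hy ⟨h.1.1, h.1.2.1⟩
    simp only [this, lintegral_zero]
    exact zero_le

open Classical in
/-- **The sources which touch within the time `δ`.** -/
theorem E_gTd (h₀ : GoodDatum f₀ κ) (hn : n ≤ L) (hη : 0 < η) (hηη : η ≤ η') (ht : 0 ≤ t)
    (htw : t ≤ w) (hδ : δ₁ ≤ 2⁻¹) (hGm : MeasurableSet G)
    (hG : GOk L hΦ hε f₀ η η' t n G δ₁) :
    ∫⁻ c, srcS β t (gTd L hΦ hε η t δ c n G) ∂(GC.PP f₀ ε) ≤
      (srcJ β t fun y => thL L hΦ hε f₀ η' t δ (srcN n y)) +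
      (2 * δ₁) * srcJ β t fun y => thL L hΦ hε f₀ η' t w (srcN n y) := by
  have := GC.isProbability_PP (ε := ε) h₀
  have hδ' : 2 * δ₁ ≠ ∞ := ENNReal.mul_ne_top (by norm_num)
    (hδ.trans_lt (by norm_num : (2 : ℝ≥0∞)⁻¹ < ∞)).ne
  have hm0 : Measurable fun y => thL L hΦ hε f₀ η' t δ (srcN n y) :=
    (RM.measurable_thL (f₀ := f₀) (L := L) (hΦ := hΦ) (hε := hε) η' t δ).comp (measurable_srcN n)
  rw [lintegral_srcS _ (measurableSet_gTd2 hGm), ← srcJ_const_mul hδ', ← srcJ_add hm0]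
  refine srcJ_mono fun y => ?_
  by_cases hy : y ∈ G ∧ 0 < y.1
  · have h1 : ∀ c : GC.Conf Ph, ind (y ∈ gTd L hΦ hε η t δ c n G) ≤
        ind (TT L hΦ hε η' t δ (wS (GC.pts c)) (srcN n y)) +
        ind (TE L hΦ hε η t (wS (GC.pts c)) (srcN n y) ∧ ENNReal.ofReal ((η' - η) * mu ε) <
          relW L hΦ hε (insert (srcN n y) (wS (GC.pts c))) (wS (GC.pts c)) t) := by
      intro c
      by_cases h : y ∈ gTd L hΦ hε η t δ c n G
      swap
      · rw [ind_of_not h]; exact zero_le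
      have hT : TE L hΦ hε η t (wS (GC.pts c)) (srcN n y) := h.2.2.mono (min_le_left _ _)
      by_cases hR : ENNReal.ofReal ((η' - η) * mu ε) <
          relW L hΦ hε (insert (srcN n y) (wS (GC.pts c))) (wS (GC.pts c)) t
      · rw [ind_of (show TE L hΦ hε η t (wS (GC.pts c)) (srcN n y) ∧ _ from ⟨hT, hR⟩)]
        exact (ind_le_one _).trans le_add_self
      · have h2 : TT L hΦ hε η' t δ (wS (GC.pts c)) (srcN n y) :=
          touch_transfer (EX.wS_birth _) hy.2.le hη hηη ht h.2.2 hR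
        rw [ind_of h2]
        exact (ind_le_one _).trans le_self_add
    refine (lintegral_mono h1).trans ?_
    have hm : Measurable fun c : GC.Conf Ph =>
        ind (TT L hΦ hε η' t δ (wS (GC.pts c)) (srcN n y)) :=
      measurable_ind (RM.measurableSet_TT RM.rs_conf measurable_const measurable_const
        measurable_const measurable_const)
    rw [lintegral_add_left hm]
    refine add_le_add (le_of_eq ?_) ((hG y hy.1 hy.2).trans ?_)
    · exact (if_pos hn : thL L hΦ hε f₀ η' t δ (srcN n y) = _).symm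
    · rw [mul_comm 2 δ₁, mul_assoc]
      exact mul_le_mul_right (tE6_G h₀ hn hη hηη ht htw hδ hG hy.1 hy.2) _
  · have : ∀ c : GC.Conf Ph, ind (y ∈ gTd L hΦ hε η t δ c n G) = 0 := fun c =>
      ind_of_not fun h => hy ⟨h.1, h.2.1⟩
    simp only [this, lintegral_zero]
    exact zero_le

/-! ### The brackets -/

variable (L hΦ hε) in
/-- The first bracket. -/
def bk1 (β t δ η η' : ℝ) (c : GC.Conf Ph) (n : ℕ) (G : Set (ℝ × Ph)) : ℝ≥0∞ :=
  srcS β t (gTd L hΦ hε η t δ c n G) + srcS β t (gRL L hΦ hε η (η' - η) t c n G) +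
    ENNReal.ofReal δ * srcS β t (gTE L hΦ hε η t c n G) +
    ENNReal.ofReal (ε ^ 2) *
      (yW ε t δ (expI Φ ε L hΦ hε (wS (GC.pts c)) (hz L hΦ hε η' t (wS (GC.pts c))))
        (expT Φ ε L hΦ hε (wS (GC.pts c)) (hz L hΦ hε η' t (wS (GC.pts c)))) +
      yW ε t δ (flJ L hΦ hε (wS (GC.pts c)) (hz L hΦ hε η t (wS (GC.pts c))))
        (fun T => lineTarget (hz L hΦ hε η t (wS (GC.pts c))) 0 (ln Φ ε T)))

variable (L hΦ hε) in
/-- The second bracket. -/
def bk2 (B β t η : ℝ) (c : GC.Conf Ph) (n : ℕ) (G : Set (ℝ × Ph)) : ℝ≥0∞ :=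
  ENNReal.ofReal (ε ^ 2) * cWE B t ε η c * srcS β t (gTE L hΦ hε η t c n G)

variable (L hΦ hε) in
/-- The number of the particles times the number of the touching lines. -/
def cT3 (f₀ : Ph → ℝ) (β η t : ℝ) : ℝ≥0∞ :=
  ∫⁻ c, ((((wS (GC.pts c)).card : ℝ≥0∞) + 1) * ENNReal.ofReal ε ^ 3) *
    (∑ n ∈ Finset.range (L + 1), ∫⁻ s in Icc 0 t, ∫⁻ z : Ph, gw β z.2 *
      ind (TE L hΦ hε η t (wS (GC.pts c)) (s, z, n))) ∂(GC.PP f₀ ε)

/-- **The expectation of the first bracket.** -/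
theorem E_bk1 (h₀ : GoodDatum f₀ κ) {B : ℝ} (hB : RW.StableWith Φ B) (hn : n ≤ L) (hη : 0 < η)
    (hηη : η ≤ η') (ht : 0 ≤ t) {Tm : ℝ} (htm : t ≤ Tm)
    (htw : t ≤ w) (hd : 0 < δ) (hd1 : δ ≤ 1) (hδ : δ₁ ≤ 2⁻¹) (hGm : MeasurableSet G)
    (hG : GOk L hΦ hε f₀ η η' t n G δ₁) :
    ∫⁻ c, bk1 L hΦ hε β t δ η η' c n G ∂(GC.PP f₀ ε) ≤
      (srcJ β t fun y => thL L hΦ hε f₀ η' t δ (srcN n y)) +
      (4 * δ₁ + 2 * ENNReal.ofReal δ) * (srcJ β t fun y => thL L hΦ hε f₀ η' t w (srcN n y)) +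
      ENNReal.ofReal (cY B Tm * (ε + δ)) * (DD L hΦ hε f₀ η' t + FF L hΦ hε f₀ η t) := by
  have hη' : 0 < η' := hη.trans_le hηη
  have hB0 := hB.1
  set A := srcJ β t fun y => thL L hΦ hε f₀ η' t w (srcN n y) with hA
  set A' := srcJ β t fun y => thL L hΦ hε f₀ η' t δ (srcN n y) with hA'
  have m1 : Measurable fun c : GC.Conf Ph => srcS β t (gTd L hΦ hε η t δ c n G) :=
    measurable_srcS (measurableSet_gTd2 hGm)
  have m2 : Measurable fun c : GC.Conf Ph => srcS β t (gRL L hΦ hε η (η' - η) t c n G) :=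
    measurable_srcS (measurableSet_gRL2 hGm)
  have m3 : Measurable fun c : GC.Conf Ph => srcS β t (gTE L hΦ hε η t c n G) :=
    measurable_srcS (measurableSet_gTE2 hGm)
  have m4 : Measurable fun c : GC.Conf Ph => eW L hΦ hε (wS (GC.pts c))
      (hz L hΦ hε η' t (wS (GC.pts c))) :=
    RM.measurable_eW_hz RM.rs_conf measurable_const measurable_const
  have h1 : ∀ᵐ c ∂(GC.PP f₀ ε), bk1 L hΦ hε β t δ η η' c n G ≤
      srcS β t (gTd L hΦ hε η t δ c n G) + (srcS β t (gRL L hΦ hε η (η' - η) t c n G) +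
      (ENNReal.ofReal δ * srcS β t (gTE L hΦ hε η t c n G) +
      ENNReal.ofReal (ε ^ 2) * ENNReal.ofReal (cY B Tm * (ε + δ)) *
        (eW L hΦ hε (wS (GC.pts c)) (hz L hΦ hε η' t (wS (GC.pts c))) +
          fW L hΦ hε (wS (GC.pts c)) (hz L hΦ hε η t (wS (GC.pts c)))))) := by
    filter_upwards [GC.ae_excl f₀ ε] with c hc
    unfold bk1
    rw [add_assoc, add_assoc]
    refine add_le_add le_rfl (add_le_add le_rfl (add_le_add le_rfl ?_))
    rw [mul_assoc]
    refine mul_le_mul' le_rfl ?_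
    rw [mul_add]
    exact add_le_add (yW_exp_le hΦ hB hB0 hε (wS_nonneg0 _) (wS_excl hc) (wS_filter _)
      (hz_nonneg hη' ht) ((hz_le hη' ht).trans htm) htm hd hd1)
      (yW_fl_le hΦ hB0 hε (hz_nonneg hη ht) ((hz_le hη ht).trans htm) htm hd hd1)
  refine (lintegral_mono_ae h1).trans ?_
  rw [lintegral_add_left m1, lintegral_add_left m2, lintegral_add_left (m3.const_mul _),
    lintegral_const_mul _ m3, lintegral_const_mul' _ _ (ENNReal.mul_ne_top
      ENNReal.ofReal_ne_top ENNReal.ofReal_ne_top), lintegral_add_left m4, lintegral_eW_eq,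
    lintegral_fW_eq, ← mul_add]
  have e1 : ENNReal.ofReal (ε ^ 2) * ENNReal.ofReal (cY B Tm * (ε + δ)) *
      (muE ε * (DD L hΦ hε f₀ η' t + FF L hΦ hε f₀ η t)) =
      ENNReal.ofReal (cY B Tm * (ε + δ)) * (DD L hΦ hε f₀ η' t + FF L hΦ hε f₀ η t) := by
    calc _ = (muE ε * ENNReal.ofReal (ε ^ 2)) * (ENNReal.ofReal (cY B Tm * (ε + δ)) *
          (DD L hΦ hε f₀ η' t + FF L hΦ hε f₀ η t)) := by ring
      _ = _ := by rw [muE_mul hε, one_mul]
  rw [e1]
  calc _ ≤ (A' + (2 * δ₁) * A) + ((2 * δ₁) * A + (ENNReal.ofReal δ * (2 * A) +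
        ENNReal.ofReal (cY B Tm * (ε + δ)) * (DD L hΦ hε f₀ η' t + FF L hΦ hε f₀ η t))) := by
        gcongr
        · exact E_gTd h₀ hn hη hηη ht htw hδ hGm hG
        · exact E_gRL h₀ hn hη hηη ht htw hδ hGm hG
        · exact E_gTE h₀ hn hη hηη ht htw hδ hGm hG
    _ = _ := by ring

/-- **The expectation of the second bracket.** -/
theorem E_bk2 (h₀ : GoodDatum f₀ κ) {B : ℝ} (hn : n ≤ L) (hη : 0 < η)
    (hηη : η ≤ η') (ht : 0 ≤ t) (htw : t ≤ w) (hδ : δ₁ ≤ 2⁻¹) (hGm : MeasurableSet G)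
    (hG : GOk L hΦ hε f₀ η η' t n G δ₁) :
    ∫⁻ c, bk2 L hΦ hε B β t η c n G ∂(GC.PP f₀ ε) ≤ 2 * cT3 L hΦ hε f₀ β η t +
      ENNReal.ofReal (2 * cDD B 1 * t + 2 * (ε + t)) * ENNReal.ofReal η *
        (2 * srcJ β t fun y => thL L hΦ hε f₀ η' t w (srcN n y)) := by
  have m3 : Measurable fun c : GC.Conf Ph => srcS β t (gTE L hΦ hε η t c n G) :=
    measurable_srcS (measurableSet_gTE2 hGm)
  set C₀ := ENNReal.ofReal (2 * cDD B 1 * t + 2 * (ε + t)) with hC₀
  have e1 : ∀ c : GC.Conf Ph, bk2 L hΦ hε B β t η c n G =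
      (C₀ * ENNReal.ofReal η) * srcS β t (gTE L hΦ hε η t c n G) +
      2 * (((((wS (GC.pts c)).card : ℝ≥0∞) + 1) * ENNReal.ofReal ε ^ 3) *
        srcS β t (gTE L hΦ hε η t c n G)) := by
    intro c
    unfold bk2 cWE
    have h2 : ENNReal.ofReal (η * mu ε) = ENNReal.ofReal η * muE ε := by
      rw [ENNReal.ofReal_mul hη.le]
      rfl
    have h3 : ENNReal.ofReal (ε ^ 2) = ENNReal.ofReal ε ^ 2 := ENNReal.ofReal_pow hε.le 2
    have h4 : ENNReal.ofReal ε ^ 2 * muE ε = 1 := by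
      rw [← h3, mul_comm]; exact muE_mul hε
    rw [h2, h3, ← hC₀]
    calc ENNReal.ofReal ε ^ 2 * (2 * (((wS (GC.pts c)).card + 1) * ENNReal.ofReal ε) +
          C₀ * (ENNReal.ofReal η * muE ε)) * srcS β t (gTE L hΦ hε η t c n G)
        = (C₀ * ENNReal.ofReal η) * (ENNReal.ofReal ε ^ 2 * muE ε) *
            srcS β t (gTE L hΦ hε η t c n G) +
          2 * (((((wS (GC.pts c)).card : ℝ≥0∞) + 1) * ENNReal.ofReal ε ^ 3) *
            srcS β t (gTE L hΦ hε η t c n G)) := by ring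
      _ = _ := by rw [h4, mul_one]
  simp only [e1]
  rw [lintegral_add_left (m3.const_mul _), lintegral_const_mul _ m3,
    lintegral_const_mul' _ _ (by norm_num), add_comm]
  refine add_le_add ?_ (mul_le_mul_right (E_gTE h₀ hn hη hηη ht htw hδ hGm hG) _)
  unfold cT3
  gcongr with c
  have h5 : srcS β t (gTE L hΦ hε η t c n G) ≤ ∫⁻ s in Icc 0 t, ∫⁻ z : Ph, gw β z.2 *
      ind (TE L hΦ hε η t (wS (GC.pts c)) (s, z, n)) := by
    unfold srcS srcJ
    refine lintegral_mono fun s => lintegral_mono fun z => mul_le_mul' le_rfl ?_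
    by_cases hy : (s, z) ∈ gTE L hΦ hε η t c n G
    · rw [indicator_of_mem hy]
      exact le_of_eq (ind_of (show TE L hΦ hε η t (wS (GC.pts c)) (s, z, n) from hy.2.2)).symm
    · rw [indicator_of_notMem hy]
      exact zero_le
  exact h5.trans (Finset.single_le_sum (f := fun n => ∫⁻ s in Icc 0 t, ∫⁻ z : Ph, gw β z.2 *
      ind (TE L hΦ hε η t (wS (GC.pts c)) (s, z, n))) (fun _ _ => zero_le)
    (Finset.mem_range.2 (Nat.lt_succ_of_le hn)))

end expect

end Vale.Agent.P119.PB
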