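import Vale.Agent.P119.PB.MainS

/-!
# P119, second events: the expectation under the law A (`helper755`)

* `lawA_F6_eq`: Tonelli for the sources `F6`;
* `lawA_F6_le`: the bound for `F6` from a bound over a fixed world;
* `lawA_tE6_le`: the remainder.
-/

open MeasureTheory Set Filter Topology Metric ProbabilityTheory
open scoped ENNReal

namespace Vale.Agent.P119.PB

open M CTree KU FB RB AU FL TL

variable {Φ : E3 → ℝ} {ε : ℝ} {L : ℕ} {hΦ : IsPotential Φ} {hε : 0 < ε} {f₀ : Ph → ℝ}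
  {κ bE b b' t t' η w δ : ℝ} {n : ℕ} {R : ℕ → Step}

/-- The sources over a fixed world, for the data of the law A. -/
theorem measurable_F6w_A {G : Set Src} (hG : MeasurableSet G) {a : ℕ → ℝ≥0∞} (d : ℕ) :
    Measurable fun q : XA n × GC.Conf Ph => ind (((srcA ε q.1).1, (srcA ε q.1).2, d) ∈ G) *
      F6w L hΦ hε b' a η t w ((srcA ε q.1).1 + δ) (wS (GC.pts q.2))
        ((srcA ε q.1).1, (srcA ε q.1).2, d) (endA ε R q.1).1 (endA ε R q.1).2 := by
  have he : Measurable fun q : XA n × GC.Conf Ph =>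
      (((srcA ε q.1).1, (srcA ε q.1).2, d) : Src) :=
    ((measurable_srcA.comp measurable_fst).fst).prodMk
      (((measurable_srcA.comp measurable_fst).snd).prodMk measurable_const)
  have hend : Measurable fun q : XA n × GC.Conf Ph => endA ε R q.1 :=
    (measurable_endA R).comp measurable_fst
  refine (measurable_indG hG he).mul ?_
  exact measurable_F6w (MM.RS.comp RM.rs_conf measurable_snd)
    (((measurable_srcA.comp measurable_fst).fst).add_const δ) he hend.fst hend.snd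

/-- **Tonelli.** -/
theorem lawA_F6_eq (h₀ : GoodDatum f₀ κ) {G : Set Src} (hG : MeasurableSet G) {a : ℕ → ℝ≥0∞}
    (d : ℕ) :
    ∫⁻ x, ind (((srcA ε x).1, (srcA ε x).2, d) ∈ G) *
      F6 L hΦ hε f₀ b' a η t w ((srcA ε x).1 + δ) ((srcA ε x).1, (srcA ε x).2, d) (endA ε R x).1
        (endA ε R x).2 ∂(lawA ε bE b t t' n R) =
    ∫⁻ c, ∫⁻ x, ind (((srcA ε x).1, (srcA ε x).2, d) ∈ G) *
      F6w L hΦ hε b' a η t w ((srcA ε x).1 + δ) (wS (GC.pts c))
        ((srcA ε x).1, (srcA ε x).2, d) (endA ε R x).1 (endA ε R x).2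
        ∂(lawA ε bE b t t' n R) ∂(GC.PP f₀ ε) := by
  have := GC.isProbability_PP (ε := ε) h₀
  have hm := measurable_F6w_A (L := L) (hΦ := hΦ) (hε := hε) (b' := b') (η := η) (t := t)
    (w := w) (δ := δ) (n := n) (R := R) hG (a := a) d
  rw [← lintegral_lintegral_swap hm.aemeasurable]
  refine lintegral_congr fun x => ?_
  rw [F6_eq_F6w h₀]
  have hx : Measurable fun c : GC.Conf Ph =>
      F6w L hΦ hε b' a η t w ((srcA ε x).1 + δ) (wS (GC.pts c))
        ((srcA ε x).1, (srcA ε x).2, d) (endA ε R x).1 (endA ε R x).2 :=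
    measurable_F6w RM.rs_conf measurable_const measurable_const measurable_const measurable_const
  rw [lintegral_const_mul _ hx]

/-- **The bound for `F6`, from a bound over a fixed world.** -/
theorem lawA_F6_le (h₀ : GoodDatum f₀ κ) {G : Set Src} (hG : MeasurableSet G) {a : ℕ → ℝ≥0∞}
    (d : ℕ) {x₀ : ℝ≥0∞} (hx₀ : x₀ ≠ ∞) {B : GC.Conf Ph → ℝ≥0∞} {X : ℝ≥0∞}
    (hB : ∀ᵐ c ∂(GC.PP f₀ ε), ∫⁻ x, ind (((srcA ε x).1, (srcA ε x).2, d) ∈ G) *
      F6w L hΦ hε b' a η t w ((srcA ε x).1 + δ) (wS (GC.pts c))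
        ((srcA ε x).1, (srcA ε x).2, d) (endA ε R x).1 (endA ε R x).2
        ∂(lawA ε bE b t t' n R) ≤ fS x₀ n * B c)
    (hX : ∫⁻ c, B c ∂(GC.PP f₀ ε) ≤ X) :
    ∫⁻ x, ind (((srcA ε x).1, (srcA ε x).2, d) ∈ G) *
      F6 L hΦ hε f₀ b' a η t w ((srcA ε x).1 + δ) ((srcA ε x).1, (srcA ε x).2, d) (endA ε R x).1
        (endA ε R x).2 ∂(lawA ε bE b t t' n R) ≤ fS x₀ n * X := by
  rw [lawA_F6_eq h₀ hG d]
  refine (lintegral_mono_ae hB).trans ?_
  rw [lintegral_const_mul' _ _ (fS_ne_top hx₀ n)]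
  exact mul_le_mul' le_rfl hX

/-- **The remainder.** -/
theorem lawA_tE6_le (h₀ : GoodDatum f₀ κ) (hb : 0 < b) (hbE : 0 < bE) (ht0 : 0 ≤ t')
    (ht₂ : t ≤ t') {G : Set Src} (hG : MeasurableSet G) (d : ℕ) :
    ∫⁻ x, ind (((srcA ε x).1, (srcA ε x).2, d) ∈ G) *
      tE6 L hΦ hε f₀ η t ((srcA ε x).1, (srcA ε x).2, d) ∂(lawA ε bE b t t' n R) ≤
      fS (ENNReal.ofReal (Kc b * t')) n *
      (K1.sig univ * I0 (b / 2) * (ENNReal.ofReal (1 + 1 / √bE) * srcJ (bE / 2) t fun y =>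
        ind ((y.1, y.2, d) ∈ G) * tE6 L hΦ hε f₀ η t (y.1, y.2, d))) := by
  have he : Measurable fun y : ℝ × Ph => ((y.1, y.2, d) : Src) :=
    measurable_fst.prodMk (measurable_snd.prodMk measurable_const)
  exact lawA_massJ hε hb hbE ht0 ht₂ (g := fun y => ind ((y.1, y.2, d) ∈ G) *
    tE6 L hΦ hε f₀ η t (y.1, y.2, d)) ((measurable_indG hG he).mul
      ((measurable_tE6' h₀).comp he))

end Vale.Agent.P119.PB
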