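import Vale.Agent.P119.PB.BLA2
import Vale.Agent.P119.PB.BLE
import Vale.Agent.P119.PB.MainE

/-!
# P119, block PROB: the sources of the second events under the law A (`helper860`)

* `CmA_le`, `CmA_le1`, `CmAd_le`, `ClA_le`, `CyA_le`: the constants, summable in the number of hits;
* `F6w_A`: the bound over a fixed world;
* `F6_A`: the bound in the mean.
-/

open MeasureTheory Set Filter Topology Metric ProbabilityTheory
open scoped ENNReal NNReal

noncomputable section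

namespace Vale.Agent.P119.PB

open KU M M.CTree FL FB RB EN AU

variable {Φ : E3 → ℝ} {ε : ℝ} {L : ℕ} {hΦ : IsPotential Φ} {hε : 0 < ε} {f₀ : Ph → ℝ}
  {κ bE b b' η η' t t₂ t₁ t' δ w c₁ : ℝ} {c : GC.Conf Ph} {n d : ℕ} {G : Set (ℝ × Ph)}
  {N : ℕ} {S R : ℕ → Step}

/-! ### The constants -/

/-- The base of the geometric factors. -/
def xA (b t' : ℝ) : ℝ≥0∞ :=
  ENNReal.ofReal (Kc b * t') + 4 * ENNReal.ofReal (Kc (b / 2 / 4) * t') +
    ENNReal.ofReal (Kc (b / 2 / 2) * t')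

theorem xA_ne_top (b t' : ℝ) : xA b t' ≠ ∞ := by
  unfold xA
  exact ENNReal.add_ne_top.2 ⟨ENNReal.add_ne_top.2 ⟨ENNReal.ofReal_ne_top,
    ENNReal.mul_ne_top (by norm_num) ENNReal.ofReal_ne_top⟩, ENNReal.ofReal_ne_top⟩

theorem fS_one (x : ℝ≥0∞) : fS x 1 = x := by
  unfold fS rf
  simp

theorem fS_succ_le (x : ℝ≥0∞) (N : ℕ) : fS x (N + 1) ≤ x * fS x N := by
  refine (fS_add_le x N 1).trans (le_of_eq ?_)
  rw [fS_one]
  ring

/-- The constant of the mass. -/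
def kM (bE b : ℝ) : ℝ≥0∞ :=
  K1.sig univ * (ENNReal.ofReal (1 + 1 / √bE) * I0 (b / 2))

/-- The constant of the late contacts. -/
def kL (bE b c₁ : ℝ) : ℝ≥0∞ :=
  K1.sig univ * (ENNReal.ofReal (√2 * (1 + 1 / √b)) * ENNReal.ofReal (1 + 1 / √bE) *
    (64 * (cF (b / 2) c₁ * ENNReal.ofReal (D1 (b / 2)))))

/-- The constant of the early contacts. -/
def kY (b c₁ : ℝ) : ℝ≥0∞ :=
  (K1.sig univ * I0 (b / 2) * ENNReal.ofReal (1 + 1 / √b)) *
    ((8 * bv * cF (b / 2) c₁) * ENNReal.ofReal (D2 (b / 2)))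

theorem kM_ne_top (hb : 0 < b) : kM bE b ≠ ∞ := by
  unfold kM
  exact ENNReal.mul_ne_top K1.sig_univ_lt.ne (ENNReal.mul_ne_top ENNReal.ofReal_ne_top
    (I0_ne_top (by positivity)))

theorem kL_ne_top : kL bE b c₁ ≠ ∞ := by
  unfold kL
  exact ENNReal.mul_ne_top K1.sig_univ_lt.ne (ENNReal.mul_ne_top (ENNReal.mul_ne_top
    ENNReal.ofReal_ne_top ENNReal.ofReal_ne_top) (ENNReal.mul_ne_top (by norm_num)
    (ENNReal.mul_ne_top cF_ne_top ENNReal.ofReal_ne_top)))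

theorem kY_ne_top (hb : 0 < b) : kY b c₁ ≠ ∞ := by
  unfold kY
  exact ENNReal.mul_ne_top (ENNReal.mul_ne_top (ENNReal.mul_ne_top K1.sig_univ_lt.ne
    (I0_ne_top (by positivity))) ENNReal.ofReal_ne_top) (ENNReal.mul_ne_top (ENNReal.mul_ne_top
    (ENNReal.mul_ne_top (by norm_num) bv_ne_top) cF_ne_top) ENNReal.ofReal_ne_top)

theorem cM_eq {r : ℝ} (hr : 0 ≤ r) : cM b r N = I0 (b / 2) * fS (ENNReal.ofReal (Kc b * r)) N := by
  unfold cM
  rw [fS_of_real (mul_nonneg (Kc_nonneg _) hr)]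

theorem CmA_eq {r : ℝ} (hr : 0 ≤ r) :
    CmA bE b r N = kM bE b * fS (ENNReal.ofReal (Kc b * r)) N := by
  unfold CmA kM
  rw [cM_eq hr]
  ring

theorem X1_le (b t' : ℝ) : ENNReal.ofReal (Kc b * t') ≤ xA b t' := by
  unfold xA
  rw [add_assoc]
  exact le_self_add

theorem X2_le (b t' : ℝ) : 4 * ENNReal.ofReal (Kc (b / 2 / 4) * t') ≤ xA b t' := by
  unfold xA
  exact le_add_self.trans le_self_add

theorem X3_le (b t' : ℝ) : ENNReal.ofReal (Kc (b / 2 / 2) * t') ≤ xA b t' := by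
  unfold xA
  exact le_add_self

theorem CmA_le (ht : 0 ≤ t') : CmA bE b t' N ≤ kM bE b * fS (xA b t') N := by
  rw [CmA_eq ht]
  exact mul_le_mul' le_rfl (fS_mono (X1_le b t') N)

/-- Short time. -/
theorem CmAd_le (hδ : 0 ≤ δ) (hδt : δ ≤ t') : CmA bE b δ (N + 1) ≤
    kM bE b * (ENNReal.ofReal (Kc b) * ENNReal.ofReal δ * fS (xA b t') N) := by
  rw [CmA_eq hδ]
  refine mul_le_mul' le_rfl ((fS_succ_le _ N).trans ?_)
  rw [← ENNReal.ofReal_mul (Kc_nonneg b)]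
  refine mul_le_mul' le_rfl (fS_mono (le_trans ?_ (X1_le b t')) N)
  exact ENNReal.ofReal_le_ofReal (mul_le_mul_of_nonneg_left hδt (Kc_nonneg b))

theorem cube_le (N : ℕ) (hδ : 0 < δ) :
    (4 * √((N : ℝ) + 1) / δ) ^ 3 ≤ 64 * (1 / δ ^ 3) * 4 ^ N := by
  have h1 : (0 : ℝ) ≤ (N : ℝ) + 1 := by positivity
  have h2 : √((N : ℝ) + 1) ^ 2 = (N : ℝ) + 1 := Real.sq_sqrt h1
  have h3 : √((N : ℝ) + 1) ≤ (N : ℝ) + 1 := by
    rw [Real.sqrt_le_left h1]
    nlinarith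
  have h4 : ((N : ℝ) + 1) ≤ 2 ^ N := by
    have := Nat.lt_two_pow_self (n := N)
    have h5 : N + 1 ≤ 2 ^ N := this
    exact_mod_cast h5
  have h5 : √((N : ℝ) + 1) ^ 3 ≤ 4 ^ N := by
    have h6 : (4 : ℝ) ^ N = 2 ^ N * 2 ^ N := by rw [← mul_pow]; norm_num
    calc √((N : ℝ) + 1) ^ 3 = √((N : ℝ) + 1) ^ 2 * √((N : ℝ) + 1) := by ring
      _ ≤ ((N : ℝ) + 1) * ((N : ℝ) + 1) := by
          rw [h2]
          exact mul_le_mul_of_nonneg_left h3 h1
      _ ≤ 2 ^ N * 2 ^ N := mul_le_mul h4 h4 h1 (by positivity)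
      _ = 4 ^ N := h6.symm
  calc (4 * √((N : ℝ) + 1) / δ) ^ 3 = 64 * (1 / δ ^ 3) * √((N : ℝ) + 1) ^ 3 := by
        field_simp
        ring
    _ ≤ _ := mul_le_mul_of_nonneg_left h5 (by positivity)

theorem cH_le (hδ : 0 < δ) (ht : 0 ≤ t') : cH b c₁ δ t' N ≤
    64 * (cF (b / 2) c₁ * ENNReal.ofReal (D1 (b / 2))) * (ENNReal.ofReal (1 / δ ^ 3) *
      fS (xA b t') N) := by
  unfold cH
  have hD : 0 ≤ D1 (b / 2) := D1_nonneg _
  have h1 : ENNReal.ofReal ((4 * √((N : ℝ) + 1) / δ) ^ 3) ≤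
      64 * ENNReal.ofReal (1 / δ ^ 3) * 4 ^ N := by
    refine (ENNReal.ofReal_le_ofReal (cube_le N hδ)).trans (le_of_eq ?_)
    rw [ENNReal.ofReal_mul (by positivity), ENNReal.ofReal_mul (by norm_num),
      ENNReal.ofReal_pow (by norm_num)]
    norm_num
  have h2 : ENNReal.ofReal (D1 (b / 2) * ((Kc (b / 2 / 4) * t') ^ N / √(N.factorial : ℝ))) =
      ENNReal.ofReal (D1 (b / 2)) * fS (ENNReal.ofReal (Kc (b / 2 / 4) * t')) N := by
    rw [ENNReal.ofReal_mul hD, fS_of_real (mul_nonneg (Kc_nonneg _) ht)]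
  rw [h2]
  calc ENNReal.ofReal ((4 * √((N : ℝ) + 1) / δ) ^ 3) * cF (b / 2) c₁ *
        (ENNReal.ofReal (D1 (b / 2)) * fS (ENNReal.ofReal (Kc (b / 2 / 4) * t')) N)
      ≤ (64 * ENNReal.ofReal (1 / δ ^ 3) * 4 ^ N) * cF (b / 2) c₁ *
        (ENNReal.ofReal (D1 (b / 2)) * fS (ENNReal.ofReal (Kc (b / 2 / 4) * t')) N) := by
        gcongr
    _ = 64 * (cF (b / 2) c₁ * ENNReal.ofReal (D1 (b / 2))) * (ENNReal.ofReal (1 / δ ^ 3) *
        (4 ^ N * fS (ENNReal.ofReal (Kc (b / 2 / 4) * t')) N)) := by ring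
    _ ≤ _ := by
        rw [mul_fS]
        gcongr
        exact fS_mono (X2_le b t') N

theorem ClA_le (hδ : 0 < δ) (ht : 0 ≤ t') : ClA bE b c₁ δ t' N ≤
    kL bE b c₁ * (ENNReal.ofReal (1 / δ ^ 3) * fS (xA b t') N) := by
  unfold ClA kL
  calc _ ≤ K1.sig univ * (ENNReal.ofReal (√2 * (1 + 1 / √b)) * ENNReal.ofReal (1 + 1 / √bE) *
        (64 * (cF (b / 2) c₁ * ENNReal.ofReal (D1 (b / 2))) * (ENNReal.ofReal (1 / δ ^ 3) *
        fS (xA b t') N))) := by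
        gcongr
        exact cH_le hδ ht
    _ = _ := by ring

theorem CyA_le (ht : 0 ≤ t') : CyA b t c₁ t' N ≤ kY b c₁ * fS (xA b t') N := by
  unfold CyA kY cF1
  have h1 : cM b t 0 = I0 (b / 2) := by
    unfold cM
    simp
  have h2 : ENNReal.ofReal (D2 (b / 2) * ((Kc (b / 2 / 2) * t') ^ N / √(N.factorial : ℝ))) =
      ENNReal.ofReal (D2 (b / 2)) * fS (ENNReal.ofReal (Kc (b / 2 / 2) * t')) N := by
    rw [ENNReal.ofReal_mul (D2_nonneg _), fS_of_real (mul_nonneg (Kc_nonneg _) ht)]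
  rw [h1, h2]
  calc _ ≤ K1.sig univ * I0 (b / 2) * ENNReal.ofReal (1 + 1 / √b) *
        (8 * bv * cF (b / 2) c₁ * (ENNReal.ofReal (D2 (b / 2)) * fS (xA b t') N)) := by
        gcongr
        exact fS_mono (X3_le b t') N
    _ = _ := by ring

/-- The constant of the brackets. -/
def KA (hΦ : IsPotential Φ) (bE b t' : ℝ) (M : ℝ≥0∞) : ℝ≥0∞ :=
  (2 + 2 * M) * (1 + xA b t' + ENNReal.ofReal (Kc b)) *
    (kM bE b + kL bE b 1 + kL bE b (cS hΦ) + kY b 1 + kY b (cS hΦ))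

theorem KA_ne_top {M : ℝ≥0∞} (hb : 0 < b) (hM : M ≠ ∞) : KA hΦ bE b t' M ≠ ∞ := by
  unfold KA
  have h1 : (2 + 2 * M) ≠ ∞ := ENNReal.add_ne_top.2 ⟨by norm_num,
    ENNReal.mul_ne_top (by norm_num) hM⟩
  have h2 : 1 + xA b t' + ENNReal.ofReal (Kc b) ≠ ∞ := ENNReal.add_ne_top.2
    ⟨ENNReal.add_ne_top.2 ⟨by norm_num, xA_ne_top b t'⟩, ENNReal.ofReal_ne_top⟩
  have h3 : kM bE b + kL bE b 1 + kL bE b (cS hΦ) + kY b 1 + kY b (cS hΦ) ≠ ∞ :=
    ENNReal.add_ne_top.2 ⟨ENNReal.add_ne_top.2 ⟨ENNReal.add_ne_top.2 ⟨ENNReal.add_ne_top.2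
      ⟨kM_ne_top hb, kL_ne_top⟩, kL_ne_top⟩, kY_ne_top hb⟩, kY_ne_top hb⟩
  exact ENNReal.mul_ne_top (ENNReal.mul_ne_top h1 h2) h3

section coef

variable {M : ℝ≥0∞}

theorem coef_aux {M x y k₁ k₂ K : ℝ≥0∞} (h₁ : k₁ ≤ K) (h₂ : k₂ ≤ K) :
    2 * k₁ + M * (2 * (x * k₂)) ≤ (2 + 2 * M) * (1 + x + y) * K := by
  calc 2 * k₁ + M * (2 * (x * k₂)) ≤ 2 * K + M * (2 * (x * K)) := by gcongr
    _ ≤ 2 * K + M * (2 * (x * K)) + (2 * x * K + 2 * y * K + 2 * M * K + 2 * M * y * K) :=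
        le_self_add
    _ = _ := by ring

theorem kM_le : kM bE b ≤ kM bE b + kL bE b 1 + kL bE b (cS hΦ) + kY b 1 + kY b (cS hΦ) := by
  rw [add_assoc, add_assoc, add_assoc]
  exact le_self_add

theorem kL1_le : kL bE b 1 ≤ kM bE b + kL bE b 1 + kL bE b (cS hΦ) + kY b 1 + kY b (cS hΦ) := by
  calc kL bE b 1 ≤ kL bE b 1 + (kM bE b + kL bE b (cS hΦ) + kY b 1 + kY b (cS hΦ)) := le_self_add
    _ = _ := by ring

theorem kLc_le : kL bE b (cS hΦ) ≤
    kM bE b + kL bE b 1 + kL bE b (cS hΦ) + kY b 1 + kY b (cS hΦ) := by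
  calc kL bE b (cS hΦ) ≤ kL bE b (cS hΦ) + (kM bE b + kL bE b 1 + kY b 1 + kY b (cS hΦ)) :=
        le_self_add
    _ = _ := by ring

theorem kY1_le : kY b 1 ≤ kM bE b + kL bE b 1 + kL bE b (cS hΦ) + kY b 1 + kY b (cS hΦ) := by
  calc kY b 1 ≤ kY b 1 + (kM bE b + kL bE b 1 + kL bE b (cS hΦ) + kY b (cS hΦ)) := le_self_add
    _ = _ := by ring

theorem kYc_le : kY b (cS hΦ) ≤
    kM bE b + kL bE b 1 + kL bE b (cS hΦ) + kY b 1 + kY b (cS hΦ) := le_add_self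

/-- `gTd` and `gRL`. -/
theorem coef_m (ht : 0 ≤ t') : 2 * CmA bE b t' N + M * (2 * CmA bE b t' (N + 1)) ≤
    fS (xA b t') N * KA hΦ bE b t' M := by
  calc 2 * CmA bE b t' N + M * (2 * CmA bE b t' (N + 1))
      ≤ 2 * (kM bE b * fS (xA b t') N) + M * (2 * (kM bE b * (xA b t' * fS (xA b t') N))) := by
        gcongr
        · exact CmA_le ht
        · exact (CmA_le ht).trans (mul_le_mul' le_rfl (fS_succ_le _ _))
    _ = fS (xA b t') N * (2 * kM bE b + M * (2 * (xA b t' * kM bE b))) := by ring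
    _ ≤ _ := mul_le_mul' le_rfl (coef_aux kM_le kM_le)

theorem coef_y (ht : 0 ≤ t') : CyA b t 1 t' N + M * (2 * CyA b t (cS hΦ) t' (N + 1)) ≤
    fS (xA b t') N * KA hΦ bE b t' M := by
  calc CyA b t 1 t' N + M * (2 * CyA b t (cS hΦ) t' (N + 1))
      ≤ kY b 1 * fS (xA b t') N + M * (2 * (kY b (cS hΦ) * (xA b t' * fS (xA b t') N))) := by
        gcongr
        · exact CyA_le ht
        · exact (CyA_le ht).trans (mul_le_mul' le_rfl (fS_succ_le _ _))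
    _ ≤ 2 * (kY b 1 * fS (xA b t') N) + M * (2 * (kY b (cS hΦ) *
          (xA b t' * fS (xA b t') N))) := by
        refine add_le_add ?_ le_rfl
        rw [two_mul]
        exact le_self_add
    _ = fS (xA b t') N * (2 * kY b 1 + M * (2 * (xA b t' * kY b (cS hΦ)))) := by ring
    _ ≤ _ := mul_le_mul' le_rfl (coef_aux kY1_le kYc_le)

theorem coef_l (hδ : 0 < δ) (ht : 0 ≤ t') :
    2 * ClA bE b 1 δ t' N + M * (2 * ClA bE b (cS hΦ) δ t' (N + 1)) ≤
      fS (xA b t') N * (KA hΦ bE b t' M * ENNReal.ofReal (1 / δ ^ 3)) := by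
  set D := ENNReal.ofReal (1 / δ ^ 3)
  calc 2 * ClA bE b 1 δ t' N + M * (2 * ClA bE b (cS hΦ) δ t' (N + 1))
      ≤ 2 * (kL bE b 1 * (D * fS (xA b t') N)) +
        M * (2 * (kL bE b (cS hΦ) * (D * (xA b t' * fS (xA b t') N)))) := by
        gcongr
        · exact ClA_le hδ ht
        · exact (ClA_le hδ ht).trans (mul_le_mul' le_rfl (mul_le_mul' le_rfl (fS_succ_le _ _)))
    _ = fS (xA b t') N * ((2 * kL bE b 1 + M * (2 * (xA b t' * kL bE b (cS hΦ)))) * D) := by ring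
    _ ≤ _ := mul_le_mul' le_rfl (mul_le_mul' (coef_aux kL1_le kLc_le) le_rfl)

theorem coef_d (hδ : 0 ≤ δ) (hδt : δ ≤ t') : M * CmA bE b δ (N + 1) ≤
    fS (xA b t') N * (KA hΦ bE b t' M * ENNReal.ofReal δ) := by
  calc M * CmA bE b δ (N + 1)
      ≤ M * (kM bE b * (ENNReal.ofReal (Kc b) * ENNReal.ofReal δ * fS (xA b t') N)) := by
        gcongr
        exact CmAd_le hδ hδt
    _ = fS (xA b t') N * ((M * ENNReal.ofReal (Kc b) * kM bE b) * ENNReal.ofReal δ) := by ring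
    _ ≤ _ := by
        refine mul_le_mul' le_rfl (mul_le_mul' ?_ le_rfl)
        unfold KA
        refine mul_le_mul' (mul_le_mul' ?_ le_add_self) kM_le
        calc M ≤ M + (2 + M) := le_self_add
          _ = 2 + 2 * M := by ring

end coef

/-! ### The births are positive -/

theorem srcJ_nonpos {β t : ℝ} : srcJ β t (fun y => ind (y.1 ≤ 0)) = 0 := by
  unfold srcJ
  have h1 : ∀ᵐ σ ∂(volume.restrict (Icc (0 : ℝ) t)), ∫⁻ z : Ph, gw β z.2 * ind (σ ≤ 0) = 0 := by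
    have h2 : ∀ᵐ σ : ℝ ∂(volume.restrict (Icc (0 : ℝ) t)), σ ≠ 0 :=
      ae_restrict_of_ae (compl_mem_ae_iff.2 (measure_singleton (0 : ℝ)))
    filter_upwards [h2, ae_restrict_mem measurableSet_Icc] with σ h3 h4
    have h5 : ¬σ ≤ 0 := fun h => h3 (le_antisymm h h4.1)
    simp only [ind_of_not h5, mul_zero, lintegral_zero]
  rw [lintegral_congr_ae h1, lintegral_zero]

theorem ae_srcA_pos (hε : 0 < ε) (hb : 0 < b) (hbE : b ≤ bE) (ht₂ : t ≤ t₂) :
    ∀ᵐ x ∂(lawA ε bE b t t₂ N S), 0 < (srcA ε x).1 := by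
  have hm : MeasurableSet {x : XA N | (srcA ε x).1 ≤ 0} :=
    measurableSet_le (measurable_srcA (ε := ε) (N := N)).fst measurable_const
  have h := mass_A (S := S) (t := t) (t₂ := t₂) (F := fun x => ind ((srcA ε x).1 ≤ 0))
    (g := fun y => ind (y.1 ≤ 0)) hε hb hbE ht₂ (measurable_ind hm)
    (measurable_ind (measurableSet_le measurable_fst measurable_const)) fun x _ => le_rfl
  rw [srcJ_nonpos, mul_zero, lint_ind hm] at h
  have h2 : (lawA ε bE b t t₂ N S) {x : XA N | (srcA ε x).1 ≤ 0} = 0 := le_antisymm h zero_le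
  have h3 := compl_mem_ae_iff.2 h2
  filter_upwards [h3] with x hx
  exact not_le.1 hx

/-! ### The sources of the second events -/

/-- The section of the set of the sources. -/
def slc (H : Set Src) (n : ℕ) : Set (ℝ × Ph) := {y | srcN n y ∈ H}

theorem measurableSet_slc {H : Set Src} (hH : MeasurableSet H) (n : ℕ) :
    MeasurableSet (slc H n) := measurable_srcN n hH

/-- **The sources over a fixed world, under the law A.** -/
theorem F6w_A {a : ℕ → ℝ≥0∞} {B : ℝ} (hB : RW.StableWith Φ B) (hb : 0 < b) (hbE : b ≤ bE)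
    (hbb : b ≤ b') (hδ : 0 < δ) (hδt : δ ≤ t') (hc : c.2 ∈ excl ε c.1) (hη : 0 < η)
    (hηη : η ≤ η') (ht : 0 ≤ t) (htt : t < t') (hw : t ≤ w) {H : Set Src}
    (hH : MeasurableSet H) :
    ∫⁻ x, ind (((srcA ε x).1, (srcA ε x).2, n) ∈ H) *
      F6w L hΦ hε b' a η t w ((srcA ε x).1 + δ) (wS (GC.pts c)) ((srcA ε x).1, (srcA ε x).2, n)
        (endA ε S x).1 (endA ε S x).2 ∂(lawA ε bE b t t' N S) ≤
      fS (xA b t') N * (KA hΦ bE b t' (∑' k, a k) *
        (bk1 L hΦ hε (bE / 2) t δ η η' c n (slc H n) +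
          ENNReal.ofReal (1 / δ ^ 3) * bk2 L hΦ hε B (bE / 2) t η c n (slc H n))) := by
  have ht' : 0 ≤ t' := ht.trans htt.le
  have hG := measurableSet_slc hH n
  set G := slc H n with hGdef
  set M := ∑' k, a k with hM
  have e1 : ∫⁻ x, ind (((srcA ε x).1, (srcA ε x).2, n) ∈ H) *
      F6w L hΦ hε b' a η t w ((srcA ε x).1 + δ) (wS (GC.pts c)) ((srcA ε x).1, (srcA ε x).2, n)
        (endA ε S x).1 (endA ε S x).2 ∂(lawA ε bE b t t' N S) =
      ∫⁻ x, (ind (srcA ε x ∈ gP G) * S6 L hΦ hε η t w ((srcA ε x).1 + δ) (wS (GC.pts c))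
          (srcN n (srcA ε x)) (mA ε S x) +
        (ind (srcA ε x ∈ gP G) * pG6w L hΦ hε b' a η t w (wS (GC.pts c))
          (srcN n (srcA ε x)) (mA ε S x) +
        ind (srcA ε x ∈ gP G) * (yH6 ε b' a t ((srcA ε x).1 + δ) (mA ε S x) *
          ind (TE L hΦ hε η t (wS (GC.pts c)) (srcN n (srcA ε x))))))
        ∂(lawA ε bE b t t' N S) := by
    refine lintegral_congr_ae ?_
    filter_upwards [ae_srcA_pos (S := S) (N := N) hε hb hbE htt.le] with x hx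
    have h1 : ind (((srcA ε x).1, (srcA ε x).2, n) ∈ H) = ind (srcA ε x ∈ gP G) := by
      by_cases h : srcN n (srcA ε x) ∈ H
      · rw [ind_of (show ((srcA ε x).1, (srcA ε x).2, n) ∈ H from h),
          ind_of (show srcA ε x ∈ gP G from ⟨h, hx⟩)]
      · rw [ind_of_not (show ((srcA ε x).1, (srcA ε x).2, n) ∉ H from h),
          ind_of_not (fun h2 : srcA ε x ∈ gP G => h h2.1)]
    rw [h1, ← mul_add, ← mul_add, ← add_assoc]
    rfl
  have hl := measurable_endA (ε := ε) (N := N) S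
  have hN := (measurable_srcN n).comp (measurable_srcA (ε := ε) (N := N))
  have hu : Measurable fun x : XA N => (srcA ε x).1 + δ := measurable_srcA.fst.add_const δ
  have hg : Measurable fun x : XA N => ind (srcA ε x ∈ gP G) :=
    measurable_ind (measurable_srcA (measurableSet_gP hG))
  have hS6 : Measurable fun x : XA N => S6 L hΦ hε η t w ((srcA ε x).1 + δ) (wS (GC.pts c))
      (srcN n (srcA ε x)) (mA ε S x) :=
    measurable_S6 (rs_const c) measurable_const measurable_const measurable_const hu hN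
      measurable_mA
  have hpG : Measurable fun x : XA N => pG6w L hΦ hε b' a η t w (wS (GC.pts c))
      (srcN n (srcA ε x)) (mA ε S x) :=
    measurable_pG6w (rs_const c) hN measurable_mA
  have i1 : Measurable fun x : XA N => ind (srcA ε x ∈ gP G) *
      S6 L hΦ hε η t w ((srcA ε x).1 + δ) (wS (GC.pts c)) (srcN n (srcA ε x)) (mA ε S x) :=
    hg.mul hS6
  have i2 : Measurable fun x : XA N => ind (srcA ε x ∈ gP G) *
      pG6w L hΦ hε b' a η t w (wS (GC.pts c)) (srcN n (srcA ε x)) (mA ε S x) := hg.mul hpG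
  rw [e1, lintegral_add_left i1, lintegral_add_left i2]
  refine (add_le_add (S6_A hB hb hbE hδ hc hη hηη ht htt htt.le hG)
    (add_le_add (pG6_A hB hb hbE hbb hδ hc hη hηη ht htt htt hw hG)
      (yH6_A hb hbE hbb hδ.le htt hG))).trans ?_
  rw [← hM]
  set A1 := srcS (bE / 2) t (gTd L hΦ hε η t δ c n G)
  set A2 := srcS (bE / 2) t (gRL L hΦ hε η (η' - η) t c n G)
  set A3 := srcS (bE / 2) t (gTE L hΦ hε η t c n G)
  set E2 := ENNReal.ofReal (ε ^ 2)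
  set W := cWE B t ε η c
  set YE := yE L hΦ hε η' t δ c
  set YF := yF L hΦ hε η t δ c
  set F := fS (xA b t') N
  set K := KA hΦ bE b t' M
  set D := ENNReal.ofReal (1 / δ ^ 3)
  have c1 : 2 * CmA bE b t' N + M * (2 * CmA bE b t' (N + 1)) ≤ F * K := coef_m ht'
  have c2 : CyA b t 1 t' N + M * (2 * CyA b t (cS hΦ) t' (N + 1)) ≤ F * K := coef_y ht'
  have c3 : 2 * ClA bE b 1 δ t' N + M * (2 * ClA bE b (cS hΦ) δ t' (N + 1)) ≤ F * (K * D) :=
    coef_l hδ ht'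
  have c4 : M * CmA bE b δ (N + 1) ≤ F * (K * ENNReal.ofReal δ) := coef_d hδ.le hδt
  have hb1 : bk1 L hΦ hε (bE / 2) t δ η η' c n G =
      A1 + A2 + ENNReal.ofReal δ * A3 + E2 * (YE + YF) := rfl
  have hb2 : bk2 L hΦ hε B (bE / 2) t η c n G = E2 * W * A3 := rfl
  rw [hb1, hb2]
  calc _ ≤ (2 * CmA bE b t' N + M * (2 * CmA bE b t' (N + 1))) * A1 +
        (2 * CmA bE b t' N + M * (2 * CmA bE b t' (N + 1))) * A2 +
        (CyA b t 1 t' N + M * (2 * CyA b t (cS hΦ) t' (N + 1))) * (E2 * YE) +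
        (CyA b t 1 t' N + M * (2 * CyA b t (cS hΦ) t' (N + 1))) * (E2 * YF) +
        (2 * ClA bE b 1 δ t' N + M * (2 * ClA bE b (cS hΦ) δ t' (N + 1))) * (E2 * W * A3) +
        (M * CmA bE b δ (N + 1)) * A3 := by
        have h1 : CmA bE b t' N * A2 ≤ 2 * CmA bE b t' N * A2 := by
          refine mul_le_mul' ?_ le_rfl
          rw [two_mul]
          exact le_self_add
        have h2 : CyA b t 1 t' N * (E2 * YF) ≤
            (CyA b t 1 t' N + M * (2 * CyA b t (cS hΦ) t' (N + 1))) * (E2 * YF) := by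
          gcongr
          exact le_self_add
        calc _ = (2 * CmA bE b t' N + M * (2 * CmA bE b t' (N + 1))) * A1 +
              (CmA bE b t' N * A2 + M * (2 * CmA bE b t' (N + 1)) * A2) +
              (CyA b t 1 t' N + M * (2 * CyA b t (cS hΦ) t' (N + 1))) * (E2 * YE) +
              CyA b t 1 t' N * (E2 * YF) +
              (2 * ClA bE b 1 δ t' N + M * (2 * ClA bE b (cS hΦ) δ t' (N + 1))) * (E2 * W * A3) +
              (M * CmA bE b δ (N + 1)) * A3 := by ring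
          _ ≤ (2 * CmA bE b t' N + M * (2 * CmA bE b t' (N + 1))) * A1 +
              (2 * CmA bE b t' N * A2 + M * (2 * CmA bE b t' (N + 1)) * A2) +
              (CyA b t 1 t' N + M * (2 * CyA b t (cS hΦ) t' (N + 1))) * (E2 * YE) +
              (CyA b t 1 t' N + M * (2 * CyA b t (cS hΦ) t' (N + 1))) * (E2 * YF) +
              (2 * ClA bE b 1 δ t' N + M * (2 * ClA bE b (cS hΦ) δ t' (N + 1))) * (E2 * W * A3) +
              (M * CmA bE b δ (N + 1)) * A3 := by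
              gcongr
          _ = _ := by ring
    _ ≤ (F * K) * A1 + (F * K) * A2 + (F * K) * (E2 * YE) + (F * K) * (E2 * YF) +
        (F * (K * D)) * (E2 * W * A3) + (F * (K * ENNReal.ofReal δ)) * A3 := by
        gcongr
    _ = _ := by ring

theorem measurable_cWE {B : ℝ} : Measurable fun c : GC.Conf Ph => cWE B t ε η c := by
  unfold cWE
  have h : Measurable fun c : GC.Conf Ph => ((wS (GC.pts c)).card : ℝ≥0∞) := by
    simp only [card_wS]
    exact measurable_card_pts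
  exact (((h.add_const 1).mul_const _).const_mul 2).add_const _

theorem measurable_bk2 {B β : ℝ} (hG : MeasurableSet G) :
    Measurable fun c : GC.Conf Ph => bk2 L hΦ hε B β t η c n G := by
  unfold bk2
  exact (measurable_cWE.const_mul _).mul (measurable_srcS (measurableSet_gTE2 hG))

variable (L hΦ hε) in
/-- The bound of the brackets in the mean, for the sources of depth `n`. -/
def EbA (f₀ : Ph → ℝ) (B Tm β t δ η η' w : ℝ) (δ₁ : ℝ≥0∞) (n : ℕ) : ℝ≥0∞ :=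
  ((srcJ β t fun y => thL L hΦ hε f₀ η' t δ (srcN n y)) +
    (4 * δ₁ + 2 * ENNReal.ofReal δ) * (srcJ β t fun y => thL L hΦ hε f₀ η' t w (srcN n y)) +
    ENNReal.ofReal (cY B Tm * (ε + δ)) * (DD L hΦ hε f₀ η' t + FF L hΦ hε f₀ η t)) +
  ENNReal.ofReal (1 / δ ^ 3) * (2 * cT3 L hΦ hε f₀ β η t +
    ENNReal.ofReal (2 * cDD B 1 * t + 2 * (ε + t)) * ENNReal.ofReal η *
      (2 * srcJ β t fun y => thL L hΦ hε f₀ η' t w (srcN n y)))

open Classical in
/-- **The sources of the second events in the mean, under the law A.** -/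
theorem F6_A {a : ℕ → ℝ≥0∞} {B Tm : ℝ} {δ₁ : ℝ≥0∞} (h₀ : GoodDatum f₀ κ)
    (ha : ∑' k, a k ≠ ∞) (hB : RW.StableWith Φ B) (hb : 0 < b) (hbE : b ≤ bE)
    (hbb : b ≤ b') (hδ : 0 < δ) (hd1 : δ ≤ 1) (hδt : δ ≤ t') (hη : 0 < η)
    (hηη : η ≤ η') (ht : 0 ≤ t) (htm : t ≤ Tm) (htt : t < t') (hw : t ≤ w) (hδ₁ : δ₁ ≤ 2⁻¹)
    {H : Set Src} (hH : MeasurableSet H) (hHL : ∀ e ∈ H, e.2.2 ≤ L)
    (hG : ∀ e ∈ H, 0 < e.1 → ∫⁻ c, ind (TE L hΦ hε η t (wS (GC.pts c)) e ∧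
      ENNReal.ofReal ((η' - η) * mu ε) < relW L hΦ hε (insert e (wS (GC.pts c)))
        (wS (GC.pts c)) t) ∂(GC.PP f₀ ε) ≤ δ₁ * tE6 L hΦ hε f₀ η t e) :
    ∫⁻ x, ind (((srcA ε x).1, (srcA ε x).2, n) ∈ H) *
      F6 L hΦ hε f₀ b' a η t w ((srcA ε x).1 + δ) ((srcA ε x).1, (srcA ε x).2, n)
        (endA ε S x).1 (endA ε S x).2 ∂(lawA ε bE b t t' N S) ≤
      fS (xA b t') N * (KA hΦ bE b t' (∑' k, a k) *
        EbA L hΦ hε f₀ B Tm (bE / 2) t δ η η' w δ₁ n) := by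
  by_cases hn : n ≤ L
  swap
  · refine le_trans (le_of_eq ?_) zero_le
    have h0 : ∀ x : XA N, ind (((srcA ε x).1, (srcA ε x).2, n) ∈ H) = 0 := fun x =>
      ind_of_not fun h => hn (hHL _ h)
    simp only [h0, zero_mul, lintegral_zero]
  have hGO : GOk L hΦ hε f₀ η η' t n (slc H n) δ₁ := fun y hy hy0 => hG _ hy hy0
  have hGm := measurableSet_slc hH n
  refine lawA_F6_le h₀ hH n (xA_ne_top b t')
    (B := fun c => KA hΦ bE b t' (∑' k, a k) *
      (bk1 L hΦ hε (bE / 2) t δ η η' c n (slc H n) +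
        ENNReal.ofReal (1 / δ ^ 3) * bk2 L hΦ hε B (bE / 2) t η c n (slc H n))) ?_ ?_
  · filter_upwards [GC.ae_excl f₀ ε] with c hc
    exact F6w_A hB hb hbE hbb hδ hδt hc hη hηη ht htt hw hH
  · rw [lintegral_const_mul' _ _ (KA_ne_top hb ha),
      lintegral_add_right _ ((measurable_bk2 hGm).const_mul _),
      lintegral_const_mul' _ _ ENNReal.ofReal_ne_top]
    refine mul_le_mul' le_rfl (add_le_add ?_ (mul_le_mul' le_rfl ?_))
    · exact E_bk1 h₀ hB hn hη hηη ht htm hw hδ hd1 hδ₁ hGm hGO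
    · exact E_bk2 h₀ hn hη hηη ht hw hδ₁ hGm hGO

end Vale.Agent.P119.PB
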