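import Vale.Agent.P119.PB.Marks2
import Vale.Agent.P119.FL.Pair

/-!
# P119, block PROB: geometry of marked nodes (`helper298`)

* `outS`: the steps (`FL.Step.out1`, `FL.Step.out2`) of a spine;
* `ld T = (ln T, depth T)`; `ld_plug`: the root line and the depth of `plug m X r` are functions of
  those of `X` and of the siblings;
* `chain_plug`: if `plug m X r` is an ok tree with exit time `≤ t` then the root line of `X` makes the
  chain `FL.Chain` of hits with the root lines of the siblings; `time_plug`: the time of the last hit.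
-/

open MeasureTheory Filter Topology Set
open scoped ENNReal NNReal

noncomputable section

namespace Vale.Agent.P119.M

open KU CTree

variable {Φ : E3 → ℝ} {ε : ℝ}

/-- One step. -/
def outB (hΦ : IsPotential Φ) (hε : ε ≠ 0) (o : Bool) : FL.Step :=
  bif o then FL.Step.out1 hΦ hε else FL.Step.out2 hΦ hε

/-- The steps of a spine. -/
def outS (hΦ : IsPotential Φ) (hε : ε ≠ 0) : (m : ℕ) → (Fin m → Bool) → ℕ → FL.Step
  | 0, _, _ => FL.Step.out1 hΦ hε
  | _ + 1, o, 0 => outB hΦ hε (o 0)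
  | m + 1, o, n + 1 => outS hΦ hε m (fun i => o i.succ) n

theorem outS_zero (hΦ : IsPotential Φ) (hε : ε ≠ 0) (m : ℕ) (o : Fin (m + 1) → Bool) :
    outS hΦ hε (m + 1) o 0 = outB hΦ hε (o 0) := rfl

theorem outS_succ (hΦ : IsPotential Φ) (hε : ε ≠ 0) (m : ℕ) (o : Fin (m + 1) → Bool) :
    (fun n => outS hΦ hε (m + 1) o (n + 1)) = outS hΦ hε m (fun i => o i.succ) := rfl

/-- The root line and the depth. -/
def ld (Φ : E3 → ℝ) (ε : ℝ) (T : CTree) : Ph × ℕ := (ln Φ ε T, T.depth)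

theorem measurable_ld (hΦ : IsPotential Φ) (hε : ε ≠ 0) : Measurable (ld Φ ε) :=
  (measurable_ln hΦ hε).prodMk measurable_depth

theorem ld_eq (T : CTree) : ld Φ ε T = (rsrc Φ ε T).2 := rfl

/-- One step on lines with depths. -/
def stepL (hΦ : IsPotential Φ) (hε : ε ≠ 0) (x : Ph × ℕ) (q : Bool × (Ph × ℕ)) : Ph × ℕ :=
  ((outB hΦ hε q.1).f (x.1, q.2.1), max x.2 q.2.2 + 1)

theorem measurable_stepL (hΦ : IsPotential Φ) (hε : ε ≠ 0) :
    Measurable fun p : (Ph × ℕ) × (Bool × (Ph × ℕ)) => stepL hΦ hε p.1 p.2 := by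
  have h : Measurable fun p : Bool × (Ph × Ph) => (outB hΦ hε p.1).f p.2 :=
    measurable_from_prod_countable_right fun o => (outB hΦ hε o).meas
  unfold stepL
  refine Measurable.prodMk ?_ ?_
  · exact h.comp ((measurable_fst.comp measurable_snd).prodMk ((measurable_fst.comp
      measurable_fst).prodMk (measurable_fst.comp (measurable_snd.comp measurable_snd))))
  · exact ((measurable_snd.comp measurable_fst).max (measurable_snd.comp
      (measurable_snd.comp measurable_snd))).add_const 1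

theorem ln_stepT (hΦ : IsPotential Φ) (hε : ε ≠ 0) (X : CTree) (q : Bool × CTree) :
    ln Φ ε (stepT X q) = (outB hΦ hε q.1).f (ln Φ ε X, ln Φ ε q.2) := by
  obtain ⟨o, S⟩ := q
  cases o
  · exact ln_swap hΦ X S
  · rfl

theorem depth_stepT (X : CTree) (q : Bool × CTree) :
    (stepT X q).depth = max X.depth q.2.depth + 1 := by
  obtain ⟨o, S⟩ := q
  cases o
  · change max S.depth X.depth + 1 = _
    rw [max_comm]
  · rfl

theorem sig_stepT (X : CTree) (q : Bool × CTree) :
    sig Φ ε (stepT X q) = hitT ε (ln Φ ε X, ln Φ ε q.2) := by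
  obtain ⟨o, S⟩ := q
  cases o
  · exact hitT_swap (ln Φ ε X, ln Φ ε S)
  · rfl

theorem ext_stepT (hΦ : IsPotential Φ) (X : CTree) (q : Bool × CTree) :
    ext Φ ε (stepT X q) = sepT Φ ε (ln Φ ε X, ln Φ ε q.2) := by
  obtain ⟨o, S⟩ := q
  cases o
  · exact sepT_swap hΦ (ln Φ ε X, ln Φ ε S)
  · rfl

theorem ld_stepT (hΦ : IsPotential Φ) (hε : ε ≠ 0) (X : CTree) (q : Bool × CTree) :
    ld Φ ε (stepT X q) = stepL hΦ hε (ld Φ ε X) (q.1, ld Φ ε q.2) :=
  Prod.ext (ln_stepT hΦ hε X q) (depth_stepT X q)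

/-- `plug` on lines with depths. -/
def plugL (hΦ : IsPotential Φ) (hε : ε ≠ 0) : (m : ℕ) → Ph × ℕ → (Fin m → Bool × (Ph × ℕ)) → Ph × ℕ
  | 0, x, _ => x
  | m + 1, x, r => plugL hΦ hε m (stepL hΦ hε x (r 0)) fun i => r i.succ

theorem ld_plug (hΦ : IsPotential Φ) (hε : ε ≠ 0) (m : ℕ) : ∀ (X : CTree) (r : Fin m → Bool × CTree),
    ld Φ ε (plug m X r) = plugL hΦ hε m (ld Φ ε X) fun i => ((r i).1, ld Φ ε (r i).2) := by
  induction m with
  | zero => intro X r; rfl
  | succ m ih =>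
    intro X r
    change ld Φ ε (plug m (stepT X (r 0)) fun i => r i.succ) = _
    rw [ih, ld_stepT hΦ hε]
    rfl

theorem plugL_fst (hΦ : IsPotential Φ) (hε : ε ≠ 0) (m : ℕ) : ∀ (x : Ph × ℕ)
    (r : Fin m → Bool × (Ph × ℕ)), (plugL hΦ hε m x r).1 =
      FL.line (outS hΦ hε m fun i => (r i).1) m x.1 fun i => (r i).2.1 := by
  induction m with
  | zero => intro x r; rfl
  | succ m ih =>
    intro x r
    change (plugL hΦ hε m (stepL hΦ hε x (r 0)) fun i => r i.succ).1 = _
    rw [ih]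
    rfl

theorem ln_plug (hΦ : IsPotential Φ) (hε : ε ≠ 0) (m : ℕ) (X : CTree) (r : Fin m → Bool × CTree) :
    ln Φ ε (plug m X r) =
      FL.line (outS hΦ hε m fun i => (r i).1) m (ln Φ ε X) fun i => ln Φ ε (r i).2 := by
  have h := congrArg Prod.fst (ld_plug hΦ hε m X r)
  rw [plugL_fst] at h
  exact h

theorem measurable_plugL (hΦ : IsPotential Φ) (hε : ε ≠ 0) (m : ℕ) :
    Measurable fun p : (Ph × ℕ) × (Fin m → Bool × (Ph × ℕ)) => plugL hΦ hε m p.1 p.2 := by
  induction m with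
  | zero => exact measurable_fst
  | succ m ih =>
    have h : Measurable fun p : (Ph × ℕ) × (Fin (m + 1) → Bool × (Ph × ℕ)) =>
        (stepL hΦ hε p.1 (p.2 0), fun i : Fin m => p.2 i.succ) := by
      refine Measurable.prodMk ?_ ?_
      · exact (measurable_stepL hΦ hε).comp (measurable_fst.prodMk
          ((measurable_pi_apply 0).comp measurable_snd))
      · exact measurable_pi_iff.2 fun i => (measurable_pi_apply _).comp measurable_snd
    exact ih.comp h

/-! ### The conditions -/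

theorem ok_stepT (hΦ : IsPotential Φ) {X : CTree} {q : Bool × CTree} (h : ok Φ ε (stepT X q)) :
    ok Φ ε (node X q.2) := by
  obtain ⟨o, S⟩ := q
  cases o
  · exact ok_swap hΦ h
  · exact h

theorem sub_stepT (X : CTree) (q : Bool × CTree) :
    TL.Sub X (stepT X q) ∧ TL.Sub q.2 (stepT X q) := by
  obtain ⟨o, S⟩ := q
  cases o
  · exact ⟨TL.Sub.right S (TL.Sub.refl X), TL.Sub.left X (TL.Sub.refl S)⟩
  · exact ⟨TL.Sub.left S (TL.Sub.refl X), TL.Sub.right X (TL.Sub.refl S)⟩

theorem sub_plug (m : ℕ) : ∀ (X : CTree) (r : Fin m → Bool × CTree),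
    TL.Sub X (plug m X r) ∧ ∀ i, TL.Sub (r i).2 (plug m X r) := by
  induction m with
  | zero => intro X r; exact ⟨TL.Sub.refl X, fun i => i.elim0⟩
  | succ m ih =>
    intro X r
    obtain ⟨h1, h2⟩ := ih (stepT X (r 0)) fun i => r i.succ
    obtain ⟨h3, h4⟩ := sub_stepT X (r 0)
    refine ⟨h3.trans h1, fun i => ?_⟩
    induction i using Fin.cases with
    | zero => exact h4.trans h1
    | succ i => exact h2 i

theorem ok_plug {m : ℕ} {X : CTree} {r : Fin m → Bool × CTree} (h : ok Φ ε (plug m X r)) :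
    ok Φ ε X ∧ ∀ i, ok Φ ε (r i).2 :=
  ⟨(sub_plug m X r).1.ok h, fun i => ((sub_plug m X r).2 i).ok h⟩

theorem ext_plug (hΦ : IsPotential Φ) (hε : 0 < ε) {m : ℕ} {X : CTree} {r : Fin m → Bool × CTree}
    (h : ok Φ ε (plug m X r)) :
    ext Φ ε X ≤ ext Φ ε (plug m X r) ∧ ∀ i, ext Φ ε (r i).2 ≤ ext Φ ε (plug m X r) :=
  ⟨(sub_plug m X r).1.ext_le hΦ hε h, fun i => ((sub_plug m X r).2 i).ext_le hΦ hε h⟩

theorem depth_plug {m : ℕ} {X : CTree} {r : Fin m → Bool × CTree} :
    X.depth + m ≤ (plug m X r).depth ∧ ∀ i, (r i).2.depth ≤ (plug m X r).depth := by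
  refine ⟨?_, fun i => ((sub_plug m X r).2 i).depth_le⟩
  induction m generalizing X with
  | zero => exact le_rfl
  | succ m ih =>
    have h := ih (X := stepT X (r 0)) (r := fun i => r i.succ)
    rw [depth_stepT] at h
    have h2 : X.depth ≤ max X.depth (r 0).2.depth := le_max_left _ _
    change X.depth + (m + 1) ≤ (plug m (stepT X (r 0)) fun i => r i.succ).depth
    omega

/-- **The chain of hits of a spine.** -/
theorem chain_plug (hΦ : IsPotential Φ) (hε : 0 < ε) {t : ℝ} (m : ℕ) :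
    ∀ (s : ℝ) (X : CTree) (r : Fin m → Bool × CTree), ok Φ ε (plug m X r) →
      ext Φ ε (plug m X r) ≤ t → s ≤ ext Φ ε X →
      FL.Chain ε t (outS hΦ hε.ne' m fun i => (r i).1) m s (ln Φ ε X) fun i => ln Φ ε (r i).2 := by
  induction m with
  | zero => intro s X r _ _ _; trivial
  | succ m ih =>
    intro s X r h ht hs
    have h1 : ok Φ ε (plug m (stepT X (r 0)) fun i => r i.succ) := h
    have h2 := (ok_plug h1).1
    have h3 := ok_stepT hΦ h2
    have h4 : sig Φ ε (stepT X (r 0)) < ext Φ ε (stepT X (r 0)) := by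
      have h5 := sig_lt_ext hΦ hε h3
      rw [sig_stepT, ext_stepT hΦ]
      exact h5
    have h6 : ext Φ ε (stepT X (r 0)) ≤ t := (ext_plug hΦ hε h1).1.trans ht
    have h7 := ih (hitT ε (ln Φ ε X, ln Φ ε (r 0).2)) (stepT X (r 0)) (fun i => r i.succ) h ht
      (by rw [← sig_stepT]; exact h4.le)
    rw [ln_stepT hΦ hε.ne'] at h7
    refine ⟨h3.2.2.2.1, hs.trans_lt h3.2.2.2.2.2.1, ?_, h7⟩
    rw [← sig_stepT]
    exact h4.trans_le h6

/-- The time of the last hit. -/
theorem time_plug (hΦ : IsPotential Φ) (hε : ε ≠ 0) (m : ℕ) : ∀ (X : CTree)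
    (r : Fin m → Bool × CTree), FL.time ε (outS hΦ hε m fun i => (r i).1) m (sig Φ ε X) (ln Φ ε X)
      (fun i => ln Φ ε (r i).2) = sig Φ ε (plug m X r) := by
  induction m with
  | zero => intro X r; rfl
  | succ m ih =>
    intro X r
    have h := ih (stepT X (r 0)) fun i => r i.succ
    rw [sig_stepT, ln_stepT hΦ hε] at h
    exact h

/-- The time of the last hit, for a spine with at least one vertex. -/
theorem time_plug' (hΦ : IsPotential Φ) (hε : ε ≠ 0) (m : ℕ) (s : ℝ) (X : CTree)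
    (r : Fin (m + 1) → Bool × CTree) :
    FL.time ε (outS hΦ hε (m + 1) fun i => (r i).1) (m + 1) s (ln Φ ε X)
      (fun i => ln Φ ε (r i).2) = sig Φ ε (plug (m + 1) X r) := by
  have h := time_plug hΦ hε m (stepT X (r 0)) fun i => r i.succ
  rw [sig_stepT, ln_stepT hΦ hε] at h
  exact h

/-- The exit time in terms of the outgoing pair. -/
theorem ext_node_exT (hΦ : IsPotential Φ) (hε : ε ≠ 0) (a b : CTree) :
    ext Φ ε (node a b) = FL.exT ε (ln Φ ε (node a b), ln Φ ε (node b a)) := by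
  have e : (ln Φ ε (node a b), ln Φ ε (node b a)) = sc2 Φ ε (ln Φ ε a, ln Φ ε b) :=
    Prod.ext rfl (ln_swap hΦ a b)
  rw [e, FL.exT_sc2 hΦ hε]
  rfl

end Vale.Agent.P119.M
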