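import Vale.Agent.P119.PB.HitAB
import Vale.Agent.P119.PB.Lam6d
import Vale.Agent.P119.FL.LawC

/-!
# P119, second events: countable sums of laws A (`helper755`)

* `fS x N = x ^ N / √N!`: subadditivity in `N`, summability;
* `phS`, `lamS`: the law of `(e, m)`, `e = (exit time, line, dE)`, `m = (birth, last line, dM)`, summed
  over a countable family of laws A;
* `lintegral_lamS`, `lamS_le`;
* `hitLam_lamS`: `HitLam`;
* `gc_lamS_le`, `main_lamS`: the composition with the iterates of the collision operator.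
-/

open MeasureTheory Set Filter Topology Metric ProbabilityTheory
open scoped ENNReal

namespace Vale.Agent.P119.PB

open M CTree KU FB RB AU FL TL

/-! ### The constants -/

/-- `x ^ N / √N!`. -/
noncomputable def fS (x : ℝ≥0∞) (N : ℕ) : ℝ≥0∞ := x ^ N * rf N

theorem rf_add_le (N j : ℕ) : rf (N + j) ≤ rf N * rf j := by
  unfold rf
  rw [← ENNReal.ofReal_mul (by positivity)]
  apply ENNReal.ofReal_le_ofReal
  have hN : (0 : ℝ) < N.factorial := by exact_mod_cast N.factorial_pos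
  have hj : (0 : ℝ) < j.factorial := by exact_mod_cast j.factorial_pos
  have h1 : (N.factorial : ℝ) * j.factorial ≤ (N + j).factorial := by
    exact_mod_cast Nat.le_of_dvd (Nat.factorial_pos _) (Nat.factorial_mul_factorial_dvd_factorial_add N j)
  rw [one_div_mul_one_div, ← Real.sqrt_mul hN.le]
  exact one_div_le_one_div_of_le (Real.sqrt_pos.2 (mul_pos hN hj)) (Real.sqrt_le_sqrt h1)

theorem fS_add_le (x : ℝ≥0∞) (N j : ℕ) : fS x (N + j) ≤ fS x N * fS x j := by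
  unfold fS
  calc x ^ (N + j) * rf (N + j) ≤ x ^ (N + j) * (rf N * rf j) :=
        mul_le_mul' le_rfl (rf_add_le N j)
    _ = _ := by rw [pow_add]; ring

theorem fS_mono {x y : ℝ≥0∞} (h : x ≤ y) (N : ℕ) : fS x N ≤ fS y N :=
  mul_le_mul' (pow_le_pow_left' h N) le_rfl

theorem mul_fS (M x : ℝ≥0∞) (N : ℕ) : M ^ N * fS x N = fS (M * x) N := by
  unfold fS
  rw [mul_pow]
  ring

theorem tsum_fS_ne_top {x : ℝ≥0∞} (hx : x ≠ ∞) : ∑' N, fS x N ≠ ∞ := sf_ne_top hx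

theorem sum_fS_le (x : ℝ≥0∞) (J : ℕ) : ∑ j ∈ Finset.range J, fS x j ≤ ∑' N, fS x N :=
  ENNReal.sum_le_tsum _

theorem fS_tendsto {x : ℝ≥0∞} (hx : x ≠ ∞) : Tendsto (fun N => fS x N) atTop (𝓝 0) :=
  ENNReal.tendsto_atTop_zero_of_tsum_ne_top (tsum_fS_ne_top hx)

theorem fS_ne_top {x : ℝ≥0∞} (hx : x ≠ ∞) (N : ℕ) : fS x N ≠ ∞ := by
  unfold fS rf
  exact ENNReal.mul_ne_top (ENNReal.pow_ne_top hx) ENNReal.ofReal_ne_top

theorem fS_of_real {x : ℝ} (hx : 0 ≤ x) (N : ℕ) :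
    ENNReal.ofReal (x ^ N / √(N.factorial : ℝ)) = fS (ENNReal.ofReal x) N := ofReal_rf hx N

/-! ### The laws -/

section law

variable {ε bE b b' t t₂ t' Tm : ℝ} {K : Type} [Countable K]

/-- The pair `(e, m)`: `e` is the exhaust, born at its exit time; `m` is the last line of the chain,
born at the time `β`. -/
noncomputable def phS (ε : ℝ) {N : ℕ} (S : ℕ → Step) (dE dM : ℕ) (β : XA N → ℝ) (x : XA N) :
    Src × Src :=
  (((srcA ε x).1, (srcA ε x).2, dE), (β x, (endA ε S x).2, dM))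

theorem measurable_phS {N : ℕ} (S : ℕ → Step) (dE dM : ℕ) {β : XA N → ℝ} (hβ : Measurable β) :
    Measurable (phS ε S dE dM β) := by
  unfold phS
  exact (measurable_srcA.fst.prodMk (measurable_srcA.snd.prodMk measurable_const)).prodMk
    (hβ.prodMk ((measurable_endA S).snd.prodMk measurable_const))

/-- **A countable sum of laws A.** -/
noncomputable def lamS (ε bE b t t₂ : ℝ) (c : K → ℝ≥0∞) (N : K → ℕ) (S : K → ℕ → Step)
    (dE dM : K → ℕ) (β : ∀ k, XA (N k) → ℝ) : Measure (Src × Src) :=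
  Measure.sum fun k => c k • (lawA ε bE b t t₂ (N k) (S k)).map (phS ε (S k) (dE k) (dM k) (β k))

instance (c : K → ℝ≥0∞) (N : K → ℕ) (S : K → ℕ → Step) (dE dM : K → ℕ)
    (β : ∀ k, XA (N k) → ℝ) : SFinite (lamS ε bE b t t₂ c N S dE dM β) := by
  unfold lamS
  infer_instance

theorem lintegral_lamS {c : K → ℝ≥0∞} {N : K → ℕ} {S : K → ℕ → Step} {dE dM : K → ℕ}
    {β : ∀ k, XA (N k) → ℝ} (hβ : ∀ k, Measurable (β k)) {f : Src × Src → ℝ≥0∞}
    (hf : Measurable f) :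
    ∫⁻ p, f p ∂(lamS ε bE b t t₂ c N S dE dM β) = ∑' k, c k *
      ∫⁻ x, f (phS ε (S k) (dE k) (dM k) (β k) x) ∂(lawA ε bE b t t₂ (N k) (S k)) := by
  unfold lamS
  rw [lintegral_sum_measure]
  refine tsum_congr fun k => ?_
  rw [lintegral_smul_measure, smul_eq_mul, lintegral_map hf (measurable_phS _ _ _ (hβ k))]

/-- Almost everywhere for the law A. -/
theorem lawA_ae {N : ℕ} {S : ℕ → Step} {p : XA N → Prop} (h : ∀ x ∈ evA ε t t₂ S, p x) :
    ∀ᵐ x ∂(lawA ε bE b t t₂ N S), p x := by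
  unfold lawA
  rw [ae_withDensity_iff (measurable_wA S)]
  refine ae_of_all _ fun x hx => h x ?_
  by_contra hcon
  exact hx (wA_of_not hcon)

theorem lintegral_lawA_mono {N : ℕ} {S : ℕ → Step} {f g : XA N → ℝ≥0∞}
    (h : ∀ x ∈ evA ε t t₂ S, f x ≤ g x) :
    ∫⁻ x, f x ∂(lawA ε bE b t t₂ N S) ≤ ∫⁻ x, g x ∂(lawA ε bE b t t₂ N S) :=
  lintegral_mono_ae (lawA_ae h)

/-- The births of the end of the chain. -/
theorem evA_end_nonneg {N : ℕ} {S : ℕ → Step} {x : XA N} (hx : x ∈ evA ε t t₂ S) :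
    0 ≤ (endA ε S x).1 :=
  hx.2.1.1.trans (chain_time N S _ _ _ hx.2.2)

/-- **A property of the pairs.** -/
theorem ae_lamS {c : K → ℝ≥0∞} {N : K → ℕ} {S : K → ℕ → Step} {dE dM : K → ℕ}
    {β : ∀ k, XA (N k) → ℝ} (hβ : ∀ k, Measurable (β k)) {p : Src × Src → Prop}
    (hp : MeasurableSet {q | p q})
    (h : ∀ k, ∀ x ∈ evA ε t t₂ (S k), p (phS ε (S k) (dE k) (dM k) (β k) x)) :
    ∀ᵐ q ∂(lamS ε bE b t t₂ c N S dE dM β), p q := by
  unfold lamS
  rw [Measure.ae_sum_iff' hp]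
  intro k
  refine Measure.ae_smul_measure ?_ _
  rw [ae_map_iff (measurable_phS _ _ _ (hβ k)).aemeasurable hp]
  exact lawA_ae (h k)

/-! ### `HitLam` -/

theorem cHitA_eq (hT : 0 ≤ Tm) (N : ℕ) : cHitA b Tm N =
    KHA b Tm * fS (ENNReal.ofReal (Kc (b / 2 / 2) * (Tm + 1))) N := by
  unfold cHitA cMS
  rw [fS_of_real (mul_nonneg (Kc_nonneg _) (by linarith))]

/-- The constant of a sum of laws A. -/
noncomputable def kpS (c : K → ℝ≥0∞) (N : K → ℕ) (x : ℝ≥0∞) : ℝ≥0∞ := ∑' k, c k * fS x (N k)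

theorem hitL_anti {z' : Ph} {s s' : ℝ} (h : s ≤ s') (l : Ph) :
    hitL ε t z' s' l ≤ hitL ε t z' s l :=
  ind_mono fun h' => ⟨h'.1, lt_of_le_of_lt h h'.2.1, h'.2.2⟩

/-- **`HitLam` for a sum of laws A.** -/
theorem hitLam_lamS {Φ : E3 → ℝ} (hΦ : IsPotential Φ) (hε : 0 < ε) (hε1 : ε ≤ 1) (hb : 0 < b)
    (hbE : b ≤ bE) (hb' : b ≤ b') (ht : 0 ≤ t) (htT : t ≤ Tm) (htt : t₂ ≤ t')
    {c : K → ℝ≥0∞} {N : K → ℕ} {S : K → ℕ → Step} {dE dM : K → ℕ} {β : ∀ k, XA (N k) → ℝ}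
    (hβ : ∀ k, Measurable (β k)) (hend : ∀ k, ∀ x ∈ evA ε t t₂ (S k), (endA ε (S k) x).1 ≤ β k x)
    {A : ℝ≥0∞} {lam : Measure (Src × Src)} (hlam : lam ≤ lamS ε bE b t t₂ c N S dE dM β) :
    HitLam hΦ hε.ne' b' t t' A lam fun j => fS (3 * ENNReal.ofReal (Kc (b / 2 / 2) * (Tm + 1))) j *
      (KHA b Tm * kpS (fun k => c k * A ^ dM k) N
        (ENNReal.ofReal (Kc (b / 2 / 2) * (Tm + 1)))) := by
  intro j z'
  set X : ℝ≥0∞ := ENNReal.ofReal (Kc (b / 2 / 2) * (Tm + 1)) with hX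
  set Z : ℝ≥0∞ := ENNReal.ofReal (ε ^ 2) * ENNReal.ofReal (1 + ‖z'.2‖) with hZ
  have hT0 : 0 ≤ Tm := ht.trans htT
  have hGm : Measurable fun p : Src × Src => Gc hΦ hε.ne' b' t' j (hitL ε t z') p.2.1 p.2.2.1 :=
    measurable_Gc_line (hε := hε) j (measurable_hitL measurable_const measurable_fst
      measurable_snd)
  have hf : Measurable fun p : Src × Src => A ^ p.2.2.2 *
      Gc hΦ hε.ne' b' t' j (hitL ε t z') p.2.1 p.2.2.1 :=
    (measurable_powD A (measurable_snd.comp (measurable_snd.comp measurable_snd))).mul hGm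
  calc ∫⁻ p, A ^ p.2.2.2 * Gc hΦ hε.ne' b' t' j (hitL ε t z') p.2.1 p.2.2.1 ∂lam
      ≤ ∫⁻ p, A ^ p.2.2.2 * Gc hΦ hε.ne' b' t' j (hitL ε t z') p.2.1 p.2.2.1
          ∂(lamS ε bE b t t₂ c N S dE dM β) := lintegral_mono' hlam le_rfl
    _ = ∑' k, c k * ∫⁻ x, A ^ dM k * Gc hΦ hε.ne' b' t' j (hitL ε t z') (β k x)
          (endA ε (S k) x).2 ∂(lawA ε bE b t t₂ (N k) (S k)) := lintegral_lamS hβ hf
    _ ≤ ∑' k, c k * (A ^ dM k * (3 ^ j * (cHitA b Tm (N k + j) * Z))) := by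
        refine ENNReal.tsum_le_tsum fun k => mul_le_mul' le_rfl ?_
        have h1 : ∫⁻ x, A ^ dM k * Gc hΦ hε.ne' b' t' j (hitL ε t z') (β k x)
            (endA ε (S k) x).2 ∂(lawA ε bE b t t₂ (N k) (S k)) ≤
            ∫⁻ x, A ^ dM k * Gc hΦ hε.ne' b' t' j (hitL ε t z') (endA ε (S k) x).1
            (endA ε (S k) x).2 ∂(lawA ε bE b t t₂ (N k) (S k)) :=
          lintegral_lawA_mono fun x hx => mul_le_mul' le_rfl
            (Gc_anti hΦ hε.ne' b' t' j (fun s s' l h => hitL_anti h l) _ _ _ (hend k x hx))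
        refine h1.trans ?_
        have hm : Measurable fun x : XA (N k) => Gc hΦ hε.ne' b' t' j (hitL ε t z')
            (endA ε (S k) x).1 (endA ε (S k) x).2 :=
          (measurable_Gc hΦ hε.ne' b' t' j (measurable_hitL measurable_const measurable_fst
            measurable_snd)).comp (measurable_endA (S k))
        rw [lintegral_const_mul _ hm]
        exact mul_le_mul' le_rfl (hitA_Gc_le hΦ hε hε1 hb hbE hb' ht htT htt (S k) j z')
    _ ≤ ∑' k, (c k * A ^ dM k * fS X (N k)) * (fS (3 * X) j * KHA b Tm * Z) := by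
        refine ENNReal.tsum_le_tsum fun k => ?_
        rw [cHitA_eq hT0, ← mul_fS]
        calc c k * (A ^ dM k * (3 ^ j * (KHA b Tm * fS X (N k + j) * Z)))
            ≤ c k * (A ^ dM k * (3 ^ j * (KHA b Tm * (fS X (N k) * fS X j) * Z))) := by
              gcongr
              exact fS_add_le X (N k) j
          _ = _ := by ring
    _ = _ := by
        rw [ENNReal.tsum_mul_right]
        unfold kpS
        ring

/-! ### The composition -/

section comp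

variable {Φ : E3 → ℝ}

/-- **The iterates, for one law A.** -/
theorem gc_lawA_le (hΦ : IsPotential Φ) (hε : 0 < ε) (hb' : b ≤ b') (htt : t₂ ≤ t') {N : ℕ}
    (S : ℕ → Step) (j : ℕ) {F : ℝ × Ph → ℝ → Ph → ℝ≥0∞}
    (hF : Measurable fun q : (ℝ × Ph) × ℝ × Ph => F q.1 q.2.1 q.2.2) {x₀ X : ℝ≥0∞}
    (hE : ∀ (n : ℕ) (R : ℕ → Step), ∫⁻ x, F (srcA ε x) (endA ε R x).1 (endA ε R x).2
      ∂(lawA ε bE b t t' n R) ≤ fS x₀ n * X) :
    ∫⁻ x, Gc hΦ hε.ne' b' t' j (F (srcA ε x)) (endA ε S x).1 (endA ε S x).2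
        ∂(lawA ε bE b t t₂ N S) ≤ fS x₀ N * (fS (3 * x₀) j * X) := by
  have hFq : ∀ y : ℝ × Ph, Measurable fun q : ℝ × Ph => F y q.1 q.2 := fun y =>
    hF.comp (measurable_const.prodMk measurable_id : Measurable fun q : ℝ × Ph => (y, q))
  have hop : ∀ o : Fin j → Fin 3, Measurable fun x : XA N =>
      opn ε b t' j (stps hΦ hε.ne' o) (F (srcA ε x)) (endA ε S x).1 (endA ε S x).2 := fun o =>
    (measurable_opn_param j (stps hΦ hε.ne' o) hF).comp
      (measurable_srcA.prodMk (measurable_endA S))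
  calc ∫⁻ x, Gc hΦ hε.ne' b' t' j (F (srcA ε x)) (endA ε S x).1 (endA ε S x).2
        ∂(lawA ε bE b t t₂ N S)
      ≤ ∫⁻ x, ∑ o : Fin j → Fin 3, opn ε b t' j (stps hΦ hε.ne' o) (F (srcA ε x))
          (endA ε S x).1 (endA ε S x).2 ∂(lawA ε bE b t t' N S) := by
        refine lintegral_mono' (lawA_mono htt S) fun x => ?_
        rw [Gc_eq_opn hΦ hε.ne' b' t' j (hFq _)]
        exact Finset.sum_le_sum fun o _ => opn_mono_b hb' j _ _ _
    _ = ∑ o : Fin j → Fin 3, ∫⁻ x, opn ε b t' j (stps hΦ hε.ne' o) (F (srcA ε x))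
          (endA ε S x).1 (endA ε S x).2 ∂(lawA ε bE b t t' N S) :=
        lintegral_finsetSum _ fun o _ => hop o
    _ ≤ ∑ _o : Fin j → Fin 3, fS x₀ (N + j) * X := by
        refine Finset.sum_le_sum fun o _ => ?_
        rw [lawA_opn S (stps hΦ hε.ne' o) hF]
        exact hE _ _
    _ = 3 ^ j * (fS x₀ (N + j) * X) := by
        rw [Finset.sum_const, nsmul_eq_mul, Finset.card_univ, Fintype.card_fun, Fintype.card_fin,
          Fintype.card_fin]
        push_cast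
        rfl
    _ ≤ 3 ^ j * ((fS x₀ N * fS x₀ j) * X) := by
        gcongr
        exact fS_add_le x₀ N j
    _ = _ := by
        rw [← mul_fS]
        ring

/-- **The iterates, for a sum of laws A.** -/
theorem gc_lamS_le (hΦ : IsPotential Φ) (hε : 0 < ε) (hb' : b ≤ b') (htt : t₂ ≤ t')
    {c : K → ℝ≥0∞} {N : K → ℕ} {S : K → ℕ → Step} {dE dM : K → ℕ} {β : ∀ k, XA (N k) → ℝ}
    (hβ : ∀ k, Measurable (β k)) (hend : ∀ k, ∀ x ∈ evA ε t t₂ (S k), (endA ε (S k) x).1 ≤ β k x)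
    {lam : Measure (Src × Src)} (hlam : lam ≤ lamS ε bE b t t₂ c N S dE dM β) (j : ℕ)
    {F : Src → ℝ → Ph → ℝ≥0∞} (hF : Measurable fun q : Src × ℝ × Ph => F q.1 q.2.1 q.2.2)
    (hanti : ∀ e s s' l, 0 ≤ s → s ≤ s' → F e s' l ≤ F e s l) {x₀ X : ℝ≥0∞}
    (hE : ∀ (n : ℕ) (R : ℕ → Step) (d : ℕ), ∫⁻ x, F ((srcA ε x).1, (srcA ε x).2, d)
      (endA ε R x).1 (endA ε R x).2 ∂(lawA ε bE b t t' n R) ≤ fS x₀ n * X) :
    ∫⁻ p, Gc hΦ hε.ne' b' t' j (F p.1) p.2.1 p.2.2.1 ∂lam ≤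
      kpS c N x₀ * (fS (3 * x₀) j * X) := by
  have hG : Measurable fun q : Src × ℝ × Ph => Gc hΦ hε.ne' b' t' j (F q.1) q.2.1 q.2.2 :=
    measurable_Gc_param hΦ hε.ne' b' t' j (X := Src) (F := F) hF
  have hf : Measurable fun p : Src × Src => Gc hΦ hε.ne' b' t' j (F p.1) p.2.1 p.2.2.1 :=
    hG.comp (measurable_fst.prodMk (measurable_snd.fst.prodMk measurable_snd.snd.fst))
  have hd : ∀ d : ℕ, Measurable fun q : (ℝ × Ph) × ℝ × Ph =>
      F (q.1.1, q.1.2, d) q.2.1 q.2.2 := fun d =>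
    hF.comp ((measurable_fst.fst.prodMk (measurable_fst.snd.prodMk measurable_const)).prodMk
      measurable_snd)
  calc ∫⁻ p, Gc hΦ hε.ne' b' t' j (F p.1) p.2.1 p.2.2.1 ∂lam
      ≤ ∫⁻ p, Gc hΦ hε.ne' b' t' j (F p.1) p.2.1 p.2.2.1
          ∂(lamS ε bE b t t₂ c N S dE dM β) := lintegral_mono' hlam le_rfl
    _ = ∑' k, c k * ∫⁻ x, Gc hΦ hε.ne' b' t' j (F ((srcA ε x).1, (srcA ε x).2, dE k)) (β k x)
          (endA ε (S k) x).2 ∂(lawA ε bE b t t₂ (N k) (S k)) := lintegral_lamS hβ hf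
    _ ≤ ∑' k, c k * (fS x₀ (N k) * (fS (3 * x₀) j * X)) := by
        refine ENNReal.tsum_le_tsum fun k => mul_le_mul' le_rfl ?_
        refine (lintegral_lawA_mono fun x hx => Gc_anti_nonneg hΦ hε.ne' b' t' j
          (fun s s' l h0 h => hanti _ s s' l h0 h) _ (evA_end_nonneg hx) (hend k x hx)).trans ?_
        exact gc_lawA_le hΦ hε hb' htt (S k) j
          (F := fun y => F (y.1, y.2, dE k)) (hd (dE k)) (fun n R => hE n R (dE k))
    _ = _ := by
        simp_rw [← mul_assoc]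
        rw [ENNReal.tsum_mul_right, ENNReal.tsum_mul_right]
        unfold kpS
        ring

end comp

end law

end Vale.Agent.P119.PB
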