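import Vale.Agent.P119.PB.SE14

/-!
# P119: second events, the law B as a measure (`helper778`)

`lawB n j`: the line `β` with its chain of `n + 1` hits, its sister `m` (exit time in `[0, t]`) with a
chain of `j` hits.  `lpB`: the last pair of the chain of `β`; `srcB`, `endB`: the source of `m` and the
end of its chain.
-/

open MeasureTheory Set Filter Topology Metric ProbabilityTheory
open scoped ENNReal

namespace Vale.Agent.P119.PB

open KU FL

variable {Φ : E3 → ℝ} {ε b t t₂ h t₁ δ c₁ : ℝ} {n j : ℕ} {S S' : ℕ → Step}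

/-- The space of the law B: `(β, p, m, p')`. -/
abbrev XB (n j : ℕ) : Type := Ph × (Fin (n + 1) → Ph) × Ph × (Fin j → Ph)

/-- The last pair of the chain of `β`. -/
noncomputable def lpB (S : ℕ → Step) (x : XB n j) : Ph × Ph := lastPair S n x.1 x.2.1

/-- The source of `m`. -/
noncomputable def srcB (ε : ℝ) (x : XB n j) : ℝ × Ph := (exT ε (x.1, x.2.2.1), x.2.2.1)

/-- The end of the chain of `m`. -/
noncomputable def endB (ε : ℝ) (S' : ℕ → Step) (x : XB n j) : ℝ × Ph :=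
  (time ε S' j (exT ε (x.1, x.2.2.1)) x.2.2.1 x.2.2.2, line S' j x.2.2.1 x.2.2.2)

/-- The event of the law B. -/
def evB (ε t t₂ : ℝ) (S S' : ℕ → Step) : Set (XB n j) :=
  {x | Meets ε (x.1, x.2.2.1) ∧ exT ε (x.1, x.2.2.1) ∈ Icc 0 t ∧
    Chain ε t S (n + 1) (exT ε (x.1, x.2.2.1)) x.1 x.2.1 ∧
    Chain ε t₂ S' j (exT ε (x.1, x.2.2.1)) x.2.2.1 x.2.2.2}

/-- The density of the law B. -/
noncomputable def wLB (ε b t t₂ : ℝ) (S S' : ℕ → Step) : XB n j → ℝ≥0∞ :=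
  (evB ε t t₂ S S').indicator fun x => (gw b x.1.2 * FL.wt b ε (n + 1) x.2.1) *
    (muE ε * gw b x.2.2.1.2 * FL.wt b ε j x.2.2.2)

/-- The reference measure. -/
noncomputable def volB (n j : ℕ) : Measure (XB n j) :=
  (volume : Measure Ph).prod ((volume : Measure (Fin (n + 1) → Ph)).prod
    ((volume : Measure Ph).prod (volume : Measure (Fin j → Ph))))

instance (n j : ℕ) : SigmaFinite (volB n j) := by unfold volB; infer_instance

/-- The law B. -/
noncomputable def lawB (ε b t t₂ : ℝ) (n j : ℕ) (S S' : ℕ → Step) : Measure (XB n j) :=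
  (volB n j).withDensity (wLB ε b t t₂ S S')

theorem measurable_pairB : Measurable fun x : XB n j => ((x.1, x.2.2.1) : Ph × Ph) := by
  fun_prop

theorem measurable_exB : Measurable fun x : XB n j => exT ε (x.1, x.2.2.1) :=
  measurable_exT.comp measurable_pairB

theorem measurable_srcB : Measurable (srcB ε : XB n j → ℝ × Ph) :=
  measurable_exB.prodMk measurable_snd.snd.fst

theorem measurable_lpB (S : ℕ → Step) : Measurable (lpB S : XB n j → Ph × Ph) :=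
  (measurable_lastPair n S).comp (measurable_fst.prodMk measurable_snd.fst)

theorem measurable_endB (S' : ℕ → Step) : Measurable (endB ε S' : XB n j → ℝ × Ph) := by
  refine Measurable.prodMk ?_ ?_
  · exact (measurable_time j S').comp (measurable_exB.prodMk (measurable_snd.snd.fst.prodMk
      measurable_snd.snd.snd))
  · exact (measurable_line j S').comp (measurable_snd.snd.fst.prodMk measurable_snd.snd.snd)

theorem measurableSet_evB (S S' : ℕ → Step) :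
    MeasurableSet (evB ε t t₂ S S' : Set (XB n j)) := by
  have h1 : MeasurableSet {x : XB n j | Meets ε (x.1, x.2.2.1)} :=
    measurable_pairB measurableSet_meets
  have h2 : MeasurableSet {x : XB n j | exT ε (x.1, x.2.2.1) ∈ Icc 0 t} :=
    measurable_exB measurableSet_Icc
  have h3 : MeasurableSet {x : XB n j |
      Chain ε t S (n + 1) (exT ε (x.1, x.2.2.1)) x.1 x.2.1} :=
    (measurable_exB.prodMk (measurable_fst.prodMk measurable_snd.fst) :
      Measurable fun x : XB n j => (exT ε (x.1, x.2.2.1), x.1, x.2.1))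
      (measurableSet_chain (n + 1) S)
  have h4 : MeasurableSet {x : XB n j |
      Chain ε t₂ S' j (exT ε (x.1, x.2.2.1)) x.2.2.1 x.2.2.2} :=
    (measurable_exB.prodMk (measurable_snd.snd.fst.prodMk measurable_snd.snd.snd) :
      Measurable fun x : XB n j => (exT ε (x.1, x.2.2.1), x.2.2.1, x.2.2.2))
      (measurableSet_chain j S')
  exact h1.inter (h2.inter (h3.inter h4))

theorem measurable_wLB (S S' : ℕ → Step) : Measurable (wLB ε b t t₂ S S' : XB n j → ℝ≥0∞) := by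
  unfold wLB
  refine Measurable.indicator ?_ (measurableSet_evB S S')
  have h1 : Measurable fun x : XB n j => gw b x.1.2 := (measurable_gw b).comp measurable_fst.snd
  have h2 : Measurable fun x : XB n j => FL.wt b ε (n + 1) x.2.1 :=
    (FL.measurable_wt b ε (n + 1)).comp measurable_snd.fst
  have h3 : Measurable fun x : XB n j => gw b x.2.2.1.2 :=
    (measurable_gw b).comp measurable_snd.snd.fst.snd
  have h4 : Measurable fun x : XB n j => FL.wt b ε j x.2.2.2 :=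
    (FL.measurable_wt b ε j).comp measurable_snd.snd.snd
  exact (h1.mul h2).mul ((h3.const_mul _).mul h4)

theorem wLB_of {x : XB n j} (hx : x ∈ evB ε t t₂ S S') :
    wLB ε b t t₂ S S' x = (gw b x.1.2 * FL.wt b ε (n + 1) x.2.1) *
      (muE ε * gw b x.2.2.1.2 * FL.wt b ε j x.2.2.2) := indicator_of_mem hx _

theorem wLB_of_not {x : XB n j} (hx : x ∉ evB ε t t₂ S S') : wLB ε b t t₂ S S' x = 0 :=
  indicator_of_notMem hx _

theorem wLB_ne_top {x : XB n j} : wLB ε b t t₂ S S' x ≠ ∞ := by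
  by_cases hx : x ∈ evB ε t t₂ S S'
  · rw [wLB_of hx]
    exact ENNReal.mul_ne_top (ENNReal.mul_ne_top ENNReal.ofReal_ne_top wt_ne_top)
      (ENNReal.mul_ne_top (ENNReal.mul_ne_top muE_ne_top ENNReal.ofReal_ne_top) wt_ne_top)
  · rw [wLB_of_not hx]; exact ENNReal.zero_ne_top

instance : SigmaFinite (lawB ε b t t₂ n j S S') := by
  unfold lawB
  exact SigmaFinite.withDensity_of_ne_top (ae_of_all _ fun _ => wLB_ne_top)

/-- The integrand of the law B. -/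
noncomputable def inB (ε b t t₂ : ℝ) (S S' : ℕ → Step) (F : XB n j → ℝ≥0∞) (β : Ph)
    (p : Fin (n + 1) → Ph) (m : Ph) (p' : Fin j → Ph) : ℝ≥0∞ :=
  wLB ε b t t₂ S S' (β, p, m, p') * F (β, p, m, p')

theorem inB_ne {F : XB n j → ℝ≥0∞} {β : Ph} {p : Fin (n + 1) → Ph} {m : Ph} {p' : Fin j → Ph}
    (h : inB ε b t t₂ S S' F β p m p' ≠ 0) :
    (β, p, m, p') ∈ evB ε t t₂ S S' ∧ F (β, p, m, p') ≠ 0 := by
  constructor
  · by_contra hcon
    exact h (by unfold inB; rw [wLB_of_not hcon, zero_mul])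
  · intro hcon
    exact h (by unfold inB; rw [hcon, mul_zero])

theorem inB_le {F : XB n j → ℝ≥0∞} {β : Ph} {p : Fin (n + 1) → Ph} {m : Ph} {p' : Fin j → Ph}
    {g : ℝ≥0∞} (h : inB ε b t t₂ S S' F β p m p' ≠ 0) (hF : F (β, p, m, p') ≤ g) :
    inB ε b t t₂ S S' F β p m p' ≤ g * (gw b β.2 * FL.wt b ε (n + 1) p) *
      (muE ε * gw b m.2 * FL.wt b ε j p') := by
  unfold inB
  rw [wLB_of (inB_ne h).1]
  calc (gw b β.2 * FL.wt b ε (n + 1) p) * (muE ε * gw b m.2 * FL.wt b ε j p') *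
        F (β, p, m, p')
      ≤ (gw b β.2 * FL.wt b ε (n + 1) p) * (muE ε * gw b m.2 * FL.wt b ε j p') * g := by
        gcongr
    _ = _ := by ring

theorem lintegral_lawB (S S' : ℕ → Step) {F : XB n j → ℝ≥0∞} (hF : Measurable F) :
    ∫⁻ x, F x ∂(lawB ε b t t₂ n j S S') =
      ∫⁻ β : Ph, ∫⁻ p : Fin (n + 1) → Ph, ∫⁻ m : Ph, ∫⁻ p' : Fin j → Ph,
        inB ε b t t₂ S S' F β p m p' := by
  unfold lawB
  have hw := measurable_wLB (ε := ε) (b := b) (t := t) (t₂ := t₂) (n := n) (j := j) S S'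
  rw [lintegral_withDensity_eq_lintegral_mul _ hw hF]
  have hm : Measurable fun x : XB n j => wLB ε b t t₂ S S' x * F x := hw.mul hF
  change ∫⁻ x : XB n j, wLB ε b t t₂ S S' x * F x ∂(volB n j) = _
  unfold volB
  rw [lintegral_prod _ hm.aemeasurable]
  refine lintegral_congr fun β => ?_
  have hm2 : Measurable fun y : (Fin (n + 1) → Ph) × Ph × (Fin j → Ph) =>
      wLB ε b t t₂ S S' (β, y) * F (β, y) := hm.comp (measurable_const.prodMk measurable_id)
  rw [lintegral_prod _ hm2.aemeasurable]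
  refine lintegral_congr fun p => ?_
  have hm3 : Measurable fun y : Ph × (Fin j → Ph) =>
      wLB ε b t t₂ S S' (β, p, y) * F (β, p, y) := hm2.comp (measurable_const.prodMk measurable_id)
  rw [lintegral_prod _ hm3.aemeasurable]
  rfl

/-- Four-fold Tonelli. -/
theorem swap4 {A B C D : Type*} [MeasurableSpace A] [MeasurableSpace B] [MeasurableSpace C]
    [MeasurableSpace D] {μA : Measure A} {μB : Measure B} {μC : Measure C} {μD : Measure D}
    [SFinite μA] [SFinite μB] [SFinite μC] [SFinite μD] {K : A → B → C → D → ℝ≥0∞}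
    (hK : Measurable fun w : (A × B) × (C × D) => K w.1.1 w.1.2 w.2.1 w.2.2) :
    ∫⁻ a, ∫⁻ b, ∫⁻ c, ∫⁻ d, K a b c d ∂μD ∂μC ∂μB ∂μA =
      ∫⁻ c, ∫⁻ d, ∫⁻ a, ∫⁻ b, K a b c d ∂μB ∂μA ∂μD ∂μC := by
  have e1 : ∫⁻ a, ∫⁻ b, ∫⁻ c, ∫⁻ d, K a b c d ∂μD ∂μC ∂μB ∂μA =
      ∫⁻ y : A × B, ∫⁻ z : C × D, K y.1 y.2 z.1 z.2 ∂(μC.prod μD) ∂(μA.prod μB) := by
    have hm2 : Measurable fun y : A × B => ∫⁻ z : C × D, K y.1 y.2 z.1 z.2 ∂(μC.prod μD) :=
      hK.lintegral_prod_right'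
    rw [lintegral_prod _ hm2.aemeasurable]
    refine lintegral_congr fun a => lintegral_congr fun b => ?_
    have hm3 : Measurable fun z : C × D => K a b z.1 z.2 :=
      hK.comp (measurable_const.prodMk measurable_id : Measurable fun z : C × D =>
        (((a, b) : A × B), z))
    rw [lintegral_prod _ hm3.aemeasurable]
  have hK' : Measurable fun w : (C × D) × (A × B) => K w.2.1 w.2.2 w.1.1 w.1.2 :=
    hK.comp measurable_swap
  have e2 : ∫⁻ c, ∫⁻ d, ∫⁻ a, ∫⁻ b, K a b c d ∂μB ∂μA ∂μD ∂μC =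
      ∫⁻ z : C × D, ∫⁻ y : A × B, K y.1 y.2 z.1 z.2 ∂(μA.prod μB) ∂(μC.prod μD) := by
    have hm2 : Measurable fun z : C × D => ∫⁻ y : A × B, K y.1 y.2 z.1 z.2 ∂(μA.prod μB) :=
      hK'.lintegral_prod_right'
    rw [lintegral_prod _ hm2.aemeasurable]
    refine lintegral_congr fun c => lintegral_congr fun d => ?_
    have hm3 : Measurable fun y : A × B => K y.1 y.2 c d :=
      hK'.comp (measurable_const.prodMk measurable_id : Measurable fun y : A × B =>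
        (((c, d) : C × D), y))
    rw [lintegral_prod _ hm3.aemeasurable]
  rw [e1, e2]
  exact lintegral_lintegral_swap (f := fun (y : A × B) (z : C × D) => K y.1 y.2 z.1 z.2)
    hK.aemeasurable

/-- The law B with the roles exchanged. -/
theorem lintegral_lawB' (S S' : ℕ → Step) {F : XB n j → ℝ≥0∞} (hF : Measurable F) :
    ∫⁻ x, F x ∂(lawB ε b t t₂ n j S S') =
      ∫⁻ m : Ph, ∫⁻ p' : Fin j → Ph, ∫⁻ β : Ph, ∫⁻ p : Fin (n + 1) → Ph,
        inB ε b t t₂ S S' F β p m p' := by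
  have hw := measurable_wLB (ε := ε) (b := b) (t := t) (t₂ := t₂) (n := n) (j := j) S S'
  have hm : Measurable fun x : XB n j => wLB ε b t t₂ S S' x * F x := hw.mul hF
  rw [lintegral_lawB S S' hF]
  refine swap4 ?_
  have h1 : Measurable fun w : (Ph × (Fin (n + 1) → Ph)) × (Ph × (Fin j → Ph)) =>
      ((w.1.1, w.1.2, w.2.1, w.2.2) : XB n j) := by fun_prop
  exact hm.comp h1

/-! ### Bounds -/

/-- **Mass.** -/
theorem lawB_mass (hε : 0 < ε) (hb : 0 < b) (ht₂ : t ≤ t₂) (hS : ∀ n, RevStep ε (S n))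
    {F : XB n j → ℝ≥0∞} (hF : Measurable F) {G : Ph × Ph → ℝ≥0∞} (hG : Measurable G)
    (hg : ∀ x ∈ evB ε t t₂ S S', F x ≤ G (lpB S x)) :
    ∫⁻ x, F x ∂(lawB ε b t t₂ n j S S') ≤ K1.sig univ * (ENNReal.ofReal t *
      (ENNReal.ofReal (KB b t n) * pairG ε (b / 4) 0 t (fun q => cM b t₂ j * G q))) := by
  rw [lintegral_lawB S S' hF]
  refine caseB_massT (S := S) (S' := S') (Ψ := inB ε b t t₂ S S' F) hε hb ht₂ hS hG
    fun β p m p' hne => ?_
  obtain ⟨h1, -⟩ := inB_ne hne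
  exact ⟨h1.1, h1.2.1, h1.2.2.1, h1.2.2.2, inB_le hne (hg _ h1)⟩

/-- **Mass, with all the hits of `m` before `σ + δ`.** -/
theorem lawB_short (hε : 0 < ε) (hb : 0 < b) (hδ : 0 ≤ δ) (hS : ∀ n, RevStep ε (S n))
    {F : XB n j → ℝ≥0∞} (hF : Measurable F) {G : Ph × Ph → ℝ≥0∞} (hG : Measurable G)
    (hg : ∀ x ∈ evB ε t t₂ S S', F x ≠ 0 →
      (endB ε S' x).1 < (srcB ε x).1 + δ ∧ F x ≤ G (lpB S x)) :
    ∫⁻ x, F x ∂(lawB ε b t t₂ n j S S') ≤ K1.sig univ * (ENNReal.ofReal t *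
      (ENNReal.ofReal (KB b t n) * pairG ε (b / 4) 0 t (fun q => cM b δ j * G q))) := by
  rw [lintegral_lawB S S' hF]
  refine caseB' (t := t) hε hb hS (hG.const_mul _)
    (F := fun β m p => ∫⁻ p', inB ε b t t₂ S S' F β p m p') ?_ ?_
  · intro β m p hne
    obtain ⟨p', hp⟩ : ∃ p', inB ε b t t₂ S S' F β p m p' ≠ 0 := by
      by_contra hcon
      push Not at hcon
      exact hne (by simp [hcon])
    have h1 := (inB_ne hp).1
    exact ⟨h1.1, h1.2.1, h1.2.2.1⟩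
  · intro σ hσ ξ hξ β p hch
    set q := lastPair S n β p with hq
    have h1 := sis_mass_d (b := b) (S := S') (σ := σ) hε hb β hξ hδ
      (g := G q * (gw b β.2 * FL.wt b ε (n + 1) p))
      (Ψ := fun m p' => inB ε b t t₂ S S' F β p m p') (by
        intro m p' hm hne
        obtain ⟨h2, h3⟩ := inB_ne hne
        obtain ⟨h4, h5⟩ := hg _ h2 h3
        have h6 := inB_le hne h5
        have h7 := h2.2.2.2
        simp only [srcB, endB, hm] at h4 h6 h7
        exact ⟨chain_of_time_lt j S' _ _ _ h7 h4, h6⟩)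
    refine le_trans (le_of_eq ?_) (h1.trans ?_)
    · refine lintegral_congr fun u => ?_
      rw [lintegral_const_mul' _ _ (ENNReal.mul_ne_top ENNReal.ofReal_ne_top enorm_ne_top)]
    · have h3 : ENNReal.ofReal (1 + ‖β.2‖) ≤ ENNReal.ofReal (Ke b β) := by
        apply ENNReal.ofReal_le_ofReal
        unfold Ke
        have h4 : 1 ≤ √2 * (1 + 1 / √b) := by
          have h5 : 1 ≤ √2 := by rw [Real.one_le_sqrt]; norm_num
          have h6 : (0 : ℝ) ≤ 1 / √b := by positivity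
          nlinarith
        have h7 : 0 ≤ 1 + ‖β.2‖ := by positivity
        nlinarith
      calc G q * (gw b β.2 * FL.wt b ε (n + 1) p) * (ENNReal.ofReal (1 + ‖β.2‖) * cM b δ j)
          ≤ G q * (gw b β.2 * FL.wt b ε (n + 1) p) * (ENNReal.ofReal (Ke b β) * cM b δ j) := by
            gcongr
        _ = (ENNReal.ofReal (Ke b β) * gw b β.2) * (FL.wt b ε (n + 1) p *
            (cM b δ j * G q)) := by ring
        _ = _ := rfl

/-- **Long lag.** -/
theorem lawB_long (hε : 0 < ε) (hb : 0 < b) (hδ : 0 < δ) (hc₁ : 0 ≤ c₁)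
    (hS : ∀ n, RevStep ε (S n)) (X : PathFam ε S' j c₁) {ι : Type*} {h : Ph × Ph → ℝ}
    (ht₁ : t ≤ t₁) (hh : ∀ q, h q < t₁) (I : Ph × Ph → Finset ι)
    (T : ∀ q : Ph × Ph, ι → Target (h q)) {g G : Ph × Ph → ℝ≥0∞} (hgt : ∀ q, g q ≠ ∞)
    (hG : Measurable G) (hgG : ∀ q, g q * ∑ i ∈ I q, (T q i).w ε ≤ G q)
    {F : XB n j → ℝ≥0∞} (hF : Measurable F)
    (hg : ∀ x ∈ evB ε t t₂ S S', F x ≠ 0 →
      (∃ i ∈ I (lpB S x), ∃ τ ∈ Icc (max (max (T (lpB S x) i).a ((srcB ε x).1 + δ))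
        (endB ε S' x).1) (h (lpB S x)), ‖X.X x.2.2.1 x.2.2.2 τ - (T (lpB S x) i).Y τ‖ ≤ ε) ∧
      F x ≤ g (lpB S x)) :
    ∫⁻ x, F x ∂(lawB ε b t t₂ n j S S') ≤ K1.sig univ * (ENNReal.ofReal t *
      (ENNReal.ofReal (KB b t n) * pairG ε (b / 4) 0 t
        (fun q => (ENNReal.ofReal (ε ^ 2) * cH b c₁ δ t₁ j) * G q))) := by
  rw [lintegral_lawB S S' hF]
  refine caseB_long (S := S) (S' := S') (t₂ := t₂) (Ψ := inB ε b t t₂ S S' F) hε hb hδ hc₁ hS X
    ht₁ hh I T hgt hG hgG fun β p m p' hne => ?_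
  obtain ⟨h1, h2⟩ := inB_ne hne
  obtain ⟨h3, h4⟩ := hg _ h1 h2
  exact ⟨h1.1, h1.2.1, h1.2.2.1, h1.2.2.2, h3, inB_le hne h4⟩

theorem lawB_young_aux (hε : 0 < ε) (hb : 0 < b) (X : PathFam ε S' j c₁)
    {ι : Type*} (I : Finset ι) (T : ι → Target h) {F : XB n j → ℝ≥0∞} (hF : Measurable F)
    (hg : ∀ x ∈ evB ε t t₂ S S', F x ≠ 0 →
      (∃ i ∈ I, ∃ τ ∈ Icc (max (T i).a (endB ε S' x).1) h, τ ≤ (srcB ε x).1 + δ ∧
        ‖X.X x.2.2.1 x.2.2.2 τ - (T i).Y τ‖ ≤ ε) ∧ F x ≤ 1) :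
    ∫⁻ x, F x ∂(lawB ε b t t₂ n j S S') ≤
      (K1.sig univ * cM b t (n + 1) * ENNReal.ofReal (1 + 1 / √b)) *
        ∫⁻ l : Ph, ∫⁻ q, (gw (b / 2) l.2 * FL.wt (b / 2) ε j q) * yI X t t₂ δ I T l q := by
  rw [lintegral_lawB' S S' hF]
  refine short_lag (t := t) (t₂ := t₂) (t₃ := t) (h := h) (δ := δ) (S := S) (n := n + 1) hε hb
    le_rfl X I T (Ψ := fun m p' β p => inB ε b t t₂ S S' F β p m p') ?_
  intro m p' β p hne
  obtain ⟨h2, h3⟩ := inB_ne hne
  have e1 : exT ε (m, β) = exT ε (β, m) := exT_swap (β, m)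
  obtain ⟨⟨i, hi, τ, h4, h5, h6⟩, h7⟩ := hg _ h2 h3
  refine ⟨(meets_swap (β, m)).2 h2.1, ?_, ?_, ?_, ?_⟩
  · rw [e1]; exact h2.2.1
  · rw [e1]; exact h2.2.2.1
  · rw [e1]; exact ⟨h2.2.2.2, i, hi, τ, h4, h5, h6⟩
  · refine (inB_le hne h7).trans (le_of_eq (by ring))

/-- **Short lag of a line.** -/
theorem lawB_young (hε : 0 < ε) (hb : 0 < b) (hδ : 0 < δ) (ht : 0 ≤ t)
    (ht₁ : h < t₁) {ι : Type*} (I : Finset ι) (T : ι → Target h) {F : XB n j → ℝ≥0∞}
    (hF : Measurable F) (hg : ∀ x ∈ evB ε t t₂ S S', F x ≠ 0 →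
      (∃ i ∈ I, ∃ τ ∈ Icc (max (T i).a (endB ε S' x).1) h, τ ≤ (srcB ε x).1 + δ ∧
        ‖(endB ε S' x).2.1 + τ • (endB ε S' x).2.2 - (T i).Y τ‖ ≤ ε) ∧ F x ≤ 1) :
    ∫⁻ x, F x ∂(lawB ε b t t₂ n j S S') ≤
      (K1.sig univ * cM b t (n + 1) * ENNReal.ofReal (1 + 1 / √b)) *
        (ENNReal.ofReal (ε ^ 2) * cF1 (b / 2) 1 t₁ j * yW ε t δ I T) :=
  (lawB_young_aux hε hb (lineFam ε S' j) I T hF hg).trans
    (mul_le_mul' le_rfl (young_line hε (by positivity) hδ ht ht₁ S' j I T))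

/-- **Short lag of a pair.** -/
theorem lawB_young_pair (hε : 0 < ε) (hb : 0 < b) (hc₁ : 0 ≤ c₁) (ht₁ : h < t₁)
    (X : PathFam ε S' (j + 1) c₁) {ι : Type*} (I : Finset ι) (T : ι → Target h)
    {F : XB n (j + 1) → ℝ≥0∞} (hF : Measurable F) (hg : ∀ x ∈ evB ε t t₂ S S', F x ≠ 0 →
      (∃ i ∈ I, ∃ τ ∈ Icc (max (T i).a (endB ε S' x).1) h, τ ≤ (srcB ε x).1 + δ ∧
        ‖X.X x.2.2.1 x.2.2.2 τ - (T i).Y τ‖ ≤ ε) ∧ F x ≤ 1) :
    ∫⁻ x, F x ∂(lawB ε b t t₂ n (j + 1) S S') ≤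
      (K1.sig univ * cM b t (n + 1) * ENNReal.ofReal (1 + 1 / √b)) *
        (ENNReal.ofReal (ε ^ 2) * cF1 (b / 2) c₁ t₁ (j + 1) * yW ε t δ I T) :=
  (lawB_young_aux hε hb X I T hF hg).trans
    (mul_le_mul' le_rfl (young_pair hε (by positivity) hc₁ ht₁ X I T))

end Vale.Agent.P119.PB
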