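import Vale.Agent.P119.PB.BLA
import Vale.Agent.P119.PB.SE15
import Vale.Agent.P119.PB.Geom
import Vale.Agent.P119.PB.LamS

/-!
# P119, block PROB: the law B is a bounded elementary law (`helper76`)

* `Exh Φ ε ψ`: the sources `ψ q` which are created by a pair `q`: `exh_out1`, `exh_out2` (the
  outgoing lines), `exh_old` (the undeflected second line);
* `BL_lineB`: the law B, the moving point is on the last line of the chain of `m`;
* `BL_pairB1`, `BL_pairB2`: the moving point is a particle of the last pair of the chain of `m`.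

The source `e` is `ψ` of the last pair of the chain of `β`.
-/

open MeasureTheory Set Filter Topology Metric ProbabilityTheory
open scoped ENNReal NNReal

noncomputable section

namespace Vale.Agent.P119.PB

open KU M M.CTree FL FB RB EN AU

variable {Φ : E3 → ℝ} {ε b t t₂ t₁ δ c₁ : ℝ} {n j : ℕ} {S S' : ℕ → Step}

/-! ### The sources created by a pair -/

/-- The sources which are created by a pair. -/
structure Exh (ε : ℝ) (ψ : Ph × Ph → ℝ × Ph) : Prop where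
  meas : Measurable ψ
  le : ∀ q, Meets ε q → hitT ε q ≤ (ψ q).1
  bd : ∀ {b β s t : ℝ}, 0 < b → 0 ≤ s → b ≤ β → ∀ {G : Ph × Ph → ℝ≥0∞} {θ : ℝ × Ph → ℝ≥0∞},
    Measurable θ → (∀ q, G q ≤ (Iic t).indicator (fun τ => θ (τ, (ψ q).2)) (ψ q).1) →
    pairG ε β s t G ≤ ENNReal.ofReal (KG b) * srcI (β - b / 2) t θ

/-- `pairG` does not see the pairs which do not separate. -/
theorem pairG_exits (hΦ : IsPotential Φ) (hε : ε ≠ 0) {β s t : ℝ} {G G' : Ph × Ph → ℝ≥0∞}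
    (h : ∀ q, Meets ε q → Exits Φ (rel ε q) → G q = G' q) : pairG ε β s t G = pairG ε β s t G' := by
  unfold pairG
  congr 1
  have hMs : MeasurableSet {q : Ph × Ph | Meets ε q} := measurableSet_meets
  refine setLIntegral_congr_fun_ae hMs ?_
  filter_upwards [ae_exits_pair hΦ hε] with q hq hm
  by_cases h2 : hitT ε q ∈ Ioo s t
  · rw [indicator_of_mem h2, indicator_of_mem h2, h q hm hq]
  · rw [indicator_of_notMem h2, indicator_of_notMem h2]

theorem max_sepT (hΦ : IsPotential Φ) (hε : 0 < ε) {q : Ph × Ph} (hm : Meets ε q)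
    (hx : Exits Φ (rel ε q)) : max (sepT Φ ε q) (hitT ε q) = sepT Φ ε q :=
  max_eq_left (hitT_lt_sepT hΦ hε hx hm.2).le

/-- The first outgoing line. -/
theorem exh_out1 (hΦ : IsPotential Φ) (hε : 0 < ε) :
    Exh ε fun q => (max (sepT Φ ε q) (hitT ε q), (sc2 Φ ε q).1) where
  meas := ((measurable_sepT hΦ).max measurable_hitT).prodMk (measurable_sc2 hΦ hε.ne').fst
  le := fun q _ => le_max_right _ _
  bd := by
    classical
    intro b β s t hb hs hβ G θ hθ hG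
    rw [pairG_exits hΦ hε.ne' (G' := fun q => if Meets ε q ∧ Exits Φ (rel ε q) then G q else 0)
      fun q hm hx => by rw [if_pos ⟨hm, hx⟩]]
    refine pairG_out1 hΦ hε hb hs hβ hθ fun q => ?_
    split_ifs with h
    · refine (hG q).trans (le_of_eq ?_)
      simp only
      rw [max_sepT hΦ hε h.1 h.2]
    · exact zero_le

/-- The second outgoing line. -/
theorem exh_out2 (hΦ : IsPotential Φ) (hε : 0 < ε) :
    Exh ε fun q => (max (sepT Φ ε q) (hitT ε q), (sc2 Φ ε q).2) where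
  meas := ((measurable_sepT hΦ).max measurable_hitT).prodMk (measurable_sc2 hΦ hε.ne').snd
  le := fun q _ => le_max_right _ _
  bd := by
    classical
    intro b β s t hb hs hβ G θ hθ hG
    rw [pairG_exits hΦ hε.ne' (G' := fun q => if Meets ε q ∧ Exits Φ (rel ε q) then G q else 0)
      fun q hm hx => by rw [if_pos ⟨hm, hx⟩]]
    refine pairG_out2 hΦ hε hb hs hβ hθ fun q => ?_
    split_ifs with h
    · refine (hG q).trans (le_of_eq ?_)
      simp only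
      rw [max_sepT hΦ hε h.1 h.2]
    · exact zero_le

theorem exh_old (hε : 0 < ε) : Exh ε fun q => (hitT ε q, q.2) where
  meas := measurable_hitT.prodMk measurable_snd
  le := fun _ _ => le_rfl
  bd := by
    intro b β s t hb hs hβ G θ hθ hG
    refine (pairG_le G (H := fun q => (Iic t).indicator (fun τ => θ (τ, q.2)) (hitT ε q))
      fun q _ _ _ => hG q).trans ?_
    exact (mul_le_mul' le_rfl (flux_old hε hb hβ hθ)).trans (flux_const hε hb hs hβ)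

theorem srcI_le_srcJ {β : ℝ} (g : ℝ × Ph → ℝ≥0∞) : srcI β t g ≤ srcJ β t g :=
  lintegral_mono_set Ioc_subset_Icc_self

theorem srcI_const_mul {β : ℝ} {g : ℝ × Ph → ℝ≥0∞} (hg : Measurable g) (C : ℝ≥0∞) :
    srcI β t (fun y => C * g y) = C * srcI β t g := by
  have hw : Measurable fun q : ℝ × Ph => gw β q.2.2 := (measurable_gw β).comp measurable_snd.snd
  have h0 : Measurable fun q : ℝ × Ph => gw β q.2.2 * g q := hw.mul hg
  have h1 : ∀ σ : ℝ, ∫⁻ z : Ph, gw β z.2 * (C * g (σ, z)) =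
      C * ∫⁻ z : Ph, gw β z.2 * g (σ, z) := by
    intro σ
    have hm : Measurable fun z : Ph => ((σ, z) : ℝ × Ph) := measurable_const.prodMk measurable_id
    have hg' : Measurable fun z : Ph => g (σ, z) := hg.comp hm
    have hw' : Measurable fun z : Ph => gw β z.2 := (measurable_gw β).comp measurable_snd
    have h4 : Measurable fun z : Ph => gw β z.2 * g (σ, z) := hw'.mul hg'
    rw [← lintegral_const_mul C h4]
    exact lintegral_congr fun z => by ring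
  unfold srcI
  have h3 : ∀ σ : ℝ, ∫⁻ z : Ph, gw β z.2 * (C * g (σ, z)) = C * ∫⁻ z : Ph, gw β z.2 * g (σ, z) := h1
  calc ∫⁻ τ in Ioc 0 t, ∫⁻ z : Ph, gw β z.2 * (C * g (τ, z))
      = ∫⁻ τ in Ioc 0 t, C * ∫⁻ z : Ph, gw β z.2 * g (τ, z) := lintegral_congr fun τ => h3 τ
    _ = C * ∫⁻ τ in Ioc 0 t, ∫⁻ z : Ph, gw β z.2 * g (τ, z) :=
        lintegral_const_mul C h0.lintegral_prod_right'

open Classical in
/-- A function of the source which is created by the pair. -/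
def ofP (ψ : Ph × Ph → ℝ × Ph) (t : ℝ) (g : ℝ × Ph → ℝ≥0∞) (q : Ph × Ph) : ℝ≥0∞ :=
  (Iic t).indicator (fun τ => g (τ, (ψ q).2)) (ψ q).1

theorem ofP_of {ψ : Ph × Ph → ℝ × Ph} {g : ℝ × Ph → ℝ≥0∞} {q : Ph × Ph} (h : (ψ q).1 ≤ t) :
    ofP ψ t g q = g (ψ q) := indicator_of_mem (show (ψ q).1 ∈ Iic t from h) _

theorem ofP_of_not {ψ : Ph × Ph → ℝ × Ph} {g : ℝ × Ph → ℝ≥0∞} {q : Ph × Ph} (h : ¬(ψ q).1 ≤ t) :
    ofP ψ t g q = 0 := indicator_of_notMem (show (ψ q).1 ∉ Iic t from h) _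

theorem measurable_ofP {ψ : Ph × Ph → ℝ × Ph} (hψ : Measurable ψ) {g : ℝ × Ph → ℝ≥0∞}
    (hg : Measurable g) : Measurable (ofP ψ t g) := by
  have e : ofP ψ t g = {q : Ph × Ph | (ψ q).1 ≤ t}.indicator fun q => g (ψ q) := by
    ext q
    by_cases h : (ψ q).1 ≤ t
    · rw [ofP_of h, indicator_of_mem (show q ∈ {q : Ph × Ph | (ψ q).1 ≤ t} from h)]
    · rw [ofP_of_not h, indicator_of_notMem (show q ∉ {q : Ph × Ph | (ψ q).1 ≤ t} from h)]
  rw [e]
  exact (hg.comp hψ).indicator (measurableSet_le hψ.fst measurable_const)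

theorem ofP_ne_top {ψ : Ph × Ph → ℝ × Ph} {g : ℝ × Ph → ℝ≥0∞} (hg : ∀ y, g y ≠ ∞) (q : Ph × Ph) :
    ofP ψ t g q ≠ ∞ := by
  by_cases h : (ψ q).1 ≤ t
  · rw [ofP_of h]; exact hg _
  · rw [ofP_of_not h]; exact ENNReal.zero_ne_top

/-- From the last pair to the source which it creates. -/
theorem Exh.pair_le {ψ : Ph × Ph → ℝ × Ph} (hψ : Exh ε ψ) (hb : 0 < b) {g : ℝ × Ph → ℝ≥0∞}
    (hg : Measurable g) (C : ℝ≥0∞) :
    pairG ε (b / 4) 0 t (fun q => C * ofP ψ t g q) ≤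
      ENNReal.ofReal (KG (b / 4)) * (C * srcJ (b / 8) t g) := by
  have h1 := hψ.bd (b := b / 4) (β := b / 4) (s := 0) (t := t) (by positivity) le_rfl le_rfl
    (G := fun q => C * ofP ψ t g q) (θ := fun y => C * g y) (hg.const_mul C) fun q => by
      by_cases h : (ψ q).1 ≤ t
      · rw [ofP_of h, indicator_of_mem (show (ψ q).1 ∈ Iic t from h)]
      · rw [ofP_of_not h, mul_zero]; exact zero_le
  refine h1.trans (mul_le_mul' le_rfl ?_)
  rw [srcI_const_mul hg, show b / 4 - b / 4 / 2 = b / 8 by ring]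
  exact mul_le_mul' le_rfl (srcI_le_srcJ g)

/-! ### The constants -/

/-- The constant of the mass. -/
def CmB (b t t₂ : ℝ) (n j : ℕ) : ℝ≥0∞ :=
  K1.sig univ * (ENNReal.ofReal t * (ENNReal.ofReal (KB b t n) *
    (ENNReal.ofReal (KG (b / 4)) * cM b t₂ j)))

/-- The constant of the late contacts. -/
def ClB (b t c₁ δ t₁ : ℝ) (n j : ℕ) : ℝ≥0∞ :=
  K1.sig univ * (ENNReal.ofReal t * (ENNReal.ofReal (KB b t n) *
    (ENNReal.ofReal (KG (b / 4)) * cH b c₁ δ t₁ j)))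

/-- The constant of the early contacts. -/
def CyB (b t c₁ t₁ : ℝ) (n j : ℕ) : ℝ≥0∞ :=
  (K1.sig univ * cM b t (n + 1) * ENNReal.ofReal (1 + 1 / √b)) * cF1 (b / 2) c₁ t₁ j

/-- The source created by the last pair of the chain of `β`. -/
def eB (ψ : Ph × Ph → ℝ × Ph) (S : ℕ → Step) (x : XB n j) : ℝ × Ph := ψ (lpB S x)

theorem measurable_eB {ψ : Ph × Ph → ℝ × Ph} (hψ : Measurable ψ) (S : ℕ → Step) :
    Measurable (eB ψ S : XB n j → ℝ × Ph) := hψ.comp (measurable_lpB S)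

/-- The birth of `m` is before the birth of `e`. -/
theorem srcB_le_eB {ψ : Ph × Ph → ℝ × Ph} (hψ : Exh ε ψ) {x : XB n j}
    (hx : x ∈ evB ε t t₂ S S') : (srcB ε x).1 ≤ (eB ψ S x).1 := by
  have h1 := hx.2.2.1
  have h2 : exT ε (x.1, x.2.2.1) ≤ time ε S (n + 1) (exT ε (x.1, x.2.2.1)) x.1 x.2.1 :=
    chain_time (n + 1) S _ _ _ h1
  rw [time_lastPair] at h2
  exact h2.trans (hψ.le _ (meets_lastPair n S _ _ _ h1))

/-- **The law B is a bounded elementary law**, general form. -/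
theorem BL_B (hε : 0 < ε) (hb : 0 < b) (hδ : 0 < δ) (hc₁ : 0 ≤ c₁)
    (ht₁ : t ≤ t₁) (ht₂ : t ≤ t₂) (hS : ∀ n, RevStep ε (S n)) {ψ : Ph × Ph → ℝ × Ph}
    (hψ : Exh ε ψ) (X : PathFam ε S' j c₁) {P : XB n j → ℝ → E3}
    (hP : ∀ x τ, P x τ = X.X x.2.2.1 x.2.2.2 τ) (hPm : ∀ τ, Measurable fun x => P x τ)
    (hPc : ∀ x, Continuous (P x))
    (hy : ∀ (ι : Type) (h : ℝ) (I : Finset ι) (T : ι → Target h) (F : XB n j → ℝ≥0∞), h < t₁ →
      Measurable F → (∀ x ∈ evB ε t t₂ S S', F x ≠ 0 →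
        (∃ i ∈ I, ∃ τ ∈ Icc (max (T i).a (endB ε S' x).1) h, τ ≤ (srcB ε x).1 + δ ∧
          ‖X.X x.2.2.1 x.2.2.2 τ - (T i).Y τ‖ ≤ ε) ∧ F x ≤ 1) →
      ∫⁻ x, F x ∂(lawB ε b t t₂ n j S S') ≤
        (K1.sig univ * cM b t (n + 1) * ENNReal.ofReal (1 + 1 / √b)) *
          (ENNReal.ofReal (ε ^ 2) * cF1 (b / 2) c₁ t₁ j * yW ε t δ I T)) :
    BL (lawB ε b t t₂ n j S S') (evB ε t t₂ S S') ε t t₁ δ (b / 8) (eB ψ S)
      (fun x => (srcB ε x).1 + δ) (fun x => (endB ε S' x).1) P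
      (CmB b t t₂ n j) (ClB b t c₁ δ t₁ n j) (CyB b t c₁ t₁ n j) where
  em := measurable_eB hψ.meas S
  um := measurable_srcB.fst.add_const δ
  tm := (measurable_endB S').fst
  Xm := hPm
  Xc := hPc
  ue := fun x hx => by
    have := srcB_le_eB hψ hx
    linarith
  tl0 := by
    intro x hx
    have h3 : 0 ≤ exT ε (x.1, x.2.2.1) := hx.2.1.1
    exact h3.trans (chain_time j S' _ _ _ hx.2.2.2)
  mass := by
    intro F g hF hg h
    refine (lawB_mass (S' := S') hε hb ht₂ hS hF (G := ofP ψ t g) (measurable_ofP hψ.meas hg)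
      fun x hx => ?_).trans ?_
    · by_cases h0 : F x = 0
      · rw [h0]; exact zero_le
      · obtain ⟨h1, h2⟩ := h x hx h0
        rw [ofP_of h1]
        exact h2
    · unfold CmB
      calc _ ≤ K1.sig univ * (ENNReal.ofReal t * (ENNReal.ofReal (KB b t n) *
            (ENNReal.ofReal (KG (b / 4)) * (cM b t₂ j * srcJ (b / 8) t g)))) :=
            mul_le_mul' le_rfl (mul_le_mul' le_rfl (mul_le_mul' le_rfl
              (hψ.pair_le hb hg (cM b t₂ j))))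
        _ = _ := by ring
  long := by
    intro ι h I T F g K hh hF hg hgt hK H
    have hG : Measurable fun q : Ph × Ph => K * ofP ψ t g q :=
      (measurable_ofP hψ.meas hg).const_mul K
    refine (lawB_long (S' := S') (t₂ := t₂) hε hb hδ hc₁ hS X (h := fun q => h (ψ q)) ht₁
      (fun q => hh (ψ q)) (fun q => I (ψ q)) (fun q => T (ψ q)) (g := ofP ψ t g)
      (G := fun q => K * ofP ψ t g q) (fun q => ofP_ne_top hgt q) hG (fun q => ?_) hF
      fun x hx hne => ?_).trans ?_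
    · by_cases h0 : ofP ψ t g q = 0
      · rw [h0, zero_mul]; exact zero_le
      · have h1 : (ψ q).1 ≤ t := by
          by_contra h2
          exact h0 (ofP_of_not h2)
        rw [ofP_of h1] at h0
        rw [mul_comm]
        exact mul_le_mul' (hK _ h0) le_rfl
    · obtain ⟨h1, ⟨i, hi, τ, h2, h3⟩, h4⟩ := H x hx hne
      rw [hP] at h3
      refine ⟨⟨i, hi, τ, h2, h3⟩, ?_⟩
      rw [ofP_of h1]
      exact h4
    · unfold ClB
      have e1 : (fun q : Ph × Ph => (ENNReal.ofReal (ε ^ 2) * cH b c₁ δ t₁ j) *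
          (K * ofP ψ t g q)) = fun q => ((ENNReal.ofReal (ε ^ 2) * cH b c₁ δ t₁ j) * K) *
          ofP ψ t g q := by
        ext q; ring
      rw [e1]
      calc _ ≤ K1.sig univ * (ENNReal.ofReal t * (ENNReal.ofReal (KB b t n) *
            (ENNReal.ofReal (KG (b / 4)) * (((ENNReal.ofReal (ε ^ 2) * cH b c₁ δ t₁ j) * K) *
              srcJ (b / 8) t g)))) :=
            mul_le_mul' le_rfl (mul_le_mul' le_rfl (mul_le_mul' le_rfl
              (hψ.pair_le hb hg _)))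
        _ = _ := by ring
  young := by
    intro ι h I T F hh hF H
    refine (hy ι h I T F hh hF fun x hx hne => ?_).trans (le_of_eq ?_)
    · obtain ⟨⟨i, hi, τ, h1, h2, h3⟩, h4⟩ := H x hx hne
      rw [hP] at h3
      exact ⟨⟨i, hi, τ, h1, h2, h3⟩, h4⟩
    · unfold CyB
      ring

/-- **The law B, last line.** -/
theorem BL_lineB (hε : 0 < ε) (hb : 0 < b) (hδ : 0 < δ) (ht : 0 ≤ t)
    (ht₁ : t ≤ t₁) (ht₂ : t ≤ t₂) (hS : ∀ n, RevStep ε (S n)) {ψ : Ph × Ph → ℝ × Ph}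
    (hψ : Exh ε ψ) :
    BL (lawB ε b t t₂ n j S S') (evB ε t t₂ S S') ε t t₁ δ (b / 8) (eB ψ S)
      (fun x => (srcB ε x).1 + δ) (fun x => (endB ε S' x).1)
      (lineX fun x : XB n j => (endB ε S' x).2)
      (CmB b t t₂ n j) (ClB b t 1 δ t₁ n j) (CyB b t 1 t₁ n j) := by
  refine BL_B hε hb hδ zero_le_one ht₁ ht₂ hS hψ (lineFam ε S' j) (fun _ _ => rfl)
    (measurable_lineX (measurable_endB S').snd) (continuous_lineX _) ?_
  intro ι h I T F hh hF H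
  exact lawB_young hε hb hδ ht hh I T hF H

/-- The last pair of the chain of `m`. -/
def lqB (S' : ℕ → Step) (x : XB n (j + 1)) : Ph × Ph := lastPair S' j x.2.2.1 x.2.2.2

theorem measurable_lqB (S' : ℕ → Step) : Measurable (lqB S' : XB n (j + 1) → Ph × Ph) :=
  (measurable_lastPair j S').comp (measurable_snd.snd.fst.prodMk measurable_snd.snd.snd)

/-- **The law B, first particle of the last pair.** -/
theorem BL_pairB1 (hΦ : IsPotential Φ) (hε : 0 < ε) (hb : 0 < b) (hδ : 0 < δ)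
    (ht₁ : t ≤ t₁) (ht₂ : t ≤ t₂) (hS : ∀ n, RevStep ε (S n)) {ψ : Ph × Ph → ℝ × Ph}
    (hψ : Exh ε ψ) :
    BL (lawB ε b t t₂ n (j + 1) S S') (evB ε t t₂ S S') ε t t₁ δ (b / 8) (eB ψ S)
      (fun x => (srcB ε x).1 + δ) (fun x => (endB ε S' x).1)
      (fun x τ => (pairLine Φ ε (lqB S' x) τ).1.1)
      (CmB b t t₂ n (j + 1)) (ClB b t (cS hΦ) δ t₁ n (j + 1))
      (CyB b t (cS hΦ) t₁ n (j + 1)) := by
  have hm := RM.MPath.pair₁ (ε := ε) hΦ (X := XB n (j + 1)) (measurable_lqB S').fst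
    (measurable_lqB S').snd
  refine BL_B hε hb hδ (cS_nonneg hΦ) ht₁ ht₂ hS hψ (pairFam1 hΦ hε.ne' S' j) (fun _ _ => rfl)
    (fun τ => (hm.meas τ).fst) (fun x => continuous_fst.comp (hm.cont x)) ?_
  intro ι h I T F hh hF H
  exact lawB_young_pair hε hb (cS_nonneg hΦ) hh (pairFam1 hΦ hε.ne' S' j) I T hF H

/-- **The law B, second particle of the last pair.** -/
theorem BL_pairB2 (hΦ : IsPotential Φ) (hε : 0 < ε) (hb : 0 < b) (hδ : 0 < δ)
    (ht₁ : t ≤ t₁) (ht₂ : t ≤ t₂) (hS : ∀ n, RevStep ε (S n)) {ψ : Ph × Ph → ℝ × Ph}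
    (hψ : Exh ε ψ) :
    BL (lawB ε b t t₂ n (j + 1) S S') (evB ε t t₂ S S') ε t t₁ δ (b / 8) (eB ψ S)
      (fun x => (srcB ε x).1 + δ) (fun x => (endB ε S' x).1)
      (fun x τ => (pairLine Φ ε (lqB S' x) τ).2.1)
      (CmB b t t₂ n (j + 1)) (ClB b t (cS hΦ) δ t₁ n (j + 1))
      (CyB b t (cS hΦ) t₁ n (j + 1)) := by
  have hm := RM.MPath.pair₂ (ε := ε) hΦ (X := XB n (j + 1)) (measurable_lqB S').fst
    (measurable_lqB S').snd
  refine BL_B hε hb hδ (cS_nonneg hΦ) ht₁ ht₂ hS hψ (pairFam2 hΦ hε.ne' S' j) (fun _ _ => rfl)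
    (fun τ => (hm.meas τ).fst) (fun x => continuous_fst.comp (hm.cont x)) ?_
  intro ι h I T F hh hF H
  exact lawB_young_pair hε hb (cS_nonneg hΦ) hh (pairFam2 hΦ hε.ne' S' j) I T hF H

/-! ### The constants are summable -/

/-- The radius. -/
def xB (b T : ℝ) : ℝ≥0∞ :=
  ENNReal.ofReal (Kc b * T) + (ENNReal.ofReal (Kc (b / 2) * T) +
    (ENNReal.ofReal (Kc (b / 2 / 2) * T) + 8 * ENNReal.ofReal (Kc (b / 2 / 4) * T)))

theorem xB_ne_top (b T : ℝ) : xB b T ≠ ∞ := by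
  unfold xB
  refine ENNReal.add_ne_top.2 ⟨ENNReal.ofReal_ne_top, ENNReal.add_ne_top.2
    ⟨ENNReal.ofReal_ne_top, ENNReal.add_ne_top.2 ⟨ENNReal.ofReal_ne_top,
    ENNReal.mul_ne_top (by simp) ENNReal.ofReal_ne_top⟩⟩⟩

/-- The constant. -/
def KBB (b c₁ T : ℝ) : ℝ≥0∞ :=
  K1.sig univ * (ENNReal.ofReal T * (ENNReal.ofReal (√2 * (1 + 1 / √b) ^ 2) *
    (ENNReal.ofReal (KG (b / 4)) * (I0 (b / 2) +
      ENNReal.ofReal 64 * (cF (b / 2) c₁ * ENNReal.ofReal (D1 (b / 2))))))) +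
    (K1.sig univ * (I0 (b / 2) * xB b T) * ENNReal.ofReal (1 + 1 / √b)) *
      ((8 * bv * cF (b / 2) c₁) * ENNReal.ofReal (D2 (b / 2)))

theorem KBB_ne_top (hb : 0 < b) (c₁ T : ℝ) : KBB b c₁ T ≠ ∞ := by
  have hs : K1.sig univ ≠ ∞ := measure_ne_top K1.sig univ
  have hI : I0 (b / 2) ≠ ∞ := I0_ne_top (by positivity)
  unfold KBB
  refine ENNReal.add_ne_top.2 ⟨?_, ?_⟩
  · refine ENNReal.mul_ne_top hs (ENNReal.mul_ne_top ENNReal.ofReal_ne_top
      (ENNReal.mul_ne_top ENNReal.ofReal_ne_top (ENNReal.mul_ne_top ENNReal.ofReal_ne_top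
      (ENNReal.add_ne_top.2 ⟨hI, ENNReal.mul_ne_top ENNReal.ofReal_ne_top
      (ENNReal.mul_ne_top cF_ne_top ENNReal.ofReal_ne_top)⟩))))
  · exact ENNReal.mul_ne_top (ENNReal.mul_ne_top (ENNReal.mul_ne_top hs
      (ENNReal.mul_ne_top hI (xB_ne_top b T))) ENNReal.ofReal_ne_top)
      (ENNReal.mul_ne_top (ENNReal.mul_ne_top (ENNReal.mul_ne_top (by norm_num) bv_ne_top)
        cF_ne_top) ENNReal.ofReal_ne_top)

theorem fS_pow_le {c T : ℝ} (hc : 0 ≤ c) (ht : 0 ≤ t) (htT : t ≤ T) (N : ℕ) :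
    ENNReal.ofReal ((c * t) ^ N / √(N.factorial : ℝ)) ≤ fS (ENNReal.ofReal (c * T)) N := by
  rw [fS_of_real (by positivity)]
  exact fS_mono (ENNReal.ofReal_le_ofReal (mul_le_mul_of_nonneg_left htT hc)) N

theorem cM_le_fS {T : ℝ} (ht : 0 ≤ t) (htT : t ≤ T) (N : ℕ) :
    cM b t N ≤ I0 (b / 2) * fS (xB b T) N := by
  unfold cM
  refine mul_le_mul' le_rfl ((fS_pow_le (Kc_nonneg b) ht htT N).trans (fS_mono ?_ N))
  exact le_self_add

theorem KB_le_fS {T : ℝ} (ht : 0 ≤ t) (htT : t ≤ T) (N : ℕ) :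
    ENNReal.ofReal (KB b t N) ≤ ENNReal.ofReal (√2 * (1 + 1 / √b) ^ 2) * fS (xB b T) N := by
  unfold KB
  rw [ENNReal.ofReal_mul (by positivity)]
  refine mul_le_mul' le_rfl ((fS_pow_le (Kc_nonneg (b / 2)) ht htT N).trans (fS_mono ?_ N))
  exact le_self_add.trans le_add_self

theorem cF1_le_fS {T : ℝ} (ht : 0 ≤ t) (htT : t ≤ T) (c₁ : ℝ) (N : ℕ) :
    cF1 (b / 2) c₁ t N ≤ (8 * bv * cF (b / 2) c₁) * ENNReal.ofReal (D2 (b / 2)) *
      fS (xB b T) N := by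
  unfold cF1
  rw [ENNReal.ofReal_mul (D2_nonneg _)]
  have h1 := ((fS_pow_le (Kc_nonneg (b / 2 / 2)) ht htT N).trans (fS_mono (y := xB b T)
    ((le_self_add.trans le_add_self).trans le_add_self) N))
  calc _ ≤ (8 * bv * cF (b / 2) c₁) * (ENNReal.ofReal (D2 (b / 2)) * fS (xB b T) N) :=
        mul_le_mul' le_rfl (mul_le_mul' le_rfl h1)
    _ = _ := by ring

theorem sqrt_cube_le (N : ℕ) : (4 * √((N : ℝ) + 1)) ^ 3 ≤ 64 * 8 ^ N := by
  have h1 : √((N : ℝ) + 1) ≤ 2 ^ N := by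
    have h2 : (N : ℝ) + 1 ≤ 2 ^ N := by exact_mod_cast Nat.lt_two_pow_self
    have h3 : √((N : ℝ) + 1) ≤ (N : ℝ) + 1 := by
      rw [Real.sqrt_le_left (by positivity)]
      have : (0 : ℝ) ≤ N := Nat.cast_nonneg N
      nlinarith
    exact h3.trans h2
  calc (4 * √((N : ℝ) + 1)) ^ 3 ≤ (4 * 2 ^ N) ^ 3 := by gcongr
    _ = 64 * 8 ^ N := by
        rw [mul_pow, ← pow_mul, mul_comm N 3, pow_mul]
        norm_num

theorem cH_le_fS {T : ℝ} (ht : 0 ≤ t) (htT : t ≤ T) (hδ : 0 < δ) (c₁ : ℝ) (N : ℕ) :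
    cH b c₁ δ t N ≤ ENNReal.ofReal (δ⁻¹ ^ 3) * (ENNReal.ofReal 64 *
      (cF (b / 2) c₁ * ENNReal.ofReal (D1 (b / 2))) * fS (xB b T) N) := by
  unfold cH
  have h1 : ENNReal.ofReal ((4 * √((N : ℝ) + 1) / δ) ^ 3) ≤
      ENNReal.ofReal (δ⁻¹ ^ 3) * (ENNReal.ofReal 64 * 8 ^ N) := by
    have e1 : (8 : ℝ≥0∞) ^ N = ENNReal.ofReal (8 ^ N) := by
      rw [ENNReal.ofReal_pow (by norm_num)]
      norm_num
    rw [e1, ← ENNReal.ofReal_mul (by norm_num), ← ENNReal.ofReal_mul (by positivity)]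
    refine ENNReal.ofReal_le_ofReal ?_
    rw [div_eq_mul_inv, mul_pow, mul_comm]
    exact mul_le_mul_of_nonneg_left (sqrt_cube_le N) (by positivity)
  have h2 : ENNReal.ofReal (D1 (b / 2) * ((Kc (b / 2 / 4) * t) ^ N / √(N.factorial : ℝ))) ≤
      ENNReal.ofReal (D1 (b / 2)) * fS (ENNReal.ofReal (Kc (b / 2 / 4) * T)) N := by
    have hD : 0 ≤ D1 (b / 2) := by unfold D1; positivity
    rw [ENNReal.ofReal_mul hD]
    exact mul_le_mul' le_rfl (fS_pow_le (Kc_nonneg _) ht htT N)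
  have h3 : (8 : ℝ≥0∞) ^ N * fS (ENNReal.ofReal (Kc (b / 2 / 4) * T)) N ≤ fS (xB b T) N := by
    rw [mul_fS]
    refine fS_mono ?_ N
    exact ((le_add_self : _ ≤ ENNReal.ofReal (Kc (b / 2 / 2) * T) + _).trans le_add_self).trans
      le_add_self
  calc _ ≤ (ENNReal.ofReal (δ⁻¹ ^ 3) * (ENNReal.ofReal 64 * 8 ^ N) * cF (b / 2) c₁) *
        (ENNReal.ofReal (D1 (b / 2)) * fS (ENNReal.ofReal (Kc (b / 2 / 4) * T)) N) :=
        mul_le_mul' (mul_le_mul' h1 le_rfl) h2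
    _ = ENNReal.ofReal (δ⁻¹ ^ 3) * (ENNReal.ofReal 64 *
        (cF (b / 2) c₁ * ENNReal.ofReal (D1 (b / 2))) *
          (8 ^ N * fS (ENNReal.ofReal (Kc (b / 2 / 4) * T)) N)) := by ring
    _ ≤ _ := mul_le_mul' le_rfl (mul_le_mul' le_rfl h3)

/-- **The constant of the mass is summable.** -/
theorem CmB_le {c₁ T : ℝ} (ht : 0 ≤ t) (htT : t ≤ T) (ht₂ : 0 ≤ t₂) (ht₂T : t₂ ≤ T) (n j : ℕ) :
    CmB b t t₂ n j ≤ KBB b c₁ T * fS (xB b T) n * fS (xB b T) j := by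
  unfold CmB
  calc _ ≤ K1.sig univ * (ENNReal.ofReal T * ((ENNReal.ofReal (√2 * (1 + 1 / √b) ^ 2) *
        fS (xB b T) n) * (ENNReal.ofReal (KG (b / 4)) * (I0 (b / 2) * fS (xB b T) j)))) :=
        mul_le_mul' le_rfl (mul_le_mul' (ENNReal.ofReal_le_ofReal htT)
          (mul_le_mul' (KB_le_fS ht htT n) (mul_le_mul' le_rfl (cM_le_fS ht₂ ht₂T j))))
    _ = K1.sig univ * (ENNReal.ofReal T * (ENNReal.ofReal (√2 * (1 + 1 / √b) ^ 2) *
        (ENNReal.ofReal (KG (b / 4)) * I0 (b / 2)))) * fS (xB b T) n * fS (xB b T) j := by ring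
    _ ≤ _ := by
        refine mul_le_mul' (mul_le_mul' ?_ le_rfl) le_rfl
        unfold KBB
        refine le_trans ?_ le_self_add
        exact mul_le_mul' le_rfl (mul_le_mul' le_rfl (mul_le_mul' le_rfl
          (mul_le_mul' le_rfl le_self_add)))

/-- **The constant of the late contacts is summable.** -/
theorem ClB_le {T : ℝ} (ht : 0 ≤ t) (htT : t ≤ T) (ht₁ : 0 ≤ t₁) (ht₁T : t₁ ≤ T) (hδ : 0 < δ)
    (c₁ : ℝ) (n j : ℕ) : ClB b t c₁ δ t₁ n j ≤
      KBB b c₁ T * ENNReal.ofReal (δ⁻¹ ^ 3) * fS (xB b T) n * fS (xB b T) j := by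
  unfold ClB
  calc _ ≤ K1.sig univ * (ENNReal.ofReal T * ((ENNReal.ofReal (√2 * (1 + 1 / √b) ^ 2) *
        fS (xB b T) n) * (ENNReal.ofReal (KG (b / 4)) * (ENNReal.ofReal (δ⁻¹ ^ 3) *
          (ENNReal.ofReal 64 * (cF (b / 2) c₁ * ENNReal.ofReal (D1 (b / 2))) *
            fS (xB b T) j))))) :=
        mul_le_mul' le_rfl (mul_le_mul' (ENNReal.ofReal_le_ofReal htT)
          (mul_le_mul' (KB_le_fS ht htT n) (mul_le_mul' le_rfl (cH_le_fS ht₁ ht₁T hδ c₁ j))))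
    _ = K1.sig univ * (ENNReal.ofReal T * (ENNReal.ofReal (√2 * (1 + 1 / √b) ^ 2) *
        (ENNReal.ofReal (KG (b / 4)) * (ENNReal.ofReal 64 *
          (cF (b / 2) c₁ * ENNReal.ofReal (D1 (b / 2))))))) *
          ENNReal.ofReal (δ⁻¹ ^ 3) * fS (xB b T) n * fS (xB b T) j := by ring
    _ ≤ _ := by
        refine mul_le_mul' (mul_le_mul' (mul_le_mul' ?_ le_rfl) le_rfl) le_rfl
        unfold KBB
        refine le_trans ?_ le_self_add
        exact mul_le_mul' le_rfl (mul_le_mul' le_rfl (mul_le_mul' le_rfl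
          (mul_le_mul' le_rfl le_add_self)))

/-- **The constant of the early contacts is summable.** -/
theorem CyB_le {T : ℝ} (ht : 0 ≤ t) (htT : t ≤ T) (ht₁ : 0 ≤ t₁) (ht₁T : t₁ ≤ T)
    (c₁ : ℝ) (n j : ℕ) : CyB b t c₁ t₁ n j ≤ KBB b c₁ T * fS (xB b T) n * fS (xB b T) j := by
  have h1 : fS (xB b T) (n + 1) ≤ fS (xB b T) n * xB b T := by
    refine (fS_add_le _ n 1).trans (mul_le_mul' le_rfl (le_of_eq ?_))
    unfold fS rf
    simp
  unfold CyB
  calc _ ≤ (K1.sig univ * (I0 (b / 2) * (fS (xB b T) n * xB b T)) *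
        ENNReal.ofReal (1 + 1 / √b)) * ((8 * bv * cF (b / 2) c₁) *
          ENNReal.ofReal (D2 (b / 2)) * fS (xB b T) j) :=
        mul_le_mul' (mul_le_mul' (mul_le_mul' le_rfl ((cM_le_fS ht htT (n + 1)).trans
          (mul_le_mul' le_rfl h1))) le_rfl) (cF1_le_fS ht₁ ht₁T c₁ j)
    _ = (K1.sig univ * (I0 (b / 2) * xB b T) * ENNReal.ofReal (1 + 1 / √b)) *
        ((8 * bv * cF (b / 2) c₁) * ENNReal.ofReal (D2 (b / 2))) *
          fS (xB b T) n * fS (xB b T) j := by ring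
    _ ≤ _ := by
        refine mul_le_mul' (mul_le_mul' ?_ le_rfl) le_rfl
        unfold KBB
        exact le_add_self

/-! ### The exhausts of a spine -/

theorem outS_cases (hΦ : IsPotential Φ) (hε : ε ≠ 0) : ∀ (m : ℕ) (o : Fin m → Bool) (k : ℕ),
    outS hΦ hε m o k = Step.out1 hΦ hε ∨ outS hΦ hε m o k = Step.out2 hΦ hε
  | 0, _, _ => Or.inl rfl
  | m + 1, o, 0 => by
    rw [outS_zero]
    unfold outB
    cases o 0
    · exact Or.inr rfl
    · exact Or.inl rfl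
  | m + 1, o, k + 1 => by
    exact outS_cases hΦ hε m (fun i => o i.succ) k

theorem revStep_outS (hΦ : IsPotential Φ) (hε : 0 < ε) (m : ℕ) (o : Fin m → Bool) (k : ℕ) :
    RevStep ε (outS hΦ hε.ne' m o k) := by
  rcases outS_cases hΦ hε.ne' m o k with h | h
  · rw [h]; exact revStep_out1 hΦ hε
  · rw [h]; exact revStep_out2 hΦ hε

/-- The source created by a pair, with the outgoing line of the step `s`. -/
def exq (Φ : E3 → ℝ) (ε : ℝ) (s : Step) (q : Ph × Ph) : ℝ × Ph :=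
  (max (sepT Φ ε q) (hitT ε q), s.f q)

theorem exh_outS (hΦ : IsPotential Φ) (hε : 0 < ε) (m : ℕ) (o : Fin m → Bool) (k : ℕ) :
    Exh ε (exq Φ ε (outS hΦ hε.ne' m o k)) := by
  rcases outS_cases hΦ hε.ne' m o k with h | h
  · rw [h]; exact exh_out1 hΦ hε
  · rw [h]; exact exh_out2 hΦ hε

/-- The exhaust of the last node of the chain of `β`. -/
theorem eB_exq (S : ℕ → Step) (x : XB n j) : eB (exq Φ ε (S n)) S x =
    (max (sepT Φ ε (lpB S x)) (hitT ε (lpB S x)), line S (n + 1) x.1 x.2.1) := by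
  unfold eB exq lpB
  rw [line_lastPair]

end Vale.Agent.P119.PB
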