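import Vale.Agent.P119.PB.CompB
import Vale.Agent.P119.PB.TrickB

/-!
# P119, second events: the law B, main terms (`helper778`)

`lamB = (lamN ..).map Prod.swap`: `e` is the root of the branch (birth: exit time of the last hit of
the chain), `m` the exhaust.  `main_lamB`: the main terms from the bounds for every law B.
-/

open MeasureTheory Set Filter Topology Metric ProbabilityTheory
open scoped ENNReal

noncomputable section

namespace Vale.Agent.P119.PB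

open M CTree KU FB RB AU FL TL

variable {Φ : E3 → ℝ} {ε b b' t t' : ℝ} {n : ℕ}

/-- **The law B.** -/
def lamB (hΦ : IsPotential Φ) (hε : ε ≠ 0) (b t : ℝ) (α : ℕ → ℝ≥0∞) (L : ℕ) (c : ℕ → ℝ≥0∞) :
    Measure (Src × Src) := (lamN hΦ hε b t t α L c).map Prod.swap

instance (hΦ : IsPotential Φ) (hε : ε ≠ 0) (b t : ℝ) (α : ℕ → ℝ≥0∞) (L : ℕ) (c : ℕ → ℝ≥0∞) :
    SFinite (lamB hΦ hε b t α L c) := by unfold lamB; infer_instance

/-- The data of the root of a branch with at least one hit. -/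
theorem srcM_eq (hΦ : IsPotential Φ) (hε : ε ≠ 0) (y : Ix (n + 1)) (x : XA (n + 1)) :
    srcM hΦ hε y x = srcN (dM y) (eH Φ ε (ixS hΦ hε y) (hdA x)) := by
  unfold srcM srcN eH hdA endA bA lpA
  simp only [time_lastPair]

section main

variable {L : ℕ} {hΦ : IsPotential Φ} {hε : 0 < ε} {f₀ : Ph → ℝ} {κ η w δ : ℝ}

/-- The sources born after the time `0`. -/
def Gp (G : Set Src) : Set Src := G ∩ {σ | 0 < σ.1}

theorem measurableSet_Gp {G : Set Src} (hG : MeasurableSet G) : MeasurableSet (Gp G) :=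
  hG.inter (measurableSet_lt measurable_const measurable_fst)

/-- **The main terms of the law B.** -/
theorem main_lamB (h₀ : GoodDatum f₀ κ) (hb' : b ≤ b') {α c : ℕ → ℝ≥0∞} (hc0 : c 0 = 0)
    {G : Set Src} (hG : MeasurableSet G) {a : ℕ → ℝ≥0∞} (J : ℕ) {x₀ : ℝ≥0∞} {x₁ X Y : ℕ → ℝ≥0∞}
    (hE : ∀ (n : ℕ) (o : Fin (n + 1) → Bool) (d : ℕ), d ≤ L → ∀ (j : ℕ) (R : ℕ → Step),
      ∫⁻ x, ind (srcN d (eH Φ ε (outS hΦ hε.ne' (n + 1) o) (hdB x)) ∈ Gp G) *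
      F6 L hΦ hε f₀ b' a η t w ((srcB ε x).1 + δ)
        (srcN d (eH Φ ε (outS hΦ hε.ne' (n + 1) o) (hdB x))) (endB ε R x).1
        (endB ε R x).2 ∂(lawB ε b t t' n j (outS hΦ hε.ne' (n + 1) o) R) ≤
          x₁ n * fS x₀ j * X d)
    (hY : ∀ (n : ℕ) (o : Fin (n + 1) → Bool) (d : ℕ), d ≤ L → ∀ (j : ℕ) (R : ℕ → Step),
      ∫⁻ x, ind (srcN d (eH Φ ε (outS hΦ hε.ne' (n + 1) o) (hdB x)) ∈ Gp G) *
      tE6 L hΦ hε f₀ η t (srcN d (eH Φ ε (outS hΦ hε.ne' (n + 1) o) (hdB x)))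
        ∂(lawB ε b t t' n j (outS hΦ hε.ne' (n + 1) o) R) ≤ x₁ n * fS x₀ j * Y d) :
    ∫⁻ p, ind (p.1 ∈ G) * Mn6 L hΦ hε f₀ b' a η t w (p.2.1 + δ) t' J p.1 p.2
        ∂(lamB hΦ hε.ne' b t α L c) ≤
      ∑' n, c (n + 1) * (x₁ n * ∑' y : Ix (n + 1), aw α y * (if dM y ≤ L then
        (∑ j ∈ Finset.range J, fS ((∑' n, a n) * (3 * x₀)) j) * X (dM y) +
          fS ((∑' n, a n) * (3 * x₀)) J * Y (dM y) else 0)) := by
  have hf : Measurable fun p : Src × Src =>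
      ind (p.1 ∈ G) * Mn6 L hΦ hε f₀ b' a η t w (p.2.1 + δ) t' J p.1 p.2 :=
    (measurable_ind (measurable_fst hG)).mul (measurable_Mn6 h₀
      (u := fun p : Src × Src => p.2.1 + δ) (measurable_snd.fst.add_const δ))
  have hfs : Measurable fun z : Src × Src =>
      ind (z.2 ∈ G) * Mn6 L hΦ hε f₀ b' a η t w (z.1.1 + δ) t' J z.2 z.1 :=
    hf.comp measurable_swap
  unfold lamB
  rw [lintegral_map hf measurable_swap]
  change ∫⁻ z, ind (z.2 ∈ G) * Mn6 L hΦ hε f₀ b' a η t w (z.1.1 + δ) t' J z.2 z.1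
    ∂(lamN hΦ hε.ne' b t t α L c) ≤ _
  rw [lintegral_lamN hΦ hε.ne' b t t α L c hfs, _root_.tsum_eq_zero_add' ENNReal.summable, hc0, zero_mul,
    zero_add]
  refine ENNReal.tsum_le_tsum fun n => mul_le_mul' le_rfl ?_
  rw [← ENNReal.tsum_mul_left]
  refine ENNReal.tsum_le_tsum fun y => ?_
  rw [← mul_assoc, mul_comm (x₁ n), mul_assoc]
  refine mul_le_mul' le_rfl ?_
  have hpt : ∀ x : XA (n + 1), (SS t L).indicator (fun z : Src × Src =>
      ind (z.2 ∈ G) * Mn6 L hΦ hε f₀ b' a η t w (z.1.1 + δ) t' J z.2 z.1)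
      (srcP hΦ hε.ne' y x) ≤ (if dM y ≤ L then 1 else 0) *
      (ind (srcN (dM y) (eH Φ ε (ixS hΦ hε.ne' y) (hdA x)) ∈ Gp G) *
      ((∑ j ∈ Finset.range J, (∑' n, a n) ^ j *
        Gc hΦ hε.ne' b' t' j (F6 L hΦ hε f₀ b' a η t w (exT ε (x.1, x.2.1) + δ)
          (srcN (dM y) (eH Φ ε (ixS hΦ hε.ne' y) (hdA x)))) (exT ε (x.1, x.2.1)) x.1) +
      (∑' n, a n) ^ J * Gc hΦ hε.ne' b' t' J (fun _ _ => tE6 L hΦ hε f₀ η t
        (srcN (dM y) (eH Φ ε (ixS hΦ hε.ne' y) (hdA x)))) (exT ε (x.1, x.2.1)) x.1)) := by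
    intro x
    by_cases hS : srcP hΦ hε.ne' y x ∈ SS t L
    swap
    · rw [indicator_of_notMem hS]; exact zero_le
    rw [indicator_of_mem hS]
    have h1 : srcM hΦ hε.ne' y x ∈ FL.srcS t L := hS.2
    have h2 : dM y ≤ L := h1.2.2
    rw [if_pos h2, one_mul]
    by_cases h3 : srcM hΦ hε.ne' y x ∈ G
    swap
    · have h4 : (srcP hΦ hε.ne' y x).2 ∉ G := h3
      rw [ind_of_not h4, zero_mul]
      exact zero_le
    have h5 : srcM hΦ hε.ne' y x ∈ Gp G := ⟨h3, h1.1⟩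
    rw [srcM_eq] at h5
    have h4 : (srcP hΦ hε.ne' y x).2 ∈ G := h3
    rw [ind_of h4, ind_of h5, one_mul, one_mul]
    have e1 : (srcP hΦ hε.ne' y x).2 = srcN (dM y) (eH Φ ε (ixS hΦ hε.ne' y) (hdA x)) :=
      srcM_eq hΦ hε.ne' y x
    rw [e1]
    exact le_of_eq rfl
  refine (lintegral_mono hpt).trans ?_
  by_cases hd : dM y ≤ L
  swap
  · simp only [if_neg hd, zero_mul, lintegral_zero]
    exact zero_le
  simp only [if_pos hd, one_mul]
  exact main_swap_le h₀ hb' (measurableSet_Gp hG) (ixS hΦ hε.ne' y) (dM y) J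
    (hE n _ (dM y) hd) (hY n _ (dM y) hd)

end main

end Vale.Agent.P119.PB
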