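import Vale.Agent.P119.PB.BLG
import Vale.Agent.P119.PB.LamB
import Vale.Agent.P119.PB.BLB
import Vale.Agent.P119.PB.BLA3

/-!
# P119, block PROB: the sources of the second events under the law B, fixed world (`helper778`)

* `pG6_B`: contact of the pair; `yH6_B`: hits of typical partners before `u`.
-/

open MeasureTheory Set Filter Topology Metric ProbabilityTheory
open scoped ENNReal NNReal

noncomputable section

namespace Vale.Agent.P119.PB

open KU M M.CTree FL FB RB EN AU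

variable {Φ : E3 → ℝ} {ε : ℝ} {L : ℕ} {hΦ : IsPotential Φ} {hε : 0 < ε}
  {η η' t t₁ t₂ δ w b b' β : ℝ} {c : GC.Conf Ph} {d n k : ℕ} {G : Set (ℝ × Ph)}
  {S R : ℕ → Step} {Cm Cl Cy : ℝ≥0∞}

theorem measurable_comp2 {X A B : Type*} [MeasurableSpace X] [MeasurableSpace A]
    [MeasurableSpace B] (K : A → B → ℝ≥0∞) (hK : Measurable fun q : A × B => K q.1 q.2)
    {f : X → A} {g : X → B} (hf : Measurable f) (hg : Measurable g) :
    Measurable fun x => K (f x) (g x) := hK.comp (hf.prodMk hg)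

/-- The law B lives on its event. -/
theorem ae_evB : ∀ᵐ x ∂(lawB ε b t t₂ n k S R), x ∈ evB ε t t₂ S R := by
  unfold lawB
  rw [ae_withDensity_iff (measurable_wLB S R)]
  refine ae_of_all _ fun x hx => ?_
  by_contra hcon
  exact hx (wLB_of_not hcon)

theorem endB_nonneg {x : XB n k} (hx : x ∈ evB ε t t₂ S R) : 0 ≤ (endB ε R x).1 := by
  have h3 : 0 ≤ exT ε (x.1, x.2.2.1) := hx.2.1.1
  exact h3.trans (chain_time k R _ _ _ hx.2.2.2)

/-- The source `e`, as a function of `(β, p, m)`. -/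
theorem eB_eq_eH (x : XB n k) : eB (exq Φ ε (S n)) S x = eH Φ ε S (hdB x) := eB_exq S x

/-- The source of the end of the law B. -/
def mB (ε : ℝ) (R : ℕ → Step) (x : XB n k) : Src := ((endB ε R x).1, (endB ε R x).2, 0)

theorem measurable_mB : Measurable (mB ε R : XB n k → Src) :=
  (measurable_endB R).fst.prodMk ((measurable_endB R).snd.prodMk measurable_const)

/-- The time of the last hit of `m`. -/
theorem endB_lpM (x : XB n (k + 1)) : (endB ε R x).1 = hitT ε (lpM R x) :=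
  time_lastPair k R (exT ε (x.1, x.2.2.1)) x.2.2.1 x.2.2.2

/-- **Contact of the pair with an exposed label.** -/
theorem pG6_B
    (H1 : BL (lawB ε b t t₂ n (k + 1) S R) (evB ε t t₂ S R) ε t t₁ δ β (fun x => eH Φ ε S (hdB x))
      (fun x => (srcB ε x).1 + δ) (fun x => (endB ε R x).1)
      (fun x τ => (pairLine Φ ε (lpM R x) τ).1.1) Cm Cl Cy)
    (H2 : BL (lawB ε b t t₂ n (k + 1) S R) (evB ε t t₂ S R) ε t t₁ δ β (fun x => eH Φ ε S (hdB x))
      (fun x => (srcB ε x).1 + δ) (fun x => (endB ε R x).1)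
      (fun x τ => (pairLine Φ ε (lpM R x) τ).2.1) Cm Cl Cy)
    {a : ℕ → ℝ≥0∞} {B : ℝ} (hB : RW.StableWith Φ B) (hbb : b ≤ b')
    (hc : c.2 ∈ excl ε c.1) (hη : 0 < η) (hηη : η ≤ η')
    (ht : 0 ≤ t) (ht₁ : t < t₁) (ht₂ : t < t₂) (hw : t ≤ w) (hG : MeasurableSet G) :
    ∫⁻ x, ind (eH Φ ε S (hdB x) ∈ gP G) * pG6w L hΦ hε b' a η t w (wS (GC.pts c))
      (srcN d (eH Φ ε S (hdB x))) (mB ε R x) ∂(lawB ε b t t₂ n k S R) ≤
      (∑' k, a k) * (2 * (Cm * srcS β t (gTd L hΦ hε η t δ c d G) +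
      Cm * srcS β t (gRL L hΦ hε η (η' - η) t c d G) +
      Cy * (ENNReal.ofReal (ε ^ 2) * yE L hΦ hε η' t δ c) +
      Cl * (ENNReal.ofReal (ε ^ 2) * cWE B t ε η c) *
        srcS β t (gTE L hΦ hε η t c d G))) := by
  set K : Ph × (Fin (n + 1) → Ph) × Ph → Ph × Ph → ℝ≥0∞ := fun y q =>
    ind (eH Φ ε S y ∈ gP G ∧
      PairG L hΦ hε η t w (wS (GC.pts c)) (srcN d (eH Φ ε S y)) (0, q.1, 0) q.2) with hK
  have heH := measurable_eH (ε := ε) (n := n) hΦ S
  have hKm : Measurable fun q : (Ph × (Fin (n + 1) → Ph) × Ph) × (Ph × Ph) => K q.1 q.2 :=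
    (measurable_KP (G := G) (n := d) (c := c) (L := L) (hΦ := hΦ) (hε := hε) (η := η) (t := t)
      (w := w) hG).comp ((heH.comp measurable_fst).prodMk measurable_snd)
  have hop : Measurable fun x : XB n k =>
      opP ε b t₂ (K (hdB x)) (endB ε R x).1 (endB ε R x).2 :=
    (measurable_opP_param hKm).comp (measurable_hdB.prodMk (measurable_endB R))
  have h1 : ∫⁻ x, ind (eH Φ ε S (hdB x) ∈ gP G) * pG6w L hΦ hε b' a η t w (wS (GC.pts c))
      (srcN d (eH Φ ε S (hdB x))) (mB ε R x) ∂(lawB ε b t t₂ n k S R) ≤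
      ∫⁻ x, (∑' k, a k) * opP ε b t₂ (K (hdB x)) (endB ε R x).1 (endB ε R x).2
        ∂(lawB ε b t t₂ n k S R) := by
    refine lintegral_mono_ae ?_
    filter_upwards [ae_evB] with x hx
    by_cases hg : eH Φ ε S (hdB x) ∈ gP G
    · rw [ind_of hg, one_mul]
      refine (pG6w_le_opP hbb hη ht hw ht₂ (endB_nonneg hx)).trans (le_of_eq ?_)
      rw [hK]
      simp only [ind_and, ind_of hg, one_mul]
    · rw [ind_of_not hg, zero_mul]
      exact zero_le
  refine h1.trans ?_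
  rw [lintegral_const_mul _ hop, lawB_opP S R hKm]
  refine mul_le_mul_right ?_ _
  have hlp := measurable_lpM (n := n) (k := k) R
  have hm : MeasurableSet {x : XB n (k + 1) | eH Φ ε S (hdB x) ∈ gP G ∧
      PairG L hΦ hε η t w (wS (GC.pts c)) (srcN d (eH Φ ε S (hdB x))) (0, (lpM R x).1, 0)
        (lpM R x).2} :=
    ((heH.comp measurable_hdB) (measurableSet_gP hG)).inter
      (measurableSet_PairG (w := fun _ => w) (rs_const c) (measurable_const (a := η))
        (measurable_const (a := t)) measurable_const ((measurable_srcN d).comp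
          (heH.comp measurable_hdB))
        (measurable_const.prodMk (hlp.fst.prodMk measurable_const)) hlp.snd)
  refine (lint_ind (ν := lawB ε b t t₂ n (k + 1) S R) hm).le.trans ?_
  exact H1.pairG (s := fun _ => (0 : ℝ)) (q := lpM R) (w := w) (n := d) (L := L) (hΦ := hΦ)
    (hε := hε) H2 (fun _ _ => rfl) (fun _ _ => rfl) endB_lpM hB hc hη hηη ht ht₁ hG

/-- **Hits of typical partners within the time `δ`.** -/
theorem yH6_B {a : ℕ → ℝ≥0∞} (hb : 0 < b) (hbb : b ≤ b') (hδ : 0 ≤ δ)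
    (hS : ∀ n, RevStep ε (S n)) (hψ : Exh ε (exq Φ ε (S n))) (ht : 0 ≤ t) (hη : 0 < η)
    (ht₂ : t < t₂) (hG : MeasurableSet G) :
    ∫⁻ x, ind (eH Φ ε S (hdB x) ∈ gP G) * (yH6 ε b' a t ((srcB ε x).1 + δ) (mB ε R x) *
      ind (TE L hΦ hε η t (wS (GC.pts c)) (srcN d (eH Φ ε S (hdB x)))))
        ∂(lawB ε b t t₂ n k S R) ≤
      (∑' k, a k) * (CmB b t δ n (k + 1) * srcS (b / 8) t (gTE L hΦ hε η t c d G)) := by
  have heH := measurable_eH (ε := ε) (n := n) hΦ S
  set K : Ph × (Fin (n + 1) → Ph) × Ph → Ph × Ph → ℝ≥0∞ := fun y q =>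
    ind (eH Φ ε S y ∈ gTE L hΦ hε η t c d G ∧ hitT ε q < exT ε (y.1, y.2.2) + δ) with hK
  have hKm : Measurable fun q : (Ph × (Fin (n + 1) → Ph) × Ph) × (Ph × Ph) => K q.1 q.2 :=
    measurable_ind (((heH.comp measurable_fst) (measurableSet_gTE hG)).inter
      (measurableSet_lt (measurable_hitT.comp measurable_snd)
        ((measurable_exT.comp (measurable_fst.fst.prodMk measurable_fst.snd.snd)).add_const δ)))
  have hop : Measurable fun x : XB n k =>
      opP ε b t₂ (K (hdB x)) (endB ε R x).1 (endB ε R x).2 :=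
    (measurable_opP_param hKm).comp (measurable_hdB.prodMk (measurable_endB R))
  have h1 : ∫⁻ x, ind (eH Φ ε S (hdB x) ∈ gP G) * (yH6 ε b' a t ((srcB ε x).1 + δ)
      (mB ε R x) * ind (TE L hΦ hε η t (wS (GC.pts c)) (srcN d (eH Φ ε S (hdB x)))))
        ∂(lawB ε b t t₂ n k S R) ≤
      ∫⁻ x, (∑' k, a k) * opP ε b t₂ (K (hdB x)) (endB ε R x).1 (endB ε R x).2
        ∂(lawB ε b t t₂ n k S R) := by
    refine lintegral_mono fun x => ?_
    by_cases hg : eH Φ ε S (hdB x) ∈ gTE L hΦ hε η t c d G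
    · have h2 : eH Φ ε S (hdB x) ∈ gP G := ⟨hg.1, hg.2.1⟩
      simp only [ind_of h2, ind_of hg.2.2, one_mul, mul_one]
      refine (yH6_le_opP (ε := ε) (a := a) hbb ht₂).trans (le_of_eq ?_)
      rw [hK]
      simp only [ind_and, ind_of hg, one_mul]
      rfl
    · refine le_trans (le_of_eq ?_) zero_le
      by_cases h2 : eH Φ ε S (hdB x) ∈ gP G
      · have h3 : ¬TE L hΦ hε η t (wS (GC.pts c)) (srcN d (eH Φ ε S (hdB x))) := fun h =>
          hg ⟨h2.1, h2.2, h⟩
        rw [ind_of_not h3, mul_zero, mul_zero]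
      · rw [ind_of_not h2, zero_mul]
  refine h1.trans ?_
  rw [lintegral_const_mul _ hop, lawB_opP S R hKm]
  refine mul_le_mul_right ?_ _
  have hFm : Measurable fun x : XB n (k + 1) => K (hdB x) (lpM R x) :=
    measurable_comp2 K hKm measurable_hdB (measurable_lpM R)
  set g : ℝ × Ph → ℝ≥0∞ := (gTE L hΦ hε η t c d G).indicator fun _ => 1 with hg
  have hgm : Measurable g := measurable_const.indicator (measurableSet_gTE hG)
  refine (lawB_short (S := S) (S' := R) (t₂ := t₂) (t := t)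
    (G := ofP (exq Φ ε (S n)) t g) hε hb hδ hS hFm (measurable_ofP hψ.meas hgm) ?_).trans ?_
  · intro x _ hne
    have h3 : eH Φ ε S (hdB x) ∈ gTE L hΦ hε η t c d G ∧
        hitT ε (lpM R x) < exT ε ((hdB x).1, (hdB x).2.2) + δ := by
      by_contra hcon
      exact hne (ind_of_not hcon)
    refine ⟨?_, ?_⟩
    · rw [endB_lpM]
      exact h3.2
    · have e2 : exq Φ ε (S n) (lpB S x) = eH Φ ε S (hdB x) := eB_eq_eH x
      have h4 : (eH Φ ε S (hdB x)).1 ≤ t :=
        (touch_birth (m := srcN d (eH Φ ε S (hdB x))) h3.1.2.2).trans (hz_le hη ht)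
      rw [ofP_of (by rw [e2]; exact h4), e2, hg, indicator_of_mem h3.1]
      exact ind_le_one _
  · unfold CmB srcS
    rw [← hg]
    calc _ ≤ K1.sig univ * (ENNReal.ofReal t * (ENNReal.ofReal (KB b t n) *
          (ENNReal.ofReal (KG (b / 4)) * (cM b δ (k + 1) * srcJ (b / 8) t g)))) :=
          mul_le_mul' le_rfl (mul_le_mul' le_rfl (mul_le_mul' le_rfl
            (hψ.pair_le hb hgm (cM b δ (k + 1)))))
      _ = _ := by ring

end Vale.Agent.P119.PB
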