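import Vale.Agent.P119.PB.BLB2

/-!
# P119, block PROB: the sources of the second events under the law B (`helper778`)

* `F6w_B`: the bound over a fixed world;
* `F6_B`: the bound in the mean.
-/

open MeasureTheory Set Filter Topology Metric ProbabilityTheory
open scoped ENNReal NNReal

noncomputable section

namespace Vale.Agent.P119.PB

open KU M M.CTree FL FB RB EN AU

variable {Φ : E3 → ℝ} {ε : ℝ} {L : ℕ} {hΦ : IsPotential Φ} {hε : 0 < ε} {f₀ : Ph → ℝ}
  {κ b b' η η' t t₂ t₁ t' δ w c₁ : ℝ} {c : GC.Conf Ph} {n d k : ℕ} {G : Set (ℝ × Ph)}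
  {S R : ℕ → Step}

/-! ### The constants -/

/-- The constant of the brackets. -/
def KBk (hΦ : IsPotential Φ) (b t' : ℝ) (M : ℝ≥0∞) : ℝ≥0∞ :=
  (2 + 2 * M) * (1 + xB b t' + ENNReal.ofReal (Kc b)) * (KBB b 1 t' + KBB b (cS hΦ) t')

theorem KBk_ne_top {M : ℝ≥0∞} (hb : 0 < b) (hM : M ≠ ∞) : KBk hΦ b t' M ≠ ∞ := by
  unfold KBk
  have h1 : (2 + 2 * M) ≠ ∞ := ENNReal.add_ne_top.2 ⟨by norm_num,
    ENNReal.mul_ne_top (by norm_num) hM⟩
  have h2 : 1 + xB b t' + ENNReal.ofReal (Kc b) ≠ ∞ := ENNReal.add_ne_top.2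
    ⟨ENNReal.add_ne_top.2 ⟨by norm_num, xB_ne_top b t'⟩, ENNReal.ofReal_ne_top⟩
  exact ENNReal.mul_ne_top (ENNReal.mul_ne_top h1 h2)
    (ENNReal.add_ne_top.2 ⟨KBB_ne_top hb _ _, KBB_ne_top hb _ _⟩)

section coef

variable {M : ℝ≥0∞}

theorem coefB_m (ht : 0 ≤ t) (htt : t ≤ t') :
    2 * CmB b t t' n k + M * (2 * CmB b t t' n (k + 1)) ≤
      fS (xB b t') n * (fS (xB b t') k * KBk hΦ b t' M) := by
  have ht' := ht.trans htt
  calc 2 * CmB b t t' n k + M * (2 * CmB b t t' n (k + 1))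
      ≤ 2 * (KBB b 1 t' * fS (xB b t') n * fS (xB b t') k) + M * (2 * (KBB b 1 t' *
          fS (xB b t') n * (xB b t' * fS (xB b t') k))) := by
        gcongr
        · exact CmB_le ht htt ht' le_rfl n k
        · exact (CmB_le (c₁ := 1) ht htt ht' le_rfl n (k + 1)).trans
            (mul_le_mul' le_rfl (fS_succ_le _ _))
    _ = fS (xB b t') n * (fS (xB b t') k * (2 * KBB b 1 t' + M * (2 * (xB b t' *
          KBB b 1 t')))) := by ring
    _ ≤ _ := mul_le_mul' le_rfl (mul_le_mul' le_rfl (coef_aux le_self_add le_self_add))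

theorem coefB_y (ht : 0 ≤ t) (htt : t ≤ t') :
    CyB b t 1 t' n k + M * (2 * CyB b t (cS hΦ) t' n (k + 1)) ≤
      fS (xB b t') n * (fS (xB b t') k * KBk hΦ b t' M) := by
  have ht' := ht.trans htt
  calc CyB b t 1 t' n k + M * (2 * CyB b t (cS hΦ) t' n (k + 1))
      ≤ 2 * (KBB b 1 t' * fS (xB b t') n * fS (xB b t') k) + M * (2 * (KBB b (cS hΦ) t' *
          fS (xB b t') n * (xB b t' * fS (xB b t') k))) := by
        gcongr
        · refine (CyB_le ht htt ht' le_rfl 1 n k).trans ?_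
          rw [two_mul]
          exact le_self_add
        · exact (CyB_le ht htt ht' le_rfl (cS hΦ) n (k + 1)).trans
            (mul_le_mul' le_rfl (fS_succ_le _ _))
    _ = fS (xB b t') n * (fS (xB b t') k * (2 * KBB b 1 t' + M * (2 * (xB b t' *
          KBB b (cS hΦ) t')))) := by ring
    _ ≤ _ := mul_le_mul' le_rfl (mul_le_mul' le_rfl (coef_aux le_self_add le_add_self))

theorem coefB_l (hδ : 0 < δ) (ht : 0 ≤ t) (htt : t ≤ t') :
    2 * ClB b t 1 δ t' n k + M * (2 * ClB b t (cS hΦ) δ t' n (k + 1)) ≤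
      fS (xB b t') n * (fS (xB b t') k * (KBk hΦ b t' M * ENNReal.ofReal (1 / δ ^ 3))) := by
  have ht' := ht.trans htt
  have e1 : (1 : ℝ) / δ ^ 3 = δ⁻¹ ^ 3 := by rw [inv_pow, one_div]
  rw [e1]
  set D := ENNReal.ofReal (δ⁻¹ ^ 3)
  calc 2 * ClB b t 1 δ t' n k + M * (2 * ClB b t (cS hΦ) δ t' n (k + 1))
      ≤ 2 * (KBB b 1 t' * D * fS (xB b t') n * fS (xB b t') k) + M * (2 * (KBB b (cS hΦ) t' *
          D * fS (xB b t') n * (xB b t' * fS (xB b t') k))) := by
        gcongr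
        · exact ClB_le ht htt ht' le_rfl hδ 1 n k
        · exact (ClB_le ht htt ht' le_rfl hδ (cS hΦ) n (k + 1)).trans
            (mul_le_mul' le_rfl (fS_succ_le _ _))
    _ = fS (xB b t') n * (fS (xB b t') k * ((2 * KBB b 1 t' + M * (2 * (xB b t' *
          KBB b (cS hΦ) t'))) * D)) := by ring
    _ ≤ _ := mul_le_mul' le_rfl (mul_le_mul' le_rfl (mul_le_mul'
        (coef_aux le_self_add le_add_self) le_rfl))

theorem CmBd_le (ht : 0 ≤ t) (htt : t ≤ t') (hδ : 0 ≤ δ) (hδt : δ ≤ t') :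
    CmB b t δ n (k + 1) ≤ KBB b 1 t' * (ENNReal.ofReal (Kc b) * ENNReal.ofReal δ) *
      fS (xB b t') n * fS (xB b t') k := by
  have hx : ENNReal.ofReal (Kc b * δ) ≤ xB b t' := by
    refine le_trans (ENNReal.ofReal_le_ofReal (mul_le_mul_of_nonneg_left hδt (Kc_nonneg b))) ?_
    exact le_self_add
  have h1 : cM b δ (k + 1) ≤ I0 (b / 2) * ((ENNReal.ofReal (Kc b) * ENNReal.ofReal δ) *
      fS (xB b t') k) := by
    rw [cM_eq hδ]
    refine mul_le_mul' le_rfl ((fS_succ_le _ k).trans ?_)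
    rw [← ENNReal.ofReal_mul (Kc_nonneg b)]
    exact mul_le_mul' le_rfl (fS_mono hx k)
  unfold CmB
  calc _ ≤ K1.sig univ * (ENNReal.ofReal t' * ((ENNReal.ofReal (√2 * (1 + 1 / √b) ^ 2) *
        fS (xB b t') n) * (ENNReal.ofReal (KG (b / 4)) * (I0 (b / 2) *
          ((ENNReal.ofReal (Kc b) * ENNReal.ofReal δ) * fS (xB b t') k))))) :=
        mul_le_mul' le_rfl (mul_le_mul' (ENNReal.ofReal_le_ofReal htt)
          (mul_le_mul' (KB_le_fS ht htt n) (mul_le_mul' le_rfl h1)))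
    _ = K1.sig univ * (ENNReal.ofReal t' * (ENNReal.ofReal (√2 * (1 + 1 / √b) ^ 2) *
        (ENNReal.ofReal (KG (b / 4)) * I0 (b / 2)))) *
          (ENNReal.ofReal (Kc b) * ENNReal.ofReal δ) * fS (xB b t') n * fS (xB b t') k := by ring
    _ ≤ _ := by
        refine mul_le_mul' (mul_le_mul' (mul_le_mul' ?_ le_rfl) le_rfl) le_rfl
        unfold KBB
        refine le_trans ?_ le_self_add
        exact mul_le_mul' le_rfl (mul_le_mul' le_rfl (mul_le_mul' le_rfl
          (mul_le_mul' le_rfl le_self_add)))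

theorem coefB_d (ht : 0 ≤ t) (htt : t ≤ t') (hδ : 0 ≤ δ) (hδt : δ ≤ t') :
    M * CmB b t δ n (k + 1) ≤
      fS (xB b t') n * (fS (xB b t') k * (KBk hΦ b t' M * ENNReal.ofReal δ)) := by
  calc M * CmB b t δ n (k + 1)
      ≤ M * (KBB b 1 t' * (ENNReal.ofReal (Kc b) * ENNReal.ofReal δ) *
        fS (xB b t') n * fS (xB b t') k) := by
        gcongr
        exact CmBd_le ht htt hδ hδt
    _ = fS (xB b t') n * (fS (xB b t') k * ((M * ENNReal.ofReal (Kc b) * KBB b 1 t') *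
          ENNReal.ofReal δ)) := by ring
    _ ≤ _ := by
        refine mul_le_mul' le_rfl (mul_le_mul' le_rfl (mul_le_mul' ?_ le_rfl))
        unfold KBk
        refine mul_le_mul' (mul_le_mul' ?_ le_add_self) le_self_add
        calc M ≤ M + (2 + M) := le_self_add
          _ = 2 + 2 * M := by ring

end coef

/-! ### The sources of the second events -/

/-- **The sources over a fixed world, under the law B.** -/
theorem F6w_B {a : ℕ → ℝ≥0∞} {B : ℝ} (hB : RW.StableWith Φ B) (hb : 0 < b)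
    (hbb : b ≤ b') (hδ : 0 < δ) (hδt : δ ≤ t') (hc : c.2 ∈ excl ε c.1) (hη : 0 < η)
    (hηη : η ≤ η') (ht : 0 ≤ t) (htt : t < t') (hw : t ≤ w) (hS : ∀ n, RevStep ε (S n))
    (hψ : Exh ε (exq Φ ε (S n))) {H : Set Src} (hH : MeasurableSet H) :
    ∫⁻ x, ind (srcN d (eH Φ ε S (hdB x)) ∈ Gp H) *
      F6w L hΦ hε b' a η t w ((srcB ε x).1 + δ) (wS (GC.pts c)) (srcN d (eH Φ ε S (hdB x)))
        (endB ε R x).1 (endB ε R x).2 ∂(lawB ε b t t' n k S R) ≤
      fS (xB b t') n * (fS (xB b t') k * (KBk hΦ b t' (∑' k, a k) *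
        (bk1 L hΦ hε (b / 8) t δ η η' c d (slc H d) +
          ENNReal.ofReal (1 / δ ^ 3) * bk2 L hΦ hε B (b / 8) t η c d (slc H d)))) := by
  have ht' : 0 ≤ t' := ht.trans htt.le
  have hG := measurableSet_slc hH d
  set G := slc H d with hGdef
  set M := ∑' k, a k with hM
  have e1 : ∫⁻ x, ind (srcN d (eH Φ ε S (hdB x)) ∈ Gp H) *
      F6w L hΦ hε b' a η t w ((srcB ε x).1 + δ) (wS (GC.pts c)) (srcN d (eH Φ ε S (hdB x)))
        (endB ε R x).1 (endB ε R x).2 ∂(lawB ε b t t' n k S R) =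
      ∫⁻ x, (ind (eH Φ ε S (hdB x) ∈ gP G) * S6 L hΦ hε η t w ((srcB ε x).1 + δ)
          (wS (GC.pts c)) (srcN d (eH Φ ε S (hdB x))) (mB ε R x) +
        (ind (eH Φ ε S (hdB x) ∈ gP G) * pG6w L hΦ hε b' a η t w (wS (GC.pts c))
          (srcN d (eH Φ ε S (hdB x))) (mB ε R x) +
        ind (eH Φ ε S (hdB x) ∈ gP G) * (yH6 ε b' a t ((srcB ε x).1 + δ) (mB ε R x) *
          ind (TE L hΦ hε η t (wS (GC.pts c)) (srcN d (eH Φ ε S (hdB x)))))))
        ∂(lawB ε b t t' n k S R) := by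
    refine lintegral_congr fun x => ?_
    have h1 : ind (srcN d (eH Φ ε S (hdB x)) ∈ Gp H) = ind (eH Φ ε S (hdB x) ∈ gP G) := rfl
    rw [h1, ← mul_add, ← mul_add, ← add_assoc]
    rfl
  have heH := (measurable_eH (ε := ε) (n := n) hΦ S).comp (measurable_hdB (j := k))
  have hN := (measurable_srcN d).comp heH
  have hu : Measurable fun x : XB n k => (srcB ε x).1 + δ := measurable_srcB.fst.add_const δ
  have hg : Measurable fun x : XB n k => ind (eH Φ ε S (hdB x) ∈ gP G) :=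
    measurable_ind (heH (measurableSet_gP hG))
  have hS6 : Measurable fun x : XB n k => S6 L hΦ hε η t w ((srcB ε x).1 + δ)
      (wS (GC.pts c)) (srcN d (eH Φ ε S (hdB x))) (mB ε R x) :=
    measurable_S6 (rs_const c) measurable_const measurable_const measurable_const hu hN
      measurable_mB
  have hpG : Measurable fun x : XB n k => pG6w L hΦ hε b' a η t w (wS (GC.pts c))
      (srcN d (eH Φ ε S (hdB x))) (mB ε R x) :=
    measurable_pG6w (rs_const c) hN measurable_mB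
  have i1 : Measurable fun x : XB n k => ind (eH Φ ε S (hdB x) ∈ gP G) *
      S6 L hΦ hε η t w ((srcB ε x).1 + δ) (wS (GC.pts c)) (srcN d (eH Φ ε S (hdB x)))
        (mB ε R x) := hg.mul hS6
  have i2 : Measurable fun x : XB n k => ind (eH Φ ε S (hdB x) ∈ gP G) *
      pG6w L hΦ hε b' a η t w (wS (GC.pts c)) (srcN d (eH Φ ε S (hdB x))) (mB ε R x) :=
    hg.mul hpG
  have eB0 : ∀ k : ℕ, (eB (exq Φ ε (S n)) S : XB n k → ℝ × Ph) =
      fun x => eH Φ ε S (hdB x) := fun k => funext fun x => eB_eq_eH x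
  have H0 := BL_lineB (n := n) (j := k) (S := S) (S' := R) hε hb hδ ht htt.le htt.le hS hψ
  have H1 := BL_pairB1 (n := n) (j := k) (S := S) (S' := R) hΦ hε hb hδ htt.le htt.le hS hψ
  have H2 := BL_pairB2 (n := n) (j := k) (S := S) (S' := R) hΦ hε hb hδ htt.le htt.le hS hψ
  rw [eB0] at H0 H1 H2
  have hl : Measurable fun x : XB n k => (endB ε R x).2 := (measurable_endB R).snd
  rw [e1, lintegral_add_left i1, lintegral_add_left i2]
  refine (add_le_add (H0.s6 (w := w) (d := d) (L := L) (hΦ := hΦ) (hε := hε) (c := c)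
    hl hB hc hη hηη ht htt hG)
    (add_le_add (pG6_B H1 H2 hB hbb hc hη hηη ht htt htt hw hG)
      (yH6_B hb hbb hδ.le hS hψ ht hη htt hG))).trans ?_
  rw [← hM]
  set A1 := srcS (b / 8) t (gTd L hΦ hε η t δ c d G)
  set A2 := srcS (b / 8) t (gRL L hΦ hε η (η' - η) t c d G)
  set A3 := srcS (b / 8) t (gTE L hΦ hε η t c d G)
  set E2 := ENNReal.ofReal (ε ^ 2)
  set W := cWE B t ε η c
  set YE := yE L hΦ hε η' t δ c
  set YF := yF L hΦ hε η t δ c
  set F := fS (xB b t') n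
  set F' := fS (xB b t') k
  set K := KBk hΦ b t' M
  set D := ENNReal.ofReal (1 / δ ^ 3)
  have c1 : 2 * CmB b t t' n k + M * (2 * CmB b t t' n (k + 1)) ≤ F * (F' * K) :=
    coefB_m ht htt.le
  have c2 : CyB b t 1 t' n k + M * (2 * CyB b t (cS hΦ) t' n (k + 1)) ≤ F * (F' * K) :=
    coefB_y ht htt.le
  have c3 : 2 * ClB b t 1 δ t' n k + M * (2 * ClB b t (cS hΦ) δ t' n (k + 1)) ≤
      F * (F' * (K * D)) := coefB_l hδ ht htt.le
  have c4 : M * CmB b t δ n (k + 1) ≤ F * (F' * (K * ENNReal.ofReal δ)) :=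
    coefB_d ht htt.le hδ.le hδt
  have hb1 : bk1 L hΦ hε (b / 8) t δ η η' c d G =
      A1 + A2 + ENNReal.ofReal δ * A3 + E2 * (YE + YF) := rfl
  have hb2 : bk2 L hΦ hε B (b / 8) t η c d G = E2 * W * A3 := rfl
  rw [hb1, hb2]
  calc _ ≤ (2 * CmB b t t' n k + M * (2 * CmB b t t' n (k + 1))) * A1 +
        (2 * CmB b t t' n k + M * (2 * CmB b t t' n (k + 1))) * A2 +
        (CyB b t 1 t' n k + M * (2 * CyB b t (cS hΦ) t' n (k + 1))) * (E2 * YE) +
        (CyB b t 1 t' n k + M * (2 * CyB b t (cS hΦ) t' n (k + 1))) * (E2 * YF) +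
        (2 * ClB b t 1 δ t' n k + M * (2 * ClB b t (cS hΦ) δ t' n (k + 1))) * (E2 * W * A3) +
        (M * CmB b t δ n (k + 1)) * A3 := by
        have h1 : CmB b t t' n k * A2 ≤ 2 * CmB b t t' n k * A2 := by
          refine mul_le_mul' ?_ le_rfl
          rw [two_mul]
          exact le_self_add
        have h2 : CyB b t 1 t' n k * (E2 * YF) ≤
            (CyB b t 1 t' n k + M * (2 * CyB b t (cS hΦ) t' n (k + 1))) * (E2 * YF) := by
          gcongr
          exact le_self_add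
        calc _ = (2 * CmB b t t' n k + M * (2 * CmB b t t' n (k + 1))) * A1 +
              (CmB b t t' n k * A2 + M * (2 * CmB b t t' n (k + 1)) * A2) +
              (CyB b t 1 t' n k + M * (2 * CyB b t (cS hΦ) t' n (k + 1))) * (E2 * YE) +
              CyB b t 1 t' n k * (E2 * YF) +
              (2 * ClB b t 1 δ t' n k + M * (2 * ClB b t (cS hΦ) δ t' n (k + 1))) *
                (E2 * W * A3) +
              (M * CmB b t δ n (k + 1)) * A3 := by ring
          _ ≤ (2 * CmB b t t' n k + M * (2 * CmB b t t' n (k + 1))) * A1 +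
              (2 * CmB b t t' n k * A2 + M * (2 * CmB b t t' n (k + 1)) * A2) +
              (CyB b t 1 t' n k + M * (2 * CyB b t (cS hΦ) t' n (k + 1))) * (E2 * YE) +
              (CyB b t 1 t' n k + M * (2 * CyB b t (cS hΦ) t' n (k + 1))) * (E2 * YF) +
              (2 * ClB b t 1 δ t' n k + M * (2 * ClB b t (cS hΦ) δ t' n (k + 1))) *
                (E2 * W * A3) +
              (M * CmB b t δ n (k + 1)) * A3 := by
              gcongr
          _ = _ := by ring
    _ ≤ (F * (F' * K)) * A1 + (F * (F' * K)) * A2 + (F * (F' * K)) * (E2 * YE) +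
        (F * (F' * K)) * (E2 * YF) + (F * (F' * (K * D))) * (E2 * W * A3) +
        (F * (F' * (K * ENNReal.ofReal δ))) * A3 := by
        gcongr
    _ = _ := by ring

end Vale.Agent.P119.PB
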