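import Vale.Agent.P119.PB.BLB3

/-!
# P119, block PROB: the sources of the second events under the law B, in the mean (`helper778`)

* `F6_B`: the bound in the mean;
* `tE6_B`: the remainder.
-/

open MeasureTheory Set Filter Topology Metric ProbabilityTheory
open scoped ENNReal NNReal

noncomputable section

namespace Vale.Agent.P119.PB

open KU M M.CTree FL FB RB EN AU

variable {Φ : E3 → ℝ} {ε : ℝ} {L : ℕ} {hΦ : IsPotential Φ} {hε : 0 < ε} {f₀ : Ph → ℝ}
  {κ b b' η η' t t' δ w : ℝ} {n d k : ℕ} {S R : ℕ → Step}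

/-- **Tonelli.** -/
theorem lawB_F6_eq (h₀ : GoodDatum f₀ κ) {G : Set Src} (hG : MeasurableSet G) {a : ℕ → ℝ≥0∞} :
    ∫⁻ x, ind (srcN d (eH Φ ε S (hdB x)) ∈ G) *
      F6 L hΦ hε f₀ b' a η t w ((srcB ε x).1 + δ) (srcN d (eH Φ ε S (hdB x))) (endB ε R x).1
        (endB ε R x).2 ∂(lawB ε b t t' n k S R) =
    ∫⁻ c, ∫⁻ x, ind (srcN d (eH Φ ε S (hdB x)) ∈ G) *
      F6w L hΦ hε b' a η t w ((srcB ε x).1 + δ) (wS (GC.pts c))
        (srcN d (eH Φ ε S (hdB x))) (endB ε R x).1 (endB ε R x).2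
        ∂(lawB ε b t t' n k S R) ∂(GC.PP f₀ ε) := by
  have := GC.isProbability_PP (ε := ε) h₀
  have he : Measurable fun x : XB n k => srcN d (eH Φ ε S (hdB x)) :=
    (measurable_srcN d).comp ((measurable_eH hΦ S).comp measurable_hdB)
  have he2 : Measurable fun q : XB n k × GC.Conf Ph => srcN d (eH Φ ε S (hdB q.1)) :=
    he.comp measurable_fst
  have hend : Measurable fun q : XB n k × GC.Conf Ph => endB ε R q.1 :=
    (measurable_endB R).comp measurable_fst
  have hu : Measurable fun q : XB n k × GC.Conf Ph => (srcB ε q.1).1 + δ :=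
    ((measurable_srcB.comp measurable_fst).fst).add_const δ
  have hm : Measurable fun q : XB n k × GC.Conf Ph => ind (srcN d (eH Φ ε S (hdB q.1)) ∈ G) *
      F6w L hΦ hε b' a η t w ((srcB ε q.1).1 + δ) (wS (GC.pts q.2))
        (srcN d (eH Φ ε S (hdB q.1))) (endB ε R q.1).1 (endB ε R q.1).2 :=
    (measurable_ind (he2 hG)).mul (measurable_F6w (MM.RS.comp RM.rs_conf measurable_snd)
      hu he2 hend.fst hend.snd)
  rw [← lintegral_lintegral_swap hm.aemeasurable]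
  refine lintegral_congr fun x => ?_
  rw [F6_eq_F6w h₀]
  have hx : Measurable fun c : GC.Conf Ph =>
      F6w L hΦ hε b' a η t w ((srcB ε x).1 + δ) (wS (GC.pts c))
        (srcN d (eH Φ ε S (hdB x))) (endB ε R x).1 (endB ε R x).2 :=
    measurable_F6w RM.rs_conf measurable_const measurable_const measurable_const measurable_const
  rw [lintegral_const_mul _ hx]

open Classical in
/-- **The sources of the second events in the mean, under the law B.** -/
theorem F6_B {a : ℕ → ℝ≥0∞} {B Tm : ℝ} {δ₁ : ℝ≥0∞} (h₀ : GoodDatum f₀ κ)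
    (ha : ∑' k, a k ≠ ∞) (hB : RW.StableWith Φ B) (hb : 0 < b)
    (hbb : b ≤ b') (hδ : 0 < δ) (hd1 : δ ≤ 1) (hδt : δ ≤ t') (hη : 0 < η)
    (hηη : η ≤ η') (ht : 0 ≤ t) (htm : t ≤ Tm) (htt : t < t') (hw : t ≤ w) (hδ₁ : δ₁ ≤ 2⁻¹)
    (hS : ∀ n, RevStep ε (S n)) (hψ : Exh ε (exq Φ ε (S n)))
    {H : Set Src} (hH : MeasurableSet H) (hd : d ≤ L)
    (hG : ∀ e ∈ H, 0 < e.1 → ∫⁻ c, ind (TE L hΦ hε η t (wS (GC.pts c)) e ∧
      ENNReal.ofReal ((η' - η) * mu ε) < relW L hΦ hε (insert e (wS (GC.pts c)))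
        (wS (GC.pts c)) t) ∂(GC.PP f₀ ε) ≤ δ₁ * tE6 L hΦ hε f₀ η t e) :
    ∫⁻ x, ind (srcN d (eH Φ ε S (hdB x)) ∈ Gp H) *
      F6 L hΦ hε f₀ b' a η t w ((srcB ε x).1 + δ) (srcN d (eH Φ ε S (hdB x)))
        (endB ε R x).1 (endB ε R x).2 ∂(lawB ε b t t' n k S R) ≤
      fS (xB b t') n * fS (xB b t') k * (KBk hΦ b t' (∑' k, a k) *
        EbA L hΦ hε f₀ B Tm (b / 8) t δ η η' w δ₁ d) := by
  have hGO : GOk L hΦ hε f₀ η η' t d (slc H d) δ₁ := fun y hy hy0 => hG _ hy hy0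
  have hGm := measurableSet_slc hH d
  have hx := xB_ne_top b t'
  rw [lawB_F6_eq h₀ (measurableSet_Gp hH)]
  refine (lintegral_mono_ae (g := fun c => fS (xB b t') n * (fS (xB b t') k *
    (KBk hΦ b t' (∑' k, a k) * (bk1 L hΦ hε (b / 8) t δ η η' c d (slc H d) +
        ENNReal.ofReal (1 / δ ^ 3) * bk2 L hΦ hε B (b / 8) t η c d (slc H d))))) ?_).trans ?_
  · filter_upwards [GC.ae_excl f₀ ε] with c hc
    exact F6w_B hB hb hbb hδ hδt hc hη hηη ht htt hw hS hψ hH
  · rw [lintegral_const_mul' _ _ (fS_ne_top hx n), lintegral_const_mul' _ _ (fS_ne_top hx k),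
      lintegral_const_mul' _ _ (KBk_ne_top hb ha),
      lintegral_add_right _ ((measurable_bk2 hGm).const_mul _),
      lintegral_const_mul' _ _ ENNReal.ofReal_ne_top, mul_assoc]
    refine mul_le_mul' le_rfl (mul_le_mul' le_rfl (mul_le_mul' le_rfl (add_le_add ?_
      (mul_le_mul' le_rfl ?_))))
    · exact E_bk1 h₀ hB hd hη hηη ht htm hw hδ hd1 hδ₁ hGm hGO
    · exact E_bk2 h₀ hd hη hηη ht hw hδ₁ hGm hGO

/-- **The remainder.** -/
theorem tE6_B {δ₁ : ℝ≥0∞} (h₀ : GoodDatum f₀ κ) (hb : 0 < b) (hη : 0 < η) (hηη : η ≤ η')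
    (ht : 0 ≤ t) (htt : t ≤ t') (hw : t ≤ w) (hδ₁ : δ₁ ≤ 2⁻¹)
    (hS : ∀ n, RevStep ε (S n)) (hψ : Exh ε (exq Φ ε (S n))) {H : Set Src}
    (hH : MeasurableSet H) (hd : d ≤ L) (hG : GOk L hΦ hε f₀ η η' t d (slc H d) δ₁) :
    ∫⁻ x, ind (srcN d (eH Φ ε S (hdB x)) ∈ Gp H) *
      tE6 L hΦ hε f₀ η t (srcN d (eH Φ ε S (hdB x))) ∂(lawB ε b t t' n k S R) ≤
      fS (xB b t') n * fS (xB b t') k * (KBB b 1 t' *
        (2 * srcJ (b / 8) t fun y => thL L hΦ hε f₀ η' t w (srcN d y))) := by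
  have := GC.isProbability_PP (ε := ε) h₀
  have hgm : Measurable fun y : ℝ × Ph => ind (y ∈ gP (slc H d)) *
      tE6 L hΦ hε f₀ η t (srcN d y) :=
    (measurable_ind (measurableSet_gP (measurableSet_slc hH d))).mul
      ((measurable_tE6' h₀).comp (measurable_srcN d))
  have H0 := BL_lineB (n := n) (j := k) (S := S) (S' := R) (δ := 1) (t₂ := t') hε hb one_pos ht
    le_rfl htt hS hψ
  have heH := (measurable_eH (ε := ε) (n := n) hΦ S).comp (measurable_hdB (j := k))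
  have h1 := H0.mass (fun x => ind (srcN d (eH Φ ε S (hdB x)) ∈ Gp H) *
      tE6 L hΦ hε f₀ η t (srcN d (eH Φ ε S (hdB x)))) _
    ((measurable_ind (((measurable_srcN d).comp heH) (measurableSet_Gp hH))).mul
      ((measurable_tE6' h₀).comp ((measurable_srcN d).comp heH))) hgm fun x hx hne => ?_
  · refine h1.trans ?_
    calc _ ≤ (KBB b 1 t' * fS (xB b t') n * fS (xB b t') k) *
          (2 * srcJ (b / 8) t fun y => thL L hΦ hε f₀ η' t w (srcN d y)) := by
          refine mul_le_mul' (CmB_le ht htt (ht.trans htt) le_rfl n k) ?_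
          rw [← srcJ_const_mul (by norm_num)]
          refine srcJ_mono fun y => ?_
          by_cases hy : y ∈ gP (slc H d)
          · rw [ind_of hy, one_mul]
            exact tE6_G h₀ hd hη hηη ht hw hδ₁ hG hy.1 hy.2
          · rw [ind_of_not hy, zero_mul]
            exact zero_le
      _ = _ := by ring
  · have e1 : eB (exq Φ ε (S n)) S x = eH Φ ε S (hdB x) := eB_eq_eH x
    rw [e1]
    have h2 : srcN d (eH Φ ε S (hdB x)) ∈ Gp H := by
      by_contra hcon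
      exact hne (by rw [ind_of_not hcon, zero_mul])
    refine ⟨?_, ?_⟩
    · by_contra hcon
      refine hne ?_
      have h3 : tE6 L hΦ hε f₀ η t (srcN d (eH Φ ε S (hdB x))) = 0 := by
        unfold tE6
        have h4 : ∀ c : GC.Conf Ph, ind (TE L hΦ hε η t (wS (GC.pts c))
            (srcN d (eH Φ ε S (hdB x)))) = 0 := fun c => ind_of_not fun h =>
          hcon ((touch_birth (m := srcN d (eH Φ ε S (hdB x))) h).trans (hz_le hη ht))
        simp only [h4, lintegral_zero]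
      rw [h3, mul_zero]
    · exact le_of_eq rfl

end Vale.Agent.P119.PB
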