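import Vale.Agent.P119.PB.BL
import Vale.Agent.P119.PB.Op9

/-!
# P119, block PROB: second contacts in a fixed world (`helper778`)

`V` is the world of the configuration `c`, `e = srcN n y` the source with birth and line `y` and depth
`n`.

* `gTE`, `gTd`, `gRL`: the sets of the sources `e` which touch `V`; within the time `δ`; which touch
  and are exceptional;
* `BL.path`: contact of the moving point with an exposed label of `V + e`;
* `BL.felL`: the moving point is on a felt tree of `V + e`, after `u`;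
* `BL.felS`: the moving point is on a felt tree of `V`, before `u`.
-/

open MeasureTheory Set Filter Topology Metric ProbabilityTheory
open scoped ENNReal NNReal

noncomputable section

namespace Vale.Agent.P119.PB

open KU M M.CTree FL FB RB EN AU

variable {Φ : E3 → ℝ} {ε : ℝ} (L : ℕ) (hΦ : IsPotential Φ) (hε : 0 < ε)

/-- The source with birth and line `y` and depth `n`. -/
def srcN (n : ℕ) (y : ℝ × Ph) : Src := (y.1, y.2, n)

theorem measurable_srcN (n : ℕ) : Measurable (srcN n) :=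
  measurable_fst.prodMk (measurable_snd.prodMk measurable_const)

/-- The sources which touch. -/
def gTE (η t : ℝ) (c : GC.Conf Ph) (n : ℕ) (G : Set (ℝ × Ph)) : Set (ℝ × Ph) :=
  {y | y ∈ G ∧ 0 < y.1 ∧ TE L hΦ hε η t (wS (GC.pts c)) (srcN n y)}

open Classical in
/-- The sources which touch within the time `δ`. -/
def gTd (η t δ : ℝ) (c : GC.Conf Ph) (n : ℕ) (G : Set (ℝ × Ph)) : Set (ℝ × Ph) :=
  {y | y ∈ G ∧ 0 < y.1 ∧ (RB.Y Φ ε L hΦ hε).Touch (wS (GC.pts c)) (insert (srcN n y) (wS (GC.pts c)))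
    (min (hz L hΦ hε η t (insert (srcN n y) (wS (GC.pts c)))) (y.1 + δ))}

open Classical in
/-- The sources which touch and are exceptional. -/
def gRL (η θ t : ℝ) (c : GC.Conf Ph) (n : ℕ) (G : Set (ℝ × Ph)) : Set (ℝ × Ph) :=
  {y | y ∈ gTE L hΦ hε η t c n G ∧ ENNReal.ofReal (θ * mu ε) <
    relW L hΦ hε (insert (srcN n y) (wS (GC.pts c))) (wS (GC.pts c)) t}

variable {L hΦ hε} {η η' θ t t₁ δ : ℝ} {c : GC.Conf Ph} {n : ℕ} {G : Set (ℝ × Ph)}

theorem rs_const {Y : Type} [MeasurableSpace Y] (c : GC.Conf Ph) :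
    MM.RS fun _ : Y => ((wS (GC.pts c) : Finset Src) : Set Src) :=
  RM.rs_wS (c := fun _ : Y => c) measurable_const

theorem measurableSet_gTE (hG : MeasurableSet G) :
    MeasurableSet (gTE L hΦ hε η t c n G) :=
  hG.inter ((measurableSet_lt measurable_const measurable_fst).inter
    (measurableSet_TE (rs_const c) measurable_const measurable_const (measurable_srcN n)))

theorem measurableSet_gTd (hG : MeasurableSet G) :
    MeasurableSet (gTd L hΦ hε η t δ c n G) := by
  classical
  have h1 := RM.rs_insert (rs_const c) (measurable_srcN n)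
  exact hG.inter ((measurableSet_lt measurable_const measurable_fst).inter
    (RM.measurableSet_touch (rs_const c) h1
      ((RM.measurable_hz h1 measurable_const measurable_const).min
        (measurable_fst.add_const δ))))

theorem measurableSet_gRL (hG : MeasurableSet G) :
    MeasurableSet (gRL L hΦ hε η θ t c n G) := by
  classical
  have h1 := RM.rs_insert (rs_const c) (measurable_srcN n)
  exact (measurableSet_gTE hG).inter (measurableSet_lt measurable_const
    (RM.measurable_relW h1 (rs_const c) measurable_const))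

/-! ### The targets of `V + e` -/

open Classical in
theorem nonneg_insert {e : Src} (he : 0 < e.1) : ∀ a ∈ insert e (wS (GC.pts c)), 0 ≤ a.1 := by
  intro a ha
  rcases Finset.mem_insert.1 ha with rfl | ha
  · exact he.le
  · exact (wS_birth0 ha).ge

open Classical in
theorem excl_insert (hc : c.2 ∈ excl ε c.1) {e : Src} (he : 0 < e.1) :
    ∀ a ∈ insert e (wS (GC.pts c)), ∀ a' ∈ insert e (wS (GC.pts c)), a ≠ a' → a.1 = 0 → a'.1 = 0 →
      ε ≤ ‖a.2.1.1 - a'.2.1.1‖ := by
  intro a ha a' ha' hne h0 h0'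
  rcases Finset.mem_insert.1 ha with rfl | ha
  · exact absurd h0 he.ne'
  rcases Finset.mem_insert.1 ha' with rfl | ha'
  · exact absurd h0' he.ne'
  exact wS_excl hc a ha a' ha' hne h0 h0'

open Classical in
theorem filter_insert_le {e : Src} :
    ((insert e (wS (GC.pts c))).filter fun a => a.1 ≠ 0).card ≤ 1 := by
  refine (Finset.card_le_card (t := {e}) fun a ha => ?_).trans (Finset.card_singleton e).le
  rw [Finset.mem_filter, Finset.mem_insert] at ha
  rcases ha.1 with rfl | h
  · exact Finset.mem_singleton_self _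
  · exact absurd (wS_birth0 h) ha.2

/-- The size of the targets of `V + e`. -/
def cWE (B t ε η : ℝ) (c : GC.Conf Ph) : ℝ≥0∞ :=
  2 * (((wS (GC.pts c)).card + 1) * ENNReal.ofReal ε) +
    ENNReal.ofReal (2 * cDD B 1 * t + 2 * (ε + t)) * ENNReal.ofReal (η * mu ε)

theorem sum_fl_w0 {W : Finset Src} {h : ℝ} (h0 : 0 ≤ h) {K : ℝ≥0∞}
    (hK : ∀ s < h, fW L hΦ hε W s ≤ K) :
    ∑ T ∈ flI L hΦ hε W h, (lineTarget h 0 (ln Φ ε T)).w ε ≤ ENNReal.ofReal (ε + h) * K := by
  refine le_trans ?_ (mul_le_mul' le_rfl (sum_fl_lt hK))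
  rw [Finset.mul_sum]
  refine Finset.sum_le_sum fun T _ => ?_
  rw [lineTarget_w, ← ofReal_norm, ← ENNReal.ofReal_one, ← ENNReal.ofReal_add zero_le_one
    (norm_nonneg _), ← ENNReal.ofReal_mul (by positivity), ← ENNReal.ofReal_mul (by positivity),
    sub_zero, ← ENNReal.ofReal_add hε.le (by positivity)]
  apply ENNReal.ofReal_le_ofReal
  nlinarith [mul_nonneg (norm_nonneg (ln Φ ε T).2) hε.le]

open Classical in
/-- The targets of a world: the exposed labels and the lines of the felt trees. -/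
def tgI (L : ℕ) (hΦ : IsPotential Φ) (hε : 0 < ε) (W : Finset Src) (h : ℝ) :
    Finset ((Bool × Src) ⊕ CTree) :=
  (expI Φ ε L hΦ hε W h).disjSum (flI L hΦ hε W h)

/-- The targets of a world. -/
def tgT (L : ℕ) (hΦ : IsPotential Φ) (hε : 0 < ε) (W : Finset Src) (h : ℝ) :
    (Bool × Src) ⊕ CTree → Target h :=
  Sum.elim (expT Φ ε L hΦ hε W h) fun T => lineTarget h 0 (ln Φ ε T)

open Classical in
theorem sum_targets {B : ℝ} (hB : RW.StableWith Φ B) (hc : c.2 ∈ excl ε c.1) {e : Src}
    (he : 0 < e.1) (hη : 0 < η) (ht : 0 ≤ t) :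
    ∑ i ∈ tgI L hΦ hε (insert e (wS (GC.pts c))) (hz L hΦ hε η t (insert e (wS (GC.pts c)))),
      (tgT L hΦ hε (insert e (wS (GC.pts c))) (hz L hΦ hε η t (insert e (wS (GC.pts c)))) i).w ε ≤
      cWE B t ε η c := by
  set W : Finset Src := insert e (wS (GC.pts c)) with hW
  set h := hz L hΦ hε η t W with hh
  have h0 : 0 ≤ h := by
    rw [hh, le_hz_iff hη ht]
    exact ⟨ht, fun s hs => by
      rw [nW_of_neg hs]
      exact ENNReal.ofReal_pos.2 (mul_pos hη (GC.mu_pos hε))⟩
  have hht : h ≤ t := hz_le hη ht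
  have h1 := guard_w (L := L) (hΦ := hΦ) (hε := hε) hB (W := W) (nonneg_insert he)
    (excl_insert hc he) filter_insert_le hη ht h0 le_rfl
  have h2 := sum_fl_w0 (L := L) (hΦ := hΦ) (hε := hε) (W := W) h0
    (K := ENNReal.ofReal (η * mu ε)) fun s hs =>
      le_add_self.trans (nW_lt_of_lt_hz hη ht hs).le
  unfold tgI tgT
  rw [Finset.sum_disjSum]
  simp only [Sum.elim_inl, Sum.elim_inr]
  refine (add_le_add (le_self_add.trans h1) h2).trans ?_
  have hcard : (W.card : ℝ≥0∞) ≤ (wS (GC.pts c)).card + 1 := by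
    have := Finset.card_insert_le e (wS (GC.pts c))
    exact_mod_cast this
  have hcd := cDD_nonneg hB.1 1
  unfold cWE
  calc 2 * (W.card * ENNReal.ofReal ε) +
        ENNReal.ofReal (2 * cDD B 1 * t + (ε + t)) * ENNReal.ofReal (η * mu ε) +
        ENNReal.ofReal (ε + h) * ENNReal.ofReal (η * mu ε)
      ≤ 2 * (((wS (GC.pts c)).card + 1) * ENNReal.ofReal ε) +
        ENNReal.ofReal (2 * cDD B 1 * t + (ε + t)) * ENNReal.ofReal (η * mu ε) +
        ENNReal.ofReal (ε + t) * ENNReal.ofReal (η * mu ε) := by gcongr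
    _ = 2 * (((wS (GC.pts c)).card + 1) * ENNReal.ofReal ε) +
        (ENNReal.ofReal (2 * cDD B 1 * t + (ε + t)) + ENNReal.ofReal (ε + t)) *
          ENNReal.ofReal (η * mu ε) := by ring
    _ = _ := by
        rw [← ENNReal.ofReal_add (by positivity) (by linarith)]
        congr 3
        ring

/-! ### Contact with the exposed labels -/

section path

variable {Ω : Type} [MeasurableSpace Ω]

variable (L hΦ hε) in
open Classical in
/-- Contact of the moving point with an exposed label of `V + e`. -/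
def evP (η t : ℝ) (c : GC.Conf Ph) (n : ℕ) (G : Set (ℝ × Ph)) (eS : Ω → ℝ × Ph) (tl : Ω → ℝ)
    (X : Ω → ℝ → E3) : Set Ω :=
  {x | eS x ∈ gTE L hΦ hε η t c n G ∧ ∃ r, tl x ≤ r ∧
    r ≤ hz L hΦ hε η t (insert (srcN n (eS x)) (wS (GC.pts c))) ∧
    CC L hΦ hε (insert (srcN n (eS x)) (wS (GC.pts c))) r (X x r)}

variable (L hΦ hε) in
/-- Contact of the moving point with an exposed label of `V`, before `u`. -/
def evY (η t : ℝ) (c : GC.Conf Ph) (u tl : Ω → ℝ) (X : Ω → ℝ → E3) : Set Ω :=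
  {x | ∃ r, tl x ≤ r ∧ r ≤ min (hz L hΦ hε η t (wS (GC.pts c))) (u x) ∧
    CC L hΦ hε (wS (GC.pts c)) r (X x r)}

variable {eS : Ω → ℝ × Ph} {u tl : Ω → ℝ} {X : Ω → ℝ → E3}

theorem measurableSet_evP (hG : MeasurableSet G) (he : Measurable eS) (htl : Measurable tl)
    (hX : ∀ τ, Measurable fun x => X x τ) (hXc : ∀ x, Continuous (X x)) :
    MeasurableSet (evP L hΦ hε η t c n G eS tl X) := by
  classical
  have h1 := RM.rs_insert (rs_const (Y := Ω) c) ((measurable_srcN n).comp he)
  exact (he (measurableSet_gTE hG)).inter ((RM.SC.CC h1 hX hXc).meet htl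
    (RM.measurable_hz h1 measurable_const measurable_const))

theorem measurableSet_evY (hu : Measurable u) (htl : Measurable tl)
    (hX : ∀ τ, Measurable fun x => X x τ) (hXc : ∀ x, Continuous (X x)) :
    MeasurableSet (evY L hΦ hε η t c u tl X) :=
  (RM.SC.CC (rs_const (Y := Ω) c) hX hXc).meet htl
    ((RM.measurable_hz (rs_const (Y := Ω) c) measurable_const measurable_const).min hu)

variable {ν : Measure Ω} {E : Set Ω} {β : ℝ} {Cm Cl Cy : ℝ≥0∞}

/-- **Contact of the moving point with an exposed label of `V + e`.** -/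
theorem BL.path (H : BL ν E ε t t₁ δ β eS u tl X Cm Cl Cy) {B : ℝ} (hB : RW.StableWith Φ B)
    (hc : c.2 ∈ excl ε c.1) (hη : 0 < η) (hηη : η ≤ η') (ht : 0 ≤ t) (ht₁ : t < t₁)
    (hG : MeasurableSet G) :
    ν (evP L hΦ hε η t c n G eS tl X) ≤ Cm * srcS β t (gTd L hΦ hε η t δ c n G) +
      Cm * srcS β t (gRL L hΦ hε η (η' - η) t c n G) +
      Cy * (ENNReal.ofReal (ε ^ 2) * yW ε t δ
        (expI Φ ε L hΦ hε (wS (GC.pts c)) (hz L hΦ hε η' t (wS (GC.pts c))))
        (expT Φ ε L hΦ hε (wS (GC.pts c)) (hz L hΦ hε η' t (wS (GC.pts c))))) +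
      Cl * (ENNReal.ofReal (ε ^ 2) * cWE B t ε η c) * srcS β t (gTE L hΦ hε η t c n G) := by
  classical
  have hη' : 0 < η' := hη.trans_le hηη
  have hV : ∀ a ∈ wS (GC.pts c), 0 ≤ a.1 := fun a ha => (wS_birth0 ha).ge
  refine H.split (AY := evY L hΦ hε η' t c u tl X)
    (measurableSet_evP hG H.em H.tm H.Xm H.Xc) (measurableSet_evY H.um H.tm H.Xm H.Xc)
    (measurableSet_gTd hG) (measurableSet_gRL hG) (measurableSet_gTE hG)
    (h := fun y => hz L hΦ hε η t (insert (srcN n y) (wS (GC.pts c))))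
    (fun y => tgI L hΦ hε (insert (srcN n y) (wS (GC.pts c)))
      (hz L hΦ hε η t (insert (srcN n y) (wS (GC.pts c)))))
    (fun y => tgT L hΦ hε (insert (srcN n y) (wS (GC.pts c)))
      (hz L hΦ hε η t (insert (srcN n y) (wS (GC.pts c)))))
    (fun y => (hz_le hη ht).trans_lt ht₁) (fun y hy => sum_targets hB hc hy.2.1 hη ht)
    _ _ ((hz_le hη' ht).trans_lt ht₁) ?_ ?_
  · rintro x hx ⟨hT, r, hr1, hr2, hCC⟩
    have hE1 : (eS x).1 ≤ t := (touch_birth (m := srcN n (eS x)) hT.2.2).trans (hz_le hη ht)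
    refine ⟨hE1, hT, ?_⟩
    rcases le_or_gt (u x) r with hur | hur
    · -- late contact
      right; right; right
      obtain ⟨a, ha, h3⟩ := hCC
      obtain ⟨i, hi, h4, h5⟩ := near_target (nonneg_insert hT.2.1) hr2 ha h3
      refine ⟨Sum.inl i, Finset.inl_mem_disjSum.2 hi, r, ⟨max_le (max_le h4 hur) hr1, hr2⟩, h5⟩
    · by_cases h4 : (RB.Y Φ ε L hΦ hε).Touch (wS (GC.pts c)) (insert (srcN n (eS x))
          (wS (GC.pts c))) (min (hz L hΦ hε η t (insert (srcN n (eS x)) (wS (GC.pts c))))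
          ((eS x).1 + δ))
      · exact Or.inl ⟨hT.1, hT.2.1, h4⟩
      right
      by_cases h5 : ENNReal.ofReal ((η' - η) * mu ε) <
          relW L hΦ hε (insert (srcN n (eS x)) (wS (GC.pts c))) (wS (GC.pts c)) t
      · exact Or.inl ⟨hT, h5⟩
      right; left
      have hrm : r ≤ min (hz L hΦ hε η t (insert (srcN n (eS x)) (wS (GC.pts c))))
          ((eS x).1 + δ) := le_min hr2 (hur.le.trans (H.ue x hx))
      have hn : ∀ s ≤ r, ¬(RB.Y Φ ε L hΦ hε).Touch (insert (srcN n (eS x)) (wS (GC.pts c)))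
          (wS (GC.pts c)) s := fun s hs h => h4 (h.symm.mono (hs.trans hrm))
      refine ⟨r, hr1, le_min ?_ hur.le, ?_⟩
      · exact hz_transfer (nonneg_insert hT.2.1) hV hη ht (fun s hs => hn s hs.le)
          (not_lt.1 h5) hηη hr2
      · exact CC.of_not_touch (nonneg_insert hT.2.1) hV (hn r le_rfl) hCC
  · rintro x - ⟨r, hr1, hr2, a, ha, h3⟩
    obtain ⟨i, hi, h4, h5⟩ := near_target hV (hr2.trans (min_le_left _ _)) ha h3
    exact ⟨i, hi, r, ⟨max_le h4 hr1, hr2.trans (min_le_left _ _)⟩, hr2.trans (min_le_right _ _), h5⟩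

end path

end Vale.Agent.P119.PB
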