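import Vale.Agent.P119.PB.Iter

/-!
# P119, block PROB: the iterates for line functions, with parameters (`helper758`)

* `measurable_Gc_param`: `Gc` of a function with a parameter is measurable in the parameter;
* **`Gc_lintegral`**: `Gc` commutes with an integral over the parameter;
* **`lam_Gc_comm`**: the same integrated against a measure on pairs of sources.
-/

open MeasureTheory Filter Topology Set
open scoped ENNReal NNReal

noncomputable section

namespace Vale.Agent.P119.PB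

open M CTree KU FL

variable {Φ : E3 → ℝ} {ε : ℝ}

section param

variable {X : Type*} [MeasurableSpace X]

/-- The iterates are measurable in a parameter. -/
theorem measurable_Gc_param (hΦ : IsPotential Φ) (hε : ε ≠ 0) (b t' : ℝ) (j : ℕ)
    {F : X → ℝ → Ph → ℝ≥0∞} (hF : Measurable fun q : X × ℝ × Ph => F q.1 q.2.1 q.2.2) :
    Measurable fun q : X × ℝ × Ph => Gc hΦ hε b t' j (F q.1) q.2.1 q.2.2 := by
  induction j with
  | zero => exact hF
  | succ j ih =>
    have e : (fun q : X × ℝ × Ph => Gc hΦ hε b t' (j + 1) (F q.1) q.2.1 q.2.2) =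
        fun q : X × ℝ × Ph => ∑ o : Fin 3, ∫⁻ z' : Ph,
          ({r : (X × ℝ × Ph) × Ph | r.2 ∈ hitO ε t' r.1.2.1 r.1.2.2}).indicator
          (fun r => muE ε * gw b r.2.2 * Gc hΦ hε b t' j (F r.1.1) (hitT ε (r.1.2.2, r.2))
            ((stp hΦ hε o).f (r.1.2.2, r.2))) (q, z') := by
      funext q
      rw [Gc_succ]
      refine Finset.sum_congr rfl fun o _ => ?_
      rw [← lintegral_indicator (measurableSet_hitO t' q.2.1 q.2.2)]
      rfl
    rw [e]
    refine Finset.measurable_sum _ fun o _ => Measurable.lintegral_prod_right' ?_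
    have hq : Measurable fun r : (X × ℝ × Ph) × Ph => ((r.1.2.2, r.2) : Ph × Ph) := by fun_prop
    have hq3 : Measurable fun r : (X × ℝ × Ph) × Ph => (((r.1.2.1, r.1.2.2), r.2) :
        (ℝ × Ph) × Ph) := by fun_prop
    refine Measurable.indicator ?_ (hq3 (measurableSet_hitO3 t'))
    refine (((measurable_gw b).comp measurable_snd.snd).const_mul _).mul ?_
    exact ih.comp (measurable_fst.fst.prodMk ((measurable_hitT.comp hq).prodMk
      ((stp hΦ hε o).meas.comp hq)))

variable {Ω : Type*} [MeasurableSpace Ω]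

/-- **The iterates commute with an integral over the parameter.** -/
theorem Gc_lintegral (hΦ : IsPotential Φ) (hε : ε ≠ 0) (b t' : ℝ) (j : ℕ) {P : Measure Ω}
    [SFinite P] {F : Ω → ℝ → Ph → ℝ≥0∞}
    (hF : Measurable fun q : Ω × ℝ × Ph => F q.1 q.2.1 q.2.2) (s : ℝ) (l : Ph) :
    Gc hΦ hε b t' j (fun s z => ∫⁻ c, F c s z ∂P) s l =
      ∫⁻ c, Gc hΦ hε b t' j (F c) s l ∂P := by
  induction j generalizing s l with
  | zero => rfl
  | succ j ih =>
    have hm := measurable_Gc_param hΦ hε b t' j hF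
    have h1 : ∀ o : Fin 3, Measurable fun p : Ω × Ph => muE ε * gw b p.2.2 *
        Gc hΦ hε b t' j (F p.1) (hitT ε (l, p.2)) ((stp hΦ hε o).f (l, p.2)) := by
      intro o
      have hq : Measurable fun p : Ω × Ph => ((l, p.2) : Ph × Ph) := by fun_prop
      exact (((measurable_gw b).comp measurable_snd.snd).const_mul _).mul
        (hm.comp (measurable_fst.prodMk ((measurable_hitT.comp hq).prodMk
          ((stp hΦ hε o).meas.comp hq))))
    have h2 : ∀ o : Fin 3, Measurable fun c : Ω => ∫⁻ z' in hitO ε t' s l, muE ε * gw b z'.2 *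
        Gc hΦ hε b t' j (F c) (hitT ε (l, z')) ((stp hΦ hε o).f (l, z')) := fun o =>
      (h1 o).lintegral_prod_right'
    simp only [Gc_succ]
    rw [lintegral_finsetSum _ fun o _ => h2 o]
    refine Finset.sum_congr rfl fun o _ => ?_
    rw [lintegral_lintegral_swap (h1 o).aemeasurable]
    refine lintegral_congr fun z' => ?_
    rw [ih]
    have h3 : Measurable fun c : Ω => Gc hΦ hε b t' j (F c) (hitT ε (l, z'))
        ((stp hΦ hε o).f (l, z')) := by
      have h4 : Measurable fun c : Ω => ((c, hitT ε (l, z'), (stp hΦ hε o).f (l, z')) :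
          Ω × ℝ × Ph) := measurable_id.prodMk measurable_const
      exact hm.comp h4
    rw [lintegral_const_mul _ h3]

end param

variable {Ω : Type*} [MeasurableSpace Ω]

/-- **The iterates, integrated against a law of pairs of sources**, commute with an integral over
a parameter. -/
theorem lam_Gc_comm (hΦ : IsPotential Φ) (hε : ε ≠ 0) (b t' : ℝ) (j : ℕ) {P : Measure Ω}
    [SFinite P] {lam : Measure (Src × Src)} [SFinite lam] {F : Ω → Src → ℝ → Ph → ℝ≥0∞}
    (hF : Measurable fun q : Ω × Src × ℝ × Ph => F q.1 q.2.1 q.2.2.1 q.2.2.2) :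
    ∫⁻ p, Gc hΦ hε b t' j (fun s z => ∫⁻ c, F c p.1 s z ∂P) p.2.1 p.2.2.1 ∂lam =
      ∫⁻ c, ∫⁻ p, Gc hΦ hε b t' j (F c p.1) p.2.1 p.2.2.1 ∂lam ∂P := by
  have h1 : ∀ e : Src, Measurable fun q : Ω × ℝ × Ph => F q.1 e q.2.1 q.2.2 := fun e =>
    hF.comp (measurable_fst.prodMk (measurable_const.prodMk measurable_snd))
  have h2 : ∀ p : Src × Src, Gc hΦ hε b t' j (fun s z => ∫⁻ c, F c p.1 s z ∂P) p.2.1 p.2.2.1 =
      ∫⁻ c, Gc hΦ hε b t' j (F c p.1) p.2.1 p.2.2.1 ∂P := fun p =>
    Gc_lintegral hΦ hε b t' j (h1 p.1) _ _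
  simp only [h2]
  refine lintegral_lintegral_swap (Measurable.aemeasurable ?_)
  have h3 : Measurable fun q : (Src × Ω) × ℝ × Ph => F q.1.2 q.1.1 q.2.1 q.2.2 :=
    hF.comp (measurable_fst.snd.prodMk (measurable_fst.fst.prodMk measurable_snd))
  have h4 := measurable_Gc_param hΦ hε b t' j (X := Src × Ω) (F := fun x => F x.2 x.1) h3
  have h5 : Measurable fun q : (Src × Src) × Ω => (((q.1.1, q.2), (q.1.2.1, q.1.2.2.1)) :
      (Src × Ω) × ℝ × Ph) := by fun_prop
  exact h4.comp h5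

/-- The inequality for finite sums of iterates. -/
theorem lam_Gc_sum_comm (hΦ : IsPotential Φ) (hε : ε ≠ 0) (b t' : ℝ) (J : ℕ) (w : ℕ → ℝ≥0∞)
    {P : Measure Ω} [SFinite P] {lam : Measure (Src × Src)} [SFinite lam]
    {F : Ω → Src → ℝ → Ph → ℝ≥0∞}
    (hF : Measurable fun q : Ω × Src × ℝ × Ph => F q.1 q.2.1 q.2.2.1 q.2.2.2) :
    ∫⁻ p, ∑ j ∈ Finset.range J, w j *
      Gc hΦ hε b t' j (fun s z => ∫⁻ c, F c p.1 s z ∂P) p.2.1 p.2.2.1 ∂lam =
      ∫⁻ c, ∑ j ∈ Finset.range J, w j *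
        ∫⁻ p, Gc hΦ hε b t' j (F c p.1) p.2.1 p.2.2.1 ∂lam ∂P := by
  have h1 : ∀ e : Src, Measurable fun q : Ω × ℝ × Ph => F q.1 e q.2.1 q.2.2 := fun e =>
    hF.comp (measurable_fst.prodMk (measurable_const.prodMk measurable_snd))
  have h3 : Measurable fun q : (Src × Ω) × ℝ × Ph => F q.1.2 q.1.1 q.2.1 q.2.2 :=
    hF.comp (measurable_fst.snd.prodMk (measurable_fst.fst.prodMk measurable_snd))
  have h5 : Measurable fun q : (Src × Src) × Ω => (((q.1.1, q.2), (q.1.2.1, q.1.2.2.1)) :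
      (Src × Ω) × ℝ × Ph) := by fun_prop
  have h6 : ∀ j, Measurable fun q : (Src × Src) × Ω =>
      Gc hΦ hε b t' j (F q.2 q.1.1) q.1.2.1 q.1.2.2.1 := fun j =>
    (measurable_Gc_param hΦ hε b t' j (X := Src × Ω) (F := fun x => F x.2 x.1) h3).comp h5
  have h7 : ∀ j, Measurable fun p : Src × Src =>
      Gc hΦ hε b t' j (fun s z => ∫⁻ c, F c p.1 s z ∂P) p.2.1 p.2.2.1 := by
    intro j
    have : (fun p : Src × Src =>
        Gc hΦ hε b t' j (fun s z => ∫⁻ c, F c p.1 s z ∂P) p.2.1 p.2.2.1) =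
        fun p => ∫⁻ c, Gc hΦ hε b t' j (F c p.1) p.2.1 p.2.2.1 ∂P :=
      funext fun p => Gc_lintegral hΦ hε b t' j (h1 p.1) _ _
    rw [this]
    exact (h6 j).lintegral_prod_right'
  have h8 : ∀ j, Measurable fun c : Ω =>
      ∫⁻ p, Gc hΦ hε b t' j (F c p.1) p.2.1 p.2.2.1 ∂lam := fun j =>
    (h6 j).lintegral_prod_left'
  rw [lintegral_finsetSum _ fun j _ => (h7 j).const_mul _,
    lintegral_finsetSum _ fun j _ => (h8 j).const_mul _]
  refine Finset.sum_congr rfl fun j _ => ?_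
  rw [lintegral_const_mul _ (h7 j), lintegral_const_mul _ (h8 j), lam_Gc_comm hΦ hε b t' j hF]

end Vale.Agent.P119.PB
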