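import Vale.Agent.P119.PB.Iter6c
import Vale.Agent.P119.PB.GcComm

/-!
# P119, block PROB: second events, the parts which only see a hit (`helper178`)

* `HitLam`: for a law `lam` of pairs `(e, m)`: the iterates of the hits of a fixed line by `m`;
* `HitLam.int_le`: the same for a family of lines;
* `HitLam.over_le`: creation of too deep trees; `HitLam.aty_le`: the atypical part of the law of the
  partners;
* `gT6_split`: `gT6_final` with the atypical part in line form.
-/

open MeasureTheory Filter Topology Set ProbabilityTheory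
open scoped ENNReal NNReal

noncomputable section

namespace Vale.Agent.P119.PB

open M CTree KU FB RB AU FL TL

variable {Φ : E3 → ℝ} {ε : ℝ} {L : ℕ} {hΦ : IsPotential Φ} {hε : 0 < ε} {f₀ : Ph → ℝ}
  {κ b Tm t t' η η' w u θ : ℝ} {e m : Src}

/-- The line `l`, born at the time `s`, hits the line `z'` up to the time `t`. -/
def hitL (ε t : ℝ) (z' : Ph) (s : ℝ) (l : Ph) : ℝ≥0∞ := ind (hitI ε t (s, l, 0) z')

theorem measurable_hitL {X : Type*} [MeasurableSpace X] {z' l : X → Ph} {s : X → ℝ}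
    (hz : Measurable z') (hs : Measurable s) (hl : Measurable l) :
    Measurable fun x => hitL ε t (z' x) (s x) (l x) :=
  measurable_ind (measurableSet_hitI (t := t) (ε := ε) (hs.prodMk (hl.prodMk measurable_const)) hz)

/-- **The iterates of the hits of a fixed line**, for the law `lam` of the pairs `(e, m)`. -/
def HitLam (hΦ : IsPotential Φ) (hε : ε ≠ 0) (b t t' : ℝ) (A : ℝ≥0∞) (lam : Measure (Src × Src))
    (C : ℕ → ℝ≥0∞) : Prop :=
  ∀ j z', ∫⁻ p, A ^ p.2.2.2 * Gc hΦ hε b t' j (hitL ε t z') p.2.1 p.2.2.1 ∂lam ≤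
    C j * (ENNReal.ofReal (ε ^ 2) * ENNReal.ofReal (1 + ‖z'.2‖))

theorem measurable_Gc_hitL (hΦ : IsPotential Φ) (hε : ε ≠ 0) (j : ℕ) {X : Type*}
    [MeasurableSpace X] {z' l : X → Ph} {s : X → ℝ}
    (hz : Measurable z') (hs : Measurable s) (hl : Measurable l) :
    Measurable fun x => Gc hΦ hε b t' j (hitL ε t (z' x)) (s x) (l x) := by
  have h1 := measurable_Gc_param hΦ hε b t' j (X := Ph) (F := fun z' => hitL ε t z')
    (measurable_hitL measurable_fst (measurable_fst.comp measurable_snd)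
      (measurable_snd.comp measurable_snd))
  exact h1.comp (hz.prodMk (hs.prodMk hl))

theorem measurable_powD {X : Type*} [MeasurableSpace X] (A : ℝ≥0∞) {n : X → ℕ}
    (hn : Measurable n) : Measurable fun x => A ^ n x :=
  (measurable_from_top (f := fun n : ℕ => A ^ n)).comp hn

/-- **The hits of a family of lines.** -/
theorem HitLam.int_le {hε' : ε ≠ 0} {A : ℝ≥0∞} {lam : Measure (Src × Src)} [SFinite lam]
    {C : ℕ → ℝ≥0∞} (h : HitLam hΦ hε' b t t' A lam C) (hA' : A ≠ ∞) {Ω : Type*}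
    [MeasurableSpace Ω] {P : Measure Ω} [SFinite P] {ℓ : Ω → Ph} (hℓ : Measurable ℓ)
    {g : Ω → ℝ≥0∞} (hg : Measurable g) (j : ℕ) :
    ∫⁻ p, A ^ p.2.2.2 * Gc hΦ hε' b t' j (fun s l => ∫⁻ ω, g ω * hitL ε t (ℓ ω) s l ∂P)
      p.2.1 p.2.2.1 ∂lam ≤
      C j * (ENNReal.ofReal (ε ^ 2) * ∫⁻ ω, g ω * ENNReal.ofReal (1 + ‖(ℓ ω).2‖) ∂P) := by
  have hF : Measurable fun q : Ω × ℝ × Ph => g q.1 * hitL ε t (ℓ q.1) q.2.1 q.2.2 :=
    (hg.comp measurable_fst).mul (measurable_hitL (hℓ.comp measurable_fst)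
      (measurable_fst.comp measurable_snd) (measurable_snd.comp measurable_snd))
  have hHm : ∀ z', Measurable fun q : ℝ × Ph => hitL ε t z' q.1 q.2 := fun z' =>
    measurable_hitL measurable_const measurable_fst measurable_snd
  have h1 : ∀ p : Src × Src, A ^ p.2.2.2 * Gc hΦ hε' b t' j
      (fun s l => ∫⁻ ω, g ω * hitL ε t (ℓ ω) s l ∂P) p.2.1 p.2.2.1 =
      ∫⁻ ω, A ^ p.2.2.2 * (g ω * Gc hΦ hε' b t' j (hitL ε t (ℓ ω)) p.2.1 p.2.2.1) ∂P := by
    intro p
    rw [Gc_lintegral hΦ hε' b t' j (F := fun ω s l => g ω * hitL ε t (ℓ ω) s l) hF,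
      ← lintegral_const_mul' _ _ (ENNReal.pow_ne_top hA')]
    refine lintegral_congr fun ω => ?_
    rw [Gc_const_mul hΦ hε' b t' j (g ω) (hHm (ℓ ω))]
  have hm : Measurable fun q : (Src × Src) × Ω =>
      A ^ q.1.2.2.2 * (g q.2 * Gc hΦ hε' b t' j (hitL ε t (ℓ q.2)) q.1.2.1 q.1.2.2.1) := by
    refine (measurable_powD A ?_).mul ((hg.comp measurable_snd).mul
      (measurable_Gc_hitL hΦ hε' j (hℓ.comp measurable_snd) ?_ ?_))
    · exact measurable_snd.comp (measurable_snd.comp (measurable_snd.comp measurable_fst))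
    · exact measurable_fst.comp (measurable_snd.comp measurable_fst)
    · exact measurable_fst.comp (measurable_snd.comp (measurable_snd.comp measurable_fst))
  calc _ = ∫⁻ p : Src × Src, ∫⁻ ω, A ^ p.2.2.2 *
        (g ω * Gc hΦ hε' b t' j (hitL ε t (ℓ ω)) p.2.1 p.2.2.1) ∂P ∂lam :=
        lintegral_congr h1
    _ = ∫⁻ ω, ∫⁻ p : Src × Src, A ^ p.2.2.2 *
        (g ω * Gc hΦ hε' b t' j (hitL ε t (ℓ ω)) p.2.1 p.2.2.1) ∂lam ∂P :=
        lintegral_lintegral_swap hm.aemeasurable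
    _ ≤ ∫⁻ ω, C j * ENNReal.ofReal (ε ^ 2) * (g ω * ENNReal.ofReal (1 + ‖(ℓ ω).2‖)) ∂P := by
        refine lintegral_mono fun ω => ?_
        have hm2 : Measurable fun p : Src × Src => A ^ p.2.2.2 *
            Gc hΦ hε' b t' j (hitL ε t (ℓ ω)) p.2.1 p.2.2.1 := by
          refine (measurable_powD A ?_).mul (measurable_Gc_hitL hΦ hε' j measurable_const ?_ ?_)
          · exact measurable_snd.comp (measurable_snd.comp measurable_snd)
          · exact measurable_fst.comp measurable_snd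
          · exact measurable_fst.comp (measurable_snd.comp measurable_snd)
        calc ∫⁻ p : Src × Src, A ^ p.2.2.2 *
              (g ω * Gc hΦ hε' b t' j (hitL ε t (ℓ ω)) p.2.1 p.2.2.1) ∂lam
            = ∫⁻ p : Src × Src, g ω * (A ^ p.2.2.2 *
              Gc hΦ hε' b t' j (hitL ε t (ℓ ω)) p.2.1 p.2.2.1) ∂lam := by
              refine lintegral_congr fun p => ?_
              ring
          _ = g ω * ∫⁻ p : Src × Src, A ^ p.2.2.2 *
              Gc hΦ hε' b t' j (hitL ε t (ℓ ω)) p.2.1 p.2.2.1 ∂lam := lintegral_const_mul _ hm2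
          _ ≤ g ω * (C j * (ENNReal.ofReal (ε ^ 2) * ENNReal.ofReal (1 + ‖(ℓ ω).2‖))) :=
              mul_le_mul' le_rfl (h j (ℓ ω))
          _ = _ := by ring
    _ = _ := by
        have hm3 : Measurable fun ω => g ω * ENNReal.ofReal (1 + ‖(ℓ ω).2‖) :=
          hg.mul (ENNReal.measurable_ofReal.comp (measurable_const.add
            (measurable_norm.comp (measurable_snd.comp hℓ))))
        rw [lintegral_const_mul _ hm3, mul_assoc]

/-- **Creation of too deep trees**: the hypothesis is used for the lines of the trees of the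
world. -/
theorem HitLam.over_le (h₀ : GoodDatum f₀ κ) (hε : 0 < ε) {hε' : ε ≠ 0} {A : ℝ≥0∞}
    {lam : Measure (Src × Src)} [SFinite lam] {C : ℕ → ℝ≥0∞}
    (h : HitLam hΦ hε' b t t' A lam C) (hA' : A ≠ ∞) (j : ℕ) :
    ∫⁻ p, A ^ p.2.2.2 * Gc hΦ hε' b t' j (FA f₀ Φ ε L t A) p.2.1 p.2.2.1 ∂lam ≤
      C j * (ENNReal.ofReal (ε ^ 2) * XX Φ ε L f₀ t fun _ T =>
        A ^ T.depth * ENNReal.ofReal (1 + ‖(ln Φ ε T).2‖)) := by
  have := GC.isFiniteMeasure_inten (ε := ε) h₀
  have := GC.isProbability_PP (ε := ε) h₀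
  have hal : Measurable fun q : GC.Conf Ph × CTree =>
      ind (alT Φ ε L t (wS (GC.pts q.1)) q.2) :=
    measurable_ind (measurableSet_alT hΦ hε (RM.rs_wS measurable_fst) measurable_snd
      measurable_const)
  have hdep : Measurable fun q : GC.Conf Ph × CTree => A ^ q.2.depth :=
    measurable_powD A (M.measurable_depth.comp measurable_snd)
  have hln : Measurable fun q : GC.Conf Ph × CTree => ln Φ ε q.2 :=
    (M.measurable_ln hΦ hε.ne').comp measurable_snd
  have hg : Measurable fun q : GC.Conf Ph × CTree =>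
      ind (alT Φ ε L t (wS (GC.pts q.1)) q.2) * A ^ q.2.depth := hal.mul hdep
  have h1 := h.int_le hA' (P := (GC.PP f₀ ε).prod (tree (GC.inten f₀ ε) L)) hln hg j
  have e1 : (fun s l => ∫⁻ q, ind (alT Φ ε L t (wS (GC.pts q.1)) q.2) * A ^ q.2.depth *
      hitL ε t (ln Φ ε q.2) s l ∂((GC.PP f₀ ε).prod (tree (GC.inten f₀ ε) L))) =
      FA f₀ Φ ε L t A := by
    funext s l
    have hm : Measurable fun q : GC.Conf Ph × CTree =>
        ind (alT Φ ε L t (wS (GC.pts q.1)) q.2) * A ^ q.2.depth *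
          hitL ε t (ln Φ ε q.2) s l :=
      hg.mul (measurable_hitL hln measurable_const measurable_const)
    rw [lintegral_prod _ hm.aemeasurable]
    unfold FA XX
    refine lintegral_congr fun c => lintegral_congr fun T => ?_
    unfold hitL
    ring
  have e2 : ∫⁻ q, ind (alT Φ ε L t (wS (GC.pts q.1)) q.2) * A ^ q.2.depth *
      ENNReal.ofReal (1 + ‖(ln Φ ε q.2).2‖) ∂((GC.PP f₀ ε).prod (tree (GC.inten f₀ ε) L)) =
      XX Φ ε L f₀ t fun _ T => A ^ T.depth * ENNReal.ofReal (1 + ‖(ln Φ ε T).2‖) := by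
    have hm : Measurable fun q : GC.Conf Ph × CTree =>
        ind (alT Φ ε L t (wS (GC.pts q.1)) q.2) * A ^ q.2.depth *
          ENNReal.ofReal (1 + ‖(ln Φ ε q.2).2‖) :=
      hg.mul (ENNReal.measurable_ofReal.comp (measurable_const.add
        (measurable_norm.comp (measurable_snd.comp hln))))
    rw [lintegral_prod _ hm.aemeasurable]
    unfold XX
    refine lintegral_congr fun c => lintegral_congr fun T => ?_
    ring
  rw [e1, e2] at h1
  exact h1

/-- The atypical part, in line form. -/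
def atyL (P : Measure (GC.Conf Ph)) (ν : GC.Conf Ph → Measure Src) (ε t s : ℝ) (l : Ph) : ℝ≥0∞ :=
  atyS P ν ε t (s, l, 0)

/-- **The atypical part of the law of the partners.** -/
theorem HitLam.aty_le (h₀ : GoodDatum f₀ κ) {hε' : ε ≠ 0} {A : ℝ≥0∞}
    {lam : Measure (Src × Src)} [SFinite lam] {C : ℕ → ℝ≥0∞}
    (h : HitLam hΦ hε' b t t' A lam C) (hA : 1 ≤ A) (hA' : A ≠ ∞)
    (ν : Kernel (GC.Conf Ph) Src) [IsSFiniteKernel ν] (j : ℕ) :
    ∫⁻ p, Gc hΦ hε' b t' j (atyL (GC.PP f₀ ε) (fun c => ν c) ε t) p.2.1 p.2.2.1 ∂lam ≤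
      C j * (ENNReal.ofReal (ε ^ 2) * (muE ε * ∫⁻ c, ∫⁻ p, ENNReal.ofReal (1 + ‖p.2.1.2‖) ∂(ν c)
        ∂(GC.PP f₀ ε))) := by
  have := GC.isProbability_PP (ε := ε) h₀
  have hℓ : Measurable fun q : GC.Conf Ph × Src => q.2.2.1 :=
    measurable_fst.comp (measurable_snd.comp measurable_snd)
  have h1 := h.int_le hA' (P := (GC.PP f₀ ε) ⊗ₘ ν) hℓ (g := fun _ => muE ε)
    measurable_const j
  have e1 : (fun s l => ∫⁻ q, muE ε * hitL ε t q.2.2.1 s l ∂((GC.PP f₀ ε) ⊗ₘ ν)) =
      atyL (GC.PP f₀ ε) (fun c => ν c) ε t := by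
    funext s l
    have hm : Measurable fun q : GC.Conf Ph × Src => hitL ε t q.2.2.1 s l :=
      measurable_hitL hℓ measurable_const measurable_const
    rw [lintegral_const_mul _ hm, Measure.lintegral_compProd hm]
    unfold atyL atyS
    congr 1
    refine lintegral_congr fun c => ?_
    have hS : MeasurableSet {p : Src | hitI ε t (s, l, 0) p.2.1} :=
      measurableSet_hitI (t := t) (ε := ε) (measurable_const (a := ((s, l, 0) : Src)))
        (measurable_fst.comp measurable_snd)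
    calc ∫⁻ p, hitL ε t p.2.1 s l ∂(ν c)
        = ∫⁻ p, {p : Src | hitI ε t (s, l, 0) p.2.1}.indicator 1 p ∂(ν c) := by
          refine lintegral_congr fun p => ?_
          unfold hitL
          by_cases hp : hitI ε t (s, l, 0) p.2.1
          · rw [ind_of hp, indicator_of_mem (show p ∈ {p : Src | hitI ε t (s, l, 0) p.2.1}
              from hp)]
            rfl
          · rw [ind_of_not hp, indicator_of_notMem (show p ∉ {p : Src |
              hitI ε t (s, l, 0) p.2.1} from hp)]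
      _ = ν c {p : Src | hitI ε t (s, l, 0) p.2.1} := lintegral_indicator_one hS
      _ = _ := rfl
  have e2 : ∫⁻ q, muE ε * ENNReal.ofReal (1 + ‖q.2.2.1.2‖) ∂((GC.PP f₀ ε) ⊗ₘ ν) =
      muE ε * ∫⁻ c, ∫⁻ p, ENNReal.ofReal (1 + ‖p.2.1.2‖) ∂(ν c) ∂(GC.PP f₀ ε) := by
    have hm : Measurable fun q : GC.Conf Ph × Src => ENNReal.ofReal (1 + ‖q.2.2.1.2‖) :=
      ENNReal.measurable_ofReal.comp (measurable_const.add
        (measurable_norm.comp (measurable_snd.comp hℓ)))
    rw [lintegral_const_mul _ hm, Measure.lintegral_compProd hm]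
  simp only [e1, e2] at h1
  refine le_trans (lintegral_mono fun p => ?_) h1
  calc Gc hΦ hε' b t' j (atyL (GC.PP f₀ ε) (fun c => ν c) ε t) p.2.1 p.2.2.1
      = 1 * Gc hΦ hε' b t' j (atyL (GC.PP f₀ ε) (fun c => ν c) ε t) p.2.1 p.2.2.1 :=
        (one_mul _).symm
    _ ≤ _ := mul_le_mul' (one_le_pow₀ hA) le_rfl

end Vale.Agent.P119.PB
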