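import Vale.Agent.P119.PB.SE15
import Vale.Agent.P119.PB.OverLam

/-!
# P119: second events, hits of a fixed line under the laws A and B (`helper456`)

* `hitA_le`, `hitB_le`: the hits of a fixed line by the end of the law A, of the law B;
* `lawA_mono`, `lawB_mono`: the laws are monotone in the horizon of the chain;
* `lawB_opn`: a chain operator after the law B;
* `hitA_Gc_le`, `hitB_Gc_le`: the same, after `j` further hits (178's iterates `Gc`).
-/

open MeasureTheory Set Filter Topology Metric ProbabilityTheory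
open scoped ENNReal

namespace Vale.Agent.P119.PB

open KU FL

variable {Φ : E3 → ℝ} {ε bE b b' t t₂ t' Tm : ℝ} {N n j : ℕ} {S S' : ℕ → Step} {z' : Ph}

/-! ### The target -/

/-- The constant of the target. -/
noncomputable def cHT (Tm : ℝ) : ℝ≥0∞ :=
  ENNReal.ofReal (2 * (Tm + 1)) + 3 * (ENNReal.ofReal (Tm + 1) * ENNReal.ofReal (1 + Tm))

theorem cHT_ne_top : cHT Tm ≠ ∞ :=
  ENNReal.add_ne_top.2 ⟨ENNReal.ofReal_ne_top, ENNReal.mul_ne_top (by norm_num)
    (ENNReal.mul_ne_top ENNReal.ofReal_ne_top ENNReal.ofReal_ne_top)⟩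

theorem lineT_w_le (hε1 : ε ≤ 1) (ht : 0 ≤ t) (x : Ph) :
    (lineTarget t 0 x).w ε ≤ ENNReal.ofReal (1 + t) * ENNReal.ofReal (1 + ‖x.2‖) := by
  have h0 := norm_nonneg x.2
  rw [lineTarget_w, sub_zero, ← ofReal_norm, ← ENNReal.ofReal_one,
    ← ENNReal.ofReal_add zero_le_one h0, ← ENNReal.ofReal_mul (by positivity),
    ← ENNReal.ofReal_mul (by positivity)]
  refine (add_le_add (ENNReal.ofReal_le_ofReal hε1) le_rfl).trans ?_
  rw [← ENNReal.ofReal_add zero_le_one (by positivity)]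
  apply ENNReal.ofReal_le_ofReal
  nlinarith

theorem yW_line_le (hε1 : ε ≤ 1) (ht : 0 ≤ t) (htT : t ≤ Tm) (z' : Ph) :
    yW ε t (max t 1) (Finset.univ : Finset Unit) (fun _ => lineTarget t 0 z') ≤
      cHT Tm * ENNReal.ofReal (1 + ‖z'.2‖) := by
  have hT0 : 0 ≤ Tm := ht.trans htT
  have h1 : max t 1 ≤ Tm + 1 := max_le (by linarith) (by linarith)
  have h2 : (1 : ℝ≥0∞) ≤ ENNReal.ofReal (1 + ‖z'.2‖) := by
    rw [← ENNReal.ofReal_one]
    exact ENNReal.ofReal_le_ofReal (by have := norm_nonneg z'.2; linarith)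
  have h3 : ENNReal.ofReal ε ≤ ENNReal.ofReal (1 + ‖z'.2‖) := by
    refine le_trans ?_ h2
    rw [← ENNReal.ofReal_one]
    exact ENNReal.ofReal_le_ofReal hε1
  unfold yW cHT
  simp only [Finset.univ_unique, Finset.sum_singleton]
  calc ENNReal.ofReal (t + max t 1) * ENNReal.ofReal ε +
        3 * (ENNReal.ofReal (max t 1) * (lineTarget t 0 z').w ε)
      ≤ ENNReal.ofReal (2 * (Tm + 1)) * ENNReal.ofReal (1 + ‖z'.2‖) +
        3 * (ENNReal.ofReal (Tm + 1) * (ENNReal.ofReal (1 + Tm) *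
          ENNReal.ofReal (1 + ‖z'.2‖))) := by
        refine add_le_add (mul_le_mul' (ENNReal.ofReal_le_ofReal (by linarith)) h3)
          (mul_le_mul' le_rfl (mul_le_mul' (ENNReal.ofReal_le_ofReal h1) ?_))
        refine (lineT_w_le hε1 ht z').trans (mul_le_mul' (ENNReal.ofReal_le_ofReal ?_) le_rfl)
        linarith
    _ = _ := by ring

/-- A hit of the line `z'`. -/
theorem hitI_contact (hε : 0 < ε) {s : ℝ} {l z' : Ph} (hs : 0 ≤ s) (h : hitI ε t (s, l, 0) z') :
    ∃ τ ∈ Icc (max 0 s) t, ‖l.1 + τ • l.2 - (z'.1 + τ • z'.2)‖ ≤ ε := by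
  obtain ⟨h1, h2, h3⟩ := h
  refine ⟨hitT ε (l, z'), ⟨?_, h3⟩, ?_⟩
  · rw [max_eq_right hs]
    exact h2.le
  · exact (M.dist_hitT hε h1).le

/-! ### The constants -/

theorem cF1_mono_hz {c₁ t t' : ℝ} (ht : 0 ≤ t) (h : t ≤ t') (N : ℕ) :
    cF1 b c₁ t N ≤ cF1 b c₁ t' N := by
  unfold cF1
  refine mul_le_mul' le_rfl (ENNReal.ofReal_le_ofReal ?_)
  have h1 := Kc_nonneg (b / 2)
  have h2 : 0 ≤ D2 b := by unfold D2; positivity
  gcongr

/-- The mass of the chains. -/
noncomputable def cMS (b Tm : ℝ) (N : ℕ) : ℝ :=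
  (Kc b * (Tm + 1)) ^ N / √(N.factorial : ℝ)

theorem cMS_nonneg (hT : 0 ≤ Tm) (N : ℕ) : 0 ≤ cMS b Tm N := by
  have h1 := Kc_nonneg b
  unfold cMS
  positivity

/-- The constant of the law A. -/
noncomputable def KHA (b Tm : ℝ) : ℝ≥0∞ :=
  K1.sig univ * cM b 0 0 * ENNReal.ofReal (1 + 1 / √b) *
    ((8 * bv * cF (b / 2) 1) * ENNReal.ofReal (D2 (b / 2))) * cHT Tm

/-- **The constant of the hits under the law A.** -/
noncomputable def cHitA (b Tm : ℝ) (N : ℕ) : ℝ≥0∞ :=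
  KHA b Tm * ENNReal.ofReal (cMS (b / 2 / 2) Tm N)

theorem KHA_ne_top (hb : 0 < b) : KHA b Tm ≠ ∞ := by
  unfold KHA
  refine ENNReal.mul_ne_top (ENNReal.mul_ne_top (ENNReal.mul_ne_top (ENNReal.mul_ne_top
    (measure_ne_top K1.sig univ) (cM_ne_top hb 0)) ENNReal.ofReal_ne_top)
    (ENNReal.mul_ne_top (ENNReal.mul_ne_top (ENNReal.mul_ne_top (by norm_num) ?_) cF_ne_top)
      ENNReal.ofReal_ne_top)) cHT_ne_top
  exact bv_ne_top

theorem cHitA_ne_top (hb : 0 < b) (N : ℕ) : cHitA b Tm N ≠ ∞ :=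
  ENNReal.mul_ne_top (KHA_ne_top hb) ENNReal.ofReal_ne_top

/-! ### The law A -/

theorem measurable_hitL_end {X : Type*} [MeasurableSpace X] {f : X → ℝ × Ph} (hf : Measurable f) :
    Measurable fun x => hitL ε t z' (f x).1 (f x).2 :=
  measurable_hitL measurable_const hf.fst hf.snd

/-- **The hits of a fixed line under the law A.** -/
theorem hitA_le (hε : 0 < ε) (hε1 : ε ≤ 1) (hb : 0 < b) (hbE : b ≤ bE) (ht : 0 ≤ t)
    (htT : t ≤ Tm) (S : ℕ → Step) (z' : Ph) :
    ∫⁻ x, hitL ε t z' (endA ε S x).1 (endA ε S x).2 ∂(lawA ε bE b t t₂ N S) ≤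
      cHitA b Tm N * (ENNReal.ofReal (ε ^ 2) * ENNReal.ofReal (1 + ‖z'.2‖)) := by
  have hδ : 0 < max t 1 := lt_of_lt_of_le one_pos (le_max_right _ _)
  have h1 := lawA_young (t₂ := t₂) (N := N) (S := S) (h := t) (t₁ := t + 1) (δ := max t 1) hε hb
    hbE hδ ht (by linarith) (Finset.univ : Finset Unit) (fun _ => lineTarget t 0 z')
    (F := fun x => hitL ε t z' (endA ε S x).1 (endA ε S x).2)
    (measurable_hitL_end (measurable_endA S)) (by
      intro x hx hne
      have h2 : hitI ε t ((endA ε S x).1, (endA ε S x).2, 0) z' := by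
        by_contra hcon
        exact hne (ind_of_not hcon)
      have h3 : 0 ≤ exT ε (x.1, x.2.1) := hx.2.1.1
      have h4 : exT ε (x.1, x.2.1) ≤ (endA ε S x).1 := chain_time N S _ _ _ hx.2.2
      obtain ⟨τ, h5, h6⟩ := hitI_contact hε (h3.trans h4) h2
      refine ⟨⟨(), Finset.mem_univ _, τ, h5, ?_, h6⟩, ind_le_one _⟩
      have h7 : τ ≤ t := h5.2
      have h8 : (srcA ε x).1 = exT ε (x.1, x.2.1) := rfl
      rw [h8]
      have := le_max_left t 1
      linarith)
  refine h1.trans ?_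
  have h2 := yW_line_le hε1 ht htT z'
  have h3 : cM b t 0 = cM b 0 0 := by
    unfold cM
    simp
  have h4 : cF1 (b / 2) 1 (t + 1) N ≤ ((8 * bv * cF (b / 2) 1) * ENNReal.ofReal (D2 (b / 2))) *
      ENNReal.ofReal (cMS (b / 2 / 2) Tm N) := by
    refine (cF1_mono_hz (by linarith) (by linarith : t + 1 ≤ Tm + 1) N).trans (le_of_eq ?_)
    unfold cF1 cMS
    rw [ENNReal.ofReal_mul (by unfold D2; positivity)]
    ring
  rw [h3]
  calc _ ≤ (K1.sig univ * cM b 0 0 * ENNReal.ofReal (1 + 1 / √b)) *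
        (ENNReal.ofReal (ε ^ 2) * (((8 * bv * cF (b / 2) 1) * ENNReal.ofReal (D2 (b / 2))) *
          ENNReal.ofReal (cMS (b / 2 / 2) Tm N)) * (cHT Tm * ENNReal.ofReal (1 + ‖z'.2‖))) :=
        mul_le_mul' le_rfl (mul_le_mul' (mul_le_mul' le_rfl h4) h2)
    _ = _ := by
        unfold cHitA KHA
        ring

/-! ### Monotonicity in the horizon -/

theorem Chain.mono_t {ε t t' : ℝ} (h : t ≤ t') (m : ℕ) : ∀ {S : ℕ → Step} {s : ℝ} {l : Ph}
    {p : Fin m → Ph}, Chain ε t S m s l p → Chain ε t' S m s l p := by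
  induction m with
  | zero => intro S s l p _; trivial
  | succ m ih =>
    intro S s l p hc
    exact ⟨hc.1, hc.2.1, hc.2.2.1.trans_le h, ih hc.2.2.2⟩

theorem lawA_mono (h : t₂ ≤ t') (S : ℕ → Step) :
    lawA ε bE b t t₂ N S ≤ lawA ε bE b t t' N S := by
  unfold lawA
  refine withDensity_mono (ae_of_all _ fun x => ?_)
  unfold wA
  refine indicator_le_indicator_of_subset (fun x hx => ?_) (fun _ => zero_le) x
  exact ⟨hx.1, hx.2.1, Chain.mono_t h N hx.2.2⟩

/-- **The hits of a fixed line under the law A, after `j` further hits.** -/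
theorem hitA_Gc_le (hΦ : IsPotential Φ) (hε : 0 < ε) (hε1 : ε ≤ 1) (hb : 0 < b) (hbE : b ≤ bE)
    (hb' : b ≤ b') (ht : 0 ≤ t) (htT : t ≤ Tm) (htt : t₂ ≤ t') (S : ℕ → Step) (j : ℕ) (z' : Ph) :
    ∫⁻ x, Gc hΦ hε.ne' b' t' j (hitL ε t z') (endA ε S x).1 (endA ε S x).2
        ∂(lawA ε bE b t t₂ N S) ≤
      3 ^ j * (cHitA b Tm (N + j) * (ENNReal.ofReal (ε ^ 2) * ENNReal.ofReal (1 + ‖z'.2‖))) := by
  have hF : Measurable fun q : ℝ × Ph => hitL ε t z' q.1 q.2 :=
    measurable_hitL measurable_const measurable_fst measurable_snd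
  have hF2 : Measurable fun q : (ℝ × Ph) × ℝ × Ph => hitL ε t z' q.2.1 q.2.2 :=
    measurable_hitL measurable_const measurable_snd.fst measurable_snd.snd
  have hop : ∀ o : Fin j → Fin 3, Measurable fun x : XA N =>
      opn ε b t' j (stps hΦ hε.ne' o) (hitL ε t z') (endA ε S x).1 (endA ε S x).2 := fun o =>
    (measurable_opn j _ hF).comp (measurable_endA S)
  calc ∫⁻ x, Gc hΦ hε.ne' b' t' j (hitL ε t z') (endA ε S x).1 (endA ε S x).2
        ∂(lawA ε bE b t t₂ N S)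
      ≤ ∫⁻ x, ∑ o : Fin j → Fin 3, opn ε b t' j (stps hΦ hε.ne' o) (hitL ε t z')
          (endA ε S x).1 (endA ε S x).2 ∂(lawA ε bE b t t' N S) := by
        refine lintegral_mono' (lawA_mono htt S) fun x => ?_
        rw [Gc_eq_opn hΦ hε.ne' b' t' j hF]
        exact Finset.sum_le_sum fun o _ => opn_mono_b hb' j _ _ _
    _ = ∑ o : Fin j → Fin 3, ∫⁻ x, opn ε b t' j (stps hΦ hε.ne' o) (hitL ε t z')
          (endA ε S x).1 (endA ε S x).2 ∂(lawA ε bE b t t' N S) :=
        lintegral_finsetSum _ fun o _ => hop o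
    _ ≤ ∑ _o : Fin j → Fin 3, cHitA b Tm (N + j) * (ENNReal.ofReal (ε ^ 2) *
          ENNReal.ofReal (1 + ‖z'.2‖)) := by
        refine Finset.sum_le_sum fun o _ => ?_
        rw [lawA_opn S (stps hΦ hε.ne' o) (F := fun _ s l => hitL ε t z' s l) hF2]
        exact hitA_le hε hε1 hb hbE ht htT _ z'
    _ = _ := by
        rw [Finset.sum_const, nsmul_eq_mul, Finset.card_univ, Fintype.card_fun, Fintype.card_fin,
          Fintype.card_fin]
        push_cast
        rfl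

/-! ### The law B -/

/-- **The constant of the hits under the law B.** -/
noncomputable def cHitB (b Tm : ℝ) (n j : ℕ) : ℝ≥0∞ :=
  KHA b Tm * (ENNReal.ofReal (cMS b Tm (n + 1)) * ENNReal.ofReal (cMS (b / 2 / 2) Tm j))

theorem cHitB_ne_top (hb : 0 < b) (n j : ℕ) : cHitB b Tm n j ≠ ∞ :=
  ENNReal.mul_ne_top (KHA_ne_top hb) (ENNReal.mul_ne_top ENNReal.ofReal_ne_top
    ENNReal.ofReal_ne_top)

/-- **The hits of a fixed line under the law B.** -/
theorem hitB_le (hε : 0 < ε) (hε1 : ε ≤ 1) (hb : 0 < b) (ht : 0 ≤ t)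
    (htT : t ≤ Tm) (S S' : ℕ → Step) (z' : Ph) :
    ∫⁻ x, hitL ε t z' (endB ε S' x).1 (endB ε S' x).2 ∂(lawB ε b t t₂ n j S S') ≤
      cHitB b Tm n j * (ENNReal.ofReal (ε ^ 2) * ENNReal.ofReal (1 + ‖z'.2‖)) := by
  have hT0 : 0 ≤ Tm := ht.trans htT
  have hδ : 0 < max t 1 := lt_of_lt_of_le one_pos (le_max_right _ _)
  have h1 := lawB_young (t₂ := t₂) (n := n) (j := j) (S := S) (S' := S') (h := t) (t₁ := t + 1)
    (δ := max t 1) hε hb
    hδ ht (by linarith) (Finset.univ : Finset Unit) (fun _ => lineTarget t 0 z')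
    (F := fun x => hitL ε t z' (endB ε S' x).1 (endB ε S' x).2)
    (measurable_hitL_end (measurable_endB S')) (by
      intro x hx hne
      have h2 : hitI ε t ((endB ε S' x).1, (endB ε S' x).2, 0) z' := by
        by_contra hcon
        exact hne (ind_of_not hcon)
      have h3 : 0 ≤ exT ε (x.1, x.2.2.1) := hx.2.1.1
      have h4 : exT ε (x.1, x.2.2.1) ≤ (endB ε S' x).1 := chain_time j S' _ _ _ hx.2.2.2
      obtain ⟨τ, h5, h6⟩ := hitI_contact hε (h3.trans h4) h2
      refine ⟨⟨(), Finset.mem_univ _, τ, h5, ?_, h6⟩, ind_le_one _⟩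
      have h7 : τ ≤ t := h5.2
      have h8 : (srcB ε x).1 = exT ε (x.1, x.2.2.1) := rfl
      rw [h8]
      have := le_max_left t 1
      linarith)
  refine h1.trans ?_
  have h2 := yW_line_le hε1 ht htT z'
  have h3 : cM b t (n + 1) ≤ cM b 0 0 * ENNReal.ofReal (cMS b Tm (n + 1)) := by
    have hK := Kc_nonneg b
    have e : cM b 0 0 = I0 (b / 2) := by
      unfold cM
      simp
    rw [e]
    unfold cM cMS
    refine mul_le_mul' le_rfl (ENNReal.ofReal_le_ofReal ?_)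
    gcongr
    linarith
  have h4 : cF1 (b / 2) 1 (t + 1) j ≤ ((8 * bv * cF (b / 2) 1) * ENNReal.ofReal (D2 (b / 2))) *
      ENNReal.ofReal (cMS (b / 2 / 2) Tm j) := by
    refine (cF1_mono_hz (by linarith) (by linarith : t + 1 ≤ Tm + 1) j).trans (le_of_eq ?_)
    unfold cF1 cMS
    rw [ENNReal.ofReal_mul (by unfold D2; positivity)]
    ring
  calc _ ≤ (K1.sig univ * (cM b 0 0 * ENNReal.ofReal (cMS b Tm (n + 1))) *
        ENNReal.ofReal (1 + 1 / √b)) *
        (ENNReal.ofReal (ε ^ 2) * (((8 * bv * cF (b / 2) 1) * ENNReal.ofReal (D2 (b / 2))) *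
          ENNReal.ofReal (cMS (b / 2 / 2) Tm j)) * (cHT Tm * ENNReal.ofReal (1 + ‖z'.2‖))) :=
        mul_le_mul' (mul_le_mul' (mul_le_mul' le_rfl h3) le_rfl)
          (mul_le_mul' (mul_le_mul' le_rfl h4) h2)
    _ = _ := by
        unfold cHitB KHA
        ring

theorem lawB_mono (h : t₂ ≤ t') (S S' : ℕ → Step) :
    lawB ε b t t₂ n j S S' ≤ lawB ε b t t' n j S S' := by
  unfold lawB
  refine withDensity_mono (ae_of_all _ fun x => ?_)
  unfold wLB
  refine indicator_le_indicator_of_subset (fun x hx => ?_) (fun _ => zero_le) x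
  exact ⟨hx.1, hx.2.1, hx.2.2.1, Chain.mono_t h j hx.2.2.2⟩

/-- The part of the data of the law B which does not contain the chain of `m`: `(β, p, m)`. -/
def hdB (x : XB n j) : Ph × (Fin (n + 1) → Ph) × Ph := (x.1, x.2.1, x.2.2.1)

theorem measurable_hdB : Measurable (hdB : XB n j → _) :=
  measurable_fst.prodMk (measurable_snd.fst.prodMk measurable_snd.snd.fst)

/-- The conditions on `(β, p, m)`. -/
def evH (ε t : ℝ) (S : ℕ → Step) (β : Ph) (p : Fin (n + 1) → Ph) : Set Ph :=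
  {m | Meets ε (β, m) ∧ exT ε (β, m) ∈ Icc 0 t ∧ Chain ε t S (n + 1) (exT ε (β, m)) β p}

/-- The law B, for functions of the end of the chain of `m`. -/
theorem lintegral_lawB_end (k : ℕ) (R : ℕ → Step)
    {G : Ph × (Fin (n + 1) → Ph) × Ph → ℝ → Ph → ℝ≥0∞}
    (hG : Measurable fun q : (Ph × (Fin (n + 1) → Ph) × Ph) × ℝ × Ph => G q.1 q.2.1 q.2.2) :
    ∫⁻ x, G (hdB x) (endB ε R x).1 (endB ε R x).2 ∂(lawB ε b t t₂ n k S R) =
      ∫⁻ β : Ph, ∫⁻ p : Fin (n + 1) → Ph, ∫⁻ m : Ph, (evH ε t S β p).indicator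
        (fun m => (gw b β.2 * FL.wt b ε (n + 1) p) * (muE ε * gw b m.2) *
          opn ε b t₂ k R (G (β, p, m)) (exT ε (β, m)) m) m := by
  have hGm : Measurable fun x : XB n k => G (hdB x) (endB ε R x).1 (endB ε R x).2 :=
    hG.comp (measurable_hdB.prodMk (measurable_endB R))
  rw [lintegral_lawB S R hGm]
  refine lintegral_congr fun β => lintegral_congr fun p => lintegral_congr fun m => ?_
  by_cases hm : m ∈ evH ε t S β p
  · have hGq : Measurable fun q : ℝ × Ph => G (β, p, m) q.1 q.2 :=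
      hG.comp (measurable_const.prodMk measurable_id : Measurable fun q : ℝ × Ph =>
        (((β, p, m) : Ph × (Fin (n + 1) → Ph) × Ph), q))
    rw [indicator_of_mem hm, opn_eq k R hGq, ← lintegral_const_mul _ (measurable_opI_p k R hGq _ _)]
    refine lintegral_congr fun p' => ?_
    unfold inB
    by_cases hc : Chain ε t₂ R k (exT ε (β, m)) m p'
    · rw [wLB_of (show (β, p, m, p') ∈ evB ε t t₂ S R from ⟨hm.1, hm.2.1, hm.2.2, hc⟩),
        opI_of hc]
      simp only [hdB, endB]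
      ring
    · rw [wLB_of_not (show (β, p, m, p') ∉ evB ε t t₂ S R from fun h => hc h.2.2.2),
        opI_of_not hc, zero_mul, mul_zero]
  · rw [indicator_of_notMem hm]
    refine (lintegral_congr fun p' => ?_).trans lintegral_zero
    unfold inB
    rw [wLB_of_not (show (β, p, m, p') ∉ evB ε t t₂ S R from fun h => hm ⟨h.1, h.2.1, h.2.2.1⟩),
      zero_mul]

/-- **Composition**: a chain operator after the law B. -/
theorem lawB_opn {j' : ℕ} (S S' S'' : ℕ → Step)
    {F : Ph × (Fin (n + 1) → Ph) × Ph → ℝ → Ph → ℝ≥0∞}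
    (hF : Measurable fun q : (Ph × (Fin (n + 1) → Ph) × Ph) × ℝ × Ph => F q.1 q.2.1 q.2.2) :
    ∫⁻ x, opn ε b t₂ j' S'' (F (hdB x)) (endB ε S' x).1 (endB ε S' x).2
        ∂(lawB ε b t t₂ n j S S') =
      ∫⁻ x, F (hdB x) (endB ε (catS j S' S'') x).1 (endB ε (catS j S' S'') x).2
        ∂(lawB ε b t t₂ n (j + j') S (catS j S' S'')) := by
  rw [lintegral_lawB_end j S' (G := fun a s l => opn ε b t₂ j' S'' (F a) s l)
    (measurable_opn_param j' S'' hF), lintegral_lawB_end (j + j') (catS j S' S'') hF]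
  refine lintegral_congr fun β => lintegral_congr fun p => lintegral_congr fun m => ?_
  by_cases hm : m ∈ evH ε t S β p
  · rw [indicator_of_mem hm, indicator_of_mem hm, opn_cat]
  · rw [indicator_of_notMem hm, indicator_of_notMem hm]

/-- **The hits of a fixed line under the law B, after `i` further hits of `m`.** -/
theorem hitB_Gc_le (hΦ : IsPotential Φ) (hε : 0 < ε) (hε1 : ε ≤ 1) (hb : 0 < b)
    (hb' : b ≤ b') (ht : 0 ≤ t) (htT : t ≤ Tm) (htt : t₂ ≤ t') (S S' : ℕ → Step) (i : ℕ)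
    (z' : Ph) :
    ∫⁻ x, Gc hΦ hε.ne' b' t' i (hitL ε t z') (endB ε S' x).1 (endB ε S' x).2
        ∂(lawB ε b t t₂ n j S S') ≤
      3 ^ i * (cHitB b Tm n (j + i) * (ENNReal.ofReal (ε ^ 2) * ENNReal.ofReal (1 + ‖z'.2‖))) := by
  have hF : Measurable fun q : ℝ × Ph => hitL ε t z' q.1 q.2 :=
    measurable_hitL measurable_const measurable_fst measurable_snd
  have hF2 : Measurable fun q : (Ph × (Fin (n + 1) → Ph) × Ph) × ℝ × Ph =>
      hitL ε t z' q.2.1 q.2.2 :=
    measurable_hitL measurable_const measurable_snd.fst measurable_snd.snd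
  have hop : ∀ o : Fin i → Fin 3, Measurable fun x : XB n j =>
      opn ε b t' i (stps hΦ hε.ne' o) (hitL ε t z') (endB ε S' x).1 (endB ε S' x).2 := fun o =>
    (measurable_opn i _ hF).comp (measurable_endB S')
  calc ∫⁻ x, Gc hΦ hε.ne' b' t' i (hitL ε t z') (endB ε S' x).1 (endB ε S' x).2
        ∂(lawB ε b t t₂ n j S S')
      ≤ ∫⁻ x, ∑ o : Fin i → Fin 3, opn ε b t' i (stps hΦ hε.ne' o) (hitL ε t z')
          (endB ε S' x).1 (endB ε S' x).2 ∂(lawB ε b t t' n j S S') := by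
        refine lintegral_mono' (lawB_mono htt S S') fun x => ?_
        rw [Gc_eq_opn hΦ hε.ne' b' t' i hF]
        exact Finset.sum_le_sum fun o _ => opn_mono_b hb' i _ _ _
    _ = ∑ o : Fin i → Fin 3, ∫⁻ x, opn ε b t' i (stps hΦ hε.ne' o) (hitL ε t z')
          (endB ε S' x).1 (endB ε S' x).2 ∂(lawB ε b t t' n j S S') :=
        lintegral_finsetSum _ fun o _ => hop o
    _ ≤ ∑ _o : Fin i → Fin 3, cHitB b Tm n (j + i) * (ENNReal.ofReal (ε ^ 2) *
          ENNReal.ofReal (1 + ‖z'.2‖)) := by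
        refine Finset.sum_le_sum fun o _ => ?_
        rw [lawB_opn S S' (stps hΦ hε.ne' o) (F := fun _ s l => hitL ε t z' s l) hF2]
        exact hitB_le hε hε1 hb ht htT S _ z'
    _ = _ := by
        rw [Finset.sum_const, nsmul_eq_mul, Finset.card_univ, Fintype.card_fun, Fintype.card_fin,
          Fintype.card_fin]
        push_cast
        rfl

end Vale.Agent.P119.PB
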