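import Vale.Agent.P119.PB.LamD
import Vale.Agent.P119.PB.HitAB
import Vale.Agent.P119.FL.LawC

/-!
# P119, block PROB: the laws of two outgoing lines of a branch (`helper298`)

* `dpt`: the depth of the tree of a spine; `bA`: the birth of the last line;
* `srcE`, `srcM`: the sources of the exhaust and of the root of a marked node, as functions of the
  index and of the lines;
* `lamN b t t₂ α L c`: **the measure on the pairs of sources** `∑_N c_N ∑_y aw y • lawA ε b b t t₂ N`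
  (births in `(0, t]`, depths at most `L`);
* `sumJ_lam`: the sum over one marked node, a function of the exhaust and of the root, is at most an
  integral with respect to `lamN`;
* `sumA_lam`: the sum over two marked nodes, one above the other, is at most an integral with respect
  to `lamN`.
-/

open MeasureTheory Set Filter Topology Metric
open scoped ENNReal

noncomputable section

namespace Vale.Agent.P119.PB

open KU M M.CTree FL Cap

variable {Φ : E3 → ℝ} {ε b t t₂ : ℝ} {L : ℕ}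

/-! ### Depth and birth -/

/-- The depth of the tree of a spine. -/
def dpt : (k : ℕ) → ℕ → (Fin k → ℕ) → ℕ
  | 0, n, _ => n
  | k + 1, n, ds => dpt k (max n (ds 0) + 1) fun j => ds j.succ

theorem depth_plug_eq (m : ℕ) : ∀ (X : CTree) (r : Fin m → Bool × CTree),
    (plug m X r).depth = dpt m X.depth fun j => (r j).2.depth := by
  induction m with
  | zero => intro X r; rfl
  | succ m ih =>
    intro X r
    change (plug m (stepT X (r 0)) fun i => r i.succ).depth = _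
    rw [ih, depth_stepT]
    rfl

/-- The exit time of a spine. -/
theorem ext_plug_eq (hΦ : IsPotential Φ) (hε : ε ≠ 0) (m : ℕ) : ∀ (X : CTree)
    (r : Fin (m + 1) → Bool × CTree), ext Φ ε (plug (m + 1) X r) =
      sepT Φ ε (lastPair (outS hΦ hε (m + 1) fun i => (r i).1) m (ln Φ ε X)
        fun i => ln Φ ε (r i).2) := by
  induction m with
  | zero => intro X r; exact ext_stepT hΦ X (r 0)
  | succ m ih =>
    intro X r
    have h := ih (stepT X (r 0)) fun i => r i.succ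
    rw [ln_stepT hΦ hε] at h
    exact h

/-- The birth of the last line: the exit time of the last hit. -/
def bA (Φ : E3 → ℝ) (ε : ℝ) (S : ℕ → Step) : (N : ℕ) → XA N → ℝ
  | 0, x => exT ε (x.1, x.2.1)
  | _ + 1, x => sepT Φ ε (lpA S x)

theorem measurable_bA (hΦ : IsPotential Φ) (S : ℕ → Step) (N : ℕ) :
    Measurable (bA Φ ε S N) := by
  cases N with
  | zero => exact measurable_exA
  | succ N => exact (measurable_sepT hΦ).comp (measurable_lpA S)

/-- The depth of the root of an index. -/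
def dM {N : ℕ} (y : Ix N) : ℕ := dpt N (max y.1 y.2.1 + 1) fun j => (y.2.2 j).2

/-- The source of the exhaust. -/
def srcE (ε : ℝ) {N : ℕ} (y : Ix N) (x : XA N) : Src :=
  (exT ε (x.1, x.2.1), x.1, max y.1 y.2.1 + 1)

/-- The source of the root. Its birth is the exit time of the last hit (and not before the last
hit, on the null set where the last pair does not exit). -/
def srcM (hΦ : IsPotential Φ) (hε : ε ≠ 0) {N : ℕ} (y : Ix N) (x : XA N) : Src :=
  (max (bA Φ ε (ixS hΦ hε y) N x) (endA ε (ixS hΦ hε y) x).1,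
    line (ixS hΦ hε y) N x.2.1 x.2.2, dM y)

theorem srcM_birth (hΦ : IsPotential Φ) (hε : ε ≠ 0) {N : ℕ} (y : Ix N) (x : XA N) :
    (endA ε (ixS hΦ hε y) x).1 ≤ (srcM hΦ hε y x).1 := le_max_right _ _

theorem measurable_srcE {N : ℕ} (y : Ix N) : Measurable (srcE ε y) :=
  measurable_exA.prodMk (measurable_fst.prodMk measurable_const)

theorem measurable_lnA (S : ℕ → Step) (N : ℕ) :
    Measurable fun x : XA N => line S N x.2.1 x.2.2 :=
  (measurable_line N S).comp (measurable_snd.fst.prodMk measurable_snd.snd)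

theorem measurable_srcM (hΦ : IsPotential Φ) (hε : ε ≠ 0) {N : ℕ} (y : Ix N) :
    Measurable (srcM hΦ hε y) :=
  ((measurable_bA hΦ _ N).max (measurable_endA _).fst).prodMk
    ((measurable_lnA _ N).prodMk measurable_const)

theorem rsrc_exh (hΦ : IsPotential Φ) (hε : ε ≠ 0) {N : ℕ} (q : Mk CTree N) :
    rsrc Φ ε (exh q) = srcE ε (ix q) (mkD Φ ε q) := by
  have h1 : ext Φ ε (exh q) = exT ε (ln Φ ε (node q.2.1 q.1), ln Φ ε (node q.1 q.2.1)) :=
    ext_node_exT hΦ hε q.2.1 q.1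
  have h2 : (exh q).depth = max q.1.depth q.2.1.depth + 1 := depth_exh q
  unfold rsrc srcE mkD
  rw [h1, h2]
  rfl

theorem ln_top (hΦ : IsPotential Φ) (hε : ε ≠ 0) {N : ℕ} (q : Mk CTree N) :
    ln Φ ε (top q) = line (ixS hΦ hε (ix q)) N (mkD Φ ε q).2.1 (mkD Φ ε q).2.2 :=
  ln_plug hΦ hε N (node q.1 q.2.1) q.2.2

/-- The end of the chain is not after the exit of the tree. -/
theorem endA_le_ext (hΦ : IsPotential Φ) (hε : 0 < ε) {N : ℕ} {q : Mk CTree N}
    (h : ok Φ ε (top q)) :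
    (endA ε (ixS hΦ hε.ne' (ix q)) (mkD Φ ε q)).1 ≤ ext Φ ε (top q) := by
  have h1 := brT_time_le hΦ hε h
  have h2 : (brT hΦ hε.ne' N q).2.1 = (endA ε (ixS hΦ hε.ne' (ix q)) (mkD Φ ε q)).1 := by
    unfold brT endA mkD
    simp only
    have h3 : ext Φ ε (node q.1 q.2.1) =
        exT ε (ln Φ ε (node q.2.1 q.1), ln Φ ε (node q.1 q.2.1)) := by
      rw [← ext_swap hΦ]
      exact ext_node_exT hΦ hε.ne' q.2.1 q.1
    rw [h3]
    rfl
  rw [← h2]
  exact h1

theorem rsrc_top (hΦ : IsPotential Φ) (hε : 0 < ε) {N : ℕ} {q : Mk CTree N}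
    (h : ok Φ ε (top q)) : rsrc Φ ε (top q) = srcM hΦ hε.ne' (ix q) (mkD Φ ε q) := by
  have h1 : ext Φ ε (top q) = bA Φ ε (ixS hΦ hε.ne' (ix q)) N (mkD Φ ε q) := by
    cases N with
    | zero =>
      have h := ext_node_exT hΦ hε.ne' q.2.1 q.1
      rw [ext_swap hΦ] at h
      exact h
    | succ N => exact ext_plug_eq hΦ hε.ne' N (node q.1 q.2.1) q.2.2
  have h2 : (top q).depth = dM (ix q) := depth_plug_eq N (node q.1 q.2.1) q.2.2
  have h3 := ln_top hΦ hε.ne' q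
  have h4 := endA_le_ext hΦ hε h
  unfold rsrc srcM
  rw [← h1, max_eq_left h4, h2, h3]

/-! ### Gaussian factors -/

/-- The Gaussian factors of the sister and of the siblings. -/
def eX (b : ℝ) {N : ℕ} (x : XA N) : ℝ≥0∞ := eL b x.2.1.2 * ∏ j, eL b (x.2.2 j).2

theorem measurable_eX (b : ℝ) {N : ℕ} : Measurable (eX b : XA N → ℝ≥0∞) := by
  unfold eX
  refine ((measurable_eL b).comp measurable_snd.fst.snd).mul
    (Finset.measurable_prod _ fun j _ => (measurable_eL b).comp ?_)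
  exact ((measurable_pi_apply j).comp measurable_snd.snd).snd

/-- The Gaussian factor of the last line. -/
theorem eL_line_le (hb : 0 < b) (S : ℕ → Step) {N : ℕ} (x : XA N) :
    eL b (line S N x.2.1 x.2.2).2 ≤ eX b x := by
  have h1 := line_energy N S x.2.1 x.2.2
  unfold eL eX eL
  rw [← ENNReal.ofReal_prod_of_nonneg fun j _ => (Real.exp_pos _).le,
    ← ENNReal.ofReal_mul (Real.exp_pos _).le, ← Real.exp_sum, ← Real.exp_add]
  apply ENNReal.ofReal_le_ofReal
  rw [Real.exp_le_exp, ← Finset.mul_sum, ← mul_add]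
  exact mul_le_mul_of_nonneg_left h1 (by positivity)

/-- The Gaussian factors are absorbed by the law. -/
theorem lawA_eX (hb : 0 < b) {N : ℕ} (S : ℕ → Step) {F : XA N → ℝ≥0∞}
    (hF : Measurable F) :
    ∫⁻ x, eX b x * F x ∂(lawA ε b b t t₂ N S) ≤
      ∫⁻ x, F x ∂(lawA ε (b / 2) (b / 2) t t₂ N S) := by
  rw [lintegral_lawA S (F := fun x => eX b x * F x) ((measurable_eX b).mul hF),
    lintegral_lawA S hF]
  refine lintegral_mono fun e => lintegral_mono fun β => lintegral_mono fun p => ?_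
  rw [← mul_assoc]
  refine mul_le_mul' ?_ le_rfl
  by_cases hz : (e, β, p) ∈ evA ε t t₂ S
  · rw [wA_of hz, wA_of hz]
    have h3 : gw b β.2 * eL b β.2 = gw (b / 2) β.2 := by
      unfold gw eL
      rw [← ENNReal.ofReal_mul (Real.exp_pos _).le, ← Real.exp_add]
      congr 2; ring
    have h4 : FL.wt b ε N p * ∏ j, eL b (p j).2 = FL.wt (b / 2) ε N p := by
      unfold FL.wt eL
      rw [← Finset.prod_mul_distrib]
      refine Finset.prod_congr rfl fun j _ => ?_
      rw [mul_assoc, ← ENNReal.ofReal_mul (Real.exp_pos _).le, ← Real.exp_add]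
      congr 3; ring
    have h5 : gw b e.2 ≤ gw (b / 2) e.2 := by
      unfold gw
      apply ENNReal.ofReal_le_ofReal
      apply Real.exp_le_exp.2
      nlinarith [sq_nonneg ‖e.2‖]
    unfold eX
    simp only
    calc gw b e.2 * (muE ε * gw b β.2 * FL.wt b ε N p) * (eL b β.2 * ∏ j, eL b (p j).2)
        = gw b e.2 * (muE ε * (gw b β.2 * eL b β.2) *
          (FL.wt b ε N p * ∏ j, eL b (p j).2)) := by ring
      _ ≤ _ := by
          rw [h3, h4]
          exact mul_le_mul' h5 le_rfl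
  · rw [wA_of_not hz, zero_mul]
    exact zero_le

/-- The law A is monotone in the Gaussian exponents. -/
theorem lawA_mono_b {b₁ b₂ : ℝ} (h : b₁ ≤ b₂) {N : ℕ} (S : ℕ → Step)
    {F : XA N → ℝ≥0∞} (hF : Measurable F) :
    ∫⁻ x, F x ∂(lawA ε b₂ b₂ t t₂ N S) ≤ ∫⁻ x, F x ∂(lawA ε b₁ b₁ t t₂ N S) := by
  rw [lintegral_lawA S hF, lintegral_lawA S hF]
  refine lintegral_mono fun e => lintegral_mono fun β => lintegral_mono fun p => ?_
  refine mul_le_mul' ?_ le_rfl
  have h1 : ∀ v : E3, gw b₂ v ≤ gw b₁ v := fun v => by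
    unfold gw
    apply ENNReal.ofReal_le_ofReal
    apply Real.exp_le_exp.2
    nlinarith [sq_nonneg ‖v‖]
  by_cases hz : (e, β, p) ∈ evA ε t t₂ S
  · rw [wA_of hz, wA_of hz]
    refine mul_le_mul' (h1 _) (mul_le_mul' (mul_le_mul' le_rfl (h1 _)) ?_)
    unfold FL.wt
    exact Finset.prod_le_prod' fun j _ => mul_le_mul' le_rfl (h1 (p j).2)
  · rw [wA_of_not hz, wA_of_not hz]

/-! ### The laws -/

/-- Births in `(0, t]`, depths at most `L`. -/
def SS (t : ℝ) (L : ℕ) : Set (Src × Src) := srcS t L ×ˢ srcS t L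

theorem measurableSet_SS (t : ℝ) (L : ℕ) : MeasurableSet (SS t L) :=
  (measurableSet_srcS t L).prod (measurableSet_srcS t L)

/-- The pair of sources. -/
def srcP (hΦ : IsPotential Φ) (hε : ε ≠ 0) {N : ℕ} (y : Ix N) (x : XA N) : Src × Src :=
  (srcE ε y x, srcM hΦ hε y x)

theorem measurable_srcP (hΦ : IsPotential Φ) (hε : ε ≠ 0) {N : ℕ} (y : Ix N) :
    Measurable (srcP hΦ hε y) := (measurable_srcE y).prodMk (measurable_srcM hΦ hε y)

/-- **The law of two outgoing lines of a branch.** -/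
def lamN (hΦ : IsPotential Φ) (hε : ε ≠ 0) (b t t₂ : ℝ) (α : ℕ → ℝ≥0∞) (L : ℕ) (c : ℕ → ℝ≥0∞) :
    Measure (Src × Src) :=
  Measure.sum fun N => c N • Measure.sum fun y : Ix N => aw α y •
    ((lawA ε b b t t₂ N (ixS hΦ hε y)).map (srcP hΦ hε y)).restrict (SS t L)

instance sfinite_lamN (hΦ : IsPotential Φ) (hε : ε ≠ 0) (b t t₂ : ℝ) (α : ℕ → ℝ≥0∞) (L : ℕ)
    (c : ℕ → ℝ≥0∞) : SFinite (lamN hΦ hε b t t₂ α L c) := by
  unfold lamN
  infer_instance

theorem lintegral_lamN (hΦ : IsPotential Φ) (hε : ε ≠ 0) (b t t₂ : ℝ) (α : ℕ → ℝ≥0∞) (L : ℕ)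
    (c : ℕ → ℝ≥0∞) {f : Src × Src → ℝ≥0∞} (hf : Measurable f) :
    ∫⁻ z, f z ∂(lamN hΦ hε b t t₂ α L c) = ∑' N, c N * ∑' y : Ix N, aw α y *
      ∫⁻ x, (SS t L).indicator f (srcP hΦ hε y x) ∂(lawA ε b b t t₂ N (ixS hΦ hε y)) := by
  unfold lamN
  rw [lintegral_sum_measure]
  refine tsum_congr fun N => ?_
  rw [lintegral_smul_measure, smul_eq_mul, lintegral_sum_measure]
  congr 1
  refine tsum_congr fun y => ?_
  rw [lintegral_smul_measure, smul_eq_mul, ← lintegral_indicator (measurableSet_SS t L),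
    lintegral_map (hf.indicator (measurableSet_SS t L)) (measurable_srcP hΦ hε y)]

/-- Sums over indices. -/
theorem tsum_Ix {N : ℕ} (F : Ix N → ℝ≥0∞) : ∑' y : Ix N, F y =
    ∑' d, ∑' d', ∑' ds : Fin N → ℕ, ∑ o : Fin N → Bool, F (d, d', fun j => (o j, ds j)) := by
  rw [ENNReal.tsum_prod']
  refine tsum_congr fun d => ?_
  rw [ENNReal.tsum_prod']
  refine tsum_congr fun d' => ?_
  rw [← (Equiv.arrowProdEquivProdArrow (Fin N) (fun _ => Bool) (fun _ => ℕ)).symm.tsum_eq,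
    ENNReal.tsum_prod', ENNReal.tsum_comm]
  refine tsum_congr fun ds => ?_
  rw [tsum_fintype]
  rfl

/-- The formula with explicit indices. -/
theorem lintegral_lamN' (hΦ : IsPotential Φ) (hε : ε ≠ 0) (b t t₂ : ℝ) (α : ℕ → ℝ≥0∞) (L : ℕ)
    (c : ℕ → ℝ≥0∞) {f : Src × Src → ℝ≥0∞} (hf : Measurable f) :
    ∫⁻ z, f z ∂(lamN hΦ hε b t t₂ α L c) = ∑' N, ∑' d, ∑' d', ∑' ds : Fin N → ℕ,
      ∑ o : Fin N → Bool, c N * (α d * α d' * ∏ j, α (ds j)) *
        ∫⁻ x, (SS t L).indicator f ((exT ε (x.1, x.2.1), x.1, max d d' + 1),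
          (max (bA Φ ε (outS hΦ hε N o) N x) (endA ε (outS hΦ hε N o) x).1,
            line (outS hΦ hε N o) N x.2.1 x.2.2,
            dpt N (max d d' + 1) ds)) ∂(lawA ε b b t t₂ N (outS hΦ hε N o)) := by
  rw [lintegral_lamN hΦ hε b t t₂ α L c hf]
  refine tsum_congr fun N => ?_
  rw [tsum_Ix, ← ENNReal.tsum_mul_left]
  refine tsum_congr fun d => ?_
  rw [← ENNReal.tsum_mul_left]
  refine tsum_congr fun d' => ?_
  rw [← ENNReal.tsum_mul_left]
  refine tsum_congr fun ds => ?_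
  rw [Finset.mul_sum]
  refine Finset.sum_congr rfl fun o _ => ?_
  rw [← mul_assoc]
  congr 1
  unfold aw
  simp only
  ring

/-! ### One marked node -/

/-- The sources of a marked node of an ok tree. -/
theorem srcP_mem (hΦ : IsPotential Φ) (hε : 0 < ε) {N : ℕ} {q : Mk CTree N}
    (h : top q ∈ okT Φ ε t L) : srcP hΦ hε.ne' (ix q) (mkD Φ ε q) ∈ SS t L := by
  obtain ⟨k1, k2, k3⟩ := (okT_plug hΦ hε h).1
  have k4 : 0 < ext Φ ε (node q.1 q.2.1) := ext_node_pos hΦ hε k1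
  have k5 : ext Φ ε (node q.1 q.2.1) ≤ ext Φ ε (top q) := (ext_plug hΦ hε h.1).1
  refine ⟨?_, ?_⟩
  · change srcE ε (ix q) (mkD Φ ε q) ∈ srcS t L
    rw [← rsrc_exh hΦ hε.ne']
    refine ⟨?_, ?_, ?_⟩
    · change 0 < ext Φ ε (exh q)
      rw [ext_exh hΦ]; exact k4
    · change ext Φ ε (exh q) ≤ t
      rw [ext_exh hΦ]; exact k2
    · change (exh q).depth ≤ L
      rw [depth_exh]; exact k3
  · change srcM hΦ hε.ne' (ix q) (mkD Φ ε q) ∈ srcS t L
    rw [← rsrc_top hΦ hε h.1]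
    exact ⟨k4.trans_le k5, h.2.1, h.2.2⟩

/-- The general bound for a sum over one marked node. -/
theorem sumN_le (hΦ : IsPotential Φ) (hε : 0 < ε) (hb : 0 < b) (ht₂ : t ≤ t₂) {K : ℝ≥0∞}
    {α : ℕ → ℝ≥0∞} {Θ : Measure CTree} [SigmaFinite Θ] (hΘ : LDLaw Φ ε b K α Θ) (N : ℕ)
    {F : Mk CTree N → ℝ≥0∞} {f : Src × Src → ℝ≥0∞} (hf : Measurable f)
    (hF : ∀ q, top q ∈ okT Φ ε t L → F q ≤ eX b (mkD Φ ε q) *
      f (rsrc Φ ε (exh q), rsrc Φ ε (top q))) :
    ∫⁻ q : Mk CTree N, (okT Φ ε t L).indicator (fun _ => F q) (top q) ∂(mkM Θ N) ≤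
      muE ε * (K ^ (N + 2) * ∑' y : Ix N, aw α y *
        ∫⁻ x, (SS t L).indicator f (srcP hΦ hε.ne' y x)
          ∂(lawA ε (b / 2) (b / 2) t t₂ N (ixS hΦ hε.ne' y))) := by
  have hm : ∀ y : Ix N, Measurable fun x : XA N =>
      (SS t L).indicator f (srcP hΦ hε.ne' y x) := fun y =>
    (hf.indicator (measurableSet_SS t L)).comp (measurable_srcP hΦ hε.ne' y)
  have h1 : ∀ q : Mk CTree N, (okT Φ ε t L).indicator (fun _ => F q) (top q) ≤
      (okT Φ ε t L).indicator (fun _ => eX b (mkD Φ ε q) *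
        (SS t L).indicator f (srcP hΦ hε.ne' (ix q) (mkD Φ ε q))) (top q) := by
    intro q
    by_cases hq : top q ∈ okT Φ ε t L
    · rw [indicator_of_mem hq, indicator_of_mem hq, indicator_of_mem (srcP_mem hΦ hε hq)]
      refine (hF q hq).trans (le_of_eq ?_)
      rw [rsrc_exh hΦ hε.ne', rsrc_top hΦ hε hq.1]
      rfl
    · rw [indicator_of_notMem hq]; exact zero_le
  refine (lintegral_mono h1).trans ((mkD_le (t := t) hΦ hε hΘ L N (f := fun y x => eX b x *
    (SS t L).indicator f (srcP hΦ hε.ne' y x)) fun y => (measurable_eX b).mul (hm y)).trans ?_)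
  refine mul_le_mul' le_rfl (mul_le_mul' le_rfl (ENNReal.tsum_le_tsum fun y =>
    mul_le_mul' le_rfl ?_))
  exact (lawA_eX hb _ (hm y)).trans (lintegral_mono' (lawA_mono ht₂ _) le_rfl)

/-- The coefficients of the law of the exhausts with the root. -/
def cRt (b : ℝ) (K : ℝ≥0∞) (q N : ℕ) : ℝ≥0∞ := ENNReal.ofReal (Cgp (b / 4) q) * K ^ (N + 2)

theorem pw_le_eL (hb : 0 < b) (q : ℕ) (v : E3) :
    Cap.pw q v ≤ ENNReal.ofReal (Cgp (b / 4) q) * eL b v := by
  refine (pw_le_exp hb q v).trans (mul_le_mul' le_rfl ?_)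
  unfold eL
  refine ENNReal.ofReal_le_ofReal (Real.exp_le_exp.2 ?_)
  nlinarith [sq_nonneg ‖v‖]

/-- **The sum over one marked node: functions of the exhaust and of the root.** -/
theorem sumJ_lam (hΦ : IsPotential Φ) (hε : 0 < ε) (hb : 0 < b) (ht₂ : t ≤ t₂) {K : ℝ≥0∞}
    {α : ℕ → ℝ≥0∞} {Θ : Measure CTree} [SigmaFinite Θ] (hΘ : LDLaw Φ ε b K α Θ) (q₀ : ℕ)
    {F : CTree → CTree → ℝ≥0∞} {ψ : Src → Src → ℝ≥0∞}
    (hψ : Measurable fun z : Src × Src => ψ z.1 z.2)
    (hF : ∀ T ∈ okT Φ ε t L, ∀ x, F T x ≤ Cap.pw q₀ (ln Φ ε T).2 *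
      ψ (rsrc Φ ε x) (rsrc Φ ε T)) :
    sumJ Φ ε t L Θ F ≤ muE ε *
      ∫⁻ z, ψ z.1 z.2 ∂(lamN hΦ hε.ne' (b / 2) t t₂ α L (cRt b K q₀)) := by
  unfold sumJ
  rw [lintegral_lamN hΦ hε.ne' (b / 2) t t₂ α L _ hψ, ← ENNReal.tsum_mul_left]
  refine ENNReal.tsum_le_tsum fun N => ?_
  set C : ℝ≥0∞ := ENNReal.ofReal (Cgp (b / 4) q₀) with hC
  have hf : Measurable fun z : Src × Src => C * ψ z.1 z.2 := hψ.const_mul C
  refine (sumN_le hΦ hε hb ht₂ hΘ N hf fun q hq => ?_).trans (le_of_eq ?_)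
  · refine (hF _ hq _).trans ?_
    have h1 : Cap.pw q₀ (ln Φ ε (top q)).2 ≤ C * eX b (mkD Φ ε q) := by
      refine (pw_le_eL hb q₀ _).trans (mul_le_mul' le_rfl ?_)
      rw [ln_top hΦ hε.ne']
      exact eL_line_le hb _ _
    calc Cap.pw q₀ (ln Φ ε (top q)).2 * ψ (rsrc Φ ε (exh q)) (rsrc Φ ε (top q))
        ≤ C * eX b (mkD Φ ε q) * ψ (rsrc Φ ε (exh q)) (rsrc Φ ε (top q)) :=
          mul_le_mul' h1 le_rfl
      _ = _ := by ring
  · congr 1
    unfold cRt
    rw [mul_comm _ (K ^ (N + 2)), mul_assoc (K ^ (N + 2))]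
    congr 1
    rw [← ENNReal.tsum_mul_left]
    refine tsum_congr fun y => ?_
    have e : ∀ x : XA N, (SS t L).indicator (fun z : Src × Src => C * ψ z.1 z.2)
        (srcP hΦ hε.ne' y x) = C * (SS t L).indicator (fun z : Src × Src => ψ z.1 z.2)
        (srcP hΦ hε.ne' y x) := by
      intro x
      by_cases hx : srcP hΦ hε.ne' y x ∈ SS t L
      · rw [indicator_of_mem hx, indicator_of_mem hx]
      · rw [indicator_of_notMem hx, indicator_of_notMem hx, mul_zero]
    simp only [e]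
    rw [lintegral_const_mul' _ _ (show C ≠ ∞ from ENNReal.ofReal_ne_top)]
    ring

/-! ### Two marked nodes, one above the other -/

/-- One more vertex of the spine, next to the root. -/
def snocQ {i : ℕ} (q : Mk CTree i) (s : Bool × CTree) : Mk CTree (i + 1) :=
  (q.1, q.2.1, M.snoc q.2.2 s)

theorem top_snocQ {i : ℕ} (q : Mk CTree i) (s : Bool × CTree) :
    top (snocQ q s) = stepT (top q) s := plug_snoc i (node q.1 q.2.1) q.2.2 s

theorem exh_snocQ {i : ℕ} (q : Mk CTree i) (s : Bool × CTree) : exh (snocQ q s) = exh q := rfl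

theorem measurable_snocQ {i : ℕ} :
    Measurable fun p : Mk CTree i × (Bool × CTree) => snocQ p.1 p.2 :=
  measurable_fst.fst.prodMk (measurable_fst.snd.fst.prodMk
    (measurable_snoc.comp (measurable_fst.snd.snd.prodMk measurable_snd)))

theorem mkD_snocQ {i : ℕ} (q : Mk CTree i) (o o' : Bool) (S : CTree) :
    mkD Φ ε (snocQ q (o, S)) = mkD Φ ε (snocQ q (o', S)) := by
  have h : ∀ o : Bool, (fun j => ln Φ ε (M.snoc q.2.2 (o, S) j).2) =
      M.snoc (fun j => ln Φ ε (q.2.2 j).2) (ln Φ ε S) := by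
    intro o
    funext j
    unfold M.snoc
    induction j using Fin.lastCases with
    | last => rw [Fin.snoc_last, Fin.snoc_last]
    | cast j => rw [Fin.snoc_castSucc, Fin.snoc_castSucc]
  unfold mkD snocQ
  simp only
  rw [h o, h o']

theorem lintegral_snocQ (Θ : Measure CTree) [SigmaFinite Θ] (i : ℕ)
    {F : Mk CTree (i + 1) → ℝ≥0∞} (hF : Measurable F) :
    ∫⁻ q', F q' ∂(mkM Θ (i + 1)) = ∫⁻ q, ∫⁻ s, F (snocQ q s) ∂(stM Θ) ∂(mkM Θ i) := by
  have h1 : Measurable fun q : Mk CTree i => ∫⁻ s, F (snocQ q s) ∂(stM Θ) :=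
    (hF.comp measurable_snocQ).lintegral_prod_right'
  rw [lintegral_mkM Θ (i + 1) hF, lintegral_mkM Θ i h1]
  refine lintegral_congr fun A => lintegral_congr fun B => ?_
  have h2 : Measurable fun r : Fin (i + 1) → Bool × CTree => F (A, B, r) :=
    hF.comp (measurable_const.prodMk (measurable_const.prodMk measurable_id))
  have h3 : Measurable fun p : (Fin i → Bool × CTree) × (Bool × CTree) =>
      F (A, B, M.snoc p.1 p.2) := h2.comp measurable_snoc
  have h3' : Measurable fun p : (Bool × CTree) × (Fin i → Bool × CTree) =>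
      F (A, B, M.snoc p.2 p.1) := h2.comp (measurable_snoc.comp measurable_swap)
  rw [← SpI_eq Θ (i + 1) h2, SpI_snoc i h2]
  have h4 : ∀ (o : Bool) (S : CTree), SpI Θ i (fun r => F (A, B, M.snoc r (o, S))) =
      ∫⁻ r, F (A, B, M.snoc r (o, S)) ∂(spM Θ i) := fun o S =>
    SpI_eq Θ i (h2.comp (measurable_snoc.comp (measurable_id.prodMk measurable_const)))
  simp only [h4]
  rw [← lintegral_stM Θ (F := fun s => ∫⁻ r, F (A, B, M.snoc r s) ∂(spM Θ i))
    h3'.lintegral_prod_right']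
  exact lintegral_lintegral_swap (f := fun s r => F (A, B, M.snoc r s)) h3'.aemeasurable

/-- The sides of the last vertex are exchanged. -/
theorem lintegral_stM_not (Θ : Measure CTree) [SigmaFinite Θ] {F : Bool × CTree → ℝ≥0∞}
    (hF : Measurable F) : ∫⁻ s, F (!s.1, s.2) ∂(stM Θ) = ∫⁻ s, F s ∂(stM Θ) := by
  have h : Measurable fun s : Bool × CTree => F (!s.1, s.2) :=
    hF.comp (((measurable_of_countable fun o : Bool => !o).comp measurable_fst).prodMk
      measurable_snd)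
  rw [lintegral_stM Θ hF, lintegral_stM Θ h, Fintype.sum_bool, Fintype.sum_bool, add_comm]
  rfl

theorem okT_stepT (hΦ : IsPotential Φ) (X S : CTree) (o : Bool) :
    stepT X (o, S) ∈ okT Φ ε t L ↔ node X S ∈ okT Φ ε t L := by
  have key : ∀ A B : CTree, node A B ∈ okT Φ ε t L → node B A ∈ okT Φ ε t L := by
    intro A B h
    refine ⟨ok_swap hΦ h.1, ?_, ?_⟩
    · rw [ext_swap hΦ]; exact h.2.1
    · have h3 : max A.depth B.depth + 1 ≤ L := h.2.2
      change max B.depth A.depth + 1 ≤ L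
      rwa [max_comm]
  cases o
  · exact ⟨key S X, key X S⟩
  · exact Iff.rfl

/-- The coefficients of the law of two nodes, one above the other. -/
def cAl (b t : ℝ) (K : ℝ≥0∞) (α : ℕ → ℝ≥0∞) (q : ℕ) : ℕ → ℝ≥0∞
  | 0 => 0
  | N + 1 => cTR b t (K * ∑' n, α n) q * K ^ (N + 3)

/-- The integral over the trailing spine. -/
theorem sumA_inner (hΦ : IsPotential Φ) (hε : 0 < ε) (hb : 0 < b) {K : ℝ≥0∞}
    {Θ : Measure CTree} [SigmaFinite Θ] (hK : LineLaw Φ ε b K Θ) (q₀ k : ℕ) {i : ℕ}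
    {R : CTree → ℝ≥0∞} (hR : ∀ T ∈ okT Φ ε t L, R T ≤ Cap.pw q₀ (ln Φ ε T).2)
    {Ψ : CTree → CTree → ℝ≥0∞} {f : Src × Src → ℝ≥0∞}
    (hΨ : ∀ x y, Ψ x y + Ψ y x ≤ f (rsrc Φ ε x, rsrc Φ ε y)) (q : Mk CTree i)
    (s : Bool × CTree) :
    ∫⁻ r : Fin k → Bool × CTree, (okT Φ ε t L).indicator (fun _ => R (treeA k i q s.1 s.2 r) *
      (Ψ (exh q) (exU q s.1 s.2) + Ψ (exU q s.1 s.2) (exh q))) (treeA k i q s.1 s.2 r)
      ∂(spM Θ k) ≤
      cTr b t K q₀ k * (okT Φ ε t L).indicator (fun _ => eX b (mkD Φ ε (snocQ q (!s.1, s.2))) *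
        f (rsrc Φ ε (exh (snocQ q (!s.1, s.2))), rsrc Φ ε (top (snocQ q (!s.1, s.2)))))
        (top (snocQ q (!s.1, s.2))) := by
  obtain ⟨o, S⟩ := s
  simp only
  set X : CTree := stepT (top q) (o, S) with hX
  set c : ℝ≥0∞ := Ψ (exh q) (exU q o S) + Ψ (exU q o S) (exh q) with hc
  have hpm : Measurable fun r : Fin k → Bool × CTree =>
      (okT Φ ε t L).indicator (fun T => Cap.pw q₀ (ln Φ ε T).2) (plug k X r) := by
    have h1 : Measurable fun r : Fin k → Bool × CTree => plug k X r :=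
      (measurable_plug k).comp (measurable_const.prodMk measurable_id)
    have h2 : Measurable fun T : CTree => Cap.pw q₀ (ln Φ ε T).2 :=
      (measurable_pw' q₀).comp (measurable_ln hΦ hε.ne').snd
    exact (h2.indicator (measurableSet_okT hΦ hε.ne' L)).comp h1
  have h1 : ∀ r : Fin k → Bool × CTree, (okT Φ ε t L).indicator (fun _ =>
      R (treeA k i q o S r) * c) (treeA k i q o S r) ≤
      c * (okT Φ ε t L).indicator (fun T => Cap.pw q₀ (ln Φ ε T).2) (plug k X r) := by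
    intro r
    have e : treeA k i q o S r = plug k X r := rfl
    rw [e]
    by_cases hr : plug k X r ∈ okT Φ ε t L
    · rw [indicator_of_mem hr, indicator_of_mem hr, mul_comm]
      exact mul_le_mul' le_rfl (hR _ hr)
    · rw [indicator_of_notMem hr]
      exact zero_le
  refine (lintegral_mono h1).trans ?_
  rw [lintegral_const_mul _ hpm]
  refine (mul_le_mul' le_rfl (tr_le hΦ hε hb hK L q₀ k X)).trans ?_
  have hflip : X ∈ okT Φ ε t L ↔ top (snocQ q (!o, S)) ∈ okT Φ ε t L := by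
    rw [top_snocQ, okT_stepT hΦ (top q) S (!o)]
    exact okT_stepT hΦ (top q) S o
  by_cases hX' : X ∈ okT Φ ε t L
  · rw [indicator_of_mem hX', indicator_of_mem (hflip.1 hX')]
    have h2 : c ≤ f (rsrc Φ ε (exh (snocQ q (!o, S))), rsrc Φ ε (top (snocQ q (!o, S)))) := by
      rw [top_snocQ, exh_snocQ]
      exact hΨ _ _
    have h3 : ENNReal.ofReal (Real.exp (b / 2 * ‖(ln Φ ε X).2‖ ^ 2)) ≤
        eX b (mkD Φ ε (snocQ q (!o, S))) := by
      rw [mkD_snocQ q (!o) o S]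
      have h4 : ln Φ ε X = line (ixS hΦ hε.ne' (ix (snocQ q (o, S)))) (i + 1)
          (mkD Φ ε (snocQ q (o, S))).2.1 (mkD Φ ε (snocQ q (o, S))).2.2 := by
        rw [← ln_top hΦ hε.ne', top_snocQ]
      rw [h4]
      exact eL_line_le hb _ _
    calc c * (cTr b t K q₀ k * ENNReal.ofReal (Real.exp (b / 2 * ‖(ln Φ ε X).2‖ ^ 2)))
        ≤ f (rsrc Φ ε (exh (snocQ q (!o, S))), rsrc Φ ε (top (snocQ q (!o, S)))) *
          (cTr b t K q₀ k * eX b (mkD Φ ε (snocQ q (!o, S)))) :=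
          mul_le_mul' h2 (mul_le_mul' le_rfl h3)
      _ = _ := by ring
  · rw [indicator_of_notMem hX']
    simp

/-- **The sum over two marked nodes, one above the other.** -/
theorem sumA_lam (hΦ : IsPotential Φ) (hε : 0 < ε) (hb : 0 < b) (ht₂ : t ≤ t₂) {K : ℝ≥0∞}
    {α : ℕ → ℝ≥0∞} {Θ : Measure CTree} [SigmaFinite Θ] (hΘ : LDLaw Φ ε b K α Θ) (q₀ : ℕ)
    {R : CTree → ℝ≥0∞} (hR : ∀ T ∈ okT Φ ε t L, R T ≤ Cap.pw q₀ (ln Φ ε T).2)
    {Ψ : CTree → CTree → ℝ≥0∞} {ψ : Src → Src → ℝ≥0∞}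
    (hψ : Measurable fun z : Src × Src => ψ z.1 z.2)
    (hΨ : ∀ x y, Ψ x y ≤ ψ (rsrc Φ ε x) (rsrc Φ ε y)) :
    sumA Φ ε t L Θ R Ψ ≤ muE ε *
      ∫⁻ z, (ψ z.1 z.2 + ψ z.2 z.1) ∂(lamN hΦ hε.ne' (b / 2) t t₂ α L (cAl b t K α q₀)) := by
  set K' : ℝ≥0∞ := K * ∑' n, α n with hK'
  set f : Src × Src → ℝ≥0∞ := fun z => ψ z.1 z.2 + ψ z.2 z.1 with hf
  have hfm : Measurable f := hψ.add (hψ.comp measurable_swap)
  set G : (i : ℕ) → Mk CTree i → ℝ≥0∞ := fun i q => (okT Φ ε t L).indicator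
    (fun _ => eX b (mkD Φ ε q) * f (rsrc Φ ε (exh q), rsrc Φ ε (top q))) (top q) with hG
  have hGm : ∀ i, Measurable (G i) := fun i => by
    refine measurable_okT_top hΦ hε.ne' t L i (((measurable_eX b).comp
      (measurable_mkD hΦ hε.ne')).mul (hfm.comp ?_))
    exact ((measurable_rsrc hΦ hε.ne').comp (measurable_exh i)).prodMk
      ((measurable_rsrc hΦ hε.ne').comp (measurable_top i))
  set J : ℕ → ℝ≥0∞ := fun i => K ^ (i + 1 + 2) * ∑' y : Ix (i + 1), aw α y *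
    ∫⁻ x, (SS t L).indicator f (srcP hΦ hε.ne' y x)
      ∂(lawA ε (b / 2) (b / 2) t t₂ (i + 1) (ixS hΦ hε.ne' y)) with hJ
  have h1 : ∀ k i, ∫⁻ q : Mk CTree i, ∫⁻ s : Bool × CTree, ∫⁻ r : Fin k → Bool × CTree,
      (okT Φ ε t L).indicator (fun _ => R (treeA k i q s.1 s.2 r) *
        (Ψ (exh q) (exU q s.1 s.2) + Ψ (exU q s.1 s.2) (exh q))) (treeA k i q s.1 s.2 r)
        ∂(spM Θ k) ∂(stM Θ) ∂(mkM Θ i) ≤ cTr b t K' q₀ k * (muE ε * J i) := by
    intro k i
    have h2 : ∀ q : Mk CTree i, ∫⁻ s : Bool × CTree, ∫⁻ r : Fin k → Bool × CTree,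
        (okT Φ ε t L).indicator (fun _ => R (treeA k i q s.1 s.2 r) *
          (Ψ (exh q) (exU q s.1 s.2) + Ψ (exU q s.1 s.2) (exh q))) (treeA k i q s.1 s.2 r)
          ∂(spM Θ k) ∂(stM Θ) ≤ cTr b t K' q₀ k * ∫⁻ s, G (i + 1) (snocQ q s) ∂(stM Θ) := by
      intro q
      have hm1 : Measurable fun s : Bool × CTree => G (i + 1) (snocQ q s) :=
        (hGm (i + 1)).comp (measurable_snocQ.comp (measurable_const.prodMk measurable_id))
      refine (lintegral_mono fun s => sumA_inner hΦ hε hb hΘ.lineLaw q₀ k hR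
        (f := f) (fun x y => add_le_add (hΨ x y) (hΨ y x)) q s).trans (le_of_eq ?_)
      change ∫⁻ s : Bool × CTree, cTr b t K' q₀ k * G (i + 1) (snocQ q (!s.1, s.2)) ∂(stM Θ) = _
      have hm2 : Measurable fun s : Bool × CTree => G (i + 1) (snocQ q (!s.1, s.2)) :=
        hm1.comp (((measurable_of_countable fun o : Bool => !o).comp measurable_fst).prodMk
          measurable_snd)
      rw [lintegral_const_mul _ hm2]
      congr 1
      exact lintegral_stM_not Θ (F := fun s => G (i + 1) (snocQ q s)) hm1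
    refine (lintegral_mono h2).trans ?_
    have hm3 : Measurable fun q : Mk CTree i => ∫⁻ s, G (i + 1) (snocQ q s) ∂(stM Θ) :=
      ((hGm (i + 1)).comp measurable_snocQ).lintegral_prod_right'
    rw [lintegral_const_mul _ hm3, ← lintegral_snocQ Θ i (hGm (i + 1))]
    refine mul_le_mul' le_rfl ?_
    exact sumN_le hΦ hε hb ht₂ hΘ (i + 1) hfm fun q _ => le_rfl
  unfold sumA
  refine (ENNReal.tsum_le_tsum fun k => ENNReal.tsum_le_tsum fun i => h1 k i).trans
    (le_of_eq ?_)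
  simp only [ENNReal.tsum_mul_left]
  rw [ENNReal.tsum_mul_right, lintegral_lamN hΦ hε.ne' (b / 2) t t₂ α L _ hfm]
  change cTR b t K' q₀ * _ = _
  have h5 : cAl b t K α q₀ 0 = 0 := rfl
  have h6 : ∀ i, cAl b t K α q₀ (i + 1) = cTR b t K' q₀ * K ^ (i + 1 + 2) := fun i => rfl
  have h7 : ∑' N, cAl b t K α q₀ N * ∑' y : Ix N, aw α y *
      ∫⁻ x, (SS t L).indicator f (srcP hΦ hε.ne' y x)
        ∂(lawA ε (b / 2) (b / 2) t t₂ N (ixS hΦ hε.ne' y)) = cTR b t K' q₀ * ∑' i, J i := by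
    rw [tsum_eq_zero_add' ENNReal.summable, h5, zero_mul, zero_add, ← ENNReal.tsum_mul_left]
    refine tsum_congr fun i => ?_
    rw [h6, hJ, mul_assoc]
  rw [h7]
  ring

end Vale.Agent.P119.PB
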