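import Vale.Agent.P119.PB.LamS
import Vale.Agent.P119.PB.BL

/-!
# P119, second events: the main terms for countable sums of laws A (`helper755`)

* `main_lamS`: the main terms of the iterated second events for `lam ≤ lamS`, from the bound for
  every law A;
* `lawA_mass'`: the mass of the law A;
* `fS_small`: the remainder is small for large `J`.
-/

open MeasureTheory Set Filter Topology Metric ProbabilityTheory
open scoped ENNReal

namespace Vale.Agent.P119.PB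

open M CTree KU FB RB AU FL TL

variable {Φ : E3 → ℝ} {ε : ℝ} {L : ℕ} {hΦ : IsPotential Φ} {hε : 0 < ε} {f₀ : Ph → ℝ}
  {κ bE b b' t t₂ t' η w δ : ℝ} {K : Type} [Countable K]

theorem measurable_indG {X : Type} [MeasurableSpace X] {G : Set Src} (hG : MeasurableSet G)
    {e : X → Src} (he : Measurable e) : Measurable fun x => ind (e x ∈ G) :=
  measurable_ind (he hG)

/-- **The main terms for a sum of laws A.** -/
theorem main_lamS (h₀ : GoodDatum f₀ κ) (hb' : b ≤ b') (htt : t₂ ≤ t') (hη : 0 < η) (ht : 0 ≤ t)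
    (hw : t ≤ w) {G : Set Src} (hG : MeasurableSet G) {a : ℕ → ℝ≥0∞}
    {c : K → ℝ≥0∞} {N : K → ℕ} {S : K → ℕ → Step} {dE dM : K → ℕ} {β : ∀ k, XA (N k) → ℝ}
    (hβ : ∀ k, Measurable (β k)) (hend : ∀ k, ∀ x ∈ evA ε t t₂ (S k), (endA ε (S k) x).1 ≤ β k x)
    {lam : Measure (Src × Src)} (hlam : lam ≤ lamS ε bE b t t₂ c N S dE dM β) (J : ℕ)
    {x₀ X Y : ℝ≥0∞}
    (hE : ∀ (n : ℕ) (R : ℕ → Step) (d : ℕ), ∫⁻ x, ind (((srcA ε x).1, (srcA ε x).2, d) ∈ G) *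
      F6 L hΦ hε f₀ b' a η t w ((srcA ε x).1 + δ) (((srcA ε x).1, (srcA ε x).2, d)) (endA ε R x).1
        (endA ε R x).2 ∂(lawA ε bE b t t' n R) ≤ fS x₀ n * X)
    (hY : ∀ (n : ℕ) (R : ℕ → Step) (d : ℕ), ∫⁻ x, ind (((srcA ε x).1, (srcA ε x).2, d) ∈ G) *
      tE6 L hΦ hε f₀ η t (((srcA ε x).1, (srcA ε x).2, d)) ∂(lawA ε bE b t t' n R) ≤ fS x₀ n * Y) :
    ∫⁻ p, ind (p.1 ∈ G) * ((∑ j ∈ Finset.range J, (∑' n, a n) ^ j *
        Gc hΦ hε.ne' b' t' j (F6 L hΦ hε f₀ b' a η t w (p.1.1 + δ) p.1) p.2.1 p.2.2.1) +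
      (∑' n, a n) ^ J * Gc hΦ hε.ne' b' t' J (fun _ _ => tE6 L hΦ hε f₀ η t p.1)
        p.2.1 p.2.2.1) ∂lam ≤
      kpS c N x₀ * ((∑ j ∈ Finset.range J, fS ((∑' n, a n) * (3 * x₀)) j) * X +
        fS ((∑' n, a n) * (3 * x₀)) J * Y) := by
  set M : ℝ≥0∞ := ∑' n, a n with hM
  have hpG : Measurable fun p : Src × Src => ind (p.1 ∈ G) := measurable_indG hG measurable_fst
  have hu : Measurable fun p : Src × Src => p.1.1 + δ := measurable_fst.fst.add_const δ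
  -- the functions
  set F : Src → ℝ → Ph → ℝ≥0∞ := fun e s l => ind (e ∈ G) *
    F6 L hΦ hε f₀ b' a η t w (e.1 + δ) e s l with hF
  set H : Src → ℝ → Ph → ℝ≥0∞ := fun e _ _ => ind (e ∈ G) * tE6 L hΦ hε f₀ η t e with hH
  have hF6 : Measurable fun q : Src × ℝ × Ph =>
      F6 L hΦ hε f₀ b' a η t w (q.1.1 + δ) q.1 q.2.1 q.2.2 := by
    have h1 := measurable_F6₂ (L := L) (hΦ := hΦ) (hε := hε) (b := b') (η := η) (t := t) (w := w)
      h₀ (a := a) hu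
    exact h1.comp (g := fun q : (Src × Src) × ℝ × Ph =>
      F6 L hΦ hε f₀ b' a η t w (q.1.1.1 + δ) q.1.1 q.2.1 q.2.2)
      (f := fun q : Src × ℝ × Ph => (((q.1, q.1) : Src × Src), q.2))
      ((measurable_fst.prodMk measurable_fst).prodMk measurable_snd)
  have hFm : Measurable fun q : Src × ℝ × Ph => F q.1 q.2.1 q.2.2 :=
    (measurable_indG hG measurable_fst).mul hF6
  have hHm : Measurable fun q : Src × ℝ × Ph => H q.1 q.2.1 q.2.2 :=
    (measurable_indG hG measurable_fst).mul ((measurable_tE6' h₀).comp measurable_fst)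
  have hF6q : ∀ e : Src, Measurable fun q : ℝ × Ph =>
      F6 L hΦ hε f₀ b' a η t w (e.1 + δ) e q.1 q.2 := fun e => measurable_F6 h₀
  have eF : ∀ j (p : Src × Src), ind (p.1 ∈ G) * (M ^ j *
      Gc hΦ hε.ne' b' t' j (F6 L hΦ hε f₀ b' a η t w (p.1.1 + δ) p.1) p.2.1 p.2.2.1) =
      M ^ j * Gc hΦ hε.ne' b' t' j (F p.1) p.2.1 p.2.2.1 := by
    intro j p
    rw [hF]
    simp only
    rw [Gc_const_mul hΦ hε.ne' b' t' j _ (hF6q p.1)]
    ring
  have eH : ∀ (p : Src × Src), ind (p.1 ∈ G) * (M ^ J *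
      Gc hΦ hε.ne' b' t' J (fun _ _ => tE6 L hΦ hε f₀ η t p.1) p.2.1 p.2.2.1) =
      M ^ J * Gc hΦ hε.ne' b' t' J (H p.1) p.2.1 p.2.2.1 := by
    intro p
    rw [hH]
    simp only
    rw [Gc_const_mul hΦ hε.ne' b' t' J (ind (p.1 ∈ G)) (F := fun _ _ => tE6 L hΦ hε f₀ η t p.1)
      measurable_const]
    ring
  have hGF : ∀ j, Measurable fun p : Src × Src =>
      Gc hΦ hε.ne' b' t' j (F p.1) p.2.1 p.2.2.1 := fun j =>
    (measurable_Gc_param hΦ hε.ne' b' t' j (X := Src) (F := F) hFm).comp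
      (measurable_fst.prodMk (measurable_snd.fst.prodMk measurable_snd.snd.fst))
  have bF : ∀ j, ∫⁻ p, Gc hΦ hε.ne' b' t' j (F p.1) p.2.1 p.2.2.1 ∂lam ≤
      kpS c N x₀ * (fS (3 * x₀) j * X) := fun j =>
    gc_lamS_le hΦ hε hb' htt hβ hend hlam j hFm (fun e s s' l hs hss => mul_le_mul' le_rfl
      (F6_anti hη ht hw hs hss l)) hE
  have bH : ∫⁻ p, Gc hΦ hε.ne' b' t' J (H p.1) p.2.1 p.2.2.1 ∂lam ≤
      kpS c N x₀ * (fS (3 * x₀) J * Y) :=
    gc_lamS_le hΦ hε hb' htt hβ hend hlam J hHm (fun e s s' l _ _ => le_rfl) hY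
  calc _ = ∫⁻ p, ((∑ j ∈ Finset.range J, M ^ j * Gc hΦ hε.ne' b' t' j (F p.1) p.2.1 p.2.2.1) +
        M ^ J * Gc hΦ hε.ne' b' t' J (H p.1) p.2.1 p.2.2.1) ∂lam := by
        refine lintegral_congr fun p => ?_
        rw [mul_add, Finset.mul_sum, eH]
        congr 1
        exact Finset.sum_congr rfl fun j _ => eF j p
    _ = (∑ j ∈ Finset.range J, M ^ j * ∫⁻ p, Gc hΦ hε.ne' b' t' j (F p.1) p.2.1 p.2.2.1 ∂lam) +
        ∫⁻ p, M ^ J * Gc hΦ hε.ne' b' t' J (H p.1) p.2.1 p.2.2.1 ∂lam := by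
        rw [lintegral_add_left (Finset.measurable_sum _ fun j _ => (hGF j).const_mul _),
          lintegral_finsetSum _ fun j _ => (hGF j).const_mul _]
        congr 1
        exact Finset.sum_congr rfl fun j _ => lintegral_const_mul _ (hGF j)
    _ ≤ (∑ j ∈ Finset.range J, M ^ j * (kpS c N x₀ * (fS (3 * x₀) j * X))) +
        M ^ J * (kpS c N x₀ * (fS (3 * x₀) J * Y)) := by
        refine add_le_add (Finset.sum_le_sum fun j _ => mul_le_mul' le_rfl (bF j)) ?_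
        have hGH : Measurable fun p : Src × Src =>
            Gc hΦ hε.ne' b' t' J (H p.1) p.2.1 p.2.2.1 :=
          (measurable_Gc_param hΦ hε.ne' b' t' J (X := Src) (F := H) hHm).comp
            (measurable_fst.prodMk (measurable_snd.fst.prodMk measurable_snd.snd.fst))
        rw [lintegral_const_mul _ hGH]
        exact mul_le_mul' le_rfl bH
    _ = _ := by
        rw [mul_add, Finset.sum_mul, Finset.mul_sum]
        congr 1
        · refine Finset.sum_congr rfl fun j _ => ?_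
          rw [← mul_fS M (3 * x₀)]
          ring
        · rw [← mul_fS M (3 * x₀)]
          ring

/-- **The mass of the law A.** -/
theorem lawA_mass' (hε : 0 < ε) (hb : 0 < b) (ht0 : 0 ≤ t') (ht₂ : t ≤ t') {N : ℕ}
    {R : ℕ → Step} {g : ℝ × Ph → ℝ≥0∞} (hg : Measurable g) :
    ∫⁻ x, g (srcA ε x) ∂(lawA ε bE b t t' N R) ≤ fS (ENNReal.ofReal (Kc b * t')) N *
      (K1.sig univ * I0 (b / 2) * ∫⁻ e : Ph, ∫⁻ σ in Icc (0 : ℝ) t,
        gw bE e.2 * g (σ, e) * ENNReal.ofReal (1 + ‖e.2‖)) := by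
  refine (lawA_mass hε hb ht₂ (hg.comp measurable_srcA) (g := g) fun x _ => le_rfl).trans
    (le_of_eq ?_)
  have h1 : cM b t' N = I0 (b / 2) * fS (ENNReal.ofReal (Kc b * t')) N := by
    unfold cM
    rw [fS_of_real (mul_nonneg (Kc_nonneg _) ht0)]
  have hx : cM b t' N ≠ ∞ := cM_ne_top hb N
  have h2 : ∀ e : Ph, ∫⁻ σ in Icc (0 : ℝ) t, gw bE e.2 * g (σ, e) *
      (ENNReal.ofReal (1 + ‖e.2‖) * cM b t' N) =
      cM b t' N * ∫⁻ σ in Icc (0 : ℝ) t, gw bE e.2 * g (σ, e) *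
        ENNReal.ofReal (1 + ‖e.2‖) := by
    intro e
    rw [← lintegral_const_mul' _ _ hx]
    refine lintegral_congr fun σ => ?_
    ring
  simp only [h2]
  rw [lintegral_const_mul' _ _ hx, h1]
  ring

/-- The mass of the law A in terms of the sources. -/
theorem lawA_massJ (hε : 0 < ε) (hb : 0 < b) (hbE : 0 < bE) (ht0 : 0 ≤ t') (ht₂ : t ≤ t') {N : ℕ}
    {R : ℕ → Step} {g : ℝ × Ph → ℝ≥0∞} (hg : Measurable g) :
    ∫⁻ x, g (srcA ε x) ∂(lawA ε bE b t t' N R) ≤ fS (ENNReal.ofReal (Kc b * t')) N *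
      (K1.sig univ * I0 (b / 2) * (ENNReal.ofReal (1 + 1 / √bE) * srcJ (bE / 2) t g)) := by
  refine (lawA_mass' hε hb ht0 ht₂ hg).trans (mul_le_mul' le_rfl (mul_le_mul' le_rfl ?_))
  have hm : Measurable fun q : Ph × ℝ => gw (bE / 2) q.1.2 * g (q.2, q.1) :=
    ((measurable_gw _).comp measurable_fst.snd).mul (hg.comp measurable_swap)
  calc ∫⁻ e : Ph, ∫⁻ σ in Icc (0 : ℝ) t, gw bE e.2 * g (σ, e) * ENNReal.ofReal (1 + ‖e.2‖)
      ≤ ∫⁻ e : Ph, ∫⁻ σ in Icc (0 : ℝ) t, ENNReal.ofReal (1 + 1 / √bE) *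
          (gw (bE / 2) e.2 * g (σ, e)) := by
        refine lintegral_mono fun e => lintegral_mono fun σ => ?_
        calc gw bE e.2 * g (σ, e) * ENNReal.ofReal (1 + ‖e.2‖)
            = gw bE e.2 * ENNReal.ofReal (1 + ‖e.2‖) * g (σ, e) := by ring
          _ ≤ ENNReal.ofReal (1 + 1 / √bE) * gw (bE / 2) e.2 * g (σ, e) :=
              mul_le_mul' (gw_one_add hbE e.2) le_rfl
          _ = _ := by ring
    _ = ENNReal.ofReal (1 + 1 / √bE) * ∫⁻ e : Ph, ∫⁻ σ in Icc (0 : ℝ) t,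
          gw (bE / 2) e.2 * g (σ, e) := by
        simp_rw [lintegral_const_mul' _ _ (ENNReal.ofReal_ne_top (r := 1 + 1 / √bE))]
    _ = _ := by
        congr 1
        unfold srcJ
        exact lintegral_lintegral_swap (f := fun (e : Ph) (σ : ℝ) => gw (bE / 2) e.2 * g (σ, e))
          hm.aemeasurable

/-- The remainder is small. -/
theorem fS_small {x C : ℝ≥0∞} (hx : x ≠ ∞) (hC : C ≠ ∞) {ρ : ℝ≥0∞} (hρ : 0 < ρ) :
    ∃ J₀ : ℕ, ∀ J ≥ J₀, C * fS x J ≤ ρ := by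
  have h1 : Tendsto (fun J => C * fS x J) atTop (𝓝 (C * 0)) :=
    ENNReal.Tendsto.const_mul (fS_tendsto hx) (Or.inr hC)
  rw [mul_zero] at h1
  have h2 := h1.eventually (ge_mem_nhds hρ)
  obtain ⟨J₀, h3⟩ := Filter.eventually_atTop.1 h2
  exact ⟨J₀, fun J hJ => h3 J hJ⟩

end Vale.Agent.P119.PB
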