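import Vale.Agent.P119.PB.LamS
import Vale.Agent.P119.PB.LamA
import Vale.Agent.P119.PB.BLW
import Vale.Agent.P119.PB.MainS

/-!
# P119, second events: the law B, composition (`helper778`)

The law A of `n + 1` hits with the roles exchanged (`m` is the exhaust, the sister `β` has `n + 1`
hits, `e` is the last line of the chain of `β`) is the law B with no hit of `m`; with `j` iterates of
the collision operator it is a sum of laws B with `j` hits of `m`.

* `hdA`: the data `(β, p, m)`; `eH`: the birth and the line of `e`;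
* `lintegral_lawA_hd`, `gc_swap_le`, `main_swap_le`.
-/

open MeasureTheory Set Filter Topology Metric ProbabilityTheory
open scoped ENNReal

noncomputable section

namespace Vale.Agent.P119.PB

open M CTree KU FB RB AU FL TL

variable {Φ : E3 → ℝ} {ε b b' t t₂ t' : ℝ} {n : ℕ}

/-- Three-fold Tonelli. -/
theorem swap3 {A B C : Type*} [MeasurableSpace A] [MeasurableSpace B] [MeasurableSpace C]
    {μA : Measure A} {μB : Measure B} {μC : Measure C} [SFinite μA] [SFinite μB] [SFinite μC]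
    {K : A → B → C → ℝ≥0∞} (hK : Measurable fun w : A × B × C => K w.1 w.2.1 w.2.2) :
    ∫⁻ a, ∫⁻ b, ∫⁻ c, K a b c ∂μC ∂μB ∂μA = ∫⁻ b, ∫⁻ c, ∫⁻ a, K a b c ∂μA ∂μC ∂μB := by
  have h1 : Measurable (Function.uncurry fun (a : A) (b : B) => ∫⁻ c, K a b c ∂μC) := by
    have h2 : Measurable fun w : (A × B) × C => K w.1.1 w.1.2 w.2 :=
      hK.comp (measurable_fst.fst.prodMk (measurable_fst.snd.prodMk measurable_snd))
    exact h2.lintegral_prod_right'
  refine (lintegral_lintegral_swap (μ := μA) (ν := μB)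
    (f := fun (a : A) (b : B) => ∫⁻ c, K a b c ∂μC) h1.aemeasurable).trans
    (lintegral_congr fun b => ?_)
  have h3 : Measurable (Function.uncurry fun (a : A) (c : C) => K a b c) :=
    hK.comp (measurable_fst.prodMk (measurable_const.prodMk measurable_snd))
  exact lintegral_lintegral_swap (μ := μA) (ν := μC) (f := fun (a : A) (c : C) => K a b c)
    h3.aemeasurable

/-- The data `(β, p, m)`. -/
def hdA (x : XA (n + 1)) : Ph × (Fin (n + 1) → Ph) × Ph := (x.2.1, x.2.2, x.1)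

theorem measurable_hdA : Measurable (hdA : XA (n + 1) → _) :=
  measurable_snd.fst.prodMk (measurable_snd.snd.prodMk measurable_fst)

/-- The law A with the roles exchanged. -/
theorem lintegral_lawA_hd (S : ℕ → Step) {F : Ph × (Fin (n + 1) → Ph) × Ph → ℝ≥0∞}
    (hF : Measurable F) :
    ∫⁻ x, F (hdA x) ∂(lawA ε b b t t (n + 1) S) =
      ∫⁻ β : Ph, ∫⁻ p : Fin (n + 1) → Ph, ∫⁻ m : Ph, (evH ε t S β p).indicator
        (fun m => (gw b β.2 * FL.wt b ε (n + 1) p) * (muE ε * gw b m.2) * F (β, p, m)) m := by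
  have hF' : Measurable fun x : XA (n + 1) => F (hdA x) := hF.comp measurable_hdA
  have hm : Measurable fun x : XA (n + 1) => wA ε b b t t S x * F (hdA x) :=
    (measurable_wA S).mul hF'
  rw [lintegral_lawA S hF']
  refine (swap3 (K := fun (m β : Ph) (p : Fin (n + 1) → Ph) =>
    wA ε b b t t S (m, β, p) * F (hdA (m, β, p))) hm).trans ?_
  refine lintegral_congr fun β => lintegral_congr fun p => lintegral_congr fun m => ?_
  have e1 : exT ε (m, β) = exT ε (β, m) := exT_swap (β, m)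
  have hiff : (m, β, p) ∈ evA ε t t S ↔ m ∈ evH ε t S β p := by
    constructor
    · rintro ⟨h1, h2, h3⟩
      simp only [e1] at h2 h3
      exact ⟨(meets_swap (m, β)).2 h1, h2, h3⟩
    · rintro ⟨h1, h2, h3⟩
      refine ⟨(meets_swap (β, m)).2 h1, ?_, ?_⟩
      · simp only [e1]; exact h2
      · simp only [e1]; exact h3
  by_cases hx : m ∈ evH ε t S β p
  · rw [indicator_of_mem hx, wA_of (hiff.2 hx)]
    simp only [hdA]
    ring
  · rw [indicator_of_notMem hx, wA_of_not fun h => hx (hiff.1 h), zero_mul]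

/-- **The iterates of the collision operator, after the law A with the roles exchanged.** -/
theorem gc_swap_le (hΦ : IsPotential Φ) (hε : 0 < ε) (hb' : b ≤ b') (j : ℕ) (S : ℕ → Step)
    {H : Ph × (Fin (n + 1) → Ph) × Ph → ℝ → Ph → ℝ≥0∞}
    (hH : Measurable fun q : (Ph × (Fin (n + 1) → Ph) × Ph) × ℝ × Ph => H q.1 q.2.1 q.2.2) :
    ∫⁻ x, Gc hΦ hε.ne' b' t' j (H (hdA x)) (exT ε (x.1, x.2.1)) x.1
        ∂(lawA ε b b t t (n + 1) S) ≤
      ∑ o : Fin j → Fin 3, ∫⁻ x, H (hdB x) (endB ε (stps hΦ hε.ne' o) x).1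
        (endB ε (stps hΦ hε.ne' o) x).2 ∂(lawB ε b t t' n j S (stps hΦ hε.ne' o)) := by
  have hHq : ∀ y, Measurable fun q : ℝ × Ph => H y q.1 q.2 := fun y =>
    hH.comp (measurable_const.prodMk measurable_id : Measurable fun q : ℝ × Ph => (y, q))
  have hop : ∀ o : Fin j → Fin 3, Measurable fun y : Ph × (Fin (n + 1) → Ph) × Ph =>
      opn ε b t' j (stps hΦ hε.ne' o) (H y) (exT ε (y.1, y.2.2)) y.2.2 := fun o =>
    (measurable_opn_param j (stps hΦ hε.ne' o) hH).comp (measurable_id.prodMk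
      ((measurable_exT.comp (measurable_fst.prodMk measurable_snd.snd)).prodMk
        measurable_snd.snd))
  calc ∫⁻ x, Gc hΦ hε.ne' b' t' j (H (hdA x)) (exT ε (x.1, x.2.1)) x.1
        ∂(lawA ε b b t t (n + 1) S)
      ≤ ∫⁻ x : XA (n + 1), ∑ o : Fin j → Fin 3, opn ε b t' j (stps hΦ hε.ne' o) (H (hdA x))
          (exT ε ((hdA x).1, (hdA x).2.2)) (hdA x).2.2 ∂(lawA ε b b t t (n + 1) S) := by
        refine lintegral_mono fun x => ?_
        rw [Gc_eq_opn hΦ hε.ne' b' t' j (hHq _)]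
        have e1 : exT ε (x.1, x.2.1) = exT ε (x.2.1, x.1) := exT_swap (x.2.1, x.1)
        rw [e1]
        exact Finset.sum_le_sum fun o _ => opn_mono_b hb' j _ _ _
    _ = ∑ o : Fin j → Fin 3, ∫⁻ x : XA (n + 1), opn ε b t' j (stps hΦ hε.ne' o) (H (hdA x))
          (exT ε ((hdA x).1, (hdA x).2.2)) (hdA x).2.2 ∂(lawA ε b b t t (n + 1) S) :=
        lintegral_finsetSum _ fun o _ => (hop o).comp measurable_hdA
    _ = _ := by
        refine Finset.sum_congr rfl fun o _ => ?_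
        rw [lintegral_lawA_hd S (hop o), lintegral_lawB_end j (stps hΦ hε.ne' o) hH]

/-! ### The main terms -/

/-- The birth and the line of `e`, the exhaust of the last pair of the chain of `β`. -/
def eH (Φ : E3 → ℝ) (ε : ℝ) (S : ℕ → Step) (h : Ph × (Fin (n + 1) → Ph) × Ph) : ℝ × Ph :=
  (max (sepT Φ ε (lastPair S n h.1 h.2.1)) (hitT ε (lastPair S n h.1 h.2.1)),
    line S (n + 1) h.1 h.2.1)

theorem measurable_eH (hΦ : IsPotential Φ) (S : ℕ → Step) :
    Measurable (eH Φ ε S : Ph × (Fin (n + 1) → Ph) × Ph → ℝ × Ph) := by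
  have h1 : Measurable fun h : Ph × (Fin (n + 1) → Ph) × Ph => lastPair S n h.1 h.2.1 :=
    (measurable_lastPair n S).comp (measurable_fst.prodMk measurable_snd.fst)
  exact (((measurable_sepT hΦ).comp h1).max (measurable_hitT.comp h1)).prodMk
    ((measurable_line (n + 1) S).comp (measurable_fst.prodMk measurable_snd.fst))

section main

variable {L : ℕ} {hΦ : IsPotential Φ} {hε : 0 < ε} {f₀ : Ph → ℝ} {κ η w δ : ℝ}

/-- **The main terms, for one law A with the roles exchanged.** -/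
theorem main_swap_le (h₀ : GoodDatum f₀ κ) (hb' : b ≤ b') {G : Set Src} (hG : MeasurableSet G)
    {a : ℕ → ℝ≥0∞} (S : ℕ → Step) (d : ℕ) (J : ℕ) {x₀ x₁ X Y : ℝ≥0∞}
    (hE : ∀ (j : ℕ) (R : ℕ → Step), ∫⁻ x, ind (srcN d (eH Φ ε S (hdB x)) ∈ G) *
      F6 L hΦ hε f₀ b' a η t w ((srcB ε x).1 + δ) (srcN d (eH Φ ε S (hdB x))) (endB ε R x).1
        (endB ε R x).2 ∂(lawB ε b t t' n j S R) ≤ x₁ * fS x₀ j * X)
    (hY : ∀ (j : ℕ) (R : ℕ → Step), ∫⁻ x, ind (srcN d (eH Φ ε S (hdB x)) ∈ G) *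
      tE6 L hΦ hε f₀ η t (srcN d (eH Φ ε S (hdB x))) ∂(lawB ε b t t' n j S R) ≤
        x₁ * fS x₀ j * Y) :
    ∫⁻ x, ind (srcN d (eH Φ ε S (hdA x)) ∈ G) * ((∑ j ∈ Finset.range J, (∑' n, a n) ^ j *
        Gc hΦ hε.ne' b' t' j (F6 L hΦ hε f₀ b' a η t w (exT ε (x.1, x.2.1) + δ)
          (srcN d (eH Φ ε S (hdA x)))) (exT ε (x.1, x.2.1)) x.1) +
      (∑' n, a n) ^ J * Gc hΦ hε.ne' b' t' J (fun _ _ => tE6 L hΦ hε f₀ η t
        (srcN d (eH Φ ε S (hdA x)))) (exT ε (x.1, x.2.1)) x.1) ∂(lawA ε b b t t (n + 1) S) ≤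
      x₁ * ((∑ j ∈ Finset.range J, fS ((∑' n, a n) * (3 * x₀)) j) * X +
        fS ((∑' n, a n) * (3 * x₀)) J * Y) := by
  set M : ℝ≥0∞ := ∑' n, a n with hM
  have heH := measurable_eH (ε := ε) (n := n) hΦ S
  have hes : Measurable fun y : Ph × (Fin (n + 1) → Ph) × Ph => srcN d (eH Φ ε S y) :=
    (measurable_srcN d).comp heH
  have hGi : Measurable fun y : Ph × (Fin (n + 1) → Ph) × Ph => ind (srcN d (eH Φ ε S y) ∈ G) :=
    measurable_ind (hes hG)
  have hxT : Measurable fun y : Ph × (Fin (n + 1) → Ph) × Ph => exT ε (y.1, y.2.2) :=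
    measurable_exT.comp (measurable_fst.prodMk measurable_snd.snd)
  -- the functions
  set F : Ph × (Fin (n + 1) → Ph) × Ph → ℝ → Ph → ℝ≥0∞ := fun y s l =>
    ind (srcN d (eH Φ ε S y) ∈ G) *
      F6 L hΦ hε f₀ b' a η t w (exT ε (y.1, y.2.2) + δ) (srcN d (eH Φ ε S y)) s l with hF
  set H : Ph × (Fin (n + 1) → Ph) × Ph → ℝ → Ph → ℝ≥0∞ := fun y _ _ =>
    ind (srcN d (eH Φ ε S y) ∈ G) * tE6 L hΦ hε f₀ η t (srcN d (eH Φ ε S y)) with hH
  have hF6 : Measurable fun q : (Ph × (Fin (n + 1) → Ph) × Ph) × ℝ × Ph =>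
      F6 L hΦ hε f₀ b' a η t w (exT ε (q.1.1, q.1.2.2) + δ) (srcN d (eH Φ ε S q.1))
        q.2.1 q.2.2 := by
    have h1 := measurable_F6₂ (L := L) (hΦ := hΦ) (hε := hε) (b := b') (η := η) (t := t) (w := w)
      h₀ (a := a) (u := fun p : Src × Src => p.2.1) measurable_snd.fst
    exact h1.comp (g := fun q : (Src × Src) × ℝ × Ph =>
      F6 L hΦ hε f₀ b' a η t w q.1.2.1 q.1.1 q.2.1 q.2.2)
      (f := fun q : (Ph × (Fin (n + 1) → Ph) × Ph) × ℝ × Ph =>
        (((srcN d (eH Φ ε S q.1), (exT ε (q.1.1, q.1.2.2) + δ, q.1.1, 0)) : Src × Src), q.2))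
      (((hes.comp measurable_fst).prodMk (((hxT.comp measurable_fst).add_const δ).prodMk
        (measurable_fst.fst.prodMk measurable_const))).prodMk measurable_snd)
  have hFm : Measurable fun q : (Ph × (Fin (n + 1) → Ph) × Ph) × ℝ × Ph => F q.1 q.2.1 q.2.2 :=
    (hGi.comp measurable_fst).mul hF6
  have hHm : Measurable fun q : (Ph × (Fin (n + 1) → Ph) × Ph) × ℝ × Ph => H q.1 q.2.1 q.2.2 :=
    (hGi.comp measurable_fst).mul (((measurable_tE6' h₀).comp hes).comp measurable_fst)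
  have hF6q : ∀ (u : ℝ) (e : Src), Measurable fun q : ℝ × Ph =>
      F6 L hΦ hε f₀ b' a η t w u e q.1 q.2 := fun u e => measurable_F6 h₀
  have e1 : ∀ x : XA (n + 1), exT ε (x.1, x.2.1) = exT ε ((hdA x).1, (hdA x).2.2) := fun x =>
    exT_swap (x.2.1, x.1)
  have eF : ∀ j (x : XA (n + 1)), ind (srcN d (eH Φ ε S (hdA x)) ∈ G) * (M ^ j *
      Gc hΦ hε.ne' b' t' j (F6 L hΦ hε f₀ b' a η t w (exT ε (x.1, x.2.1) + δ)
        (srcN d (eH Φ ε S (hdA x)))) (exT ε (x.1, x.2.1)) x.1) =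
      M ^ j * Gc hΦ hε.ne' b' t' j (F (hdA x)) (exT ε (x.1, x.2.1)) x.1 := by
    intro j x
    rw [hF]
    simp only [← e1]
    rw [Gc_const_mul hΦ hε.ne' b' t' j _ (hF6q _ _)]
    ring
  have eH' : ∀ x : XA (n + 1), ind (srcN d (eH Φ ε S (hdA x)) ∈ G) * (M ^ J *
      Gc hΦ hε.ne' b' t' J (fun _ _ => tE6 L hΦ hε f₀ η t (srcN d (eH Φ ε S (hdA x))))
        (exT ε (x.1, x.2.1)) x.1) =
      M ^ J * Gc hΦ hε.ne' b' t' J (H (hdA x)) (exT ε (x.1, x.2.1)) x.1 := by
    intro x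
    rw [hH]
    simp only
    rw [Gc_const_mul hΦ hε.ne' b' t' J (ind (srcN d (eH Φ ε S (hdA x)) ∈ G))
      (F := fun _ _ => tE6 L hΦ hε f₀ η t (srcN d (eH Φ ε S (hdA x)))) measurable_const]
    ring
  have hGF : ∀ (j : ℕ) {K : Ph × (Fin (n + 1) → Ph) × Ph → ℝ → Ph → ℝ≥0∞},
      (Measurable fun q : (Ph × (Fin (n + 1) → Ph) × Ph) × ℝ × Ph => K q.1 q.2.1 q.2.2) →
      Measurable fun x : XA (n + 1) =>
      Gc hΦ hε.ne' b' t' j (K (hdA x)) (exT ε (x.1, x.2.1)) x.1 := fun j K hK =>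
    (measurable_Gc_param hΦ hε.ne' b' t' j (X := Ph × (Fin (n + 1) → Ph) × Ph) (F := K) hK).comp
      (measurable_hdA.prodMk (measurable_exA.prodMk measurable_fst))
  have c3 : ∀ (j : ℕ) (Z : ℝ≥0∞), ∑ _o : Fin j → Fin 3, x₁ * fS x₀ j * Z =
      x₁ * (fS (3 * x₀) j * Z) := by
    intro j Z
    rw [Finset.sum_const, nsmul_eq_mul, Finset.card_univ, Fintype.card_fun, Fintype.card_fin,
      Fintype.card_fin]
    push_cast
    rw [← mul_fS]
    ring
  have bF : ∀ j, ∫⁻ x, Gc hΦ hε.ne' b' t' j (F (hdA x)) (exT ε (x.1, x.2.1)) x.1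
      ∂(lawA ε b b t t (n + 1) S) ≤ x₁ * (fS (3 * x₀) j * X) := fun j =>
    (gc_swap_le hΦ hε hb' j S hFm).trans ((Finset.sum_le_sum fun o _ => hE j _).trans
      (c3 j X).le)
  have bH : ∫⁻ x, Gc hΦ hε.ne' b' t' J (H (hdA x)) (exT ε (x.1, x.2.1)) x.1
      ∂(lawA ε b b t t (n + 1) S) ≤ x₁ * (fS (3 * x₀) J * Y) :=
    (gc_swap_le hΦ hε hb' J S hHm).trans ((Finset.sum_le_sum fun o _ => hY J _).trans
      (c3 J Y).le)
  calc _ = ∫⁻ x, ((∑ j ∈ Finset.range J, M ^ j * Gc hΦ hε.ne' b' t' j (F (hdA x))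
          (exT ε (x.1, x.2.1)) x.1) +
        M ^ J * Gc hΦ hε.ne' b' t' J (H (hdA x)) (exT ε (x.1, x.2.1)) x.1)
          ∂(lawA ε b b t t (n + 1) S) := by
        refine lintegral_congr fun x => ?_
        rw [mul_add, Finset.mul_sum, eH']
        congr 1
        exact Finset.sum_congr rfl fun j _ => eF j x
    _ = (∑ j ∈ Finset.range J, M ^ j * ∫⁻ x, Gc hΦ hε.ne' b' t' j (F (hdA x))
          (exT ε (x.1, x.2.1)) x.1 ∂(lawA ε b b t t (n + 1) S)) +
        ∫⁻ x, M ^ J * Gc hΦ hε.ne' b' t' J (H (hdA x)) (exT ε (x.1, x.2.1)) x.1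
          ∂(lawA ε b b t t (n + 1) S) := by
        rw [lintegral_add_left (Finset.measurable_sum _ fun j _ => (hGF j hFm).const_mul _),
          lintegral_finsetSum _ fun j _ => (hGF j hFm).const_mul _]
        congr 1
        exact Finset.sum_congr rfl fun j _ => lintegral_const_mul _ (hGF j hFm)
    _ ≤ (∑ j ∈ Finset.range J, M ^ j * (x₁ * (fS (3 * x₀) j * X))) +
        M ^ J * (x₁ * (fS (3 * x₀) J * Y)) := by
        refine add_le_add (Finset.sum_le_sum fun j _ => mul_le_mul' le_rfl (bF j)) ?_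
        rw [lintegral_const_mul _ (hGF J hHm)]
        exact mul_le_mul' le_rfl bH
    _ = _ := by
        rw [mul_add, Finset.sum_mul, Finset.mul_sum]
        congr 1
        · refine Finset.sum_congr rfl fun j _ => ?_
          rw [← mul_fS M (3 * x₀)]
          ring
        · rw [← mul_fS M (3 * x₀)]
          ring

end main

end Vale.Agent.P119.PB
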