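import Vale.Agent.P119.PB.BLA2
import Vale.Agent.P119.PB.CompB

/-!
# P119, block PROB: the sources of the second events for a bounded elementary law (`helper778`)

* `BL.s6`: the terms `S6`;
* `lintegral_lawB_lp`, `lawB_opP`: the pair operator after the law B.
-/

open MeasureTheory Set Filter Topology Metric ProbabilityTheory
open scoped ENNReal NNReal

noncomputable section

namespace Vale.Agent.P119.PB

open KU M M.CTree FL FB RB EN AU

variable {Φ : E3 → ℝ} {ε : ℝ} {L : ℕ} {hΦ : IsPotential Φ} {hε : 0 < ε}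
  {η η' t t₁ t₂ δ w b : ℝ} {c : GC.Conf Ph} {d n k : ℕ} {G : Set (ℝ × Ph)}

section s6

variable {Ω : Type} [MeasurableSpace Ω] {ν : Measure Ω} {E : Set Ω} {β : ℝ} {Cm Cl Cy : ℝ≥0∞}
  {eS : Ω → ℝ × Ph} {u tl : Ω → ℝ} {l : Ω → Ph}

/-- **The terms of order zero.** -/
theorem BL.s6 (H : BL ν E ε t t₁ δ β eS u tl (lineX l) Cm Cl Cy) (hl : Measurable l) {B : ℝ}
    (hB : RW.StableWith Φ B) (hc : c.2 ∈ excl ε c.1) (hη : 0 < η) (hηη : η ≤ η') (ht : 0 ≤ t)
    (ht₁ : t < t₁) (hG : MeasurableSet G) :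
    ∫⁻ x, ind (eS x ∈ gP G) * S6 L hΦ hε η t w (u x) (wS (GC.pts c)) (srcN d (eS x))
      (srcL tl l x) ∂ν ≤
      2 * Cm * srcS β t (gTd L hΦ hε η t δ c d G) +
      Cm * srcS β t (gRL L hΦ hε η (η' - η) t c d G) +
      Cy * (ENNReal.ofReal (ε ^ 2) * (yE L hΦ hε η' t δ c + yF L hΦ hε η t δ c)) +
      2 * Cl * (ENNReal.ofReal (ε ^ 2) * cWE B t ε η c) *
        srcS β t (gTE L hΦ hε η t c d G) := by
  have hN := measurable_srcN d
  have hg : MeasurableSet {x : Ω | eS x ∈ gP G} := H.em (measurableSet_gP hG)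
  have hm := measurable_srcL H.tm hl
  have h1 := H.dirG (w := w) (n := d) (L := L) (hΦ := hΦ) (hε := hε) hB hc hη hηη ht ht₁ hG
  have h2 := H.felL (n := d) (L := L) (hΦ := hΦ) (hε := hε) hl hB hc hη ht ht₁ hG
  have h3 := H.teu (c := c) (n := d) (L := L) (hΦ := hΦ) (hε := hε) hl hη ht hG
  have h4 := H.felS (c := c) (n := d) (L := L) (hΦ := hΦ) (hε := hε) hl hη ht ht₁ hG
  have m1 := hg.inter (measurableSet_DirG (w := fun _ => w) (L := L) (hΦ := hΦ) (hε := hε)
    (rs_const c) (measurable_const (a := η)) (measurable_const (a := t)) measurable_const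
    (hN.comp H.em) hm)
  have m2 := hg.inter (measurableSet_FelL (L := L) (hΦ := hΦ) (hε := hε)
    (rs_const c) (measurable_const (a := η)) (measurable_const (a := t)) H.um (hN.comp H.em) hm)
  have m3 := hg.inter (measurableSet_TEu (L := L) (hΦ := hΦ) (hε := hε)
    (rs_const c) (measurable_const (a := η)) (measurable_const (a := t)) H.um (hN.comp H.em) hm)
  have m4 := hg.inter (measurableSet_FelS (L := L) (hΦ := hΦ) (hε := hε)
    (rs_const c) (measurable_const (a := η)) (measurable_const (a := t)) H.um (hN.comp H.em) hm)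
  have e0 : ∀ x : Ω, ind (eS x ∈ gP G) * S6 L hΦ hε η t w (u x)
      (wS (GC.pts c)) (srcN d (eS x)) (srcL tl l x) =
      ind (eS x ∈ gP G ∧ DirG L hΦ hε η t w (wS (GC.pts c)) (srcN d (eS x)) (srcL tl l x)) +
      ind (eS x ∈ gP G ∧ FelL L hΦ hε η t (u x) (wS (GC.pts c)) (srcN d (eS x))
        (srcL tl l x)) +
      ind (eS x ∈ gP G ∧ TEu L hΦ hε η t (u x) (wS (GC.pts c)) (srcN d (eS x))
        (srcL tl l x)) +
      ind (eS x ∈ gP G ∧ FelS L hΦ hε η t (u x) (wS (GC.pts c)) (srcN d (eS x))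
        (srcL tl l x)) := by
    intro x
    rw [ind_and, ind_and, ind_and, ind_and]
    unfold S6
    ring
  simp only [e0]
  refine (lint_ind4 (ν := ν) m1 m2 m3 m4).le.trans ?_
  refine (add_le_add (add_le_add (add_le_add h1 h2) h3) h4).trans (le_of_eq ?_)
  unfold yE yF
  ring

end s6

/-! ### The pair operator after the law B -/

variable {S S' R : ℕ → Step}

/-- The last pair of the chain of `m`. -/
def lpM (R : ℕ → Step) (x : XB n (k + 1)) : Ph × Ph := lastPair R k x.2.2.1 x.2.2.2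

theorem measurable_lpM (R : ℕ → Step) : Measurable (lpM R : XB n (k + 1) → Ph × Ph) :=
  (measurable_lastPair k R).comp (measurable_snd.snd.fst.prodMk measurable_snd.snd.snd)

/-- The law B, for functions of the last pair of the chain of `m`. -/
theorem lintegral_lawB_lp (R : ℕ → Step)
    {K : Ph × (Fin (n + 1) → Ph) × Ph → Ph × Ph → ℝ≥0∞}
    (hK : Measurable fun q : (Ph × (Fin (n + 1) → Ph) × Ph) × (Ph × Ph) => K q.1 q.2) :
    ∫⁻ x, K (hdB x) (lpM R x) ∂(lawB ε b t t₂ n (k + 1) S R) =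
      ∫⁻ β : Ph, ∫⁻ p : Fin (n + 1) → Ph, ∫⁻ m : Ph, (evH ε t S β p).indicator
        (fun m => (gw b β.2 * FL.wt b ε (n + 1) p) * (muE ε * gw b m.2) *
          inner' ε b t₂ R k (K (β, p, m)) (exT ε (β, m)) m) m := by
  have hGm : Measurable fun x : XB n (k + 1) => K (hdB x) (lpM R x) :=
    hK.comp (measurable_hdB.prodMk (measurable_lpM R))
  rw [lintegral_lawB S R hGm]
  refine lintegral_congr fun β => lintegral_congr fun p => lintegral_congr fun m => ?_
  by_cases hm : m ∈ evH ε t S β p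
  · have hKq : Measurable (K (β, p, m)) :=
      hK.comp (measurable_const.prodMk measurable_id : Measurable fun q : Ph × Ph =>
        (((β, p, m) : Ph × (Fin (n + 1) → Ph) × Ph), q))
    rw [indicator_of_mem hm, inner_def, ← lintegral_const_mul _ (measurable_innI k R hKq _ _)]
    refine lintegral_congr fun p' => ?_
    unfold inB
    by_cases hc : Chain ε t₂ R (k + 1) (exT ε (β, m)) m p'
    · rw [wLB_of (show (β, p, m, p') ∈ evB ε t t₂ S R from ⟨hm.1, hm.2.1, hm.2.2, hc⟩),
        innI_of hc]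
      simp only [hdB, lpM]
      ring
    · rw [wLB_of_not (show (β, p, m, p') ∉ evB ε t t₂ S R from fun h => hc h.2.2.2),
        innI_of_not hc, zero_mul, mul_zero]
  · rw [indicator_of_notMem hm]
    refine (lintegral_congr fun p' => ?_).trans lintegral_zero
    unfold inB
    rw [wLB_of_not (show (β, p, m, p') ∉ evB ε t t₂ S R from fun h => hm ⟨h.1, h.2.1, h.2.2.1⟩),
      zero_mul]

/-- **The pair operator after the law B.** -/
theorem lawB_opP (S R : ℕ → Step) {K : Ph × (Fin (n + 1) → Ph) × Ph → Ph × Ph → ℝ≥0∞}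
    (hK : Measurable fun q : (Ph × (Fin (n + 1) → Ph) × Ph) × (Ph × Ph) => K q.1 q.2) :
    ∫⁻ x, opP ε b t₂ (K (hdB x)) (endB ε R x).1 (endB ε R x).2 ∂(lawB ε b t t₂ n k S R) =
      ∫⁻ x, K (hdB x) (lpM R x) ∂(lawB ε b t t₂ n (k + 1) S R) := by
  rw [lintegral_lawB_lp R hK, lintegral_lawB_end k R (G := fun a s l => opP ε b t₂ (K a) s l)
    (measurable_opP_param hK)]
  refine lintegral_congr fun β => lintegral_congr fun p => lintegral_congr fun m => ?_
  have hKq : Measurable (K (β, p, m)) :=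
    hK.comp (measurable_const.prodMk measurable_id : Measurable fun q : Ph × Ph =>
      (((β, p, m) : Ph × (Fin (n + 1) → Ph) × Ph), q))
  by_cases hm : m ∈ evH ε t S β p
  · rw [indicator_of_mem hm, indicator_of_mem hm]
    exact congrArg _ (opn_opP k R hKq _ _)
  · rw [indicator_of_notMem hm, indicator_of_notMem hm]

end Vale.Agent.P119.PB
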