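import Vale.Agent.P119.PB.BLB
import Vale.Agent.P119.PB.CompB

/-!
# P119, block PROB: the law B is a bounded elementary law, with the source `eH` (`helper76`)

The instances of `BLB` with `e = eH Φ ε S (hdB x)`, `S = outS hΦ hε.ne' (n + 1) o`.
-/

open MeasureTheory Set Filter Topology Metric ProbabilityTheory
open scoped ENNReal NNReal

noncomputable section

namespace Vale.Agent.P119.PB

open KU M M.CTree FL FB RB EN AU

variable {Φ : E3 → ℝ} {ε b t t₂ t₁ δ : ℝ} {n j : ℕ} {S' : ℕ → Step}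

theorem eBH_eq (S : ℕ → Step) (x : XB n j) : eB (exq Φ ε (S n)) S x = eH Φ ε S (hdB x) :=
  eB_exq S x

theorem eB_fun_eq_eH (S : ℕ → Step) :
    (eB (exq Φ ε (S n)) S : XB n j → ℝ × Ph) = fun x => eH Φ ε S (hdB x) :=
  funext fun x => eB_exq S x

/-- From the last pair to the source which it creates, for the steps of the spine. -/
theorem pairG_exq_le (hΦ : IsPotential Φ) (hε : 0 < ε) (hb : 0 < b) {m : ℕ} (o : Fin m → Bool)
    (k : ℕ) {g : ℝ × Ph → ℝ≥0∞} (hg : Measurable g) (hgt : ∀ y, t < y.1 → g y = 0) (C : ℝ≥0∞) :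
    pairG ε (b / 4) 0 t (fun q => C * g (max (sepT Φ ε q) (hitT ε q),
        (outS hΦ hε.ne' m o k).f q)) ≤
      ENNReal.ofReal (KG (b / 4)) * (C * srcJ (b / 8) t g) := by
  refine le_trans (le_of_eq ?_) ((exh_outS hΦ hε m o k).pair_le (t := t) hb hg C)
  congr 1
  funext q
  by_cases h : (exq Φ ε (outS hΦ hε.ne' m o k) q).1 ≤ t
  · rw [ofP_of h]
    rfl
  · rw [ofP_of_not h]
    have h2 : g (max (sepT Φ ε q) (hitT ε q), (outS hΦ hε.ne' m o k).f q) = 0 :=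
      hgt _ (not_le.1 h)
    rw [h2]

theorem outS_last (hΦ : IsPotential Φ) (hε : ε ≠ 0) : ∀ (n : ℕ) (o : Fin (n + 1) → Bool),
    outS hΦ hε (n + 1) o n = outB hΦ hε (o (Fin.last n))
  | 0, _ => rfl
  | n + 1, o => outS_last hΦ hε n fun i => o i.succ

/-- From the last pair to the source which it creates. -/
theorem pairG_eH_le (hΦ : IsPotential Φ) (hε : 0 < ε) (hb : 0 < b) (o : Fin (n + 1) → Bool)
    {g : ℝ × Ph → ℝ≥0∞} (hg : Measurable g) (hgt : ∀ y, t < y.1 → g y = 0) (C : ℝ≥0∞) :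
    pairG ε (b / 4) 0 t (fun q => C * g (max (sepT Φ ε q) (hitT ε q),
        (outB hΦ hε.ne' (o (Fin.last n))).f q)) ≤
      C * (ENNReal.ofReal (KG (b / 4)) * srcJ (b / 8) t g) := by
  have h1 := pairG_exq_le (t := t) hΦ hε hb o n hg hgt C
  rw [outS_last hΦ hε.ne' n o] at h1
  refine h1.trans (le_of_eq ?_)
  ring

/-- **The law B, last line.** -/
theorem BL_lineH (hΦ : IsPotential Φ) (hε : 0 < ε) (hb : 0 < b) (hδ : 0 < δ) (ht : 0 ≤ t)
    (ht₁ : t ≤ t₁) (ht₂ : t ≤ t₂) (o : Fin (n + 1) → Bool) :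
    BL (lawB ε b t t₂ n j (outS hΦ hε.ne' (n + 1) o) S')
      (evB ε t t₂ (outS hΦ hε.ne' (n + 1) o) S') ε t t₁ δ (b / 8)
      (fun x => eH Φ ε (outS hΦ hε.ne' (n + 1) o) (hdB x))
      (fun x => (srcB ε x).1 + δ) (fun x => (endB ε S' x).1)
      (lineX fun x : XB n j => (endB ε S' x).2)
      (CmB b t t₂ n j) (ClB b t 1 δ t₁ n j) (CyB b t 1 t₁ n j) := by
  have h1 := BL_lineB (n := n) (j := j) (S' := S') (S := outS hΦ hε.ne' (n + 1) o) hε hb hδ ht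
    ht₁ ht₂ (revStep_outS hΦ hε (n + 1) o) (exh_outS hΦ hε (n + 1) o n)
  rwa [eB_fun_eq_eH] at h1

/-- **The law B, first particle of the last pair.** -/
theorem BL_pairH1 (hΦ : IsPotential Φ) (hε : 0 < ε) (hb : 0 < b) (hδ : 0 < δ)
    (ht₁ : t ≤ t₁) (ht₂ : t ≤ t₂) (o : Fin (n + 1) → Bool) :
    BL (lawB ε b t t₂ n (j + 1) (outS hΦ hε.ne' (n + 1) o) S')
      (evB ε t t₂ (outS hΦ hε.ne' (n + 1) o) S') ε t t₁ δ (b / 8)
      (fun x => eH Φ ε (outS hΦ hε.ne' (n + 1) o) (hdB x))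
      (fun x => (srcB ε x).1 + δ) (fun x => (endB ε S' x).1)
      (fun x τ => (pairLine Φ ε (lqB S' x) τ).1.1)
      (CmB b t t₂ n (j + 1)) (ClB b t (cS hΦ) δ t₁ n (j + 1))
      (CyB b t (cS hΦ) t₁ n (j + 1)) := by
  have h1 := BL_pairB1 (n := n) (j := j) (S' := S') (S := outS hΦ hε.ne' (n + 1) o) hΦ hε hb hδ
    ht₁ ht₂ (revStep_outS hΦ hε (n + 1) o) (exh_outS hΦ hε (n + 1) o n)
  rwa [eB_fun_eq_eH] at h1

/-- **The law B, second particle of the last pair.** -/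
theorem BL_pairH2 (hΦ : IsPotential Φ) (hε : 0 < ε) (hb : 0 < b) (hδ : 0 < δ)
    (ht₁ : t ≤ t₁) (ht₂ : t ≤ t₂) (o : Fin (n + 1) → Bool) :
    BL (lawB ε b t t₂ n (j + 1) (outS hΦ hε.ne' (n + 1) o) S')
      (evB ε t t₂ (outS hΦ hε.ne' (n + 1) o) S') ε t t₁ δ (b / 8)
      (fun x => eH Φ ε (outS hΦ hε.ne' (n + 1) o) (hdB x))
      (fun x => (srcB ε x).1 + δ) (fun x => (endB ε S' x).1)
      (fun x τ => (pairLine Φ ε (lqB S' x) τ).2.1)
      (CmB b t t₂ n (j + 1)) (ClB b t (cS hΦ) δ t₁ n (j + 1))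
      (CyB b t (cS hΦ) t₁ n (j + 1)) := by
  have h1 := BL_pairB2 (n := n) (j := j) (S' := S') (S := outS hΦ hε.ne' (n + 1) o) hΦ hε hb hδ
    ht₁ ht₂ (revStep_outS hΦ hε (n + 1) o) (exh_outS hΦ hε (n + 1) o n)
  rwa [eB_fun_eq_eH] at h1

end Vale.Agent.P119.PB
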