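import Vale.Agent.P119.PB.BLA3
import Vale.Agent.P119.PB.LamF

/-!
# P119, block PROB: contact of the last pair of a chain with an exposed label (`helper860`)

* `PairC_swap`, `pI_swap`: the symmetry;
* `pair_A`: the last pair of the law A is in contact with an exposed label, fixed world;
* `pair_AE`: the same in the mean.
-/

open MeasureTheory Set Filter Topology Metric ProbabilityTheory
open scoped ENNReal NNReal

noncomputable section

namespace Vale.Agent.P119.PB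

open KU M M.CTree FL FB RB EN AU

variable {Φ : E3 → ℝ} {ε : ℝ} {L : ℕ} {hΦ : IsPotential Φ} {hε : 0 < ε} {f₀ : Ph → ℝ}
  {κ bE b b' η η' t t₂ t₁ t' δ w c₁ : ℝ} {c : GC.Conf Ph} {n d : ℕ} {G : Set (ℝ × Ph)}
  {N : ℕ} {S R : ℕ → Step}

/-- The two lines of a pair play the same role. -/
theorem PairC_swap {U : Finset Src} {z l : Ph} {k k' : ℕ}
    (h : PairC L hΦ hε η t w U (0, z, k) l) : PairC L hΦ hε η t w U (0, l, k') z := by
  obtain ⟨h1, h2, r, h3, h4, h5⟩ := h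
  have e1 : hitT ε (l, z) = hitT ε (z, l) := hitT_swap (z, l)
  have e2 : pairLine Φ ε (l, z) r = (pairLine Φ ε (z, l) r).swap := pairLine_swap hΦ (z, l) r
  refine ⟨(meets_swap (z, l)).2 h1, ?_, r, ?_, h4, ?_⟩
  · change (0 : ℝ) < hitT ε (l, z)
    rw [e1]; exact h2
  · change hitT ε (l, z) ≤ r
    rw [e1]; exact h3
  · change CC L hΦ hε U r (pairLine Φ ε (l, z) r).1.1 ∨ CC L hΦ hε U r (pairLine Φ ε (l, z) r).2.1
    rw [e2]
    exact h5.symm

theorem pI_swap {V : Finset Src} {e : Src} {z l : Ph} {k k' : ℕ} :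
    pI L hΦ hε η t w V e (0, z, k) l ≤ pI L hΦ hε η t w V e (0, l, k') z :=
  ind_mono fun h => ⟨h.1, PairC_swap h.2⟩

/-- The last pair. -/
theorem measurableSet_pairA (hG : MeasurableSet G) :
    MeasurableSet {p : GC.Conf Ph × XA (N + 1) | srcA ε p.2 ∈ gP G ∧
      PairG L hΦ hε η t w (wS (GC.pts p.1)) (srcN n (srcA ε p.2)) (0, (lpA S p.2).1, 0)
        (lpA S p.2).2} := by
  have hsnd : Measurable fun p : GC.Conf Ph × XA (N + 1) => p.2 := measurable_snd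
  have hlp : Measurable fun p : GC.Conf Ph × XA (N + 1) => lpA S p.2 :=
    (measurable_lpA (N := N) S).comp hsnd
  have hs : Measurable fun p : GC.Conf Ph × XA (N + 1) => srcA ε p.2 :=
    (measurable_srcA (ε := ε) (N := N + 1)).comp hsnd
  exact (hs (measurableSet_gP hG)).inter
    (measurableSet_PairG (w := fun _ => w) (RM.rs_wS measurable_fst) (measurable_const (a := η))
      (measurable_const (a := t)) measurable_const ((measurable_srcN n).comp hs)
      (measurable_const.prodMk (hlp.fst.prodMk measurable_const)) hlp.snd)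

/-- **The last pair is in contact with an exposed label**, fixed world. -/
theorem pair_A {B : ℝ} (hB : RW.StableWith Φ B) (hb : 0 < b) (hbE : b ≤ bE)
    (hδ : 0 < δ) (hc : c.2 ∈ excl ε c.1) (hη : 0 < η) (hηη : η ≤ η')
    (ht : 0 ≤ t) (htt : t < t') (hG : MeasurableSet G) :
    ∫⁻ x, ind (srcA ε x ∈ gP G ∧ PairG L hΦ hε η t w (wS (GC.pts c)) (srcN n (srcA ε x))
      (0, (lpA S x).1, 0) (lpA S x).2) ∂(lawA ε bE b t t' (N + 1) S) ≤
      fS (xA b t') N * (KA hΦ bE b t' 1 * (bk1 L hΦ hε (bE / 2) t δ η η' c n G +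
        ENNReal.ofReal (1 / δ ^ 3) * bk2 L hΦ hε B (bE / 2) t η c n G)) := by
  have ht' : 0 ≤ t' := ht.trans htt.le
  have hm : MeasurableSet {x : XA (N + 1) | srcA ε x ∈ gP G ∧
      PairG L hΦ hε η t w (wS (GC.pts c)) (srcN n (srcA ε x)) (0, (lpA S x).1, 0)
        (lpA S x).2} :=
    (measurable_const.prodMk measurable_id : Measurable fun x : XA (N + 1) => (c, x))
      (measurableSet_pairA hG)
  refine (lint_ind (ν := lawA ε bE b t t' (N + 1) S) hm).le.trans ?_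
  have H1 := BL_pairA1 (N := N) (S := S) hΦ hε hb hbE hδ htt.le htt.le
  have H2 := BL_pairA2 (N := N) (S := S) hΦ hε hb hbE hδ htt.le htt.le
  refine (H1.pairG (s := fun _ => (0 : ℝ)) (q := lpA S) (w := w) (n := n) (L := L) (hΦ := hΦ)
    (hε := hε) H2 (fun _ _ => rfl) (fun _ _ => rfl)
    (fun x => time_lastPair N S (exT ε (x.1, x.2.1)) x.2.1 x.2.2) hB hc hη hηη ht htt hG).trans ?_
  set A1 := srcS (bE / 2) t (gTd L hΦ hε η t δ c n G)
  set A2 := srcS (bE / 2) t (gRL L hΦ hε η (η' - η) t c n G)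
  set A3 := srcS (bE / 2) t (gTE L hΦ hε η t c n G)
  set E2 := ENNReal.ofReal (ε ^ 2)
  set W := cWE B t ε η c
  set F := fS (xA b t') N
  set K := KA hΦ bE b t' 1
  set D := ENNReal.ofReal (1 / δ ^ 3)
  have c1 : 2 * CmA bE b t' (N + 1) ≤ F * K := by
    refine le_trans ?_ (coef_m (M := 1) (hΦ := hΦ) ht')
    rw [one_mul]
    exact le_add_self
  have c2 : 2 * CyA b t (cS hΦ) t' (N + 1) ≤ F * K := by
    refine le_trans ?_ (coef_y (M := 1) (hΦ := hΦ) (bE := bE) (t := t) ht')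
    rw [one_mul]
    exact le_add_self
  have c3 : 2 * ClA bE b (cS hΦ) δ t' (N + 1) ≤ F * (K * D) := by
    refine le_trans ?_ (coef_l (M := 1) (hΦ := hΦ) hδ ht')
    rw [one_mul]
    exact le_add_self
  have hb1 : bk1 L hΦ hε (bE / 2) t δ η η' c n G =
      A1 + A2 + ENNReal.ofReal δ * A3 + E2 * (yE L hΦ hε η' t δ c + yF L hΦ hε η t δ c) := rfl
  have hb2 : bk2 L hΦ hε B (bE / 2) t η c n G = E2 * W * A3 := rfl
  rw [hb1, hb2]
  calc _ = (2 * CmA bE b t' (N + 1)) * A1 + (2 * CmA bE b t' (N + 1)) * A2 +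
        (2 * CyA b t (cS hΦ) t' (N + 1)) * (E2 * yE L hΦ hε η' t δ c) +
        (2 * ClA bE b (cS hΦ) δ t' (N + 1)) * (E2 * W * A3) := by
        unfold yE
        ring
    _ ≤ (F * K) * A1 + (F * K) * A2 + (F * K) * (E2 * yE L hΦ hε η' t δ c) +
        (F * (K * D)) * (E2 * W * A3) := by
        gcongr
    _ ≤ (F * K) * A1 + (F * K) * A2 + (F * K) * (E2 * yE L hΦ hε η' t δ c) +
        (F * (K * D)) * (E2 * W * A3) +
        (F * K * (ENNReal.ofReal δ * A3) + F * K * (E2 * yF L hΦ hε η t δ c)) := le_self_add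
    _ = _ := by ring

open Classical in
/-- **The last pair is in contact with an exposed label**, in the mean. -/
theorem pair_AE {B Tm : ℝ} {δ₁ : ℝ≥0∞} (h₀ : GoodDatum f₀ κ)
    (hB : RW.StableWith Φ B) (hb : 0 < b) (hbE : b ≤ bE)
    (hδ : 0 < δ) (hd1 : δ ≤ 1) (hη : 0 < η) (hηη : η ≤ η') (ht : 0 ≤ t) (htm : t ≤ Tm)
    (htt : t < t') (hw : t ≤ w) (hδ₁ : δ₁ ≤ 2⁻¹)
    {H : Set Src} (hH : MeasurableSet H) (hn : n ≤ L)
    (hG : ∀ e ∈ H, 0 < e.1 → ∫⁻ c, ind (TE L hΦ hε η t (wS (GC.pts c)) e ∧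
      ENNReal.ofReal ((η' - η) * mu ε) < relW L hΦ hε (insert e (wS (GC.pts c)))
        (wS (GC.pts c)) t) ∂(GC.PP f₀ ε) ≤ δ₁ * tE6 L hΦ hε f₀ η t e) :
    ∫⁻ c, ∫⁻ x, ind (srcA ε x ∈ gP (slc H n) ∧ PairG L hΦ hε η t w (wS (GC.pts c))
      (srcN n (srcA ε x)) (0, (lpA S x).1, 0) (lpA S x).2) ∂(lawA ε bE b t t' (N + 1) S)
        ∂(GC.PP f₀ ε) ≤
      fS (xA b t') N * (KA hΦ bE b t' 1 *
        EbA L hΦ hε f₀ B Tm (bE / 2) t δ η η' w δ₁ n) := by
  have hGO : GOk L hΦ hε f₀ η η' t n (slc H n) δ₁ := fun y hy hy0 => hG _ hy hy0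
  have hGm := measurableSet_slc hH n
  have h1 : ∀ᵐ c ∂(GC.PP f₀ ε), ∫⁻ x, ind (srcA ε x ∈ gP (slc H n) ∧
      PairG L hΦ hε η t w (wS (GC.pts c)) (srcN n (srcA ε x)) (0, (lpA S x).1, 0) (lpA S x).2)
        ∂(lawA ε bE b t t' (N + 1) S) ≤
      fS (xA b t') N * (KA hΦ bE b t' 1 * (bk1 L hΦ hε (bE / 2) t δ η η' c n (slc H n) +
        ENNReal.ofReal (1 / δ ^ 3) * bk2 L hΦ hε B (bE / 2) t η c n (slc H n))) := by
    filter_upwards [GC.ae_excl f₀ ε] with c hc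
    exact pair_A hB hb hbE hδ hc hη hηη ht htt hGm
  refine (lintegral_mono_ae h1).trans ?_
  rw [lintegral_const_mul' _ _ (fS_ne_top (xA_ne_top b t') N),
    lintegral_const_mul' _ _ (KA_ne_top hb ENNReal.one_ne_top),
    lintegral_add_right _ ((measurable_bk2 hGm).const_mul _),
    lintegral_const_mul' _ _ ENNReal.ofReal_ne_top]
  refine mul_le_mul' le_rfl (mul_le_mul' le_rfl (add_le_add ?_ (mul_le_mul' le_rfl ?_)))
  · exact E_bk1 h₀ hB hn hη hηη ht htm hw hδ hd1 hδ₁ hGm hGO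
  · exact E_bk2 h₀ hn hη hηη ht hw hδ₁ hGm hGO

end Vale.Agent.P119.PB
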