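import Vale.Agent.P119.PB.SE10
import Vale.Agent.P119.PB.Op9

/-!
# P119, block PROB: the sizes of the targets in short windows (`helper347`)

`yW` (`PB/SE10.lean`, `helper778`) of the targets of the exposed labels and of the felt trees of a
world whose births are zero, and its expectation at the stopping time.
-/

open MeasureTheory Filter Topology Set
open scoped ENNReal NNReal

noncomputable section

namespace Vale.Agent.P119.PB

open M CTree KU FB RB AU FL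

variable {Φ : E3 → ℝ} {ε t δ h Tm : ℝ} {L : ℕ} {W : Finset Src}

/-- The constant. -/
def cY (B Tm : ℝ) : ℝ := 2 * (Tm + 1) + 6 * (1 + (1 + cDD B 0) * Tm)

theorem cY_nonneg {B : ℝ} (hB : 0 ≤ B) (hT : 0 ≤ Tm) : 0 ≤ cY B Tm := by
  have := cDD_nonneg hB 0
  unfold cY
  positivity

theorem yW_eq {ι : Type*} (I : Finset ι) (T : ι → Target h) :
    yW ε t δ I T = I.card * (ENNReal.ofReal (t + δ) * ENNReal.ofReal ε) +
      3 * (ENNReal.ofReal δ * ∑ i ∈ I, (T i).w ε) := by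
  unfold yW
  rw [Finset.sum_add_distrib, Finset.sum_const, nsmul_eq_mul, Finset.mul_sum, Finset.mul_sum]

/-- A common bound. -/
theorem yW_le {ι : Type*} (I : Finset ι) (T : ι → Target h) {A : ℝ} {x D : ℝ≥0∞} (hA : 0 ≤ A)
    (hδ : 0 < δ) (hδ1 : δ ≤ 1) (hε : 0 < ε) (ht : t ≤ Tm) (hT : 0 ≤ Tm) (hx : x ≤ D)
    (h1 : (I.card : ℝ≥0∞) ≤ 2 * x)
    (h2 : ∑ i ∈ I, (T i).w ε ≤ ENNReal.ofReal (2 * (ε + A)) * D) :
    yW ε t δ I T ≤ ENNReal.ofReal ((2 * (Tm + 1) + 6 * (1 + A)) * (ε + δ)) * D := by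
  rw [yW_eq]
  calc I.card * (ENNReal.ofReal (t + δ) * ENNReal.ofReal ε) +
        3 * (ENNReal.ofReal δ * ∑ i ∈ I, (T i).w ε)
      ≤ 2 * D * (ENNReal.ofReal (Tm + 1) * ENNReal.ofReal ε) +
        3 * (ENNReal.ofReal δ * (ENNReal.ofReal (2 * (ε + A)) * D)) := by
        refine add_le_add (mul_le_mul' (h1.trans (mul_le_mul_right hx _)) (mul_le_mul_left
          (ENNReal.ofReal_le_ofReal (by linarith)) _)) ?_
        exact mul_le_mul_right (mul_le_mul_right h2 _) _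
    _ = (ENNReal.ofReal (2 * ((Tm + 1) * ε)) + ENNReal.ofReal (3 * (δ * (2 * (ε + A))))) * D := by
        have e1 : ENNReal.ofReal (2 * ((Tm + 1) * ε)) =
            2 * (ENNReal.ofReal (Tm + 1) * ENNReal.ofReal ε) := by
          rw [ENNReal.ofReal_mul (by norm_num : (0 : ℝ) ≤ 2),
            ENNReal.ofReal_mul (by linarith : (0 : ℝ) ≤ Tm + 1), ENNReal.ofReal_ofNat]
        have e2 : ENNReal.ofReal (3 * (δ * (2 * (ε + A)))) =
            3 * (ENNReal.ofReal δ * ENNReal.ofReal (2 * (ε + A))) := by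
          rw [ENNReal.ofReal_mul (by norm_num : (0 : ℝ) ≤ 3), ENNReal.ofReal_mul hδ.le,
            ENNReal.ofReal_ofNat]
        rw [e1, e2]
        ring
    _ = ENNReal.ofReal (2 * ((Tm + 1) * ε) + 3 * (δ * (2 * (ε + A)))) * D := by
        rw [← ENNReal.ofReal_add (by positivity) (by positivity)]
    _ ≤ _ := by
        refine mul_le_mul_left (ENNReal.ofReal_le_ofReal ?_) _
        have h3 : 0 ≤ (Tm + 1) * δ := by positivity
        have h4 : δ * ε ≤ ε := by nlinarith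
        nlinarith [mul_nonneg hA hε.le]

/-- **The exposed labels.** -/
theorem yW_exp_le (hΦ : IsPotential Φ) {B : ℝ} (hB : RW.StableWith Φ B) (hB0 : 0 ≤ B)
    (hε : 0 < ε) (hW : ∀ a ∈ W, 0 ≤ a.1)
    (hexcl : ∀ a ∈ W, ∀ a' ∈ W, a ≠ a' → a.1 = 0 → a'.1 = 0 → ε ≤ ‖a.2.1.1 - a'.2.1.1‖)
    (hk : (W.filter fun a => a.1 ≠ 0).card ≤ 0) (h0 : 0 ≤ h) (hh : h ≤ Tm) (ht : t ≤ Tm)
    (hδ : 0 < δ) (hδ1 : δ ≤ 1) :
    yW ε t δ (expI Φ ε L hΦ hε W h) (expT Φ ε L hΦ hε W h) ≤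
      ENNReal.ofReal (cY B Tm * (ε + δ)) * eW L hΦ hε W h := by
  have hT : 0 ≤ Tm := h0.trans hh
  have hc := cDD_nonneg hB0 0
  set D : ℝ≥0∞ := eW L hΦ hε W h with hD
  have hD' : D = ENNReal.ofReal (EN.DD Φ ε L hΦ hε W h) := eW_eq h
  have h1 : ((EN.AX Φ ε L hΦ hε W h).card : ℝ≥0∞) ≤ D := by
    rw [hD', ← ENNReal.ofReal_natCast]
    exact ENNReal.ofReal_le_ofReal (EN.card_le_DD hΦ hε W h)
  have h2 : ((expI Φ ε L hΦ hε W h).card : ℝ≥0∞) ≤ 2 * (EN.AX Φ ε L hΦ hε W h).card := by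
    unfold expI
    rw [Finset.card_product, Finset.card_univ, Fintype.card_bool]
    push_cast
    rfl
  have h3 := sum_exp_w (L := L) hΦ hB hε hW hexcl hk h
  have h4 : ∫⁻ s in Icc 0 h, ENNReal.ofReal (EN.DD Φ ε L hΦ hε W s) ≤ ENNReal.ofReal Tm * D := by
    calc ∫⁻ s in Icc 0 h, ENNReal.ofReal (EN.DD Φ ε L hΦ hε W s)
        ≤ ∫⁻ _ in Icc 0 h, D := setLIntegral_mono' measurableSet_Icc fun s hs => by
          rw [hD']
          exact ENNReal.ofReal_le_ofReal (EN.DD_mono hΦ hε hs.2)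
      _ = D * volume (Icc 0 h) := by rw [lintegral_const, Measure.restrict_apply_univ]
      _ ≤ D * ENNReal.ofReal Tm := by
          refine mul_le_mul_right ?_ _
          rw [Real.volume_Icc]
          exact ENNReal.ofReal_le_ofReal (by linarith)
      _ = _ := mul_comm _ _
  refine (yW_le (A := (1 + cDD B 0) * Tm) _ _ (by positivity) hδ hδ1 hε ht hT h1 h2 ?_).trans
    (le_of_eq (by unfold cY; ring_nf))
  refine h3.trans ?_
  calc 2 * ((EN.AX Φ ε L hΦ hε W h).card * ENNReal.ofReal ε + ENNReal.ofReal (cDD B 0) *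
        ∫⁻ s in Icc 0 h, ENNReal.ofReal (EN.DD Φ ε L hΦ hε W s))
      ≤ 2 * (D * ENNReal.ofReal ε + ENNReal.ofReal (cDD B 0) * (ENNReal.ofReal Tm * D)) := by
        gcongr
    _ = ENNReal.ofReal (2 * (ε + cDD B 0 * Tm)) * D := by
        rw [ENNReal.ofReal_mul (by norm_num : (0 : ℝ) ≤ 2),
          ENNReal.ofReal_add hε.le (by positivity), ENNReal.ofReal_mul hc,
          ENNReal.ofReal_ofNat]
        ring
    _ ≤ _ := by
        refine mul_le_mul_left (ENNReal.ofReal_le_ofReal ?_) _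
        nlinarith

open Classical in
/-- The felt trees. -/
def flJ (L : ℕ) (hΦ : IsPotential Φ) (hε : 0 < ε) (W : Finset Src) (h : ℝ) : Finset CTree :=
  (trs L W).filter fun T => fl L hΦ hε W h T

theorem mem_flJ {hΦ : IsPotential Φ} {hε : 0 < ε} {T : CTree} :
    T ∈ flJ L hΦ hε W h ↔ fl L hΦ hε W h T := by
  classical
  unfold flJ
  rw [Finset.mem_filter]
  exact ⟨fun h => h.2, fun h => ⟨mem_trs.2 ⟨h.sub, h.depth⟩, h⟩⟩

theorem sum_flJ (hΦ : IsPotential Φ) (hε : 0 < ε) (W : Finset Src) (h : ℝ) :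
    ∑ T ∈ flJ L hΦ hε W h, ENNReal.ofReal (1 + ‖(ln Φ ε T).2‖) = fW L hΦ hε W h := by
  classical
  rw [fW_eq, flJ, Finset.sum_filter]

/-- **The felt trees.** -/
theorem yW_fl_le (hΦ : IsPotential Φ) {B : ℝ} (hB0 : 0 ≤ B)
    (hε : 0 < ε) (h0 : 0 ≤ h) (hh : h ≤ Tm) (ht : t ≤ Tm) (hδ : 0 < δ) (hδ1 : δ ≤ 1) :
    yW ε t δ (flJ L hΦ hε W h) (fun T => lineTarget h 0 (ln Φ ε T)) ≤
      ENNReal.ofReal (cY B Tm * (ε + δ)) * fW L hΦ hε W h := by
  have hT : 0 ≤ Tm := h0.trans hh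
  have hc := cDD_nonneg hB0 0
  have h1 : ((flJ L hΦ hε W h).card : ℝ≥0∞) ≤ fW L hΦ hε W h := by
    rw [← sum_flJ hΦ hε W h]
    calc ((flJ L hΦ hε W h).card : ℝ≥0∞) = ∑ _ ∈ flJ L hΦ hε W h, (1 : ℝ≥0∞) := by
          rw [Finset.sum_const, nsmul_eq_mul, mul_one]
      _ ≤ _ := Finset.sum_le_sum fun T _ => by
          rw [← ENNReal.ofReal_one]
          exact ENNReal.ofReal_le_ofReal (by linarith [norm_nonneg (ln Φ ε T).2])
  refine (yW_le (A := (1 + cDD B 0) * Tm) (x := fW L hΦ hε W h) _ _ (by positivity) hδ hδ1 hε ht hT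
    le_rfl ?_ ?_).trans (le_of_eq (by unfold cY; ring_nf))
  · calc ((flJ L hΦ hε W h).card : ℝ≥0∞) = 1 * (flJ L hΦ hε W h).card := (one_mul _).symm
      _ ≤ 2 * fW L hΦ hε W h := mul_le_mul' (by norm_num) h1
  · calc ∑ T ∈ flJ L hΦ hε W h, (lineTarget h 0 (ln Φ ε T)).w ε
        ≤ ∑ T ∈ flJ L hΦ hε W h, ENNReal.ofReal (2 * (ε + (1 + cDD B 0) * Tm)) *
          ENNReal.ofReal (1 + ‖(ln Φ ε T).2‖) := Finset.sum_le_sum fun T _ => by
          rw [lineTarget_w, sub_zero, ← ofReal_norm, ← ENNReal.ofReal_one,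
            ← ENNReal.ofReal_add zero_le_one (norm_nonneg _),
            ← ENNReal.ofReal_mul (by positivity), ← ENNReal.ofReal_add hε.le (by positivity),
            ← ENNReal.ofReal_mul (by positivity)]
          refine ENNReal.ofReal_le_ofReal ?_
          have h2 := norm_nonneg (ln Φ ε T).2
          have h3 : (1 + ‖(ln Φ ε T).2‖) * h ≤ (1 + ‖(ln Φ ε T).2‖) * ((1 + cDD B 0) * Tm) := by
            refine mul_le_mul_of_nonneg_left ?_ (by positivity)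
            nlinarith [mul_nonneg hc hT]
          have h4 : 0 ≤ (1 + ‖(ln Φ ε T).2‖) * ((1 + cDD B 0) * Tm) := by positivity
          nlinarith [mul_nonneg h2 hε.le]
      _ = _ := by rw [← Finset.mul_sum, sum_flJ]

/-! ### Expectations -/

/-- **The expectation, exposed labels.** -/
theorem lintegral_yW_exp_le (hΦ : IsPotential Φ) {B : ℝ} (hB : RW.StableWith Φ B) (hB0 : 0 ≤ B)
    (hε : 0 < ε) (f₀ : Ph → ℝ) {η : ℝ} (hη : 0 < η) (h0 : 0 ≤ t)
    (ht : t ≤ Tm) (hδ : 0 < δ) (hδ1 : δ ≤ 1) :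
    ∫⁻ c, yW ε t δ (expI Φ ε L hΦ hε (wS (GC.pts c)) (hz L hΦ hε η t (wS (GC.pts c))))
      (expT Φ ε L hΦ hε (wS (GC.pts c)) (hz L hΦ hε η t (wS (GC.pts c)))) ∂(GC.PP f₀ ε) ≤
      ENNReal.ofReal (cY B Tm * (ε + δ)) * (muE ε * DD L hΦ hε f₀ η t) := by
  rw [← lintegral_eW_eq, ← lintegral_const_mul' _ _ ENNReal.ofReal_ne_top]
  refine lintegral_mono_ae ?_
  filter_upwards [GC.ae_excl f₀ ε] with c hc
  exact yW_exp_le hΦ hB hB0 hε (wS_nonneg0 _) (wS_excl hc) (wS_filter _)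
    (hz_nonneg hη h0) ((hz_le hη h0).trans ht) ht hδ hδ1

/-- **The expectation, felt trees.** -/
theorem lintegral_yW_fl_le (hΦ : IsPotential Φ) {B : ℝ} (hB0 : 0 ≤ B)
    (hε : 0 < ε) (f₀ : Ph → ℝ) {η : ℝ} (hη : 0 < η) (h0 : 0 ≤ t)
    (ht : t ≤ Tm) (hδ : 0 < δ) (hδ1 : δ ≤ 1) :
    ∫⁻ c, yW ε t δ (flJ L hΦ hε (wS (GC.pts c)) (hz L hΦ hε η t (wS (GC.pts c))))
      (fun T => lineTarget (hz L hΦ hε η t (wS (GC.pts c))) 0 (ln Φ ε T)) ∂(GC.PP f₀ ε) ≤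
      ENNReal.ofReal (cY B Tm * (ε + δ)) * (muE ε * FF L hΦ hε f₀ η t) := by
  rw [← lintegral_fW_eq, ← lintegral_const_mul' _ _ ENNReal.ofReal_ne_top]
  refine lintegral_mono fun c => ?_
  exact yW_fl_le hΦ hB0 hε (hz_nonneg hη h0) ((hz_le hη h0).trans ht) ht hδ hδ1

end Vale.Agent.P119.PB
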