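import Vale.Agent.P119.PB.BLW
import Vale.Agent.P119.PB.YWexp

/-!
# P119, block PROB: the sources of the second events in a fixed world (`helper778`)

The terms `S6` (contact of the line with an exposed label, felt trees, early touch of `e`) and `PairG`
for a bounded elementary law: `BL.s6`, `BL.pairG`.
-/

open MeasureTheory Set Filter Topology Metric ProbabilityTheory
open scoped ENNReal NNReal

noncomputable section

namespace Vale.Agent.P119.PB

open KU M M.CTree FL FB RB EN AU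

variable {Φ : E3 → ℝ} {ε : ℝ} {L : ℕ} {hΦ : IsPotential Φ} {hε : 0 < ε}
  {η η' θ t t₁ δ w : ℝ} {c : GC.Conf Ph} {n : ℕ} {G : Set (ℝ × Ph)}
  {Ω : Type} [MeasurableSpace Ω] {ν : Measure Ω} {E : Set Ω} {β : ℝ} {Cm Cl Cy : ℝ≥0∞}
  {eS : Ω → ℝ × Ph} {u tl : Ω → ℝ} {X : Ω → ℝ → E3}

/-- The position of a line at the time at which it meets another line. -/
theorem line_hit (hε : 0 < ε) {l l' : Ph} (h : Meets ε (l, l')) :
    ‖(l.1 + hitT ε (l, l') • l.2) - (l'.1 + hitT ε (l, l') • l'.2)‖ ≤ ε :=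
  (ctc_hitT hε h).le

/-- The straight path. -/
def lineX (l : Ω → Ph) (x : Ω) (τ : ℝ) : E3 := (l x).1 + τ • (l x).2

theorem measurable_lineX {l : Ω → Ph} (hl : Measurable l) (τ : ℝ) :
    Measurable fun x => lineX l x τ := by
  unfold lineX
  exact hl.fst.add (hl.snd.const_smul τ)

omit [MeasurableSpace Ω] in
theorem continuous_lineX (l : Ω → Ph) (x : Ω) : Continuous (lineX l x) := by
  unfold lineX
  fun_prop

/-- The data with a source `e` in `G`, born after the time `0`. -/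
def gP (G : Set (ℝ × Ph)) : Set (ℝ × Ph) := {y | y ∈ G ∧ 0 < y.1}

theorem measurableSet_gP (hG : MeasurableSet G) : MeasurableSet (gP G) :=
  hG.inter (measurableSet_lt measurable_const measurable_fst)

section line

variable {l : Ω → Ph}

/-- The source of the line. -/
def srcL (tl : Ω → ℝ) (l : Ω → Ph) (x : Ω) : Src := (tl x, l x, 0)

theorem measurable_srcL (htl : Measurable tl) (hl : Measurable l) : Measurable (srcL tl l) :=
  htl.prodMk (hl.prodMk measurable_const)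

/-- **Felt trees of `V + e`.** -/
theorem BL.felL (H : BL ν E ε t t₁ δ β eS u tl (lineX l) Cm Cl Cy) (hl : Measurable l) {B : ℝ}
    (hB : RW.StableWith Φ B) (hc : c.2 ∈ excl ε c.1) (hη : 0 < η) (ht : 0 ≤ t) (ht₁ : t < t₁)
    (hG : MeasurableSet G) :
    ν {x | eS x ∈ gP G ∧ FelL L hΦ hε η t (u x) (wS (GC.pts c)) (srcN n (eS x)) (srcL tl l x)} ≤
      Cl * (ENNReal.ofReal (ε ^ 2) * cWE B t ε η c) * srcS β t (gTE L hΦ hε η t c n G) := by
  classical
  refine H.long_set ((H.em (measurableSet_gP hG)).inter (measurableSet_FelL (rs_const c)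
    measurable_const measurable_const H.um ((measurable_srcN n).comp H.em)
    (measurable_srcL H.tm hl))) (measurableSet_gTE hG)
    (h := fun y => hz L hΦ hε η t (insert (srcN n y) (wS (GC.pts c))))
    (fun y => tgI L hΦ hε (insert (srcN n y) (wS (GC.pts c)))
      (hz L hΦ hε η t (insert (srcN n y) (wS (GC.pts c)))))
    (fun y => tgT L hΦ hε (insert (srcN n y) (wS (GC.pts c)))
      (hz L hΦ hε η t (insert (srcN n y) (wS (GC.pts c)))))
    (fun y => (hz_le hη ht).trans_lt ht₁) (fun y hy => sum_targets hB hc hy.2.1 hη ht) ?_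
  rintro x hx ⟨hg, hT, T, hTm, h1, h2, h3, h4, h5⟩
  have hE1 : (eS x).1 ≤ t := (touch_birth (m := srcN n (eS x)) hT).trans (hz_le hη ht)
  refine ⟨hE1, ⟨hg.1, hg.2, hT⟩, Sum.inr T, Finset.inr_mem_disjSum.2 (mem_flI.2 h5),
    hitT ε (l x, ln Φ ε T), ⟨max_le (max_le ?_ h3) h2.le, h4⟩, line_hit hε h1⟩
  exact (H.tl0 x hx).trans h2.le

/-- **Felt trees of `V`, before `u`.** -/
theorem BL.felS (H : BL ν E ε t t₁ δ β eS u tl (lineX l) Cm Cl Cy) (hl : Measurable l)
    (hη : 0 < η) (ht : 0 ≤ t) (ht₁ : t < t₁) (hG : MeasurableSet G) :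
    ν {x | eS x ∈ gP G ∧ FelS L hΦ hε η t (u x) (wS (GC.pts c)) (srcN n (eS x)) (srcL tl l x)} ≤
      Cy * (ENNReal.ofReal (ε ^ 2) * yW ε t δ
        (flJ L hΦ hε (wS (GC.pts c)) (hz L hΦ hε η t (wS (GC.pts c))))
        (fun T => lineTarget (hz L hΦ hε η t (wS (GC.pts c))) 0 (ln Φ ε T))) := by
  classical
  refine H.young_set ((H.em (measurableSet_gP hG)).inter (measurableSet_FelS (rs_const c)
    measurable_const measurable_const H.um ((measurable_srcN n).comp H.em)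
    (measurable_srcL H.tm hl))) _ _ ((hz_le hη ht).trans_lt ht₁) ?_
  rintro x hx ⟨hg, hT, T, hTm, h1, h2, h3, h4, h5⟩
  refine ⟨T, mem_flJ.2 h5, hitT ε (l x, ln Φ ε T),
    ⟨max_le ((H.tl0 x hx).trans h2.le) h2.le, h4⟩, h3.le, line_hit hε h1⟩

/-- **Early touch of `e`.** -/
theorem BL.teu (H : BL ν E ε t t₁ δ β eS u tl X Cm Cl Cy) (hl : Measurable l)
    (hη : 0 < η) (ht : 0 ≤ t) (hG : MeasurableSet G) :
    ν {x | eS x ∈ gP G ∧ TEu L hΦ hε η t (u x) (wS (GC.pts c)) (srcN n (eS x)) (srcL tl l x)} ≤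
      Cm * srcS β t (gTd L hΦ hε η t δ c n G) := by
  classical
  refine H.mass_set ((H.em (measurableSet_gP hG)).inter (measurableSet_TEu (rs_const c)
    measurable_const measurable_const H.um ((measurable_srcN n).comp H.em)
    (measurable_srcL H.tm hl))) (measurableSet_gTd hG) ?_
  rintro x hx ⟨hg, -, hT⟩
  refine ⟨(touch_birth (m := srcN n (eS x)) hT).trans ((min_le_left _ _).trans (hz_le hη ht)),
    hg.1, hg.2, hT.mono (min_le_min_left _ (H.ue x hx))⟩

/-- **Contact of the line with an exposed label of `V + e`.** -/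
theorem BL.dirG (H : BL ν E ε t t₁ δ β eS u tl (lineX l) Cm Cl Cy) {B : ℝ}
    (hB : RW.StableWith Φ B) (hc : c.2 ∈ excl ε c.1) (hη : 0 < η) (hηη : η ≤ η') (ht : 0 ≤ t)
    (ht₁ : t < t₁) (hG : MeasurableSet G) :
    ν {x | eS x ∈ gP G ∧ DirG L hΦ hε η t w (wS (GC.pts c)) (srcN n (eS x)) (srcL tl l x)} ≤
      Cm * srcS β t (gTd L hΦ hε η t δ c n G) +
      Cm * srcS β t (gRL L hΦ hε η (η' - η) t c n G) +
      Cy * (ENNReal.ofReal (ε ^ 2) * yW ε t δ
        (expI Φ ε L hΦ hε (wS (GC.pts c)) (hz L hΦ hε η' t (wS (GC.pts c))))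
        (expT Φ ε L hΦ hε (wS (GC.pts c)) (hz L hΦ hε η' t (wS (GC.pts c))))) +
      Cl * (ENNReal.ofReal (ε ^ 2) * cWE B t ε η c) * srcS β t (gTE L hΦ hε η t c n G) := by
  refine (measure_mono ?_).trans (H.path hB hc hη hηη ht ht₁ hG)
  rintro x ⟨hg, hT, r, hr1, hr2, h⟩
  exact ⟨⟨hg.1, hg.2, hT⟩, r, hr1, hr2.trans (min_le_left _ _), h⟩

end line

/-- **Contact of the pair with an exposed label of `V + e`**: `q` is the last pair, `tl` the time of
its hit. -/
theorem BL.pairG {X' : Ω → ℝ → E3} {q : Ω → Ph × Ph}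
    (H : BL ν E ε t t₁ δ β eS u tl X Cm Cl Cy) (H' : BL ν E ε t t₁ δ β eS u tl X' Cm Cl Cy)
    (hX : ∀ x τ, X x τ = (pairLine Φ ε (q x) τ).1.1)
    (hX' : ∀ x τ, X' x τ = (pairLine Φ ε (q x) τ).2.1) {s : Ω → ℝ}
    (htl : ∀ x, tl x = hitT ε (q x)) {B : ℝ}
    (hB : RW.StableWith Φ B) (hc : c.2 ∈ excl ε c.1) (hη : 0 < η) (hηη : η ≤ η') (ht : 0 ≤ t)
    (ht₁ : t < t₁) (hG : MeasurableSet G) :
    ν {x | eS x ∈ gP G ∧ PairG L hΦ hε η t w (wS (GC.pts c)) (srcN n (eS x)) (s x, (q x).1, 0)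
        (q x).2} ≤
      2 * (Cm * srcS β t (gTd L hΦ hε η t δ c n G) +
      Cm * srcS β t (gRL L hΦ hε η (η' - η) t c n G) +
      Cy * (ENNReal.ofReal (ε ^ 2) * yW ε t δ
        (expI Φ ε L hΦ hε (wS (GC.pts c)) (hz L hΦ hε η' t (wS (GC.pts c))))
        (expT Φ ε L hΦ hε (wS (GC.pts c)) (hz L hΦ hε η' t (wS (GC.pts c))))) +
      Cl * (ENNReal.ofReal (ε ^ 2) * cWE B t ε η c) * srcS β t (gTE L hΦ hε η t c n G)) := by
  rw [two_mul]
  refine (measure_mono (t := evP L hΦ hε η t c n G eS tl X ∪ evP L hΦ hε η t c n G eS tl X')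
    ?_).trans ((measure_union_le _ _).trans (add_le_add (H.path hB hc hη hηη ht ht₁ hG)
      (H'.path hB hc hη hηη ht ht₁ hG)))
  rintro x ⟨hg, hT, -, -, r, hr1, hr2, h | h⟩
  · refine Or.inl ⟨⟨hg.1, hg.2, hT⟩, r, ?_, hr2.trans (min_le_left _ _), ?_⟩
    · rw [htl]; exact hr1
    · rw [hX]; exact h
  · refine Or.inr ⟨⟨hg.1, hg.2, hT⟩, r, ?_, hr2.trans (min_le_left _ _), ?_⟩
    · rw [htl]; exact hr1
    · rw [hX']; exact h

end Vale.Agent.P119.PB
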