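import Vale.Agent.P119.PB.Iter6b
import Vale.Agent.P119.RM.Ex6

/-!
# P119, block PROB: second events, final form (`helper178`)

`gT6_final`: `gT6_iter` with the exceptional terms `5 atyS + exc6`, for an atypical law which is a
kernel.
-/

open MeasureTheory Filter Topology Set ProbabilityTheory
open scoped ENNReal NNReal

noncomputable section

namespace Vale.Agent.P119.PB

open M CTree KU FB RB AU FL TL

variable {Φ : E3 → ℝ} {ε : ℝ} {L : ℕ} {hΦ : IsPotential Φ} {hε : 0 < ε} {f₀ : Ph → ℝ}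
  {κ b Tm t η η' w u θ : ℝ} {e m : Src}

open Classical in
/-- The exceptional terms of the second events, with the atypical part of the law of the partners,
for nonnegative births and depths at most `L`. -/
def X6 (L : ℕ) (hΦ : IsPotential Φ) (hε : 0 < ε) (f₀ : Ph → ℝ) (ν : GC.Conf Ph → Measure Src)
    (η θ t : ℝ) (e m : Src) : ℝ≥0∞ :=
  if 0 ≤ m.1 ∧ m.2.2 ≤ L then 5 * atyS (GC.PP f₀ ε) ν ε t m + exc6 L hΦ hε f₀ η θ t e m else 0

theorem measurable_X6 (h₀ : GoodDatum f₀ κ) (ν : Kernel (GC.Conf Ph) Src) [IsSFiniteKernel ν] :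
    Measurable fun p : Src × Src => X6 L hΦ hε f₀ (fun c => ν c) η θ t p.1 p.2 := by
  have := GC.isProbability_PP (ε := ε) h₀
  unfold X6
  refine Measurable.ite ?_
    ((((measurable_atyS h₀ ν).comp measurable_snd).const_mul _).add RM.measurable_exc6)
    measurable_const
  exact (measurableSet_le measurable_const (measurable_fst.comp measurable_snd)).inter
    ((measurable_snd.comp (measurable_snd.comp measurable_snd)) (measurableSet_Iic (a := L)))

theorem le_X6 {ν : GC.Conf Ph → Measure Src} (h1 : 0 ≤ m.1) (h2 : m.2.2 ≤ L) :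
    5 * atyS (GC.PP f₀ ε) ν ε t m + exc6 L hΦ hε f₀ η θ t e m ≤
      X6 L hΦ hε f₀ ν η θ t e m := by
  unfold X6
  rw [if_pos ⟨h1, h2⟩]

theorem measurable_X6_right (h₀ : GoodDatum f₀ κ) (ν : Kernel (GC.Conf Ph) Src)
    [IsSFiniteKernel ν] : Measurable (X6 L hΦ hε f₀ (fun c => ν c) η θ t e) :=
  (measurable_X6 h₀ ν).comp (measurable_const.prodMk measurable_id)

/-- **The second events, final form.** -/
theorem gT6_final (h₀ : GoodDatum f₀ κ) (ht : 0 ≤ t) (htT : t ≤ Tm) (hη : 0 < η) (hηη : η < η')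
    (hw : t ≤ w) (he0 : 0 ≤ e.1) (hed : e.2.2 ≤ L) {α : ℕ → ℝ≥0∞}
    {ν : Kernel (GC.Conf Ph) Src} [IsSFiniteKernel ν] (hcap : CapI Φ ε L f₀ b Tm α fun c => ν c)
    {J : ℕ} (hJ : 0 < J) {t' : ℝ} (htt : t < t') {A : ℝ≥0∞} (hA : 1 ≤ A) (hA' : A ≠ ∞)
    {a : ℕ → ℝ≥0∞} (ha : a = fun n => α n * ENNReal.ofReal (1 + Tm)) (hm0 : 0 ≤ m.1) :
    gT6 L hΦ hε f₀ η t e m ≤
      (∑ j ∈ Finset.range J, (∑' n, a n) ^ j *
        Gc hΦ hε.ne' b t' j (F6 L hΦ hε f₀ b a η' t w u e) m.1 m.2.1) +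
      (∑' n, a n) ^ J * Gc hΦ hε.ne' b t' J (fun _ _ => tE6 L hΦ hε f₀ η' t e) m.1 m.2.1 +
      A ^ m.2.2 * (A ^ L)⁻¹ * (∑ j ∈ Finset.range J, (A * (∑' n, a n + ∑' n, a n * A ^ n)) ^ j *
        Gc hΦ hε.ne' b t' j (FA f₀ Φ ε L t A) m.1 m.2.1) +
      ∑ j ∈ Finset.range J, KIt Φ ε b t a j
        (X6 L hΦ hε f₀ (fun c => ν c) η' ((η' - η) / J) t e) m :=
  gT6_iter h₀ ht htT hη hηη hw he0 hed hcap hJ htt hA hA'
    (measurable_X6_right h₀ ν) (fun m h1 h2 => le_X6 h1 h2) ha hm0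

end Vale.Agent.P119.PB
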