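import Vale.Agent.P119.IND.GraftFam
import Vale.Agent.P119.PB.Iter6c
import Vale.Agent.P119.PB.Raw

/-!
# P119, block PROB, P8: the laws of the pairs of outgoing lines, interface (`helper336`)

The laws of the pairs `(e, m)` are measures on `Src × Src`, `lam L ε t`.

* `BLaw`, `blM`: a law which lives on free Gaussian lines and a base program (`BaseP` of
  `helper810`);
* `MainBd`: the bound of the main terms of the iterated second events;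
* `ExcBd`: the exceptional terms vanish;
* `LamOk`: the support of a law.
-/

open MeasureTheory Filter Topology Set ProbabilityTheory
open scoped ENNReal NNReal

noncomputable section

namespace Vale.Agent.P119.PB

open M CTree KU FB RB AU FL TL IND

variable {Φ : E3 → ℝ} {ε : ℝ}

/-! ### Laws on free lines with a base program -/

/-- **A law on free lines**: `q` free lines born at the time `0` (with depths `dl`), a weight `W`,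
and the two sources `e`, `m` which are the final sources of two labels of a base program (all the
other labels are dropped). -/
structure BLaw (Φ : E3 → ℝ) (ε T c : ℝ) (L q N : ℕ) (dl : Fin q → ℕ)
    (W : (Fin q → Ph) → ℝ≥0∞) (e m : (Fin q → Ph) → Src) (CW : ℝ≥0∞) : Prop where
  measW : Measurable W
  meas_e : Measurable e
  meas_m : Measurable m
  le : ∀ l, W l ≤ CW * ENNReal.ofReal (Real.exp (c * ∑ j, ‖(l j).2‖ ^ 2))
  dom : ∀ l, W l ≠ 0 → ((e l).1 ≤ T ∧ (e l).2.2 ≤ L) ∧ ((m l).1 ≤ T ∧ (m l).2.2 ≤ L)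
  base : ∀ l, W l ≠ 0 → ∃ (x : Fin q → Src) (D : Set (Fin q)) (Q : List (Ev (Fin q) × ℝ)),
    Q.length ≤ N ∧ BaseP Φ ε T (fun i => ((0 : ℝ), l i, dl i)) x D Q ∧
      ∃ i k, i ≠ k ∧ Dᶜ = {i, k} ∧ x i = e l ∧ x k = m l

/-- The integral of `ψ e m` for a law on free lines, with Gaussian weights. -/
def blI (ε b : ℝ) (q : ℕ) (W : (Fin q → Ph) → ℝ≥0∞) (e m : (Fin q → Ph) → Src)
    (ψ : Src → Src → ℝ≥0∞) : ℝ≥0∞ :=
  muE ε ^ (q - 1) * ∫⁻ l : Fin q → Ph, (∏ j, gw b (l j).2) * (W l * ψ (e l) (m l))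

/-! ### The bounds of a law -/

/-- The main terms of the iterated second events. -/
def main8 (L : ℕ) (hΦ : IsPotential Φ) (hε : 0 < ε) (f₀ : Ph → ℝ) (b : ℝ) (a : ℕ → ℝ≥0∞)
    (η t w u t' : ℝ) (J : ℕ) (e m : Src) : ℝ≥0∞ :=
  (∑ j ∈ Finset.range J, (∑' n, a n) ^ j *
      Gc hΦ hε.ne' b t' j (F6 L hΦ hε f₀ b a η t w u e) m.1 m.2.1) +
    (∑' n, a n) ^ J * Gc hΦ hε.ne' b t' J (fun _ _ => tE6 L hΦ hε f₀ η t e) m.1 m.2.1

/-- **(L3), main terms**: `lam L ε t` is the law of `(e, m)`; the splitting time `u` is chosen by the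
owner of the law. -/
def MainBd (hΦ : IsPotential Φ) (f₀ : Ph → ℝ) (T b : ℝ) (a : ℕ → ℝ≥0∞)
    (D Θ F : ℕ → ℝ → ℝ → ℝ → ℝ≥0∞) (W : ℕ → ℝ → ℝ → ℝ → ℝ → ℝ≥0∞)
    (lam : ℕ → ℝ → ℝ → Measure (Src × Src)) (C : ℝ) (p : ℕ) : Prop :=
  ∀ᶠ L in atTop, ∀ δ ∈ Ioc (0 : ℝ) 1, ∀ η ∈ Ioc (0 : ℝ) 1, ∀ ρ : ℝ, 0 < ρ →
    ∃ J₀ : ℕ, ∀ J ≥ J₀, ∀ᶠ ε in 𝓝[>] (0 : ℝ), ∀ hε : 0 < ε, ∀ t ∈ Icc 0 T,
      ∃ u : Src × Src → ℝ,
        ∫⁻ x, main8 L hΦ hε f₀ b a η t T (u x) (T + 1) J x.1 x.2 ∂(lam L ε t) ≤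
          ENNReal.ofReal (C * (η / δ ^ p + δ)) * (D L η ε t + Θ L η ε t + F L η ε t) +
          ENNReal.ofReal C * W L δ η ε t + ENNReal.ofReal ρ

open Classical in
/-- The exceptional terms, cut. -/
def exC (L : ℕ) (hΦ : IsPotential Φ) (hε : 0 < ε) (f₀ : Ph → ℝ) (η θ t : ℝ) (e m : Src) :
    ℝ≥0∞ :=
  if 0 ≤ m.1 ∧ m.2.2 ≤ L then exc6 L hΦ hε f₀ η θ t e m else 0

/-- **(L3), exceptional terms.** -/
def ExcBd (hΦ : IsPotential Φ) (f₀ : Ph → ℝ) (T b : ℝ) (a : ℕ → ℝ≥0∞)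
    (lam : ℕ → ℝ → ℝ → Measure (Src × Src)) : Prop :=
  ∀ᶠ L in atTop, ∀ J : ℕ, ∀ η θ : ℝ, 0 < η → 0 < θ → ∀ ρ : ℝ, 0 < ρ →
    ∀ᶠ ε in 𝓝[>] (0 : ℝ), ∀ hε : 0 < ε, ∀ t ∈ Icc 0 T,
      ∫⁻ x, ∑ j ∈ Finset.range J, KIt Φ ε b t a j (exC L hΦ hε f₀ η θ t x.1) x.2 ∂(lam L ε t) ≤
        ENNReal.ofReal ρ

/-- **The support of a law.** -/
def LamOk (T : ℝ) (lam : ℕ → ℝ → ℝ → Measure (Src × Src)) : Prop :=
  ∀ᶠ L in atTop, ∀ ε : ℝ, 0 < ε → ∀ t ∈ Icc 0 T, SFinite (lam L ε t) ∧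
    ∀ᵐ x ∂(lam L ε t), 0 ≤ x.1.1 ∧ x.1.2.2 ≤ L ∧ 0 ≤ x.2.1

end Vale.Agent.P119.PB
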