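import Vale.Agent.P119.PB.RelRed
import Vale.Agent.P119.PB.X

/-!
# P119, block PROB: the two trees of a colliding pair are alive alone (`helper776`)

* `alT_of_pair`: if the tree `x` is alive in the world `V + x + y`, and the packets of the leaves of
  `x` and of `y` do not interact over `V` up to the exit of `x`, then `x` is alive in `V + x`;
* `BadPr`: one of the two trees of the pair is not alive alone; `badPr_good`.
-/

open Set

noncomputable section

namespace Vale.Agent.P119.PB

open M CTree KU FB RB AU TL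

variable {Φ : E3 → ℝ} {ε : ℝ} {L : ℕ} {V : Finset Src} {x y : CTree} {s s' t ρ : ℝ}

/-- The world `V` with the leaves of `x` and of `y`. -/
def addP (V : Finset Src) (x y : CTree) : Finset Src := addT (addT V x) y

theorem coe_addP : (addP V x y : Set Src) = (V : Set Src) ∪ x.leaves ∪ y.leaves := by
  unfold addP
  rw [coe_addT, coe_addT]

theorem coe_addP_comm : (addP V x y : Set Src) = (addP V y x : Set Src) := by
  rw [coe_addP, coe_addP, union_assoc, union_assoc, union_comm x.leaves]

theorem addP_comm : addP V x y = addP V y x := Finset.coe_injective coe_addP_comm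

open Classical in
/-- **The tree `x` is alive alone.** -/
theorem alT_of_pair (hΦ : IsPotential Φ) (hε : 0 < ε) (hVx : Disjoint (V : Set Src) x.leaves)
    (hVy : Disjoint (V : Set Src) y.leaves) (hxy : Disjoint x.leaves y.leaves)
    (h : Good Φ ε L V id {lvF x, lvF y} ρ) (hρ : ext Φ ε x ≤ ρ) (ht : ext Φ ε x ≤ t)
    (hs : ext Φ ε x ≤ s) (ha : alive Φ ε L (addP V x y : Set Src) x s) : alT Φ ε L t V x := by
  have hpre := alive_pre ha
  refine ⟨hpre.ok, hpre.depth, ht, ?_⟩
  have h1 : alive Φ ε L (addP V x y : Set Src) x (ext Φ ε x) := alive_anti ha hs le_rfl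
  have hsub : y.leaves ⊆ (addT V y : Set Src) := by
    rw [coe_addT]
    exact subset_union_right
  have hdis : Disjoint (addT V y : Set Src) x.leaves := by
    rw [coe_addT, disjoint_union_left]
    exact ⟨hVx, hxy.symm⟩
  have hG : Good Φ ε L (rm (addT V y) y) id {lvF y, lvF x} ρ := by
    rw [rm_addT hVy, Finset.pair_comm]
    exact h
  have h2 := alive_rm (L := L) hsub hdis hG hΦ hε (Subset.refl x.leaves) hρ
    (by rw [coe_addP_comm] at h1; exact h1)
  have e : (rm (addT (addT V y) x) y : Finset Src) = addT V x := by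
    have e1 : addT (addT V y) x = addT (addT V x) y := addP_comm
    rw [e1, rm_addT]
    rw [coe_addT, disjoint_union_left]
    exact ⟨hVy, hxy⟩
  rw [e] at h2
  exact h2

/-- One of the two trees is not alive alone. -/
def BadPr (Φ : E3 → ℝ) (ε : ℝ) (L : ℕ) (t : ℝ) (V : Finset Src) (x y : CTree) : Prop :=
  ¬(alT Φ ε L t V x ∧ alT Φ ε L t V y)

open Classical in
/-- **If one of the trees of the pair is not alive alone then their particles interact before the
exits.** -/
theorem badPr_good (hΦ : IsPotential Φ) (hε : 0 < ε) (hVx : Disjoint (V : Set Src) x.leaves)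
    (hVy : Disjoint (V : Set Src) y.leaves) (hxy : Disjoint x.leaves y.leaves)
    (htx : ext Φ ε x ≤ t) (hty : ext Φ ε y ≤ t) (hs : ext Φ ε x ≤ s) (hs' : ext Φ ε y ≤ s')
    (hx : alive Φ ε L (addP V x y : Set Src) x s) (hy : alive Φ ε L (addP V x y : Set Src) y s')
    (h : BadPr Φ ε L t V x y) :
    ¬Good Φ ε L V id {lvF x, lvF y} (max (ext Φ ε x) (ext Φ ε y)) := by
  intro hG
  refine h ⟨alT_of_pair hΦ hε hVx hVy hxy hG (le_max_left _ _) htx hs hx, ?_⟩
  refine alT_of_pair (ρ := max (ext Φ ε x) (ext Φ ε y)) hΦ hε hVy hVx hxy.symm ?_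
    (le_max_right _ _) hty hs' ?_
  · rw [Finset.pair_comm]
    exact hG
  · rw [coe_addP_comm]
    exact hy

end Vale.Agent.P119.PB
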