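import Vale.Agent.P119.PB.DM5
import Vale.Agent.P119.PB.ContX
import Vale.Agent.P119.PB.CrudeDF

/-!
# P119, block PROB: slow collisions (`helper384`)

* `durT`: the (scaled) duration of a collision; `slo Φ b n`: Gaussian flux of the relative lines
  whose collision lasts more than `n`; `exists_slo_le`: it tends to `0`;
* `SlowP`: the pair of lines collides in `(0, T]` during more than `δ`; `slow_flux`;
* `slow_le`: the pairs of trees of depth `≤ L` which make a slow collision.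
-/

open MeasureTheory Set Filter Topology Metric ProbabilityTheory
open scoped ENNReal

namespace Vale.Agent.P119.PB

open KU FL M CTree

variable {Φ : E3 → ℝ} {ε : ℝ}

/-- The scaled duration of a collision. -/
noncomputable def durT (Φ : E3 → ℝ) (p : Ph) : ℝ := tout Φ p - tin p

theorem measurable_durT (hΦ : IsPotential Φ) : Measurable (durT Φ) :=
  (measurable_tout hΦ).sub measurable_tin

theorem durT_free (hΦ : IsPotential Φ) {p : Ph} (hp : p.2 ≠ 0) (s : ℝ) :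
    durT Φ (KU.free s p) = durT Φ p := by
  unfold durT
  rw [tout_free hΦ hp, tin_free hp]
  ring

theorem sep_sub_hit (q : Ph × Ph) : sepT Φ ε q - hitT ε q = ε * durT Φ (rel ε q) := by
  unfold sepT hitT durT
  ring

/-- The Gaussian flux of the relative lines whose collision lasts more than `n`. -/
noncomputable def slo (Φ : E3 → ℝ) (b n : ℝ) : ℝ≥0∞ :=
  ∫⁻ w : E3, ‖w‖ₑ * (gw b w * kappa w {ρ | n < durT Φ (ρ, w)})

theorem slo_anti {b n n' : ℝ} (h : n ≤ n') : slo Φ b n' ≤ slo Φ b n := by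
  unfold slo
  refine lintegral_mono fun w => mul_le_mul_right (mul_le_mul_right (measure_mono ?_) _) _
  exact fun ρ hρ => h.trans_lt hρ

theorem measurableSet_dur (hΦ : IsPotential Φ) (n : ℝ) :
    MeasurableSet {q : E3 × E3 | n < durT Φ (q.2, q.1)} :=
  measurableSet_lt measurable_const ((measurable_durT hΦ).comp measurable_swap)

theorem measurable_kappa_dur (hΦ : IsPotential Φ) (n : ℝ) :
    Measurable fun w : E3 => kappa w {ρ | n < durT Φ (ρ, w)} :=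
  Kernel.measurable_kernel_prodMk_left (measurableSet_dur hΦ n)

/-- **Slow collisions are negligible.** -/
theorem exists_slo_le (hΦ : IsPotential Φ) {b : ℝ} (hb : 0 < b) {θ : ℝ≥0∞} (hθ : 0 < θ) :
    ∃ n : ℕ, slo Φ b n ≤ θ := by
  have hm : ∀ n : ℕ, Measurable fun w : E3 =>
      ‖w‖ₑ * (gw b w * kappa w {ρ | (n : ℝ) < durT Φ (ρ, w)}) := fun n =>
    measurable_enorm.mul ((measurable_gw b).mul (measurable_kappa_dur hΦ n))
  have hle : ∀ w : E3, kappa w univ ≤ ENNReal.ofReal Real.pi := by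
    intro w
    rcases eq_or_ne w 0 with rfl | hw
    · rw [kappa_zero]
      simp
    · exact (kappa_univ hw).le
  have key : Tendsto (fun n : ℕ => slo Φ b n) atTop (𝓝 (∫⁻ _ : E3, (0 : ℝ≥0∞))) := by
    unfold slo
    refine tendsto_lintegral_of_dominated_convergence
      (fun w : E3 => ‖w‖ₑ * (gw b w * ENNReal.ofReal Real.pi)) hm (fun n => ae_of_all _ fun w => ?_)
      ?_ (ae_of_all _ fun w => ?_)
    · exact mul_le_mul_right (mul_le_mul_right ((measure_mono (subset_univ _)).trans (hle w)) _) _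
    · have h1 := lintegral_vel_le' hb le_rfl (0 : E3)
      have h2 : ∫⁻ w : E3, ‖w‖ₑ * (gw b w * ENNReal.ofReal Real.pi) =
          (∫⁻ u : E3, ‖(0 : E3) - u‖ₑ * ENNReal.ofReal (Real.exp (-b * ‖u‖ ^ 2))) *
            ENNReal.ofReal Real.pi := by
        rw [← lintegral_mul_const' _ _ ENNReal.ofReal_ne_top]
        refine lintegral_congr fun w => ?_
        rw [zero_sub, enorm_neg]
        unfold gw
        ring
      rw [h2]
      refine ENNReal.mul_ne_top (ne_top_of_le_ne_top ?_ h1) ENNReal.ofReal_ne_top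
      exact ENNReal.mul_ne_top ENNReal.ofReal_ne_top (I0_ne_top hb)
    · have h3 : Tendsto (fun n : ℕ => kappa w {ρ | (n : ℝ) < durT Φ (ρ, w)}) atTop
          (𝓝 (kappa w (⋂ n : ℕ, {ρ | (n : ℝ) < durT Φ (ρ, w)}))) := by
        refine tendsto_measure_iInter_atTop (fun n => ?_) (fun n m hnm ρ hρ => ?_) ⟨0, ?_⟩
        · exact (measurable_prodMk_left (measurableSet_dur hΦ n)).nullMeasurableSet
        · have h4 : ((n : ℕ) : ℝ) ≤ m := by exact_mod_cast hnm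
          exact h4.trans_lt hρ
        · exact ne_top_of_le_ne_top ENNReal.ofReal_ne_top
            ((measure_mono (subset_univ _)).trans (hle w))
      have h5 : (⋂ n : ℕ, {ρ : E3 | (n : ℝ) < durT Φ (ρ, w)}) = ∅ := by
        refine eq_empty_of_forall_notMem fun ρ hρ => ?_
        obtain ⟨n, hn⟩ := exists_nat_ge (durT Φ (ρ, w))
        exact absurd (mem_iInter.1 hρ n) (not_lt.2 hn)
      rw [h5, measure_empty] at h3
      have h6 := ENNReal.Tendsto.const_mul (a := ‖w‖ₑ * gw b w) h3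
        (Or.inr (ENNReal.mul_ne_top enorm_ne_top ENNReal.ofReal_ne_top))
      rw [mul_zero] at h6
      refine h6.congr fun n => ?_
      rw [mul_assoc]
  rw [lintegral_zero] at key
  exact ((ENNReal.tendsto_nhds_zero.1 key) θ hθ).exists

/-! ### The flux of the slow collisions -/

/-- The two lines collide in `(0, T]`, during more than `δ`. -/
def SlowP (Φ : E3 → ℝ) (ε δ T : ℝ) (q : Ph × Ph) : Prop :=
  Meets ε q ∧ hitT ε q ∈ Ioc 0 T ∧ δ < sepT Φ ε q - hitT ε q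

theorem measurableSet_SlowP (hΦ : IsPotential Φ) (δ T : ℝ) :
    MeasurableSet {q : Ph × Ph | SlowP Φ ε δ T q} :=
  measurableSet_meets.inter ((measurable_hitT measurableSet_Ioc).inter
    (measurableSet_lt measurable_const ((measurable_sepT hΦ).sub measurable_hitT)))

theorem slow_flux (hΦ : IsPotential Φ) (hε : 0 < ε) {b T δ : ℝ} (hb : 0 < b) (hT : 0 ≤ T)
    (l : Ph) : ∫⁻ l' : Ph, gw b l'.2 * ind (SlowP Φ ε δ T (l, l')) ≤
      ENNReal.ofReal (ε ^ 2) * (ENNReal.ofReal T *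
        (ENNReal.ofReal (Real.exp (b * ‖l.2‖ ^ 2)) * slo Φ (b / 2) (δ / ε))) := by
  classical
  have hgt : ∀ (c : ℝ) (v : E3), gw c v ≠ ∞ := fun _ _ => ENNReal.ofReal_ne_top
  set A : Set Ph := {l' : Ph | hitT ε (l, l') ∈ Ioc 0 T ∧
    δ < sepT Φ ε (l, l') - hitT ε (l, l')} with hA
  have hpm : Measurable fun l' : Ph => ((l, l') : Ph × Ph) := measurable_const.prodMk measurable_id
  have hAm : MeasurableSet A :=
    ((measurable_hitT.comp hpm) measurableSet_Ioc).inter (measurableSet_lt measurable_const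
      (((measurable_sepT hΦ).comp hpm).sub (measurable_hitT.comp hpm)))
  set F : Ph → ℝ≥0∞ := fun l' => gw b l'.2 * A.indicator 1 l' with hF
  have hFm : Measurable F :=
    ((measurable_gw b).comp measurable_snd).mul (measurable_one.indicator hAm)
  have hm : MeasurableSet {l' : Ph | Meets ε (l, l')} := measurable_prodMk_left measurableSet_meets
  have e1 : ∫⁻ l' : Ph, gw b l'.2 * ind (SlowP Φ ε δ T (l, l')) =
      ∫⁻ l' in {l' : Ph | Meets ε (l, l')}, F l' := by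
    rw [← lintegral_indicator hm]
    refine lintegral_congr fun l' => ?_
    by_cases h1 : Meets ε (l, l')
    · rw [indicator_of_mem (show l' ∈ {l' : Ph | Meets ε (l, l')} from h1)]
      simp only [hF]
      congr 1
      by_cases h2 : l' ∈ A
      · rw [indicator_of_mem h2, ind_of ⟨h1, h2⟩, Pi.one_apply]
      · rw [indicator_of_notMem h2, ind_of_not fun h => h2 h.2]
    · rw [indicator_of_notMem (show l' ∉ {l' : Ph | Meets ε (l, l')} from h1),
        ind_of_not fun h => h1 h.1, mul_zero]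
  rw [e1, lintegral_partner hε l hFm]
  refine mul_le_mul_right ?_ _
  set K : E3 → ℝ≥0∞ := fun w => kappa w {ρ | δ / ε < durT Φ (ρ, w)} with hK
  have h1 : ∀ u : E3, ‖l.2 - u‖ₑ * ∫⁻ s : ℝ, ∫⁻ ρ, F (partner ε l u s ρ) ∂(kappa (l.2 - u)) =
      ‖l.2 - u‖ₑ * (gw b u * (ENNReal.ofReal T * K (l.2 - u))) := by
    intro u
    rcases eq_or_ne (l.2 - u) 0 with h0 | h0
    · rw [h0]
      simp
    congr 1
    set V := l.2 - u with hV
    set B : Set E3 := {ρ | δ / ε < durT Φ (ρ, V)} with hB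
    have hBm : MeasurableSet B := measurable_prodMk_left (measurableSet_dur hΦ (δ / ε))
    have h2 : ∀ s : ℝ, ∫⁻ ρ, F (partner ε l u s ρ) ∂(kappa V) =
        ∫⁻ ρ, gw b u * (B.indicator 1 ρ * (Ioc (0 : ℝ) T).indicator 1 (s - ε * half (ρ, V)))
          ∂(kappa V) := by
      intro s
      refine lintegral_congr_ae ?_
      filter_upwards [ae_kappa h0] with ρ hρ
      have h3 : hitT ε (l, partner ε l u s ρ) = s - ε * half (ρ, V) :=
        hitT_partner hε.ne' l h0 s hρ.2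
      have h4 : sepT Φ ε (l, partner ε l u s ρ) - hitT ε (l, partner ε l u s ρ) =
          ε * durT Φ (ρ, V) := by
        rw [sep_sub_hit, rel_partner hε.ne', durT_free hΦ (p := (ρ, V)) h0]
      have h5 : (partner ε l u s ρ).2 = u := rfl
      simp only [hF, h5]
      congr 1
      by_cases h6 : partner ε l u s ρ ∈ A
      · have h7 : s - ε * half (ρ, V) ∈ Ioc 0 T := h3 ▸ h6.1
        have h8 : ρ ∈ B := by
          have := h6.2
          rw [h4] at this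
          exact (div_lt_iff₀' hε).2 this
        rw [indicator_of_mem h6, indicator_of_mem h7, indicator_of_mem h8]
        simp
      · rw [indicator_of_notMem h6]
        symm
        rw [mul_eq_zero]
        by_contra hcon
        rw [not_or] at hcon
        refine h6 ⟨?_, ?_⟩
        · rw [h3]
          by_contra h7
          exact hcon.2 (indicator_of_notMem h7 _)
        · rw [h4]
          by_contra h7
          exact hcon.1 (indicator_of_notMem (fun h8 : ρ ∈ B => h7 ((div_lt_iff₀' hε).1 h8)) _)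
    simp_rw [h2]
    have h9 : Measurable fun q : ℝ × E3 => gw b u * (B.indicator (1 : E3 → ℝ≥0∞) q.2 *
        (Ioc (0 : ℝ) T).indicator (1 : ℝ → ℝ≥0∞) (q.1 - ε * half (q.2, V))) := by
      have h10 : Measurable fun q : ℝ × E3 => q.1 - ε * half (q.2, V) :=
        measurable_fst.sub ((measurable_half.comp
          (measurable_snd.prodMk measurable_const)).const_mul ε)
      exact ((((measurable_one.indicator hBm).comp measurable_snd)).mul
        ((measurable_one.indicator measurableSet_Ioc).comp h10)).const_mul _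
    rw [lintegral_lintegral_swap h9.aemeasurable]
    have h11 : ∀ ρ : E3, ∫⁻ s : ℝ, gw b u * (B.indicator (1 : E3 → ℝ≥0∞) ρ *
        (Ioc (0 : ℝ) T).indicator (1 : ℝ → ℝ≥0∞) (s - ε * half (ρ, V))) =
        gw b u * ENNReal.ofReal T * B.indicator 1 ρ := by
      intro ρ
      have h12 : ∫⁻ s : ℝ, (Ioc (0 : ℝ) T).indicator (1 : ℝ → ℝ≥0∞) (s - ε * half (ρ, V)) =
          ENNReal.ofReal T := by
        have h13 := lintegral_sub_right_eq_self (μ := (volume : Measure ℝ))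
          (fun τ => (Ioc (0 : ℝ) T).indicator (1 : ℝ → ℝ≥0∞) τ) (ε * half (ρ, V))
        rw [h13, lintegral_indicator_one measurableSet_Ioc, Real.volume_Ioc, sub_zero]
      have hBt : B.indicator (1 : E3 → ℝ≥0∞) ρ ≠ ∞ := by
        by_cases hρ : ρ ∈ B
        · rw [indicator_of_mem hρ]
          exact ENNReal.one_ne_top
        · rw [indicator_of_notMem hρ]
          exact ENNReal.zero_ne_top
      rw [lintegral_const_mul' _ _ (hgt _ _), lintegral_const_mul' _ _ hBt, h12]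
      ring
    simp_rw [h11]
    rw [lintegral_const_mul' _ _ (ENNReal.mul_ne_top (hgt _ _) ENNReal.ofReal_ne_top),
      lintegral_indicator_one hBm, mul_assoc]
  simp_rw [h1]
  have h2 : ∀ u : E3, ‖l.2 - u‖ₑ * (gw b u * (ENNReal.ofReal T * K (l.2 - u))) =
      (fun w : E3 => ‖w‖ₑ * (gw b (l.2 - w) * (ENNReal.ofReal T * K w))) (l.2 - u) := by
    intro u
    simp only [sub_sub_cancel]
  simp_rw [h2]
  rw [lintegral_sub_left_eq_self (fun w : E3 => ‖w‖ₑ * (gw b (l.2 - w) * (ENNReal.ofReal T * K w)))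
    l.2]
  unfold slo
  rw [← mul_assoc, ← lintegral_const_mul' _ _
    (ENNReal.mul_ne_top ENNReal.ofReal_ne_top ENNReal.ofReal_ne_top)]
  refine lintegral_mono fun w => ?_
  have h3 : gw b (l.2 - w) ≤ ENNReal.ofReal (Real.exp (b * ‖l.2‖ ^ 2)) * gw (b / 2) w := by
    unfold gw
    rw [← ENNReal.ofReal_mul (Real.exp_nonneg _), ← Real.exp_add]
    apply ENNReal.ofReal_le_ofReal
    apply Real.exp_le_exp.2
    have h4 : ‖w‖ ^ 2 ≤ 2 * ‖l.2‖ ^ 2 + 2 * ‖l.2 - w‖ ^ 2 := by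
      have h5 : ‖w‖ ≤ ‖l.2‖ + ‖l.2 - w‖ := by
        have h6 : w = l.2 - (l.2 - w) := by abel
        calc ‖w‖ = ‖l.2 - (l.2 - w)‖ := by rw [← h6]
          _ ≤ _ := norm_sub_le _ _
      nlinarith [norm_nonneg w, sq_nonneg (‖l.2‖ - ‖l.2 - w‖)]
    nlinarith
  calc ‖w‖ₑ * (gw b (l.2 - w) * (ENNReal.ofReal T * K w))
      ≤ ‖w‖ₑ * ((ENNReal.ofReal (Real.exp (b * ‖l.2‖ ^ 2)) * gw (b / 2) w) *
          (ENNReal.ofReal T * K w)) := by gcongr
    _ = _ := by ring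

/-! ### The trees -/

/-- The law of the root line, all trees of depth `≤ L` together. -/
theorem crude_line (hΦ : IsPotential Φ) {f₀ : Ph → ℝ} {κ b T₀ M₀ : ℝ} (hg : GoodDatum f₀ κ)
    (hb : 0 < b) (hT : 0 ≤ T₀) (hM : 0 ≤ M₀) (hf : ∀ z, f₀ z ≤ M₀ * Real.exp (-b * ‖z.2‖ ^ 2))
    (L : ℕ) : ∃ C : ℝ≥0∞, C ≠ ∞ ∧ ∀ ε : ℝ, 0 < ε → ∀ F : Ph → ℝ≥0∞, Measurable F →
      ∫⁻ T in OKs Φ ε T₀, F (ln Φ ε T) ∂(tree (GC.inten f₀ ε) L) ≤
        muE ε * (C * ∫⁻ l : Ph, gw (b / 2) l.2 * F l) := by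
  obtain ⟨C, hC, h⟩ := ML.crude_tree hΦ hg hb hT hM hf L
  refine ⟨C * (1 + L * ENNReal.ofReal T₀), ENNReal.mul_ne_top hC (ENNReal.add_ne_top.2
    ⟨ENNReal.one_ne_top, ENNReal.mul_ne_top (ENNReal.natCast_ne_top L) ENNReal.ofReal_ne_top⟩),
    fun ε hε F hF => ?_⟩
  have h1 := h ε hε (fun σ => F σ.2.1) (hF.comp (measurable_fst.comp measurable_snd))
  refine le_trans h1 (le_of_eq ?_)
  have e0 : muE ε = ENNReal.ofReal (mu ε) := rfl
  rw [e0]
  simp only [lintegral_const, Measure.restrict_apply_univ, Real.volume_Icc, sub_zero,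
    Finset.sum_const, Nat.card_Icc, add_tsub_cancel_right, nsmul_eq_mul]
  have e1 : ∫⁻ l : Ph, CT.g1 (b / 2) l.2 * F l = ∫⁻ l : Ph, gw (b / 2) l.2 * F l := rfl
  rw [e1]
  ring

/-- The Gaussian moment of the root lines. -/
theorem exp_mass_le (hΦ : IsPotential Φ) {f₀ : Ph → ℝ} {κ b T₀ M₀ : ℝ} (hg : GoodDatum f₀ κ)
    (hb : 0 < b) (hT : 0 < T₀) (hM : 0 ≤ M₀) (hf : ∀ z, f₀ z ≤ M₀ * Real.exp (-b * ‖z.2‖ ^ 2))
    (hx : ∀ v : E3, ∫⁻ x : E3, ENNReal.ofReal (f₀ (x, v)) ≤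
      ENNReal.ofReal (M₀ * Real.exp (-b * ‖v‖ ^ 2))) (L : ℕ) :
    ∃ C : ℝ≥0∞, C ≠ ∞ ∧ ∀ ε : ℝ, 0 < ε →
      ∫⁻ T in OKs Φ ε T₀, eT Φ ε (b / 8) T ∂(tree (GC.inten f₀ ε) L) ≤ muE ε * C := by
  have hwe : ∀ (c' : ℝ) (v : E3), wB c' T₀ 1 0 v =
      ENNReal.ofReal (Real.exp (c' * ‖v‖ ^ 2)) := by
    intro c' v
    unfold wB bt
    congr 2
    ring
  have hc0 : ∫⁻ z, wB (b / 4) T₀ 1 0 z.2 ∂(law f₀) ≠ ∞ := by
    simp only [hwe]
    exact lintegral_exp_law_ne_top hg.meas hb (by linarith) hx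
  obtain ⟨C, hC, h⟩ := mass_OKs_le hΦ hg hb hT hM hf (c := b / 4) (by positivity) le_rfl hc0 L
  refine ⟨ENNReal.ofReal (Real.exp (1 * T₀)) * C, ENNReal.mul_ne_top ENNReal.ofReal_ne_top hC,
    fun ε hε => ?_⟩
  have h1 : ∫⁻ T in OKs Φ ε T₀, eT Φ ε (b / 8) T ∂(tree (GC.inten f₀ ε) L) ≤
      ∫⁻ T in OKs Φ ε T₀, ENNReal.ofReal (Real.exp (1 * T₀)) *
        wB (b / 4) T₀ 1 (ext Φ ε T) (ln Φ ε T).2 ∂(tree (GC.inten f₀ ε) L) := by
    refine setLIntegral_mono' (measurableSet_OKs hΦ hε.ne' T₀) fun T hT' => ?_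
    have h2 := eT_le (Φ := Φ) (ε := ε) (c := b / 4) (T₀ := T₀) (Λ := 1) (by positivity) hT
      zero_le_one (T := T) hT'.2
    have e : b / 4 / 2 = b / 8 := by ring
    rwa [e] at h2
  refine h1.trans ?_
  rw [lintegral_const_mul' _ _ ENNReal.ofReal_ne_top]
  calc _ ≤ ENNReal.ofReal (Real.exp (1 * T₀)) * (muE ε * C) := mul_le_mul_right (h ε hε) _
    _ = _ := by ring

/-- The weight of a pair is at most the product of two weights. -/
theorem wqP_le {v v' : E3} : ENNReal.ofReal (1 + (‖v‖ ^ 2 + ‖v'‖ ^ 2)) ≤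
    ENNReal.ofReal (1 + ‖v‖ ^ 2) * ENNReal.ofReal (1 + ‖v'‖ ^ 2) := by
  rw [← ENNReal.ofReal_mul (by positivity)]
  apply ENNReal.ofReal_le_ofReal
  nlinarith [mul_nonneg (sq_nonneg ‖v‖) (sq_nonneg ‖v'‖)]

/-- The quadratic weight is absorbed by the Gaussians. -/
theorem exists_quad_le {c : ℝ} (hc : 0 < c) : ∃ C : ℝ≥0∞, C ≠ ∞ ∧ ∀ (a : ℝ) (v : E3),
    ENNReal.ofReal (1 + ‖v‖ ^ 2) * ENNReal.ofReal (Real.exp (a * ‖v‖ ^ 2)) ≤
      C * ENNReal.ofReal (Real.exp ((a + c) * ‖v‖ ^ 2)) := by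
  obtain ⟨C, hC, h⟩ := ML.poly_le_exp 1 hc
  refine ⟨ENNReal.ofReal C, ENNReal.ofReal_ne_top, fun a v => ?_⟩
  rw [← ENNReal.ofReal_mul (by positivity), ← ENNReal.ofReal_mul hC]
  apply ENNReal.ofReal_le_ofReal
  have h1 := h (‖v‖ ^ 2) (sq_nonneg _)
  rw [pow_one] at h1
  calc (1 + ‖v‖ ^ 2) * Real.exp (a * ‖v‖ ^ 2)
      ≤ C * Real.exp (c * ‖v‖ ^ 2) * Real.exp (a * ‖v‖ ^ 2) := by gcongr
    _ = C * Real.exp ((a + c) * ‖v‖ ^ 2) := by
        rw [mul_assoc, ← Real.exp_add]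
        congr 2
        ring

theorem measurable_pair_line (hΦ : IsPotential Φ) (hε : 0 < ε) {G : Ph → Ph → ℝ≥0∞}
    (hG : Measurable fun q : Ph × Ph => G q.1 q.2) (x : CTree) :
    Measurable fun y : CTree => G (ln Φ ε x) (ln Φ ε y) :=
  hG.comp (measurable_const.prodMk (measurable_ln hΦ hε.ne'))

/-- **The pairs of trees which make a slow collision.** -/
theorem slow_le (hΦ : IsPotential Φ) {f₀ : Ph → ℝ} {κ b T₀ M₀ : ℝ} (hg : GoodDatum f₀ κ)
    (hb : 0 < b) (hT : 0 < T₀) (hM : 0 ≤ M₀) (hf : ∀ z, f₀ z ≤ M₀ * Real.exp (-b * ‖z.2‖ ^ 2))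
    (hx : ∀ v : E3, ∫⁻ x : E3, ENNReal.ofReal (f₀ (x, v)) ≤
      ENNReal.ofReal (M₀ * Real.exp (-b * ‖v‖ ^ 2))) (L : ℕ) {δ : ℝ} (hδ : 0 < δ)
    {ρ : ℝ≥0∞} (hρ : 0 < ρ) : ∀ᶠ ε in 𝓝[>] (0 : ℝ), (muE ε)⁻¹ * ∫⁻ x in OKs Φ ε T₀,
      ∫⁻ y in OKs Φ ε T₀, wqP Φ ε x y * ind (SlowP Φ ε δ T₀ (ln Φ ε x, ln Φ ε y))
        ∂(tree (GC.inten f₀ ε) L) ∂(tree (GC.inten f₀ ε) L) ≤ ρ := by
  obtain ⟨C₁, hC₁, h₁⟩ := crude_line hΦ hg hb hT.le hM hf L
  obtain ⟨C₂, hC₂, h₂⟩ := exp_mass_le hΦ hg hb hT hM hf hx L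
  obtain ⟨C₃, hC₃, h₃⟩ := exists_quad_le (c := b / 16) (by positivity)
  have hb1 : 0 < b / 16 := by positivity
  have hb2 : 0 < b / 16 / 2 := by positivity
  set K : ℝ≥0∞ := C₁ * C₃ * ENNReal.ofReal T₀ * C₃ * C₂ with hK
  have hKt : K ≠ ∞ := ENNReal.mul_ne_top (ENNReal.mul_ne_top (ENNReal.mul_ne_top
    (ENNReal.mul_ne_top hC₁ hC₃) ENNReal.ofReal_ne_top) hC₃) hC₂
  -- the bound, for every `ε`
  have key : ∀ ε : ℝ, 0 < ε → (muE ε)⁻¹ * ∫⁻ x in OKs Φ ε T₀,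
      ∫⁻ y in OKs Φ ε T₀, wqP Φ ε x y * ind (SlowP Φ ε δ T₀ (ln Φ ε x, ln Φ ε y))
        ∂(tree (GC.inten f₀ ε) L) ∂(tree (GC.inten f₀ ε) L) ≤
      K * slo Φ (b / 16 / 2) (δ / ε) := by
    intro ε hε
    set S := slo Φ (b / 16 / 2) (δ / ε) with hS
    have hin : ∀ x : CTree, ∫⁻ y in OKs Φ ε T₀, wqP Φ ε x y *
        ind (SlowP Φ ε δ T₀ (ln Φ ε x, ln Φ ε y)) ∂(tree (GC.inten f₀ ε) L) ≤
        C₁ * C₃ * ENNReal.ofReal T₀ * C₃ * S * eT Φ ε (b / 8) x := by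
      intro x
      set l := ln Φ ε x with hl
      have hmF : Measurable fun l' : Ph => ENNReal.ofReal (1 + (‖l.2‖ ^ 2 + ‖l'.2‖ ^ 2)) *
          ind (SlowP Φ ε δ T₀ (l, l')) := by
        have a1 : Measurable fun l' : Ph => ENNReal.ofReal (1 + (‖l.2‖ ^ 2 + ‖l'.2‖ ^ 2)) :=
          ENNReal.measurable_ofReal.comp (measurable_const.add
            (measurable_const.add (measurable_snd.norm.pow_const 2)))
        have a2 : Measurable fun l' : Ph => ind (SlowP Φ ε δ T₀ (l, l')) :=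
          measurable_ind ((measurable_const.prodMk measurable_id)
            (measurableSet_SlowP hΦ δ T₀))
        exact a1.mul a2
      have k1 := h₁ ε hε _ hmF
      have k2 : ∫⁻ l' : Ph, gw (b / 2) l'.2 * (ENNReal.ofReal (1 + (‖l.2‖ ^ 2 + ‖l'.2‖ ^ 2)) *
          ind (SlowP Φ ε δ T₀ (l, l'))) ≤ ENNReal.ofReal (1 + ‖l.2‖ ^ 2) * C₃ *
          ∫⁻ l' : Ph, gw (b / 16) l'.2 * ind (SlowP Φ ε δ T₀ (l, l')) := by
        rw [← lintegral_const_mul' _ _ (ENNReal.mul_ne_top ENNReal.ofReal_ne_top hC₃)]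
        refine lintegral_mono fun l' => ?_
        have k3 : ENNReal.ofReal (1 + ‖l'.2‖ ^ 2) * gw (b / 2) l'.2 ≤ C₃ * gw (b / 16) l'.2 := by
          refine (h₃ (-(b / 2)) l'.2).trans (mul_le_mul_right ?_ _)
          unfold gw
          apply ENNReal.ofReal_le_ofReal
          apply Real.exp_le_exp.2
          nlinarith [sq_nonneg ‖l'.2‖]
        calc gw (b / 2) l'.2 * (ENNReal.ofReal (1 + (‖l.2‖ ^ 2 + ‖l'.2‖ ^ 2)) *
              ind (SlowP Φ ε δ T₀ (l, l')))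
            ≤ gw (b / 2) l'.2 * ((ENNReal.ofReal (1 + ‖l.2‖ ^ 2) *
              ENNReal.ofReal (1 + ‖l'.2‖ ^ 2)) * ind (SlowP Φ ε δ T₀ (l, l'))) :=
              mul_le_mul_right (mul_le_mul_left wqP_le _) _
          _ = ENNReal.ofReal (1 + ‖l.2‖ ^ 2) * (ENNReal.ofReal (1 + ‖l'.2‖ ^ 2) *
              gw (b / 2) l'.2) * ind (SlowP Φ ε δ T₀ (l, l')) := by ring
          _ ≤ ENNReal.ofReal (1 + ‖l.2‖ ^ 2) * (C₃ * gw (b / 16) l'.2) *
              ind (SlowP Φ ε δ T₀ (l, l')) :=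
              mul_le_mul_left (mul_le_mul_right k3 _) _
          _ = _ := by ring
      have k4 := slow_flux hΦ hε (b := b / 16) (T := T₀) (δ := δ) hb1 hT.le l
      have k5 : ENNReal.ofReal (1 + ‖l.2‖ ^ 2) * ENNReal.ofReal (Real.exp (b / 16 * ‖l.2‖ ^ 2)) ≤
          C₃ * eT Φ ε (b / 8) x := by
        refine (h₃ (b / 16) l.2).trans (le_of_eq ?_)
        unfold eT
        rw [← hl]
        congr 4
        ring
      calc ∫⁻ y in OKs Φ ε T₀, wqP Φ ε x y * ind (SlowP Φ ε δ T₀ (l, ln Φ ε y))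
            ∂(tree (GC.inten f₀ ε) L)
          ≤ muE ε * (C₁ * ∫⁻ l' : Ph, gw (b / 2) l'.2 *
            (ENNReal.ofReal (1 + (‖l.2‖ ^ 2 + ‖l'.2‖ ^ 2)) * ind (SlowP Φ ε δ T₀ (l, l')))) := k1
        _ ≤ muE ε * (C₁ * (ENNReal.ofReal (1 + ‖l.2‖ ^ 2) * C₃ * (ENNReal.ofReal (ε ^ 2) *
            (ENNReal.ofReal T₀ * (ENNReal.ofReal (Real.exp (b / 16 * ‖l.2‖ ^ 2)) * S))))) :=
            mul_le_mul_right (mul_le_mul_right (k2.trans (mul_le_mul_right k4 _)) _) _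
        _ = (muE ε * ENNReal.ofReal (ε ^ 2)) * (C₁ * C₃ * ENNReal.ofReal T₀ *
            (ENNReal.ofReal (1 + ‖l.2‖ ^ 2) * ENNReal.ofReal (Real.exp (b / 16 * ‖l.2‖ ^ 2))) *
              S) := by ring
        _ ≤ 1 * (C₁ * C₃ * ENNReal.ofReal T₀ * (C₃ * eT Φ ε (b / 8) x) * S) := by
            rw [muE_mul hε]
            gcongr
        _ = _ := by ring
    have hout : ∫⁻ x in OKs Φ ε T₀, ∫⁻ y in OKs Φ ε T₀, wqP Φ ε x y *
        ind (SlowP Φ ε δ T₀ (ln Φ ε x, ln Φ ε y)) ∂(tree (GC.inten f₀ ε) L)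
          ∂(tree (GC.inten f₀ ε) L) ≤ C₁ * C₃ * ENNReal.ofReal T₀ * C₃ * S * (muE ε * C₂) := by
      refine (lintegral_mono fun x => hin x).trans ?_
      rw [lintegral_const_mul _ (measurable_eT hΦ hε.ne' _)]
      exact mul_le_mul_right (h₂ ε hε) _
    calc _ ≤ (muE ε)⁻¹ * (C₁ * C₃ * ENNReal.ofReal T₀ * C₃ * S * (muE ε * C₂)) :=
          mul_le_mul_right hout _
      _ = (muE ε)⁻¹ * (muE ε * (C₁ * C₃ * ENNReal.ofReal T₀ * C₃ * C₂ * S)) := by ring
      _ = K * S := by rw [muE_inv_mul hε]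
  obtain ⟨n, hn⟩ := exists_slo_le hΦ hb2 (θ := ρ / (K + 1))
    (ENNReal.div_pos hρ.ne' (ENNReal.add_ne_top.2 ⟨hKt, ENNReal.one_ne_top⟩))
  have hpos : 0 < δ / (n + 1) := by positivity
  filter_upwards [Ioo_mem_nhdsGT hpos] with ε hε
  have h4 : (n : ℝ) ≤ δ / ε := by
    rw [le_div_iff₀ hε.1]
    have h5 := (lt_div_iff₀ (by positivity : (0 : ℝ) < n + 1)).1 hε.2
    nlinarith [hε.1]
  calc _ ≤ K * slo Φ (b / 16 / 2) (δ / ε) := key ε hε.1
    _ ≤ K * (ρ / (K + 1)) := mul_le_mul_right ((slo_anti h4).trans hn) _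
    _ ≤ (K + 1) * (ρ / (K + 1)) := mul_le_mul_left le_self_add _
    _ ≤ ρ := ENNReal.mul_div_le

end Vale.Agent.P119.PB
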