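import Vale.Agent.P119.ML.InI1b
import Vale.Agent.P119.PB.Slow
import Vale.Agent.P119.PB.Exh4

/-!
# P119, block PROB: the two trees of a colliding pair are alive alone (`helper776`)

* `badP_cases`: deterministic part, in terms of `DpEv`;
* `QB`, `PB2`: the indicator and the probability for a fixed pair; `PB2_tendsto`.
-/

open MeasureTheory Filter Topology Set
open scoped ENNReal NNReal

noncomputable section

namespace Vale.Agent.P119.PB.BP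

open KU M CTree KT ML Cap GC AU EX

variable {Φ : E3 → ℝ} {ε : ℝ} {f₀ : Ph → ℝ} {L : ℕ} {T : ℝ}

/-- One of the trees of the pair is not alive alone. -/
def BadAls (Φ : E3 → ℝ) (ε : ℝ) (L : ℕ) (T : ℝ) (U : Finset Src) (A B : CTree) : Prop :=
  ¬(A ∈ Als Φ ε L T U ∧ B ∈ Als Φ ε L T U)

theorem unhit_of_coT (hΦ : IsPotential Φ) (hε : 0 < ε) {w : Finset Ph} {A B : CTree}
    (hc : coT Φ ε L T (wS w) A B) :
    Unhit Φ ε L (Wc [A, B] w) [A, B] (sig Φ ε (node A B)) := by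
  have hW : (addT (wS w) (node A B) : Set Src) = Wc [A, B] w := by
    rw [coe_addT, coe_wS]
    unfold Wc
    rw [lvs_pair]
  have hf : (Wc [A, B] w).Finite := Wc_finite
  have hl := hc.live
  rw [hW] at hl
  have ha := live_left hΦ hε hf hl
  have hb := live_right hΦ hε hf hl
  have pa := alive_pre ha
  have pb := alive_pre hb
  refine ⟨?_, ?_⟩
  · rw [okF_cons, okF_cons]
    exact ⟨⟨pa.ok, pa.depth⟩, ⟨pb.ok, pb.depth⟩, fun T hT => absurd hT (by simp)⟩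
  · rw [noHit_cons]
    exact ⟨((alive_iff_noHit hΦ hε hf).1 ha).2, ((alive_iff_noHit hΦ hε hf).1 hb).2⟩

theorem hit_of_not_als (hΦ : IsPotential Φ) (hε : 0 < ε) {w : Finset Ph} {A : CTree} {h : ℝ}
    (h1 : ok Φ ε A) (h2 : A.depth ≤ L) (h3 : ext Φ ε A ≤ T) (h4 : ext Φ ε A ≤ h)
    (hn : A ∉ Als Φ ε L T (wS w)) : ¬NoHit Φ ε L (Wc [A] w) [A] h := by
  intro hno
  refine hn ⟨h1, h2, h3, ?_⟩
  have hW : (addT (wS w) A : Set Src) = Wc [A] w := by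
    rw [coe_addT, coe_wS]
    unfold Wc
    rw [lvs_cons, lvs_nil, union_empty]
  have hf : (Wc [A] w).Finite := Wc_finite
  rw [hW]
  exact alive_of_noHit hΦ hε hf
    (fun T hT => by rw [List.mem_singleton] at hT; rw [hT]; exact ⟨h1, h2⟩)
    lvs_subset_Wc (hno.mono h4) (List.mem_singleton_self A) le_rfl

/-- **Deterministic part.** -/
theorem badP_cases (hΦ : IsPotential Φ) (hε : 0 < ε) {w : Finset Ph} {A B : CTree} {h : ℝ}
    (hc : coT Φ ε L T (wS w) A B) (hb : BadAls Φ ε L T (wS w) A B) (hA : ext Φ ε A ≤ h)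
    (hB : ext Φ ε B ≤ h) (hh : h ≤ sig Φ ε (node A B)) :
    DpEv Φ ε L [B] [] A h w ∨ DpEv Φ ε L [A] [] B h w := by
  have h1 := (unhit_of_coT hΦ hε hc).mono hh
  have hT := hh.trans hc.sig_le
  have okA := h1.1 A (by simp)
  have okB := h1.1 B (by simp)
  have hnil : ∀ W : Set Src, Unhit Φ ε L W [] h := fun W =>
    ⟨fun T hT => absurd hT (by simp), fun T hT => absurd hT (by simp)⟩
  by_cases hA' : A ∈ Als Φ ε L T (wS w)
  · have hB' : B ∉ Als Φ ε L T (wS w) := fun h' => hb ⟨hA', h'⟩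
    refine Or.inr ⟨h1, hnil _, ?_⟩
    exact hit_of_not_als hΦ hε okB.1 okB.2 (hB.trans hT) hB hB'
  · refine Or.inl ⟨?_, hnil _, ?_⟩
    · have h2 : Wc ([B] ++ [A]) w = Wc [A, B] w := Wc_congr (by
        change lvs [B, A] = lvs [A, B]
        rw [lvs_pair, lvs_pair']) w
      rw [h2]
      change Unhit Φ ε L _ [B, A] h
      rw [unhit_cons] at h1 ⊢
      exact ⟨h1.2, h1.1⟩
    · exact hit_of_not_als hΦ hε okA.1 okA.2 (hA.trans hT) hA hA'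

/-! ### The probability for a fixed pair -/

/-- The indicator of the bad event for the pair with parameters `x`. -/
@[irreducible] def QB (Φ : E3 → ℝ) (L : ℕ) (T : ℝ) (a b : Shape) (ε : ℝ)
    (x : Ph × (ℝ × ML.XP a b)) (c : Conf Ph) : ℝ≥0∞ :=
  ind (coT Φ ε L T (wS (pts c)) (nA Φ ε a b x.2.1 x.1 x.2.2) (nB Φ ε a b x.2.1 x.1 x.2.2) ∧
    BadAls Φ ε L T (wS (pts c)) (nA Φ ε a b x.2.1 x.1 x.2.2) (nB Φ ε a b x.2.1 x.1 x.2.2))

theorem QB_def (a b : Shape) (ε : ℝ) (x : Ph × (ℝ × ML.XP a b)) (c : Conf Ph) :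
    QB Φ L T a b ε x c =
      ind (coT Φ ε L T (wS (pts c)) (nA Φ ε a b x.2.1 x.1 x.2.2) (nB Φ ε a b x.2.1 x.1 x.2.2) ∧
    BadAls Φ ε L T (wS (pts c)) (nA Φ ε a b x.2.1 x.1 x.2.2) (nB Φ ε a b x.2.1 x.1 x.2.2)) := by
  unfold QB
  rfl

theorem QB_le_one (a b : Shape) (ε : ℝ) (x : Ph × (ℝ × ML.XP a b)) (c : Conf Ph) :
    QB Φ L T a b ε x c ≤ 1 := by
  rw [QB_def]
  exact ind_le_one _

theorem measurableSet_bad (hΦ : IsPotential Φ) (hε : 0 < ε) {X : Type*} [MeasurableSpace X]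
    {c : X → Conf Ph} {A B : X → CTree} (hc : Measurable c) (hA : Measurable A)
    (hB : Measurable B) :
    MeasurableSet {q | coT Φ ε L T (wS (pts (c q))) (A q) (B q) ∧
      BadAls Φ ε L T (wS (pts (c q))) (A q) (B q)} := by
  have hU : MM.RS fun q => ((wS (pts (c q)) : Finset Src) : Set Src) := RM.rs_wS hc
  have h1 := measurableSet_coT (L := L) hΦ hε hU hA hB (measurable_const (a := T))
  have h2 := measurableSet_alT (L := L) hΦ hε hU hA (measurable_const (a := T))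
  have h3 := measurableSet_alT (L := L) hΦ hε hU hB (measurable_const (a := T))
  exact h1.inter (h2.inter h3).compl

theorem measurable_nAx (hΦ : IsPotential Φ) (ε : ℝ) (a b : Shape) :
    Measurable fun x : Ph × (ℝ × ML.XP a b) => nA Φ ε a b x.2.1 x.1 x.2.2 := by
  have h1 : Measurable fun x : Ph × (ℝ × ML.XP a b) => ((x.1, x.2.1), x.2.2.1) := by fun_prop
  have h2 := (measurable_nL hΦ ε).comp h1
  exact (measurable_mkL a).comp ((measurable_bk hΦ ε a).comp (h2.fst.prodMk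
    (by fun_prop : Measurable fun x : Ph × (ℝ × ML.XP a b) => x.2.2.2.1)))

theorem measurable_nBx (hΦ : IsPotential Φ) (ε : ℝ) (a b : Shape) :
    Measurable fun x : Ph × (ℝ × ML.XP a b) => nB Φ ε a b x.2.1 x.1 x.2.2 := by
  have h1 : Measurable fun x : Ph × (ℝ × ML.XP a b) => ((x.1, x.2.1), x.2.2.1) := by fun_prop
  have h2 := (measurable_nL hΦ ε).comp h1
  exact (measurable_mkL b).comp ((measurable_bk hΦ ε b).comp (h2.snd.prodMk
    (by fun_prop : Measurable fun x : Ph × (ℝ × ML.XP a b) => x.2.2.2.2)))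

theorem measurable_QB (hΦ : IsPotential Φ) (hε : 0 < ε) (a b : Shape) :
    Measurable fun p : (Ph × (ℝ × ML.XP a b)) × Conf Ph => QB Φ L T a b ε p.1 p.2 := by
  simp only [QB_def]
  exact measurable_ind (measurableSet_bad hΦ hε measurable_snd
    ((measurable_nAx hΦ ε a b).comp measurable_fst)
    ((measurable_nBx hΦ ε a b).comp measurable_fst))

/-- The probability of the bad event for the pair with parameters `x`. -/
@[irreducible] def PB2 (Φ : E3 → ℝ) (f₀ : Ph → ℝ) (L : ℕ) (T : ℝ) (a b : Shape) (ε : ℝ)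
    (x : Ph × (ℝ × ML.XP a b)) : ℝ≥0∞ :=
  ∫⁻ c, QB Φ L T a b ε x c ∂(PP f₀ ε)

theorem PB2_def (a b : Shape) (ε : ℝ) (x : Ph × (ℝ × ML.XP a b)) : PB2 Φ f₀ L T a b ε x =
    ∫⁻ c, QB Φ L T a b ε x c ∂(PP f₀ ε) := by
  unfold PB2
  rfl

theorem measurable_PB2 (hΦ : IsPotential Φ) (hε : 0 < ε) [SFinite (PP f₀ ε)] (a b : Shape) :
    Measurable fun x => PB2 Φ f₀ L T a b ε x := by
  simp only [PB2_def]
  exact (measurable_QB hΦ hε a b).lintegral_prod_right'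

theorem PB2_le_one {κ : ℝ} (hg : GoodDatum f₀ κ) (a b : Shape) (x : Ph × (ℝ × ML.XP a b)) :
    PB2 Φ f₀ L T a b ε x ≤ 1 := by
  have := isProbability_PP (ε := ε) hg
  rw [PB2_def]
  calc ∫⁻ c, QB Φ L T a b ε x c ∂(PP f₀ ε)
      ≤ ∫⁻ _, 1 ∂(PP f₀ ε) := lintegral_mono fun c => QB_le_one a b ε x c
    _ = 1 := by rw [lintegral_one, measure_univ]

/-- The collision begins after `T`. -/
theorem PB2_eq_zero (hΦ : IsPotential Φ) (hε : 0 < ε) {a b : Shape} {x : Ph × (ℝ × ML.XP a b)}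
    (hv : nvw Φ a b x.1.2 x.2.2 ≠ 0) (h : T < x.2.1 - ε * dur Φ x.1.2 x.2.2.1) :
    PB2 Φ f₀ L T a b ε x = 0 := by
  rw [PB2_def, ← lintegral_zero (μ := PP f₀ ε)]
  refine lintegral_congr fun c => ?_
  rw [QB_def]
  refine ind_of_not fun h' => ?_
  have h1 := h'.1.sig_le
  rw [sig_node hΦ hε.ne' hv] at h1
  exact absurd h1 (not_le.2 h)

/-- **The probability for a fixed pair.** -/
theorem PB2_le (hΦ : IsPotential Φ) (hε : 0 < ε) {a b : Shape}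
    {x : Ph × (ℝ × ML.XP a b)} (hv : nvw Φ a b x.1.2 x.2.2 ≠ 0) {h : ℝ}
    (ha : KT.ex ε a (nV Φ x.1.2 x.2.2.1).1 x.2.2.2.1 ≤ h)
    (hb : KT.ex ε b (nV Φ x.1.2 x.2.2.1).2 x.2.2.2.2 ≤ h)
    (hh : h ≤ x.2.1 - ε * dur Φ x.1.2 x.2.2.1) :
    PB2 Φ f₀ L T a b ε x ≤
      ncmp ε f₀ [nA Φ ε a b x.2.1 x.1 x.2.2, nB Φ ε a b x.2.1 x.1 x.2.2] +
      (Dp Φ ε L f₀ [nB Φ ε a b x.2.1 x.1 x.2.2] [] (nA Φ ε a b x.2.1 x.1 x.2.2) h +
      Dp Φ ε L f₀ [nA Φ ε a b x.2.1 x.1 x.2.2] [] (nB Φ ε a b x.2.1 x.1 x.2.2) h) := by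
  set A := nA Φ ε a b x.2.1 x.1 x.2.2 with hA
  set B := nB Φ ε a b x.2.1 x.1 x.2.2 with hB
  have hsig : CTree.sig Φ ε (CTree.node A B) = x.2.1 - ε * dur Φ x.1.2 x.2.2.1 :=
    sig_node hΦ hε.ne' hv
  have heA : CTree.ext Φ ε A = KT.ex ε a (nV Φ x.1.2 x.2.2.1).1 x.2.2.2.1 := ext_nA hΦ hε.ne' hv
  have heB : CTree.ext Φ ε B = KT.ex ε b (nV Φ x.1.2 x.2.2.1).2 x.2.2.2.2 := ext_nB hΦ hε.ne' hv
  rw [PB2_def, Dp_eq, Dp_eq]
  unfold ncmp
  have m1 := measurable_ncmp (ε := ε) [A, B]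
  have m2 := measurable_dpEv (L := L) hΦ hε [B] [] A h
  rw [← lintegral_add_left m2, ← lintegral_add_left m1]
  refine lintegral_mono fun c => ?_
  beta_reduce
  rw [QB_def]
  by_cases hI : coT Φ ε L T (wS (pts c)) A B ∧ BadAls Φ ε L T (wS (pts c)) A B
  swap
  · rw [ind_of_not hI]
    exact zero_le
  rw [ind_of hI]
  by_cases hc : CmpF ε [A, B] (pts c)
  swap
  · rw [ML.ind_of_true hc]
    exact le_self_add
  have hc' : CmpF ε ([B] ++ A :: []) (pts c) := cmpF_mono (by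
    change lvs [B, A] ⊆ lvs [A, B]
    rw [lvs_pair, lvs_pair']) hc
  have hc'' : CmpF ε ([A] ++ B :: []) (pts c) := hc
  rcases badP_cases hΦ hε hI.1 hI.2 (h := h) (heA.le.trans ha) (heB.le.trans hb)
    (by rw [hsig]; exact hh) with e | e
  · rw [ML.ind_of_true hc', ML.ind_of_true e, one_mul]
    exact (le_self_add (a := (1 : ℝ≥0∞))).trans le_add_self
  · rw [ML.ind_of_true hc'', ML.ind_of_true e, one_mul]
    exact (le_add_self (a := (1 : ℝ≥0∞))).trans le_add_self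

/-- **Convergence of the probability to `0`, for a fixed pair.** -/
theorem PB2_tendsto (hΦ : IsPotential Φ) {a b : Shape}
    {x : Ph × (ℝ × ML.XP a b)} (hv : nvw Φ a b x.1.2 x.2.2 ≠ 0) (ht : ntk Φ 0 a b x.2.1 x.1.2 x.2.2)
    (hT : x.2.1 ≠ T)
    (hN : x.2.1 < T → Tendsto
      (fun ε => ncmp ε f₀ [nA Φ ε a b x.2.1 x.1 x.2.2, nB Φ ε a b x.2.1 x.1 x.2.2])
      (𝓝[>] 0) (𝓝 0))
    (hD1 : x.2.1 < T → ∀ᶠ δ in 𝓝[>] (0 : ℝ), Tendsto (fun ε => Dp Φ ε L f₀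
      [nB Φ ε a b x.2.1 x.1 x.2.2] [] (nA Φ ε a b x.2.1 x.1 x.2.2) (x.2.1 - δ)) (𝓝[>] 0) (𝓝 0))
    (hD2 : x.2.1 < T → ∀ᶠ δ in 𝓝[>] (0 : ℝ), Tendsto (fun ε => Dp Φ ε L f₀
      [nA Φ ε a b x.2.1 x.1 x.2.2] [] (nB Φ ε a b x.2.1 x.1 x.2.2) (x.2.1 - δ)) (𝓝[>] 0) (𝓝 0)) :
    Tendsto (fun ε => PB2 Φ f₀ L T a b ε x) (𝓝[>] 0) (𝓝 0) := by
  have hid : Tendsto (fun ε : ℝ => ε) (𝓝[>] 0) (𝓝 0) := nhdsWithin_le_nhds
  have hsl : Tendsto (fun ε : ℝ => x.2.1 - ε * dur Φ x.1.2 x.2.2.1) (𝓝[>] 0) (𝓝 x.2.1) := by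
    have h := (tendsto_const_nhds (x := x.2.1)).sub (hid.mul_const (dur Φ x.1.2 x.2.2.1))
    rw [zero_mul, sub_zero] at h
    exact h
  rcases lt_or_gt_of_ne hT with hT | hT
  swap
  · refine tendsto_const_nhds.congr' ?_
    filter_upwards [hsl.eventually (lt_mem_nhds hT), self_mem_nhdsWithin] with ε h1 hε
    exact (PB2_eq_zero hΦ hε hv h1).symm
  have hN := hN hT
  obtain ⟨-, ha, hb⟩ := ht
  rw [zero_mul, sub_zero] at ha hb
  have e1 : ∀ᶠ δ in 𝓝[>] (0 : ℝ), KT.ex 0 a (nV Φ x.1.2 x.2.2.1).1 x.2.2.2.1 < x.2.1 - δ := by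
    have h : Tendsto (fun δ : ℝ => x.2.1 - δ) (𝓝[>] 0) (𝓝 (x.2.1 - 0)) := hid.const_sub x.2.1
    rw [sub_zero] at h
    exact h.eventually (lt_mem_nhds ha)
  have e2 : ∀ᶠ δ in 𝓝[>] (0 : ℝ), KT.ex 0 b (nV Φ x.1.2 x.2.2.1).2 x.2.2.2.2 < x.2.1 - δ := by
    have h : Tendsto (fun δ : ℝ => x.2.1 - δ) (𝓝[>] 0) (𝓝 (x.2.1 - 0)) := hid.const_sub x.2.1
    rw [sub_zero] at h
    exact h.eventually (lt_mem_nhds hb)
  obtain ⟨δ, ⟨⟨⟨h1, h2⟩, h3⟩, h4⟩, hδ⟩ :=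
    ((((hD1 hT).and (hD2 hT)).and e1).and e2 |>.and self_mem_nhdsWithin).exists
  have hδ0 : 0 < δ := hδ
  have g := hN.add (h1.add h2)
  rw [zero_add, zero_add] at g
  have f1 := (tendsto_ex hid a (nV Φ x.1.2 x.2.2.1).1 x.2.2.2.1).eventually_lt_const
    (by rw [← KT.ex_zero (v := (nV Φ x.1.2 x.2.2.1).1)]; exact h3)
  have f2 := (tendsto_ex hid b (nV Φ x.1.2 x.2.2.1).2 x.2.2.2.2).eventually_lt_const
    (by rw [← KT.ex_zero (v := (nV Φ x.1.2 x.2.2.1).2)]; exact h4)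
  have f3 := hsl.eventually (lt_mem_nhds (show x.2.1 - δ < x.2.1 by linarith))
  refine tendsto_of_tendsto_of_tendsto_of_le_of_le' tendsto_const_nhds g
    (Eventually.of_forall fun _ => zero_le) ?_
  filter_upwards [f1, f2, f3, self_mem_nhdsWithin] with ε k1 k2 k3 hε
  exact PB2_le hΦ hε hv k1.le k2.le k3.le

end Vale.Agent.P119.PB.BP
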