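import Vale.Agent.P119.PB.BadPa

/-!
# P119, block PROB: the two trees of a colliding pair are alive alone (`helper776`)

* `f2`: the datum with the quadratic weight; `nW_weight`;
* `ae_tvol_succ`: windows.
-/

open MeasureTheory Filter Topology Set
open scoped ENNReal NNReal

noncomputable section

namespace Vale.Agent.P119.PB.BP

open KU M CTree KT ML Cap GC AU EX

variable {Φ : E3 → ℝ} {ε : ℝ} {f₀ : Ph → ℝ} {L : ℕ} {T : ℝ}

/-! ### The quadratic weight -/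

/-- The datum with the quadratic weight. -/
def f2 (f₀ : Ph → ℝ) (z : Ph) : ℝ := (1 + ‖z.2‖ ^ 2) * f₀ z

theorem fh_f2 (z : Ph) : ML.fh (f2 f₀) z = ENNReal.ofReal (1 + ‖z.2‖ ^ 2) * ML.fh f₀ z :=
  ENNReal.ofReal_mul (by positivity)

theorem enL_nonneg : ∀ (τ : Shape) (z : LD τ), 0 ≤ enL τ z
  | .leaf, _ => sq_nonneg _
  | .node a b, z => add_nonneg (enL_nonneg a z.1) (enL_nonneg b z.2)

theorem enP_nonneg : ∀ (τ : Shape) (p : PD τ), 0 ≤ enP τ p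
  | .leaf, _ => le_rfl
  | .node a b, p => add_nonneg (sq_nonneg _) (add_nonneg (enP_nonneg a p.2.1) (enP_nonneg b p.2.2))

theorem lprod_weight : ∀ (τ : Shape) (z : LD τ),
    ENNReal.ofReal (1 + enL τ z) * lprod (ML.fh f₀) τ z ≤ lprod (ML.fh (f2 f₀)) τ z
  | .leaf, z => (fh_f2 (f₀ := f₀) z).ge
  | .node a b, z => by
    have h1 := lprod_weight a z.1
    have h2 := lprod_weight b z.2
    have h3 := enL_nonneg a z.1
    have h4 := enL_nonneg b z.2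
    have h5 : ENNReal.ofReal (1 + (enL a z.1 + enL b z.2)) ≤
        ENNReal.ofReal (1 + enL a z.1) * ENNReal.ofReal (1 + enL b z.2) := by
      rw [← ENNReal.ofReal_mul (by positivity)]
      apply ENNReal.ofReal_le_ofReal
      nlinarith [mul_nonneg h3 h4]
    calc ENNReal.ofReal (1 + (enL a z.1 + enL b z.2)) *
          (lprod (ML.fh f₀) a z.1 * lprod (ML.fh f₀) b z.2)
        ≤ (ENNReal.ofReal (1 + enL a z.1) * ENNReal.ofReal (1 + enL b z.2)) *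
          (lprod (ML.fh f₀) a z.1 * lprod (ML.fh f₀) b z.2) := mul_le_mul_left h5 _
      _ = (ENNReal.ofReal (1 + enL a z.1) * lprod (ML.fh f₀) a z.1) *
          (ENNReal.ofReal (1 + enL b z.2) * lprod (ML.fh f₀) b z.2) := by ring
      _ ≤ _ := mul_le_mul' h1 h2

theorem lprod_ne_zero_of : ∀ (τ : Shape) (z : LD τ), lprod (ML.fh (f2 f₀)) τ z ≠ 0 →
    lprod (ML.fh f₀) τ z ≠ 0
  | .leaf, z => fun h h' => h ((fh_f2 (f₀ := f₀) z).trans (by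
      have h1 : ML.fh f₀ z = 0 := h'
      rw [h1, mul_zero]))
  | .node a b, z => fun h => by
    have h1 : lprod (ML.fh (f2 f₀)) a z.1 * lprod (ML.fh (f2 f₀)) b z.2 ≠ 0 := h
    rw [mul_ne_zero_iff] at h1
    exact mul_ne_zero (lprod_ne_zero_of a z.1 h1.1) (lprod_ne_zero_of b z.2 h1.2)

theorem gd_f2 {M β : ℝ} (hf : Measurable f₀) (h : GD (ML.fh f₀) M β) :
    ∃ M' β' : ℝ, GD (ML.fh (f2 f₀)) M' β' := by
  obtain ⟨B, hB, hB'⟩ := pw_mul_gs_le 2 h.M0 h.β0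
  have hp : ∀ v : E3, ENNReal.ofReal (1 + ‖v‖ ^ 2) ≤ Cap.pw 2 v := fun v => by
    unfold Cap.pw
    apply ENNReal.ofReal_le_ofReal
    nlinarith [norm_nonneg v]
  refine ⟨B, β / 2, measurable_fh ?_, fun v => ?_, fun x v => ?_, fun v => ?_, hB, half_pos h.β0⟩
  · unfold f2
    exact (measurable_const.add (measurable_snd.norm.pow_const 2)).mul hf
  · have h1 : (fun x : E3 => ML.fh (f2 f₀) (x, v)) =
        fun x => ENNReal.ofReal (1 + ‖v‖ ^ 2) * ML.fh f₀ (x, v) := funext fun x => fh_f2 _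
    rw [h1]
    exact (ENNReal.continuous_const_mul ENNReal.ofReal_ne_top).comp (h.cont v)
  · rw [fh_f2]
    exact (mul_le_mul' (hp v) (h.le x v)).trans (hB' v)
  · have h1 : ∀ x : E3, ML.fh (f2 f₀) (x, v) = ENNReal.ofReal (1 + ‖v‖ ^ 2) * ML.fh f₀ (x, v) :=
      fun x => fh_f2 _
    simp only [h1]
    rw [lintegral_const_mul' _ _ ENNReal.ofReal_ne_top]
    exact (mul_le_mul' (hp v) (h.mass v)).trans (hB' v)

/-- **The weight of the pair is absorbed by the datum.** -/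
theorem nW_weight (hΦ : IsPotential Φ) {a b : Shape} {t : ℝ} {l : Ph} {ξ : ML.XP a b} :
    ENNReal.ofReal (1 + (‖(nV Φ l.2 ξ.1).1‖ ^ 2 + ‖(nV Φ l.2 ξ.1).2‖ ^ 2)) *
      ML.nW (ML.fh f₀) Φ ε a b t l ξ ≤ ML.nW (ML.fh (f2 f₀)) Φ ε a b t l ξ := by
  have h1 := lprod_weight (f₀ := f₀) a (bk Φ ε a (nL Φ ε t l ξ.1).1 ξ.2.1)
  have h2 := lprod_weight (f₀ := f₀) b (bk Φ ε b (nL Φ ε t l ξ.1).2 ξ.2.2)
  rw [enL_bk hΦ, (nL_snd t l ξ.1).1] at h1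
  rw [enL_bk hΦ, (nL_snd t l ξ.1).2] at h2
  have h3 := enP_nonneg a ξ.2.1
  have h4 := enP_nonneg b ξ.2.2
  have h5 : ENNReal.ofReal (1 + (‖(nV Φ l.2 ξ.1).1‖ ^ 2 + ‖(nV Φ l.2 ξ.1).2‖ ^ 2)) ≤
      ENNReal.ofReal (1 + (‖(nV Φ l.2 ξ.1).1‖ ^ 2 + enP a ξ.2.1)) *
        ENNReal.ofReal (1 + (‖(nV Φ l.2 ξ.1).2‖ ^ 2 + enP b ξ.2.2)) := by
    rw [← ENNReal.ofReal_mul (by positivity)]
    apply ENNReal.ofReal_le_ofReal
    have h6 : 0 ≤ ‖(nV Φ l.2 ξ.1).1‖ ^ 2 := sq_nonneg _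
    have h7 : 0 ≤ ‖(nV Φ l.2 ξ.1).2‖ ^ 2 := sq_nonneg _
    nlinarith [mul_nonneg (add_nonneg h6 h3) (add_nonneg h7 h4)]
  unfold ML.nW nlp
  calc _ ≤ (ENNReal.ofReal (1 + (‖(nV Φ l.2 ξ.1).1‖ ^ 2 + enP a ξ.2.1)) *
        ENNReal.ofReal (1 + (‖(nV Φ l.2 ξ.1).2‖ ^ 2 + enP b ξ.2.2))) *
        (nvw Φ a b l.2 ξ * (ML.ind (ntk Φ ε a b t l.2 ξ) *
          (lprod (ML.fh f₀) a (bk Φ ε a (nL Φ ε t l ξ.1).1 ξ.2.1) *
            lprod (ML.fh f₀) b (bk Φ ε b (nL Φ ε t l ξ.1).2 ξ.2.2)))) := mul_le_mul_left h5 _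
    _ = nvw Φ a b l.2 ξ * (ML.ind (ntk Φ ε a b t l.2 ξ) *
        ((ENNReal.ofReal (1 + (‖(nV Φ l.2 ξ.1).1‖ ^ 2 + enP a ξ.2.1)) *
          lprod (ML.fh f₀) a (bk Φ ε a (nL Φ ε t l ξ.1).1 ξ.2.1)) *
          (ENNReal.ofReal (1 + (‖(nV Φ l.2 ξ.1).2‖ ^ 2 + enP b ξ.2.2)) *
            lprod (ML.fh f₀) b (bk Φ ε b (nL Φ ε t l ξ.1).2 ξ.2.2)))) := by ring
    _ ≤ _ := mul_le_mul_right (mul_le_mul_right (mul_le_mul' h1 h2) _) _

theorem nW_ne_zero_of {a b : Shape} {t : ℝ} {l : Ph} {ξ : ML.XP a b}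
    (h : ML.nW (ML.fh (f2 f₀)) Φ ε a b t l ξ ≠ 0) : ML.nW (ML.fh f₀) Φ ε a b t l ξ ≠ 0 := by
  unfold ML.nW nlp at h ⊢
  rw [mul_ne_zero_iff, mul_ne_zero_iff, mul_ne_zero_iff] at h
  exact mul_ne_zero h.1 (mul_ne_zero h.2.1 (mul_ne_zero (lprod_ne_zero_of a _ h.2.2.1)
    (lprod_ne_zero_of b _ h.2.2.2)))

theorem nW_facts {g : Ph → ℝ≥0∞} {a b : Shape} {t : ℝ} {l : Ph} {ξ : ML.XP a b}
    (h : ML.nW g Φ ε a b t l ξ ≠ 0) : nvw Φ a b l.2 ξ ≠ 0 ∧ ntk Φ ε a b t l.2 ξ := by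
  unfold ML.nW at h
  rw [mul_ne_zero_iff, mul_ne_zero_iff] at h
  refine ⟨h.1, ?_⟩
  by_contra h'
  exact h.2.1 (ML.ind_of_false h')

/-! ### Windows -/

theorem tvol_prod_eq (T : ℝ) (a b : Shape) : (volume : Measure Ph).prod (tvol T a b) =
    ((volume : Measure Ph).prod ((volume : Measure ℝ).prod (xvol a b))).restrict
      (univ ×ˢ (Icc 0 T ×ˢ univ)) := by
  rw [← Measure.prod_restrict, ← Measure.prod_restrict, Measure.restrict_univ,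
    Measure.restrict_univ]

theorem ae_tvol_succ {T T' : ℝ} {a b : Shape} {P : Ph × (ℝ × ML.XP a b) → Prop}
    (h : ∀ᵐ x ∂((volume : Measure Ph).prod (tvol T a b)), P x) :
    ∀ᵐ x ∂((volume : Measure Ph).prod (tvol T' a b)), x.2.1 < T → P x := by
  have hm : ∀ S : ℝ, MeasurableSet ((univ : Set Ph) ×ˢ (Icc 0 S ×ˢ (univ : Set (ML.XP a b)))) :=
    fun S => MeasurableSet.univ.prod (measurableSet_Icc.prod MeasurableSet.univ)
  rw [tvol_prod_eq, ae_restrict_iff' (hm T)] at h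
  rw [tvol_prod_eq, ae_restrict_iff' (hm T')]
  filter_upwards [h] with x hx h1 h2
  exact hx ⟨h1.1, ⟨⟨h1.2.1.1, h2.le⟩, h1.2.2⟩⟩

theorem ae_tvol_ne (T T' : ℝ) (a b : Shape) :
    ∀ᵐ x : Ph × (ℝ × ML.XP a b) ∂((volume : Measure Ph).prod (tvol T' a b)), x.2.1 ≠ T := by
  have h := Measure.quasiMeasurePreserving_snd (μ := (volume : Measure Ph)) (ν := tvol T' a b) |>.ae
    (ae_time_ne' (ν := xvol a b) T' (c := fun _ => T) measurable_const)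
  filter_upwards [h] with x hx
  exact fun h => hx h.symm

end Vale.Agent.P119.PB.BP
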