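import Vale.Agent.P119.PB.BadPb

/-!
# P119, block PROB: the two trees of a colliding pair are alive alone (`helper776`)

* `law_bad`: the early collisions, in backward parameters; `slow_part`: the slow collisions;
* `badP_tendsto`.
-/

open MeasureTheory Filter Topology Set
open scoped ENNReal NNReal

noncomputable section

namespace Vale.Agent.P119.PB.BP

open KU M CTree KT ML Cap GC AU EX

variable {Φ : E3 → ℝ} {ε : ℝ} {f₀ : Ph → ℝ} {L : ℕ} {T : ℝ}

/-- The integrand, without the slow collisions. -/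
def GB (Φ : E3 → ℝ) (ε : ℝ) (L : ℕ) (T : ℝ) (U : Finset Src) (A B : CTree) : ℝ≥0∞ :=
  ind (coT Φ ε L T U A B) * (wqP Φ ε A B *
    (ind (BadAls Φ ε L T U A B) * ind (ext Φ ε (node A B) ≤ T + 1)))

theorem measurableSet_BadAls (hΦ : IsPotential Φ) (hε : 0 < ε) {X : Type*} [MeasurableSpace X]
    {c : X → Conf Ph} {A B : X → CTree} (hc : Measurable c) (hA : Measurable A)
    (hB : Measurable B) :
    MeasurableSet {q | BadAls Φ ε L T (wS (pts (c q))) (A q) (B q)} := by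
  have hU : MM.RS fun q => ((wS (pts (c q)) : Finset Src) : Set Src) := RM.rs_wS hc
  have h2 := measurableSet_alT (L := L) hΦ hε hU hA (measurable_const (a := T))
  have h3 := measurableSet_alT (L := L) hΦ hε hU hB (measurable_const (a := T))
  exact (h2.inter h3).compl

theorem measurable_GB (hΦ : IsPotential Φ) (hε : 0 < ε) {X : Type*} [MeasurableSpace X]
    {c : X → Conf Ph} {A B : X → CTree} (hc : Measurable c) (hA : Measurable A)
    (hB : Measurable B) :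
    Measurable fun q => GB Φ ε L T (wS (pts (c q))) (A q) (B q) := by
  have hU : MM.RS fun q => ((wS (pts (c q)) : Finset Src) : Set Src) := RM.rs_wS hc
  have h1 : Measurable fun q => ind (coT Φ ε L T (wS (pts (c q))) (A q) (B q)) :=
    measurable_ind (measurableSet_coT (L := L) hΦ hε hU hA hB (measurable_const (a := T)))
  have h2 : Measurable fun q => ind (BadAls Φ ε L T (wS (pts (c q))) (A q) (B q)) :=
    measurable_ind (measurableSet_BadAls hΦ hε hc hA hB)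
  have h3 : Measurable fun q => ext Φ ε (node (A q) (B q)) :=
    (measurable_ext hΦ hε.ne').comp (measurable_node.comp (hA.prodMk hB))
  have h4 : Measurable fun q => ind (ext Φ ε (node (A q) (B q)) ≤ T + 1) :=
    measurable_ind (measurableSet_le h3 measurable_const)
  exact h1.mul ((measurable_wqP hΦ hε hA hB).mul (h2.mul h4))

theorem measurable_onGB (hΦ : IsPotential Φ) (hε : 0 < ε) (c : Conf Ph) :
    Measurable fun S : CTree => onN (fun A B => GB Φ ε L T (wS (pts c)) A B) S := by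
  refine measurable_onN (F := fun (_ : CTree) A B => GB Φ ε L T (wS (pts c)) A B) ?_ measurable_id
  exact measurable_GB hΦ hε measurable_const (measurable_fst.comp measurable_snd)
    (measurable_snd.comp measurable_snd)

theorem GB_le (hΦ : IsPotential Φ) (hε : 0 < ε) (c : Conf Ph) {a b : Shape} (l : Ph) (t : ℝ)
    (ξ : ML.XP a b) :
    ML.nW (ML.fh f₀) Φ ε a b t l ξ * GB Φ ε L T (wS (pts c)) (nA Φ ε a b t l ξ)
        (nB Φ ε a b t l ξ) ≤
      (Icc 0 (T + 1)).indicator (fun t => pnW 0 (ML.fh (f2 f₀)) Φ ε a b (l, (t, ξ)) *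
        QB Φ L T a b ε (l, (t, ξ)) c) t := by
  by_cases hw : ML.nW (ML.fh f₀) Φ ε a b t l ξ = 0
  · rw [hw, zero_mul]; exact zero_le
  have hv := (nW_facts hw).1
  set A := nA Φ ε a b t l ξ with hA
  set B := nB Φ ε a b t l ξ with hB
  by_cases hI : coT Φ ε L T (wS (pts c)) A B ∧ BadAls Φ ε L T (wS (pts c)) A B
  swap
  · have h0 : GB Φ ε L T (wS (pts c)) A B = 0 := by
      unfold GB
      by_cases h1 : coT Φ ε L T (wS (pts c)) A B
      · rw [ind_of_not (p := BadAls Φ ε L T (wS (pts c)) A B) fun h2 => hI ⟨h1, h2⟩, zero_mul,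
          mul_zero, mul_zero]
      · rw [ind_of_not h1, zero_mul]
    rw [h0, mul_zero]; exact zero_le
  by_cases he : ext Φ ε (node A B) ≤ T + 1
  swap
  · have h0 : GB Φ ε L T (wS (pts c)) A B = 0 := by
      unfold GB
      rw [ind_of_not he, mul_zero, mul_zero, mul_zero]
    rw [h0, mul_zero]; exact zero_le
  have hext : CTree.ext Φ ε (node A B) = t := ML.ext_node hΦ hε.ne' hv
  have ht : t ∈ Icc 0 (T + 1) := by
    have h4 := ext_nonneg hΦ hε hI.1.ok
    rw [hext] at h4 he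
    exact ⟨h4, he⟩
  have hQ : QB Φ L T a b ε (l, (t, ξ)) c = 1 := by
    rw [QB_def]
    exact ind_of hI
  have hlA : (ln Φ ε A).2 = (nV Φ l.2 ξ.1).1 := by
    rw [hA, ln_nA hΦ hε.ne' hv, (nL_snd t l ξ.1).1]
  have hlB : (ln Φ ε B).2 = (nV Φ l.2 ξ.1).2 := by
    rw [hB, ln_nB hΦ hε.ne' hv, (nL_snd t l ξ.1).2]
  have hG : GB Φ ε L T (wS (pts c)) A B =
      ENNReal.ofReal (1 + (‖(nV Φ l.2 ξ.1).1‖ ^ 2 + ‖(nV Φ l.2 ξ.1).2‖ ^ 2)) := by
    unfold GB wqP
    rw [ind_of hI.1, ind_of hI.2, ind_of he, one_mul, mul_one, mul_one, hlA, hlB]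
  have hp : Cap.pw 0 l.2 = 1 := by
    unfold Cap.pw
    rw [pow_zero, ENNReal.ofReal_one]
  rw [indicator_of_mem ht, hG, hQ, mul_one]
  unfold pnW
  simp only
  rw [hp, one_mul, mul_comm]
  exact nW_weight hΦ

/-- **The early collisions in backward parameters.** -/
theorem law_bad (hΦ : IsPotential Φ) (hε : 0 < ε) (hf : Measurable f₀) (c : Conf Ph) (L' : ℕ) :
    ∫⁻ S, onN (fun A B => GB Φ ε (L' + 1) T (wS (pts c)) A B) S
        ∂(tree (GC.inten f₀ ε) (L' + 1)) ≤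
      ∑ a ∈ shapes L', ∑ b ∈ shapes L', ENNReal.ofReal (mu ε) *
        ∫⁻ x : Ph × (ℝ × ML.XP a b), pnW 0 (ML.fh (f2 f₀)) Φ ε a b x *
          QB Φ (L' + 1) T a b ε x c ∂((volume : Measure Ph).prod (tvol (T + 1) a b)) := by
  set G : CTree → ℝ≥0∞ := fun S => onN (fun A B => GB Φ ε (L' + 1) T (wS (pts c)) A B) S with hG
  have hGm : Measurable G := measurable_onGB hΦ hε c
  have hG0 : ∀ S, G S ≠ 0 → CTree.ok Φ ε S := by
    intro S hS
    cases S with
    | leaf σ => exact absurd rfl hS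
    | node A B =>
      have h1 : GB Φ ε (L' + 1) T (wS (pts c)) A B ≠ 0 := hS
      unfold GB at h1
      by_contra h2
      refine left_ne_zero_of_mul h1 (ind_of_not fun h3 => h2 h3.ok)
  have h1 : ∫⁻ S, G S ∂(tree (GC.inten f₀ ε) (L' + 1)) =
      ∑ a ∈ shapes L', ∑ b ∈ shapes L', ENNReal.ofReal (mu ε) * ∫⁻ l : Ph, ∫⁻ t : ℝ, ∫⁻ ξ,
        ML.nW (ML.fh f₀) Φ ε a b t l ξ *
          G (node (nA Φ ε a b t l ξ) (nB Φ ε a b t l ξ)) ∂(xvol a b) := by
    rw [lintegral_tree (L' + 1) hGm, sum_shapes_succ]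
    have h2 : ∫⁻ z, G (Shape.leaf.ord z) ∂(Measure.pi fun _ : Fin Shape.leaf.card =>
        GC.inten f₀ ε) = 0 := by
      have h3 : ∀ z, G (Shape.leaf.ord z) = 0 := fun z => rfl
      simp only [h3, lintegral_zero]
    rw [h2, zero_add]
    exact Finset.sum_congr rfl fun a _ => Finset.sum_congr rfl fun b _ =>
      lintegral_node_shape hΦ hε hf a b hGm hG0
  rw [h1]
  refine Finset.sum_le_sum fun a _ => Finset.sum_le_sum fun b _ => mul_le_mul' le_rfl ?_
  have hQm : Measurable fun x : Ph × (ℝ × ML.XP a b) => QB Φ (L' + 1) T a b ε x c :=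
    (measurable_QB hΦ hε a b).comp (measurable_id.prodMk measurable_const)
  have hm : Measurable fun x : Ph × (ℝ × ML.XP a b) => pnW 0 (ML.fh (f2 f₀)) Φ ε a b x *
      QB Φ (L' + 1) T a b ε x c := by
    refine (measurable_pnW hΦ (measurable_fh ?_) 0 ε a b).mul hQm
    unfold f2
    exact (measurable_const.add (measurable_snd.norm.pow_const 2)).mul hf
  rw [lintegral_prod _ hm.aemeasurable]
  refine lintegral_mono fun l => ?_
  have hml : Measurable fun z : ℝ × ML.XP a b => pnW 0 (ML.fh (f2 f₀)) Φ ε a b (l, z) *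
      QB Φ (L' + 1) T a b ε (l, z) c :=
    hm.comp (measurable_const.prodMk measurable_id : Measurable fun z : ℝ × ML.XP a b => (l, z))
  rw [lintegral_prod _ hml.aemeasurable, ← lintegral_indicator measurableSet_Icc]
  refine lintegral_mono fun t => ?_
  refine (lintegral_mono fun ξ => GB_le hΦ hε c l t ξ).trans ?_
  by_cases ht : t ∈ Icc 0 (T + 1)
  · simp only [indicator_of_mem ht]
    exact le_rfl
  · simp only [indicator_of_notMem ht, lintegral_zero]
    exact zero_le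

/-! ### The slow collisions -/

/-- The integrand of the slow collisions. -/
def SB (Φ : E3 → ℝ) (ε T : ℝ) (A B : CTree) : ℝ≥0∞ :=
  ind (A ∈ OKs Φ ε T) * (ind (B ∈ OKs Φ ε T) *
    (wqP Φ ε A B * ind (SlowP Φ ε 1 T (ln Φ ε A, ln Φ ε B))))

theorem measurable_SB (hΦ : IsPotential Φ) (hε : 0 < ε) {X : Type*} [MeasurableSpace X]
    {A B : X → CTree} (hA : Measurable A) (hB : Measurable B) :
    Measurable fun q => SB Φ ε T (A q) (B q) := by
  have h1 : Measurable fun q => ind (A q ∈ OKs Φ ε T) :=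
    measurable_ind (hA (measurableSet_OKs hΦ hε.ne' T))
  have h2 : Measurable fun q => ind (B q ∈ OKs Φ ε T) :=
    measurable_ind (hB (measurableSet_OKs hΦ hε.ne' T))
  have h3 : Measurable fun q => ind (SlowP Φ ε 1 T (ln Φ ε (A q), ln Φ ε (B q))) :=
    measurable_ind ((((measurable_ln hΦ hε.ne').comp hA).prodMk
      ((measurable_ln hΦ hε.ne').comp hB)) (measurableSet_SlowP hΦ 1 T))
  exact h1.mul (h2.mul ((measurable_wqP hΦ hε hA hB).mul h3))

theorem slow_le_SB (hΦ : IsPotential Φ) (hε : 0 < ε) {U : Finset Src} {A B : CTree} :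
    ind (coT Φ ε L T U A B) * (wqP Φ ε A B * ind (T + 1 < ext Φ ε (node A B))) ≤
      SB Φ ε T A B := by
  by_cases h1 : coT Φ ε L T U A B
  swap
  · rw [ind_of_not h1, zero_mul]; exact zero_le
  by_cases h2 : T + 1 < ext Φ ε (node A B)
  swap
  · rw [ind_of_not h2, mul_zero, mul_zero]; exact zero_le
  obtain ⟨okA, okB, -, hM, -, hsA, hsB⟩ := h1.ok
  have hs : hitT ε (ln Φ ε A, ln Φ ε B) ≤ T := h1.sig_le
  have he : T + 1 < sepT Φ ε (ln Φ ε A, ln Φ ε B) := h2
  have hA0 := ext_nonneg hΦ hε okA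
  have hSl : SlowP Φ ε 1 T (ln Φ ε A, ln Φ ε B) :=
    ⟨hM, ⟨hA0.trans_lt hsA, hs⟩, by linarith⟩
  unfold SB
  rw [ind_of h1, ind_of h2, ind_of hSl, ind_of (p := A ∈ OKs Φ ε T) ⟨okA, hsA.le.trans hs⟩,
    ind_of (p := B ∈ OKs Φ ε T) ⟨okB, hsB.le.trans hs⟩, one_mul, one_mul]

theorem lintegral_SB (hΦ : IsPotential Φ) (hε : 0 < ε) (ν : Measure CTree) :
    ∫⁻ A, ∫⁻ B, SB Φ ε T A B ∂ν ∂ν = ∫⁻ A in OKs Φ ε T, ∫⁻ B in OKs Φ ε T,
      wqP Φ ε A B * ind (SlowP Φ ε 1 T (ln Φ ε A, ln Φ ε B)) ∂ν ∂ν := by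
  have hO := measurableSet_OKs hΦ hε.ne' T
  rw [← lintegral_indicator hO]
  refine lintegral_congr fun A => ?_
  by_cases hA : A ∈ OKs Φ ε T
  · rw [indicator_of_mem hA, ← lintegral_indicator hO]
    refine lintegral_congr fun B => ?_
    unfold SB
    rw [ind_of hA, one_mul]
    by_cases hB : B ∈ OKs Φ ε T
    · rw [indicator_of_mem hB, ind_of hB, one_mul]
    · rw [indicator_of_notMem hB, ind_of_not hB, zero_mul]
  · rw [indicator_of_notMem hA, ← lintegral_zero (μ := ν)]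
    refine lintegral_congr fun B => ?_
    unfold SB
    rw [ind_of_not hA, zero_mul]

/-- **The slow collisions.** -/
theorem slow_part (hΦ : IsPotential Φ) (hε : 0 < ε) {κ : ℝ} (hg : GoodDatum f₀ κ) (L' : ℕ) :
    XP Φ ε (L' + 1) f₀ T (fun _ A B => wqP Φ ε A B * ind (T + 1 < ext Φ ε (node A B))) ≤
      ∫⁻ A in OKs Φ ε T, ∫⁻ B in OKs Φ ε T,
        wqP Φ ε A B * ind (SlowP Φ ε 1 T (ln Φ ε A, ln Φ ε B))
          ∂(tree (GC.inten f₀ ε) L') ∂(tree (GC.inten f₀ ε) L') := by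
  have := GC.isFiniteMeasure_inten (ε := ε) hg
  have := GC.isProbability_PP (ε := ε) hg
  set R := ∫⁻ A in OKs Φ ε T, ∫⁻ B in OKs Φ ε T,
        wqP Φ ε A B * ind (SlowP Φ ε 1 T (ln Φ ε A, ln Φ ε B))
          ∂(tree (GC.inten f₀ ε) L') ∂(tree (GC.inten f₀ ε) L') with hR
  have h1 : ∀ c : Conf Ph, ∫⁻ S, onN (fun A B => ind (coT Φ ε (L' + 1) T (wS (pts c)) A B) *
      (wqP Φ ε A B * ind (T + 1 < ext Φ ε (node A B)))) S ∂(tree (GC.inten f₀ ε) (L' + 1)) ≤
      R := by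
    intro c
    have hm : Measurable fun S : CTree => onN (fun A B => SB Φ ε T A B) S := by
      refine measurable_onN (F := fun (_ : CTree) A B => SB Φ ε T A B) ?_ measurable_id
      exact measurable_SB hΦ hε (measurable_fst.comp measurable_snd)
        (measurable_snd.comp measurable_snd)
    refine (lintegral_mono fun S => onN_mono (fun A B => slow_le_SB hΦ hε) S).trans ?_
    rw [lintegral_tree_succ L' hm]
    simp only [onN_leaf, onN_node, lintegral_zero, zero_add]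
    rw [lintegral_SB hΦ hε]
  unfold XP
  calc _ ≤ ∫⁻ _ : Conf Ph, R ∂(PP f₀ ε) := lintegral_mono fun c => h1 c
    _ = R := by rw [lintegral_const, measure_univ, mul_one]

/-! ### The early collisions -/

/-- The expectation of the early collisions. -/
theorem early_part (hΦ : IsPotential Φ) (hε : 0 < ε) (hf : Measurable f₀)
    [SFinite (PP f₀ ε)] (L' : ℕ) :
    XP Φ ε (L' + 1) f₀ T (fun U A B => wqP Φ ε A B *
        (ind (BadAls Φ ε (L' + 1) T U A B) * ind (ext Φ ε (node A B) ≤ T + 1))) ≤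
      ENNReal.ofReal (mu ε) * ∑ a ∈ shapes L', ∑ b ∈ shapes L',
      ∫⁻ x : Ph × (ℝ × ML.XP a b), pnW 0 (ML.fh (f2 f₀)) Φ ε a b x *
        PB2 Φ f₀ (L' + 1) T a b ε x ∂((volume : Measure Ph).prod (tvol (T + 1) a b)) := by
  unfold XP
  refine (lintegral_mono fun c => law_bad hΦ hε hf c L').trans (le_of_eq ?_)
  have hf2 : Measurable (f2 f₀) := by
    unfold f2
    exact (measurable_const.add (measurable_snd.norm.pow_const 2)).mul hf
  have hJ : ∀ a b : Shape, Measurable fun p : Conf Ph × (Ph × (ℝ × ML.XP a b)) =>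
      pnW 0 (ML.fh (f2 f₀)) Φ ε a b p.2 * QB Φ (L' + 1) T a b ε p.2 p.1 := by
    intro a b
    have h6 : Measurable fun p : Conf Ph × (Ph × (ℝ × ML.XP a b)) =>
        pnW 0 (ML.fh (f2 f₀)) Φ ε a b p.2 :=
      (measurable_pnW hΦ (measurable_fh hf2) 0 ε a b).comp measurable_snd
    have h8 : Measurable fun p : Conf Ph × (Ph × (ℝ × ML.XP a b)) => (p.2, p.1) :=
      measurable_snd.prodMk measurable_fst
    exact h6.mul ((measurable_QB hΦ hε a b).comp h8)
  have hK : ∀ a b : Shape, Measurable fun c : Conf Ph => ENNReal.ofReal (mu ε) *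
      ∫⁻ x : Ph × (ℝ × ML.XP a b), pnW 0 (ML.fh (f2 f₀)) Φ ε a b x *
        QB Φ (L' + 1) T a b ε x c ∂((volume : Measure Ph).prod (tvol (T + 1) a b)) := fun a b =>
    (hJ a b).lintegral_prod_right'.const_mul _
  rw [lintegral_finsetSum _ fun a _ => Finset.measurable_fun_sum _ fun b _ => hK a b,
    Finset.mul_sum]
  refine Finset.sum_congr rfl fun a _ => ?_
  rw [lintegral_finsetSum _ fun b _ => hK a b, Finset.mul_sum]
  refine Finset.sum_congr rfl fun b _ => ?_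
  rw [lintegral_const_mul' _ _ ENNReal.ofReal_ne_top,
    lintegral_lintegral_swap (hJ a b).aemeasurable]
  congr 1
  refine lintegral_congr fun x => ?_
  rw [PB2_def]
  have hx : Measurable fun c : Conf Ph => QB Φ (L' + 1) T a b ε x c :=
    (measurable_QB hΦ hε a b).comp (measurable_const.prodMk measurable_id)
  exact lintegral_const_mul _ hx

/-! ### The limit -/

/-- The hypotheses for a fixed pair. -/
def HypP (Φ : E3 → ℝ) (f₀ : Ph → ℝ) (L : ℕ) {a b : Shape} (x : Ph × (ℝ × ML.XP a b)) : Prop :=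
  Tendsto (fun ε => ncmp ε f₀ [nA Φ ε a b x.2.1 x.1 x.2.2, nB Φ ε a b x.2.1 x.1 x.2.2])
    (𝓝[>] 0) (𝓝 0) ∧
  (∀ᶠ δ in 𝓝[>] (0 : ℝ), Tendsto (fun ε => Dp Φ ε L f₀
    [nB Φ ε a b x.2.1 x.1 x.2.2] [] (nA Φ ε a b x.2.1 x.1 x.2.2) (x.2.1 - δ)) (𝓝[>] 0) (𝓝 0)) ∧
  (∀ᶠ δ in 𝓝[>] (0 : ℝ), Tendsto (fun ε => Dp Φ ε L f₀
    [nA Φ ε a b x.2.1 x.1 x.2.2] [] (nB Φ ε a b x.2.1 x.1 x.2.2) (x.2.1 - δ)) (𝓝[>] 0) (𝓝 0))

/-- The early collisions vanish. -/
theorem early_tendsto (hΦ : IsPotential Φ) {κ M β : ℝ} (hg : GoodDatum f₀ κ)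
    (hf : Measurable f₀) (hGD : GD (ML.fh f₀) M β) (hT : 0 ≤ T) (L' : ℕ)
    (H : ∀ a ∈ shapes L', ∀ b ∈ shapes L',
      ∀ᵐ x : Ph × (ℝ × ML.XP a b) ∂((volume : Measure Ph).prod (tvol T a b)),
        ML.nW (ML.fh f₀) Φ 0 a b x.2.1 x.1 x.2.2 ≠ 0 → HypP Φ f₀ (L' + 1) x) :
    Tendsto (fun ε => ∑ a ∈ shapes L', ∑ b ∈ shapes L',
      ∫⁻ x : Ph × (ℝ × ML.XP a b), pnW 0 (ML.fh (f2 f₀)) Φ ε a b x *
        PB2 Φ f₀ (L' + 1) T a b ε x ∂((volume : Measure Ph).prod (tvol (T + 1) a b)))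
      (𝓝[>] 0) (𝓝 0) := by
  obtain ⟨M', β', hGD'⟩ := gd_f2 hf hGD
  have h7 : Tendsto (fun ε => ∑ a ∈ shapes L', ∑ b ∈ shapes L',
      ∫⁻ x : Ph × (ℝ × ML.XP a b), pnW 0 (ML.fh (f2 f₀)) Φ ε a b x *
        PB2 Φ f₀ (L' + 1) T a b ε x ∂((volume : Measure Ph).prod (tvol (T + 1) a b)))
      (𝓝[>] 0) (𝓝 (∑ a ∈ shapes L', ∑ b ∈ shapes L', (0 : ℝ≥0∞))) := by
    refine tendsto_finsetSum _ fun a ha => tendsto_finsetSum _ fun b hb => ?_
    refine tendsto_weight (P := PB2 Φ f₀ (L' + 1) T a b) hΦ hGD' (by linarith) 0 a b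
      (fun ε hε => ?_) (fun ε x => PB2_le_one hg a b x) ?_
    · have := GC.isProbability_PP (ε := ε) hg
      exact measurable_PB2 hΦ hε a b
    · filter_upwards [ae_tvol_succ (T' := T + 1) (H a ha b hb), ae_tvol_ne T (T + 1) a b]
        with x hx hne hw
      obtain ⟨hv, hk⟩ := nW_facts hw
      have hw' := nW_ne_zero_of hw
      exact PB2_tendsto hΦ hv hk hne (fun h => (hx h hw').1) (fun h => (hx h hw').2.1)
        (fun h => (hx h hw').2.2)
  simpa using h7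

/-- **The trees of a colliding pair are alive alone**, up to a set of pairs of small mass. -/
theorem badP_tendsto (hΦ : IsPotential Φ) {κ M β : ℝ} (hg : GoodDatum f₀ κ)
    (hf : Measurable f₀) (hGD : GD (ML.fh f₀) M β) (hT : 0 < T)
    (H : ∀ a ∈ shapes (L - 1), ∀ b ∈ shapes (L - 1),
      ∀ᵐ x : Ph × (ℝ × ML.XP a b) ∂((volume : Measure Ph).prod (tvol T a b)),
        ML.nW (ML.fh f₀) Φ 0 a b x.2.1 x.1 x.2.2 ≠ 0 → HypP Φ f₀ L x) :
    Tendsto (fun ε => (FL.muE ε)⁻¹ * XP Φ ε L f₀ T (fun U A B => wqP Φ ε A B *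
      ind (¬(A ∈ Als Φ ε L T U ∧ B ∈ Als Φ ε L T U)))) (𝓝[>] 0) (𝓝 0) := by
  rcases Nat.eq_zero_or_pos L with h0 | h0
  · subst h0
    refine tendsto_const_nhds.congr fun ε => ?_
    have h1 : ∀ (U : Finset Src) (A B : CTree), ¬coT Φ ε 0 T U A B := fun U A B h =>
      absurd h.depth (Nat.not_succ_le_zero _)
    unfold XP
    symm
    have h2 : ∀ (c : Conf Ph) (S : CTree), onN (fun x y => ind (coT Φ ε 0 T (wS (pts c)) x y) *
        (wqP Φ ε x y * ind (¬(x ∈ Als Φ ε 0 T (wS (pts c)) ∧ y ∈ Als Φ ε 0 T (wS (pts c)))))) S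
        = 0 := by
      intro c S
      cases S with
      | leaf σ => rfl
      | node A B => rw [onN_node, ind_of_not (h1 _ _ _), zero_mul]
    simp only [h2, lintegral_zero, mul_zero]
  obtain ⟨L', rfl⟩ : ∃ L', L = L' + 1 := ⟨L - 1, by omega⟩
  rw [Nat.add_sub_cancel] at H
  have hearly := early_tendsto (T := T) hΦ hg hf hGD hT.le L' H
  have hb := hGD.β0
  have hf0 : ∀ z : Ph, f₀ z ≤ M * Real.exp (-β * ‖z.2‖ ^ 2) := fun z => by
    have h1 := hGD.le z.1 z.2
    unfold ML.fh KE.gs at h1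
    have h2 := hGD.M0
    exact (ENNReal.ofReal_le_ofReal_iff (by positivity)).1 h1
  have hx : ∀ v : E3, ∫⁻ x : E3, ENNReal.ofReal (f₀ (x, v)) ≤
      ENNReal.ofReal (M * Real.exp (-β * ‖v‖ ^ 2)) := fun v => hGD.mass v
  rw [ENNReal.tendsto_nhds_zero]
  intro ρ hρ
  have hρ2 : 0 < ρ / 2 := ENNReal.half_pos hρ.ne'
  filter_upwards [(ENNReal.tendsto_nhds_zero.1 hearly) _ hρ2,
    slow_le hΦ hg hb hT hGD.M0 hf0 hx L' (δ := 1) one_pos hρ2, self_mem_nhdsWithin]
    with ε h1 h2 hε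
  have hε' : 0 < ε := hε
  have := GC.isProbability_PP (ε := ε) hg
  have hm : Measurable fun p : (CTree × CTree) × GC.Conf Ph => wqP Φ ε p.1.1 p.1.2 *
      (ind (BadAls Φ ε (L' + 1) T (wS (pts p.2)) p.1.1 p.1.2) *
        ind (ext Φ ε (node p.1.1 p.1.2) ≤ T + 1)) := by
    have mA : Measurable fun p : (CTree × CTree) × GC.Conf Ph => p.1.1 :=
      measurable_fst.comp measurable_fst
    have mB : Measurable fun p : (CTree × CTree) × GC.Conf Ph => p.1.2 :=
      measurable_snd.comp measurable_fst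
    have k2 : Measurable fun p : (CTree × CTree) × GC.Conf Ph =>
        ind (BadAls Φ ε (L' + 1) T (wS (pts p.2)) p.1.1 p.1.2) :=
      measurable_ind (measurableSet_BadAls hΦ hε' measurable_snd mA mB)
    have k3 : Measurable fun p : (CTree × CTree) × GC.Conf Ph =>
        ext Φ ε (node p.1.1 p.1.2) :=
      (measurable_ext hΦ hε'.ne').comp (measurable_node.comp (mA.prodMk mB))
    have k4 : Measurable fun p : (CTree × CTree) × GC.Conf Ph =>
        ind (ext Φ ε (node p.1.1 p.1.2) ≤ T + 1) :=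
      measurable_ind (measurableSet_le k3 measurable_const)
    exact (measurable_wqP hΦ hε' mA mB).mul (k2.mul k4)
  have hsplit : XP Φ ε (L' + 1) f₀ T (fun U A B => wqP Φ ε A B *
      ind (¬(A ∈ Als Φ ε (L' + 1) T U ∧ B ∈ Als Φ ε (L' + 1) T U))) ≤
      XP Φ ε (L' + 1) f₀ T (fun U A B => wqP Φ ε A B *
        (ind (BadAls Φ ε (L' + 1) T U A B) * ind (ext Φ ε (node A B) ≤ T + 1))) +
      XP Φ ε (L' + 1) f₀ T (fun _ A B => wqP Φ ε A B * ind (T + 1 < ext Φ ε (node A B))) := by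
    rw [← XP_add hΦ hε' hm hg]
    refine XP_mono fun U A B _ => ?_
    rw [← mul_add]
    refine mul_le_mul_right ?_ _
    by_cases h3 : ext Φ ε (node A B) ≤ T + 1
    · rw [ind_of h3, mul_one]
      exact le_self_add
    · rw [ind_of (p := T + 1 < ext Φ ε (node A B)) (not_le.1 h3)]
      exact (ind_le_one _).trans le_add_self
  have h9 : (FL.muE ε)⁻¹ * ENNReal.ofReal (mu ε) = 1 := by
    refine ENNReal.inv_mul_cancel ?_ ENNReal.ofReal_ne_top
    intro h10
    have h11 := mu_mul_sq hε'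
    rw [show ENNReal.ofReal (mu ε) = 0 from h10, zero_mul] at h11
    exact zero_ne_one h11
  calc _ ≤ (FL.muE ε)⁻¹ * (ENNReal.ofReal (mu ε) * ∑ a ∈ shapes L', ∑ b ∈ shapes L',
      ∫⁻ x : Ph × (ℝ × ML.XP a b), pnW 0 (ML.fh (f2 f₀)) Φ ε a b x *
        PB2 Φ f₀ (L' + 1) T a b ε x ∂((volume : Measure Ph).prod (tvol (T + 1) a b)) +
      ∫⁻ A in OKs Φ ε T, ∫⁻ B in OKs Φ ε T,
        wqP Φ ε A B * ind (SlowP Φ ε 1 T (ln Φ ε A, ln Φ ε B))
          ∂(tree (GC.inten f₀ ε) L') ∂(tree (GC.inten f₀ ε) L')) :=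
        mul_le_mul_right (hsplit.trans (add_le_add (early_part hΦ hε' hf L')
          (slow_part hΦ hε' hg L'))) _
    _ ≤ ρ / 2 + ρ / 2 := by
        rw [mul_add, ← mul_assoc, h9, one_mul]
        exact add_le_add h1 h2
    _ = ρ := ENNReal.add_halves ρ

end Vale.Agent.P119.PB.BP
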