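import Vale.Agent.P119.PB.ContDef
import Vale.Agent.P119.RB.Tie

/-!
# P119, block PROB, P9 (contamination): direct contacts (`helper909`)

`U ⊆ V` are worlds and `σ` is the first time at which they touch.

* `direct_contact`: if before `σ` only the inserted labels are different, then at the time `σ` an
  inserted label is in contact with an exposed label of `U`, or somebody is newly bad;
* `hits_of_con`: such a contact is a contact with the real path or the M-path in `U`;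
* `newly_bad`: if one label is inserted and somebody is newly bad at the first touch, then the
  inserted label is bad or in contact with an exposed label of `U`.
-/

open MeasureTheory Filter Topology Set
open scoped ENNReal NNReal

noncomputable section

namespace Vale.Agent.P119.PB

open M CTree KU FB RB AU

variable {Φ : E3 → ℝ} {ε : ℝ} {L : ℕ} {hΦ : IsPotential Φ} {hε : 0 < ε}
  {U V W : Finset Src} {a b c l x : Src} {S T : CTree} {s σ τ t : ℝ}

/-- Two live trees of the same particle have the same position. -/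
theorem st_eq_of_live (hΦ : IsPotential Φ) (hε : 0 < ε) {W : Set Src} (hW : W.Finite)
    (hS : live Φ ε L W S t) (hT : live Φ ε L W T t) (hr : S.root = T.root) :
    st Φ ε S t = st Φ ε T t := by
  have key : ∀ {S T : CTree}, live Φ ε L W S t → live Φ ε L W T t → S.root = T.root →
      S = leaf S.root → S.root.1 = t → st Φ ε S t = st Φ ε T t := by
    intro S T hS hT hr h1 h2
    rcases live_sig hΦ hε hW hT with ⟨k1, k2⟩ | ⟨T₀, k1, k2, k3, k4⟩
    · rw [h1, k1, hr]
    · have h3 := root_birth_le_sig hΦ hε k2.ok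
      rw [k1, ← hr, h2] at h3
      exact absurd k3 (not_lt.2 h3)
  rcases live_sig hΦ hε hW hS with ⟨h1, h2⟩ | ⟨S₀, h1, h2, h3, h4⟩
  · exact key hS hT hr h1 h2
  · rcases live_sig hΦ hε hW hT with ⟨k1, k2⟩ | ⟨T₀, k1, k2, k3, k4⟩
    · exact (key hT hS hr.symm k1 k2).symm
    · have h5 := live_unique hΦ hε hW h2 k2 (h1.trans (hr.trans k1.symm)) h3 k3
      rw [← h4, ← k4, h5]

/-- Different labels are in one of the worlds. -/
theorem mem_or_of_D (h : a ∈ (Y Φ ε L hΦ hε).D U V s) : a ∈ U ∨ a ∈ V := by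
  by_contra hcon
  rw [not_or] at hcon
  obtain ⟨r, hr, hne⟩ := h
  exact hne (sta_eq_of_notMem (fun h => hcon.1 (Finset.mem_coe.1 h))
    (fun h => hcon.2 (Finset.mem_coe.1 h)) r)

theorem mem_D_of_diff (hx : x ∈ V) (hxU : x ∉ U) (t : ℝ) : x ∈ (Y Φ ε L hΦ hε).D U V t :=
  mem_D_of_mem (fun h => hxU (h.2 hx)) t

theorem mem_Dlt_of_diff (hx : x ∈ V) (hxU : x ∉ U) (t : ℝ) :
    x ∈ (Y Φ ε L hΦ hε).Dlt U V t := ⟨t - 1, by linarith, mem_D_of_diff hx hxU _⟩

/-- Inserted labels are not exposed before the first touch. -/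
theorem not_exp_of_first (hf : ∀ s < σ, ¬(Y Φ ε L hΦ hε).Touch U V s) (hx : x ∈ V)
    (hxU : x ∉ U) : ∀ r < σ, ¬(Y Φ ε L hΦ hε).Exp V x r := fun r hr he =>
  hf r hr ⟨x, mem_D_of_diff hx hxU r, Or.inr he⟩

/-- **Direct contact.** -/
theorem direct_contact (hU : ∀ a ∈ U, 0 ≤ a.1) (hV : ∀ a ∈ V, 0 ≤ a.1) (hUV : U ⊆ V)
    (hσ : (Y Φ ε L hΦ hε).Touch U V σ) (hf : ∀ s < σ, ¬(Y Φ ε L hΦ hε).Touch U V s)
    (hD : ∀ a ∈ U, a ∉ (Y Φ ε L hΦ hε).Dlt U V σ) :
    (∃ x ∈ V, x ∉ U ∧ ∃ b, (Y Φ ε L hΦ hε).Exp U b σ ∧ (Y Φ ε L hΦ hε).con V σ x b) ∨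
      ∃ a, badc Φ ε L (V : Set Src) a σ ∧ ¬badc Φ ε L (U : Set Src) a σ := by
  have hD' : (Y Φ ε L hΦ hε).Dlt U V σ ⊆ {a | a ∉ U} := fun a ha haU => hD a haU ha
  rcases FB.Sys.direct (X := {a : Src | a ∉ U}) (fun h => RB.con.symm h) hUV (fun a ha => ha)
    (Y_loc hΦ hε hU hV) hD' hσ hf with ⟨x, hx, b, r, hr, hb, hc⟩ | ⟨a, r, hr, h1, h2⟩
  · left
    have hxV : x ∈ V := ((Y Φ ε L hΦ hε).con_mem hc).1
    have hrσ : r = σ := by
      by_contra hne
      have hlt := lt_of_le_of_ne hr hne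
      have h3 := (FB.Sys.exp_iff (Y_transfer hΦ hε hU hV) (hf r hlt) le_rfl).1 hb
      exact not_exp_of_first hf hxV hx r hlt (.con le_rfl h3 hc)
    subst hrσ
    exact ⟨x, hxV, hx, b, hb, hc⟩
  · right
    have h1' : badc Φ ε L (V : Set Src) a r := h1
    have h2' : ¬badc Φ ε L (U : Set Src) a r := h2
    refine ⟨a, badc.mono h1' hr, fun h3 => ?_⟩
    have haU : a ∈ U := Finset.mem_coe.1 h3.mem
    have hrσ : r = σ := by
      by_contra hne
      refine hD a haU ⟨r, lt_of_le_of_ne hr hne, r, le_rfl, fun h => h2' ?_⟩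
      exact (badc_of_sta h).2 h1'
    subst hrσ
    exact h2' h3

/-- **The contact is a contact in `U`.** -/
theorem hits_of_con (hU : ∀ a ∈ U, 0 ≤ a.1) (hV : ∀ a ∈ V, 0 ≤ a.1)
    (hf : ∀ s < σ, ¬(Y Φ ε L hΦ hε).Touch U V s) (hxU : x ∉ U) (hbU : b ∈ U)
    (hbD : b ∉ (Y Φ ε L hΦ hε).Dlt U V σ) (hT : live Φ ε L (V : Set Src) T σ) (hr : T.root = x)
    (hc : (Y Φ ε L hΦ hε).con V σ x b) : Hits Φ ε L U b σ (st Φ ε T σ) := by
  have hxV : x ∈ V := ((Y Φ ε L hΦ hε).con_mem hc).1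
  have hun : ∀ r < σ, ¬(Y Φ ε L hΦ hε).Exp V T.root r := by
    rw [hr]; exact not_exp_of_first hf hxV hxU
  rcases hc with ⟨-, T₁, S, h1, h2, h3, h4, h5⟩ | h3
  · right
    obtain ⟨S', k1, k2, k3⟩ := live_congr' hΦ hε V.finite_toSet U.finite_toSet
      (fun _ => by rw [h2]; exact Finset.mem_coe.2 hbU) (fun q hq => by
        by_contra hne
        refine hbD ⟨q, hq, q, le_rfl, fun h => hne ?_⟩
        rw [h2]
        exact (stat_of_sta h).symm) h4
    refine ⟨S', k1.trans h2, k2, ?_⟩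
    rw [k3, st_eq_of_live hΦ hε V.finite_toSet hT h3 (hr.trans h1.symm)]
    exact h5
  · left
    obtain ⟨-, -, -, -, -, h4, h5⟩ := h3
    refine ⟨h4, ?_⟩
    rw [← hr, Y_real_st (hΦ := hΦ) (hε := hε) hV hun hT] at h5
    rw [Y_real_eq (W₁ := U) (W₂ := V) hΦ hε hU hV hf hbD le_rfl]
    exact h5

/-- The dynamics of the beginning of a collision: if `b` begins to collide with `l` at `σ` in `V`,
then it has no other contact, except with a particle for which it is bad in `U`. -/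
theorem newly_bad (hlU : l ∉ U) (hUV : V = insert l U)
    (hD : ∀ a ∈ U, a ∉ (Y Φ ε L hΦ hε).Dlt U V σ)
    (hn : ∀ r < σ, ∀ b, ¬mcon Φ ε L (V : Set Src) r l b)
    (ha : badc Φ ε L (V : Set Src) a σ) (ha' : ¬badc Φ ε L (U : Set Src) a σ) :
    badc Φ ε L (V : Set Src) l σ ∨
      ∃ b, (Y Φ ε L hΦ hε).Exp U b σ ∧ mcon Φ ε L (V : Set Src) σ l b := by
  classical
  by_contra hcon
  rw [not_or] at hcon
  obtain ⟨hlb, hno⟩ := hcon
  have hVf := V.finite_toSet
  have hUf := U.finite_toSet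
  have hlV : l ∈ V := by rw [hUV]; exact Finset.mem_insert_self l U
  have hmemV : ∀ z ∈ V, z ≠ l → z ∈ U := fun z hz hne => by
    rw [hUV] at hz
    exact (Finset.mem_insert.1 hz).resolve_left hne
  have hmemU : ∀ z ∈ U, z ∈ V := fun z hz => by rw [hUV]; exact Finset.mem_insert_of_mem hz
  have hal : a ≠ l := fun h => hlb (h ▸ ha)
  have haV : a ∈ V := Finset.mem_coe.1 ha.mem
  have haU : a ∈ U := hmemV a haV hal
  have hst : ∀ z ∈ U, ∀ r < σ, sta Φ ε L (U : Set Src) z r = sta Φ ε L (V : Set Src) z r := by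
    intro z hz r hr
    by_contra hne
    exact hD z hz ⟨r, hr, r, le_rfl, hne⟩
  have hstat : ∀ z ∈ U, ∀ r < σ, stat Φ ε L (U : Set Src) z r = stat Φ ε L (V : Set Src) z r :=
    fun z hz r hr => stat_of_sta (hst z hz r hr)
  -- `a` is bad exactly at `σ`
  have hai : badi Φ ε L (V : Set Src) a σ := by
    obtain ⟨q, hq, hq'⟩ := ha
    rcases hq.lt_or_eq with h | h
    · exact absurd (((badc_of_sta (hst a haU q h)).2 ⟨q, le_rfl, hq'⟩).mono hq) ha'
    · exact h ▸ hq'
  have haD : a ∈ (Y Φ ε L hΦ hε).D U V σ := ⟨σ, le_rfl, fun h => ha' ((badc_of_sta h).2 ha)⟩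
  obtain ⟨b, hb, z, hz, h⟩ := new' (hΦ := hΦ) (hε := hε) U V σ a haU haV haD
    (hD a haU)
  have hzU : z ∉ U := fun hzU => hD z hzU hz
  have hbl : b ≠ l := fun hbl => hb (hbl ▸ mem_Dlt_of_diff hlV hlU σ)
  have hbz : mcon Φ ε L (V : Set Src) σ b z ∧ (b = a ∨ mcon Φ ε L (V : Set Src) σ a b) := by
    rcases h with ⟨-, h4⟩ | ⟨h3, h4⟩
    · exact absurd (Finset.mem_coe.1 h4.mem.2) hzU
    · exact ⟨h4, h3⟩
  have hzl : z = l := by
    by_contra hne
    exact hzU (hmemV z (Finset.mem_coe.1 hbz.1.mem.2) hne)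
  subst hzl
  have hbU : b ∈ U := hmemV b (Finset.mem_coe.1 hbz.1.mem.1) hbl
  have hzb : mcon Φ ε L (V : Set Src) σ z b := hbz.1.symm
  have hσ0 : 0 ≤ σ := hzb.nonneg hΦ hε
  -- `z` and `b` are partners
  have hp : part Φ ε L (V : Set Src) σ z b := by
    by_contra hcon
    exact hlb ⟨σ, le_rfl, hzb.mem.1, hσ0, (hzb.birth_le hΦ hε).1, Or.inr ⟨b, hzb, hcon⟩⟩
  obtain ⟨T, T', h1, h2, x, y, rfl, rfl, h3⟩ := hp
  have hx := (stat_eq_some_iff hΦ hε hVf).1 h1
  have hy := (stat_eq_some_iff hΦ hε hVf).1 h2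
  have hxz : x.root = z := hx.1
  have hyb : y.root = b := hy.1
  -- another contact of `b`
  obtain ⟨c, hcz, hbc⟩ : ∃ c, c ≠ z ∧ mcon Φ ε L (V : Set Src) σ b c := by
    rcases hbz.2 with hba | hab
    · subst hba
      rcases hai.2.2.2 with h4 | ⟨c, h4, h5⟩
      · rw [h2] at h4
        exact absurd h4 (by simp)
      · refine ⟨c, ?_, h4⟩
        rintro rfl
        exact h5 ⟨_, _, h2, h1, y, x, rfl, rfl, by rw [ext_swap hΦ x y]; exact h3⟩
    · exact ⟨a, hal, hab.symm⟩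
  have hcU : c ∈ U := hmemV c (Finset.mem_coe.1 hbc.mem.2) hcz
  have hbc' : mcon Φ ε L (U : Set Src) σ b c :=
    mcon_congr hΦ hε hVf hUf (fun _ => Finset.mem_coe.2 hbU) (fun _ => Finset.mem_coe.2 hcU)
      (fun r hr => (hstat b hbU r hr).symm) (fun r hr => (hstat c hcU r hr).symm) hbc
  -- `b` is not bad in `U`, hence `c` is its partner in `U`
  have hbad : ¬badi Φ ε L (U : Set Src) b σ := fun h => hno ⟨b, exp_of_badi h le_rfl, hzb⟩
  have hp' : part Φ ε L (U : Set Src) σ b c := by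
    by_contra hcon
    exact hbad ⟨Finset.mem_coe.2 hbU, hσ0, (hbc'.birth_le hΦ hε).1, Or.inr ⟨c, hbc', hcon⟩⟩
  obtain ⟨T, T', k1, k2, y', w, rfl, rfl, k3⟩ := hp'
  have hy' := (stat_eq_some_iff hΦ hε hUf).1 k1
  have hw := (stat_eq_some_iff hΦ hε hUf).1 k2
  have hyb' : y'.root = b := hy'.1
  have hwc : w.root = c := hw.1
  have hlive : live Φ ε L (V : Set Src) (node y x) σ := hy.2.live
  have hsig : sig Φ ε (node y x) ≤ σ := hlive.sig_le
  have hoky := hlive.ok
  -- the facts about `y`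
  have hyal := live_left hΦ hε hVf hlive
  have hysig : sig Φ ε y < sig Φ ε (node y x) :=
    (sig_le_ext hΦ hε hoky.1).trans_lt hoky.2.2.2.2.2.1
  rcases hy'.2.live.sig_le.lt_or_eq with hs | hs
  · -- in `U` the collision of `b` and `c` has begun before `σ`
    have hlV' : live Φ ε L (V : Set Src) (node y' w) σ :=
      live_congr hΦ hε hUf hVf (fun _ => by
        change y'.root ∈ _
        rw [hyb']; exact Finset.mem_coe.2 (hmemU b hbU)) (fun r hr => by
        change stat Φ ε L _ y'.root r = stat Φ ε L _ y'.root r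
        rw [hyb']; exact hstat b hbU r hr) hy'.2.live (Or.inl hs)
    rcases hsig.lt_or_eq with hs' | hs'
    · have h6 := live_unique hΦ hε hVf hlV' hlive (hyb'.trans hyb.symm) hs hs'
      injection h6 with h6 h7
      exact hcz (by rw [← hwc, h7, hxz])
    · rw [hs'] at hyal hysig
      have h6 := (alive_iff_live hΦ hε hVf).1 hyal
      have h7 := live_unique hΦ hε hVf hlV' h6.1 (hyb'.trans hyb.symm) hs hysig
      rw [h7] at k3
      exact absurd k3 (not_lt.2 h6.2)
  · -- both collisions begin at `σ`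
    have hs' : sig Φ ε (node y x) = σ := by
      by_contra hne
      have hlt := lt_of_le_of_ne hsig hne
      have h6 : sig Φ ε (node x y) < ext Φ ε (node x y) := sig_lt_ext hΦ hε hx.2.ok
      have h7 := mcon_partner hΦ hε (hx.2.live.anti (s := sig Φ ε (node x y))
        (by rw [sig_swap x y] at hlt; exact hlt.le) le_rfl) h6
      rw [hxz, hyb] at h7
      exact hn _ (by rw [sig_swap x y] at hlt; exact hlt) b h7
    have hwal := live_right hΦ hε hUf hy'.2.live
    have hyal' := live_left hΦ hε hUf hy'.2.live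
    rw [hs] at hwal hyal'
    rw [hs'] at hyal hysig
    have hwV : alive Φ ε L (V : Set Src) w σ :=
      alive_congr hΦ hε hUf hVf (fun _ => by rw [hwc]; exact Finset.mem_coe.2 (hmemU c hcU))
        (fun r hr => by rw [hwc]; exact hstat c hcU r hr) hwal
    have hyV : alive Φ ε L (V : Set Src) y' σ :=
      alive_congr hΦ hε hUf hVf (fun _ => by rw [hyb']; exact Finset.mem_coe.2 (hmemU b hbU))
        (fun r hr => by rw [hyb']; exact hstat b hbU r hr) hyal'
    have hysig' : sig Φ ε y' < σ := by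
      rw [← hs]
      exact (sig_le_ext hΦ hε hy'.2.ok.1).trans_lt hy'.2.ok.2.2.2.2.2.1
    have h8 : y' = y := live_unique hΦ hε hVf ((alive_iff_live hΦ hε hVf).1 hyV).1
      ((alive_iff_live hΦ hε hVf).1 hyal).1 (hyb'.trans hyb.symm) hysig' hysig
    have h9 : hit Φ ε y w σ := by
      have := hit_sig hΦ hε hy'.2.ok
      rw [hs, h8] at this
      exact this
    have h10 : hit Φ ε (node y x) w σ :=
      Or.inl ⟨hs'.ge, Or.inl ⟨h9, fun hcon => hcz (by rw [← hwc, hcon.1, hxz])⟩⟩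
    exact hy.2.nohit w σ le_rfl h10 hwV

end Vale.Agent.P119.PB
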