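import Vale.Agent.P119.PB.Cont1
import Vale.Agent.P119.FB.First
import Vale.Agent.P119.TL.Inst

/-!
# P119, block PROB, P9 (contamination): the flying case (`helper909`)

`T` is a tree of the world `W` that is over, its root is exposed for the first time at `τ` and not
bad; the other particles of `W` are the base `V`.  `X` is a family of sets of sources: `X r` is the
root line of `T`, the other `X i` are the exhausts; `K` is a cube over `V`.

`flying`: either the root line makes a direct contact with an exposed label of `V`, or an exhaust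
`e` touches `V` and another line touches `V + e`.
-/

open MeasureTheory Filter Topology Set
open scoped ENNReal NNReal

noncomputable section

namespace Vale.Agent.P119.PB

open M CTree KU FB RB AU

variable {Φ : E3 → ℝ} {ε : ℝ} {L : ℕ} {hΦ : IsPotential Φ} {hε : 0 < ε}
  {V W : Finset Src} {a b l x : Src} {T : CTree} {s σ τ t : ℝ} {ι : Type*} [DecidableEq ι]

section cube

variable {Wc : Finset ι → Finset Src} {K F : Finset ι} {i : ι}

/-- The status of a label altered by `i` is the same in all the worlds with `i`. -/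
theorem sta_full (hC : FB.Sys.Cube (Y Φ ε L hΦ hε) Wc K t) (hi : i ∈ F) (hF : F ⊆ K)
    (hx : x ∈ (Y Φ ε L hΦ hε).D (Wc ∅) (Wc {i}) t) (hs : s ≤ t) :
    sta Φ ε L (Wc {i} : Set Src) x s = sta Φ ε L (Wc F : Set Src) x s := by
  refine hC.eq {i} F (Finset.singleton_subset_iff.2 (hF hi)) hF x (fun j hj hjx => ?_) s hs
  have : j = i := by
    by_contra hne
    exact hC.disj j hj i (hF hi) hne x hjx hx
  subst this
  simp [hi]

/-- A label which is in contact with an inserted label is altered. -/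
theorem mem_D_of_mcon {U V : Finset Src} (hno : ¬(Y Φ ε L hΦ hε).Touch U V s) (hx : x ∈ V)
    (hxU : x ∉ U) (hm : mcon Φ ε L (V : Set Src) s x b) : b ∈ (Y Φ ε L hΦ hε).D U V s := by
  by_contra hb
  have hb' := sta_eq_of_not_mem_D hb le_rfl
  have hbV : ¬badi Φ ε L (V : Set Src) b s := fun h => by
    refine hno ⟨x, mem_D_of_diff hx hxU s, Or.inr ?_⟩
    exact exp_of_con (exp_of_badi h le_rfl) (Or.inl hm)
  have hp : part Φ ε L (V : Set Src) s b x := by
    by_contra hcon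
    exact hbV ⟨hm.mem.2, hm.nonneg hΦ hε, (hm.birth_le hΦ hε).2, Or.inr ⟨x, hm.symm, hcon⟩⟩
  obtain ⟨T, T', h1, h2, y, z, rfl, rfl, -⟩ := hp
  rw [← stat_of_sta hb'] at h1
  have h3 := (stat_eq_some_iff hΦ hε U.finite_toSet).1 h1
  have h4 := (stat_eq_some_iff hΦ hε V.finite_toSet).1 h2
  have h5 : z.root = x := h4.1
  refine hxU (Finset.mem_coe.1 (h3.2.sub (Or.inr ?_)))
  rw [← h5]
  exact z.root_mem_leaves

/-- A contact of an inserted label takes place also in the larger worlds. -/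
theorem mcon_full (hC : FB.Sys.Cube (Y Φ ε L hΦ hε) Wc K t) (hi : i ∈ F) (hF : F ⊆ K) (hs : s ≤ t)
    (hno : ¬(Y Φ ε L hΦ hε).Touch (Wc ∅) (Wc {i}) s) (hx : x ∈ Wc {i}) (hxU : x ∉ Wc ∅)
    (hm : mcon Φ ε L (Wc {i} : Set Src) s x b) : mcon Φ ε L (Wc F : Set Src) s x b := by
  have hC' := hC.mono hs
  have e1 := fun r (hr : r ≤ s) => sta_full hC' hi hF (mem_D_of_diff hx hxU s) hr
  have e2 := fun r (hr : r ≤ s) => sta_full hC' hi hF (mem_D_of_mcon hno hx hxU hm) hr
  exact mcon_congr hΦ hε (Finset.finite_toSet _) (Finset.finite_toSet _)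
    (mem_of_sta (e1 s le_rfl)).1 (mem_of_sta (e2 s le_rfl)).1
    (fun r hr => stat_of_sta (e1 r hr.le)) (fun r hr => stat_of_sta (e2 r hr.le)) hm

end cube

/-- The root line of a tree which is not hit. -/
theorem no_mcon (hT : TL.TGood Φ ε L hΦ hε V T W (ext Φ ε T) t)
    (hl : TL.LGood Φ ε L V T (ext Φ ε T) t) (hτ : τ ≤ t) (hlive : live Φ ε L (W : Set Src) T τ)
    (hf : ∀ s < τ, ¬(Y Φ ε L hΦ hε).Exp W T.root s) : ∀ s < τ, ∀ b,
      ¬mcon Φ ε L (TL.lnw Φ ε V T (ext Φ ε T) : Set Src) s (rsrc Φ ε T) b := by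
  intro s hs b hm
  have hrep := (hT.rep hl).lines
  have h1 := hm.birth_le hΦ hε
  have h1' : ext Φ ε T ≤ s := h1.1
  have hroot : TL.fs Φ ε (TL.rho Φ ε T (ext Φ ε T)) T (rsrc Φ ε T) = T := by
    have := TL.fs_msrc (hT.setup hl) (x := T) (Or.inl rfl)
    rwa [TL.msrc_rho_self] at this
  have h2 := (hrep.mcon _ (Finset.mem_coe.1 hm.mem.1) _ (Finset.mem_coe.1 hm.mem.2) s
    (hs.le.trans hτ) h1.1 h1.2).1 hm
  rw [hroot] at h2
  obtain ⟨S, S', h3, -, x, y, rfl, rfl, h4⟩ := part_of_not_exp (hf s hs) h2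
  have h5 : stat Φ ε L (W : Set Src) T.root s = some T :=
    (stat_eq_some_iff hΦ hε W.finite_toSet).2 ⟨rfl,
      hlive.lives_of_lt hs ((sig_le_ext hΦ hε hlive.ok).trans h1')⟩
  rw [h5] at h3
  injection h3 with h3
  rw [← h3] at h4
  exact absurd h4 (not_lt.2 h1')

omit [DecidableEq ι]

open Classical in
/-- The worlds of the family `X` over `V`. -/
def wd (V : Finset Src) (X : ι → Finset Src) (J : Finset ι) : Finset Src :=
  V ∪ J.biUnion X

theorem mem_wd {X : ι → Finset Src} {J : Finset ι} : a ∈ wd V X J ↔ a ∈ V ∨ ∃ i ∈ J, a ∈ X i := by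
  classical
  unfold wd
  rw [Finset.mem_union, Finset.mem_biUnion]

theorem wd_empty {X : ι → Finset Src} : wd V X ∅ = V := by
  ext a
  rw [mem_wd]
  simp

theorem wd_single {X : ι → Finset Src} {i : ι} (h : X i = {x}) :
    wd V X {i} = insert x V := by
  ext a
  rw [mem_wd, Finset.mem_insert]
  simp [h, or_comm]

theorem wd_pair [DecidableEq ι] {X : ι → Finset Src} {i j : ι} {y : Src} (h : X i = {x})
    (h' : X j = {y}) : wd V X {i, j} = insert y (insert x V) := by
  ext a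
  rw [mem_wd, Finset.mem_insert, Finset.mem_insert]
  simp only [Finset.mem_insert, Finset.mem_singleton, exists_eq_or_imp, h, exists_eq_left, h']
  tauto

/-- The family `X` of the lines of `T`: the index `r` is the root line, the indices of `E` are the
exhausts. -/
structure Fam [DecidableEq ι] (Φ : E3 → ℝ) (ε : ℝ) (V : Finset Src) (T : CTree)
    (X : ι → Finset Src) (E : Finset ι) (r : ι) : Prop where
  nr : r ∉ E
  root : X r = {rsrc Φ ε T}
  exh : ∀ i ∈ E, ∃ x ∈ TL.exs T, X i = {rsrc Φ ε x}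
  all : ∀ x ∈ TL.exs T, ∃ i ∈ E, X i = {rsrc Φ ε x}
  inj : ∀ i ∈ insert r E, ∀ j ∈ insert r E, i ≠ j → Disjoint (X i) (X j)
  fresh : ∀ i ∈ insert r E, Disjoint V (X i)

theorem Fam.full [DecidableEq ι] {X : ι → Finset Src} {E : Finset ι} {r : ι} (h : Fam Φ ε V T X E r) :
    wd V X (insert r E) = TL.lnw Φ ε V T (ext Φ ε T) := by
  classical
  ext a
  rw [mem_wd]
  unfold TL.lnw
  rw [Finset.mem_union, Finset.mem_union, or_assoc]
  refine or_congr_right ?_
  have e1 : a ∈ TL.exl Φ ε T ↔ ∃ x ∈ TL.exs T, rsrc Φ ε x = a := by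
    rw [← Finset.mem_coe, TL.coe_exl]
    rfl
  rw [e1, Finset.mem_singleton]
  constructor
  · rintro ⟨i, hi, hai⟩
    rcases Finset.mem_insert.1 hi with rfl | hi
    · rw [h.root, Finset.mem_singleton] at hai
      exact Or.inr hai
    · obtain ⟨x, hx, hX⟩ := h.exh i hi
      rw [hX, Finset.mem_singleton] at hai
      exact Or.inl ⟨x, hx, hai.symm⟩
  · rintro (⟨x, hx, rfl⟩ | rfl)
    · obtain ⟨i, hi, hX⟩ := h.all x hx
      exact ⟨i, Finset.mem_insert_of_mem hi, by rw [hX]; exact Finset.mem_singleton_self _⟩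
    · exact ⟨r, Finset.mem_insert_self r E, by rw [h.root]; exact Finset.mem_singleton_self _⟩

open Classical in
/-- **Contamination, flying case.** -/
theorem flying [DecidableEq ι] {X : ι → Finset Src} {E : Finset ι} {r : ι} (hX : Fam Φ ε V T X E r)
    (hC : FB.Sys.Cube (Y Φ ε L hΦ hε) (wd V X) (insert r E) t)
    (hT : TL.TGood Φ ε L hΦ hε V T W (ext Φ ε T) t)
    (hl : TL.LGood Φ ε L V T (ext Φ ε T) t)
    (h0 : ∀ a ∈ TL.lnw Φ ε V T (ext Φ ε T), 0 ≤ a.1) (hd : T.depth ≤ L)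
    (hτ : τ ≤ t) (hf : fex L hΦ hε W T.root τ) (hlive : live Φ ε L (W : Set Src) T τ)
    (hnb : ¬badc Φ ε L (W : Set Src) T.root τ) :
    (∃ σ ≤ τ, (∀ s < σ, ¬(Y Φ ε L hΦ hε).Touch V (TL.lnw Φ ε V T (ext Φ ε T)) s) ∧
      DirF L hΦ hε V σ T) ∨
    ∃ e ∈ TL.exs T, ∃ m ∈ TL.outs T, m ≠ e ∧ ∃ σ σ₂, σ ≤ σ₂ ∧ σ₂ ≤ τ ∧
      (Y Φ ε L hΦ hε).Touch V (insert (rsrc Φ ε e) V) σ ∧
      (Y Φ ε L hΦ hε).Touch (insert (rsrc Φ ε e) V) (insert (rsrc Φ ε m) (insert (rsrc Φ ε e) V)) σ₂ ∧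
      ∀ s < σ₂, ¬(Y Φ ε L hΦ hε).Touch (insert (rsrc Φ ε e) V) (TL.lnw Φ ε V T (ext Φ ε T)) s := by
  set Z := Y Φ ε L hΦ hε with hZ
  set K : Finset ι := insert r E with hK
  have hfull : wd V X K = TL.lnw Φ ε V T (ext Φ ε T) := hX.full
  have hrK : r ∈ K := Finset.mem_insert_self r E
  have hsub : ∀ J ⊆ K, wd V X J ⊆ TL.lnw Φ ε V T (ext Φ ε T) := by
    intro J hJ a ha
    rw [← hfull, mem_wd]
    rcases mem_wd.1 ha with ha | ⟨i, hi, ha⟩
    · exact Or.inl ha
    · exact Or.inr ⟨i, hJ hi, ha⟩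
  have hb : ∀ J ⊆ K, ∀ a ∈ wd V X J, 0 ≤ a.1 := fun J hJ a ha => h0 a (hsub J hJ ha)
  have htr : ∀ I J, I ⊆ K → J ⊆ K → Z.Transfer (wd V X I) (wd V X J) := fun I J hI hJ =>
    Y_transfer hΦ hε (hb I hI) (hb J hJ)
  have hlV : rsrc Φ ε T ∉ V := by
    intro hm
    refine Finset.disjoint_left.1 (hX.fresh r hrK) hm ?_
    rw [hX.root]; exact Finset.mem_singleton_self _
  have hQ : wd V X {r} = insert (rsrc Φ ε T) V := wd_single hX.root
  have hrepT := hT.rep hl
  have hrep := hrepT.lines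
  have hroot : TL.fs Φ ε (TL.rho Φ ε T (ext Φ ε T)) T (rsrc Φ ε T) = T := by
    have := TL.fs_msrc (hT.setup hl) (x := T) (Or.inl rfl)
    rwa [TL.msrc_rho_self] at this
  have hlF : rsrc Φ ε T ∈ TL.lnw Φ ε V T (ext Φ ε T) := by
    rw [← hfull, mem_wd]
    exact Or.inr ⟨r, hrK, by rw [hX.root]; exact Finset.mem_singleton_self _⟩
  have hCτ := hC.mono hτ
  -- the label of the root line is exposed at `τ` in the world of lines
  have hexp : Z.Exp (wd V X K) (rsrc Φ ε T) τ := by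
    rw [hfull]
    refine (hrep.exp _ hlF τ hτ).2 ?_
    change Z.Exp W (TL.fs Φ ε (TL.rho Φ ε T (ext Φ ε T)) T (rsrc Φ ε T)).root τ
    rw [hroot]
    exact hf.1
  have hD : ∀ I ⊆ E, rsrc Φ ε T ∈ Z.D (wd V X I) (wd V X K) τ := by
    intro I hI
    refine mem_D_of_diff (by rw [hfull]; exact hlF) (fun hm => ?_) τ
    rcases mem_wd.1 hm with hm | ⟨i, hi, hm⟩
    · exact hlV hm
    · have hne : i ≠ r := by rintro rfl; exact hX.nr (hI hi)
      refine Finset.disjoint_left.1 (hX.inj i (Finset.mem_insert_of_mem (hI hi)) r hrK hne) hm ?_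
      rw [hX.root]; exact Finset.mem_singleton_self _
  rcases FB.Sys.contam_first hCτ htr hX.nr hD hexp with ⟨σ, hσ, h1, h2⟩ | ⟨i, hi, σ, σ₂, h1, h2, h3, h4, h5⟩
  · left
    rw [wd_empty] at h1 h2
    rw [hfull] at h2
    rw [hQ] at h1
    have hσt : σ ≤ t := hσ.trans hτ
    -- the first touch of the root line
    have hf' : ∀ s < σ, ¬Z.Touch V (insert (rsrc Φ ε T) V) s := by
      intro s hs hTo
      refine h2 s hs ?_
      have h3 := ((hC.mono (hs.le.trans hσt)).touch_iff htr (Finset.Subset.refl K)).2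
        ⟨r, hrK, by rw [wd_empty, hQ]; exact hTo⟩
      rwa [wd_empty, hfull] at h3
    have hlQ : rsrc Φ ε T ∈ insert (rsrc Φ ε T) V := Finset.mem_insert_self _ V
    have hbV : ∀ a ∈ V, 0 ≤ a.1 := by
      have := hb ∅ (Finset.empty_subset K)
      rwa [wd_empty] at this
    have hbQ : ∀ a ∈ insert (rsrc Φ ε T) V, 0 ≤ a.1 := by
      have := hb {r} (Finset.singleton_subset_iff.2 hrK)
      rwa [hQ] at this
    -- it is not hit before
    have hn : ∀ s < σ, ∀ b, ¬mcon Φ ε L (insert (rsrc Φ ε T) V : Finset Src) s (rsrc Φ ε T) b := by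
      intro s hs b hm
      have h3 := mcon_full (i := r) (F := K) (x := rsrc Φ ε T) (b := b) hC hrK
        (Finset.Subset.refl K) (hs.le.trans hσt) (by rw [wd_empty, hQ]; exact hf' s hs)
        (by rw [hQ]; exact hlQ) (by rw [wd_empty]; exact hlV) (by rw [hQ]; exact hm)
      rw [hfull] at h3
      exact no_mcon hT hl hτ hlive hf.2 s (hs.trans_le hσ) b h3
    have hDlt : ∀ a ∈ V, a ∉ Z.Dlt V (insert (rsrc Φ ε T) V) σ := by
      intro a haV ha
      have := dlt_subset_single (hΦ := hΦ) (hε := hε) hlV hn ha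
      exact hlV (mem_singleton_iff.1 this ▸ haV)
    have hleaf : ∀ b, con Φ ε L (XR Φ ε) (insert (rsrc Φ ε T) V) σ (rsrc Φ ε T) b →
        live Φ ε L ((insert (rsrc Φ ε T) V : Finset Src) : Set Src) (leaf (rsrc Φ ε T)) σ := by
      intro b hc
      exact live_leaf_of hΦ hε (Finset.finite_toSet _) (Finset.mem_coe.2 hlQ) (hbQ _ hlQ) hd
        (con.birth_le hΦ hε hc).1 hn
    -- a contact with an exposed label is a direct contact
    have key : ∀ b, Z.Exp V b σ → Z.con (insert (rsrc Φ ε T) V) σ (rsrc Φ ε T) b →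
        DirF L hΦ hε V σ T := by
      intro b hb' hc
      have h3 := hits_of_con hbV hbQ hf' hlV hb'.mem (hDlt b hb'.mem) (hleaf b hc) rfl hc
      exact ⟨σ, le_rfl, (con.birth_le hΦ hε hc).1, b, hb', h3⟩
    refine ⟨σ, hσ, h2, ?_⟩
    rcases direct_contact hbV hbQ (Finset.subset_insert _ V) h1 hf' hDlt with
      ⟨x, hx, hxV, b, hb', hc⟩ | ⟨a, h3, h4⟩
    · have hxl : x = rsrc Φ ε T := (Finset.mem_insert.1 hx).resolve_right hxV
      rw [hxl] at hc
      exact key b hb' hc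
    · rcases newly_bad (hΦ := hΦ) (hε := hε) hlV rfl hDlt hn h3 h4 with h5 | ⟨b, hb', hc⟩
      · -- the root would be bad
        exfalso
        have e1 := sta_full (i := r) (F := K) (x := rsrc Φ ε T) hC hrK (Finset.Subset.refl K)
          (mem_D_of_diff (by rw [hQ]; exact hlQ) (by rw [wd_empty]; exact hlV) t) hσt
        rw [hQ, hfull] at e1
        have h6 := (badc_of_sta e1).1 h5
        have h7 : badc Φ ε L (W : Set Src) T.root σ := by
          have := (hrep.badc _ hlF σ hσt).1 h6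
          change badc Φ ε L (W : Set Src)
            (TL.fs Φ ε (TL.rho Φ ε T (ext Φ ε T)) T (rsrc Φ ε T)).root σ at this
          rwa [hroot] at this
        exact hnb (h7.mono hσ)
      · exact key b hb' (Or.inl hc)
  · right
    obtain ⟨j, hj, hji, h6⟩ := h4
    obtain ⟨e, he, hXi⟩ := hX.exh i hi
    obtain ⟨m, hm, hXj⟩ : ∃ m ∈ TL.outs T, X j = {rsrc Φ ε m} := by
      rcases Finset.mem_insert.1 hj with rfl | hj
      · exact ⟨T, Or.inl rfl, hX.root⟩
      · obtain ⟨m, hm, h7⟩ := hX.exh j hj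
        exact ⟨m, Or.inr hm, h7⟩
    have hme : m ≠ e := by
      rintro rfl
      have := hX.inj j hj i (Finset.mem_insert_of_mem hi) hji
      rw [hXi, hXj, Finset.disjoint_self_iff_empty] at this
      exact Finset.singleton_ne_empty _ this
    refine ⟨e, he, m, hm, hme, σ, σ₂, h1, h2, ?_, ?_, ?_⟩
    · rwa [wd_empty, wd_single hXi] at h3
    · rwa [wd_single hXi, wd_pair hXi hXj] at h6
    · intro s hs hTo
      refine h5 s hs ?_
      rw [wd_single hXi, hfull]
      exact hTo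

end Vale.Agent.P119.PB
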