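import Vale.Agent.P119.PB.Cont2
import Vale.Agent.P119.FB.Flip

/-!
# P119, block PROB, P9 (contamination): the direct contact of a colliding pair (`helper909`)

In the world `W` the trees `x`, `y` are colliding with each other, `x.root` is exposed for the first
time at `τ`, during the collision, and `x.root`, `y.root` are not bad at `τ`.  In the world of lines
`F` the particles are replaced by `l₁`, `l₂`, which are one index `r` of the cube `Wc`.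

`pair_core`: if nothing touches the base `P` before `σ ≤ τ`, and the pair touches it at `σ`, then
`σ = τ` and one of the colliding particles makes a direct contact with an exposed label of `P`.
-/

open MeasureTheory Filter Topology Set
open scoped ENNReal NNReal

noncomputable section

namespace Vale.Agent.P119.PB

open M CTree KU FB RB AU

variable {Φ : E3 → ℝ} {ε : ℝ} {L : ℕ} {hΦ : IsPotential Φ} {hε : 0 < ε}
  {W F P Q : Finset Src} {a b c l₁ l₂ z : Src} {x y : CTree} {s σ τ t : ℝ}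

/-! ### The real world -/

/-- The only contact of a particle which is not bad, after the exit from its last collision, is its
partner. -/
theorem contact_pair (hΦ : IsPotential Φ) (hε : 0 < ε) (hlive : live Φ ε L (W : Set Src) (node x y) τ)
    (hsig : sig Φ ε (node x y) < τ) (hext : τ ≤ ext Φ ε (node x y))
    (hnb : ¬badc Φ ε L (W : Set Src) x.root τ) (hs : s ≤ τ) (hxs : ext Φ ε x ≤ s)
    (hm : mcon Φ ε L (W : Set Src) s x.root c) : c = y.root := by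
  have hW := W.finite_toSet
  have hnbs : ¬badi Φ ε L (W : Set Src) x.root s := fun h => hnb ⟨s, hs, h⟩
  have hp : part Φ ε L (W : Set Src) s x.root c := by
    by_contra hcon
    exact hnbs ⟨hm.mem.1, hm.nonneg hΦ hε, (hm.birth_le hΦ hε).1, Or.inr ⟨c, hm, hcon⟩⟩
  obtain ⟨S, S', h1, h2, u, v, rfl, rfl, h3⟩ := hp
  have hS := (stat_eq_some_iff hΦ hε hW).1 h1
  have hS' := (stat_eq_some_iff hΦ hε hW).1 h2
  have hvc : v.root = c := hS'.1
  have hok := hlive.ok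
  -- it is enough that the status is `node x y`
  suffices h : node u v = node x y by
    injection h with h4 h5
    rw [← hvc, h5]
  rcases lt_or_ge s (sig Φ ε (node x y)) with h4 | h4
  · exfalso
    have h5 := (alive_iff_live hΦ hε hW).1 (live_left hΦ hε hW hlive)
    have h6 : lives Φ ε L (W : Set Src) x s :=
      h5.1.lives_of_lt h4 ((sig_le_ext hΦ hε hok.1).trans hxs)
    have h7 : stat Φ ε L (W : Set Src) x.root s = some x :=
      (stat_eq_some_iff hΦ hε hW).2 ⟨rfl, h6⟩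
    rw [h7] at h1
    injection h1 with h1
    rw [← h1] at h3
    exact absurd h3 (not_lt.2 hxs)
  · rcases hs.lt_or_eq with h5 | h5
    · have h6 := hlive.lives_of_lt h5 h4
      have h7 : stat Φ ε L (W : Set Src) x.root s = some (node x y) :=
        (stat_eq_some_iff hΦ hε hW).2 ⟨rfl, h6⟩
      rw [h7] at h1
      injection h1 with h1
      exact h1.symm
    · subst h5
      rcases hS.2.live.sig_le.lt_or_eq with h6 | h6
      · exact live_unique hΦ hε hW hS.2.live hlive hS.1 h6 hsig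
      · exfalso
        have h7 := live_left hΦ hε hW hS.2.live
        rw [h6] at h7
        have h8 := (alive_iff_live hΦ hε hW).1 h7
        have h9 : ext Φ ε u < s := by
          have := hS.2.ok.2.2.2.2.2.1
          change ext Φ ε u < sig Φ ε (node u v) at this
          rwa [h6] at this
        have h10 := live_unique hΦ hε hW h8.1 hlive hS.1
          ((sig_le_ext hΦ hε hS.2.ok.1).trans_lt h9) hsig
        rw [h10] at h9
        exact absurd h9 (not_lt.2 hext)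

/-- The partner is not exposed before. -/
theorem not_exp_pair (hlive : live Φ ε L (W : Set Src) (node x y) τ)
    (hsig : sig Φ ε (node x y) < τ) (hext : τ ≤ ext Φ ε (node x y))
    (hf : ∀ s < τ, ¬(Y Φ ε L hΦ hε).Exp W x.root s) :
    ∀ s < τ, ¬(Y Φ ε L hΦ hε).Exp W y.root s := by
  intro s hs he
  have h1 : max s (sig Φ ε (node x y)) < τ := max_lt hs hsig
  refine hf _ h1 (TL.exp_partner (hlive.anti h1.le (le_max_right _ _)) (h1.trans_le hext) ?_)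
  exact he.mono (le_max_left _ _)

/-! ### The pair -/

/-- The particles of the pair in the world of lines `F`. -/
structure PairIn (Φ : E3 → ℝ) (ε : ℝ) (L : ℕ) (hΦ : IsPotential Φ) (hε : 0 < ε)
    (W F : Finset Src) (x y : CTree) (l₁ l₂ : Src) (τ : ℝ) : Prop where
  lv : live Φ ε L (W : Set Src) (node x y) τ
  sig_lt : sig Φ ε (node x y) < τ
  le_ext : τ ≤ ext Φ ε (node x y)
  births : ∀ a ∈ W, 0 ≤ a.1
  birthsF : ∀ a ∈ F, 0 ≤ a.1
  nb₁ : ¬badc Φ ε L (F : Set Src) l₁ τ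
  nb₂ : ¬badc Φ ε L (F : Set Src) l₂ τ
  ne₁ : ∀ s < τ, ¬(Y Φ ε L hΦ hε).Exp F l₁ s
  ne₂ : ∀ s < τ, ¬(Y Φ ε L hΦ hε).Exp F l₂ s
  con₁ : ∀ s ≤ τ, ∀ b, mcon Φ ε L (F : Set Src) s l₁ b → b = l₂
  con₂ : ∀ s ≤ τ, ∀ b, mcon Φ ε L (F : Set Src) s l₂ b → b = l₁
  pos₁ : XR Φ ε F τ l₁ = st Φ ε (node x y) τ
  pos₂ : XR Φ ε F τ l₂ = st Φ ε (node y x) τ
  mem₁ : l₁ ∈ F
  mem₂ : l₂ ∈ F
  bir₁ : l₁.1 ≤ τ
  bir₂ : l₂.1 ≤ τ

/-- From the correspondence of the real world and the world of lines. -/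
theorem PairIn.of_lines {g : Src → Src} {θ : CTree → CTree}
    (h : TL.Lines Φ ε L hΦ hε W F g θ t) (hτ : τ ≤ t) (hW : ∀ a ∈ W, 0 ≤ a.1)
    (hF : ∀ a ∈ F, 0 ≤ a.1) (m₁ : l₁ ∈ F) (m₂ : l₂ ∈ F) (g₁ : g l₁ = x.root)
    (g₂ : g l₂ = y.root) (b₁ : l₁.1 = ext Φ ε x) (b₂ : l₂.1 = ext Φ ε y)
    (hlive : live Φ ε L (W : Set Src) (node x y) τ)
    (hsig : sig Φ ε (node x y) < τ) (hext : τ ≤ ext Φ ε (node x y))
    (hf : ∀ s < τ, ¬(Y Φ ε L hΦ hε).Exp W x.root s)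
    (n₁ : ¬badc Φ ε L (W : Set Src) x.root τ) (n₂ : ¬badc Φ ε L (W : Set Src) y.root τ) :
    PairIn Φ ε L hΦ hε W F x y l₁ l₂ τ := by
  have hok := hlive.ok
  have hf₂ := not_exp_pair hlive hsig hext hf
  have hlive' : M.live Φ ε L (W : Set Src) (node y x) τ := live_swap hΦ hlive hext
  have hsig' : sig Φ ε (node y x) < τ := by rw [sig_swap x y]; exact hsig
  have hext' : τ ≤ ext Φ ε (node y x) := by rw [ext_swap hΦ x y]; exact hext
  have e₁ : l₁.1 ≤ τ := by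
    rw [b₁]; exact (hok.2.2.2.2.2.1.trans hsig).le
  have e₂ : l₂.1 ≤ τ := by
    rw [b₂]; exact (hok.2.2.2.2.2.2.trans hsig).le
  have hinj : ∀ a ∈ F, ∀ b ∈ F, g a = g b → a = b := fun a ha b hb hab =>
    h.bij.injOn (Finset.mem_coe.2 ha) (Finset.mem_coe.2 hb) hab
  refine ⟨hlive, hsig, hext, hW, hF, fun hb => n₁ ?_, fun hb => n₂ ?_, fun s hs he => hf s hs ?_,
    fun s hs he => hf₂ s hs ?_, fun s hs b hm => ?_, fun s hs b hm => ?_, ?_, ?_, m₁, m₂, e₁, e₂⟩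
  · rw [← g₁]; exact (h.badc _ m₁ τ hτ).1 hb
  · rw [← g₂]; exact (h.badc _ m₂ τ hτ).1 hb
  · rw [← g₁]; exact (h.exp _ m₁ s (hs.le.trans hτ)).1 he
  · rw [← g₂]; exact (h.exp _ m₂ s (hs.le.trans hτ)).1 he
  · have hb : b ∈ F := Finset.mem_coe.1 hm.mem.2
    have h1 := hm.birth_le hΦ hε
    have h2 := (h.mcon _ m₁ _ hb s (hs.trans hτ) h1.1 h1.2).1 hm
    rw [g₁] at h2
    have h3 := contact_pair hΦ hε hlive hsig hext n₁ hs (b₁ ▸ h1.1) h2
    exact hinj b hb l₂ m₂ (h3.trans g₂.symm)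
  · have hb : b ∈ F := Finset.mem_coe.1 hm.mem.2
    have h1 := hm.birth_le hΦ hε
    have h2 := (h.mcon _ m₂ _ hb s (hs.trans hτ) h1.1 h1.2).1 hm
    rw [g₂] at h2
    have h3 := contact_pair hΦ hε hlive' hsig' hext' n₂ hs (b₂ ▸ h1.1) h2
    exact hinj b hb l₁ m₁ (h3.trans g₁.symm)
  · rw [h.pos _ m₁ τ e₁, g₁]
    exact Y_real_st (hΦ := hΦ) (hε := hε) (T := node x y) hW hf hlive
  · rw [h.pos _ m₂ τ e₂, g₂]
    exact Y_real_st (hΦ := hΦ) (hε := hε) (T := node y x) hW hf₂ hlive'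

theorem PairIn.con (h : PairIn Φ ε L hΦ hε W F x y l₁ l₂ τ) (hz : z = l₁ ∨ z = l₂) (hs : s ≤ τ)
    (hm : mcon Φ ε L (F : Set Src) s z b) : b = l₁ ∨ b = l₂ := by
  rcases hz with rfl | rfl
  · exact Or.inr (h.con₁ s hs b hm)
  · exact Or.inl (h.con₂ s hs b hm)

theorem PairIn.nb (h : PairIn Φ ε L hΦ hε W F x y l₁ l₂ τ) (hz : z = l₁ ∨ z = l₂) :
    ¬badc Φ ε L (F : Set Src) z τ := by
  rcases hz with rfl | rfl
  · exact h.nb₁
  · exact h.nb₂

theorem PairIn.ne (h : PairIn Φ ε L hΦ hε W F x y l₁ l₂ τ) (hz : z = l₁ ∨ z = l₂) :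
    ∀ s < τ, ¬(Y Φ ε L hΦ hε).Exp F z s := by
  rcases hz with rfl | rfl
  · exact h.ne₁
  · exact h.ne₂

theorem PairIn.mem (h : PairIn Φ ε L hΦ hε W F x y l₁ l₂ τ) (hz : z = l₁ ∨ z = l₂) : z ∈ F := by
  rcases hz with rfl | rfl
  · exact h.mem₁
  · exact h.mem₂

theorem PairIn.bir (h : PairIn Φ ε L hΦ hε W F x y l₁ l₂ τ) (hz : z = l₁ ∨ z = l₂) : z.1 ≤ τ := by
  rcases hz with rfl | rfl
  · exact h.bir₁
  · exact h.bir₂

/-- **Without the pair nobody else is different, up to `τ`.** -/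
theorem PairIn.dlt (h : PairIn Φ ε L hΦ hε W F x y l₁ l₂ τ) (hPF : P ⊆ F)
    (hF : ∀ a ∈ F, a ∈ P ∨ a = l₁ ∨ a = l₂) (h₁ : l₁ ∉ P) (h₂ : l₂ ∉ P) :
    (Y Φ ε L hΦ hε).Dlt P F τ ⊆ {l₁, l₂} := by
  have hP : ∀ z, (z = l₁ ∨ z = l₂) → z ∉ P := by
    rintro z (rfl | rfl)
    · exact h₁
    · exact h₂
  have hdiff : ∀ a, ¬(a ∈ P ↔ a ∈ F) → a = l₁ ∨ a = l₂ := by
    intro a ha
    by_contra hcon
    refine ha ⟨fun h => hPF h, fun h' => (hF a h').resolve_right hcon⟩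
  refine FB.Sys.dlt_subset (mc := fun (W : Finset Src) r a b => mcon Φ ε L (W : Set Src) r a b) (σ₁ := 0)
    (fun t a h1 h2 h3 h4 => new' (hΦ := hΦ) (hε := hε) P F t a h1 h2 h3 h4)
    ?_ ?_ ?_ ?_ ?_
  · rintro a (⟨h1, h2⟩ | ⟨h1, h2⟩)
    · exact absurd (hPF h1) h2
    · exact hdiff a fun h => h2 (h.2 h1)
  · intro a h1 h2 s
    exact sta_eq_of_notMem (by simpa using h1) (by simpa using h2) s
  · rintro a ⟨s, hs, ha⟩
    exact hdiff a (D_neg hs ha)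
  · rintro r hr0 hr z hz b hb
    refine ⟨fun hm => hP z hz (Finset.mem_coe.1 hm.mem.2), fun hm => ?_⟩
    exact hb (h.con hz hr.le hm.symm)
  · rintro r hr0 hr z hz b hbX a ha hbD
    exact absurd (mem_Dlt_of_diff (h.mem hbX) (hP b hbX) r) hbD

/-- **The direct contact of the pair** at the first touch, which is at `τ`. -/
theorem PairIn.direct (h : PairIn Φ ε L hΦ hε W F x y l₁ l₂ τ) (hPQ : P ⊆ Q) (hQF : Q ⊆ F)
    (hQ : ∀ a ∈ Q, a ∈ P ∨ a = l₁ ∨ a = l₂) (m₁ : l₁ ∈ Q) (m₂ : l₂ ∈ Q) (h₁ : l₁ ∉ P)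
    (h₂ : l₂ ∉ P)
    (hst : ∀ z, (z = l₁ ∨ z = l₂) → ∀ s ≤ τ, sta Φ ε L (Q : Set Src) z s =
      sta Φ ε L (F : Set Src) z s)
    (hm : ∀ z, (z = l₁ ∨ z = l₂) → ∀ s < τ, ∀ b, mcon Φ ε L (Q : Set Src) s z b →
      mcon Φ ε L (F : Set Src) s z b)
    (hT : (Y Φ ε L hΦ hε).Touch P Q τ) (hf : ∀ s < τ, ¬(Y Φ ε L hΦ hε).Touch P Q s)
    (hfF : ∀ s < τ, ¬(Y Φ ε L hΦ hε).Touch Q F s) : DirP L hΦ hε P τ x y := by
  have hP : ∀ z, (z = l₁ ∨ z = l₂) → z ∉ P := by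
    rintro z (rfl | rfl)
    · exact h₁
    · exact h₂
  have hzQ : ∀ z, (z = l₁ ∨ z = l₂) → z ∈ Q := by
    rintro z (rfl | rfl)
    · exact m₁
    · exact m₂
  have hbQ : ∀ a ∈ Q, 0 ≤ a.1 := fun a ha => h.birthsF a (hQF ha)
  have hbP : ∀ a ∈ P, 0 ≤ a.1 := fun a ha => hbQ a (hPQ ha)
  have hτ0 : 0 ≤ τ := (hbQ l₁ m₁).trans h.bir₁
  have hbad : ∀ z, (z = l₁ ∨ z = l₂) → ¬badc Φ ε L (Q : Set Src) z τ := fun z hz hb =>
    h.nb hz ((badc_of_sta (hst z hz τ le_rfl)).1 hb)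
  -- nobody else is different before `τ`
  have hdiff : ∀ a, ¬(a ∈ P ↔ a ∈ Q) → a = l₁ ∨ a = l₂ := by
    intro a ha
    by_contra hcon
    exact ha ⟨fun h => hPQ h, fun h' => (hQ a h').resolve_right hcon⟩
  have hDlt : (Y Φ ε L hΦ hε).Dlt P Q τ ⊆ {l₁, l₂} := by
    refine FB.Sys.dlt_subset (mc := fun (W : Finset Src) r a b => mcon Φ ε L (W : Set Src) r a b)
      (σ₁ := 0) (fun t a h1 h2 h3 h4 =>
        new' (hΦ := hΦ) (hε := hε) P Q t a h1 h2 h3 h4) ?_ ?_ ?_ ?_ ?_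
    · rintro a (⟨h1, h2⟩ | ⟨h1, h2⟩)
      · exact absurd (hPQ h1) h2
      · exact hdiff a fun h => h2 (h.2 h1)
    · intro a h1 h2 s
      exact sta_eq_of_notMem (by simpa using h1) (by simpa using h2) s
    · rintro a ⟨s, hs, ha⟩
      exact hdiff a (D_neg hs ha)
    · rintro r hr0 hr z hz b hb
      refine ⟨fun hm' => hP z hz (Finset.mem_coe.1 hm'.mem.2), fun hm' => ?_⟩
      exact hb (h.con hz hr.le (hm z hz r hr b hm'.symm))
    · rintro r hr0 hr z hz b hbX a ha hbD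
      exact absurd (mem_Dlt_of_diff (hzQ b hbX) (hP b hbX) r) hbD
  have hD : ∀ a ∈ P, a ∉ (Y Φ ε L hΦ hε).Dlt P Q τ := fun a ha hD => hP a (hDlt hD) ha
  rcases direct_contact hbP hbQ hPQ hT hf hD with ⟨z, hz, hzP, b, hb, hc⟩ | ⟨a, h3, h4⟩
  · -- contact of the pair
    have hz' : z = l₁ ∨ z = l₂ := (hQ z hz).resolve_left hzP
    obtain ⟨T, hT'⟩ := stat_of_not_badc (hbad z hz') hz hτ0 (h.bir hz')
    have hTl := (stat_eq_some_iff hΦ hε Q.finite_toSet).1 hT'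
    have hits := hits_of_con hbP hbQ hf hzP hb.mem (hD b hb.mem) hTl.2.live hTl.1 hc
    have hunQ := not_exp_of_first hf hz hzP
    have e1 : XR Φ ε Q τ z = st Φ ε T τ := by
      have := Y_real_st (hΦ := hΦ) (hε := hε) (T := T) hbQ (by rw [hTl.1]; exact hunQ) hTl.2.live
      rwa [hTl.1] at this
    have e2 : XR Φ ε Q τ z = XR Φ ε F τ z := by
      refine Y_real_eq hΦ hε (L := L) hbQ h.birthsF hfF ?_ le_rfl
      rintro ⟨q, hq, q', hq', hne⟩
      exact hne (hst z hz' q' (hq'.trans hq.le))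
    refine ⟨τ, le_rfl, h.sig_lt, h.le_ext, b, hb, ?_⟩
    rw [← e1, e2] at hits
    rcases hz' with rfl | rfl
    · left; rwa [h.pos₁] at hits
    · right; rwa [h.pos₂] at hits
  · -- nobody is newly bad
    exfalso
    have haQ : a ∈ Q := Finset.mem_coe.1 h3.mem
    rcases hQ a haQ with haP | haX
    swap
    · exact hbad a haX h3
    have haD : a ∈ (Y Φ ε L hΦ hε).D P Q τ := ⟨τ, le_rfl, fun h => h4 ((badc_of_sta h).2 h3)⟩
    obtain ⟨b, hb, z, hz, h5⟩ := new' (hΦ := hΦ) (hε := hε) P Q τ a haP haQ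
      haD (hD a haP)
    have hzX : z = l₁ ∨ z = l₂ := hDlt hz
    have hbX : ¬(b = l₁ ∨ b = l₂) := fun h' => hb (mem_Dlt_of_diff (hzQ b h') (hP b h') τ)
    have hbz : mcon Φ ε L (Q : Set Src) τ z b := by
      rcases h5 with ⟨-, h6⟩ | ⟨-, h6⟩
      · exact absurd (Finset.mem_coe.1 h6.mem.2) (hP z hzX)
      · exact h6.symm
    have hp : part Φ ε L (Q : Set Src) τ z b := by
      by_contra hcon
      exact hbad z hzX ⟨τ, le_rfl, hbz.mem.1, hτ0, (hbz.birth_le hΦ hε).1, Or.inr ⟨b, hbz, hcon⟩⟩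
    obtain ⟨S, S', k1, k2, u, v, rfl, rfl, k3⟩ := hp
    have hvb : v.root = b := ((stat_eq_some_iff hΦ hε Q.finite_toSet).1 k2).1
    rw [stat_of_sta (hst z hzX τ le_rfl)] at k1
    have k4 := (stat_eq_some_iff hΦ hε F.finite_toSet).1 k1
    have k5 := mcon_partner hΦ hε k4.2.live k3
    rw [show u.root = z from k4.1, hvb] at k5
    exact hbX (h.con hzX le_rfl k5)

/-- **The pair touches the base first**: then it does so at `τ`, by a direct contact. -/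
theorem pair_core {ι : Type*} [DecidableEq ι] {Wc : Finset ι → Finset Src} {E : Finset ι} {r : ι}
    (hr : r ∉ E) (hC : FB.Sys.Cube (Y Φ ε L hΦ hε) Wc (insert r E) τ)
    (hb : ∀ J ⊆ insert r E, ∀ a ∈ Wc J, 0 ≤ a.1 ∧ a.2.2 ≤ L)
    (h : PairIn Φ ε L hΦ hε W (Wc (insert r E)) x y l₁ l₂ τ)
    (hmem : ∀ J ⊆ E, l₁ ∉ Wc J ∧ l₂ ∉ Wc J ∧ Wc J ⊆ Wc (insert r J) ∧
      ∀ a, a ∈ Wc (insert r J) → a ∈ Wc J ∨ a = l₁ ∨ a = l₂)
    (m₁ : l₁ ∈ Wc {r}) (m₂ : l₂ ∈ Wc {r}) (hQF : Wc {r} ⊆ Wc (insert r E)) (hσ : σ ≤ τ)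
    (hT : (Y Φ ε L hΦ hε).Touch (Wc ∅) (Wc {r}) σ)
    (hf : ∀ s < σ, ¬(Y Φ ε L hΦ hε).Touch (Wc ∅) (Wc (insert r E)) s) :
    σ = τ ∧ DirP L hΦ hε (Wc ∅) τ x y := by
  have hrK : r ∈ insert r E := Finset.mem_insert_self r E
  have hb0 : ∀ J ⊆ insert r E, ∀ a ∈ Wc J, 0 ≤ a.1 := fun J hJ a ha => (hb J hJ a ha).1
  have htr : ∀ I J, I ⊆ insert r E → J ⊆ insert r E →
      (Y Φ ε L hΦ hε).Transfer (Wc I) (Wc J) := fun I J hI hJ =>
    Y_transfer hΦ hε (hb0 I hI) (hb0 J hJ)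
  have e1 : (insert r ∅ : Finset ι) = {r} := by simp
  obtain ⟨p1, p2, p3, p4⟩ := hmem ∅ (Finset.empty_subset _)
  rw [e1] at p3 p4
  obtain ⟨q1, q2, q3, q4⟩ := hmem E (Finset.Subset.refl _)
  have k0 : (∅ : Finset ι) ⊆ insert r E := Finset.empty_subset _
  have kr : ({r} : Finset ι) ⊆ insert r E := Finset.singleton_subset_iff.2 hrK
  have hn : ∀ i ∈ insert r E, ∀ s < σ, ¬(Y Φ ε L hΦ hε).Touch (Wc ∅) (Wc {i}) s := by
    intro i hi s hs hTo
    exact hf s hs (((hC.mono (hs.le.trans hσ)).touch_iff htr (Finset.Subset.refl _)).2 ⟨i, hi, hTo⟩)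
  have hlast := (hC.mono hσ).touch_last hr (fun I J hI hJ => Y_loc hΦ hε (hb0 I hI) (hb0 J hJ))
    (fun I J hI _ => Y_Part (hΦ := hΦ) (hε := hε) (hb I hI)) hn hT
  have hDltE := h.dlt (P := Wc E) q3 q4 q1 q2
  have hστ : σ = τ := by
    by_contra hne
    have hlt := lt_of_le_of_ne hσ hne
    obtain ⟨a, hD, he⟩ := hlast
    have haX : a = l₁ ∨ a = l₂ := hDltE ⟨σ, hlt, hD⟩
    rcases he with he | he
    · rcases haX with rfl | rfl
      · exact q1 he.mem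
      · exact q2 he.mem
    · exact h.ne haX σ hlt he
  subst hστ
  refine ⟨rfl, ?_⟩
  have hzQ : ∀ z, (z = l₁ ∨ z = l₂) → z ∈ Wc {r} ∧ z ∉ Wc ∅ := by
    rintro z (rfl | rfl)
    · exact ⟨m₁, p1⟩
    · exact ⟨m₂, p2⟩
  refine h.direct p3 hQF p4 m₁ m₂ p1 p2 (fun z hz s hs => ?_) (fun z hz s hs b hm => ?_) hT
    (fun s hs => hn r hrK s hs) (fun s hs => ?_)
  · exact sta_full hC hrK (Finset.Subset.refl _) (mem_D_of_diff (hzQ z hz).1 (hzQ z hz).2 _) hs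
  · exact mcon_full hC hrK (Finset.Subset.refl _) hs.le (hn r hrK s hs) (hzQ z hz).1 (hzQ z hz).2 hm
  · exact FB.Sys.not_touch_trans (htr _ _ kr k0) (htr _ _ k0 (Finset.Subset.refl _))
      (fun h' => hn r hrK s hs h'.symm) (hf s hs)

end Vale.Agent.P119.PB
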