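import Vale.Agent.P119.PB.ContDef
import Vale.Agent.P119.PB.ThrTL2

/-!
# P119, block PROB, P9 (contamination): the count (`helper456`)

* `cx T`: an upper bound of the energies with which the root of `T` may be exposed;
* `ex_cases`: an exposed label has a tree at its first exposure: it is flying (`FE`), or it is
  colliding (`PE`), or it, or its partner, is bad (`CE`);
* `eW_le_cont`: the exposed energy is at most the sum over these trees.
-/

open MeasureTheory Filter Topology Set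
open scoped ENNReal NNReal

noncomputable section

namespace Vale.Agent.P119.PB

open M CTree KU FB RB AU

variable {Φ : E3 → ℝ} {ε : ℝ} {L : ℕ} {hΦ : IsPotential Φ} {hε : 0 < ε}

/-- An upper bound of the energies with which the root of `T` may be exposed. -/
def cx (Φ : E3 → ℝ) (ε : ℝ) : CTree → ℝ
  | leaf σ => ‖σ.2.1.2‖ ^ 2
  | node x y => ‖(ln Φ ε x).2‖ ^ 2 + ‖(ln Φ ε y).2‖ ^ 2

theorem cx_nonneg (T : CTree) : 0 ≤ cx Φ ε T := by
  cases T with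
  | leaf σ => exact sq_nonneg _
  | node x y => exact add_nonneg (sq_nonneg _) (sq_nonneg _)

theorem sq_ln_le_cx (hΦ : IsPotential Φ) (hε : 0 < ε) (T : CTree) :
    ‖(ln Φ ε T).2‖ ^ 2 ≤ cx Φ ε T := by
  cases T with
  | leaf σ => exact le_rfl
  | node x y =>
    have h1 := energy_sc2 hΦ hε.ne' (ln Φ ε x, ln Φ ε y)
    have h2 : (ln Φ ε (node x y)).2 = (sc2 Φ ε (ln Φ ε x, ln Φ ε y)).1.2 := rfl
    have h3 : cx Φ ε (node x y) = ‖(ln Φ ε x).2‖ ^ 2 + ‖(ln Φ ε y).2‖ ^ 2 := rfl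
    rw [h2, h3]
    nlinarith [sq_nonneg ‖(sc2 Φ ε (ln Φ ε x, ln Φ ε y)).2.2‖]

theorem cw_le_cx (hΦ : IsPotential Φ) (hε : 0 < ε) (T : CTree) (t : ℝ) :
    EN.cw Φ ε T t ≤ cx Φ ε T := by
  cases T with
  | leaf σ => exact le_rfl
  | node x y =>
    rcases lt_or_ge t (ext Φ ε (node x y)) with h1 | h1
    · rw [EN.cw_node_of_lt h1]
      exact le_rfl
    · rw [EN.cw_of_ext_le h1]
      exact sq_ln_le_cx hΦ hε _

variable {W : Finset Src} {h : ℝ} {c : Src}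

/-- **The tree of a label at its first exposure.** -/
theorem exists_PS_fex (h0 : ∀ a ∈ W, 0 ≤ a.1) (hd : ∀ a ∈ W, a.2.2 ≤ L) {τ : ℝ}
    (hf : fex L hΦ hε W c τ) :
    ∃ T ∈ trs L W, EN.PS Φ ε L (W : Set Src) c τ T := by
  have hcW : c ∈ W := hf.1.mem
  have hb : c.1 ≤ τ := exp_birth_le hf.1
  rcases hb.lt_or_eq with h1 | h1
  · obtain ⟨T, hT, -⟩ := EN.stat_left hΦ hε W.finite_toSet (L := L) h1 fun q h3 h4 hnone =>
      hf.2 q h4 (exp_of_badi ⟨Finset.mem_coe.2 hcW, (h0 c hcW).trans h3, h3, Or.inl hnone⟩ le_rfl)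
    exact ⟨T, mem_trs.2 ⟨hT.2.1.sub, hT.2.1.depth⟩, hT⟩
  · subst h1
    have h2 : EN.PS Φ ε L (W : Set Src) c c.1 (leaf c) :=
      PS_birth (Finset.mem_coe.2 hcW) (h0 c hcW) (hd c hcW)
    exact ⟨leaf c, mem_trs.2 ⟨h2.2.1.sub, h2.2.1.depth⟩, h2⟩

/-- **The three cases at the first exposure.** -/
theorem fex_cases (hΦ : IsPotential Φ) (hε : 0 < ε) {τ : ℝ} (hf : fex L hΦ hε W c τ) (hτ : τ ≤ h)
    {T : CTree} (hT : EN.PS Φ ε L (W : Set Src) c τ T) :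
    (FE L hΦ hε W h T ∧ EN.cw Φ ε T τ = ‖(ln Φ ε T).2‖ ^ 2) ∨
      (∃ x y, T = node x y ∧ PE L hΦ hε W h x y ∧
        EN.cw Φ ε T τ ≤ ‖(ln Φ ε x).2‖ ^ 2 + ‖(ln Φ ε y).2‖ ^ 2) ∨ CE L hΦ hε W h T := by
  have hr : T.root = c := hT.1
  subst hr
  by_cases h1 : badc Φ ε L (W : Set Src) T.root τ
  · exact Or.inr (Or.inr ⟨τ, hτ, hf, hT, Or.inl h1⟩)
  cases T with
  | leaf σ => exact Or.inl ⟨⟨τ, hτ, hf, hT, Or.inl rfl, h1⟩, rfl⟩
  | node x y =>
    rcases le_or_gt (ext Φ ε (node x y)) τ with h2 | h2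
    · exact Or.inl ⟨⟨τ, hτ, hf, hT, Or.inr h2, h1⟩, EN.cw_of_ext_le h2⟩
    · by_cases h3 : badc Φ ε L (W : Set Src) y.root τ
      · exact Or.inr (Or.inr ⟨τ, hτ, hf, hT, Or.inr ⟨x, y, rfl, h2.le, h3⟩⟩)
      · refine Or.inr (Or.inl ⟨x, y, rfl, ⟨τ, hτ, hf, hT.2.1, ?_, h2, h1, h3⟩,
          cw_le_cx hΦ hε (node x y) τ⟩)
        rcases hT.2.2 with h4 | h4
        · exact absurd h4 (by simp)
        · exact h4

open Classical in
/-- The contribution of the tree `T` to the exposed energy. -/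
def gT (L : ℕ) (hΦ : IsPotential Φ) (hε : 0 < ε) (W : Finset Src) (h : ℝ) (T : CTree) : ℝ≥0∞ :=
  (if FE L hΦ hε W h T then ENNReal.ofReal (1 + ‖(ln Φ ε T).2‖ ^ 2) else 0) +
    ((match T with
      | leaf _ => 0
      | node x y => if PE L hΦ hε W h x y then
          ENNReal.ofReal (1 + (‖(ln Φ ε x).2‖ ^ 2 + ‖(ln Φ ε y).2‖ ^ 2)) else 0) +
      if CE L hΦ hε W h T then ENNReal.ofReal (1 + cx Φ ε T) else 0)

theorem eW_le_gT (h0 : ∀ a ∈ W, 0 ≤ a.1) (hd : ∀ a ∈ W, a.2.2 ≤ L) (h : ℝ) :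
    eW L hΦ hε W h ≤ ∑ T ∈ trs L W, gT L hΦ hε W h T := by
  classical
  set φ : Src → CTree := fun c => EN.ptree Φ ε L (W : Set Src) c (EN.tau (ex L hΦ hε W) c) with hφ
  have key : ∀ c ∈ ex L hΦ hε W h, φ c ∈ trs L W ∧ (φ c).root = c ∧
      ENNReal.ofReal (1 + EN.wt Φ ε L W (ex L hΦ hε W) c) ≤ gT L hΦ hε W h (φ c) := by
    intro c hc
    obtain ⟨h1, h2, h3⟩ := tau_first hc
    have hf : fex L hΦ hε W c (EN.tau (ex L hΦ hε W) c) :=
      ⟨mem_ex.1 h1, fun s hs hcs => h3 s hs (mem_ex.2 hcs)⟩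
    obtain ⟨T, hT, hPS⟩ := exists_PS_fex h0 hd hf
    have h4 : φ c = T := EN.ptree_eq hΦ hε W.finite_toSet hPS
    have h5 : EN.wt Φ ε L W (ex L hΦ hε W) c = EN.cw Φ ε T (EN.tau (ex L hΦ hε W) c) := by
      unfold EN.wt
      rw [← h4]
    refine ⟨h4 ▸ hT, by rw [h4]; exact hPS.1, ?_⟩
    rw [h4, h5]
    rcases fex_cases hΦ hε hf h2 hPS with ⟨h6, h7⟩ | ⟨x, y, rfl, h6, h7⟩ | h6
    · rw [h7]
      unfold gT
      rw [if_pos h6]
      exact le_self_add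
    · unfold gT
      refine le_trans ?_ (le_add_of_nonneg_left zero_le)
      simp only
      rw [if_pos h6]
      exact (ENNReal.ofReal_le_ofReal (by linarith)).trans le_self_add
    · unfold gT
      refine le_trans ?_ (le_add_of_nonneg_left zero_le)
      refine le_trans ?_ (le_add_of_nonneg_left zero_le)
      rw [if_pos h6]
      exact ENNReal.ofReal_le_ofReal (by linarith [cw_le_cx hΦ hε T (EN.tau (ex L hΦ hε W) c)])
  unfold eW
  calc ∑ c ∈ ex L hΦ hε W h, ENNReal.ofReal (1 + EN.wt Φ ε L W (ex L hΦ hε W) c)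
      ≤ ∑ c ∈ ex L hΦ hε W h, gT L hΦ hε W h (φ c) :=
        Finset.sum_le_sum fun c hc => (key c hc).2.2
    _ = ∑ T ∈ (ex L hΦ hε W h).image φ, gT L hΦ hε W h T := by
        refine (Finset.sum_image fun c hc c' hc' he => ?_).symm
        rw [← (key c hc).2.1, ← (key c' hc').2.1, he]
    _ ≤ ∑ T ∈ trs L W, gT L hΦ hε W h T := by
        refine Finset.sum_le_sum_of_subset fun T hT => ?_
        obtain ⟨c, hc, rfl⟩ := Finset.mem_image.1 hT
        exact (key c hc).1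

open Classical in
/-- **COUNT.** -/
theorem eW_le_cont (h0 : ∀ a ∈ W, 0 ≤ a.1) (hd : ∀ a ∈ W, a.2.2 ≤ L) (h : ℝ) :
    eW L hΦ hε W h ≤
      (∑ T ∈ trs L W, if FE L hΦ hε W h T then ENNReal.ofReal (1 + ‖(ln Φ ε T).2‖ ^ 2) else 0) +
      ((∑ x ∈ trs L W, ∑ y ∈ trs L W, if PE L hΦ hε W h x y then
          ENNReal.ofReal (1 + (‖(ln Φ ε x).2‖ ^ 2 + ‖(ln Φ ε y).2‖ ^ 2)) else 0) +
        ∑ T ∈ trs L W, if CE L hΦ hε W h T then ENNReal.ofReal (1 + cx Φ ε T) else 0) := by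
  refine (eW_le_gT h0 hd h).trans ?_
  unfold gT
  rw [Finset.sum_add_distrib, Finset.sum_add_distrib]
  refine add_le_add le_rfl (add_le_add ?_ le_rfl)
  rw [← Finset.sum_product']
  set F : CTree × CTree → ℝ≥0∞ := fun p => if PE L hΦ hε W h p.1 p.2 then
          ENNReal.ofReal (1 + (‖(ln Φ ε p.1).2‖ ^ 2 + ‖(ln Φ ε p.2).2‖ ^ 2)) else 0 with hF
  set G : CTree → ℝ≥0∞ := fun T => (match T with
      | leaf _ => (0 : ℝ≥0∞)
      | node x y => if PE L hΦ hε W h x y then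
          ENNReal.ofReal (1 + (‖(ln Φ ε x).2‖ ^ 2 + ‖(ln Φ ε y).2‖ ^ 2)) else 0) with hG
  change ∑ T ∈ trs L W, G T ≤ ∑ p ∈ trs L W ×ˢ trs L W, F p
  have h1 : ∑ p ∈ trs L W ×ˢ trs L W, F p =
      ∑ T ∈ (trs L W ×ˢ trs L W).image (fun p => node p.1 p.2), G T := by
    rw [Finset.sum_image]
    intro p _ q _ he
    have he' : node p.1 p.2 = node q.1 q.2 := he
    injection he' with h2 h3
    exact Prod.ext h2 h3
  rw [h1]
  refine Finset.sum_le_sum_of_ne_zero fun T hT hne => ?_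
  cases T with
  | leaf σ => exact absurd rfl hne
  | node x y =>
    refine Finset.mem_image.2 ⟨(x, y), Finset.mem_product.2 ⟨?_, ?_⟩, rfl⟩
    · rw [mem_trs] at hT ⊢
      exact ⟨fun a ha => hT.1 (Or.inl ha),
        (le_max_left x.depth y.depth).trans (Nat.le_of_succ_le hT.2)⟩
    · rw [mem_trs] at hT ⊢
      exact ⟨fun a ha => hT.1 (Or.inr ha),
        (le_max_right x.depth y.depth).trans (Nat.le_of_succ_le hT.2)⟩

end Vale.Agent.P119.PB
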