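import Vale.Agent.P119.PB.ContCre1
import Vale.Agent.P119.PB.ContCount
import Vale.Agent.P119.PB.Felt

/-!
# P119, block PROB, P9 (contamination): creation of a bad flying particle (`helper456`)

`l = rsrc T` is the line of the tree `T` of `W = U ∪ leaves T`, `GoodT U T t`.

* `sta_single`: the full status of `l` is the same in the world of lines and in `U + l`;
* `stat_line`: the status of `l` in `U + l` before the first event of the root of `T`;
* `creation_flying`: if the root of `T` is bad when it is first exposed, and is flying, then the line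
  `l` hits a tree of `U` and the new tree is too deep, or `l` is exceptional for `U` (`ExL`).
-/

open MeasureTheory Filter Topology Set
open scoped ENNReal NNReal

noncomputable section

namespace Vale.Agent.P119.PB

open M CTree KU FB RB AU TL

variable {Φ : E3 → ℝ} {ε : ℝ} {L : ℕ} {hΦ : IsPotential Φ} {hε : 0 < ε}
  {U V W K : Finset Src} {T x : CTree} {l : Src} {s t τ η η' : ℝ}

/-- The full status of a new source does not depend on the other new sources. -/
theorem sta_single (hΦ : IsPotential Φ) (hε : 0 < ε) (h : Good Φ ε L U sgl K t) (hl : l ∈ K)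
    (hs : s ≤ t) : sta Φ ε L (wF U sgl K : Set Src) l s =
      sta Φ ε L ((insert l U : Finset Src) : Set Src) l s := by
  have : Nonempty Src := ⟨l⟩
  obtain ⟨i, hi⟩ := h.sta_dep hΦ hε l
  have hlU : l ∉ U := fun h' => Finset.disjoint_left.1 (h.disjV l hl) h' (Finset.mem_singleton_self l)
  have h1 : ({l} : Finset Src) ⊆ K := Finset.singleton_subset_iff.2 hl
  have hil : i = l := by
    by_contra hne
    have h2 := hi ∅ {l} (Finset.empty_subset _) h1 (by simp [hne]) s hs
    have h3 := (mem_of_sta h2).2 (Finset.mem_coe.2 (mem_wF_sgl.2 (Or.inr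
      (Finset.mem_singleton_self l))))
    rw [wF_empty] at h3
    exact hlU (Finset.mem_coe.1 h3)
  subst hil
  have h2 := hi K {i} (Finset.Subset.refl K) h1 (by simp [hl]) s hs
  rw [wF_sgl_singleton] at h2
  exact h2

theorem rsrc_mem_srcs : rsrc Φ ε T ∈ srcs Φ ε T := mem_srcs.2 ⟨T, Or.inl rfl, rfl⟩

/-- The root line of `T` is the source of `T`. -/
theorem rt_rsrc (h : TGood Φ ε L hΦ hε U T W (ext Φ ε T) t)
    (hl : LGood Φ ε L U T (ext Φ ε T) t) :
    rt Φ ε (rho Φ ε T (ext Φ ε T)) T (rsrc Φ ε T) = T.root := by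
  have h1 := rt_msrc (h.setup hl) (x := T) (Or.inl rfl)
  rw [msrc_rho h.ok (Or.inl rfl)] at h1
  exact h1

open Classical in
/-- **The line of `T` over `U`**: badness. -/
theorem badc_line (h : TGood Φ ε L hΦ hε U T W (ext Φ ε T) t) (hg : GoodT Φ ε L U T t)
    (hs : s ≤ t) : badc Φ ε L ((insert (rsrc Φ ε T) U : Finset Src) : Set Src) (rsrc Φ ε T) s ↔
      badc Φ ε L (W : Set Src) T.root s := by
  have hl := hg.lgood hΦ hε h.ok
  have hL : Lines Φ ε L hΦ hε W (lnw Φ ε U T (ext Φ ε T)) (rt Φ ε (rho Φ ε T (ext Φ ε T)) T)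
      (th Φ ε (rho Φ ε T (ext Φ ε T)) T) t := (h.rep hl).lines
  have hmem : rsrc Φ ε T ∈ lnw Φ ε U T (ext Φ ε T) := by
    rw [lnw_eq h.ok]
    exact mem_wF_sgl.2 (Or.inr rsrc_mem_srcs)
  have h1 := hL.badc _ hmem s hs
  rw [rt_rsrc h hl] at h1
  rw [← h1, lnw_eq h.ok]
  exact (badc_of_sta (sta_single hΦ hε hg.good rsrc_mem_srcs hs)).symm

open Classical in
/-- The status of the line of `T` over `U`. -/
theorem stat_line (h : TGood Φ ε L hΦ hε U T W (ext Φ ε T) t) (hg : GoodT Φ ε L U T t)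
    (hs : s ≤ t) (hes : ext Φ ε T ≤ s) (hst : stat Φ ε L (W : Set Src) T.root s = some T) :
    stat Φ ε L ((insert (rsrc Φ ε T) U : Finset Src) : Set Src) (rsrc Φ ε T) s =
      some (leaf (rsrc Φ ε T)) := by
  have hl := hg.lgood hΦ hε h.ok
  have hS := h.setup hl
  have hL : Lines Φ ε L hΦ hε W (lnw Φ ε U T (ext Φ ε T)) (rt Φ ε (rho Φ ε T (ext Φ ε T)) T)
      (th Φ ε (rho Φ ε T (ext Φ ε T)) T) t := (h.rep hl).lines
  have hmem : rsrc Φ ε T ∈ lnw Φ ε U T (ext Φ ε T) := by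
    rw [lnw_eq h.ok]
    exact mem_wF_sgl.2 (Or.inr rsrc_mem_srcs)
  have h1 := hL.stat _ hmem s hs hes
  rw [rt_rsrc h hl, hst] at h1
  have h2 : stat Φ ε L (lnw Φ ε U T (ext Φ ε T) : Set Src) (rsrc Φ ε T) s =
      some (leaf (rsrc Φ ε T)) := by
    rcases h3 : stat Φ ε L (lnw Φ ε U T (ext Φ ε T) : Set Src) (rsrc Φ ε T) s with _ | S
    · rw [h3] at h1
      exact absurd h1 (by simp)
    · rw [h3, Option.map_some, Option.some_inj] at h1
      have h4 := ((stat_eq_some_iff hΦ hε (Finset.finite_toSet _)).1 h3).2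
      have h5 : S.leaves ⊆ lwd Φ ε (rho Φ ε T (ext Φ ε T)) (U : Set Src) T := by
        rw [← coe_lnw h.ok]
        exact h4.sub
      have h6 : (leaf (rsrc Φ ε T)).leaves ⊆ lwd Φ ε (rho Φ ε T (ext Φ ε T)) (U : Set Src) T := by
        rw [← coe_lnw h.ok]
        rintro a rfl
        exact Finset.mem_coe.2 hmem
      have h7 : th Φ ε (rho Φ ε T (ext Φ ε T)) T (leaf (rsrc Φ ε T)) = T := by
        have := th_leaf_msrc hS (x := T) (Or.inl rfl)
        rw [msrc_rho h.ok (Or.inl rfl)] at this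
        exact this
      rw [th_inj hS h5 h6 (by rw [h7, ← h1])]
  rw [lnw_eq h.ok] at h2
  rw [← stat_of_sta (sta_single hΦ hε hg.good rsrc_mem_srcs hs)]
  exact h2

/-- The hypotheses of TREE -> LINES at the first exposure of a flying tree. -/
theorem tgood_of_fex (h0 : ∀ a ∈ W, 0 ≤ a.1) (hd : Disjoint (U : Set Src) T.leaves)
    (hW : (W : Set Src) = (U : Set Src) ∪ T.leaves) (hf : fex L hΦ hε W T.root τ)
    (hlive : live Φ ε L (W : Set Src) T τ) (he : ext Φ ε T ≤ τ) (hτ : τ ≤ t) :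
    TGood Φ ε L hΦ hε U T W (ext Φ ε T) t := by
  refine ⟨hd, hW, h0, ?_, Or.inl rfl, fun s hs => hf.2 s (hs.trans_le he), he.trans hτ⟩
  rw [alive_iff_live hΦ hε W.finite_toSet]
  exact ⟨hlive.anti he (sig_le_ext hΦ hε hlive.ok), le_rfl⟩

open Classical in
/-- **No M-contact** of the line of `T` over `U` before the first exposure. -/
theorem no_mcon_line (h0 : ∀ a ∈ W, 0 ≤ a.1) (hW : (W : Set Src) = (U : Set Src) ∪ T.leaves)
    (hg : GoodT Φ ε L U T t) (hf : fex L hΦ hε W T.root τ) (hlive : live Φ ε L (W : Set Src) T τ)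
    (he : ext Φ ε T ≤ τ) (hτ : τ ≤ t) {r : ℝ} (hr : r < τ) (b : Src) :
    ¬mcon Φ ε L ((insert (rsrc Φ ε T) U : Finset Src) : Set Src) r (rsrc Φ ε T) b := by
  intro hm
  have hT := tgood_of_fex (t := t) h0 hg.disj hW hf hlive he hτ
  have hb : ext Φ ε T ≤ r := (hm.birth_le hΦ hε).1
  have h1 : stat Φ ε L (W : Set Src) T.root r = some T :=
    (stat_eq_some_iff hΦ hε W.finite_toSet).2
      ⟨rfl, hlive.lives_of_lt hr ((sig_le_ext hΦ hε hlive.ok).trans hb)⟩
  have h2 := stat_line hT hg (hr.le.trans hτ) hb h1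
  have h3 : badi Φ ε L ((insert (rsrc Φ ε T) U : Finset Src) : Set Src) (rsrc Φ ε T) r := by
    refine ⟨hm.mem.1, hm.nonneg hΦ hε, hb, Or.inr ⟨b, hm, ?_⟩⟩
    rintro ⟨S, S', h4, -, x, y, rfl, -⟩
    rw [h2] at h4
    exact absurd h4 (by simp)
  have h4 := (badc_line hT hg (hr.le.trans hτ)).1 ⟨r, le_rfl, h3⟩
  obtain ⟨q, hq, h5⟩ := h4
  exact hf.2 q (hq.trans_lt hr) (exp_of_badi h5 le_rfl)

open Classical in
/-- **Creation, flying.** -/
theorem creation_flying (h0 : ∀ a ∈ W, 0 ≤ a.1)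
    (hW : (W : Set Src) = (U : Set Src) ∪ T.leaves) (hg : GoodT Φ ε L U T t)
    (hf : fex L hΦ hε W T.root τ) (hlive : live Φ ε L (W : Set Src) T τ)
    (he : ext Φ ε T ≤ τ) (hτ : τ ≤ t) (hb : badc Φ ε L (W : Set Src) T.root τ) :
    OvL Φ ε L U (rsrc Φ ε T) τ ∨ ExL Φ ε L U (rsrc Φ ε T) τ := by
  have hT := tgood_of_fex (t := t) h0 hg.disj hW hf hlive he hτ
  refine line_creation hΦ hε (fun h => Finset.disjoint_left.1
    (hg.good.disjV _ rsrc_mem_srcs) h (Finset.mem_singleton_self _))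
    (ext_nonneg hΦ hε hlive.ok) hlive.depth (fun r hr b => ?_) ((badc_line hT hg hτ).2 hb)
  exact no_mcon_line h0 hW hg hf hlive he hτ hr b

end Vale.Agent.P119.PB
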