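import Vale.Agent.P119.PB.ContCre3
import Vale.Agent.P119.PB.Cont3
import Vale.Agent.P119.PB.PairGood

/-!
# P119, block PROB, P9 (contamination): creation by a colliding pair, in the world (`helper456`)

* `third_body`: a colliding pair which is bad at `τ` is in contact with a third body at `τ`;
* `creation_pair`: if the pair is exposed for the first time at `τ`, during the collision, and one of
  the two particles is bad, then `TriP U x y τ`: a particle of `U` is in contact with the pair.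
-/

open MeasureTheory Filter Topology Set

noncomputable section

namespace Vale.Agent.P119.PB

open M CTree KU RB FB AU

variable {Φ : E3 → ℝ} {ε : ℝ} {L : ℕ} {hΦ : IsPotential Φ} {hε : 0 < ε}
  {U W : Finset Src} {a b c l : Src} {s t τ : ℝ} {x y S T : CTree}

theorem mcon_of_live {W : Set Src} {T T' : CTree} (hr : T.root = a) (h : live Φ ε L W T t)
    (h' : live Φ ε L W T' t) (hne : a ≠ T'.root) (hc : Ctc ε (st Φ ε T t) (st Φ ε T' t)) :
    mcon Φ ε L W t a T'.root :=
  ⟨hne, T, T', hr, rfl, h, h', hc⟩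

/-- The pair is alive if there is no contact with a third body. -/
theorem lives_of_no_third (hΦ : IsPotential Φ) (hε : 0 < ε) {W : Set Src} (hW : W.Finite)
    (hy : live Φ ε L W (node x y) τ) (hs : sig Φ ε (node x y) < τ)
    (he : τ ≤ ext Φ ε (node x y))
    (hcon : ∀ c, c ≠ x.root → c ≠ y.root → ¬mcon Φ ε L W τ x.root c ∧ ¬mcon Φ ε L W τ y.root c) :
    lives Φ ε L W (node x y) τ := by
  have hy' : live Φ ε L W (node y x) τ := live_swap hΦ hy he
  refine ⟨hy.sub, hy.ok, hy.depth, hy.sig_le, fun T'' r hr hh ha'' => ?_⟩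
  rcases hr.lt_or_eq with hr | rfl
  · exact hy.nohit T'' r hr hh ha''
  · have h1 := (alive_iff_live hΦ hε hW).1 ha''
    rcases hh with ⟨h2, -⟩ | ⟨-, h2, h3, h4⟩
    · exact absurd hs (not_lt.2 h2)
    · have n1 : T''.root ≠ x.root := fun h =>
        disjoint_left.1 h3 (Or.inl x.root_mem_leaves) (h ▸ T''.root_mem_leaves)
      have n2 : T''.root ≠ y.root := fun h =>
        disjoint_left.1 h3 (Or.inr y.root_mem_leaves) (h ▸ T''.root_mem_leaves)
      have e1 := st_after hΦ hε h1.1.ok h1.2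
      rcases h4 with h4 | ⟨-, h4⟩
      · rw [← e1] at h4
        exact (hcon _ n1 n2).1 (mcon_of_live (T := node x y) rfl hy h1.1 (Ne.symm n1) h4)
      · rw [← e1, ← st_swap hΦ x y] at h4
        exact (hcon _ n1 n2).2 (mcon_of_live (T := node y x) rfl hy' h1.1 (Ne.symm n2) h4)

/-- **The third body.** -/
theorem third_body (hΦ : IsPotential Φ) (hε : 0 < ε) {W : Set Src} (hW : W.Finite)
    (hy : live Φ ε L W (node x y) τ) (hs : sig Φ ε (node x y) < τ)
    (he : τ ≤ ext Φ ε (node x y)) (hb : badi Φ ε L W x.root τ ∨ badi Φ ε L W y.root τ) :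
    ∃ c, c ≠ x.root ∧ c ≠ y.root ∧ (mcon Φ ε L W τ x.root c ∨ mcon Φ ε L W τ y.root c) := by
  by_contra hcon
  push Not at hcon
  have hy' : live Φ ε L W (node y x) τ := live_swap hΦ hy he
  have hs' : sig Φ ε (node y x) < τ := by rw [sig_swap]; exact hs
  have he' : τ ≤ ext Φ ε (node y x) := by rw [ext_swap hΦ]; exact he
  have hla := lives_of_no_third hΦ hε hW hy hs he hcon
  have hll := lives_of_no_third hΦ hε hW hy' hs' he' fun c h1 h2 => (hcon c h2 h1).symm
  have sa : stat Φ ε L W x.root τ = some (node x y) :=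
    (stat_eq_some_iff hΦ hε hW).2 ⟨rfl, hla⟩
  have sl : stat Φ ε L W y.root τ = some (node y x) :=
    (stat_eq_some_iff hΦ hε hW).2 ⟨rfl, hll⟩
  have key : ∀ u v : CTree, live Φ ε L W (node u v) τ → sig Φ ε (node u v) < τ →
      τ ≤ ext Φ ε (node u v) → stat Φ ε L W u.root τ = some (node u v) →
      stat Φ ε L W v.root τ = some (node v u) →
      (∀ c, c ≠ u.root → c ≠ v.root → ¬mcon Φ ε L W τ u.root c) →
      ¬badi Φ ε L W u.root τ := by
    rintro u v k1 k2 k3 k4 k5 k6 ⟨-, -, -, h5 | ⟨d, h5, h6⟩⟩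
    · rw [k4] at h5
      exact absurd h5 (by simp)
    · have k1' : live Φ ε L W (node v u) τ := live_swap hΦ k1 k3
      by_cases hd : d = v.root
      · subst hd
        rcases k3.lt_or_eq with h1 | h1
        · exact h6 ⟨_, _, k4, k5, u, v, rfl, rfl, h1⟩
        · obtain ⟨-, T, T', h2, h3, h4, h7, h8⟩ := h5
          have hok := k1.ok
          rw [st_eq_of_sig hΦ hε hW k1 h4 h2 k2,
            st_eq_of_sig hΦ hε hW k1' h7 h3 (by rw [sig_swap]; exact k2), st_swap hΦ u v] at h8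
          have h9 : τ = sepT Φ ε (ln Φ ε u, ln Φ ε v) := h1
          rw [h9] at h8
          exact not_ctc_sepT hΦ hε hok.2.2.2.1 hok.2.2.2.2.1 h8
      · exact k6 d (fun h => h5.1 h.symm) hd h5
  rcases hb with hb | hb
  · exact key x y hy hs he sa sl (fun c h1 h2 => (hcon c h1 h2).1) hb
  · exact key y x hy' hs' he' sl sa (fun c h1 h2 => (hcon c h2 h1).2) hb

/-- Before the time of the contact with the third body there are only contacts of the pair. -/
theorem only_pair (hΦ : IsPotential Φ) (hε : 0 < ε) (hlive : live Φ ε L (W : Set Src) (node x y) τ)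
    (hsig : sig Φ ε (node x y) < τ) (hext : τ ≤ ext Φ ε (node x y))
    (hf : ∀ s < τ, ¬(RB.Y Φ ε L hΦ hε).Exp W x.root s) (hs : s < τ) (hxs : ext Φ ε x ≤ s)
    (hm : mcon Φ ε L (W : Set Src) s x.root c) : c = y.root := by
  obtain ⟨τ', h1, h2⟩ := exists_between (max_lt hs hsig)
  have h3 := (le_max_left _ _).trans_lt h1
  have h4 := (le_max_right _ _).trans_lt h1
  refine contact_pair hΦ hε (hlive.anti h2.le h4.le) h4 (h2.le.trans hext) (fun hb => ?_) h3.le hxs hm
  obtain ⟨q, hq, hb⟩ := hb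
  exact hf τ' h2 (exp_of_badi hb hq)

open Classical in
/-- **Creation by a colliding pair.** -/
theorem creation_pair (h : PGood Φ ε L U x y t) (h0 : ∀ a ∈ W, 0 ≤ a.1)
    (hW : (W : Set Src) = (U : Set Src) ∪ (node x y).leaves) (hf : fex L hΦ hε W x.root τ)
    (hlive : live Φ ε L (W : Set Src) (node x y) τ) (hsig : sig Φ ε (node x y) < τ)
    (hext : τ ≤ ext Φ ε (node x y)) (hτ : τ ≤ t)
    (hbad : badc Φ ε L (W : Set Src) x.root τ ∨ badc Φ ε L (W : Set Src) y.root τ) :
    TriP Φ ε L U x y τ := by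
  have hok := hlive.ok
  have hWf := W.finite_toSet
  have hne : Nonempty (Finset Src) := ⟨∅⟩
  have hf₁ : ∀ s < τ, ¬(RB.Y Φ ε L hΦ hε).Exp W x.root s := hf.2
  have hf₂ := not_exp_pair hlive hsig hext hf₁
  have hlive' : M.live Φ ε L (W : Set Src) (node y x) τ := live_swap hΦ hlive hext
  have hsig' : sig Φ ε (node y x) < τ := by rw [sig_swap x y]; exact hsig
  have hext' : τ ≤ ext Φ ε (node y x) := by rw [ext_swap hΦ x y]; exact hext
  have hbi : badi Φ ε L (W : Set Src) x.root τ ∨ badi Φ ε L (W : Set Src) y.root τ := by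
    rcases hbad with ⟨q, hq, hb⟩ | ⟨q, hq, hb⟩
    · rcases hq.lt_or_eq with hq | rfl
      · exact absurd (exp_of_badi hb le_rfl) (hf₁ q hq)
      · exact Or.inl hb
    · rcases hq.lt_or_eq with hq | rfl
      · exact absurd (exp_of_badi hb le_rfl) (hf₂ q hq)
      · exact Or.inr hb
  obtain ⟨c, hc1, hc2, hc3⟩ := third_body hΦ hε hWf hlive hsig hext hbi
  have hx1 : ext Φ ε x < sig Φ ε (node x y) := hok.2.2.2.2.2.1
  have hy1 : ext Φ ε y < sig Φ ε (node x y) := hok.2.2.2.2.2.2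
  have hax : alive Φ ε L (W : Set Src) x (ext Φ ε x) := by
    have h1 := (alive_iff_live hΦ hε hWf).1 (live_left hΦ hε hWf hlive)
    rw [alive_iff_live hΦ hε hWf]
    exact ⟨h1.1.anti hx1.le (sig_le_ext hΦ hε hok.1), le_rfl⟩
  have hay : alive Φ ε L (W : Set Src) y (ext Φ ε y) := by
    have h1 := (alive_iff_live hΦ hε hWf).1 (live_left hΦ hε hWf hlive')
    rw [alive_iff_live hΦ hε hWf]
    refine ⟨h1.1.anti ?_ (sig_le_ext hΦ hε hok.2.1), le_rfl⟩
    rw [sig_swap]
    exact hy1.le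
  have hA : PAl Φ ε L hΦ hε W x y :=
    ⟨hok.2.2.1, hax, hay, fun s hs => hf₁ s (hs.trans (hx1.trans hsig)),
      fun s hs => hf₂ s (hs.trans (hy1.trans hsig))⟩
  have hR := h.rep h0 hW hA ((hx1.trans hsig).le.trans hτ) ((hy1.trans hsig).le.trans hτ)
  have hL := hR.lines
  set f := TF.fs Φ ε (ext Φ ε) {x, y} with hfdef
  set F := lw2 Φ ε U x y with hF
  have fx : f (rsrc Φ ε x) = x := h.fs_rsrc left_mem_outs
  have fy : f (rsrc Φ ε y) = y := h.fs_rsrc right_mem_outs
  have mx : rsrc Φ ε x ∈ F := mem_lw2.2 (Or.inr ⟨x, left_mem_outs, rfl⟩)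
  have my : rsrc Φ ε y ∈ F := mem_lw2.2 (Or.inr ⟨y, right_mem_outs, rfl⟩)
  have bx : (rsrc Φ ε x).1 ≤ τ := (hx1.trans hsig).le
  have by' : (rsrc Φ ε y).1 ≤ τ := (hy1.trans hsig).le
  have hinj : ∀ a ∈ F, ∀ b ∈ F, (f a).root = (f b).root → a = b := fun a ha b hb hab =>
    hL.bij.injOn (Finset.mem_coe.2 ha) (Finset.mem_coe.2 hb) hab
  have hF0 : ∀ a ∈ F, 0 ≤ a.1 := fun a ha => (h.bd a ha).1
  -- the pair in the world of lines
  have hz : ∀ z ∈ prk Φ ε x y, z ∈ F ∧ z.1 ≤ τ ∧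
      (∀ s < τ, ¬(RB.Y Φ ε L hΦ hε).Exp F z s) ∧
      (XR Φ ε F τ z = st Φ ε (node x y) τ ∨ XR Φ ε F τ z = st Φ ε (node y x) τ) ∧
      ∀ s < τ, ∀ b, mcon Φ ε L (F : Set Src) s z b → b ∈ prk Φ ε x y := by
    intro z hz
    rcases mem_prk.1 hz with rfl | rfl
    · refine ⟨mx, bx, fun s hs he => hf₁ s hs ?_, Or.inl ?_, fun s hs b hm => ?_⟩
      · have := (hL.exp _ mx s (hs.le.trans hτ)).1 he
        simpa only [fx] using this
      · rw [hL.pos _ mx τ bx]
        simp only [fx]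
        exact Y_real_st (hΦ := hΦ) (hε := hε) (T := node x y) h0 hf₁ hlive
      · have hb : b ∈ F := Finset.mem_coe.1 hm.mem.2
        have h1 := hm.birth_le hΦ hε
        have h2 := (hL.mcon _ mx _ hb s (hs.le.trans hτ) h1.1 h1.2).1 hm
        simp only [fx] at h2
        have h3 := only_pair hΦ hε hlive hsig hext hf₁ hs h1.1 h2
        exact mem_prk.2 (Or.inr (hinj b hb _ my (h3.trans (by rw [fy]))))
    · refine ⟨my, by', fun s hs he => hf₂ s hs ?_, Or.inr ?_, fun s hs b hm => ?_⟩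
      · have := (hL.exp _ my s (hs.le.trans hτ)).1 he
        simpa only [fy] using this
      · rw [hL.pos _ my τ by']
        simp only [fy]
        exact Y_real_st (hΦ := hΦ) (hε := hε) (T := node y x) h0 hf₂ hlive'
      · have hb : b ∈ F := Finset.mem_coe.1 hm.mem.2
        have h1 := hm.birth_le hΦ hε
        have h2 := (hL.mcon _ my _ hb s (hs.le.trans hτ) h1.1 h1.2).1 hm
        simp only [fy] at h2
        have h3 := only_pair hΦ hε hlive' hsig' hext' hf₂ hs h1.1 h2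
        exact mem_prk.2 (Or.inl (hinj b hb _ mx (h3.trans (by rw [fx]))))
  -- the third body in the world of lines
  have hcW : c ∈ W := by
    rcases hc3 with h1 | h1 <;> exact Finset.mem_coe.1 h1.mem.2
  have hcb : c.1 ≤ τ := by
    rcases hc3 with h1 | h1 <;> exact (h1.birth_le hΦ hε).2
  obtain ⟨c', hc'F, hc'c⟩ := hL.bij.surjOn (Finset.mem_coe.2 hcW)
  have hc'F : c' ∈ F := Finset.mem_coe.1 hc'F
  have hc'b : c'.1 ≤ τ := by
    rcases mem_lw2.1 hc'F with hU | ⟨z, hz, rfl⟩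
    · have h1 : f c' = leaf c' := h.fs_of_mem hU
      have h2 : (f c').root = c := hc'c
      rw [h1] at h2
      rw [show c' = c from h2]
      exact hcb
    · rcases hz with hz | hz
      · exact (TL.out_ext_le hΦ hε hok.1 hz).trans bx
      · exact (TL.out_ext_le hΦ hε hok.2.1 hz).trans by'
  have hc'n : c' ∉ prk Φ ε x y := by
    intro hm
    have h2 : (f c').root = c := hc'c
    rcases mem_prk.1 hm with rfl | rfl
    · rw [fx] at h2; exact hc1 h2.symm
    · rw [fy] at h2; exact hc2 h2.symm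
  obtain ⟨z, hzp, hzm⟩ : ∃ z ∈ prk Φ ε x y, mcon Φ ε L (F : Set Src) τ z c' := by
    rcases hc3 with h1 | h1
    · refine ⟨_, mem_prk.2 (Or.inl rfl), (hL.mcon _ mx _ hc'F τ hτ bx hc'b).2 ?_⟩
      simp only [fx]
      rwa [show (f c').root = c from hc'c]
    · refine ⟨_, mem_prk.2 (Or.inr rfl), (hL.mcon _ my _ hc'F τ hτ by' hc'b).2 ?_⟩
      simp only [fy]
      rwa [show (f c').root = c from hc'c]
  -- the world with the pair only
  have hG : Gd Φ ε L U id (pks Φ ε x y) t := ⟨h.good.disjV, h.good.disj, h.good.ni, h.good.nib⟩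
  set P : Finset Src := wd U id {prk Φ ε x y} with hP
  have hPf := P.finite_toSet
  have hFf := F.finite_toSet
  have hPm : ∀ a, a ∈ P ↔ a ∈ U ∨ a ∈ prk Φ ε x y := fun a => by rw [hP, mem_wd]; simp
  have hconv : ∀ z ∈ prk Φ ε x y, ∀ r ≤ t, ∀ b, mcon Φ ε L (F : Set Src) r z b ↔
      mcon Φ ε L (P : Set Src) r z b := fun z hz r hr b =>
    hG.mcon_iff hΦ hε prk_mem hz (Finset.Subset.refl _) prk_mem hr
  have hstat : ∀ z ∈ prk Φ ε x y, ∀ r ≤ t, stat Φ ε L (F : Set Src) z r =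
      stat Φ ε L (P : Set Src) z r := fun z hz r hr =>
    hG.stat_eq hΦ hε prk_mem hz (Finset.Subset.refl _) prk_mem hr
  have hD : (RB.Y Φ ε L hΦ hε).Dlt U P τ ⊆ (prk Φ ε x y : Set Src) := by
    refine dlt_subset_ins hΦ hε (fun a ha => (hPm a).2 (Or.inl ha)) (fun a ha haU => ?_)
      (h.good.disjV _ prk_mem) fun r hr z hzp b hb hm => ?_
    · exact ((hPm a).1 ha).resolve_left haU
    · exact hb ((hz z hzp).2.2.2.2 r hr b ((hconv z hzp r (hr.le.trans hτ) b).2 hm))
  obtain ⟨T, T', h1, h2, h3, h4, h5⟩ := ((hconv z hzp τ hτ c').1 hzm).2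
  have hc'P : c' ∈ P := h2 ▸ Finset.mem_coe.1 (h4.sub T'.root_mem_leaves)
  have hc'U : c' ∈ U := ((hPm c').1 hc'P).resolve_right hc'n
  obtain ⟨S, -, k1, k2⟩ := live_congr' hΦ hε hPf U.finite_toSet (T := T')
    (fun _ => by rw [h2]; exact Finset.mem_coe.2 hc'U) (fun r hr => by
      by_contra hcon
      rw [h2] at hcon
      have := hD ⟨r, hr, r, le_rfl, fun h => hcon (stat_of_sta h).symm⟩
      exact hc'n (Finset.mem_coe.1 this)) h4
  obtain ⟨T₁, k3, k4, k5⟩ := live_congr' hΦ hε hPf hFf (T := T)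
    (fun _ => by rw [h1]; exact Finset.mem_coe.2 (hz z hzp).1) (fun r hr => by
      rw [h1]
      exact (hstat z hzp r (hr.le.trans hτ)).symm) h3
  have k6 : XR Φ ε F τ z = st Φ ε T₁ τ := by
    have := Y_real_st (hΦ := hΦ) (hε := hε) (T := T₁) hF0
      (by rw [k3, h1]; exact (hz z hzp).2.2.1) k4
    rwa [k3, h1] at this
  refine ⟨τ, le_rfl, hsig, hext, S, k1, ?_⟩
  rw [k2]
  rw [← k5, ← k6] at h5
  rcases (hz z hzp).2.2.2.1 with h6 | h6
  · left; rwa [h6] at h5
  · right; rwa [h6] at h5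

end Vale.Agent.P119.PB
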