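import Vale.Agent.P119.PB.ThrTL2

/-!
# P119, block PROB: threshold transfer from the tree to its lines, up to the birth time included
(`helper384`)

`hz_lnw_le`: `hz_lnw` for `ρ ≤ σ` (instead of `ρ < σ`).
-/

open MeasureTheory Filter Topology Set
open scoped ENNReal NNReal

noncomputable section

namespace Vale.Agent.P119.PB

open M CTree KU FB RB AU TL

variable {Φ : E3 → ℝ} {ε : ℝ} {L : ℕ} {U : Set Src} {T : CTree} {r : CTree → ℝ} {t u : ℝ}
  {hΦ : IsPotential Φ} {hε : 0 < ε} {W W' : Finset Src}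

theorem setup_mono (h : Setup Φ ε L U T r t) (hu : u ≤ t) : Setup Φ ε L U T r u :=
  ⟨h.fin, h.disj, h.inj, h.fresh, h.le_r, h.alive, h.lives,
    fun X p s hs => h.legs X p s (hs.trans hu), fun p y s hs => h.indep p y s (hs.trans hu)⟩

theorem lines_mono {g : Src → Src} {θ : CTree → CTree} (h : Lines Φ ε L hΦ hε W W' g θ t)
    (hu : u ≤ t) : Lines Φ ε L hΦ hε W W' g θ u :=
  ⟨h.bij, h.birth, fun a ha s hs => h.unexp a ha s (hs.trans hu), h.pos,
    fun a ha s hs => h.stat a ha s (hs.trans hu), fun a ha b hb s hs => h.mcon a ha b hb s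
      (hs.trans hu), fun a ha b hb s hs => h.part a ha b hb s (hs.trans hu),
    fun a ha b hb s hs => h.con a ha b hb s (hs.trans hu),
    fun a ha s hs => h.badc a ha s (hs.trans hu), fun a ha s hs => h.exp a ha s (hs.trans hu)⟩

variable {V : Finset Src} {ρ η η' : ℝ} {S : CTree}

/-- A felt tree of the world of lines which is independent of `T` is felt in the world with `T`
before `ρ`. -/
theorem fl_of_lnw_edge (h : TGood Φ ε L hΦ hε V T W ρ t) (hl : LGood Φ ε L V T ρ t) (hρ : u < ρ)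
    (hi : IndT Φ ε L V T W ρ t S) (hS : fl L hΦ hε (lnw Φ ε V T ρ) u S) :
    ∃ u', u ≤ u' ∧ u' < ρ ∧ fl L hΦ hε W u' S := by
  by_contra hcon
  push Not at hcon
  have hu : u ≤ t := hρ.le.trans h.le
  have hset := h.setup hl
  have hcoe := coe_lnw (V := V) (ρ := ρ) h.ok
  have hL := (h.rep hl).lines
  have hVW : (V : Set Src) ⊆ (W : Set Src) := by rw [h.eq]; exact subset_union_left
  have hSl : S.leaves ⊆ lwd Φ ε (rho Φ ε T ρ) (V : Set Src) T := hi.sub.trans subset_union_left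
  have hth : th Φ ε (rho Φ ε T ρ) T S = S := th_of_subset hset hi.sub
  have hrS : S.root ∈ (V : Set Src) := hi.sub S.root_mem_leaves
  have hrS' : S.root ∈ lnw Φ ε V T ρ := by
    rw [← Finset.mem_coe, hcoe]
    exact Or.inl hrS
  have hext := hS.ext_le.trans hu
  have h1 := hS.alive
  rw [hcoe, alive_th hΦ hε hset hext hSl, hth] at h1
  have hroot : ∀ q < ext Φ ε S, ¬(Y Φ ε L hΦ hε).Exp W S.root q := fun q hq he => by
    refine hS.root q hq ((hL.exp _ hrS' q (hq.le.trans hext)).2 ?_)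
    change (Y Φ ε L hΦ hε).Exp W (rt Φ ε (rho Φ ε T ρ) T S.root) q
    rw [rt_of_mem hset hrS]
    exact he
  -- no touch before `ρ`
  have hn : ∀ q < ρ, ¬(Y Φ ε L hΦ hε).Touch (rm W S) W q := by
    intro q hq hto
    have hm : max u q < ρ := max_lt hρ hq
    refine hcon (max u q) (le_max_left _ _) hm ⟨hi.sub.trans hVW, hS.depth,
      hS.ext_le.trans (le_max_left _ _), ?_, hroot, FB.Sys.Touch.mono hto (le_max_right _ _)⟩
    rw [h.eq]
    exact h1.1
  -- the world without `S`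
  have h0 : ∀ a ∈ rm W S, 0 ≤ a.1 := rm_nonneg h.births
  have hunexp : ∀ s < ρ, ¬(Y Φ ε L hΦ hε).Exp (rm W S) T.root s := fun s hs he =>
    h.unexp s hs ((FB.Sys.exp_iff (Y_transfer hΦ hε h0 h.births) (hn s hs) le_rfl).1 he)
  have hg : TGood Φ ε L hΦ hε (rm V S) T (rm W S) ρ t := by
    refine ⟨?_, ?_, h0, hi.alive, hi.lives, hunexp, h.le⟩
    · rw [coe_rm]
      exact h.disj.mono_left diff_subset
    · rw [coe_rm, coe_rm, h.eq, union_sdiff_distrib]
      congr 1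
      exact sdiff_eq_left.2 (h.disj.symm.mono_right hi.sub)
  refine hn u hρ (touch_of_lines (setup_mono hset hu) (U₁ := (rm V S : Set Src)) ?_ hg.eq
    (W₁' := lnw Φ ε (rm V S) T ρ) (coe_lnw h.ok) hcoe (lines_mono (hg.rep hi.good).lines hu)
    (lines_mono hL hu) ?_)
  · rw [coe_rm]
    exact diff_subset
  · rw [← rm_lnw h hl hi.sub]
    exact hS.touch

/-- The watched numbers before `ρ`. -/
theorem nW_lnw_edge (h : TGood Φ ε L hΦ hε V T W ρ t) (hl : LGood Φ ε L V T ρ t) (hρ : u < ρ) :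
    ∃ u', u ≤ u' ∧ u' < ρ ∧
      nW L hΦ hε (lnw Φ ε V T ρ) u ≤ nW L hΦ hε W u' + relT Φ ε L V T W ρ t := by
  classical
  have hu : u ≤ t := hρ.le.trans h.le
  set F := (trs L (lnw Φ ε V T ρ)).filter fun S =>
    fl L hΦ hε (lnw Φ ε V T ρ) u S ∧ IndT Φ ε L V T W ρ t S with hF
  have h1 : ∀ S ∈ F, ∀ᶠ q in 𝓝[<] ρ, fl L hΦ hε W q S := by
    intro S hS
    obtain ⟨-, h2, h3⟩ := Finset.mem_filter.1 hS
    obtain ⟨u', h4, h5, h6⟩ := fl_of_lnw_edge h hl hρ h3 h2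
    filter_upwards [Ioo_mem_nhdsLT h5] with q hq
    exact h6.mono hq.1.le
  have h2 : ∀ᶠ q in 𝓝[<] ρ, ∀ S ∈ F, fl L hΦ hε W q S := (Finset.eventually_all F).2 h1
  obtain ⟨q, ⟨h3, h4⟩, h5⟩ := ((Ioo_mem_nhdsLT hρ : Ioo u ρ ∈ 𝓝[<] ρ) |> fun h =>
    (show ∀ᶠ q in 𝓝[<] ρ, q ∈ Ioo u ρ from h).and h2).exists
  refine ⟨q, h3.le, h4, ?_⟩
  unfold nW
  rw [eW_lnw h hl hu, add_assoc]
  refine add_le_add (eW_mono h3.le) ?_
  unfold fW relT
  rw [← ENNReal.tsum_add]
  refine ENNReal.tsum_le_tsum fun S => ?_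
  by_cases hS : fl L hΦ hε (lnw Φ ε V T ρ) u S
  · rw [if_pos hS]
    by_cases hi : IndT Φ ε L V T W ρ t S
    · have hSF : S ∈ F := Finset.mem_filter.2 ⟨mem_trs.2 ⟨hS.sub, hS.depth⟩, hS, hi⟩
      rw [if_pos (h5 S hSF)]
      exact le_self_add
    · rw [if_pos (⟨hS.sub, hS.depth, hS.ext_le.trans hu, hS.alive, fun _ _ => hS.root, hi⟩ :
        DepT Φ ε L V T W ρ t S)]
      exact le_add_self
  · rw [if_neg hS]
    exact zero_le

/-- **P2, from the world with the tree to the world of lines**, up to the birth time included. -/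
theorem hz_lnw_le (h : TGood Φ ε L hΦ hε V T W ρ t) (hl : LGood Φ ε L V T ρ t) (hη : 0 < η)
    (ht : 0 ≤ t) {σ : ℝ} (hρσ : ρ ≤ σ)
    (hR : relT Φ ε L V T W ρ t ≤ ENNReal.ofReal ((η' - η) * mu ε)) (hηη : η ≤ η')
    (hσ : σ ≤ hz L hΦ hε η t W) : σ ≤ hz L hΦ hε η' t (lnw Φ ε V T ρ) := by
  rcases hρσ.lt_or_eq with hlt | rfl
  · exact hz_lnw h hl hη ht hlt hR hηη hσ
  have hσt : ρ ≤ t := hσ.trans (hz_le hη ht)
  refine le_hz hσt fun r hr => ?_
  obtain ⟨q, h1, h2, h4⟩ := nW_lnw_edge h hl hr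
  have h3 : nW L hΦ hε W q < ENNReal.ofReal (η * mu ε) := nW_lt_of_lt_hz hη ht (h2.trans_le hσ)
  have hμ := (GC.mu_pos hε).le
  calc nW L hΦ hε (lnw Φ ε V T ρ) r ≤ nW L hΦ hε W q + ENNReal.ofReal ((η' - η) * mu ε) :=
        h4.trans (add_le_add le_rfl hR)
    _ < ENNReal.ofReal (η * mu ε) + ENNReal.ofReal ((η' - η) * mu ε) :=
        ENNReal.add_lt_add_right ENNReal.ofReal_ne_top h3
    _ = ENNReal.ofReal (η' * mu ε) := by
        rw [← ENNReal.ofReal_add (mul_nonneg hη.le hμ) (mul_nonneg (by linarith) hμ)]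
        congr 1
        ring

end Vale.Agent.P119.PB
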