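import Vale.Agent.P119.PB.Cont2
import Vale.Agent.P119.PB.Felt
import Vale.Agent.P119.PB.ThrEdge

/-!
# P119, block PROB, P9 (contamination): the flying case, over one world (`helper909`)

`cont_fly`: the inserted tree `T` is exposed (flying) in the world `U + T` up to the stopping time,
its lines do not interact over `U` (`GoodT`), and few trees are related to `T`; then its root line
makes a direct contact with an exposed label of `U`, or there is a second event (`TwoF`), up to the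
stopping times of `U`, of `U + e`.

`ExD`: the exceptional set of the flying case.
-/

open MeasureTheory Filter Topology Set
open scoped ENNReal NNReal

noncomputable section

namespace Vale.Agent.P119.PB

open M CTree KU FB RB AU TL

variable {Φ : E3 → ℝ} {ε : ℝ} {L : ℕ} {hΦ : IsPotential Φ} {hε : 0 < ε}
  {U : Finset Src} {T : CTree} {t η η' : ℝ}

/-! ### The family of the lines of `T` -/

theorem mem_exl_fly {a : Src} : a ∈ exl Φ ε T ↔ ∃ x ∈ exs T, rsrc Φ ε x = a := by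
  rw [← Finset.mem_coe, coe_exl]
  rfl

theorem wd_eq_wF_fly {ι : Type*} {V : Finset Src} {X : ι → Finset Src} {J : Finset ι} :
    wd V X J = wF V X J := by
  ext a
  rw [mem_wd, mem_wF]

theorem insert_exl [DecidableEq Src] : insert (rsrc Φ ε T) (exl Φ ε T) = srcs Φ ε T := by
  ext a
  rw [Finset.mem_insert, mem_exl_fly, mem_srcs]
  constructor
  · rintro (rfl | ⟨x, hx, rfl⟩)
    · exact ⟨T, Or.inl rfl, rfl⟩
    · exact ⟨x, Or.inr hx, rfl⟩
  · rintro ⟨x, rfl | hx, rfl⟩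
    · exact Or.inl rfl
    · exact Or.inr ⟨x, hx, rfl⟩

theorem self_notMem_exs (hT : ok Φ ε T) : T ∉ exs T := fun h => exs_root_ne hT h rfl

theorem GoodT.root_notMem (hT : ok Φ ε T) (h : GoodT Φ ε L U T t) : rsrc Φ ε T ∉ exl Φ ε T := by
  intro hm
  obtain ⟨x, hx, he⟩ := mem_exl_fly.1 hm
  have h1 : x = T := h.inj (Or.inr hx) (Or.inl rfl) he
  rw [h1] at hx
  exact self_notMem_exs hT hx

/-- The lines of `T` form a family. -/
theorem GoodT.fam [DecidableEq Src] (hT : ok Φ ε T) (h : GoodT Φ ε L U T t) :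
    Fam Φ ε U T sgl (exl Φ ε T) (rsrc Φ ε T) := by
  refine ⟨h.root_notMem hT, rfl, fun i hi => ?_, fun x hx => ?_, fun i _ j _ hij => ?_,
    fun i hi => ?_⟩
  · obtain ⟨x, hx, rfl⟩ := mem_exl_fly.1 hi
    exact ⟨x, hx, rfl⟩
  · exact ⟨rsrc Φ ε x, mem_exl_fly.2 ⟨x, hx, rfl⟩, rfl⟩
  · exact Finset.disjoint_singleton.2 hij
  · have h1 : i ∈ srcs Φ ε T := by rw [← insert_exl]; exact hi
    exact h.good.disjV i h1

theorem GoodT.cube [DecidableEq Src] (hΦ : IsPotential Φ) (hε : 0 < ε) (h : GoodT Φ ε L U T t) :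
    FB.Sys.Cube (Y Φ ε L hΦ hε) (wd U sgl) (insert (rsrc Φ ε T) (exl Φ ε T)) t := by
  have h1 := h.good.cube hΦ hε
  have e : (wd U sgl : Finset Src → Finset Src) = wF U sgl := funext fun J => wd_eq_wF_fly
  rw [e, insert_exl]
  exact h1

theorem GoodT.births (hT : ok Φ ε T) (h : GoodT Φ ε L U T t) :
    ∀ a ∈ lnw Φ ε U T (ext Φ ε T), 0 ≤ a.1 := by
  intro a ha
  rw [lnw_eq hT, mem_wF_sgl] at ha
  rcases ha with ha | ha
  · exact (h.good.birthV a ha).1
  · exact (h.good.birth a ha a (Finset.mem_singleton_self a)).1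

/-! ### The exceptional set -/

variable (L hΦ hε) in
/-- The exceptional set of the flying case: the lines of `T` interact, or there are many trees which
are related to `T`. -/
def ExD (θ t : ℝ) (U : Finset Src) (T : CTree) : Prop :=
  ¬GoodT Φ ε L U T t ∨
    ENNReal.ofReal (θ * mu ε) < relT Φ ε L U T (addT U T) (ext Φ ε T) t ∨
    ENNReal.ofReal (θ * mu ε) < relW L hΦ hε (lnw Φ ε U T (ext Φ ε T)) U t ∨
    ∃ x ∈ exs T, ENNReal.ofReal (θ * mu ε) <
      relW L hΦ hε (lnw Φ ε U T (ext Φ ε T)) (insert (rsrc Φ ε x) U) t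

/-- The world of lines of a source. -/
theorem lnw_leaf {a : Src} : lnw Φ ε U (leaf a) (ext Φ ε (leaf a)) = addT U (leaf a) := by
  ext b
  rw [mem_addT]
  unfold lnw
  rw [Finset.mem_union, Finset.mem_union, Finset.mem_singleton, mem_exl_fly]
  change (b ∈ U ∨ ∃ x ∈ (∅ : Set CTree), rsrc Φ ε x = b) ∨ b = a ↔ b ∈ U ∨ b = a
  constructor
  · rintro ((h | ⟨x, hx, -⟩) | h)
    · exact Or.inl h
    · exact absurd hx (notMem_empty x)
    · exact Or.inr h
  · rintro (h | h)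
    · exact Or.inl (Or.inl h)
    · exact Or.inr h

/-- The stopping time of the world of lines. -/
theorem hz_lines {θ : ℝ} (hT : TGood Φ ε L hΦ hε U T (addT U T) (ext Φ ε T) t)
    (hl : LGood Φ ε L U T (ext Φ ε T) t) (hη : 0 < η) (hθ : 0 ≤ θ) (ht : 0 ≤ t) {τ : ℝ}
    (hf : T = leaf T.root ∨ ext Φ ε T ≤ τ)
    (hR : relT Φ ε L U T (addT U T) (ext Φ ε T) t ≤ ENNReal.ofReal (θ * mu ε))
    (hτ : τ ≤ hz L hΦ hε η t (addT U T)) :
    τ ≤ hz L hΦ hε (η + θ) t (lnw Φ ε U T (ext Φ ε T)) := by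
  rcases hf with hf | hf
  · have e : lnw Φ ε U T (ext Φ ε T) = addT U T := by
      rw [hf]
      exact lnw_leaf
    rw [e]
    exact hτ.trans (hz_mono_left (by linarith) hη ht)
  · refine hz_lnw_le hT hl hη ht hf ?_ (by linarith) hτ
    rwa [add_sub_cancel_left]

/-- **Contamination, flying case, over the world `U`.** -/
theorem cont_fly {θ : ℝ} (h0 : ∀ a ∈ U, 0 ≤ a.1) (hη : 0 < η) (hθ : 0 ≤ θ) (ht : 0 ≤ t)
    (hE : ¬ExD L hΦ hε θ t U T)
    (hF : FE L hΦ hε (addT U T) (hz L hΦ hε η t (addT U T)) T) :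
    DirF L hΦ hε U (hz L hΦ hε (η + θ + θ) t U) T ∨ TwoF L hΦ hε (η + θ + θ) t U T := by
  classical
  unfold ExD at hE
  rw [not_or, not_or, not_or, not_not, not_lt, not_lt] at hE
  obtain ⟨hG, hR1, hR2, hR3⟩ := hE
  have hη1 : 0 < η + θ := by linarith
  obtain ⟨τ, hτ, hfex, hPS, hfl, hnb⟩ := hF
  have hτt : τ ≤ t := hτ.trans (hz_le hη ht)
  have hlive : live Φ ε L (addT U T : Set Src) T τ := hPS.2.1
  have hok := hlive.ok
  have hext : ext Φ ε T ≤ τ := ext_le_of_flying hfl hlive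
  have hal : alive Φ ε L (addT U T : Set Src) T (ext Φ ε T) := by
    rw [alive_iff_live hΦ hε (addT U T).finite_toSet]
    exact ⟨hlive.anti hext (sig_le_ext hΦ hε hok), le_rfl⟩
  have hT : TGood Φ ε L hΦ hε U T (addT U T) (ext Φ ε T) t :=
    tgood_of h0 hG.disj hal (hext.trans hτt) fun s hs => hfex.2 s (hs.trans_le hext)
  have hl := hG.lgood hΦ hε hok
  have hτ1 := hz_lines hT hl hη hθ ht hfl hR1 hτ
  have hbl := hG.births hok
  rcases flying (hG.fam hok) (hG.cube hΦ hε) hT hl hbl hlive.depth hτt hfex hlive hnb with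
    ⟨σ, hσ, h1, h2⟩ | ⟨e, he, m, hm, hme, σ, σ₂, h1, h2, h3, h4, h5⟩
  · left
    have h3 : σ ≤ hz L hΦ hε (η + θ + θ) t U :=
      hz_transfer hbl h0 hη1 ht (fun s hs hc => h1 s hs hc.symm)
        (by rwa [add_sub_cancel_left]) (by linarith) (hσ.trans hτ1)
    obtain ⟨r, hr, h4⟩ := h2
    exact ⟨r, hr.trans h3, h4⟩
  · right
    have hbe : ∀ a ∈ insert (rsrc Φ ε e) U, 0 ≤ a.1 := by
      intro a ha
      rcases Finset.mem_insert.1 ha with rfl | ha
      · exact ext_nonneg hΦ hε (outs_ok hΦ hok (Or.inr he))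
      · exact h0 a ha
    have h6 : ENNReal.ofReal (θ * mu ε) ≥
        relW L hΦ hε (lnw Φ ε U T (ext Φ ε T)) (insert (rsrc Φ ε e) U) t := by
      by_contra hcon
      exact hR3 ⟨e, he, not_le.1 hcon⟩
    have h7 : σ₂ ≤ hz L hΦ hε (η + θ + θ) t (insert (rsrc Φ ε e) U) :=
      hz_transfer hbl hbe hη1 ht (fun s hs hc => h5 s hs hc.symm)
        (by rwa [add_sub_cancel_left]) (by linarith) (h2.trans hτ1)
    exact ⟨e, he, m, hm, hme, h3.mono (h1.trans h7), h4.mono h7⟩

end Vale.Agent.P119.PB
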