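import Vale.Agent.P119.PB.ContPair

/-!
# P119, block PROB, P9: contamination by a colliding pair, over the world `U` (`helper384`)

`ExP`: the exceptional set of the pair; `cont_pair`: the counterpart of `cont_fly` (`helper909`).
-/

open MeasureTheory Filter Topology Set
open scoped ENNReal NNReal

noncomputable section

namespace Vale.Agent.P119.PB

open M CTree KU FB RB AU TL

variable {Φ : E3 → ℝ} {ε : ℝ} {L : ℕ} {hΦ : IsPotential Φ} {hε : 0 < ε}
  {U V W : Finset Src} {x y z S : CTree} {s t u τ η η' η'' θ : ℝ} {a b : Src}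

open Classical in
variable (L hΦ hε) in
/-- The exceptional set of the colliding case. -/
def ExP (θ t : ℝ) (U : Finset Src) (x y : CTree) : Prop :=
  ¬PGood Φ ε L U x y t ∨
    ENNReal.ofReal (θ * mu ε) < relP Φ ε L U x y t ∨
    ENNReal.ofReal (θ * mu ε) < relW L hΦ hε (lw2 Φ ε U x y) U t ∨
    ∃ e ∈ exs x ∪ exs y, ENNReal.ofReal (θ * mu ε) <
      relW L hΦ hε (lw2 Φ ε U x y) (insert (rsrc Φ ε e) U) t

/-- **Contamination, colliding case, over the world `U`.** -/
theorem cont_pair (h0 : ∀ a ∈ U, 0 ≤ a.1) (hη : 0 < η) (hθ : 0 ≤ θ) (ht : 0 ≤ t)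
    (hE : ¬ExP L hΦ hε θ t U x y)
    (hP : PE L hΦ hε (addT U (node x y)) (hz L hΦ hε η t (addT U (node x y))) x y) :
    DirP L hΦ hε U (hz L hΦ hε (η + θ + θ) t U) x y ∨ TwoP L hΦ hε (η + θ + θ) t U x y := by
  have hE' := hE
  unfold ExP at hE'
  rw [not_or] at hE'
  have hG : PGood Φ ε L U x y t := not_not.1 hE'.1
  obtain ⟨τ, hτ, hf, hlive, hsig, hext, n₁, n₂⟩ := hP
  have h0W : ∀ a ∈ addT U (node x y), 0 ≤ a.1 := by
    intro a ha
    rcases mem_addT.1 ha with ha | ha
    · exact h0 a ha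
    · exact birth_of_ok hlive.ok a ha
  have hrm : rm (addT U (node x y)) (node x y) = U := rm_addT hG.disj
  have hN : ¬PExc L hΦ hε η (η + θ) (η + θ + θ) t (rm (addT U (node x y)) (node x y)) x y := by
    rw [hrm]
    intro h
    unfold PExc at h
    rw [add_sub_cancel_left, add_sub_cancel_left] at h
    rcases h with h | h | h | ⟨e, he, h⟩
    · exact hE (Or.inl h)
    · exact hE (Or.inr (Or.inl h))
    · exact hE (Or.inr (Or.inr (Or.inl h)))
    · rw [addT_leaf] at h
      exact hE (Or.inr (Or.inr (Or.inr ⟨e, he, h⟩)))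
  have key := pe_cases h0W hη (by linarith : η ≤ η + θ) (by linarith : η + θ ≤ η + θ + θ) ht
    ⟨τ, hτ, hf, hlive, hsig, hext, n₁, n₂⟩ hN
  rwa [hrm] at key

end Vale.Agent.P119.PB
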