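import Vale.Agent.P119.PB.ContFly
import Vale.Agent.P119.PB.ContPair2
import Vale.Agent.P119.PB.ContX
import Vale.Agent.P119.RM.Cont

/-!
# P119, block PROB, P9 (contamination): integration of the flying and of the colliding case
(`helper909`)

* `FEi`, `PEi`: the inserted tree, the inserted pair, is exposed up to the stopping time;
* `sum_FE_le`, `sum_PE_le`: extraction;
* `XX_FEi_le`, `XP_PEi_le`: direct contact, second events and exceptional sets.
-/

open MeasureTheory Filter Topology Set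
open scoped ENNReal NNReal

noncomputable section

namespace Vale.Agent.P119.PB

open M CTree KU FB RB AU TL

variable {Φ : E3 → ℝ} {ε : ℝ} {L : ℕ} {hΦ : IsPotential Φ} {hε : 0 < ε} {f₀ : Ph → ℝ} {κ : ℝ}
  {t η θ : ℝ}

/-! ### Monotonicity for ordinary worlds -/

/-- Births of ordinary worlds. -/
theorem wS_bnn {v : Finset Ph} : ∀ a ∈ wS v, (0 : ℝ) ≤ a.1 := by
  intro a ha
  obtain ⟨z, -, rfl⟩ := mem_wS.1 ha
  exact le_rfl

theorem XX_mono' {H H' : Finset Src → CTree → ℝ≥0∞}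
    (h : ∀ (c : GC.Conf Ph) T, alT Φ ε L t (wS (GC.pts c)) T →
      H (wS (GC.pts c)) T ≤ H' (wS (GC.pts c)) T) : XX Φ ε L f₀ t H ≤ XX Φ ε L f₀ t H' := by
  unfold XX
  refine lintegral_mono fun c => lintegral_mono fun T => ?_
  by_cases hT : alT Φ ε L t (wS (GC.pts c)) T
  · exact mul_le_mul_right (h _ _ hT) _
  · rw [ind_of_not hT, zero_mul]
    exact zero_le

theorem XP_mono' {H H' : Finset Src → CTree → CTree → ℝ≥0∞}
    (h : ∀ (c : GC.Conf Ph) x y, coT Φ ε L t (wS (GC.pts c)) x y →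
      H (wS (GC.pts c)) x y ≤ H' (wS (GC.pts c)) x y) :
    XP Φ ε L f₀ t H ≤ XP Φ ε L f₀ t H' := by
  unfold XP
  refine lintegral_mono fun c => lintegral_mono fun T => onN_mono (fun x y => ?_) T
  by_cases hT : coT Φ ε L t (wS (GC.pts c)) x y
  · exact mul_le_mul_right (h _ _ _ hT) _
  · rw [ind_of_not hT, zero_mul]
    exact zero_le

/-! ### The flying case -/

variable (L hΦ hε) in
/-- The inserted tree `T` is exposed (flying) up to the stopping time. -/
def FEi (η t : ℝ) (U : Finset Src) (T : CTree) : Prop :=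
  FE L hΦ hε (addT U T) (hz L hΦ hε η t (addT U T)) T

variable (L hΦ hε) in
/-- The inserted colliding pair `x`, `y` is exposed up to the stopping time. -/
def PEi (η t : ℝ) (U : Finset Src) (x y : CTree) : Prop :=
  PE L hΦ hε (addT U (node x y)) (hz L hΦ hε η t (addT U (node x y))) x y

variable (L hΦ hε) in
/-- The root of the inserted tree `T` is not exposed before the end of `T`. -/
def UnT (U : Finset Src) (T : CTree) : Prop :=
  ∀ s < ext Φ ε T, ¬(RB.Y Φ ε L hΦ hε).Exp (addT U T) T.root s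

variable (L hΦ hε) in
/-- The roots of the inserted pair `x`, `y` are not exposed when they meet. -/
def UnP (U : Finset Src) (x y : CTree) : Prop :=
  ¬(RB.Y Φ ε L hΦ hε).Exp (addT U (node x y)) x.root (sig Φ ε (node x y)) ∧
    ¬(RB.Y Φ ε L hΦ hε).Exp (addT U (node x y)) y.root (sig Φ ε (node x y))

variable (L hΦ hε) in
/-- The lines of the pair `x`, `y` interact before the end of the collision; the roots are not
exposed when they meet. -/
def BadQ (t : ℝ) (U : Finset Src) (x y : CTree) : Prop :=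
  UnP L hΦ hε U x y ∧
    ∃ u ≤ t, u < ext Φ ε (node x y) ∧ sig Φ ε (node x y) ≤ u ∧ ¬PGood Φ ε L U x y u

theorem UnP.left {U : Finset Src} {x y : CTree} {s : ℝ} (h : UnP L hΦ hε U x y)
    (hs : s ≤ sig Φ ε (node x y)) : ¬(RB.Y Φ ε L hΦ hε).Exp (addT U (node x y)) x.root s :=
  fun he => h.1 (FB.Sys.Exp.mono he hs)

theorem UnP.right {U : Finset Src} {x y : CTree} {s : ℝ} (h : UnP L hΦ hε U x y)
    (hs : s ≤ sig Φ ε (node x y)) : ¬(RB.Y Φ ε L hΦ hε).Exp (addT U (node x y)) y.root s :=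
  fun he => h.2 (FB.Sys.Exp.mono he hs)

variable (L hΦ hε) in
/-- The exceptional set of the flying case; the root is not exposed before. -/
def ExDs (θ t : ℝ) (U : Finset Src) (T : CTree) : Prop :=
  UnT L hΦ hε U T ∧ ExD L hΦ hε θ t U T

theorem FEi.unT {U : Finset Src} {T : CTree} (h : FEi L hΦ hε η t U T) : UnT L hΦ hε U T := by
  obtain ⟨τ, -, hf, h1, h2, -⟩ := h
  exact fun s hs => hf.2 s (hs.trans_le (ext_le_of_flying h2 h1.2.1))

theorem PEi.unP {U : Finset Src} {x y : CTree} (h : PEi L hΦ hε η t U x y) :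
    UnP L hΦ hε U x y := by
  obtain ⟨τ, -, hf, hlive, hsig, hext, -⟩ := h
  exact ⟨hf.2 _ hsig, not_exp_pair hlive hsig hext.le hf.2 _ hsig⟩

theorem measurableSet_UnT : MeasurableSet {p : CTree × GC.Conf Ph |
    UnT L hΦ hε (wS (GC.pts p.2)) p.1} := by
  have h1 : MM.RS fun p : CTree × GC.Conf Ph => ((addT (wS (GC.pts p.2)) p.1 : Finset Src) : Set Src) :=
    rs_addT rs_wS_tree measurable_fst
  have h2 : MeasurableSet {p : CTree × GC.Conf Ph | ∃ s < ext Φ ε p.1,
      (RB.Y Φ ε L hΦ hε).Exp (addT (wS (GC.pts p.2)) p.1) p.1.root s} :=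
    (RM.msys_Y hΦ hε).measurableSet_exp_lt h1 (MM.meas_root measurable_fst)
      ((measurable_ext hΦ hε.ne').comp measurable_fst)
  convert h2.compl using 1
  ext p
  exact ⟨fun h ⟨s, hs, he⟩ => h s hs he, fun h s hs he => h ⟨s, hs, he⟩⟩

theorem measurableSet_FEi : MeasurableSet {p : CTree × GC.Conf Ph |
    FEi L hΦ hε η t (wS (GC.pts p.2)) p.1} := by
  have h1 : MM.RS fun p : CTree × GC.Conf Ph => ((addT (wS (GC.pts p.2)) p.1 : Finset Src) : Set Src) :=
    rs_addT rs_wS_tree measurable_fst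
  exact RM.measurableSet_FE h1 (RM.measurable_hz h1 measurable_const measurable_const)
    measurable_fst

theorem rs_wS_pair : MM.RS fun p : (CTree × CTree) × GC.Conf Ph =>
    ((wS (GC.pts p.2) : Finset Src) : Set Src) := RM.rs_wS measurable_snd

theorem measurableSet_PEi : MeasurableSet {p : (CTree × CTree) × GC.Conf Ph |
    PEi L hΦ hε η t (wS (GC.pts p.2)) p.1.1 p.1.2} := by
  have hT : Measurable fun p : (CTree × CTree) × GC.Conf Ph => node p.1.1 p.1.2 :=
    measurable_node.comp measurable_fst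
  have h1 : MM.RS fun p : (CTree × CTree) × GC.Conf Ph =>
      ((addT (wS (GC.pts p.2)) (node p.1.1 p.1.2) : Finset Src) : Set Src) :=
    rs_addT rs_wS_pair hT
  exact RM.measurableSet_PE h1 (RM.measurable_hz h1 measurable_const measurable_const)
    (measurable_fst.comp measurable_fst) (measurable_snd.comp measurable_fst)

theorem measurable_wq_ind (hΦ : IsPotential Φ) (hε : 0 < ε) {P : GC.Conf Ph → CTree → Prop}
    (hP : MeasurableSet {p : CTree × GC.Conf Ph | P p.2 p.1}) :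
    Measurable fun p : CTree × GC.Conf Ph => wq Φ ε p.1 * ind (P p.2 p.1) := by
  have h1 : Measurable fun p : CTree × GC.Conf Ph => wq Φ ε p.1 :=
    (measurable_wq hΦ hε).comp measurable_fst
  exact h1.mul (measurable_ind hP)

theorem measurable_wqP_ind (hΦ : IsPotential Φ) (hε : 0 < ε)
    {P : GC.Conf Ph → CTree → CTree → Prop}
    (hP : MeasurableSet {p : (CTree × CTree) × GC.Conf Ph | P p.2 p.1.1 p.1.2}) :
    Measurable fun p : (CTree × CTree) × GC.Conf Ph =>
      wqP Φ ε p.1.1 p.1.2 * ind (P p.2 p.1.1 p.1.2) := by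
  have h1 : Measurable fun p : (CTree × CTree) × GC.Conf Ph => wqP Φ ε p.1.1 p.1.2 :=
    measurable_wqP hΦ hε (measurable_fst.comp measurable_fst) (measurable_snd.comp measurable_fst)
  exact h1.mul (measurable_ind hP)

/-- The flying exposed trees of a world are inserted trees. -/
theorem FEi_of_FE (hη : 0 < η) (ht : 0 ≤ t) {W : Finset Src} {T : CTree}
    (h : FE L hΦ hε W (hz L hΦ hε η t W) T) :
    alT Φ ε L t (rm W T) T ∧ FEi L hΦ hε η t (rm W T) T := by
  have h1 := mem_trs.1 h.mem_trs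
  have hadd := addT_rm h1.1
  refine ⟨⟨(alive_pre h.live).ok, h1.2, h.ext_le.trans (hz_le hη ht), ?_⟩, ?_⟩
  · rw [hadd]
    exact h.live
  · unfold FEi
    rw [hadd]
    exact h

/-- The colliding exposed pairs of a world are inserted pairs. -/
theorem PEi_of_PE (hη : 0 < η) (ht : 0 ≤ t) {W : Finset Src} {x y : CTree}
    (h : PE L hΦ hε W (hz L hΦ hε η t W) x y) :
    coT Φ ε L t (rm W (node x y)) x y ∧ PEi L hΦ hε η t (rm W (node x y)) x y := by
  obtain ⟨τ, h1, h2, h3, h4⟩ := h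
  refine ⟨coT_of_live h3 (h1.trans (hz_le hη ht)), ?_⟩
  unfold PEi
  rw [addT_rm h3.sub]
  exact ⟨τ, h1, h2, h3, h4⟩

theorem measurableSet_UnP : MeasurableSet {p : (CTree × CTree) × GC.Conf Ph |
    UnP L hΦ hε (wS (GC.pts p.2)) p.1.1 p.1.2} := by
  have hT : Measurable fun p : (CTree × CTree) × GC.Conf Ph => node p.1.1 p.1.2 :=
    measurable_node.comp measurable_fst
  have h1 : MM.RS fun p : (CTree × CTree) × GC.Conf Ph =>
      ((addT (wS (GC.pts p.2)) (node p.1.1 p.1.2) : Finset Src) : Set Src) :=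
    rs_addT rs_wS_pair hT
  have h2 : Measurable fun p : (CTree × CTree) × GC.Conf Ph => sig Φ ε (node p.1.1 p.1.2) :=
    MM.meas_sig hΦ hε.ne' hT
  exact ((RM.msys_Y hΦ hε).measurableSet_exp h1
    (MM.meas_root (measurable_fst.comp measurable_fst)) h2).compl.inter
    ((RM.msys_Y hΦ hε).measurableSet_exp h1
    (MM.meas_root (measurable_snd.comp measurable_fst)) h2).compl

/-- **Extraction, flying case.** -/
theorem sum_FE_le (h : GoodDatum f₀ κ) (hη : 0 < η) (ht : 0 ≤ t) :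
    ∫⁻ c, ∑ T ∈ trs L (wS (GC.pts c)),
      ind (FE L hΦ hε (wS (GC.pts c)) (hz L hΦ hε η t (wS (GC.pts c))) T) * wq Φ ε T
        ∂(GC.PP f₀ ε) ≤
      XX Φ ε L f₀ t (fun U T => wq Φ ε T * ind (FEi L hΦ hε η t U T)) := by
  classical
  refine le_trans (lintegral_mono fun c => ?_) (gibbs hΦ h hε
    (measurable_wq_ind hΦ hε (P := fun c T => FEi L hΦ hε η t (wS (GC.pts c)) T)
      measurableSet_FEi))
  refine le_trans (Finset.sum_le_sum fun T hT => ?_) (ENNReal.sum_le_tsum (trs L (wS (GC.pts c))))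
  obtain ⟨h1, -⟩ := mem_trs.1 hT
  rw [if_pos h1]
  by_cases hF : FE L hΦ hε (wS (GC.pts c)) (hz L hΦ hε η t (wS (GC.pts c))) T
  · obtain ⟨h2, h3⟩ := FEi_of_FE hη ht hF
    rw [ind_of hF, ind_of h2, ind_of h3, one_mul, one_mul, mul_one]
  · rw [ind_of_not hF, zero_mul]
    exact zero_le

/-- **Extraction, colliding case.** -/
theorem sum_PE_le (h : GoodDatum f₀ κ) (hη : 0 < η) (ht : 0 ≤ t) :
    ∫⁻ c, ∑ T ∈ trs L (wS (GC.pts c)), onN (fun x y =>
      ind (PE L hΦ hε (wS (GC.pts c)) (hz L hΦ hε η t (wS (GC.pts c))) x y) * wqP Φ ε x y) T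
        ∂(GC.PP f₀ ε) ≤
      XP Φ ε L f₀ t (fun U x y => wqP Φ ε x y * ind (PEi L hΦ hε η t U x y)) := by
  refine le_trans (lintegral_mono fun c => ?_) (gibbsP hΦ h hε
    (measurable_wqP_ind hΦ hε (P := fun c x y => PEi L hΦ hε η t (wS (GC.pts c)) x y)
      measurableSet_PEi))
  refine Finset.sum_le_sum fun T hT => ?_
  cases T with
  | leaf a => exact le_rfl
  | node x y =>
    rw [onN_node, onN_node]
    by_cases hF : PE L hΦ hε (wS (GC.pts c)) (hz L hΦ hε η t (wS (GC.pts c))) x y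
    · obtain ⟨h2, h3⟩ := PEi_of_PE hη ht hF
      rw [ind_of hF, ind_of h2, ind_of h3, one_mul, one_mul, mul_one]
    · rw [ind_of_not hF, zero_mul]
      exact zero_le

/-- An indicator of a union of three. -/
theorem ind_le_three {p a b c : Prop} (h : p → a ∨ b ∨ c) : ind p ≤ ind a + (ind b + ind c) := by
  refine (ind_mono h).trans ((ind_or_le _ _).trans (add_le_add le_rfl (ind_or_le _ _)))

/-- **The flying case**: direct contact, second events, exceptional set. -/
theorem XX_FEi_le (h : GoodDatum f₀ κ) (hη : 0 < η) (hθ : 0 ≤ θ) (ht : 0 ≤ t) :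
    XX Φ ε L f₀ t (fun U T => wq Φ ε T * ind (FEi L hΦ hε η t U T)) ≤
      XX Φ ε L f₀ t (fun U T => wq Φ ε T *
        ind (DirF L hΦ hε U (hz L hΦ hε (η + θ + θ) t U) T)) +
      (XX Φ ε L f₀ t (fun U T => wq Φ ε T * ind (TwoF L hΦ hε (η + θ + θ) t U T)) +
        XX Φ ε L f₀ t (fun U T => wq Φ ε T * ind (ExDs L hΦ hε θ t U T))) := by
  have m1 : Measurable fun p : CTree × GC.Conf Ph => wq Φ ε p.1 *
      ind (DirF L hΦ hε (wS (GC.pts p.2)) (hz L hΦ hε (η + θ + θ) t (wS (GC.pts p.2))) p.1) :=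
    measurable_wq_ind hΦ hε (P := fun c T => DirF L hΦ hε (wS (GC.pts c))
      (hz L hΦ hε (η + θ + θ) t (wS (GC.pts c))) T)
      (RM.measurableSet_DirF rs_wS_tree
        (RM.measurable_hz rs_wS_tree measurable_const measurable_const) measurable_fst)
  have m2 : Measurable fun p : CTree × GC.Conf Ph => wq Φ ε p.1 *
      ind (TwoF L hΦ hε (η + θ + θ) t (wS (GC.pts p.2)) p.1) :=
    measurable_wq_ind hΦ hε (P := fun c T => TwoF L hΦ hε (η + θ + θ) t (wS (GC.pts c)) T)
      (RM.measurableSet_TwoF rs_wS_tree measurable_const measurable_const measurable_fst)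
  rw [← XX_add hΦ hε m2 h, ← XX_add hΦ hε m1 h]
  refine XX_mono' fun c T _ => ?_
  rw [← mul_add, ← mul_add]
  refine mul_le_mul_right (ind_le_three fun h1 => ?_) _
  by_cases hE : ExD L hΦ hε θ t (wS (GC.pts c)) T
  · exact Or.inr (Or.inr ⟨h1.unT, hE⟩)
  · exact (cont_fly wS_bnn hη hθ ht hE h1).elim Or.inl fun h => Or.inr (Or.inl h)

variable (L hΦ hε) in
/-- The exceptional set of the colliding case, for the horizons before the end of the collision;
the roots are not exposed before. -/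
def ExPs (θ t : ℝ) (U : Finset Src) (x y : CTree) : Prop :=
  UnP L hΦ hε U x y ∧ ∃ u ≤ t, u < ext Φ ε (node x y) ∧ ExP L hΦ hε θ u U x y

theorem TwoP_mono_time {t' : ℝ} (h0 : 0 < η) (ht : 0 ≤ t) (htt : t ≤ t') {U : Finset Src}
    {x y : CTree} (hT : TwoP L hΦ hε η t U x y) : TwoP L hΦ hε η t' U x y := by
  obtain ⟨e, he, h1 | h1⟩ := hT
  · obtain ⟨m, hm, hne, hG⟩ := h1
    exact ⟨e, he, Or.inl ⟨m, hm, hne, hG.1.mono (hz_mono_right htt h0 ht),
      hG.2.mono (hz_mono_right htt h0 ht)⟩⟩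
  · obtain ⟨h2, r, hr, h3⟩ := h1
    exact ⟨e, he, Or.inr ⟨h2.mono (hz_mono_right htt h0 ht), r,
      hr.trans (hz_mono_right htt h0 ht), h3⟩⟩

/-- **Contamination, colliding case**: only the interactions before the end of the collision
matter. -/
theorem cont_pair_s {U : Finset Src} {x y : CTree} (h0 : ∀ a ∈ U, 0 ≤ a.1) (hη : 0 < η)
    (hθ : 0 ≤ θ) (ht : 0 ≤ t) (hE : ¬ExPs L hΦ hε θ t U x y)
    (hP : PE L hΦ hε (addT U (node x y)) (hz L hΦ hε η t (addT U (node x y))) x y) :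
    DirP L hΦ hε U (hz L hΦ hε (η + θ + θ) t U) x y ∨ TwoP L hΦ hε (η + θ + θ) t U x y := by
  have hun : UnP L hΦ hε U x y := PEi.unP hP
  obtain ⟨τ, hτ, hf, hlive, hsig, hext, n₁, n₂⟩ := hP
  have hu : 0 ≤ τ := hf.nonneg
  rw [le_hz_iff hη ht] at hτ
  have hη2 : 0 < η + θ + θ := by linarith
  have hE' : ¬ExP L hΦ hε θ τ U x y := fun h => hE ⟨hun, τ, hτ.1, hext, h⟩
  have h1 : τ ≤ hz L hΦ hε η τ (addT U (node x y)) := by
    rw [le_hz_iff hη hu]
    exact ⟨le_rfl, hτ.2⟩
  rcases cont_pair h0 hη hθ hu hE' ⟨τ, h1, hf, hlive, hsig, hext, n₁, n₂⟩ with h2 | h2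
  · obtain ⟨r, hr, h3⟩ := h2
    exact Or.inl ⟨r, hr.trans (hz_mono_right hτ.1 hη2 hu), h3⟩
  · exact Or.inr (TwoP_mono_time hη2 hu hτ.1 h2)

/-- **The colliding case**: direct contact, second events, exceptional set. -/
theorem XP_PEi_le (h : GoodDatum f₀ κ) (hη : 0 < η) (hθ : 0 ≤ θ) (ht : 0 ≤ t) :
    XP Φ ε L f₀ t (fun U x y => wqP Φ ε x y * ind (PEi L hΦ hε η t U x y)) ≤
      XP Φ ε L f₀ t (fun U x y => wqP Φ ε x y *
        ind (DirP L hΦ hε U (hz L hΦ hε (η + θ + θ) t U) x y)) +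
      (XP Φ ε L f₀ t (fun U x y => wqP Φ ε x y * ind (TwoP L hΦ hε (η + θ + θ) t U x y)) +
        XP Φ ε L f₀ t (fun U x y => wqP Φ ε x y * ind (ExPs L hΦ hε θ t U x y))) := by
  have mx : Measurable fun p : (CTree × CTree) × GC.Conf Ph => p.1.1 :=
    measurable_fst.comp measurable_fst
  have my : Measurable fun p : (CTree × CTree) × GC.Conf Ph => p.1.2 :=
    measurable_snd.comp measurable_fst
  have m1 : Measurable fun p : (CTree × CTree) × GC.Conf Ph => wqP Φ ε p.1.1 p.1.2 *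
      ind (DirP L hΦ hε (wS (GC.pts p.2)) (hz L hΦ hε (η + θ + θ) t (wS (GC.pts p.2)))
        p.1.1 p.1.2) :=
    measurable_wqP_ind hΦ hε (P := fun c x y => DirP L hΦ hε (wS (GC.pts c))
      (hz L hΦ hε (η + θ + θ) t (wS (GC.pts c))) x y)
      (RM.measurableSet_DirP rs_wS_pair
        (RM.measurable_hz rs_wS_pair measurable_const measurable_const) mx my)
  have m2 : Measurable fun p : (CTree × CTree) × GC.Conf Ph => wqP Φ ε p.1.1 p.1.2 *
      ind (TwoP L hΦ hε (η + θ + θ) t (wS (GC.pts p.2)) p.1.1 p.1.2) :=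
    measurable_wqP_ind hΦ hε (P := fun c x y => TwoP L hΦ hε (η + θ + θ) t (wS (GC.pts c)) x y)
      (RM.measurableSet_TwoP rs_wS_pair measurable_const measurable_const mx my)
  rw [← XP_add hΦ hε m2 h, ← XP_add hΦ hε m1 h]
  refine XP_mono' fun c x y _ => ?_
  rw [← mul_add, ← mul_add]
  refine mul_le_mul_right (ind_le_three fun h1 => ?_) _
  by_cases hE : ExPs L hΦ hε θ t (wS (GC.pts c)) x y
  · exact Or.inr (Or.inr hE)
  · exact (cont_pair_s wS_bnn hη hθ ht hE h1).elim Or.inl fun h => Or.inr (Or.inl h)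

end Vale.Agent.P119.PB
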