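import Vale.Agent.P119.PB.TrickC
import Vale.Agent.P119.PB.ExAdr
import Vale.Agent.P119.PB.CMrev
import Vale.Agent.P119.IND.KNeg

/-!
# P119, block PROB, P8: the exceptional pairs of two colliding trees (`helper909`)

* `lintegral_pi_two`: the law of two trees;
* `kneg_pair`: negligible kernels of marked pairs over two colliding trees;
* `cr3a_kneg`, `cr3b_kneg`, `cr3c_kneg`: **the crude functionals of two colliding trees are
  negligible**.
-/

open MeasureTheory Filter Topology Set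
open scoped ENNReal NNReal

noncomputable section

namespace Vale.Agent.P119.PB.C3

open M CTree KU FB RB AU FL TL GC IND EA

variable {Φ : E3 → ℝ} {ε t T₀ b c κ : ℝ} {L : ℕ} {f₀ : Ph → ℝ}

/-- The law of two trees. -/
theorem lintegral_pi_two (μ : Measure CTree) [SigmaFinite μ] {F : CTree → CTree → ℝ≥0∞}
    (hF : Measurable fun p : CTree × CTree => F p.1 p.2) :
    ∫⁻ T : Fin 2 → CTree, F (T 0) (T 1) ∂(Measure.pi fun _ => μ) =
      ∫⁻ x, ∫⁻ y, F x y ∂μ ∂μ := by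
  have h := (measurePreserving_finTwoArrow μ).lintegral_comp hF
  rw [lintegral_prod _ hF.aemeasurable] at h
  exact h

/-- The bound of the sizes. -/
def N3 (L : ℕ) : ℕ := 4 * 2 ^ (L + 2) + 1

theorem fin2_eta (T : Fin 2 → CTree) : ![T 0, T 1] = T := by
  funext j
  fin_cases j <;> rfl

theorem wqP_le_exp (hΦ : IsPotential Φ) (hε : 0 < ε) (hc : 0 < c) (x y : CTree)
    (l : Fin 0 → Ph) :
    wqP Φ ε x y ≤ ENNReal.ofReal (1 + 1 / c) *
      ENNReal.ofReal (Real.exp (c * enB ![x, y] l)) := by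
  have h1 := ln_sq_le_enT hΦ hε.ne' x
  have h2 := ln_sq_le_enT hΦ hε.ne' y
  have h3 : enB ![x, y] l = enT x + enT y := by
    unfold enB
    rw [Fin.sum_univ_two]
    simp
  have h4 : 0 ≤ enT x + enT y := add_nonneg (enT_nonneg x) (enT_nonneg y)
  unfold wqP
  rw [h3, ← ENNReal.ofReal_mul (by positivity)]
  refine ENNReal.ofReal_le_ofReal ?_
  have h5 : 1 + c * (enT x + enT y) ≤ Real.exp (c * (enT x + enT y)) := by
    have := Real.add_one_le_exp (c * (enT x + enT y))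
    linarith
  have h6 : 0 ≤ c * (enT x + enT y) := by positivity
  calc 1 + (‖(ln Φ ε x).2‖ ^ 2 + ‖(ln Φ ε y).2‖ ^ 2) ≤ 1 + (enT x + enT y) := by linarith
    _ ≤ (1 + 1 / c) * (1 + c * (enT x + enT y)) := by
        have : (1 + 1 / c) * (1 + c * (enT x + enT y)) =
          1 + (enT x + enT y) + 1 / c + c * (enT x + enT y) := by
          field_simp
          ring
        rw [this]
        have : 0 < 1 / c := by positivity
        linarith
    _ ≤ _ := mul_le_mul_of_nonneg_left h5 (by positivity)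

/-- **Negligible kernels of marked pairs over two colliding trees.** -/
theorem kneg_pair (hΦ : IsPotential Φ) (hg : GoodDatum f₀ κ) (hc : 0 < c) {K : Ker}
    (hK : ∀ ε hε t, Measurable fun p : Src × Src => K ε hε t p.1 p.2)
    (h : KNeg Φ f₀ b c 2 0 L (N3 L) T₀ K) :
    ∃ Dl : ℝ → ℝ≥0∞, Tendsto Dl (𝓝[>] 0) (𝓝 0) ∧ ∀ (ε : ℝ) (hε : 0 < ε), ε ≤ 1 →
      ∀ t ∈ Icc 0 T₀, ∀ (P : Set (CTree × CTree)) (u v : CTree × CTree → Src),
        MeasurableSet P → Measurable u → Measurable v →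
        (∀ x y, (x, y) ∈ P → CTree.ok Φ ε (node x y) → (node x y).depth ≤ L →
          sig Φ ε (node x y) ≤ t → ((u (x, y)).2.2 ≤ L ∧ (v (x, y)).2.2 ≤ L) ∧
          ∀ l : Fin 0 → Src, Mk Φ ε t (N3 L) ![x, y] l (u (x, y)) (v (x, y))) →
        (muE ε)⁻¹ * ∫⁻ x, ∫⁻ y, wC Φ ε L t x y * (ind ((x, y) ∈ P) *
          K ε hε t (u (x, y)) (v (x, y))) ∂(tree (inten f₀ ε) L) ∂(tree (inten f₀ ε) L) ≤
          Dl ε := by
  obtain ⟨Dl, h0, h1⟩ := h
  refine ⟨fun ε => ENNReal.ofReal (1 + 1 / c) * Dl ε, ?_, ?_⟩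
  · have := ENNReal.Tendsto.const_mul (a := ENNReal.ofReal (1 + 1 / c)) h0
      (Or.inr ENNReal.ofReal_ne_top)
    rwa [mul_zero] at this
  intro ε hε hε1 t ht P u v hP hu hv hmk
  have hfin := GC.isFiniteMeasure_inten (ε := ε) hg
  -- the law
  obtain ⟨W, hW⟩ : ∃ W : (Fin 2 → CTree) → (Fin 0 → Ph) → ℝ≥0∞, W = fun T _ =>
    wC Φ ε L t (T 0) (T 1) * ind ((T 0, T 1) ∈ P) := ⟨_, rfl⟩
  have mT : Measurable fun p : (Fin 2 → CTree) × (Fin 0 → Ph) => (p.1 0, p.1 1) :=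
    ((measurable_pi_apply 0).comp measurable_fst).prodMk
      ((measurable_pi_apply 1).comp measurable_fst)
  have hWne : ∀ T l, W T l ≠ 0 → (T 0, T 1) ∈ P ∧ CTree.ok Φ ε (node (T 0) (T 1)) ∧
      (node (T 0) (T 1)).depth ≤ L ∧ sig Φ ε (node (T 0) (T 1)) ≤ t := by
    intro T l hne
    rw [hW] at hne
    have h2 : (T 0, T 1) ∈ P := by
      by_contra hcon
      exact hne (by simp only [ind_of_not hcon, mul_zero])
    refine ⟨h2, ?_⟩
    by_contra hcon
    exact hne (by simp only [wC, ind_of_not hcon, mul_zero, zero_mul])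
  have hlaw : MLaw Φ ε t c L (N3 L) (fun i : Fin 0 => i.elim0) (fun i : Fin 0 => i.elim0) W
      (fun T _ => u (T 0, T 1)) (fun T _ => v (T 0, T 1)) (ENNReal.ofReal (1 + 1 / c)) := by
    refine ⟨?_, hu.comp mT, hv.comp mT, fun T l => ?_, fun j => j.elim0, fun T l hne => ?_,
      fun T l hne => ?_, fun T l hne => ?_⟩
    · rw [hW]
      exact (measurable_wC hΦ hε (measurable_fst.comp mT) (measurable_snd.comp mT)).mul
        (measurable_ind (mT hP))
    · rw [hW]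
      have h2 := wqP_le_exp hΦ hε hc (T 0) (T 1) l
      rw [fin2_eta] at h2
      refine le_trans ?_ h2
      refine (mul_le_mul' (le_refl _) (ind_le_one _)).trans ?_
      rw [mul_one]
      unfold wC
      exact (mul_le_mul' le_rfl (ind_le_one _)).trans (mul_one _).le
    · obtain ⟨-, h2, -⟩ := hWne T l hne
      refine ⟨fun j => ?_, fun i j hij => ?_, fun i => i.elim0, fun _ j => j.elim0⟩
      · fin_cases j
        · exact h2.1
        · exact h2.2.1
      · fin_cases i <;> fin_cases j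
        · exact absurd rfl hij
        · exact h2.2.2.1
        · exact h2.2.2.1.symm
        · exact absurd rfl hij
    · obtain ⟨h2, h3, h4, h5⟩ := hWne T l hne
      exact (hmk _ _ h2 h3 h4 h5).1
    · obtain ⟨h2, h3, h4, h5⟩ := hWne T l hne
      have h6 := (hmk _ _ h2 h3 h4 h5).2 (lns (fun i : Fin 0 => i.elim0)
        (fun i : Fin 0 => i.elim0) l)
      rwa [fin2_eta] at h6
  have key := h1 ε hε hε1 t ht _ _ W _ _ _ ENNReal.ofReal_ne_top hlaw
  simp only [lintegral_fin_zero, pow_zero, one_mul, Finset.univ_eq_empty, Finset.prod_empty]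
    at key
  rw [hW] at key
  have hF : Measurable fun p : CTree × CTree => wC Φ ε L t p.1 p.2 * ind ((p.1, p.2) ∈ P) *
      K ε hε t (u (p.1, p.2)) (v (p.1, p.2)) :=
    ((measurable_wC hΦ hε measurable_fst measurable_snd).mul (measurable_ind hP)).mul
      ((hK ε hε t).comp (hu.prodMk hv))
  have e1 := lintegral_pi_two (tree (inten f₀ ε) L) (F := fun x y =>
    wC Φ ε L t x y * ind ((x, y) ∈ P) * K ε hε t (u (x, y)) (v (x, y))) hF
  rw [e1] at key
  have e2 : ∫⁻ x, ∫⁻ y, wC Φ ε L t x y * (ind ((x, y) ∈ P) *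
      K ε hε t (u (x, y)) (v (x, y))) ∂(tree (inten f₀ ε) L) ∂(tree (inten f₀ ε) L) =
      ∫⁻ x, ∫⁻ y, wC Φ ε L t x y * ind ((x, y) ∈ P) * K ε hε t (u (x, y)) (v (x, y))
        ∂(tree (inten f₀ ε) L) ∂(tree (inten f₀ ε) L) :=
    lintegral_congr fun x => lintegral_congr fun y => (mul_assoc _ _ _).symm
  rw [e2]
  refine (mul_le_mul_right key _).trans (le_of_eq ?_)
  rw [mul_left_comm, ← mul_assoc (muE ε)⁻¹, ENNReal.inv_mul_cancel, one_mul]
  · exact (ENNReal.ofReal_pos.2 (GC.mu_pos hε)).ne'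
  · exact muE_ne_top

/-! ### The three functionals -/

theorem szB_le [DecidableEq CTree] {x y : CTree} (hd : (node x y).depth ≤ L) (g : Gh) :
    szB (partsF x ∪ partsF y) [g] ≤ N3 L := by
  have h1 : max x.depth y.depth + 1 ≤ L := hd
  exact szB_pair_le (by omega) (by omega) g

/-- Two exhausts of the colliding trees. -/
theorem mk_pair (hΦ : IsPotential Φ) (hε : 0 < ε) {x y E S : CTree}
    (hok : CTree.ok Φ ε (node x y)) (hd : (node x y).depth ≤ L) (hs : sig Φ ε (node x y) ≤ t)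
    (hE : E ∈ exs x ∪ exs y) (hS : S ∈ exs x ∪ exs y) (hne : E ≠ S) :
    ((rsrc Φ ε E).2.2 ≤ L ∧ (rsrc Φ ε S).2.2 ≤ L) ∧
      ∀ l : Fin 0 → Src, Mk Φ ε t (N3 L) ![x, y] l (rsrc Φ ε E) (rsrc Φ ε S) := by
  classical
  have h1 : max x.depth y.depth + 1 ≤ L := hd
  have key : ∀ z ∈ exs x ∪ exs y, z.depth ≤ L := by
    rintro z (hz | hz)
    · exact (TL.outs_depth (Or.inr hz)).trans (by omega)
    · exact (TL.outs_depth (Or.inr hz)).trans (by omega)
  exact ⟨⟨key E hE, key S hS⟩, fun l =>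
    (Mk.of_pair hΦ hε hok hs hE hS hne l E.depth S.depth).mono (szB_le hd _)⟩

/-- An exhaust of the colliding trees, and one of the colliding lines. -/
theorem mk_old (hΦ : IsPotential Φ) (hε : 0 < ε) {x y E : CTree}
    (hok : CTree.ok Φ ε (node x y)) (hd : (node x y).depth ≤ L) (hs : sig Φ ε (node x y) ≤ t)
    (hE : E ∈ exs x ∪ exs y) :
    ((rsrc Φ ε E).2.2 ≤ L ∧
      ((sig Φ ε (node x y), ln Φ ε y, (0 : ℕ)) : Src).2.2 ≤ L) ∧
      ∀ l : Fin 0 → Src, Mk Φ ε t (N3 L) ![x, y] l (rsrc Φ ε E)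
        (sig Φ ε (node x y), ln Φ ε y, (0 : ℕ)) := by
  classical
  have h1 : max x.depth y.depth + 1 ≤ L := hd
  have key : E.depth ≤ L := by
    rcases hE with hz | hz
    · exact (TL.outs_depth (Or.inr hz)).trans (by omega)
    · exact (TL.outs_depth (Or.inr hz)).trans (by omega)
  exact ⟨⟨key, Nat.zero_le _⟩, fun l =>
    (Mk.of_pair_old hΦ hε hok hs hE l E.depth 0).mono (szB_le hd _)⟩

/-- The weight of a colliding pair. -/
theorem wC_mul_le {x y : CTree} {A B : ℝ≥0∞}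
    (h : CTree.ok Φ ε (node x y) → (node x y).depth ≤ L → sig Φ ε (node x y) ≤ t → A ≤ B) :
    wC Φ ε L t x y * A ≤ wC Φ ε L t x y * B := by
  by_cases hx : CTree.ok Φ ε (node x y) ∧ (node x y).depth ≤ L ∧ sig Φ ε (node x y) ≤ t
  · exact mul_le_mul_right (h hx.1 hx.2.1 hx.2.2) _
  · have e : wC Φ ε L t x y = 0 := by
      unfold wC
      rw [ind_of_not hx, mul_zero]
    rw [e, zero_mul, zero_mul]

theorem lintegral_two_sum {α β ι : Type*} [MeasurableSpace α] [MeasurableSpace β]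
    {μ : Measure α} {ν : Measure β} [SFinite ν] (s : Finset ι) {A : ι → α → β → ℝ≥0∞}
    (hA : ∀ i, Measurable fun p : α × β => A i p.1 p.2) :
    ∫⁻ x, ∫⁻ y, ∑ i ∈ s, A i x y ∂ν ∂μ = ∑ i ∈ s, ∫⁻ x, ∫⁻ y, A i x y ∂ν ∂μ := by
  have h1 : ∀ i, Measurable fun x => ∫⁻ y, A i x y ∂ν := fun i => (hA i).lintegral_prod_right'
  have h2 : ∀ x, ∫⁻ y, ∑ i ∈ s, A i x y ∂ν = ∑ i ∈ s, ∫⁻ y, A i x y ∂ν := by
    intro x
    have h3 : ∀ i, Measurable fun y => A i x y := fun i => (hA i).comp measurable_prodMk_left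
    exact lintegral_finsetSum _ fun i _ => h3 i
  rw [lintegral_congr h2, lintegral_finsetSum _ fun i _ => h1 i]

/-- The integral over two colliding trees of a finite sum. -/
theorem cr3_sum_le {ι : Type*} (s : Finset ι) {H : CTree → CTree → ℝ≥0∞}
    {G : ι → CTree → CTree → ℝ≥0∞}
    (hg : GoodDatum f₀ κ) (hG : ∀ i, Measurable fun p : CTree × CTree => G i p.1 p.2)
    (hw : Measurable fun p : CTree × CTree => wC Φ ε L t p.1 p.2)
    (h : ∀ x y, CTree.ok Φ ε (node x y) → (node x y).depth ≤ L → sig Φ ε (node x y) ≤ t →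
      H x y ≤ ∑ i ∈ s, G i x y) {B : ℝ≥0∞}
    (hB : ∀ i ∈ s, (muE ε)⁻¹ * ∫⁻ x, ∫⁻ y, wC Φ ε L t x y * G i x y
      ∂(tree (inten f₀ ε) L) ∂(tree (inten f₀ ε) L) ≤ B) :
    cr3 Φ ε L f₀ t H ≤ s.card * B := by
  have hfin := GC.isFiniteMeasure_inten (ε := ε) hg
  obtain ⟨A, hA⟩ : ∃ A : ι → CTree → CTree → ℝ≥0∞, A = fun i x y =>
    wC Φ ε L t x y * G i x y := ⟨_, rfl⟩
  have m1 : ∀ i, Measurable fun p : CTree × CTree => A i p.1 p.2 := by
    intro i
    rw [hA]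
    exact hw.mul (hG i)
  have h0 : ∀ x y, wC Φ ε L t x y * H x y ≤ ∑ i ∈ s, A i x y := by
    intro x y
    rw [hA, ← Finset.mul_sum]
    exact wC_mul_le fun a1 a2 a3 => h x y a1 a2 a3
  have hB' : ∀ i ∈ s, (muE ε)⁻¹ * ∫⁻ x, ∫⁻ y, A i x y
      ∂(tree (inten f₀ ε) L) ∂(tree (inten f₀ ε) L) ≤ B := by
    intro i hi
    rw [hA]
    exact hB i hi
  have h1 : cr3 Φ ε L f₀ t H ≤ (muE ε)⁻¹ * ∫⁻ x, ∫⁻ y, ∑ i ∈ s, A i x y
      ∂(tree (inten f₀ ε) L) ∂(tree (inten f₀ ε) L) := by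
    unfold cr3
    refine mul_le_mul_right ((setLIntegral_le_lintegral _ _).trans
      (lintegral_mono fun x => (setLIntegral_le_lintegral _ _).trans
        (lintegral_mono fun y => h0 x y))) _
  have h2 := lintegral_two_sum (μ := tree (inten f₀ ε) L) (ν := tree (inten f₀ ε) L) s m1
  rw [h2, Finset.mul_sum] at h1
  refine h1.trans ?_
  rw [← nsmul_eq_mul]
  exact Finset.sum_le_card_nsmul _ _ _ hB'

/-- **[A3], both exhausts in one tree.** -/
theorem cr3a_kneg (hΦ : IsPotential Φ) (hg : GoodDatum f₀ κ) (hc : 0 < c) {K : Ker}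
    (hK : ∀ ε hε t, Measurable fun p : Src × Src => K ε hε t p.1 p.2)
    (h : KNeg Φ f₀ b c 2 0 L (N3 L) T₀ K) :
    ∃ Dl : ℝ → ℝ≥0∞, Tendsto Dl (𝓝[>] 0) (𝓝 0) ∧ ∀ (ε : ℝ) (hε : 0 < ε), ε ≤ 1 →
      ∀ t ∈ Icc 0 T₀, cr3a Φ ε L f₀ t (K ε hε t) ≤ Dl ε := by
  classical
  obtain ⟨Dl, h0, h1⟩ := kneg_pair hΦ hg hc hK h
  refine ⟨fun ε => ((adr L ×ˢ adr L).card : ℝ≥0∞) * Dl ε, ?_, fun ε hε hε1 t ht => ?_⟩
  · have := ENNReal.Tendsto.const_mul (a := ((adr L ×ˢ adr L).card : ℝ≥0∞)) h0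
      (Or.inr (ENNReal.natCast_ne_top _))
    rwa [mul_zero] at this
  obtain ⟨P, hP⟩ : ∃ P : List Bool × List Bool → Set (CTree × CTree), P = fun q =>
    {p | isA q.1 p.1 ∧ isA q.2 p.1 ∧ exA q.1 p.1 ≠ exA q.2 p.1} := ⟨_, rfl⟩
  have hPm : ∀ q, MeasurableSet (P q) := by
    intro q
    rw [hP]
    exact (measurable_fst (measurableSet_isA q.1)).inter ((measurable_fst
      (measurableSet_isA q.2)).inter (measurableSet_eq_fun ((measurable_exA q.1).comp
        measurable_fst) ((measurable_exA q.2).comp measurable_fst)).compl)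
  have hu : ∀ q : List Bool, Measurable fun p : CTree × CTree => rsrc Φ ε (exA q p.1) :=
    fun q => (measurable_rsrc hΦ hε.ne').comp ((measurable_exA q).comp measurable_fst)
  refine cr3_sum_le (adr L ×ˢ adr L) (G := fun q x y => ind ((x, y) ∈ P q) *
    K ε hε t (rsrc Φ ε (exA q.1 x)) (rsrc Φ ε (exA q.2 x))) hg (fun q => ?_)
    (measurable_wC hΦ hε measurable_fst measurable_snd) (fun x y hok hd hs => ?_)
    fun q _ => ?_
  · exact (measurable_ind (hPm q)).mul ((hK ε hε t).comp ((hu q.1).prodMk (hu q.2)))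
  · have hx : x.depth ≤ L := by
      have h2 : max x.depth y.depth + 1 ≤ L := hd
      omega
    unfold aE
    rw [Finset.sum_product]
    refine (exsum_le_adr hx _).trans (Finset.sum_le_sum fun p _ => ?_)
    refine (mul_le_mul_right (exsum_le_adr hx _) _).trans ?_
    rw [Finset.mul_sum]
    refine Finset.sum_le_sum fun r _ => ?_
    by_cases hp : isA p x
    · by_cases hr : isA r x
      · by_cases he : exA p x = exA r x
        · rw [if_pos he, mul_zero, mul_zero]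
          exact zero_le
        · have h3 : (x, y) ∈ P (p, r) := by
            rw [hP]
            exact ⟨hp, hr, he⟩
          rw [if_neg he, ind_of hp, ind_of hr, ind_of h3, one_mul]
      · rw [ind_of_not hr, zero_mul, mul_zero]
        exact zero_le
    · rw [ind_of_not hp, zero_mul]
      exact zero_le
  · refine h1 ε hε hε1 t ht (P q) (fun p => rsrc Φ ε (exA q.1 p.1))
      (fun p => rsrc Φ ε (exA q.2 p.1)) (hPm q) (hu _) (hu _) fun x y hm hok hd hs => ?_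
    rw [hP] at hm
    exact mk_pair hΦ hε hok hd hs (Or.inl (exA_mem hm.1)) (Or.inl (exA_mem hm.2.1)) hm.2.2

/-- **[A3], one exhaust in each of the trees.** -/
theorem cr3b_kneg (hΦ : IsPotential Φ) (hg : GoodDatum f₀ κ) (hc : 0 < c) {K : Ker}
    (hK : ∀ ε hε t, Measurable fun p : Src × Src => K ε hε t p.1 p.2)
    (h : KNeg Φ f₀ b c 2 0 L (N3 L) T₀ K) :
    ∃ Dl : ℝ → ℝ≥0∞, Tendsto Dl (𝓝[>] 0) (𝓝 0) ∧ ∀ (ε : ℝ) (hε : 0 < ε), ε ≤ 1 →
      ∀ t ∈ Icc 0 T₀, cr3b Φ ε L f₀ t (K ε hε t) ≤ Dl ε := by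
  classical
  obtain ⟨Dl, h0, h1⟩ := kneg_pair hΦ hg hc hK h
  refine ⟨fun ε => ((adr L ×ˢ adr L).card : ℝ≥0∞) * (Dl ε + Dl ε), ?_,
    fun ε hε hε1 t ht => ?_⟩
  · have := ENNReal.Tendsto.const_mul (a := ((adr L ×ˢ adr L).card : ℝ≥0∞)) (h0.add h0)
      (Or.inr (ENNReal.natCast_ne_top _))
    rwa [add_zero, mul_zero] at this
  obtain ⟨P, hP⟩ : ∃ P : List Bool × List Bool → Set (CTree × CTree), P = fun q =>
    {p | isA q.1 p.1 ∧ isA q.2 p.2} := ⟨_, rfl⟩
  have hPm : ∀ q, MeasurableSet (P q) := by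
    intro q
    rw [hP]
    exact (measurable_fst (measurableSet_isA q.1)).inter (measurable_snd (measurableSet_isA q.2))
  have hu : ∀ q : List Bool, Measurable fun p : CTree × CTree => rsrc Φ ε (exA q p.1) :=
    fun q => (measurable_rsrc hΦ hε.ne').comp ((measurable_exA q).comp measurable_fst)
  have hv : ∀ q : List Bool, Measurable fun p : CTree × CTree => rsrc Φ ε (exA q p.2) :=
    fun q => (measurable_rsrc hΦ hε.ne').comp ((measurable_exA q).comp measurable_snd)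
  have mw : Measurable fun p : CTree × CTree => wC Φ ε L t p.1 p.2 :=
    measurable_wC hΦ hε measurable_fst measurable_snd
  have m1 : ∀ q : List Bool × List Bool, Measurable fun p : CTree × CTree =>
      ind ((p.1, p.2) ∈ P q) * K ε hε t (rsrc Φ ε (exA q.1 p.1)) (rsrc Φ ε (exA q.2 p.2)) :=
    fun q => (measurable_ind (hPm q)).mul ((hK ε hε t).comp ((hu q.1).prodMk (hv q.2)))
  have m2 : ∀ q : List Bool × List Bool, Measurable fun p : CTree × CTree =>
      ind ((p.1, p.2) ∈ P q) * K ε hε t (rsrc Φ ε (exA q.2 p.2)) (rsrc Φ ε (exA q.1 p.1)) :=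
    fun q => (measurable_ind (hPm q)).mul ((hK ε hε t).comp ((hv q.2).prodMk (hu q.1)))
  refine cr3_sum_le (adr L ×ˢ adr L) (G := fun q x y =>
    ind ((x, y) ∈ P q) * K ε hε t (rsrc Φ ε (exA q.1 x)) (rsrc Φ ε (exA q.2 y)) +
    ind ((x, y) ∈ P q) * K ε hε t (rsrc Φ ε (exA q.2 y)) (rsrc Φ ε (exA q.1 x))) hg
    (fun q => (m1 q).add (m2 q)) mw (fun x y hok hd hs => ?_)
    fun q _ => ?_
  · have hx : x.depth ≤ L := by
      have h2 : max x.depth y.depth + 1 ≤ L := hd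
      omega
    have hy : y.depth ≤ L := by
      have h2 : max x.depth y.depth + 1 ≤ L := hd
      omega
    unfold bE
    rw [Finset.sum_product]
    refine (exsum_le_adr hx _).trans (Finset.sum_le_sum fun p _ => ?_)
    refine (mul_le_mul_right (exsum_le_adr hy _) _).trans ?_
    rw [Finset.mul_sum]
    refine Finset.sum_le_sum fun r _ => ?_
    by_cases hp : isA p x
    · by_cases hr : isA r y
      · have h3 : (x, y) ∈ P (p, r) := by
          rw [hP]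
          exact ⟨hp, hr⟩
        rw [ind_of hp, ind_of hr, ind_of h3, one_mul, one_mul, one_mul, one_mul]
      · rw [ind_of_not hr, zero_mul, mul_zero]
        exact zero_le
    · rw [ind_of_not hp, zero_mul]
      exact zero_le
  · have hfin := GC.isFiniteMeasure_inten (ε := ε) hg
    have hne : ∀ x y, (x, y) ∈ P q → CTree.ok Φ ε (node x y) → exA q.1 x ∈ exs x ∪ exs y ∧
        exA q.2 y ∈ exs x ∪ exs y ∧ exA q.1 x ≠ exA q.2 y := by
      intro x y hm hok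
      rw [hP] at hm
      have e1 := exA_mem hm.1
      have e2 := exA_mem hm.2
      refine ⟨Or.inl e1, Or.inr e2, fun h => ?_⟩
      exact Set.disjoint_left.1 hok.2.2.1 (exs_leaves e1 (exA q.1 x).root_mem_leaves)
        (h ▸ exs_leaves e2 (exA q.2 y).root_mem_leaves)
    have a1 := h1 ε hε hε1 t ht (P q) (fun p => rsrc Φ ε (exA q.1 p.1))
      (fun p => rsrc Φ ε (exA q.2 p.2)) (hPm q) (hu _) (hv _) fun x y hm hok hd hs => by
        obtain ⟨b1, b2, b3⟩ := hne x y hm hok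
        exact mk_pair hΦ hε hok hd hs b1 b2 b3
    have a2 := h1 ε hε hε1 t ht (P q) (fun p => rsrc Φ ε (exA q.2 p.2))
      (fun p => rsrc Φ ε (exA q.1 p.1)) (hPm q) (hv _) (hu _) fun x y hm hok hd hs => by
        obtain ⟨b1, b2, b3⟩ := hne x y hm hok
        exact mk_pair hΦ hε hok hd hs b2 b1 b3.symm
    refine le_trans (le_of_eq ?_) (add_le_add a1 a2)
    rw [← mul_add, ← lintegral_add_two (mw.mul (m1 q))]
    simp only [mul_add]

/-- **[A3], one exhaust and the pair.** -/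
theorem cr3c_kneg (hΦ : IsPotential Φ) (hg : GoodDatum f₀ κ) (hc : 0 < c)
    {R : ∀ ε : ℝ, 0 < ε → ℝ → Src → ℝ≥0∞} (hR : ∀ ε hε t, Measurable (R ε hε t))
    (h : KNeg Φ f₀ b c 2 0 L (N3 L) T₀ fun ε hε t e _ => R ε hε t e) :
    ∃ Dl : ℝ → ℝ≥0∞, Tendsto Dl (𝓝[>] 0) (𝓝 0) ∧ ∀ (ε : ℝ) (hε : 0 < ε), ε ≤ 1 →
      ∀ t ∈ Icc 0 T₀, cr3c Φ ε L f₀ t (R ε hε t) ≤ Dl ε := by
  classical
  obtain ⟨Dl, h0, h1⟩ := kneg_pair hΦ hg hc (fun ε hε t => (hR ε hε t).comp measurable_fst) h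
  refine ⟨fun ε => ((adr L).card : ℝ≥0∞) * Dl ε, ?_, fun ε hε hε1 t ht => ?_⟩
  · have := ENNReal.Tendsto.const_mul (a := ((adr L).card : ℝ≥0∞)) h0
      (Or.inr (ENNReal.natCast_ne_top _))
    rwa [mul_zero] at this
  obtain ⟨P, hP⟩ : ∃ P : List Bool → Set (CTree × CTree), P = fun q =>
    {p | isA q p.1} := ⟨_, rfl⟩
  have hPm : ∀ q, MeasurableSet (P q) := by
    intro q
    rw [hP]
    exact measurable_fst (measurableSet_isA q)
  have hu : ∀ q : List Bool, Measurable fun p : CTree × CTree => rsrc Φ ε (exA q p.1) :=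
    fun q => (measurable_rsrc hΦ hε.ne').comp ((measurable_exA q).comp measurable_fst)
  refine cr3_sum_le (adr L) (G := fun q x y => ind ((x, y) ∈ P q) *
    R ε hε t (rsrc Φ ε (exA q x))) hg (fun q => ?_)
    (measurable_wC hΦ hε measurable_fst measurable_snd) (fun x y hok hd hs => ?_)
    fun q _ => ?_
  · exact (measurable_ind (hPm q)).mul ((hR ε hε t).comp (hu q))
  · have hx : x.depth ≤ L := by
      have h2 : max x.depth y.depth + 1 ≤ L := hd
      omega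
    refine (exsum_le_adr hx _).trans (Finset.sum_le_sum fun p _ => ?_)
    rw [hP]
    exact le_rfl
  · refine h1 ε hε hε1 t ht (P q) (fun p => rsrc Φ ε (exA q p.1))
      (fun p => (sig Φ ε (node p.1 p.2), ln Φ ε p.2, 0)) (hPm q) (hu _) ?_
      fun x y hm hok hd hs => ?_
    · exact ((measurable_sig hΦ hε.ne').comp measurable_node).prodMk
        (((M.measurable_ln hΦ hε.ne').comp measurable_snd).prodMk measurable_const)
    · rw [hP] at hm
      exact mk_old hΦ hε hok hd hs (Or.inl (exA_mem hm))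

/-! ### The instances -/

variable {hΦ : IsPotential Φ} {η θ b' : ℝ} {a : ℕ → ℝ≥0∞} {J m q N : ℕ}

/-- The relevant trees are negligible under the laws of the marked pairs. -/
theorem kneg_rE6 (h : X1 hΦ f₀ b c) (hm : 0 < m) (hT : 0 ≤ T₀) (hη : 0 < η) (hθ : 0 < θ) :
    KNeg Φ f₀ b c m q L N T₀ fun _ hε t e _ => rE6 L hΦ hε f₀ η θ t e :=
  (X1.kneg h hm hT hη hθ).mono fun _ _ _ _ _ => rE6_le_exc6

/-- **[A3], one exhaust and the pair.** -/
theorem cr3c_rE6 (hg : GoodDatum f₀ κ) (hc : 0 < c) (h : X1 hΦ f₀ b c) (hT : 0 ≤ T₀)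
    (hη : 0 < η) (hθ : 0 < θ) (L : ℕ) :
    ∃ Dl : ℝ → ℝ≥0∞, Tendsto Dl (𝓝[>] 0) (𝓝 0) ∧ ∀ (ε : ℝ) (hε : 0 < ε), ε ≤ 1 →
      ∀ t ∈ Icc 0 T₀, cr3c Φ ε L f₀ t (rE6 L hΦ hε f₀ η θ t) ≤ Dl ε :=
  cr3c_kneg (R := fun _ hε t => rE6 L hΦ hε f₀ η θ t) hΦ hg hc (fun _ _ _ => measurable_rE6 hg)
    (kneg_rE6 h two_pos hT hη hθ)

/-- **[A3], both exhausts in one tree.** -/
theorem cr3a_XJt (hg : GoodDatum f₀ κ) (hc : 0 < c)
    (h : KNeg Φ f₀ b c 2 0 L (N3 L) T₀ fun _ hε t e k => XJt L hΦ hε f₀ b' a η θ t J e k) :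
    ∃ Dl : ℝ → ℝ≥0∞, Tendsto Dl (𝓝[>] 0) (𝓝 0) ∧ ∀ (ε : ℝ) (hε : 0 < ε), ε ≤ 1 →
      ∀ t ∈ Icc 0 T₀, cr3a Φ ε L f₀ t (XJt L hΦ hε f₀ b' a η θ t J) ≤ Dl ε :=
  cr3a_kneg (K := fun _ hε t e k => XJt L hΦ hε f₀ b' a η θ t J e k) hΦ hg hc
    (fun _ _ _ => measurable_XJt hg) h

/-- **[A3], one exhaust in each of the trees.** -/
theorem cr3b_XJt (hg : GoodDatum f₀ κ) (hc : 0 < c)
    (h : KNeg Φ f₀ b c 2 0 L (N3 L) T₀ fun _ hε t e k => XJt L hΦ hε f₀ b' a η θ t J e k) :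
    ∃ Dl : ℝ → ℝ≥0∞, Tendsto Dl (𝓝[>] 0) (𝓝 0) ∧ ∀ (ε : ℝ) (hε : 0 < ε), ε ≤ 1 →
      ∀ t ∈ Icc 0 T₀, cr3b Φ ε L f₀ t (XJt L hΦ hε f₀ b' a η θ t J) ≤ Dl ε :=
  cr3b_kneg (K := fun _ hε t e k => XJt L hΦ hε f₀ b' a η θ t J e k) hΦ hg hc
    (fun _ _ _ => measurable_XJt hg) h

end Vale.Agent.P119.PB.C3
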