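import Vale.Agent.P119.PB.Cr1
import Vale.Agent.P119.PB.In8b

/-!
# P119, block PROB, P8: from the crude functionals to `Crude8` (`helper178`)

* `crude8_of`, `crudeP8_of`: if a functional is bounded by a crude functional, and the crude
  functional of the exceptional terms vanishes, then `Crude8` holds;
* **`crude8_P2g`**: the pairs of outgoing lines of one tree.
-/

open MeasureTheory Filter Topology Set ProbabilityTheory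
open scoped ENNReal NNReal

noncomputable section

namespace Vale.Agent.P119.PB

open M CTree KU FB RB AU FL TL

variable {Φ : E3 → ℝ} {hΦ : IsPotential Φ} {f₀ : Ph → ℝ} {κ T b b₀ c : ℝ} {a : ℕ → ℝ≥0∞}

/-- The constant `δ⁻¹` times a bound which vanishes. -/
theorem crude_lim {δ : ℝ≥0∞} (hδ : δ ≠ 0) {Dl : ℝ → ℝ≥0∞} (hD : Tendsto Dl (𝓝[>] 0) (𝓝 0))
    {ρ : ℝ} (hρ : 0 < ρ) : ∀ᶠ ε in 𝓝[>] (0 : ℝ), 0 < ε ∧ ε ≤ 1 ∧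
      δ⁻¹ * Dl ε ≤ ENNReal.ofReal ρ := by
  have h1 : Tendsto (fun ε => δ⁻¹ * Dl ε) (𝓝[>] 0) (𝓝 (δ⁻¹ * 0)) :=
    ENNReal.Tendsto.const_mul hD (Or.inr (ENNReal.inv_ne_top.2 hδ))
  rw [mul_zero] at h1
  have h2 : ∀ᶠ ε in 𝓝[>] (0 : ℝ), δ⁻¹ * Dl ε ≤ ENNReal.ofReal ρ :=
    h1.eventually (Iic_mem_nhds (ENNReal.ofReal_pos.2 hρ))
  filter_upwards [h2, self_mem_nhdsWithin, Ioc_mem_nhdsGT one_pos] with ε h3 h4 h5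
  exact ⟨h4, h5.2, h3⟩

/-- **From the crude functional to `Crude8`.** -/
theorem crude8_of (h₀ : GoodDatum f₀ κ) {𝔉 : Fun8}
    {cr : (L : ℕ) → (ε : ℝ) → 0 < ε → ℝ → (Src → Src → ℝ≥0∞) → ℝ≥0∞}
    (hle : ∀ L ε hε t ψ C K, MW ψ → C ≠ ∞ → ExpLe f₀ ε ψ C K →
      𝔉 L ε hε t ψ ≤ C * cr L ε hε t K)
    (hlim : ∀ (L J : ℕ) (η θ : ℝ), 0 < η → 0 < θ →
      ∃ Dl : ℝ → ℝ≥0∞, Tendsto Dl (𝓝[>] 0) (𝓝 0) ∧ ∀ (ε : ℝ) (hε : 0 < ε), ε ≤ 1 →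
        ∀ t ∈ Icc 0 T, cr L ε hε t (XJt L hΦ hε f₀ b a η θ t J) ≤ Dl ε) :
    Crude8 hΦ f₀ T b a 𝔉 := by
  refine Eventually.of_forall fun L η η' θ hη hηη hη' hθ J δ hδ hδ' ρ hρ => ?_
  obtain ⟨Dl, hD, h1⟩ := hlim L J η' θ (hη.trans hηη) hθ
  filter_upwards [crude_lim hδ hD hρ] with ε h2 hε t ht
  refine (hle L ε hε t _ δ⁻¹ _ (MW_gIB h₀) (ENNReal.inv_ne_top.2 hδ) fun e m =>
    lintegral_gIB_le_t ht.1 hη hηη.le hδ hδ' e m).trans ?_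
  exact (mul_le_mul' le_rfl (h1 ε hε h2.2.1 t ht)).trans h2.2.2

/-- **From the crude functional to `CrudeP8`.** -/
theorem crudeP8_of (h₀ : GoodDatum f₀ κ) {𝔉 : FunP8}
    {cr : (L : ℕ) → (ε : ℝ) → 0 < ε → ℝ → (Src → ℝ≥0∞) → ℝ≥0∞}
    (hle : ∀ L ε hε t φ C R, MWp φ → C ≠ ∞ → ExpLe1 f₀ ε φ C R →
      𝔉 L ε hε t φ ≤ C * cr L ε hε t R)
    (hlim : ∀ (L : ℕ) (η θ : ℝ), 0 < η → 0 < θ →
      ∃ Dl : ℝ → ℝ≥0∞, Tendsto Dl (𝓝[>] 0) (𝓝 0) ∧ ∀ (ε : ℝ) (hε : 0 < ε), ε ≤ 1 →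
        ∀ t ∈ Icc 0 T, cr L ε hε t (rE6 L hΦ hε f₀ η θ t) ≤ Dl ε) :
    CrudeP8 hΦ f₀ T 𝔉 := by
  refine Eventually.of_forall fun L η η' θ hη hηη hη' hθ δ hδ hδ' ρ hρ => ?_
  obtain ⟨Dl, hD, h1⟩ := hlim L η' θ (hη.trans hηη) hθ
  filter_upwards [crude_lim hδ hD hρ] with ε h2 hε t ht
  refine (hle L ε hε t _ δ⁻¹ _ (MWp_pIB h₀) (ENNReal.inv_ne_top.2 hδ) fun e σ z' =>
    lintegral_pIB_le ht.1 hη hηη.le hδ hδ' e σ z').trans ?_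
  exact (mul_le_mul' le_rfl (h1 ε hε h2.2.1 t ht)).trans h2.2.2

/-- **The pairs of outgoing lines of one tree.** -/
theorem crude8_P2g (h₀ : GoodDatum f₀ κ) (hT : 0 ≤ T) (hc : 0 < c)
    (hX : IND.X1J hΦ f₀ b₀ c b) (ha : ∑' n, a n ≠ ∞) :
    Crude8 hΦ f₀ T b a fun L ε _ t ψ => P2g Φ ε L f₀ t ψ :=
  crude8_of h₀ (cr := fun L ε _ t K => cr1 Φ ε L f₀ t K)
    (fun _ _ hε _ _ _ _ hψ hC hK => P2g_le_cr h₀ hΦ hε hψ hC hK)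
    fun L J _ _ hη hθ => cr1_lim h₀ hc hX L J a ha hT hη hθ

end Vale.Agent.P119.PB
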