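import Vale.Agent.P119.PB.In8d

/-!
# P119, block PROB, P8: the crude laws and the six functionals (`helper336`)

* `Cr8`: the crude laws of the exceptional terms, small for fixed `L`;
* `crude_fP2`, .., `crudeP_f9c`: the functionals on the exceptional pairs;
* `forP_fXp`, `forP_f9c`: additivity and monotonicity;
* `in8_of_laws`: P8 from the laws.
-/

open MeasureTheory Filter Topology Set ProbabilityTheory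
open scoped ENNReal NNReal

noncomputable section

namespace Vale.Agent.P119.PB

open M CTree KU FB RB AU FL TL

/-- **The crude laws of P8** are small, for fixed depth `L`, uniformly in the time. -/
structure Cr8 {Φ : E3 → ℝ} (hΦ : IsPotential Φ) (f₀ : Ph → ℝ) (T b b' : ℝ) (a : ℕ → ℝ≥0∞) :
    Prop where
  c1 : ∀ᶠ L in atTop, ∀ η θ : ℝ, 0 < η → η ≤ 1 → 0 < θ → ∀ J : ℕ, ∀ ρ : ℝ, 0 < ρ →
    ∀ᶠ ε in 𝓝[>] (0 : ℝ), ∀ hε : 0 < ε, ∀ t ∈ Icc 0 T,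
      cr1 Φ ε L f₀ t (XJt L hΦ hε f₀ b a η θ t J) ≤ ENNReal.ofReal ρ
  c2 : ∀ᶠ L in atTop, ∀ η θ : ℝ, 0 < η → η ≤ 1 → 0 < θ → ∀ J : ℕ, ∀ ρ : ℝ, 0 < ρ →
    ∀ᶠ ε in 𝓝[>] (0 : ℝ), ∀ hε : 0 < ε, ∀ t ∈ Icc 0 T, ∀ n : ℕ,
      cr2 Φ ε L f₀ b' t (XJt L hΦ hε f₀ b a η θ t J) n ≤ ENNReal.ofReal ρ
  c2p : ∀ᶠ L in atTop, ∀ η θ : ℝ, 0 < η → η ≤ 1 → 0 < θ → ∀ ρ : ℝ, 0 < ρ →
    ∀ᶠ ε in 𝓝[>] (0 : ℝ), ∀ hε : 0 < ε, ∀ t ∈ Icc 0 T,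
      cr2p Φ ε L f₀ b' t (rE6 L hΦ hε f₀ η θ t) ≤ ENNReal.ofReal ρ
  c3a : ∀ᶠ L in atTop, ∀ η θ : ℝ, 0 < η → η ≤ 1 → 0 < θ → ∀ J : ℕ, ∀ ρ : ℝ, 0 < ρ →
    ∀ᶠ ε in 𝓝[>] (0 : ℝ), ∀ hε : 0 < ε, ∀ t ∈ Icc 0 T,
      cr3a Φ ε L f₀ t (XJt L hΦ hε f₀ b a η θ t J) ≤ ENNReal.ofReal ρ
  c3b : ∀ᶠ L in atTop, ∀ η θ : ℝ, 0 < η → η ≤ 1 → 0 < θ → ∀ J : ℕ, ∀ ρ : ℝ, 0 < ρ →
    ∀ᶠ ε in 𝓝[>] (0 : ℝ), ∀ hε : 0 < ε, ∀ t ∈ Icc 0 T,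
      cr3b Φ ε L f₀ t (XJt L hΦ hε f₀ b a η θ t J) ≤ ENNReal.ofReal ρ
  c3c : ∀ᶠ L in atTop, ∀ η θ : ℝ, 0 < η → η ≤ 1 → 0 < θ → ∀ ρ : ℝ, 0 < ρ →
    ∀ᶠ ε in 𝓝[>] (0 : ℝ), ∀ hε : 0 < ε, ∀ t ∈ Icc 0 T,
      cr3c Φ ε L f₀ t (rE6 L hΦ hε f₀ η θ t) ≤ ENNReal.ofReal ρ

variable {Φ : E3 → ℝ} {hΦ : IsPotential Φ} {f₀ : Ph → ℝ} {κ T b b' b₀ l₁ l₂ Q : ℝ}
  {m α a : ℕ → ℝ} {a₈ : ℕ → ℝ≥0∞}
  {D Θ F : ℕ → ℝ → ℝ → ℝ → ℝ≥0∞} {W : ℕ → ℝ → ℝ → ℝ → ℝ → ℝ≥0∞}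

theorem exists_inv_mul_le {δ₁ : ℝ≥0∞} (h0 : δ₁ ≠ 0) (ht : δ₁ ≠ ∞) {ρ : ℝ} (hρ : 0 < ρ) :
    ∃ ρ' : ℝ, 0 < ρ' ∧ δ₁⁻¹ * ENNReal.ofReal ρ' ≤ ENNReal.ofReal ρ := by
  have h1 : 0 < δ₁.toReal := ENNReal.toReal_pos h0 ht
  refine ⟨δ₁.toReal * ρ, mul_pos h1 hρ, ?_⟩
  rw [ENNReal.ofReal_mul h1.le, ENNReal.ofReal_toReal ht, ← mul_assoc,
    ENNReal.inv_mul_cancel h0 ht, one_mul]

/-- The weights of the norm are summable. -/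
theorem tsum_wgt8_ne_top {α a : ℕ → ℝ} {Q : ℝ} (hw : Wts α a Q) (l₁ l₂ T : ℝ) :
    ∑' n, ENNReal.ofReal (wgt l₁ l₂ a T n) ≠ ∞ := by
  obtain ⟨B, hB⟩ := hw.w3 (l₁ * T + 1)
  have hs : Summable fun n : ℕ => (B * Real.exp (l₂ * T)) * Real.exp (-1) ^ n :=
    (summable_geometric_of_lt_one (Real.exp_nonneg _) (by simp)).mul_left _
  refine ne_top_of_le_ne_top hs.tsum_ofReal_ne_top (ENNReal.tsum_le_tsum fun n =>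
    ENNReal.ofReal_le_ofReal ?_)
  unfold wgt
  have e1 : Real.exp ((l₁ * n + l₂) * T) = Real.exp ((l₁ * T + 1) * n) *
      (Real.exp (l₂ * T) * Real.exp (-1) ^ n) := by
    rw [← Real.exp_nat_mul, ← Real.exp_add, ← Real.exp_add]
    congr 1
    ring
  rw [e1, ← mul_assoc, mul_assoc B]
  exact mul_le_mul_of_nonneg_right (hB n) (by positivity)

theorem crude_fP2 (h₀ : GoodDatum f₀ κ) (h : Cr8 hΦ f₀ T b b' a₈) :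
    Crude8 hΦ f₀ T b a₈ (fP2 Φ f₀) := by
  filter_upwards [h.c1] with L hL η η' θ h1 h2 h3 hθ J δ₁ hδ hδ' ρ hρ
  obtain ⟨ρ', hρ', hle⟩ := exists_inv_mul_le hδ hδ' hρ
  filter_upwards [hL η' θ (h1.trans h2) h3 hθ J ρ' hρ'] with ε hε' hε t ht
  refine le_trans ?_ ((mul_le_mul' le_rfl (hε' hε t ht)).trans hle)
  exact P2g_le_cr h₀ hΦ hε (MW_gIB h₀) (ENNReal.inv_ne_top.2 hδ)
    fun e m => lintegral_gIB_le_t ht.1 h1 h2.le hδ hδ' e m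

theorem crude_fFX (h₀ : GoodDatum f₀ κ) (hw : Wts α a Q) (h : Cr8 hΦ f₀ T b (b' / 2) a₈) :
    Crude8 hΦ f₀ T b a₈ (fFX Φ f₀ T b' l₁ l₂ a) := by
  have hS := tsum_wgt8_ne_top hw l₁ l₂ T
  set S : ℝ≥0∞ := ∑' n, ENNReal.ofReal (wgt l₁ l₂ a T n) with hSd
  have hS1 : S + 1 ≠ ∞ := ENNReal.add_ne_top.2 ⟨hS, ENNReal.one_ne_top⟩
  filter_upwards [h.c2] with L hL η η' θ h1 h2 h3 hθ J δ₁ hδ hδ' ρ hρ
  have hd0 : δ₁ / (S + 1) ≠ 0 := ENNReal.div_ne_zero.2 ⟨hδ, hS1⟩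
  have hdt : δ₁ / (S + 1) ≠ ∞ := ENNReal.div_ne_top hδ' (by simp)
  obtain ⟨ρ', hρ', hle⟩ := exists_inv_mul_le hd0 hdt hρ
  filter_upwards [hL η' θ (h1.trans h2) h3 hθ J ρ' hρ'] with ε hε' hε t ht
  have k1 : ∀ n, FXg Φ ε L f₀ (b' / 2) t (gIB L hΦ hε f₀ b a₈ η η' θ t J δ₁) n ≤
      δ₁⁻¹ * ENNReal.ofReal ρ' := fun n =>
    (FXg_le_cr h₀ hΦ hε (MW_gIB h₀) (ENNReal.inv_ne_top.2 hδ)
      (fun e m => lintegral_gIB_le_t ht.1 h1 h2.le hδ hδ' e m) n).trans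
      (mul_le_mul' le_rfl (hε' hε t ht n))
  calc fFX Φ f₀ T b' l₁ l₂ a L ε hε t (gIB L hΦ hε f₀ b a₈ η η' θ t J δ₁)
      ≤ ∑' n, ENNReal.ofReal (wgt l₁ l₂ a T n) * (δ₁⁻¹ * ENNReal.ofReal ρ') :=
        ENNReal.tsum_le_tsum fun n => mul_le_mul' le_rfl (k1 n)
    _ = S * (δ₁⁻¹ * ENNReal.ofReal ρ') := ENNReal.tsum_mul_right
    _ ≤ (S + 1) * (δ₁⁻¹ * ENNReal.ofReal ρ') := mul_le_mul' le_self_add le_rfl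
    _ = (δ₁ / (S + 1))⁻¹ * ENNReal.ofReal ρ' := by
        rw [ENNReal.inv_div (Or.inl hS1) (Or.inl (by simp)), div_eq_mul_inv]
        ring
    _ ≤ _ := hle

theorem crude_f9a (h₀ : GoodDatum f₀ κ) (h : Cr8 hΦ f₀ T b b' a₈) :
    Crude8 hΦ f₀ T b a₈ (f9a Φ f₀) := by
  filter_upwards [h.c3a] with L hL η η' θ h1 h2 h3 hθ J δ₁ hδ hδ' ρ hρ
  obtain ⟨ρ', hρ', hle⟩ := exists_inv_mul_le hδ hδ' hρ
  filter_upwards [hL η' θ (h1.trans h2) h3 hθ J ρ' hρ'] with ε hε' hε t ht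
  refine le_trans ?_ ((mul_le_mul' le_rfl (hε' hε t ht)).trans hle)
  exact P9a_le_cr h₀ hΦ hε (MW_gIB h₀) (ENNReal.inv_ne_top.2 hδ)
    fun e m => lintegral_gIB_le_t ht.1 h1 h2.le hδ hδ' e m

theorem crude_f9b (h₀ : GoodDatum f₀ κ) (h : Cr8 hΦ f₀ T b b' a₈) :
    Crude8 hΦ f₀ T b a₈ (f9b Φ f₀) := by
  filter_upwards [h.c3b] with L hL η η' θ h1 h2 h3 hθ J δ₁ hδ hδ' ρ hρ
  obtain ⟨ρ', hρ', hle⟩ := exists_inv_mul_le hδ hδ' hρ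
  filter_upwards [hL η' θ (h1.trans h2) h3 hθ J ρ' hρ'] with ε hε' hε t ht
  refine le_trans ?_ ((mul_le_mul' le_rfl (hε' hε t ht)).trans hle)
  exact P9b_le_cr h₀ hΦ hε (MW_gIB h₀) (ENNReal.inv_ne_top.2 hδ)
    fun e m => lintegral_gIB_le_t ht.1 h1 h2.le hδ hδ' e m

theorem crudeP_fXp (h₀ : GoodDatum f₀ κ) (h : Cr8 hΦ f₀ T b (b' / 2) a₈) :
    CrudeP8 hΦ f₀ T (fXp Φ f₀ b') := by
  filter_upwards [h.c2p] with L hL η η' θ h1 h2 h3 hθ δ₁ hδ hδ' ρ hρ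
  obtain ⟨ρ', hρ', hle⟩ := exists_inv_mul_le hδ hδ' hρ
  filter_upwards [hL η' θ (h1.trans h2) h3 hθ ρ' hρ'] with ε hε' hε t ht
  refine le_trans ?_ ((mul_le_mul' le_rfl (hε' hε t ht)).trans hle)
  exact FXp_le_cr h₀ hΦ hε (MWp_pIB h₀) (ENNReal.inv_ne_top.2 hδ)
    fun e σ z' => lintegral_pIB_le ht.1 h1 h2.le hδ hδ' e σ z'

theorem crudeP_f9c (h₀ : GoodDatum f₀ κ) (h : Cr8 hΦ f₀ T b b' a₈) :
    CrudeP8 hΦ f₀ T (f9c Φ f₀) := by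
  filter_upwards [h.c3c] with L hL η η' θ h1 h2 h3 hθ δ₁ hδ hδ' ρ hρ
  obtain ⟨ρ', hρ', hle⟩ := exists_inv_mul_le hδ hδ' hρ
  filter_upwards [hL η' θ (h1.trans h2) h3 hθ ρ' hρ'] with ε hε' hε t ht
  refine le_trans ?_ ((mul_le_mul' le_rfl (hε' hε t ht)).trans hle)
  exact P9c_le_cr h₀ hΦ hε (MWp_pIB h₀) (ENNReal.inv_ne_top.2 hδ)
    fun e σ z' => lintegral_pIB_le ht.1 h1 h2.le hδ hδ' e σ z'

/-! ### Additivity -/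

theorem forP_fXp (h₀ : GoodDatum f₀ κ) (hΦ : IsPotential Φ) : ForP8 (fXp Φ f₀ b) where
  add := fun _ _ hε _ _ _ hφ _ => (FXp_add h₀ hΦ hε hφ).le
  mono := fun L ε _ t φ φ' h => by
    change FXp Φ ε L f₀ (b / 2) t φ ≤ FXp Φ ε L f₀ (b / 2) t φ'
    unfold FXp
    refine lintegral_mono fun z => mul_le_mul' le_rfl (XX_mono fun V S _ => ?_)
    unfold fxpI
    exact mul_le_mul' le_rfl (exsum_mono fun x _ => h _ _ _ _)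

theorem forP_f9c (h₀ : GoodDatum f₀ κ) (hΦ : IsPotential Φ) : ForP8 (f9c Φ f₀) where
  add := fun _ _ hε _ _ _ hφ _ => (P9c_add h₀ hΦ hε hφ).le
  mono := fun _ _ _ _ _ _ h => P9c_mono h

/-- Additivity of the functionals. -/
theorem add_fP2 (h₀ : GoodDatum f₀ κ) (hΦ : IsPotential Φ) (L : ℕ) (ε : ℝ) (hε : 0 < ε) (t : ℝ)
    (ψ ψ' : Finset Src → Src → Src → ℝ≥0∞) (hψ : MW ψ) :
    fP2 Φ f₀ L ε hε t (fun V e m => ψ V e m + ψ' V e m) ≤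
      fP2 Φ f₀ L ε hε t ψ + fP2 Φ f₀ L ε hε t ψ' := (P2g_add h₀ hΦ hε hψ).le

theorem add_fFX (h₀ : GoodDatum f₀ κ) (hΦ : IsPotential Φ) (L : ℕ) (ε : ℝ) (hε : 0 < ε) (t : ℝ)
    (ψ ψ' : Finset Src → Src → Src → ℝ≥0∞) (hψ : MW ψ) :
    fFX Φ f₀ T b l₁ l₂ a L ε hε t (fun V e m => ψ V e m + ψ' V e m) ≤
      fFX Φ f₀ T b l₁ l₂ a L ε hε t ψ + fFX Φ f₀ T b l₁ l₂ a L ε hε t ψ' := by
  unfold fFX
  rw [← ENNReal.tsum_add]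
  refine ENNReal.tsum_le_tsum fun n => ?_
  rw [FXg_add h₀ hΦ hε hψ n, mul_add]

theorem add_f9a (h₀ : GoodDatum f₀ κ) (hΦ : IsPotential Φ) (L : ℕ) (ε : ℝ) (hε : 0 < ε) (t : ℝ)
    (ψ ψ' : Finset Src → Src → Src → ℝ≥0∞) (hψ : MW ψ) :
    f9a Φ f₀ L ε hε t (fun V e m => ψ V e m + ψ' V e m) ≤
      f9a Φ f₀ L ε hε t ψ + f9a Φ f₀ L ε hε t ψ' := (P9a_add h₀ hΦ hε hψ).le

theorem add_f9b (h₀ : GoodDatum f₀ κ) (hΦ : IsPotential Φ) (L : ℕ) (ε : ℝ) (hε : 0 < ε) (t : ℝ)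
    (ψ ψ' : Finset Src → Src → Src → ℝ≥0∞) (hψ : MW ψ) :
    f9b Φ f₀ L ε hε t (fun V e m => ψ V e m + ψ' V e m) ≤
      f9b Φ f₀ L ε hε t ψ + f9b Φ f₀ L ε hε t ψ' := (P9b_add h₀ hΦ hε hψ).le

/-! ### Finitely many laws and a constant -/

/-- **A functional which is bounded by a constant times the sum over a list of laws.** -/
structure ForC8 (f₀ : Ph → ℝ) (T : ℝ) (𝔉 : Fun8) (C : ℝ≥0∞) (lams : List Lam8) : Prop where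
  add : ∀ L ε hε t ψ ψ', MW ψ → MW ψ' →
    𝔉 L ε hε t (fun V e m => ψ V e m + ψ' V e m) ≤ 𝔉 L ε hε t ψ + 𝔉 L ε hε t ψ'
  le : ∀ᶠ L in atTop, ∀ ρ : ℝ, 0 < ρ → ∀ᶠ ε in 𝓝[>] (0 : ℝ), ∀ hε : 0 < ε, ∀ t ∈ Icc 0 T,
    ∀ ψ : Finset Src → Src → Src → ℝ≥0∞, MW ψ → (∀ V e m, ψ V e m ≤ 1) →
      𝔉 L ε hε t ψ ≤ C * (lams.map fun lam => ∫⁻ c, ∫⁻ x, ψ (wS (GC.pts c)) x.1 x.2
        ∂(lam L ε hε t) ∂(GC.PP f₀ ε)).sum + ENNReal.ofReal ρ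

/-- **The bound of a functional at the second events**, for a list of laws and a constant. -/
theorem ok8_of_list (h₀ : GoodDatum f₀ κ) (hC : Cap8 Φ f₀ T b m) {lams : List Lam8}
    (hL : ∀ lam ∈ lams, Law8 hΦ f₀ T b (a8 T m) D Θ F W lam) {𝔉 : Fun8} {C : ℝ≥0∞}
    (hCt : C ≠ ∞) (hF : ForC8 f₀ T 𝔉 C lams) (hcr : Crude8 hΦ f₀ T b (a8 T m) 𝔉) :
    Ok8 T D Θ F W fun L η ε hε t => 𝔉 L ε hε t (gI L hΦ hε η t) := by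
  set C' : ℝ≥0∞ := C + 1 with hC'
  have h0 : C' ≠ 0 := by simp [hC']
  have ht : C' ≠ ∞ := ENNReal.add_ne_top.2 ⟨hCt, ENNReal.one_ne_top⟩
  have hCC : C ≤ C' := le_self_add
  have hi1 : C'⁻¹ ≤ 1 := ENNReal.inv_le_one.2 (le_add_self)
  set 𝔊 : Fun8 := fun L ε hε t ψ => C'⁻¹ * 𝔉 L ε hε t ψ with h𝔊
  have key : Ok8 T D Θ F W fun L η ε hε t => 𝔊 L ε hε t (gI L hΦ hε η t) := by
    refine ok8_of_laws (ι := Fin lams.length) (lam := fun i => lams.get i) h₀ hC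
      (fun i => hL _ (List.get_mem lams i)) ⟨?_, ?_⟩ ?_
    · intro L ε hε t ψ ψ' hψ hψ'
      change C'⁻¹ * _ ≤ C'⁻¹ * _ + C'⁻¹ * _
      rw [← mul_add]
      exact mul_le_mul' le_rfl (hF.add L ε hε t ψ ψ' hψ hψ')
    · filter_upwards [hF.le] with L hL ρ hρ
      filter_upwards [hL ρ hρ] with ε hε' hε t ht' ψ hψ hψ1
      have h1 := hε' hε t ht' ψ hψ hψ1
      have e1 : (lams.map fun lam => ∫⁻ c, ∫⁻ x, ψ (wS (GC.pts c)) x.1 x.2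
          ∂(lam L ε hε t) ∂(GC.PP f₀ ε)).sum =
          ∑ i : Fin lams.length, ∫⁻ c, ∫⁻ x, ψ (wS (GC.pts c)) x.1 x.2
            ∂((lams.get i) L ε hε t) ∂(GC.PP f₀ ε) := by
        rw [← List.sum_ofFn]
        congr 1
        exact List.ext_get (by simp) fun n h1 h2 => by simp
      rw [e1] at h1
      calc C'⁻¹ * 𝔉 L ε hε t ψ ≤ C'⁻¹ * (C' * (∑ i : Fin lams.length, ∫⁻ c, ∫⁻ x,
            ψ (wS (GC.pts c)) x.1 x.2 ∂((lams.get i) L ε hε t) ∂(GC.PP f₀ ε)) +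
            ENNReal.ofReal ρ) :=
            mul_le_mul' le_rfl (h1.trans (add_le_add (mul_le_mul' hCC le_rfl) le_rfl))
        _ = (C'⁻¹ * C') * (∑ i : Fin lams.length, ∫⁻ c, ∫⁻ x,
            ψ (wS (GC.pts c)) x.1 x.2 ∂((lams.get i) L ε hε t) ∂(GC.PP f₀ ε)) +
            C'⁻¹ * ENNReal.ofReal ρ := by ring
        _ ≤ _ := by
            rw [ENNReal.inv_mul_cancel h0 ht, one_mul]
            exact add_le_add le_rfl ((mul_le_mul' hi1 le_rfl).trans (one_mul _).le)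
    · filter_upwards [hcr] with L hL η η' θ h1 h2 h3 hθ J δ₁ hδ hδ' ρ hρ
      filter_upwards [hL η η' θ h1 h2 h3 hθ J δ₁ hδ hδ' ρ hρ] with ε hε' hε t ht'
      exact ((mul_le_mul' hi1 le_rfl).trans (one_mul _).le).trans (hε' hε t ht')
  refine (key.const_mul ht).mono' fun L η _ ε hε t _ => ?_
  change _ ≤ C' * (C'⁻¹ * _)
  rw [← mul_assoc, ENNReal.mul_inv_cancel h0 ht, one_mul]

end Vale.Agent.P119.PB
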