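import Vale.Agent.P119.PB.Cr1
import Vale.Agent.P119.PB.Cr2
import Vale.Agent.P119.PB.Cr3b
import Vale.Agent.P119.PB.RE6
import Vale.Agent.P119.PB.In8e

/-!
# P119, block PROB, P8: all the crude laws (`helper178`)

* `cr8_of_x1J`, **`cr8_of_x1`**: the crude laws `Cr8` from `X1` at the exponent `b` of the norm.
-/

open MeasureTheory Filter Topology Set ProbabilityTheory
open scoped ENNReal NNReal

noncomputable section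

namespace Vale.Agent.P119.PB

open M CTree KU FB RB AU FL TL

variable {Φ : E3 → ℝ} {hΦ : IsPotential Φ} {f₀ : Ph → ℝ} {κ T b b₀ c l₁ l₂ Q M₀ : ℝ}
  {m α a : ℕ → ℝ}

theorem cr8_of_x1J {a₈ : ℕ → ℝ≥0∞} {b₁ b' β : ℝ} (hg : GoodDatum f₀ κ) (hT : 0 ≤ T)
    (hb₀ : 0 < b₀) (hM : 0 ≤ M₀) (hf : ∀ z, f₀ z ≤ M₀ * Real.exp (-b₀ * ‖z.2‖ ^ 2))
    (hx : ∀ v : E3, ∫⁻ x : E3, ENNReal.ofReal (f₀ (x, v)) ≤
      ENNReal.ofReal (M₀ * Real.exp (-b₀ * ‖v‖ ^ 2)))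
    (ha : ∑' n, a₈ n ≠ ∞) (hc : 0 < c) (hβ : 0 < β) (hbβ : b₁ ≤ β + c)
    (hX : IND.X1J hΦ f₀ b₁ c b') : Cr8 hΦ f₀ T b' β a₈ where
  c1 := Eventually.of_forall fun L η θ hη _ hθ J ρ hρ =>
    C3.ev_of_lim (F := fun ε hε t => cr1 Φ ε L f₀ t (XJt L hΦ hε f₀ b' a₈ η θ t J))
      (cr1_lim hg hc hX L J a₈ ha hT hη hθ) ρ hρ
  c2 := Eventually.of_forall fun L _ _ hη _ hθ J _ hρ =>
    C2.cr2_small hg hc.le hbβ hX hT L ha hη hθ J hρ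
  c2p := Eventually.of_forall fun L η _ _ _ hθ _ hρ =>
    (RE.cr2p_lim hg hΦ hb₀ hβ hM hf hM hx hT L hθ hρ).mono fun _ h hε t ht => h hε t ht η
  c3a := Eventually.of_forall fun L => C3.c3a_of_x1J hg hc hX hT ha L
  c3b := Eventually.of_forall fun L => C3.c3b_of_x1J hg hc hX hT ha L
  c3c := Eventually.of_forall fun L η _ _ _ hθ _ hρ =>
    (RE.cr3c_lim hg hΦ hb₀ hM hf hM hx hT L hθ hρ).mono fun _ h hε t ht => h hε t ht η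

/-- **The crude laws of P8 from `X1`**, at the exponent of the norm. -/
theorem cr8_of_x1 (hP : Par T b₀ m b l₁ l₂ Q α a) (hg : GoodDatum f₀ κ) (hM : 0 ≤ M₀)
    (hf : ∀ z, f₀ z ≤ M₀ * Real.exp (-b₀ * ‖z.2‖ ^ 2))
    (hx : ∀ v : E3, ∫⁻ x : E3, ENNReal.ofReal (f₀ (x, v)) ≤
      ENNReal.ofReal (M₀ * Real.exp (-b₀ * ‖v‖ ^ 2)))
    (hX : IND.X1 hΦ f₀ b (b / 2)) : Cr8 hΦ f₀ T (b₀ / 2) (b / 2) (a8 T m) := by
  have hb := hP.b0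
  have hb₀ := hP.b₀0
  have h1 : b ≤ b₀ / 2 + b / 2 := by
    rw [hP.hb]
    linarith
  exact cr8_of_x1J hg hP.T0.le hb₀ hM hf hx (tsum_a8_ne_top' hP.msup) (half_pos hb) (half_pos hb)
    (by linarith) (IND.x1J_of_x1 hg h1 hX)

end Vale.Agent.P119.PB
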