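import Vale.Agent.P119.PB.ContCre2
import Vale.Agent.P119.PB.ContCre4
import Vale.Agent.P119.PB.ContCount2
import Vale.Agent.P119.PB.Int5
import Vale.Agent.P119.PB.ContInt
import Vale.Agent.P119.PB.Pt5
import Vale.Agent.P119.FB.Unfelt

/-!
# P119, block PROB, P9 (contamination): creation, the exceptional events (`helper456`)

* `exl_cases`: the exceptional contacts of a line are those of P5 (`Irr`, `NoExc`);
* `ovl_cases`: over-depth;
* `cef_le`, `cep_le`: creation is bounded by the exceptional events.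
-/

open MeasureTheory Filter Topology Set
open scoped ENNReal NNReal

noncomputable section

namespace Vale.Agent.P119.PB

open M CTree KU RB FB AU

variable {Φ : E3 → ℝ} {ε : ℝ} {L : ℕ} {hΦ : IsPotential Φ} {hε : 0 < ε}
  {U W : Finset Src} {l : Src} {s t τ : ℝ} {x y S T : CTree}

/-- A regular hit is one of the hits of `helper347`. -/
theorem RegHit.hitC (h : PB.RegHit Φ ε L U l s T) (hs : s ≤ t) : HitC Φ ε L t U l T := by
  refine ⟨h.meets, ?_, ?_, h.ext_lt.le.trans hs, alive_anti h.alive h.ext_lt.le le_rfl⟩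
  · rw [h.time]; exact h.birth
  · rw [h.time]; exact hs

theorem RegHit.mem_trs (h : PB.RegHit Φ ε L U l s T) : T ∈ trs L U := by
  have h3 := alive_pre h.alive
  exact PB.mem_trs.2 ⟨h3.sub, h3.depth⟩

theorem RegHit.hitA (h : PB.RegHit Φ ε L U l s T) : HitA Φ ε L l (rm U T) T := by
  refine ⟨?_, ?_⟩
  · rw [h.time]; exact h.ext_lt
  · rw [h.time, addT_rm (alive_pre h.alive).sub]; exact h.alive

/-- **The exceptional contacts of a line** are those of P5. -/
theorem exl_cases (hΦ : IsPotential Φ) (hε : 0 < ε) (h : ExL Φ ε L U l t) :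
    Irr Φ ε L U l t ∨ ∃ T ∈ trs L U, HitC Φ ε L t U l T ∧ HitA Φ ε L l (rm U T) T ∧
      ¬NoExc Φ ε L t l (rm U T) T := by
  rcases h with h | ⟨T, s, hs, h1, h2⟩ | ⟨T, S, s, hs, h1, h2, h3⟩
  · exact Or.inl h
  · refine Or.inr ⟨T, h1.mem_trs, h1.hitC hs, h1.hitA, fun hN => h2 ?_⟩
    exact (exits_swap hΦ (ln Φ ε T, l.2.1)).2 hN.exits
  · refine Or.inr ⟨T, h1.mem_trs, h1.hitC hs, h1.hitA, fun hN => hN.tri ?_⟩
    have hsub : T.leaves ⊆ (U : Set Src) := (alive_pre h1.alive).sub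
    have hm : Meets ε (ln Φ ε T, l.2.1) := (meets_swap (l.2.1, ln Φ ε T)).2 h1.meets
    have e1 : hitT ε (ln Φ ε T, l.2.1) = s := (hitT_swap (l.2.1, ln Φ ε T)).trans h1.time
    have e2 : sig Φ ε (node T (leaf l)) = s := e1
    rw [addT_rm hsub]
    have hS : alive Φ ε L (U : Set Src) S s ∧ ext Φ ε S ≤ s := by
      rcases h3 with h3 | ⟨h3, h4⟩
      · exact ⟨h3.alive, h3.ext_lt.le⟩
      · exact ⟨h3, hit_ext_le h4⟩
    have hSl : live Φ ε L (U : Set Src) S s := ((alive_iff_live hΦ hε U.finite_toSet).1 hS.1).1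
    have e3 : st Φ ε S s = KU.free s (ln Φ ε S) := st_after hΦ hε hSl.ok hS.2
    refine ⟨s, hs, e2.le, ?_, S, hSl, h2, ?_⟩
    · rw [← e2]
      change hitT ε (ln Φ ε T, l.2.1) < sepT Φ ε (ln Φ ε T, l.2.1)
      exact hitT_lt_sepT hΦ hε hN.exits hm.2
    · rw [e3]
      rcases h3 with h3 | ⟨h3, h4⟩
      · right; right
        have e4 : (pairLine Φ ε (ln Φ ε T, l.2.1) s) =
            (KU.free s (ln Φ ε T), KU.free s l.2.1) :=
          pairLine_before hΦ hε (q := (ln Φ ε T, l.2.1)) hm.1 hm.2.le e1.ge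
        rw [e4]
        have h5 := ctc_hitT hε h3.meets
        rw [h3.time] at h5
        exact h5
      · left
        exact ((hit_after hΦ hε (alive_pre h1.alive).ok h1.ext_lt.le).1 h4).2.2

/-- **Over-depth**: one of the two trees has the maximal depth. -/
theorem ovl_cases (h : OvL Φ ε L U l t) (hl : l.2.2 ≤ L) :
    l.2.2 = L ∨ ∃ T ∈ trs L U, HitC Φ ε L t U l T ∧ T.depth = L := by
  obtain ⟨T, h1, h2, h3⟩ := h.hitC
  have h4 := (PB.mem_trs.1 h1).2
  rcases le_total l.2.2 T.depth with h5 | h5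
  · rw [max_eq_right h5] at h3
    exact Or.inr ⟨T, h1, h2, by omega⟩
  · rw [max_eq_left h5] at h3
    exact Or.inl (by omega)

variable (Φ ε L)

/-- The exceptional contacts of the line `σ` over `U`. -/
def excN (t : ℝ) (U : Finset Src) (σ : Src) : ℝ≥0∞ :=
  ind (Irr Φ ε L U σ t) +
    sumHit Φ ε L t σ (fun V S => ind (HitA Φ ε L σ V S ∧ ¬NoExc Φ ε L t σ V S)) U

/-- The hits of the line `σ` with the trees of maximal depth. -/
def topN (t : ℝ) (U : Finset Src) (σ : Src) : ℝ≥0∞ :=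
  sumHit Φ ε L t σ (fun _ S => ind (S.depth = L)) U

variable {Φ ε L}

theorem one_le_sumHit {G : Finset Src → CTree → ℝ≥0∞} (hS : S ∈ trs L U)
    (h : HitC Φ ε L t U l S) (hG : 1 ≤ G (rm U S) S) : 1 ≤ sumHit Φ ε L t l G U := by
  unfold sumHit
  refine le_trans ?_ (Finset.single_le_sum (f := fun T => ind (HitC Φ ε L t U l T) *
    G (rm U T) T) (fun _ _ => zero_le) hS)
  rw [ind_of h, one_mul]
  exact hG

/-- **Creation by a line**: the cases. -/
theorem one_le_of_cre (hΦ : IsPotential Φ) (hε : 0 < ε) (hl : l.2.2 ≤ L)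
    (h : OvL Φ ε L U l t ∨ ExL Φ ε L U l t) :
    l.2.2 = L ∨ 1 ≤ topN Φ ε L t U l + excN Φ ε L t U l := by
  rcases h with h | h
  · rcases ovl_cases h hl with h | ⟨S, h1, h2, h3⟩
    · exact Or.inl h
    · right
      refine le_trans (one_le_sumHit h1 h2 (G := fun _ S => ind (S.depth = L)) ?_) le_self_add
      rw [ind_of h3]
  · right
    refine le_trans ?_ le_add_self
    unfold excN
    rcases exl_cases hΦ hε h with h | ⟨S, h1, h2, h3, h4⟩
    · rw [ind_of h]
      exact le_self_add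
    · refine le_trans (one_le_sumHit h1 h2
        (G := fun V S => ind (HitA Φ ε L l V S ∧ ¬NoExc Φ ε L t l V S)) ?_) le_add_self
      rw [ind_of (p := _ ∧ _) ⟨h3, h4⟩]

/-- **Creation, flying**: the bound. -/
theorem cef_le (h0 : ∀ a ∈ U, 0 ≤ a.1) (hT : alT Φ ε L t U T) :
    ind (CEF L hΦ hε (addT U T) t T) ≤ ind (¬GoodT Φ ε L U T t) + ind (T.depth = L) +
      min 1 (topN Φ ε L t U (rsrc Φ ε T) + excN Φ ε L t U (rsrc Φ ε T)) := by
  by_cases hC : CEF L hΦ hε (addT U T) t T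
  swap
  · rw [ind_of_not hC]
    exact zero_le
  by_cases hg : GoodT Φ ε L U T t
  swap
  · refine (ind_le_one _).trans ?_
    rw [ind_of hg, add_assoc]
    exact le_self_add
  rw [ind_of hC]
  obtain ⟨τ, hτ, hf, hPS, hfl, hb⟩ := hC
  have he := ext_le_of_flying hfl hPS.2.1
  have h0W : ∀ a ∈ addT U T, 0 ≤ a.1 := addT_nonneg h0 (birth_of_ok hT.ok)
  have h1 := creation_flying h0W (coe_addT U T) hg hf hPS.2.1 he hτ hb
  have h2 : OvL Φ ε L U (rsrc Φ ε T) t ∨ ExL Φ ε L U (rsrc Φ ε T) t :=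
    h1.imp (fun h => h.mono hτ) fun h => h.mono hτ
  rcases one_le_of_cre hΦ hε (l := rsrc Φ ε T) hT.depth h2 with h3 | h3
  · have h4 : T.depth = L := h3
    rw [ind_of h4, add_assoc]
    exact le_self_add.trans le_add_self
  · rw [min_eq_left h3]
    exact le_add_self

/-- **Creation, colliding**: the bound. -/
theorem cep_le (h0 : ∀ a ∈ U, 0 ≤ a.1) (hT : coT Φ ε L t U x y) :
    ind (CEP L hΦ hε (addT U (node x y)) t x y) ≤
      ind (BadQ L hΦ hε t U x y) + ind (TriP Φ ε L U x y t) := by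
  by_cases hC : CEP L hΦ hε (addT U (node x y)) t x y
  swap
  · rw [ind_of_not hC]
    exact zero_le
  by_cases hg : BadQ L hΦ hε t U x y
  · refine (ind_le_one _).trans ?_
    rw [ind_of hg]
    exact le_self_add
  rw [ind_of hC]
  obtain ⟨τ, hτ, hf, hlive, hsig, hext, hb⟩ := hC
  have h0W : ∀ a ∈ addT U (node x y), 0 ≤ a.1 := addT_nonneg h0 (birth_of_ok hT.ok)
  have hgτ : PGood Φ ε L U x y τ := by
    by_contra hcon
    exact hg ⟨⟨hf.2 _ hsig, not_exp_pair hlive hsig hext.le hf.2 _ hsig⟩, τ, hτ, hext, hsig.le,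
      hcon⟩
  have h1 := creation_pair hgτ h0W (coe_addT U (node x y)) hf hlive hsig hext.le le_rfl hb
  rw [ind_of (h1.mono hτ)]
  exact le_add_self

end Vale.Agent.P119.PB
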