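import Vale.Agent.P119.PB.DM4
import Vale.Agent.P119.KE.Tails

/-!
# P119, block PROB: the mass of the trees of given depth, final form (`helper347`)

* `exists_depth_mass`: the expected mass, with a Gaussian weight, of the alive trees of depth `d` is
  at most `μ (dm d + o(1))` with `dm` superexponentially small and independent of `L`.
-/

open MeasureTheory Set Filter Topology Metric ProbabilityTheory
open scoped ENNReal

namespace Vale.Agent.P119.PB

open KU FL M CTree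

variable {Φ : E3 → ℝ} {ε : ℝ}

/-- The Gaussian weight of the root line. -/
noncomputable def eT (Φ : E3 → ℝ) (ε c : ℝ) (T : CTree) : ℝ≥0∞ :=
  ENNReal.ofReal (Real.exp (c * ‖(ln Φ ε T).2‖ ^ 2))

theorem measurable_eT (hΦ : IsPotential Φ) (hε : ε ≠ 0) (c : ℝ) : Measurable (eT Φ ε c) := by
  unfold eT
  have h := (measurable_ln hΦ hε).snd.norm.pow_const 2
  exact (Real.measurable_exp.comp (h.const_mul c)).ennreal_ofReal

/-- Exponential moments of the initial law. -/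
theorem lintegral_exp_law_ne_top {f₀ : Ph → ℝ} (hm : Measurable f₀) {M b c : ℝ} (hb : 0 < b)
    (hc : c ≤ b / 2) (hx : ∀ v : E3, ∫⁻ x : E3, ENNReal.ofReal (f₀ (x, v)) ≤
      ENNReal.ofReal (M * Real.exp (-b * ‖v‖ ^ 2))) :
    ∫⁻ z, ENNReal.ofReal (Real.exp (c * ‖z.2‖ ^ 2)) ∂(law f₀) ≠ ∞ := by
  have hmf : Measurable fun z : Ph => ENNReal.ofReal (f₀ z) := hm.ennreal_ofReal
  have hmv : Measurable fun z : Ph => ENNReal.ofReal (Real.exp (c * ‖z.2‖ ^ 2)) := by fun_prop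
  have h1 : ∫⁻ z, ENNReal.ofReal (Real.exp (c * ‖z.2‖ ^ 2)) ∂(law f₀) =
      ∫⁻ v : E3, ∫⁻ x : E3, ENNReal.ofReal (f₀ (x, v)) *
        ENNReal.ofReal (Real.exp (c * ‖v‖ ^ 2)) := by
    unfold law
    rw [lintegral_withDensity_eq_lintegral_mul _ hmf hmv]
    exact lintegral_prod_symm' (μ := (volume : Measure E3)) (ν := (volume : Measure E3))
      (fun z : E3 × E3 => ENNReal.ofReal (f₀ z) * ENNReal.ofReal (Real.exp (c * ‖z.2‖ ^ 2)))
      (hmf.mul hmv)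
  rw [h1]
  have h2 : ∀ v : E3, ∫⁻ x : E3, ENNReal.ofReal (f₀ (x, v)) *
      ENNReal.ofReal (Real.exp (c * ‖v‖ ^ 2)) ≤
      ENNReal.ofReal (|M| * Real.exp (-(b / 2) * ‖v‖ ^ 2)) := by
    intro v
    rw [lintegral_mul_const' _ _ ENNReal.ofReal_ne_top]
    calc (∫⁻ x, ENNReal.ofReal (f₀ (x, v))) * ENNReal.ofReal (Real.exp (c * ‖v‖ ^ 2))
        ≤ ENNReal.ofReal (M * Real.exp (-b * ‖v‖ ^ 2)) *
            ENNReal.ofReal (Real.exp (c * ‖v‖ ^ 2)) := by
          gcongr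
          exact hx v
      _ ≤ ENNReal.ofReal (|M| * Real.exp (-b * ‖v‖ ^ 2)) *
            ENNReal.ofReal (Real.exp (c * ‖v‖ ^ 2)) := by
          gcongr
          exact le_abs_self M
      _ ≤ _ := by
          rw [← ENNReal.ofReal_mul (by positivity), mul_assoc, ← Real.exp_add]
          apply ENNReal.ofReal_le_ofReal
          have h3 : -b * ‖v‖ ^ 2 + c * ‖v‖ ^ 2 ≤ -(b / 2) * ‖v‖ ^ 2 := by
            have := sq_nonneg ‖v‖
            nlinarith
          gcongr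
  refine ne_top_of_le_ne_top ?_ (lintegral_mono h2)
  exact ((integrable_gauss (half_pos hb)).const_mul _).lintegral_lt_top.ne

/-- The superexponential sequence of the depth masses. -/
noncomputable def dmS (K C T : ℝ) (d : ℕ) : ℝ :=
  Real.exp (((d + 1 : ℕ) : ℝ) * T) * ((K / √((d + 1 : ℕ) : ℝ)) ^ d * C)

theorem dmS_nonneg {K C T : ℝ} (hK : 0 ≤ K) (hC : 0 ≤ C) (d : ℕ) : 0 ≤ dmS K C T d := by
  unfold dmS
  positivity

theorem dmS_superExp {K C T : ℝ} (hK : 0 ≤ K) (hC : 0 ≤ C) : KE.SuperExp (dmS K C T) := by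
  intro A hA
  -- `A^n dm n ≤ e^T C (A e^T K / √(n+1))^n`
  set X := A * Real.exp T * K with hX
  have hX0 : 0 ≤ X := by positivity
  have h1 : ∀ n : ℕ, A ^ n * dmS K C T n = Real.exp T * C * (X / √((n + 1 : ℕ) : ℝ)) ^ n := by
    intro n
    unfold dmS
    have h2 : Real.exp (((n + 1 : ℕ) : ℝ) * T) = Real.exp T ^ n * Real.exp T := by
      rw [← Real.exp_nat_mul, ← Real.exp_add]
      congr 1
      push_cast
      ring
    rw [h2, hX, div_pow, div_pow, mul_pow, mul_pow]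
    ring
  have h2 : Tendsto (fun n : ℕ => X / √((n + 1 : ℕ) : ℝ)) atTop (𝓝 0) := by
    have h3 : Tendsto (fun n : ℕ => √((n + 1 : ℕ) : ℝ)) atTop atTop :=
      Real.tendsto_sqrt_atTop.comp (tendsto_natCast_atTop_atTop.comp (tendsto_add_atTop_nat 1))
    exact tendsto_const_nhds.div_atTop h3
  have h3 : ∀ᶠ n : ℕ in atTop, X / √((n + 1 : ℕ) : ℝ) ≤ 1 / 2 :=
    h2.eventually_le_const (by norm_num)
  have h4 : Tendsto (fun n : ℕ => Real.exp T * C * (1 / 2 : ℝ) ^ n) atTop (𝓝 0) := by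
    have := (tendsto_pow_atTop_nhds_zero_of_lt_one (r := (1 / 2 : ℝ)) (by norm_num)
      (by norm_num)).const_mul (Real.exp T * C)
    rwa [mul_zero] at this
  refine squeeze_zero' (Eventually.of_forall fun n => ?_) ?_ h4
  · rw [h1]
    positivity
  · filter_upwards [h3] with n hn
    rw [h1]
    gcongr

/-- A superexponential sequence is bounded by a geometric one. -/
theorem superExp_geom {e : ℕ → ℝ} (h : KE.SuperExp e) :
    ∃ B : ℝ, 0 ≤ B ∧ ∀ n, e n ≤ B * (1 / 2) ^ n := by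
  have h1 := h 2 (by norm_num)
  obtain ⟨B, hB⟩ := h1.bddAbove_range
  refine ⟨max B 0, le_max_right _ _, fun n => ?_⟩
  have h2 : 2 ^ n * e n ≤ max B 0 := (hB ⟨n, rfl⟩).trans (le_max_left _ _)
  have h3 : (1 / 2 : ℝ) ^ n * (2 ^ n * e n) ≤ (1 / 2 : ℝ) ^ n * max B 0 := by gcongr
  have h4 : (1 / 2 : ℝ) ^ n * (2 ^ n * e n) = e n := by
    rw [← mul_assoc, ← mul_pow]
    norm_num
  rw [h4] at h3
  linarith

/-- The contraction factor, in real form. -/
theorem exists_kapE {α : ℕ → ℝ≥0∞} (hα : ∑' n, α n ≠ ∞) {b c T₀ : ℝ} (hb : 0 < b) :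
    ∃ K : ℝ, 0 ≤ K ∧ ∀ Λ : ℝ, 0 ≤ Λ → kapE α b c T₀ Λ = ENNReal.ofReal (K / √Λ) := by
  set X : ℝ≥0∞ := 2 * (((∑' n, α n) + 1) * ((1 + ENNReal.ofReal T₀) *
    (ENNReal.ofReal Real.pi * I0 (b / 2)))) with hX
  have hXt : X ≠ ∞ := by
    rw [hX]
    exact ENNReal.mul_ne_top (by norm_num) (ENNReal.mul_ne_top
      (ENNReal.add_ne_top.2 ⟨hα, ENNReal.one_ne_top⟩) (ENNReal.mul_ne_top
        (ENNReal.add_ne_top.2 ⟨ENNReal.one_ne_top, ENNReal.ofReal_ne_top⟩)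
        (ENNReal.mul_ne_top ENNReal.ofReal_ne_top (I0_ne_top (by positivity)))))
  refine ⟨X.toReal * (1 + √(Real.pi / (c / (2 * T₀)))), by positivity, fun Λ hΛ => ?_⟩
  rw [mul_div_assoc, ENNReal.ofReal_mul ENNReal.toReal_nonneg, ENNReal.ofReal_toReal hXt, hX]
  unfold kapE cHB
  ring

/-- The Gaussian weight and the weight of the masses. -/
theorem eT_le {c T₀ Λ : ℝ} (hc : 0 < c) (hT : 0 < T₀)
    (hΛ : 0 ≤ Λ) {T : CTree} (hext : ext Φ ε T ≤ T₀) :
    eT Φ ε (c / 2) T ≤ ENNReal.ofReal (Real.exp (Λ * T₀)) *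
      wB c T₀ Λ (ext Φ ε T) (ln Φ ε T).2 := by
  have h1 := le_bt hc hT hext
  unfold eT wB
  rw [← ENNReal.ofReal_mul (Real.exp_nonneg _), ← Real.exp_add]
  apply ENNReal.ofReal_le_ofReal
  apply Real.exp_le_exp.2
  have h2 := mul_le_mul_of_nonneg_right h1 (sq_nonneg ‖(ln Φ ε T).2‖)
  have h3 : Λ * ext Φ ε T ≤ Λ * T₀ := by gcongr
  linarith

/-- **The expected mass of the alive trees of depth `d`, final form.** -/
theorem exists_depth_mass (hΦ : IsPotential Φ) {f₀ : Ph → ℝ} {κ b T₀ M₀ : ℝ}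
    (hg : GoodDatum f₀ κ) (hb : 0 < b) (hT : 0 < T₀) (hM : 0 ≤ M₀)
    (hf : ∀ z, f₀ z ≤ M₀ * Real.exp (-b * ‖z.2‖ ^ 2))
    (hx : ∀ v : E3, ∫⁻ x : E3, ENNReal.ofReal (f₀ (x, v)) ≤
      ENNReal.ofReal (M₀ * Real.exp (-b * ‖v‖ ^ 2)))
    {b₁ : ℝ} (hb₁ : 0 < b₁) {α : ℕ → ℝ≥0∞} (hα : ∑' n, α n ≠ ∞) :
    ∃ c : ℝ, 0 < c ∧ ∃ dm : ℕ → ℝ, (∀ d, 0 ≤ dm d) ∧ KE.SuperExp dm ∧
      ∃ Mt : ℝ, 0 ≤ Mt ∧ ∀ (L : ℕ) (ν : ℝ → GC.Conf Ph → Measure Src),
        CapL Φ f₀ L T₀ b₁ α ν → Cap.InI1 Φ f₀ L T₀ → ∀ ρ : ℝ, 0 < ρ →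
        ∀ᶠ ε in 𝓝[>] (0 : ℝ),
          (∀ d ≤ L, ∫⁻ x, ∫⁻ T in Cap.AL Φ ε L T₀ (GC.pts x : Set Ph) ∩ dep d, eT Φ ε c T
            ∂(tree (GC.inten f₀ ε) L) ∂(GC.PP f₀ ε) ≤ muE ε * ENNReal.ofReal (dm d + ρ)) ∧
          ∫⁻ x, ∫⁻ T in Cap.AL Φ ε L T₀ (GC.pts x : Set Ph), eT Φ ε c T
            ∂(tree (GC.inten f₀ ε) L) ∂(GC.PP f₀ ε) ≤ muE ε * ENNReal.ofReal (Mt + ρ) := by
  set b₂ := min b₁ (b / 4) with hb₂
  have hb₂0 : 0 < b₂ := lt_min hb₁ (by positivity)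
  have h21 : b₂ ≤ b₁ := min_le_left _ _
  have h2b : b₂ ≤ b / 4 := min_le_right _ _
  set c := b₂ / 4 with hc
  have hc0 : 0 < c := by positivity
  obtain ⟨K, hK0, hK⟩ := exists_kapE (c := c) (T₀ := T₀) hα hb₂0
  have hwe : ∀ (c' : ℝ) (v : E3), wB c' T₀ 1 0 v =
      ENNReal.ofReal (Real.exp (c' * ‖v‖ ^ 2)) := by
    intro c' v
    unfold wB bt
    congr 2
    ring
  have hC4 : ∫⁻ z, wB (4 * c) T₀ 1 0 z.2 ∂(law f₀) ≠ ∞ := by
    simp only [hwe]
    exact lintegral_exp_law_ne_top hg.meas hb (by rw [hc]; linarith) hx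
  set C₀ := ∫⁻ z, wB c T₀ 1 0 z.2 ∂(law f₀) with hC₀
  have hC₀t : C₀ ≠ ∞ := by
    rw [hC₀]
    simp only [hwe]
    exact lintegral_exp_law_ne_top hg.meas hb (by rw [hc]; linarith) hx
  set Cr := C₀.toReal with hCr
  have hCr0 : 0 ≤ Cr := ENNReal.toReal_nonneg
  have hCre : ENNReal.ofReal Cr = C₀ := ENNReal.ofReal_toReal hC₀t
  set dm := dmS K Cr T₀ with hdm
  have hdm0 : ∀ d, 0 ≤ dm d := dmS_nonneg hK0 hCr0
  have hdms : KE.SuperExp dm := dmS_superExp hK0 hCr0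
  obtain ⟨B, hB0, hB⟩ := superExp_geom hdms
  refine ⟨c / 2, by positivity, dm, hdm0, hdms, 2 * B, by positivity,
    fun L ν hcap hI ρ hρ => ?_⟩
  -- one depth
  have hone : ∀ r : ℝ, 0 < r → ∀ d : ℕ, d ≤ L → ∀ᶠ ε in 𝓝[>] (0 : ℝ),
      ∫⁻ x, ∫⁻ T in Cap.AL Φ ε L T₀ (GC.pts x : Set Ph) ∩ dep d, eT Φ ε (c / 2) T
        ∂(tree (GC.inten f₀ ε) L) ∂(GC.PP f₀ ε) ≤ muE ε * ENNReal.ofReal (dm d + r) := by
    intro r hr d hd
    set Λ : ℝ := ((d + 1 : ℕ) : ℝ) with hΛ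
    have hΛ1 : 1 ≤ Λ := by
      rw [hΛ]
      exact_mod_cast Nat.succ_pos d
    have hr' : ENNReal.ofReal (Real.exp (-(Λ * T₀)) * r) ≠ 0 := by
      rw [Ne, ENNReal.ofReal_eq_zero, not_le]
      positivity
    filter_upwards [depth_mass_aux hΦ hg hb hT hM hf hb₂0 h21 h2b hc0 (by rw [hc]) hC4 hα hcap hI
      hΛ1 hr', self_mem_nhdsWithin] with ε h1 hε
    have hε : 0 < ε := hε
    have h2 := h1 d hd
    calc ∫⁻ x, ∫⁻ T in Cap.AL Φ ε L T₀ (GC.pts x : Set Ph) ∩ dep d, eT Φ ε (c / 2) T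
          ∂(tree (GC.inten f₀ ε) L) ∂(GC.PP f₀ ε)
        ≤ ∫⁻ x, ENNReal.ofReal (Real.exp (Λ * T₀)) * mass Φ ε (GC.inten f₀ ε) L c T₀ Λ
            (Cap.AL Φ ε L T₀ (GC.pts x : Set Ph) ∩ dep d) ∂(GC.PP f₀ ε) := by
          refine lintegral_mono fun x => ?_
          unfold mass
          rw [← lintegral_const_mul _ (measurable_wT hΦ hε.ne' c T₀ Λ)]
          refine setLIntegral_mono' ((measurableSet_ALc hΦ hε L T₀ x).inter
            (measurableSet_dep d)) fun T hT' => ?_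
          exact eT_le hc0 hT (by linarith) hT'.1.2
      _ = ENNReal.ofReal (Real.exp (Λ * T₀)) * ∫⁻ x, mass Φ ε (GC.inten f₀ ε) L c T₀ Λ
            (Cap.AL Φ ε L T₀ (GC.pts x : Set Ph) ∩ dep d) ∂(GC.PP f₀ ε) :=
          lintegral_const_mul' _ _ ENNReal.ofReal_ne_top
      _ ≤ ENNReal.ofReal (Real.exp (Λ * T₀)) * (muE ε * (kapE α b₂ c T₀ Λ ^ d * C₀ +
            ENNReal.ofReal (Real.exp (-(Λ * T₀)) * r))) := mul_le_mul_right h2 _
      _ = muE ε * ENNReal.ofReal (dm d + r) := by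
          rw [hK Λ (by linarith), ← hCre, ← ENNReal.ofReal_pow (by positivity),
            ← ENNReal.ofReal_mul (by positivity), ← ENNReal.ofReal_add (by positivity)
              (by positivity), mul_left_comm, ← ENNReal.ofReal_mul (Real.exp_nonneg _)]
          congr 2
          rw [hdm]
          unfold dmS
          rw [mul_add, ← mul_assoc (Real.exp (Λ * T₀)) (Real.exp (-(Λ * T₀))), ← Real.exp_add,
            add_neg_cancel, Real.exp_zero, one_mul]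
  have hL1 : 0 < ((L + 1 : ℕ) : ℝ) := by exact_mod_cast Nat.succ_pos L
  have hρ' : 0 < ρ / ((L + 1 : ℕ) : ℝ) := by positivity
  have hall : ∀ᶠ ε in 𝓝[>] (0 : ℝ), ∀ d ∈ Finset.range (L + 1),
      ∫⁻ x, ∫⁻ T in Cap.AL Φ ε L T₀ (GC.pts x : Set Ph) ∩ dep d, eT Φ ε (c / 2) T
        ∂(tree (GC.inten f₀ ε) L) ∂(GC.PP f₀ ε) ≤
        muE ε * ENNReal.ofReal (dm d + ρ / ((L + 1 : ℕ) : ℝ)) := by
    rw [Filter.eventually_all_finset]
    intro d hd
    exact hone _ hρ' d (by have := Finset.mem_range.1 hd; omega)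
  filter_upwards [hall, self_mem_nhdsWithin] with ε h1 hε
  have hε : 0 < ε := hε
  have hfin : IsFiniteMeasure (GC.inten f₀ ε) := GC.isFiniteMeasure_inten hg
  refine ⟨fun d hd => (h1 d (Finset.mem_range.2 (by omega))).trans ?_, ?_⟩
  · refine mul_le_mul_right (ENNReal.ofReal_le_ofReal ?_) _
    have h3 : ρ / ((L + 1 : ℕ) : ℝ) ≤ ρ := by
      refine div_le_self hρ.le ?_
      exact_mod_cast Nat.succ_pos L
    linarith
  · -- the total mass
    have hsum : ∀ x : GC.Conf Ph, ∫⁻ T in Cap.AL Φ ε L T₀ (GC.pts x : Set Ph), eT Φ ε (c / 2) T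
        ∂(tree (GC.inten f₀ ε) L) = ∑ d ∈ Finset.range (L + 1),
          ∫⁻ T in Cap.AL Φ ε L T₀ (GC.pts x : Set Ph) ∩ dep d, eT Φ ε (c / 2) T
            ∂(tree (GC.inten f₀ ε) L) := by
      intro x
      set S := Cap.AL Φ ε L T₀ (GC.pts x : Set Ph) with hS
      have h2 : (S ∩ ⋃ d ∈ Finset.range (L + 1), dep d : Set CTree) = S := by
        refine inter_eq_left.2 fun T hT' => ?_
        exact mem_biUnion (show T.depth ∈ (Finset.range (L + 1) : Set ℕ) from by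
          rw [Finset.mem_coe, Finset.mem_range]
          have := Cap.AL_depth hT'
          omega) rfl
      nth_rewrite 1 [← h2]
      rw [inter_iUnion₂, lintegral_biUnion_finset]
      · intro i _ j _ hij
        refine disjoint_left.2 fun T h2 h3 => hij ?_
        exact h2.2.symm.trans h3.2
      · exact fun d _ => (measurableSet_ALc hΦ hε L T₀ x).inter (measurableSet_dep d)
    have hmeas : ∀ d, Measurable fun x : GC.Conf Ph =>
        ∫⁻ T in Cap.AL Φ ε L T₀ (GC.pts x : Set Ph) ∩ dep d, eT Φ ε (c / 2) T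
          ∂(tree (GC.inten f₀ ε) L) := by
      intro d
      have h1 := Cap.measurableSet_AL (X := GC.Conf Ph × CTree) (c := fun p => p.1)
        (T := fun p => p.2) (L := L) (Tm := T₀) hΦ hε measurable_fst measurable_snd
      have h2 : MeasurableSet {p : GC.Conf Ph × CTree | p.2 ∈ dep d} :=
        measurable_snd (measurableSet_dep d)
      have hw : Measurable fun p : GC.Conf Ph × CTree => eT Φ ε (c / 2) p.2 :=
        (measurable_eT hΦ hε.ne' (c / 2)).comp (measurable_snd (α := GC.Conf Ph))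
      have h3 := ((hw.indicator (h1.inter h2)).lintegral_prod_right'
        (ν := tree (GC.inten f₀ ε) L))
      have e : (fun x : GC.Conf Ph => ∫⁻ T in Cap.AL Φ ε L T₀ (GC.pts x : Set Ph) ∩ dep d,
            eT Φ ε (c / 2) T ∂(tree (GC.inten f₀ ε) L)) =
          fun x => ∫⁻ T, (({p : GC.Conf Ph × CTree | p.2 ∈ Cap.AL Φ ε L T₀
            (GC.pts p.1 : Set Ph)} ∩ {p | p.2 ∈ dep d}).indicator
              fun p => eT Φ ε (c / 2) p.2) (x, T) ∂(tree (GC.inten f₀ ε) L) := by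
        funext x
        rw [← lintegral_indicator ((measurableSet_ALc hΦ hε L T₀ x).inter (measurableSet_dep d))]
        rfl
      rw [e]
      exact h3
    calc ∫⁻ x, ∫⁻ T in Cap.AL Φ ε L T₀ (GC.pts x : Set Ph), eT Φ ε (c / 2) T
          ∂(tree (GC.inten f₀ ε) L) ∂(GC.PP f₀ ε)
        = ∑ d ∈ Finset.range (L + 1), ∫⁻ x,
            ∫⁻ T in Cap.AL Φ ε L T₀ (GC.pts x : Set Ph) ∩ dep d, eT Φ ε (c / 2) T
              ∂(tree (GC.inten f₀ ε) L) ∂(GC.PP f₀ ε) := by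
          simp only [hsum]
          rw [lintegral_finsetSum _ fun d _ => hmeas d]
      _ ≤ ∑ d ∈ Finset.range (L + 1), muE ε * ENNReal.ofReal (dm d + ρ / ((L + 1 : ℕ) : ℝ)) :=
          Finset.sum_le_sum h1
      _ = muE ε * ENNReal.ofReal (∑ d ∈ Finset.range (L + 1),
            (dm d + ρ / ((L + 1 : ℕ) : ℝ))) := by
          rw [← Finset.mul_sum, ENNReal.ofReal_sum_of_nonneg]
          intro d _
          have := hdm0 d
          positivity
      _ ≤ _ := by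
          refine mul_le_mul_right (ENNReal.ofReal_le_ofReal ?_) _
          rw [Finset.sum_add_distrib, Finset.sum_const, Finset.card_range, nsmul_eq_mul,
            mul_div_cancel₀ _ hL1.ne']
          refine add_le_add ?_ le_rfl
          calc ∑ d ∈ Finset.range (L + 1), dm d ≤ ∑ d ∈ Finset.range (L + 1), B * (1 / 2) ^ d :=
                Finset.sum_le_sum fun d _ => hB d
            _ = B * ∑ d ∈ Finset.range (L + 1), (1 / 2 : ℝ) ^ d := by rw [Finset.mul_sum]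
            _ ≤ B * 2 := by
                gcongr
                exact sum_geometric_two_le _
            _ = 2 * B := by ring

end Vale.Agent.P119.PB
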