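import Vale.Agent.P119.PB.CreInt1
import Vale.Agent.P119.PB.Int5b
import Vale.Agent.P119.PB.DM5
import Vale.Agent.P119.PB.ExhW
import Vale.Agent.P119.RM.Exc2

/-!
# P119, block PROB, P9 (contamination): creation, integrated (`helper456`)

* `lintegral_typI`: the typical part of the law of the lines and the expectation commute;
* `XX_src_le`: CAP0 for functions of the world and of the source of the tree;
-/

open MeasureTheory Filter Topology Set
open scoped ENNReal NNReal

noncomputable section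

namespace Vale.Agent.P119.PB

open M CTree KU RB FB AU FL

variable {Φ : E3 → ℝ} {ε : ℝ} {L : ℕ} {f₀ : Ph → ℝ} {κ b t : ℝ}

theorem typI_mono {Tm : ℝ} {α : ℕ → ℝ≥0∞} {F F' : Src → ℝ≥0∞} (h : ∀ σ, F σ ≤ F' σ) :
    typI b Tm α F ≤ typI b Tm α F' := by
  unfold typI
  refine ENNReal.tsum_le_tsum fun d => mul_le_mul_right (add_le_add ?_ ?_) _
  · exact lintegral_mono fun z => mul_le_mul_right (h _) _
  · exact lintegral_mono fun s => lintegral_mono fun z => mul_le_mul_right (h _) _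

theorem typI_add {Tm : ℝ} {α : ℕ → ℝ≥0∞} {F F' : Src → ℝ≥0∞} (h : Measurable F) :
    typI b Tm α (fun σ => F σ + F' σ) = typI b Tm α F + typI b Tm α F' := by
  have hg : Measurable fun z : Ph => gw b z.2 := (measurable_gw b).comp measurable_snd
  have hs : ∀ (s : ℝ) (d : ℕ), Measurable fun z : Ph => F (s, z, d) := fun s d =>
    h.comp (measurable_const.prodMk (measurable_id.prodMk measurable_const))
  have h2 : ∀ d : ℕ, Measurable fun s : ℝ => ∫⁻ z : Ph, gw b z.2 * F (s, z, d) := by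
    intro d
    have : Measurable fun p : ℝ × Ph => gw b p.2.2 * F (p.1, p.2, d) :=
      (hg.comp measurable_snd).mul (h.comp (measurable_fst.prodMk
        (measurable_snd.prodMk measurable_const)))
    exact this.lintegral_prod_right'
  unfold typI
  rw [← ENNReal.tsum_add]
  refine tsum_congr fun d => ?_
  rw [← mul_add]
  congr 1
  have e1 : ∀ s : ℝ, ∫⁻ z : Ph, gw b z.2 * (F (s, z, d) + F' (s, z, d)) =
      (∫⁻ z : Ph, gw b z.2 * F (s, z, d)) + ∫⁻ z : Ph, gw b z.2 * F' (s, z, d) := by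
    intro s
    have hm : Measurable fun z : Ph => gw b z.2 * F (s, z, d) := hg.mul (hs s d)
    rw [← lintegral_add_left hm]
    exact lintegral_congr fun z => mul_add _ _ _
  simp only [e1]
  rw [lintegral_add_left (h2 d)]
  ring

/-- The integral for one depth and one birth time. -/
theorem meas_line {X : Type*} [MeasurableSpace X] {F : X → Src → ℝ≥0∞}
    (hF : Measurable fun p : X × Src => F p.1 p.2) (d : ℕ) :
    Measurable fun q : (X × ℝ) × Ph => gw b q.2.2 * F q.1.1 (q.1.2, q.2, d) := by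
  have hg : Measurable fun q : (X × ℝ) × Ph => gw b q.2.2 :=
    (measurable_gw b).comp (measurable_snd.comp measurable_snd)
  have h1 : Measurable fun q : (X × ℝ) × Ph => ((q.1.1, (q.1.2, q.2, d)) : X × Src) :=
    (measurable_fst.comp measurable_fst).prodMk
      ((measurable_snd.comp measurable_fst).prodMk (measurable_snd.prodMk measurable_const))
  exact hg.mul (hF.comp h1)

theorem meas_line' {X : Type*} [MeasurableSpace X] {F : X → Src → ℝ≥0∞}
    (hF : Measurable fun p : X × Src => F p.1 p.2) (d : ℕ) (s : ℝ) :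
    Measurable fun q : X × Ph => gw b q.2.2 * F q.1 (s, q.2, d) := by
  have hg : Measurable fun q : X × Ph => gw b q.2.2 :=
    (measurable_gw b).comp (measurable_snd.comp measurable_snd)
  have h1 : Measurable fun q : X × Ph => ((q.1, (s, q.2, d)) : X × Src) :=
    measurable_fst.prodMk
      ((measurable_const (a := s)).prodMk (measurable_snd.prodMk (measurable_const (a := d))))
  exact hg.mul (hF.comp h1)

theorem swap_line {X : Type*} [MeasurableSpace X] {P : Measure X} [SFinite P]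
    {F : X → Src → ℝ≥0∞} (hF : Measurable fun p : X × Src => F p.1 p.2) (d : ℕ) (s : ℝ) :
    ∫⁻ x, (∫⁻ z : Ph, gw b z.2 * F x (s, z, d)) ∂P =
      ∫⁻ z : Ph, gw b z.2 * ∫⁻ x, F x (s, z, d) ∂P := by
  rw [lintegral_lintegral_swap (meas_line' hF d s).aemeasurable]
  refine lintegral_congr fun z => ?_
  have h1 : Measurable fun x : X => ((x, (s, z, d)) : X × Src) :=
    measurable_id.prodMk measurable_const
  exact lintegral_const_mul _ (hF.comp h1)

/-- The typical part and the expectation. -/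
theorem lintegral_typI {X : Type*} [MeasurableSpace X] {P : Measure X} [SFinite P] {Tm : ℝ}
    {α : ℕ → ℝ≥0∞} {F : X → Src → ℝ≥0∞} (hF : Measurable fun p : X × Src => F p.1 p.2) :
    (Measurable fun x => typI b Tm α (F x)) ∧
      ∫⁻ x, typI b Tm α (F x) ∂P = typI b Tm α fun σ => ∫⁻ x, F x σ ∂P := by
  obtain ⟨A, hA⟩ : ∃ A : ℕ → ℝ → X → ℝ≥0∞, A = fun d s x =>
    ∫⁻ z : Ph, gw b z.2 * F x (s, z, d) := ⟨_, rfl⟩
  have m1 : ∀ d : ℕ, Measurable fun q : X × ℝ => A d q.2 q.1 := by
    intro d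
    rw [hA]
    exact (meas_line (b := b) hF d).lintegral_prod_right'
  have m0 : ∀ (d : ℕ) (s : ℝ), Measurable (A d s) := fun d s =>
    (m1 d).comp (measurable_id.prodMk measurable_const)
  have m2 : ∀ d : ℕ, Measurable fun x => ∫⁻ s in Icc 0 Tm, A d s x :=
    fun d => (m1 d).lintegral_prod_right'
  have m3 : ∀ d : ℕ, Measurable fun x => α d * (A d 0 x + ∫⁻ s in Icc 0 Tm, A d s x) := fun d =>
    ((m0 d 0).add (m2 d)).const_mul _
  have e1 : ∀ x, typI b Tm α (F x) = ∑' d, α d * (A d 0 x + ∫⁻ s in Icc 0 Tm, A d s x) := by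
    intro x
    rw [hA]
    rfl
  have e2 : ∀ (d : ℕ) (s : ℝ), ∫⁻ x, A d s x ∂P = ∫⁻ z : Ph, gw b z.2 * ∫⁻ x, F x (s, z, d) ∂P := by
    intro d s
    rw [hA]
    exact swap_line hF d s
  simp only [e1]
  refine ⟨Measurable.ennreal_tsum m3, ?_⟩
  rw [lintegral_tsum fun d => (m3 d).aemeasurable]
  unfold typI
  refine tsum_congr fun d => ?_
  have m4 : Measurable fun x => A d 0 x + ∫⁻ s in Icc 0 Tm, A d s x := (m0 d 0).add (m2 d)
  rw [lintegral_const_mul _ m4, lintegral_add_left (m0 d 0), e2 d 0]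
  congr 2
  rw [lintegral_lintegral_swap (m1 d).aemeasurable]
  exact lintegral_congr fun s => e2 d s

/-- **CAP0** for functions of the world and of the source of the root line. -/
theorem XX_src_le (h₀ : GoodDatum f₀ κ) (hΦ : IsPotential Φ) (hε : 0 < ε) {Tm : ℝ} (htT : t ≤ Tm)
    {α : ℕ → ℝ≥0∞} {ν : GC.Conf Ph → Measure Src}
    (hcap : ∀ c, ∀ F : Src → ℝ≥0∞, Measurable F →
      ∫⁻ T in Cap.AL Φ ε L Tm (GC.pts c : Set Ph), F (rsrc Φ ε T) ∂(tree (GC.inten f₀ ε) L) ≤
        muE ε * (typI b Tm α F + ∫⁻ p, F p ∂(ν c)))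
    {G : Finset Src → Src → ℝ≥0∞}
    (hG : Measurable fun p : GC.Conf Ph × Src => G (wS (GC.pts p.1)) p.2) :
    XX Φ ε L f₀ t (fun U S => G U (rsrc Φ ε S)) ≤
      muE ε * (typI b Tm α (fun σ => ∫⁻ c, G (wS (GC.pts c)) σ ∂(GC.PP f₀ ε)) +
        ∫⁻ c, ∫⁻ σ, G (wS (GC.pts c)) σ ∂(ν c) ∂(GC.PP f₀ ε)) := by
  have := GC.isProbability_PP (ε := ε) h₀
  obtain ⟨h1, h2⟩ := lintegral_typI (b := b) (P := GC.PP f₀ ε) (Tm := Tm) (α := α)
    (F := fun c σ => G (wS (GC.pts c)) σ) hG
  rw [← h2, ← lintegral_add_left h1, ← lintegral_const_mul' _ _ (by unfold muE; exact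
    ENNReal.ofReal_ne_top)]
  unfold XX
  refine lintegral_mono fun c => ?_
  have hF : Measurable fun σ => G (wS (GC.pts c)) σ :=
    hG.comp (measurable_const.prodMk measurable_id)
  refine le_trans ?_ (hcap c _ hF)
  rw [← lintegral_indicator (measurableSet_ALc hΦ hε L Tm c)]
  refine lintegral_mono fun T => ?_
  by_cases h : alT Φ ε L t (wS (GC.pts c)) T
  · have h3 := alT_iff.1 h
    have h' : T ∈ Cap.AL Φ ε L Tm (GC.pts c : Set Ph) := ⟨h3.1, h3.2.trans htT⟩
    rw [indicator_of_mem h', ind_of h, one_mul]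
  · rw [ind_of_not h, zero_mul]
    exact zero_le

/-! ### Creation, flying -/

theorem measurable_sumHit2 (hΦ : IsPotential Φ) (hε : 0 < ε)
    {G : Src → Finset Src → CTree → ℝ≥0∞}
    (hG : Measurable fun p : (GC.Conf Ph × Src) × CTree =>
      G p.1.2 (rm (wS (GC.pts p.1.1)) p.2) p.2) :
    Measurable fun p : GC.Conf Ph × Src => sumHit Φ ε L t p.2 (G p.2) (wS (GC.pts p.1)) := by
  have hrs : MM.RS fun p : GC.Conf Ph × Src => ((wS (GC.pts p.1) : Finset Src) : Set Src) :=
    RM.rs_conf.comp measurable_fst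
  have h1 : Measurable fun p : (GC.Conf Ph × Src) × CTree =>
      ind (HitC Φ ε L t (wS (GC.pts p.1.1)) p.1.2 p.2) *
        G p.1.2 (rm (wS (GC.pts p.1.1)) p.2) p.2 :=
    (measurable_ind (RM.measurableSet_HitC hΦ hε (hrs.comp measurable_fst)
      measurable_const (measurable_snd.comp measurable_fst) measurable_snd)).mul hG
  exact RM.measurable_sum_trs hrs h1

theorem measurable_topN (hΦ : IsPotential Φ) (hε : 0 < ε) :
    Measurable fun p : GC.Conf Ph × Src => topN Φ ε L t (wS (GC.pts p.1)) p.2 := by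
  unfold topN
  refine measurable_sumHit2 hΦ hε (G := fun _ _ S => ind (S.depth = L)) ?_
  refine measurable_ind ?_
  exact (measurable_depth.comp measurable_snd) (measurableSet_singleton L)

theorem measurable_excN (hΦ : IsPotential Φ) (hε : 0 < ε) :
    Measurable fun p : GC.Conf Ph × Src => excN Φ ε L t (wS (GC.pts p.1)) p.2 := by
  have hrs : MM.RS fun p : GC.Conf Ph × Src => ((wS (GC.pts p.1) : Finset Src) : Set Src) :=
    RM.rs_conf.comp measurable_fst
  unfold excN
  refine Measurable.add (measurable_ind (RM.measurableSet_Irr hΦ hε hrs measurable_snd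
    measurable_const)) ?_
  refine measurable_sumHit2 hΦ hε (G := fun σ V S =>
    ind (HitA Φ ε L σ V S ∧ ¬NoExc Φ ε L t σ V S)) ?_
  refine measurable_ind ?_
  have hV : MM.RS fun p : (GC.Conf Ph × Src) × CTree =>
      (rm (wS (GC.pts p.1.1)) p.2 : Set Src) :=
    rs_rm (hrs.comp measurable_fst) measurable_snd
  exact (measurableSet_HitA hΦ hε hV measurable_snd (measurable_snd.comp measurable_fst)).inter
    (RM.measurableSet_NoExc hΦ hε hV measurable_snd (measurable_snd.comp measurable_fst)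
      measurable_const).compl

theorem XX_mono_wS {H H' : Finset Src → CTree → ℝ≥0∞}
    (h : ∀ (c : GC.Conf Ph) T, alT Φ ε L t (wS (GC.pts c)) T →
      H (wS (GC.pts c)) T ≤ H' (wS (GC.pts c)) T) : XX Φ ε L f₀ t H ≤ XX Φ ε L f₀ t H' := by
  unfold XX
  refine lintegral_mono fun c => lintegral_mono fun T => ?_
  by_cases hT : alT Φ ε L t (wS (GC.pts c)) T
  · exact mul_le_mul_right (h _ _ hT) _
  · rw [ind_of_not hT, zero_mul]
    exact zero_le

theorem XP_mono_wS {H H' : Finset Src → CTree → CTree → ℝ≥0∞}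
    (h : ∀ (c : GC.Conf Ph) x y, coT Φ ε L t (wS (GC.pts c)) x y →
      H (wS (GC.pts c)) x y ≤ H' (wS (GC.pts c)) x y) :
    XP Φ ε L f₀ t H ≤ XP Φ ε L f₀ t H' := by
  unfold XP
  refine lintegral_mono fun c => lintegral_mono fun T => onN_mono (fun x y => ?_) T
  by_cases hT : coT Φ ε L t (wS (GC.pts c)) x y
  · exact mul_le_mul_right (h _ _ _ hT) _
  · rw [ind_of_not hT, zero_mul]
    exact zero_le

theorem wq_le_vp (T : CTree) : wq Φ ε T ≤ EX.vp 2 (rsrc Φ ε T) := by
  unfold wq EX.vp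
  refine ENNReal.ofReal_le_ofReal ?_
  change 1 + ‖(ln Φ ε T).2‖ ^ 2 ≤ (1 + ‖(ln Φ ε T).2‖) ^ 2
  nlinarith [norm_nonneg (ln Φ ε T).2]

open Classical in
/-- The bound of the creation by the line `σ` over `U`. -/
def creG (Φ : E3 → ℝ) (ε : ℝ) (L : ℕ) (t : ℝ) (U : Finset Src) (σ : Src) : ℝ≥0∞ :=
  if σ.2.2 ≤ L then EX.vp 2 σ * min 1 (topN Φ ε L t U σ + excN Φ ε L t U σ) else 0

theorem measurable_creG (hΦ : IsPotential Φ) (hε : 0 < ε) :
    Measurable fun p : GC.Conf Ph × Src => creG Φ ε L t (wS (GC.pts p.1)) p.2 := by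
  unfold creG
  refine Measurable.ite ?_ (((EX.measurable_vp 2).comp measurable_snd).mul
    (measurable_const.min ((measurable_topN hΦ hε).add (measurable_excN hΦ hε)))) measurable_const
  exact (measurable_snd.comp (measurable_snd.comp measurable_snd)) (measurableSet_Iic (a := L))

/-- **Creation, flying**, in terms of the laws. -/
theorem XX_cef_le (h₀ : GoodDatum f₀ κ) (hΦ : IsPotential Φ) (hε : 0 < ε) :
    XX Φ ε L f₀ t (fun U S => wq Φ ε S * ind (CEF L hΦ hε (addT U S) t S)) ≤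
      XX Φ ε L f₀ t (fun U S => wq Φ ε S * ind (¬GoodT Φ ε L U S t)) +
        XX Φ ε L f₀ t (fun _ S => wq Φ ε S * ind (S.depth = L)) +
        XX Φ ε L f₀ t (fun U S => creG Φ ε L t U (rsrc Φ ε S)) := by
  have hm1 : Measurable fun p : CTree × GC.Conf Ph =>
      wq Φ ε p.1 * ind (¬GoodT Φ ε L (wS (GC.pts p.2)) p.1 t) :=
    ((measurable_wq hΦ hε).comp measurable_fst).mul (measurable_ind
      (RM.measurableSet_GoodT hΦ hε rs_wS_tree measurable_fst measurable_const).compl)
  have hm2 : Measurable fun p : CTree × GC.Conf Ph =>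
      wq Φ ε p.1 * ind (p.1.depth = L) :=
    ((measurable_wq hΦ hε).comp measurable_fst).mul (measurable_ind
      ((measurable_depth.comp measurable_fst) (measurableSet_singleton L)))
  rw [← XX_add (H := fun U S => wq Φ ε S * ind (¬GoodT Φ ε L U S t)) hΦ hε hm1 h₀,
    ← XX_add (H := fun U S => wq Φ ε S * ind (¬GoodT Φ ε L U S t) +
      wq Φ ε S * ind (S.depth = L)) hΦ hε (hm1.add hm2) h₀]
  refine XX_mono_wS fun c T hT => ?_
  have h1 := cef_le (hΦ := hΦ) (hε := hε) (EX.wS_birth _) hT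
  have h2 : wq Φ ε T * min 1 (topN Φ ε L t (wS (GC.pts c)) (rsrc Φ ε T) +
      excN Φ ε L t (wS (GC.pts c)) (rsrc Φ ε T)) ≤ creG Φ ε L t (wS (GC.pts c)) (rsrc Φ ε T) := by
    unfold creG
    rw [if_pos (show (rsrc Φ ε T).2.2 ≤ L from hT.depth)]
    exact mul_le_mul_left (wq_le_vp T) _
  calc wq Φ ε T * ind (CEF L hΦ hε (addT (wS (GC.pts c)) T) t T)
      ≤ wq Φ ε T * (ind (¬GoodT Φ ε L (wS (GC.pts c)) T t) + ind (T.depth = L) +
        min 1 (topN Φ ε L t (wS (GC.pts c)) (rsrc Φ ε T) +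
          excN Φ ε L t (wS (GC.pts c)) (rsrc Φ ε T))) := mul_le_mul_right h1 _
    _ ≤ _ := by
        rw [mul_add, mul_add]
        exact add_le_add le_rfl h2

end Vale.Agent.P119.PB
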