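import Vale.Agent.P119.PB.Geom
import Vale.Agent.P119.PB.Op1
import Vale.Agent.P119.ML.CapDef

/-!
# P119, block PROB: from trees to lines (`helper298`)

* `poly_mass`: the mass of the chains of `m` hits from a line, with a polynomial weight on the last
  line, is at most a polynomial of the velocity of the first one;
* `LineLaw Φ ε b K Θ`: the root lines of the trees with law `Θ` have density at most
  `K μ e^{-b |v|²}`; `spM_lines`: the law of a spine.
-/

open MeasureTheory Filter Topology Set
open scoped ENNReal NNReal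

noncomputable section

namespace Vale.Agent.P119.M

open KU CTree FL PB Cap

variable {Φ : E3 → ℝ} {ε b t : ℝ}

/-! ### Polynomial weights -/

theorem measurable_pw' (q : ℕ) : Measurable (pw q) := by
  unfold pw; fun_prop

theorem pw_ne_top (q : ℕ) (v : E3) : pw q v ≠ ∞ := ENNReal.ofReal_ne_top

theorem pw_zero (v : E3) : pw 0 v = 1 := by
  unfold pw; rw [pow_zero, ENNReal.ofReal_one]

theorem pw_add (j k : ℕ) (v : E3) : pw (j + k) v = pw j v * pw k v := by
  unfold pw; rw [pow_add, ENNReal.ofReal_mul (by positivity)]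

theorem one_le_pw (q : ℕ) (v : E3) : 1 ≤ pw q v := by
  unfold pw
  rw [← ENNReal.ofReal_one]
  exact ENNReal.ofReal_le_ofReal (one_le_pow₀ (by linarith [norm_nonneg v]))

theorem pw_mono {j k : ℕ} (h : j ≤ k) (v : E3) : pw j v ≤ pw k v := by
  obtain ⟨i, rfl⟩ := Nat.exists_eq_add_of_le h
  rw [pw_add]
  exact le_mul_of_one_le_right' (one_le_pw i v)

theorem pw_le_mul {q : ℕ} {u v w : E3} (h : ‖u‖ ^ 2 ≤ ‖v‖ ^ 2 + ‖w‖ ^ 2) :
    pw q u ≤ pw q v * pw q w := by
  unfold pw
  rw [← ENNReal.ofReal_mul (by positivity), ← mul_pow]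
  refine ENNReal.ofReal_le_ofReal (pow_le_pow_left₀ (by positivity) ?_ q)
  have h1 : ‖u‖ ≤ ‖v‖ + ‖w‖ := by
    refine le_of_sq_le_sq ?_ (by positivity)
    nlinarith [mul_nonneg (norm_nonneg v) (norm_nonneg w)]
  nlinarith [mul_nonneg (norm_nonneg v) (norm_nonneg w)]

/-- The constant of `gw_mul_pw`. -/
def Cgp (b : ℝ) (k : ℕ) : ℝ := (√((k : ℝ) + 1) * (1 + 1 / √b)) ^ k

theorem gw_mul_pw (hb : 0 < b) (k : ℕ) (v : E3) :
    gw b v * pw k v ≤ ENNReal.ofReal (Cgp b k) * gw (b / 2) v := by
  unfold gw pw Cgp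
  rw [← ENNReal.ofReal_mul (by positivity), ← ENNReal.ofReal_mul (by positivity)]
  refine ENNReal.ofReal_le_ofReal ?_
  have h1 := one_add_le (b := b) (x := ‖v‖) (M := (k : ℝ) + 1) hb (by
    have : (0 : ℝ) ≤ k := Nat.cast_nonneg k
    linarith)
  have h2 : (1 + ‖v‖) ^ k ≤ (√((k : ℝ) + 1) * (1 + 1 / √b) *
      Real.exp (b / (2 * ((k : ℝ) + 1)) * ‖v‖ ^ 2)) ^ k :=
    pow_le_pow_left₀ (by positivity) h1 k
  have h3 : (Real.exp (b / (2 * ((k : ℝ) + 1)) * ‖v‖ ^ 2)) ^ k ≤ Real.exp (b / 2 * ‖v‖ ^ 2) := by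
    rw [← Real.exp_nat_mul]
    refine Real.exp_le_exp.2 ?_
    have hk : (0 : ℝ) < (k : ℝ) + 1 := by positivity
    have : (k : ℝ) * (b / (2 * ((k : ℝ) + 1)) * ‖v‖ ^ 2) =
        b / 2 * ‖v‖ ^ 2 * ((k : ℝ) / ((k : ℝ) + 1)) := by
      field_simp
    rw [this]
    refine mul_le_of_le_one_right (by positivity) ?_
    rw [div_le_one hk]
    linarith
  have h4 : Real.exp (-(b / 2) * ‖v‖ ^ 2) =
      Real.exp (-b * ‖v‖ ^ 2) * Real.exp (b / 2 * ‖v‖ ^ 2) := by
    rw [← Real.exp_add]; congr 1; ring
  rw [h4]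
  calc Real.exp (-b * ‖v‖ ^ 2) * (1 + ‖v‖) ^ k
      ≤ Real.exp (-b * ‖v‖ ^ 2) * ((√((k : ℝ) + 1) * (1 + 1 / √b)) ^ k *
        Real.exp (b / 2 * ‖v‖ ^ 2)) := by
        refine mul_le_mul_of_nonneg_left (h2.trans ?_) (Real.exp_pos _).le
        rw [mul_pow]
        exact mul_le_mul_of_nonneg_left h3 (by positivity)
    _ = _ := by ring

/-! ### Hits of a line -/

/-- The Gaussian lines hit by a line in a time window. -/
theorem lintegral_hits_le (hε : 0 < ε) (hb : 0 < b) (l : Ph) (s t : ℝ) :
    ∫⁻ a : Ph, {a : Ph | Meets ε (l, a) ∧ s < hitT ε (l, a) ∧ hitT ε (l, a) < t}.indicator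
      (fun a => muE ε * gw b a.2) a ≤
      ENNReal.ofReal (Real.pi * (t - s)) * I0 b * pw 1 l.2 := by
  have hm : Measurable fun τ : ℝ => (Ioo s t).indicator (fun _ => (1 : ℝ≥0∞)) τ :=
    measurable_const.indicator measurableSet_Ioo
  have h1 := flux_inner (fluxTime_hitT hε) hb (le_refl b) l hm
  have hM : MeasurableSet {a : Ph | Meets ε (l, a)} := measurable_prodMk_left measurableSet_meets
  have e : ∀ a : Ph, {a : Ph | Meets ε (l, a) ∧ s < hitT ε (l, a) ∧
      hitT ε (l, a) < t}.indicator (fun a => muE ε * gw b a.2) a =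
      muE ε * {a : Ph | Meets ε (l, a)}.indicator (fun a => gw b a.2 *
        (Ioo s t).indicator (fun _ => (1 : ℝ≥0∞)) (hitT ε (l, a))) a := by
    intro a
    by_cases h : Meets ε (l, a)
    · rw [indicator_of_mem (show a ∈ {a : Ph | Meets ε (l, a)} from h)]
      by_cases h' : hitT ε (l, a) ∈ Ioo s t
      · rw [indicator_of_mem h', indicator_of_mem
          (show a ∈ {a : Ph | Meets ε (l, a) ∧ s < hitT ε (l, a) ∧ hitT ε (l, a) < t} from
            ⟨h, h'.1, h'.2⟩), mul_one]
      · rw [indicator_of_notMem h', indicator_of_notMem, mul_zero, mul_zero]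
        exact fun hh => h' ⟨hh.2.1, hh.2.2⟩
    · rw [indicator_of_notMem (show a ∉ {a : Ph | Meets ε (l, a)} from h), mul_zero,
        indicator_of_notMem]
      exact fun hh => h hh.1
  simp only [e]
  rw [lintegral_const_mul' _ _ muE_ne_top, lintegral_indicator hM]
  have h2 : ∫⁻ τ, (Ioo s t).indicator (fun _ => (1 : ℝ≥0∞)) τ = ENNReal.ofReal (t - s) := by
    rw [lintegral_indicator measurableSet_Ioo, setLIntegral_const, one_mul, Real.volume_Ioo]
  rw [h2] at h1
  refine (mul_le_mul_right h1 (muE ε)).trans (le_of_eq ?_)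
  have h3 : pw 1 l.2 = ENNReal.ofReal (1 + ‖l.2‖) := by unfold pw; rw [pow_one]
  rw [h3, ENNReal.ofReal_mul Real.pi_pos.le]
  have h4 := muE_mul hε
  calc _ = (muE ε * ENNReal.ofReal (ε ^ 2)) * (ENNReal.ofReal Real.pi * I0 b *
        (ENNReal.ofReal (1 + ‖l.2‖) * ENNReal.ofReal (t - s))) := by ring
    _ = _ := by rw [h4, one_mul]; ring

/-- The constant of `poly_mass`. -/
def polyC (b T₀ : ℝ) : ℕ → ℕ → ℝ≥0∞
  | 0, _ => 1
  | m + 1, q => polyC b T₀ m q *
      (ENNReal.ofReal (Cgp b (q + m)) * (ENNReal.ofReal (Real.pi * T₀) * I0 (b / 2)))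

theorem polyC_ne_top {b T₀ : ℝ} (hb : 0 < b) (m q : ℕ) : polyC b T₀ m q ≠ ∞ := by
  induction m with
  | zero => exact ENNReal.one_ne_top
  | succ m ih =>
    exact ENNReal.mul_ne_top ih (ENNReal.mul_ne_top ENNReal.ofReal_ne_top
      (ENNReal.mul_ne_top ENNReal.ofReal_ne_top (I0_ne_top (by positivity))))

/-- **Polynomial chain mass.** -/
theorem poly_mass {T₀ : ℝ} (hε : 0 < ε) (hb : 0 < b) (q m : ℕ) :
    ∀ (S : ℕ → Step) (s : ℝ) (l : Ph), t - s ≤ T₀ →
      ∫⁻ p : Fin m → Ph, {p | Chain ε t S m s l p}.indicator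
        (fun p => FL.wt b ε m p * pw q (line S m l p).2) p ≤ polyC b T₀ m q * pw (q + m) l.2 := by
  induction m with
  | zero =>
    intro S s l _
    have h1 : (volume : Measure (Fin 0 → Ph)) univ = 1 := by
      rw [volume_pi, Measure.pi_univ]; simp
    simp [Chain, FL.wt, lintegral_unique, h1, polyC, line]
  | succ m ih =>
    intro S s l hst
    have hmeas : Measurable ({p : Fin (m + 1) → Ph | Chain ε t S (m + 1) s l p}.indicator
        (fun p => FL.wt b ε (m + 1) p * pw q (line S (m + 1) l p).2)) := by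
      refine Measurable.indicator ?_ ?_
      · exact (FL.measurable_wt b ε (m + 1)).mul ((measurable_pw' q).comp (measurable_snd.comp
          ((measurable_line (m + 1) S).comp (measurable_const.prodMk measurable_id))))
      · exact (measurable_const.prodMk (measurable_const.prodMk measurable_id) :
          Measurable fun p : Fin (m + 1) → Ph => (s, l, p)) (measurableSet_chain (m + 1) S)
    rw [lintegral_cons hmeas]
    set D : Set Ph := {a : Ph | Meets ε (l, a) ∧ s < hitT ε (l, a) ∧ hitT ε (l, a) < t} with hD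
    have hin : ∀ a : Ph, ∫⁻ p' : Fin m → Ph, {p | Chain ε t S (m + 1) s l p}.indicator
        (fun p => FL.wt b ε (m + 1) p * pw q (line S (m + 1) l p).2) (Fin.cons a p') ≤
        polyC b T₀ m q * pw (q + m) l.2 * ENNReal.ofReal (Cgp b (q + m)) *
          D.indicator (fun a => muE ε * gw (b / 2) a.2) a := by
      intro a
      by_cases ha : a ∈ D
      · have h1 : ∀ p' : Fin m → Ph, {p | Chain ε t S (m + 1) s l p}.indicator
            (fun p => FL.wt b ε (m + 1) p * pw q (line S (m + 1) l p).2) (Fin.cons a p') =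
            muE ε * gw b a.2 * {p | Chain ε t (fun n => S (n + 1)) m (hitT ε (l, a))
              ((S 0).f (l, a)) p}.indicator (fun p => FL.wt b ε m p *
                pw q (line (fun n => S (n + 1)) m ((S 0).f (l, a)) p).2) p' := by
          intro p'
          by_cases hp : Chain ε t (fun n => S (n + 1)) m (hitT ε (l, a)) ((S 0).f (l, a)) p'
          · rw [indicator_of_mem (show p' ∈ {p | _} from hp), indicator_of_mem
              (show (Fin.cons a p' : Fin (m + 1) → Ph) ∈ {p | Chain ε t S (m + 1) s l p} from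
                ⟨ha.1, ha.2.1, ha.2.2, hp⟩), wt_cons]
            change muE ε * ENNReal.ofReal (Real.exp (-b * ‖a.2‖ ^ 2)) * FL.wt b ε m p' *
              pw q (line (fun n => S (n + 1)) m ((S 0).f (l, a)) p').2 = _
            unfold gw
            ring
          · rw [indicator_of_notMem (show p' ∉ {p | _} from hp), indicator_of_notMem, mul_zero]
            rintro ⟨-, -, -, h⟩
            exact hp h
        simp only [h1]
        have hne : muE ε * gw b a.2 ≠ ∞ := ENNReal.mul_ne_top muE_ne_top ENNReal.ofReal_ne_top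
        rw [lintegral_const_mul' _ _ hne, indicator_of_mem ha]
        have h2 := ih (fun n => S (n + 1)) (hitT ε (l, a)) ((S 0).f (l, a))
          (by have := ha.2.1; linarith)
        have h3 : pw (q + m) ((S 0).f (l, a)).2 ≤ pw (q + m) l.2 * pw (q + m) a.2 :=
          pw_le_mul ((S 0).energy (l, a))
        calc muE ε * gw b a.2 * _ ≤ muE ε * gw b a.2 * (polyC b T₀ m q *
              (pw (q + m) l.2 * pw (q + m) a.2)) := by
              gcongr
              exact h2.trans (by gcongr)
          _ = polyC b T₀ m q * pw (q + m) l.2 * muE ε * (gw b a.2 * pw (q + m) a.2) := by ring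
          _ ≤ polyC b T₀ m q * pw (q + m) l.2 * muE ε *
              (ENNReal.ofReal (Cgp b (q + m)) * gw (b / 2) a.2) :=
              mul_le_mul_right (gw_mul_pw hb _ _) _
          _ = _ := by ring
      · have h1 : ∀ p' : Fin m → Ph, {p | Chain ε t S (m + 1) s l p}.indicator
            (fun p => FL.wt b ε (m + 1) p * pw q (line S (m + 1) l p).2) (Fin.cons a p') = 0 := by
          intro p'
          refine indicator_of_notMem ?_ _
          rintro ⟨h1, h2, h3, -⟩
          exact ha ⟨h1, h2, h3⟩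
        simp only [h1, lintegral_zero]
        exact zero_le
    refine (lintegral_mono hin).trans ?_
    have hne : polyC b T₀ m q * pw (q + m) l.2 * ENNReal.ofReal (Cgp b (q + m)) ≠ ∞ :=
      ENNReal.mul_ne_top (ENNReal.mul_ne_top (polyC_ne_top hb _ _) (pw_ne_top _ _))
        ENNReal.ofReal_ne_top
    rw [lintegral_const_mul' _ _ hne]
    refine (mul_le_mul_right (lintegral_hits_le hε (by positivity : 0 < b / 2) l s t) _).trans ?_
    calc polyC b T₀ m q * pw (q + m) l.2 * ENNReal.ofReal (Cgp b (q + m)) *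
          (ENNReal.ofReal (Real.pi * (t - s)) * I0 (b / 2) * pw 1 l.2)
        ≤ polyC b T₀ m q * pw (q + m) l.2 * ENNReal.ofReal (Cgp b (q + m)) *
          (ENNReal.ofReal (Real.pi * T₀) * I0 (b / 2) * pw 1 l.2) := by
          gcongr
      _ = polyC b T₀ (m + 1) q * (pw (q + m) l.2 * pw 1 l.2) := by
          change _ = polyC b T₀ m q *
            (ENNReal.ofReal (Cgp b (q + m)) * (ENNReal.ofReal (Real.pi * T₀) * I0 (b / 2))) * _
          ring
      _ = _ := by rw [← pw_add, ← add_assoc]

/-! ### The law of the root lines -/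

/-- The root lines of the trees with law `Θ` have density at most `K μ e^{-b |v|²}`. -/
def LineLaw (Φ : E3 → ℝ) (ε b : ℝ) (K : ℝ≥0∞) (Θ : Measure CTree) : Prop :=
  ∀ F : Ph → ℝ≥0∞, Measurable F →
    ∫⁻ T, F (ln Φ ε T) ∂Θ ≤ K * ∫⁻ z : Ph, muE ε * gw b z.2 * F z

theorem sum_bool_cons {m : ℕ} (f : (Fin (m + 1) → Bool) → ℝ≥0∞) :
    ∑ o : Fin (m + 1) → Bool, f o = ∑ o₀ : Bool, ∑ o : Fin m → Bool, f (Fin.cons o₀ o) := by
  rw [← (Fin.consEquiv fun _ : Fin (m + 1) => Bool).sum_comp, Fintype.sum_prod_type]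
  rfl

/-- **The law of a spine.** -/
theorem spM_lines (hΦ : IsPotential Φ) (hε : ε ≠ 0) {K : ℝ≥0∞} {Θ : Measure CTree}
    [SigmaFinite Θ] (hK : LineLaw Φ ε b K Θ) (m : ℕ) :
    ∀ {G : (Fin m → Bool × Ph) → ℝ≥0∞}, Measurable G →
    ∫⁻ r, G (fun i => ((r i).1, ln Φ ε (r i).2)) ∂(spM Θ m) ≤
      K ^ m * ∑ o : Fin m → Bool, ∫⁻ p : Fin m → Ph, FL.wt b ε m p * G fun i => (o i, p i) := by
  induction m with
  | zero =>
    intro G _
    rw [lintegral_spM_zero, pow_zero, one_mul]
    have h1 : (volume : Measure (Fin 0 → Ph)) univ = 1 := by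
      rw [volume_pi, Measure.pi_univ]; simp
    have h2 : ∀ (o : Fin 0 → Bool) (p : Fin 0 → Ph), (fun i => (o i, p i)) =
        fun i : Fin 0 => ((Fin.elim0 i : Bool × CTree).1, ln Φ ε (Fin.elim0 i : Bool × CTree).2) :=
      fun o p => funext fun i => i.elim0
    simp only [h2, wt_zero, one_mul, lintegral_const, h1, mul_one]
    rw [Finset.sum_const, Finset.card_univ]
    simp
  | succ m ih =>
    intro G hG
    have hl := measurable_ln (Φ := Φ) (ε := ε) hΦ hε
    have hGl : Measurable fun r : Fin (m + 1) → Bool × CTree =>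
        G fun i => ((r i).1, ln Φ ε (r i).2) :=
      hG.comp (measurable_pi_iff.2 fun i => ((measurable_pi_apply i).fst).prodMk
        (hl.comp (measurable_pi_apply i).snd))
    rw [lintegral_spM_succ Θ m hGl]
    have hcons : ∀ (o : Bool) (S : CTree) (r : Fin m → Bool × CTree),
        (fun i => (((Fin.cons (o, S) r : Fin (m + 1) → Bool × CTree) i).1,
          ln Φ ε ((Fin.cons (o, S) r : Fin (m + 1) → Bool × CTree) i).2)) =
        (Fin.cons (o, ln Φ ε S) fun i => ((r i).1, ln Φ ε (r i).2) : Fin (m + 1) → Bool × Ph) := by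
      intro o S r
      funext i
      induction i using Fin.cases with
      | zero => rfl
      | succ i => rfl
    simp only [hcons]
    have hGc : ∀ (o : Bool), Measurable fun q : Ph × (Fin m → Bool × Ph) =>
        G (Fin.cons (o, q.1) q.2) := fun o =>
      hG.comp (measurable_fcons.comp ((measurable_const.prodMk measurable_fst).prodMk
        measurable_snd))
    have h1 : ∀ (o : Bool) (S : CTree),
        ∫⁻ r, G (Fin.cons (o, ln Φ ε S) fun i => ((r i).1, ln Φ ε (r i).2)) ∂(spM Θ m) ≤
        K ^ m * ∑ o' : Fin m → Bool, ∫⁻ p : Fin m → Ph, FL.wt b ε m p *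
          G (Fin.cons (o, ln Φ ε S) fun i => (o' i, p i)) := fun o S =>
      ih ((hGc o).comp (measurable_const.prodMk measurable_id))
    have hH : ∀ o : Bool, Measurable fun z : Ph => K ^ m * ∑ o' : Fin m → Bool,
        ∫⁻ p : Fin m → Ph, FL.wt b ε m p * G (Fin.cons (o, z) fun i => (o' i, p i)) := fun o => by
      refine Measurable.const_mul (Finset.measurable_sum _ fun o' _ => ?_) _
      have h : Measurable fun q : Ph × (Fin m → Ph) =>
          FL.wt b ε m q.2 * G (Fin.cons (o, q.1) fun i => (o' i, q.2 i)) := by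
        refine ((FL.measurable_wt b ε m).comp measurable_snd).mul ((hGc o).comp
          (measurable_fst.prodMk (measurable_pi_iff.2 fun i => ?_)))
        exact measurable_const.prodMk ((measurable_pi_apply i).comp measurable_snd)
      exact h.lintegral_prod_right'
    calc ∑ o : Bool, ∫⁻ S, ∫⁻ r, G (Fin.cons (o, ln Φ ε S) fun i => ((r i).1, ln Φ ε (r i).2))
            ∂(spM Θ m) ∂Θ
        ≤ ∑ o : Bool, K * ∫⁻ z : Ph, muE ε * gw b z.2 * (K ^ m * ∑ o' : Fin m → Bool,
            ∫⁻ p : Fin m → Ph, FL.wt b ε m p * G (Fin.cons (o, z) fun i => (o' i, p i))) :=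
          Finset.sum_le_sum fun o _ => (lintegral_mono (h1 o)).trans (hK _ (hH o))
      _ = K ^ (m + 1) * ∑ o : Bool, ∑ o' : Fin m → Bool, ∫⁻ z : Ph, ∫⁻ p : Fin m → Ph,
            (muE ε * gw b z.2) * (FL.wt b ε m p * G (Fin.cons (o, z) fun i => (o' i, p i))) := by
          rw [Finset.mul_sum]
          refine Finset.sum_congr rfl fun o _ => ?_
          have hm2 : ∀ o' : Fin m → Bool, Measurable fun q : Ph × (Fin m → Ph) =>
              muE ε * gw b q.1.2 * (FL.wt b ε m q.2 *
                G (Fin.cons (o, q.1) fun i => (o' i, q.2 i))) := fun o' => by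
            refine Measurable.mul (((measurable_gw b).comp (measurable_snd.comp
              measurable_fst)).const_mul _) ?_
            refine ((FL.measurable_wt b ε m).comp measurable_snd).mul ((hGc o).comp
              (measurable_fst.prodMk (measurable_pi_iff.2 fun i => ?_)))
            exact measurable_const.prodMk ((measurable_pi_apply i).comp measurable_snd)
          have e1 : ∀ z : Ph, muE ε * gw b z.2 * (K ^ m * ∑ o' : Fin m → Bool,
              ∫⁻ p : Fin m → Ph, FL.wt b ε m p * G (Fin.cons (o, z) fun i => (o' i, p i))) =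
              K ^ m * ∑ o' : Fin m → Bool, ∫⁻ p : Fin m → Ph, (muE ε * gw b z.2) *
                (FL.wt b ε m p * G (Fin.cons (o, z) fun i => (o' i, p i))) := by
            intro z
            have hne : muE ε * gw b z.2 ≠ ∞ := ENNReal.mul_ne_top muE_ne_top ENNReal.ofReal_ne_top
            simp only [lintegral_const_mul' _ _ hne]
            rw [← Finset.mul_sum]
            ring
          simp only [e1]
          have hm3 : ∀ o' : Fin m → Bool, Measurable fun z : Ph => ∫⁻ p : Fin m → Ph,
              (muE ε * gw b z.2) * (FL.wt b ε m p * G (Fin.cons (o, z) fun i => (o' i, p i))) :=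
            fun o' => (hm2 o').lintegral_prod_right'
          rw [lintegral_const_mul _ (Finset.measurable_sum _ fun o' _ => hm3 o'),
            lintegral_finsetSum _ fun o' _ => hm3 o', pow_succ]
          ring
      _ = _ := by
          rw [sum_bool_cons]
          refine congrArg (fun x => K ^ (m + 1) * x) ?_
          refine Finset.sum_congr rfl fun o _ => Finset.sum_congr rfl fun o' _ => ?_
          have hm4 : Measurable fun p : Fin (m + 1) → Ph => FL.wt b ε (m + 1) p *
              G fun i => ((Fin.cons o o' : Fin (m + 1) → Bool) i, p i) := by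
            refine (FL.measurable_wt b ε (m + 1)).mul (hG.comp (measurable_pi_iff.2 fun i => ?_))
            exact measurable_const.prodMk (measurable_pi_apply i)
          rw [lintegral_cons hm4]
          refine lintegral_congr fun z => lintegral_congr fun p => ?_
          rw [wt_cons]
          have e2 : (fun i => ((Fin.cons o o' : Fin (m + 1) → Bool) i,
              (Fin.cons z p : Fin (m + 1) → Ph) i)) =
              (Fin.cons (o, z) fun i => (o' i, p i) : Fin (m + 1) → Bool × Ph) := by
            funext i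
            induction i using Fin.cases with
            | zero => rfl
            | succ i => rfl
          rw [e2]
          unfold gw
          ring

end Vale.Agent.P119.M
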