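import Vale.Agent.P119.PB.CreInt2
import Vale.Agent.P119.PB.Lines
import Vale.Agent.P119.PB.ContFin
import Vale.Agent.P119.PB.ContExc

/-!
# P119, block PROB, P9 (contamination): creation, the estimates (`helper456`)

* `typI_top_le`: the hits with trees of maximal depth;
* `creS_le`: extraction of the creating trees and pairs from the gas;
* `XP_cep_le`: creation by a colliding pair.
-/

open MeasureTheory Filter Topology Set
open scoped ENNReal NNReal

noncomputable section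

namespace Vale.Agent.P119.PB

open M CTree KU RB FB AU FL

variable {Φ : E3 → ℝ} {ε : ℝ} {L : ℕ} {f₀ : Ph → ℝ} {κ b t T : ℝ}

theorem typI_le_const {Tm : ℝ} (hTm : 0 ≤ Tm) {α : ℕ → ℝ≥0∞} {F : Src → ℝ≥0∞} {M : ℝ≥0∞}
    (h : ∀ s ∈ Icc 0 Tm, ∀ d : ℕ, ∫⁻ z : Ph, gw b z.2 * F (s, z, d) ≤ M) :
    typI b Tm α F ≤ (∑' d, α d) * (ENNReal.ofReal (1 + Tm) * M) := by
  rw [← ENNReal.tsum_mul_right]
  refine ENNReal.tsum_le_tsum fun d => mul_le_mul_right ?_ _
  calc (∫⁻ z : Ph, gw b z.2 * F (0, z, d)) + ∫⁻ s in Icc 0 Tm, ∫⁻ z : Ph, gw b z.2 * F (s, z, d)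
      ≤ M + ∫⁻ _ in Icc 0 Tm, M := add_le_add (h 0 ⟨le_rfl, hTm⟩ d)
        (setLIntegral_mono' measurableSet_Icc fun s hs => h s hs d)
    _ = ENNReal.ofReal (1 + Tm) * M := by
        rw [lintegral_const, Measure.restrict_apply_univ, Real.volume_Icc, sub_zero,
          ENNReal.ofReal_add zero_le_one hTm, ENNReal.ofReal_one, add_mul, one_mul, mul_comm M]

theorem gw_mul_vp (hb : 0 < b) (k : ℕ) (σ : Src) :
    gw b σ.2.1.2 * EX.vp k σ ≤ ENNReal.ofReal (Cgp b k) * gw (b / 2) σ.2.1.2 :=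
  gw_mul_pw hb k σ.2.1.2

/-- The number of trees of maximal depth which are hit. -/
theorem lintegral_topN_le (h₀ : GoodDatum f₀ κ) (hΦ : IsPotential Φ) (hε : 0 < ε) (σ : Src) :
    ∫⁻ c, topN Φ ε L t (wS (GC.pts c)) σ ∂(GC.PP f₀ ε) ≤
      XI f₀ Φ ε L t σ fun _ S => ind (S.depth = L) := by
  refine sum_hit_le h₀ hΦ hε (G := fun _ S => ind (S.depth = L)) ?_
  exact measurable_ind ((measurable_depth.comp measurable_fst) (measurableSet_singleton L))

open Classical in
/-- **The hits with the trees of maximal depth.** -/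
theorem typI_top_le (h₀ : GoodDatum f₀ κ) (hΦ : IsPotential Φ) (hε : 0 < ε) (hb : 0 < b)
    (hT : 0 ≤ T) (α : ℕ → ℝ≥0∞) :
    typI b T α (fun σ => ∫⁻ c, (if σ.2.2 ≤ L then EX.vp 2 σ *
      topN Φ ε L T (wS (GC.pts c)) σ else 0) ∂(GC.PP f₀ ε)) ≤
      (∑' d, α d) * (ENNReal.ofReal (1 + T) * (ENNReal.ofReal (Cgp b 2) *
        (ENNReal.ofReal (ε ^ 2) * (ENNReal.ofReal Real.pi * I0 (b / 2)) *
          (ENNReal.ofReal T * XX Φ ε L f₀ T fun _ S => wln Φ ε S * ind (S.depth = L))))) := by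
  refine typI_le_const hT fun s hs d => ?_
  have hm : ∀ σ : Src, Measurable fun c : GC.Conf Ph => topN Φ ε L T (wS (GC.pts c)) σ :=
    fun σ => meas_left (F := fun (c : GC.Conf Ph) (σ : Src) =>
      topN Φ ε L T (wS (GC.pts c)) σ) (measurable_topN hΦ hε) σ
  have h1 : ∀ z : Ph, ∫⁻ c, (if ((s, z, d) : Src).2.2 ≤ L then EX.vp 2 (s, z, d) *
      topN Φ ε L T (wS (GC.pts c)) (s, z, d) else 0) ∂(GC.PP f₀ ε) ≤
      EX.vp 2 (s, z, d) * XI f₀ Φ ε L T (s, z, d) fun _ S =>
        ind (hitT ε (z, ln Φ ε S) ≤ s + T) * ind (S.depth = L) := by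
    intro z
    refine le_trans (lintegral_mono fun c => (?_ : _ ≤ EX.vp 2 (s, z, d) *
      topN Φ ε L T (wS (GC.pts c)) (s, z, d))) ?_
    · split_ifs
      · exact le_rfl
      · exact zero_le
    rw [lintegral_const_mul _ (hm _)]
    refine mul_le_mul_right ((lintegral_topN_le h₀ hΦ hε _).trans ?_) _
    unfold XI
    refine XX_mono fun U S _ => ?_
    by_cases h : hitI ε T (s, z, d) (ln Φ ε S)
    · have h5 : hitT ε (z, ln Φ ε S) ≤ s + T := h.2.2.trans (by linarith [hs.1])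
      simp only [ind_of h, ind_of h5, one_mul, le_refl]
    · rw [ind_of_not h, zero_mul]
      exact zero_le
  have hH : Measurable fun p : CTree × GC.Conf Ph => ind (p.1.depth = L) :=
    measurable_ind ((measurable_depth.comp measurable_fst) (measurableSet_singleton L))
  have h2 := EX.XI_line_le (L := L) h₀ hΦ hε (half_pos hb) s T T d
    (H := fun _ S => ind (S.depth = L)) hH
  calc _ ≤ ∫⁻ z : Ph, ENNReal.ofReal (Cgp b 2) * (gw (b / 2) z.2 *
        XI f₀ Φ ε L T (s, z, d) fun _ S =>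
          ind (hitT ε (z, ln Φ ε S) ≤ s + T) * ind (S.depth = L)) := by
        refine lintegral_mono fun z => ?_
        refine (mul_le_mul_right (h1 z) _).trans ?_
        rw [← mul_assoc, ← mul_assoc]
        exact mul_le_mul_left (gw_mul_vp hb 2 (s, z, d)) _
    _ = ENNReal.ofReal (Cgp b 2) * ∫⁻ z : Ph, (gw (b / 2) z.2 *
        XI f₀ Φ ε L T (s, z, d) fun _ S =>
          ind (hitT ε (z, ln Φ ε S) ≤ s + T) * ind (S.depth = L)) :=
        lintegral_const_mul' _ _ ENNReal.ofReal_ne_top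
    _ ≤ _ := by
        refine mul_le_mul_right (h2.trans (mul_le_mul_right (mul_le_mul_left ?_ _) _)) _
        refine ENNReal.ofReal_le_ofReal ?_
        have := min_le_left T (s + T)
        linarith [hs.1]

/-! ### Extraction -/

section extraction

variable {hΦ : IsPotential Φ} {hε : 0 < ε} {η : ℝ}

theorem measurableSet_CEFi (t : ℝ) : MeasurableSet {p : CTree × GC.Conf Ph |
    CEF L hΦ hε (addT (wS (GC.pts p.2)) p.1) t p.1} := by
  have h1 : MM.RS fun p : CTree × GC.Conf Ph =>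
      ((addT (wS (GC.pts p.2)) p.1 : Finset Src) : Set Src) :=
    rs_addT rs_wS_tree measurable_fst
  exact RM.measurableSet_CEF h1 measurable_const measurable_fst

theorem measurableSet_CEPi (t : ℝ) : MeasurableSet {p : (CTree × CTree) × GC.Conf Ph |
    CEP L hΦ hε (addT (wS (GC.pts p.2)) (node p.1.1 p.1.2)) t p.1.1 p.1.2} := by
  have hT : Measurable fun p : (CTree × CTree) × GC.Conf Ph => node p.1.1 p.1.2 :=
    measurable_node.comp measurable_fst
  have h1 : MM.RS fun p : (CTree × CTree) × GC.Conf Ph =>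
      ((addT (wS (GC.pts p.2)) (node p.1.1 p.1.2) : Finset Src) : Set Src) :=
    rs_addT rs_wS_pair hT
  exact RM.measurableSet_CEP h1 measurable_const (measurable_fst.comp measurable_fst)
    (measurable_snd.comp measurable_fst)

/-- The creating trees of a world are inserted trees. -/
theorem CEFi_of_CEF (hη : 0 < η) (ht : 0 ≤ t) {W : Finset Src} {S : CTree}
    (h : CEF L hΦ hε W (hz L hΦ hε η t W) S) :
    alT Φ ε L t (rm W S) S ∧ CEF L hΦ hε (addT (rm W S) S) t S := by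
  have h1 := h.live
  have h2 := alive_pre h1
  have hadd := addT_rm h2.sub
  refine ⟨⟨h2.ok, h2.depth, h.ext_le.trans (hz_le hη ht), ?_⟩, ?_⟩
  · rw [hadd]
    exact h1
  · rw [hadd]
    exact h.mono (hz_le hη ht)

/-- The creating pairs of a world are inserted pairs. -/
theorem CEPi_of_CEP (hη : 0 < η) (ht : 0 ≤ t) {W : Finset Src} {x y : CTree}
    (h : CEP L hΦ hε W (hz L hΦ hε η t W) x y) :
    coT Φ ε L t (rm W (node x y)) x y ∧ CEP L hΦ hε (addT (rm W (node x y)) (node x y)) t x y := by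
  have h1 := h.live
  refine ⟨coT_of_live h1 (h.sig_le.trans (hz_le hη ht)), ?_⟩
  rw [addT_rm h1.sub]
  exact h.mono (hz_le hη ht)

/-- **Extraction, flying creation.** -/
theorem sum_CEF_le (h : GoodDatum f₀ κ) (hη : 0 < η) (ht : 0 ≤ t) :
    ∫⁻ c, ∑ T ∈ trs L (wS (GC.pts c)),
      wq Φ ε T * ind (CEF L hΦ hε (wS (GC.pts c)) (hz L hΦ hε η t (wS (GC.pts c))) T)
        ∂(GC.PP f₀ ε) ≤
      XX Φ ε L f₀ t (fun U T => wq Φ ε T * ind (CEF L hΦ hε (addT U T) t T)) := by
  classical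
  refine le_trans (lintegral_mono fun c => ?_) (gibbs hΦ h hε
    (measurable_wq_ind hΦ hε (P := fun c T => CEF L hΦ hε (addT (wS (GC.pts c)) T) t T)
      (measurableSet_CEFi t)))
  refine le_trans (Finset.sum_le_sum fun T hT => ?_) (ENNReal.sum_le_tsum (trs L (wS (GC.pts c))))
  obtain ⟨h1, -⟩ := mem_trs.1 hT
  rw [if_pos h1]
  by_cases hF : CEF L hΦ hε (wS (GC.pts c)) (hz L hΦ hε η t (wS (GC.pts c))) T
  · obtain ⟨h2, h3⟩ := CEFi_of_CEF hη ht hF
    rw [ind_of hF, ind_of h2, ind_of h3, one_mul]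
  · rw [ind_of_not hF, mul_zero]
    exact zero_le

/-- **Extraction, colliding creation.** -/
theorem sum_CEP_le (h : GoodDatum f₀ κ) (hη : 0 < η) (ht : 0 ≤ t) :
    ∫⁻ c, ∑ T ∈ trs L (wS (GC.pts c)), onN (fun x y => wqP Φ ε x y *
      ind (CEP L hΦ hε (wS (GC.pts c)) (hz L hΦ hε η t (wS (GC.pts c))) x y)) T
        ∂(GC.PP f₀ ε) ≤
      XP Φ ε L f₀ t (fun U x y => wqP Φ ε x y *
        ind (CEP L hΦ hε (addT U (node x y)) t x y)) := by
  refine le_trans (lintegral_mono fun c => ?_) (gibbsP hΦ h hε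
    (measurable_wqP_ind hΦ hε (P := fun c x y =>
      CEP L hΦ hε (addT (wS (GC.pts c)) (node x y)) t x y) (measurableSet_CEPi t)))
  refine Finset.sum_le_sum fun T hT => ?_
  cases T with
  | leaf a => exact le_rfl
  | node x y =>
    rw [onN_node, onN_node]
    by_cases hF : CEP L hΦ hε (wS (GC.pts c)) (hz L hΦ hε η t (wS (GC.pts c))) x y
    · obtain ⟨h2, h3⟩ := CEPi_of_CEP hη ht hF
      rw [ind_of hF, ind_of h2, ind_of h3, one_mul]
    · rw [ind_of_not hF, mul_zero]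
      exact zero_le

/-- **Extraction**: the creation terms. -/
theorem creS_le (h : GoodDatum f₀ κ) (hη : 0 < η) (ht : 0 ≤ t) :
    creS L hΦ hε f₀ η t ≤
      XX Φ ε L f₀ t (fun U T => wq Φ ε T * ind (CEF L hΦ hε (addT U T) t T)) +
      XP Φ ε L f₀ t (fun U x y => wqP Φ ε x y *
        ind (CEP L hΦ hε (addT U (node x y)) t x y)) := by
  have m1 : Measurable fun c : GC.Conf Ph => ∑ T ∈ trs L (wS (GC.pts c)),
      wq Φ ε T * ind (CEF L hΦ hε (wS (GC.pts c)) (hz L hΦ hε η t (wS (GC.pts c))) T) := by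
    have h1 : MM.RS fun p : GC.Conf Ph × CTree => (wS (GC.pts p.1) : Set Src) :=
      RM.rs_wS measurable_fst
    have h2 : Measurable fun p : GC.Conf Ph × CTree => wq Φ ε p.2 *
        ind (CEF L hΦ hε (wS (GC.pts p.1)) (hz L hΦ hε η t (wS (GC.pts p.1))) p.2) :=
      ((measurable_wq hΦ hε).comp measurable_snd).mul (measurable_ind (RM.measurableSet_CEF h1
        (RM.measurable_hz h1 measurable_const measurable_const) measurable_snd))
    exact RM.measurable_sum_trs RM.rs_conf h2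
  calc creS L hΦ hε f₀ η t
      = ∫⁻ c, ((∑ T ∈ trs L (wS (GC.pts c)),
          wq Φ ε T * ind (CEF L hΦ hε (wS (GC.pts c)) (hz L hΦ hε η t (wS (GC.pts c))) T)) +
        ∑ T ∈ trs L (wS (GC.pts c)), onN (fun x y => wqP Φ ε x y *
          ind (CEP L hΦ hε (wS (GC.pts c)) (hz L hΦ hε η t (wS (GC.pts c))) x y)) T)
          ∂(GC.PP f₀ ε) := by
        unfold creS
        exact lintegral_congr fun c => Finset.sum_add_distrib
    _ = _ := lintegral_add_left m1 _
    _ ≤ _ := add_le_add (sum_CEF_le h hη ht) (sum_CEP_le h hη ht)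

/-- **Creation, colliding**, in terms of the exceptional events. -/
theorem XP_cep_le (h₀ : GoodDatum f₀ κ) :
    XP Φ ε L f₀ t (fun U x y => wqP Φ ε x y * ind (CEP L hΦ hε (addT U (node x y)) t x y)) ≤
      XP Φ ε L f₀ t (fun U x y => wqP Φ ε x y * ind (BadQ L hΦ hε t U x y)) +
      XP Φ ε L f₀ t (fun U x y => wqP Φ ε x y * ind (TriP Φ ε L U x y t)) := by
  have m1 : Measurable fun p : (CTree × CTree) × GC.Conf Ph => wqP Φ ε p.1.1 p.1.2 *
      ind (BadQ L hΦ hε t (wS (GC.pts p.2)) p.1.1 p.1.2) :=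
    measurable_wqP_ind hΦ hε (P := fun c x y => BadQ L hΦ hε t (wS (GC.pts c)) x y)
      (ContExc.measurableSet_BadQ t)
  rw [← XP_add hΦ hε m1 h₀]
  refine XP_mono' fun c x y hxy => ?_
  rw [← mul_add]
  exact mul_le_mul_right (cep_le (EX.wS_birth _) hxy) _

end extraction

end Vale.Agent.P119.PB
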