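import Vale.Agent.P119.PB.Op3
import Vale.Agent.P119.PB.TreeMeas

/-!
# P119, block PROB: the mass of the trees of given depth, fixed world (`helper347`)

`Al` is a set of trees (those which are alive in a fixed world) with
`law of rsrc on Al ≤ μ (typ + at)`.  With the weight `wB c T₀ Λ τ v = exp(-Λ τ + β(τ) |v|²)`,
`β(τ) = c (1 - τ / (2 T₀))`, the mass `DMass d` of the trees of `Al` of depth `d` satisfies
`DMass (d+1) ≤ κ DMass d + errors`, `κ = C / √Λ`.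
-/

open MeasureTheory Set Filter Topology Metric ProbabilityTheory
open scoped ENNReal

namespace Vale.Agent.P119.PB

open KU FL M CTree

variable {Φ : E3 → ℝ} {ε : ℝ}

/-- The weight of a root line born at the time `τ`. -/
noncomputable def wB (c T₀ Λ τ : ℝ) (v : E3) : ℝ≥0∞ :=
  ENNReal.ofReal (Real.exp (-(Λ * τ) + bt c T₀ τ * ‖v‖ ^ 2))

theorem measurable_bt (c T₀ : ℝ) : Measurable (bt c T₀) := by unfold bt; fun_prop

theorem measurable_wB (c T₀ Λ : ℝ) : Measurable fun q : ℝ × E3 => wB c T₀ Λ q.1 q.2 := by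
  unfold wB
  have := measurable_bt c T₀
  fun_prop

theorem wB_ne_top {c T₀ Λ τ : ℝ} {v : E3} : wB c T₀ Λ τ v ≠ ∞ := ENNReal.ofReal_ne_top

/-- The weight decreases in time and is increasing in the energy. -/
theorem wB_le {c T₀ Λ τ σ : ℝ} (hc : 0 < c) (hT : 0 < T₀) (hΛ : 0 ≤ Λ) (h : τ ≤ σ) (hσ : σ ≤ T₀)
    {v : E3} {e : ℝ} (he : ‖v‖ ^ 2 ≤ e) :
    wB c T₀ Λ σ v ≤ ENNReal.ofReal (Real.exp (-(Λ * τ) + bt c T₀ τ * e)) := by
  unfold wB
  apply ENNReal.ofReal_le_ofReal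
  apply Real.exp_le_exp.2
  have h1 : bt c T₀ σ ≤ bt c T₀ τ := by
    unfold bt
    have : 0 < c / (2 * T₀) := by positivity
    nlinarith
  have h2 : 0 ≤ bt c T₀ σ := by
    have := le_bt hc hT hσ
    linarith
  have h3 : bt c T₀ σ * ‖v‖ ^ 2 ≤ bt c T₀ τ * e :=
    mul_le_mul h1 he (sq_nonneg _) (h2.trans h1)
  have h4 : Λ * τ ≤ Λ * σ := by gcongr
  linarith

/-- The two-line kernel. -/
noncomputable def HB (ε c T₀ Λ : ℝ) (s : ℝ) (l l' : Ph) : ℝ≥0∞ :=
  {l' : Ph | Meets ε (l, l') ∧ hitT ε (l, l') ∈ Ioc s T₀}.indicator (fun l' =>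
    ENNReal.ofReal (Real.exp (-(Λ * hitT ε (l, l')) +
      bt c T₀ (hitT ε (l, l')) * (‖l.2‖ ^ 2 + ‖l'.2‖ ^ 2)))) l'

theorem measurable_HB (c T₀ Λ : ℝ) : Measurable fun q : (ℝ × Ph) × Ph =>
    HB ε c T₀ Λ q.1.1 q.1.2 q.2 := by
  have hq : Measurable fun q : (ℝ × Ph) × Ph => ((q.1.2, q.2) : Ph × Ph) :=
    (measurable_snd.comp measurable_fst).prodMk measurable_snd
  have hh : Measurable fun q : (ℝ × Ph) × Ph => hitT ε (q.1.2, q.2) := measurable_hitT.comp hq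
  have hS : MeasurableSet {q : (ℝ × Ph) × Ph | Meets ε (q.1.2, q.2) ∧
      hitT ε (q.1.2, q.2) ∈ Ioc q.1.1 T₀} :=
    (hq measurableSet_meets).inter
      ((measurableSet_lt (measurable_fst.comp measurable_fst) hh).inter
        (measurableSet_le hh measurable_const))
  have hb : Measurable fun q : (ℝ × Ph) × Ph => bt c T₀ (hitT ε (q.1.2, q.2)) :=
    (measurable_bt c T₀).comp hh
  have hv : Measurable fun q : (ℝ × Ph) × Ph => q.1.2.2 :=
    measurable_snd.comp (measurable_snd.comp measurable_fst)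
  have hv' : Measurable fun q : (ℝ × Ph) × Ph => q.2.2 := measurable_snd.comp measurable_snd
  have hG : Measurable fun q : (ℝ × Ph) × Ph => ENNReal.ofReal (Real.exp
      (-(Λ * hitT ε (q.1.2, q.2)) + bt c T₀ (hitT ε (q.1.2, q.2)) *
        (‖q.1.2.2‖ ^ 2 + ‖q.2.2‖ ^ 2))) := by
    refine ENNReal.measurable_ofReal.comp (Real.measurable_exp.comp ?_)
    exact ((hh.const_mul Λ).neg).add
      (hb.mul ((hv.norm.pow_const 2).add (hv'.norm.pow_const 2)))
  exact hG.indicator hS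

/-- The constant of the kernel estimate. -/
noncomputable def cHB (b c T₀ Λ : ℝ) : ℝ≥0∞ :=
  ENNReal.ofReal Real.pi * I0 (b / 2) *
    ENNReal.ofReal ((1 + √(Real.pi / (c / (2 * T₀)))) / √Λ)

/-- **The kernel estimate**: the flux of the Gaussian lines through a fixed line. -/
theorem lintegral_HB_le (hε : 0 < ε) {b c T₀ Λ s : ℝ} (hb : 0 < b) (hc : 0 < c) (hcb : c ≤ b / 2)
    (hT : 0 < T₀) (hΛ : 1 ≤ Λ) (hs : 0 ≤ s) (l : Ph) :
    ∫⁻ l' : Ph, gw b l'.2 * HB ε c T₀ Λ s l l' ≤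
      ENNReal.ofReal (ε ^ 2) * cHB b c T₀ Λ * wB c T₀ Λ s l.2 := by
  have hb2 : 0 < b / 2 := by positivity
  have hc' : 0 < c / (2 * T₀) := by positivity
  set g : ℝ → ℝ≥0∞ := (Ioc s T₀).indicator fun τ =>
    ENNReal.ofReal (Real.exp (-(Λ * τ) + bt c T₀ τ * ‖l.2‖ ^ 2)) with hg
  have hgm : Measurable g := by
    refine Measurable.indicator ?_ measurableSet_Ioc
    have := measurable_bt c T₀
    fun_prop
  have h1 := flux_inner (fluxTime_hitT hε) hb2 le_rfl l hgm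
  have hm : MeasurableSet {l' : Ph | Meets ε (l, l')} := measurable_prodMk_left measurableSet_meets
  have h2 : ∫⁻ l' : Ph, gw b l'.2 * HB ε c T₀ Λ s l l' ≤
      ∫⁻ l' in {l' : Ph | Meets ε (l, l')}, gw (b / 2) l'.2 * g (hitT ε (l, l')) := by
    rw [← lintegral_indicator hm]
    refine lintegral_mono fun l' => ?_
    unfold HB
    by_cases h : Meets ε (l, l') ∧ hitT ε (l, l') ∈ Ioc s T₀
    · rw [indicator_of_mem (show l' ∈ {l' : Ph | Meets ε (l, l')} from h.1),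
        indicator_of_mem (show l' ∈ {l' : Ph | Meets ε (l, l') ∧ hitT ε (l, l') ∈ Ioc s T₀}
          from h), hg, indicator_of_mem h.2]
      unfold gw
      rw [← ENNReal.ofReal_mul (Real.exp_nonneg _), ← ENNReal.ofReal_mul (Real.exp_nonneg _),
        ← Real.exp_add, ← Real.exp_add]
      apply ENNReal.ofReal_le_ofReal
      apply Real.exp_le_exp.2
      have h3 : bt c T₀ (hitT ε (l, l')) ≤ b / 2 :=
        (bt_le hc hT (hs.trans h.2.1.le)).trans hcb
      have h4 := mul_le_mul_of_nonneg_right h3 (sq_nonneg ‖l'.2‖)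
      nlinarith
    · rw [indicator_of_notMem (show l' ∉ {l' : Ph | Meets ε (l, l') ∧ hitT ε (l, l') ∈ Ioc s T₀}
          from h), mul_zero]
      exact zero_le
  have h5 : ENNReal.ofReal (1 + ‖l.2‖) * ∫⁻ τ, g τ ≤
      ENNReal.ofReal ((1 + √(Real.pi / (c / (2 * T₀)))) / √Λ) * wB c T₀ Λ s l.2 := by
    rw [hg, lintegral_indicator measurableSet_Ioc, ← lintegral_const_mul' _ _
      ENNReal.ofReal_ne_top]
    refine le_trans ?_ (mul_le_mul_left (lintegral_ker (s := s) (t := T₀) hc' hΛ) _)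
    rw [← lintegral_mul_const' _ _ wB_ne_top]
    refine setLIntegral_mono' measurableSet_Ioc fun τ hτ => ?_
    unfold wB
    rw [← ENNReal.ofReal_mul (by positivity), ← ENNReal.ofReal_mul
      (mul_nonneg (ker_nonneg _ _) (Real.exp_nonneg _))]
    apply ENNReal.ofReal_le_ofReal
    have h6 := one_add_mul_exp_le (x := ‖l.2‖) hc' (show 0 < τ - s by linarith [hτ.1])
    have h7 : Real.exp (-(Λ * τ) + bt c T₀ τ * ‖l.2‖ ^ 2) =
        Real.exp (-(c / (2 * T₀) * (τ - s)) * ‖l.2‖ ^ 2) * (Real.exp (-(Λ * (τ - s))) *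
          Real.exp (-(Λ * s) + bt c T₀ s * ‖l.2‖ ^ 2)) := by
      rw [← Real.exp_add, ← Real.exp_add]
      congr 1
      unfold bt
      ring
    rw [h7]
    calc (1 + ‖l.2‖) * (Real.exp (-(c / (2 * T₀) * (τ - s)) * ‖l.2‖ ^ 2) *
          (Real.exp (-(Λ * (τ - s))) * Real.exp (-(Λ * s) + bt c T₀ s * ‖l.2‖ ^ 2)))
        = ((1 + ‖l.2‖) * Real.exp (-(c / (2 * T₀) * (τ - s)) * ‖l.2‖ ^ 2)) *
          (Real.exp (-(Λ * (τ - s))) * Real.exp (-(Λ * s) + bt c T₀ s * ‖l.2‖ ^ 2)) := by ring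
      _ ≤ ker (c / (2 * T₀)) (τ - s) *
          (Real.exp (-(Λ * (τ - s))) * Real.exp (-(Λ * s) + bt c T₀ s * ‖l.2‖ ^ 2)) := by gcongr
      _ = _ := by ring
  calc ∫⁻ l' : Ph, gw b l'.2 * HB ε c T₀ Λ s l l'
      ≤ ENNReal.ofReal (ε ^ 2) * (ENNReal.ofReal Real.pi * I0 (b / 2)) *
        (ENNReal.ofReal (1 + ‖l.2‖) * ∫⁻ τ, g τ) := h2.trans h1
    _ ≤ ENNReal.ofReal (ε ^ 2) * (ENNReal.ofReal Real.pi * I0 (b / 2)) *
        (ENNReal.ofReal ((1 + √(Real.pi / (c / (2 * T₀)))) / √Λ) * wB c T₀ Λ s l.2) := by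
        gcongr
    _ = _ := by unfold cHB; ring

end Vale.Agent.P119.PB
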