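import Vale.Agent.P119.PB.DM1

/-!
# P119, block PROB: the mass of the trees of given depth, recursion in a fixed world (`helper347`)
-/

open MeasureTheory Set Filter Topology Metric ProbabilityTheory
open scoped ENNReal

namespace Vale.Agent.P119.PB

open KU FL M CTree

variable {Φ : E3 → ℝ} {ε : ℝ}

/-- The hypotheses on a set `Al` of trees (alive in a fixed world): the law of the source of the
root line is at most `μ (typ + A)`. -/
structure LawH (Φ : E3 → ℝ) (ε : ℝ) (ν : Measure Ph) (L : ℕ) (T₀ b : ℝ) (m : ℕ → ℝ≥0∞)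
    (A : Measure Src) (Al : Set CTree) : Prop where
  meas : MeasurableSet Al
  ok : ∀ T ∈ Al, ok Φ ε T
  ext_le : ∀ T ∈ Al, ext Φ ε T ≤ T₀
  law : ∀ F : Src → ℝ≥0∞, Measurable F → ∫⁻ T in Al, F (rsrc Φ ε T) ∂(tree ν L) ≤
    muE ε * ((∑' n, m n * ((∫⁻ z : Ph, gw b z.2 * F (0, z, n)) +
      (∫⁻ s in Icc 0 T₀, ∫⁻ z : Ph, gw b z.2 * F (s, z, n)))) + ∫⁻ p, F p ∂A)

/-- Both subtrees are in `Al`. -/
def good1 (Al : Set CTree) : CTree → Prop
  | leaf _ => True
  | node a b => a ∈ Al ∧ b ∈ Al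

theorem measurableSet_good1 {Al : Set CTree} (h : MeasurableSet Al) :
    MeasurableSet {T | good1 Al T} := by
  have h1 : Measurable (good1 Al) := by
    refine measurable_cases (f := good1 Al) (g := fun q => q.1 ∈ Al ∧ q.2 ∈ Al)
      (h := fun _ => True) ?_ measurable_const (fun _ => rfl) (fun _ _ => rfl)
    exact (measurable_mem.2 h |>.comp measurable_fst).and (measurable_mem.2 h |>.comp measurable_snd)
  exact measurableSet_setOf.2 h1

/-- The trees of `Al` with a subtree not in `Al`. -/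
def bad1 (Al : Set CTree) : Set CTree := Al ∩ {T | ¬good1 Al T}

theorem measurableSet_bad1 {Al : Set CTree} (h : MeasurableSet Al) : MeasurableSet (bad1 Al) :=
  h.inter (measurableSet_good1 h).compl

/-- The trees of depth `d`. -/
def dep (d : ℕ) : Set CTree := {T | T.depth = d}

theorem measurableSet_dep (d : ℕ) : MeasurableSet (dep d) :=
  measurable_depth (measurableSet_singleton d)

/-- The mass of a set of trees. -/
noncomputable def mass (Φ : E3 → ℝ) (ε : ℝ) (ν : Measure Ph) (L : ℕ) (c T₀ Λ : ℝ) (S : Set CTree) :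
    ℝ≥0∞ := ∫⁻ T in S, wB c T₀ Λ (ext Φ ε T) (ln Φ ε T).2 ∂(tree ν L)

theorem measurable_wT (hΦ : IsPotential Φ) (hε : ε ≠ 0) (c T₀ Λ : ℝ) :
    Measurable fun T : CTree => wB c T₀ Λ (ext Φ ε T) (ln Φ ε T).2 :=
  (measurable_wB c T₀ Λ).comp ((measurable_ext hΦ hε).prodMk (measurable_ln hΦ hε).snd)

/-- The recursion inequality for the measure on the trees, at a fixed depth. -/
theorem lintegral_tree_le {ν : Measure Ph} [IsFiniteMeasure ν] (L : ℕ) {F : CTree → ℝ≥0∞}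
    (hF : Measurable F) : ∫⁻ T, F T ∂(tree ν L) ≤ ∫⁻ z, F (CTree.leaf (src z)) ∂ν +
      ∫⁻ A, ∫⁻ B, F (CTree.node A B) ∂(tree ν L) ∂(tree ν L) := by
  rw [← lintegral_tree_succ L hF]
  exact lintegral_mono' (tree_mono (Nat.le_succ L)) le_rfl

/-- The weight of a node in terms of the two root lines. -/
theorem wB_node_le (hΦ : IsPotential Φ) (hε : 0 < ε) {c T₀ Λ : ℝ} (hc : 0 < c) (hT : 0 < T₀)
    (hΛ : 0 ≤ Λ) {A B : CTree} (hok : ok Φ ε (node A B)) (hext : ext Φ ε (node A B) ≤ T₀) :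
    wB c T₀ Λ (ext Φ ε (node A B)) (ln Φ ε (node A B)).2 ≤
        HB ε c T₀ Λ (ext Φ ε A) (ln Φ ε A) (ln Φ ε B) ∧
      wB c T₀ Λ (ext Φ ε (node A B)) (ln Φ ε (node A B)).2 ≤
        HB ε c T₀ Λ (ext Φ ε B) (ln Φ ε B) (ln Φ ε A) := by
  obtain ⟨-, -, -, h4, h5, h6, h7⟩ := hok
  have h8 : hitT ε (ln Φ ε A, ln Φ ε B) < sepT Φ ε (ln Φ ε A, ln Φ ε B) :=
    hitT_lt_sepT hΦ hε h5 h4.2
  have h9 : sepT Φ ε (ln Φ ε A, ln Φ ε B) ≤ T₀ := hext
  have h10 : ‖(ln Φ ε (node A B)).2‖ ^ 2 ≤ ‖(ln Φ ε A).2‖ ^ 2 + ‖(ln Φ ε B).2‖ ^ 2 := by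
    have h := energy_sc2 hΦ hε.ne' (ln Φ ε A, ln Φ ε B)
    have h1 := sq_nonneg ‖(sc2 Φ ε (ln Φ ε A, ln Φ ε B)).2.2‖
    change ‖(sc2 Φ ε (ln Φ ε A, ln Φ ε B)).1.2‖ ^ 2 ≤ _
    simp only at h
    linarith
  have key := wB_le (v := (ln Φ ε (node A B)).2) hc hT hΛ h8.le h9 h10
  constructor
  · refine key.trans (le_of_eq ?_)
    unfold HB
    rw [indicator_of_mem (show ln Φ ε B ∈ {l' : Ph | Meets ε (ln Φ ε A, l') ∧
      hitT ε (ln Φ ε A, l') ∈ Ioc (ext Φ ε A) T₀} from ⟨h4, h6, h8.le.trans h9⟩)]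
  · refine key.trans (le_of_eq ?_)
    have hs : hitT ε (ln Φ ε B, ln Φ ε A) = hitT ε (ln Φ ε A, ln Φ ε B) :=
      hitT_swap (ln Φ ε A, ln Φ ε B)
    have hm : Meets ε (ln Φ ε B, ln Φ ε A) := (meets_swap (ln Φ ε A, ln Φ ε B)).2 h4
    unfold HB
    rw [indicator_of_mem (show ln Φ ε A ∈ {l' : Ph | Meets ε (ln Φ ε B, l') ∧
      hitT ε (ln Φ ε B, l') ∈ Ioc (ext Φ ε B) T₀} from
        ⟨hm, by rw [hs]; exact ⟨h7, h8.le.trans h9⟩⟩), hs, add_comm (‖(ln Φ ε B).2‖ ^ 2)]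

/-- The constant of one step. -/
noncomputable def cStep (m : ℕ → ℝ≥0∞) (b c T₀ Λ : ℝ) : ℝ≥0∞ :=
  (∑' n, m n) * ((1 + ENNReal.ofReal T₀) * cHB b c T₀ Λ)

section step

variable {ν : Measure Ph} {L : ℕ} {T₀ b : ℝ} {m : ℕ → ℝ≥0∞} {A : Measure Src} {Al : Set CTree}

/-- The integral over one subtree, the other one being fixed. -/
theorem LawH.inner_le (h : LawH Φ ε ν L T₀ b m A Al) (hε : 0 < ε) {c Λ s : ℝ} (hb : 0 < b)
    (hc : 0 < c) (hcb : c ≤ b / 2) (hT : 0 < T₀) (hΛ : 1 ≤ Λ) (hs : 0 ≤ s) (l : Ph) :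
    ∫⁻ B in Al, HB ε c T₀ Λ s l (ln Φ ε B) ∂(tree ν L) ≤
      cStep m b c T₀ Λ * wB c T₀ Λ s l.2 + muE ε * ∫⁻ p, HB ε c T₀ Λ s l p.2.1 ∂A := by
  have hm : Measurable fun p : Src => HB ε c T₀ Λ s l p.2.1 := by
    have h1 : Measurable fun p : Src => (((s, l), p.2.1) : (ℝ × Ph) × Ph) :=
      measurable_const.prodMk (measurable_fst.comp measurable_snd)
    exact (measurable_HB c T₀ Λ).comp h1
  refine (h.law _ hm).trans ?_
  rw [mul_add]
  refine add_le_add ?_ le_rfl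
  have hx := lintegral_HB_le hε hb hc hcb hT hΛ hs l
  set x := ∫⁻ l' : Ph, gw b l'.2 * HB ε c T₀ Λ s l l' with hxdef
  have h2 : ∀ n, m n * ((∫⁻ z : Ph, gw b z.2 * HB ε c T₀ Λ s l ((0, z, n) : Src).2.1) +
      (∫⁻ s' in Icc 0 T₀, ∫⁻ z : Ph, gw b z.2 * HB ε c T₀ Λ s l ((s', z, n) : Src).2.1)) =
      m n * ((1 + ENNReal.ofReal T₀) * x) := by
    intro n
    simp only [lintegral_const, Measure.restrict_apply_univ, Real.volume_Icc, sub_zero]
    have h3 : ∫⁻ z : Ph, gw b z.2 * HB ε c T₀ Λ s l z = x := rfl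
    rw [h3]
    ring
  simp only [h2]
  rw [ENNReal.tsum_mul_right]
  calc muE ε * ((∑' n, m n) * ((1 + ENNReal.ofReal T₀) * x))
      ≤ muE ε * ((∑' n, m n) * ((1 + ENNReal.ofReal T₀) *
        (ENNReal.ofReal (ε ^ 2) * cHB b c T₀ Λ * wB c T₀ Λ s l.2))) := by gcongr
    _ = (muE ε * ENNReal.ofReal (ε ^ 2)) * (cStep m b c T₀ Λ * wB c T₀ Λ s l.2) := by
        unfold cStep; ring
    _ = _ := by rw [muE_mul hε, one_mul]

/-- The error of one step. -/
noncomputable def errT (Φ : E3 → ℝ) (ε : ℝ) (ν : Measure Ph) (L : ℕ) (c T₀ Λ : ℝ)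
    (A : Measure Src) (S : Set CTree) : ℝ≥0∞ :=
  muE ε * ∫⁻ T in S, ∫⁻ p, HB ε c T₀ Λ (ext Φ ε T) (ln Φ ε T) p.2.1 ∂A ∂(tree ν L)

theorem ext_nonneg (hΦ : IsPotential Φ) (hε : 0 < ε) {T : CTree} (h : ok Φ ε T) :
    0 ≤ ext Φ ε T := by
  cases T with
  | leaf σ => exact h
  | node a b =>
    obtain ⟨h1, -, -, h4, h5, h6, -⟩ := h
    have h7 : 0 ≤ ext Φ ε a := ext_nonneg hΦ hε h1
    have h8 := hitT_lt_sepT hΦ hε h5 h4.2
    change 0 ≤ sepT Φ ε (ln Φ ε a, ln Φ ε b)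
    linarith

/-- **One step of the recursion on the depth.** -/
theorem LawH.mass_succ_le [IsFiniteMeasure ν] [SFinite A] (h : LawH Φ ε ν L T₀ b m A Al)
    (hΦ : IsPotential Φ) (hε : 0 < ε) {c Λ : ℝ} (hb : 0 < b)
    (hc : 0 < c) (hcb : c ≤ b / 2) (hT : 0 < T₀) (hΛ : 1 ≤ Λ) (d : ℕ) :
    mass Φ ε ν L c T₀ Λ (Al ∩ dep (d + 1)) ≤
      2 * cStep m b c T₀ Λ * mass Φ ε ν L c T₀ Λ (Al ∩ dep d) +
      (mass Φ ε ν L c T₀ Λ (bad1 Al ∩ dep (d + 1)) +
        2 * errT Φ ε ν L c T₀ Λ A (Al ∩ dep d)) := by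
  have hw := measurable_wT hΦ hε.ne' c T₀ Λ
  have hAl := h.meas
  have hΛ0 : 0 ≤ Λ := by linarith
  set w : CTree → ℝ≥0∞ := fun T => wB c T₀ Λ (ext Φ ε T) (ln Φ ε T).2 with hwdef
  set S : Set CTree := Al ∩ dep (d + 1) ∩ {T | good1 Al T} with hS
  have hSm : MeasurableSet S := (hAl.inter (measurableSet_dep _)).inter (measurableSet_good1 hAl)
  have hBm : MeasurableSet (bad1 Al ∩ dep (d + 1)) :=
    (measurableSet_bad1 hAl).inter (measurableSet_dep _)
  -- splitting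
  have e1 : mass Φ ε ν L c T₀ Λ (Al ∩ dep (d + 1)) ≤ ∫⁻ T, S.indicator w T ∂(tree ν L) +
      mass Φ ε ν L c T₀ Λ (bad1 Al ∩ dep (d + 1)) := by
    unfold mass
    rw [← lintegral_indicator (hAl.inter (measurableSet_dep _)), ← lintegral_indicator hBm,
      ← lintegral_add_left (hw.indicator hSm)]
    refine lintegral_mono fun T => ?_
    by_cases hT1 : T ∈ Al ∩ dep (d + 1)
    · rw [indicator_of_mem hT1]
      by_cases hg : good1 Al T
      · rw [indicator_of_mem (show T ∈ S from ⟨hT1, hg⟩)]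
        exact le_self_add
      · rw [indicator_of_mem (show T ∈ bad1 Al ∩ dep (d + 1) from ⟨⟨hT1.1, hg⟩, hT1.2⟩)]
        exact le_add_self
    · rw [indicator_of_notMem hT1]
      exact zero_le
  -- the good part
  have hHm : Measurable fun q : CTree × CTree => HB ε c T₀ Λ (ext Φ ε q.1) (ln Φ ε q.1)
      (ln Φ ε q.2) := by
    have h1 : Measurable fun q : CTree × CTree =>
        (((ext Φ ε q.1, ln Φ ε q.1), ln Φ ε q.2) : (ℝ × Ph) × Ph) :=
      (((measurable_ext hΦ hε.ne').comp measurable_fst).prodMk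
        ((measurable_ln hΦ hε.ne').comp measurable_fst)).prodMk
        ((measurable_ln hΦ hε.ne').comp measurable_snd)
    exact (measurable_HB c T₀ Λ).comp h1
  set G : CTree × CTree → ℝ≥0∞ := fun q => (Al ∩ dep d).indicator 1 q.1 *
    (Al.indicator 1 q.2 * HB ε c T₀ Λ (ext Φ ε q.1) (ln Φ ε q.1) (ln Φ ε q.2)) with hG
  have hAd : MeasurableSet (Al ∩ dep d) := hAl.inter (measurableSet_dep _)
  have hGm : Measurable G :=
    ((measurable_one.indicator hAd).comp measurable_fst).mul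
      (((measurable_one.indicator hAl).comp measurable_snd).mul hHm)
  have hFm : Measurable (S.indicator w) := hw.indicator hSm
  have e2 : ∫⁻ T, S.indicator w T ∂(tree ν L) ≤ 2 * ∫⁻ a, ∫⁻ b, G (a, b) ∂(tree ν L) ∂(tree ν L) := by
    refine (lintegral_tree_le L hFm).trans ?_
    have h0 : ∀ z : Ph, S.indicator w (CTree.leaf (src z)) = 0 := by
      intro z
      apply indicator_of_notMem
      rintro ⟨⟨-, h2⟩, -⟩
      have h3 : (CTree.leaf (src z)).depth = d + 1 := h2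
      have h4 : (CTree.leaf (src z)).depth = 0 := rfl
      omega
    simp only [h0, lintegral_zero, zero_add]
    have h1 : ∀ a b : CTree, S.indicator w (CTree.node a b) ≤ G (a, b) + G (b, a) := by
      intro a b
      by_cases hab : CTree.node a b ∈ S
      · obtain ⟨⟨h2, h3⟩, h4, h5⟩ := hab
        rw [indicator_of_mem (show CTree.node a b ∈ S from ⟨⟨h2, h3⟩, h4, h5⟩)]
        obtain ⟨k1, k2⟩ := wB_node_le hΦ hε hc hT hΛ0 (h.ok _ h2) (h.ext_le _ h2)
        have h6 : max a.depth b.depth + 1 = d + 1 := h3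
        have h7 : a.depth = d ∨ b.depth = d := by
          rcases le_total a.depth b.depth with h8 | h8
          · right
            rw [max_eq_right h8] at h6
            omega
          · left
            rw [max_eq_left h8] at h6
            omega
        rcases h7 with h7 | h7
        · refine le_trans ?_ le_self_add
          simp only [hG]
          rw [indicator_of_mem (show a ∈ Al ∩ dep d from ⟨h4, h7⟩), indicator_of_mem h5]
          simp only [Pi.one_apply, one_mul]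
          exact k1
        · refine le_trans ?_ le_add_self
          simp only [hG]
          rw [indicator_of_mem (show b ∈ Al ∩ dep d from ⟨h5, h7⟩), indicator_of_mem h4]
          simp only [Pi.one_apply, one_mul]
          exact k2
      · rw [indicator_of_notMem hab]
        exact zero_le
    have h2 : ∫⁻ a, ∫⁻ b, G (b, a) ∂(tree ν L) ∂(tree ν L) =
        ∫⁻ a, ∫⁻ b, G (a, b) ∂(tree ν L) ∂(tree ν L) :=
      lintegral_lintegral_swap (hGm.comp measurable_swap).aemeasurable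
    calc ∫⁻ a, ∫⁻ b, S.indicator w (CTree.node a b) ∂(tree ν L) ∂(tree ν L)
        ≤ ∫⁻ a, ∫⁻ b, (G (a, b) + G (b, a)) ∂(tree ν L) ∂(tree ν L) :=
          lintegral_mono fun a => lintegral_mono fun b => h1 a b
      _ = ∫⁻ a, (∫⁻ b, G (a, b) ∂(tree ν L) + ∫⁻ b, G (b, a) ∂(tree ν L)) ∂(tree ν L) := by
          refine lintegral_congr fun a => ?_
          have h5 : Measurable fun b : CTree => G (a, b) := hGm.comp measurable_prodMk_left
          rw [lintegral_add_left h5]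
      _ = ∫⁻ a, ∫⁻ b, G (a, b) ∂(tree ν L) ∂(tree ν L) +
          ∫⁻ a, ∫⁻ b, G (b, a) ∂(tree ν L) ∂(tree ν L) :=
          lintegral_add_left hGm.lintegral_prod_right' _
      _ = _ := by rw [h2, two_mul]
  -- the integral of `G`
  have e3 : ∫⁻ a, ∫⁻ b, G (a, b) ∂(tree ν L) ∂(tree ν L) ≤
      cStep m b c T₀ Λ * mass Φ ε ν L c T₀ Λ (Al ∩ dep d) +
        errT Φ ε ν L c T₀ Λ A (Al ∩ dep d) := by
    have h1 : ∀ a : CTree, ∫⁻ b, G (a, b) ∂(tree ν L) = (Al ∩ dep d).indicator (fun a =>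
        ∫⁻ b in Al, HB ε c T₀ Λ (ext Φ ε a) (ln Φ ε a) (ln Φ ε b) ∂(tree ν L)) a := by
      intro a
      simp only [hG]
      by_cases ha : a ∈ Al ∩ dep d
      · rw [indicator_of_mem ha, indicator_of_mem ha]
        simp only [Pi.one_apply, one_mul]
        rw [← lintegral_indicator hAl]
        refine lintegral_congr fun b => ?_
        by_cases hb : b ∈ Al
        · rw [indicator_of_mem hb, indicator_of_mem hb, Pi.one_apply, one_mul]
        · rw [indicator_of_notMem hb, indicator_of_notMem hb, zero_mul]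
      · rw [indicator_of_notMem ha, indicator_of_notMem ha]
        simp
    simp only [h1]
    rw [lintegral_indicator hAd]
    have h2 : ∫⁻ a in Al ∩ dep d, ∫⁻ b in Al, HB ε c T₀ Λ (ext Φ ε a) (ln Φ ε a) (ln Φ ε b)
        ∂(tree ν L) ∂(tree ν L) ≤ ∫⁻ a in Al ∩ dep d, (cStep m b c T₀ Λ * w a +
          muE ε * ∫⁻ p, HB ε c T₀ Λ (ext Φ ε a) (ln Φ ε a) p.2.1 ∂A) ∂(tree ν L) := by
      refine setLIntegral_mono' hAd fun a ha => ?_
      exact h.inner_le hε hb hc hcb hT hΛ (ext_nonneg hΦ hε (h.ok _ ha.1)) _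
    refine h2.trans (le_of_eq ?_)
    rw [lintegral_add_left (hw.const_mul _), lintegral_const_mul _ hw,
      lintegral_const_mul' _ _ muE_ne_top]
    rfl
  calc mass Φ ε ν L c T₀ Λ (Al ∩ dep (d + 1))
      ≤ ∫⁻ T, S.indicator w T ∂(tree ν L) + mass Φ ε ν L c T₀ Λ (bad1 Al ∩ dep (d + 1)) := e1
    _ ≤ 2 * (cStep m b c T₀ Λ * mass Φ ε ν L c T₀ Λ (Al ∩ dep d) +
        errT Φ ε ν L c T₀ Λ A (Al ∩ dep d)) + mass Φ ε ν L c T₀ Λ (bad1 Al ∩ dep (d + 1)) := by
        refine add_le_add (e2.trans ?_) le_rfl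
        exact mul_le_mul_right e3 2
    _ = _ := by ring

end step

end Vale.Agent.P119.PB
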