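import Vale.Agent.P119.PB.ExhOp
import Vale.Agent.P119.PB.Marks2
import Vale.Agent.P119.ML.Crude

/-!
# P119, block PROB: sums over the exhausts of alive trees (`helper776`)

`Al` is a measurable set of trees (the trees which are alive in a fixed world).  The law of the root
source of `T ∈ Al` is at most `μ (typ + aty)`.  `exh`: the sum over `T ∈ Al` and over its root source
and its exhausts of `(1 + |v_T|)^q G(σ)` is at most `μ (C ∫ G d ref + C' (error terms))`, with `C`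
independent of `L`; the errors are an atypical root source and the trees of `Al` which have a
subtree at the last node not in `Al`.
-/

open MeasureTheory Set Filter Topology Metric ProbabilityTheory
open scoped ENNReal

namespace Vale.Agent.P119.PB.EX

open KU FL M CTree

variable {Φ : E3 → ℝ} {ε : ℝ}

/-! ### The root sources at a node -/

theorem nd_rsrc (A B : CTree) : nd Φ ε (rsrc Φ ε A, rsrc Φ ε B) = rsrc Φ ε (node A B) := rfl

theorem hc_rsrc (hΦ : IsPotential Φ) (hε : 0 < ε) {T : ℝ} {A B : CTree}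
    (h : ok Φ ε (node A B)) (ht : ext Φ ε (node A B) ≤ T) : hc Φ ε T (rsrc Φ ε A, rsrc Φ ε B) :=
  ⟨h.2.2.2.1, h.2.2.2.2.2.1, h.2.2.2.2.2.2, (ext_nonneg hΦ hε h.1).trans_lt h.2.2.2.2.2.1,
    sig_lt_ext hΦ hε h, ht⟩

/-! ### The sum over the exhausts -/

/-- The sum over the nodes of the values at the exhausts. -/
noncomputable def ES (Φ : E3 → ℝ) (ε : ℝ) (G : Src → ℝ≥0∞) (T : CTree) : ℝ≥0∞ :=
  marks T fun _ a b _ => G (rsrc Φ ε (node b a))

theorem ES_leaf (G : Src → ℝ≥0∞) (σ : Src) : ES Φ ε G (leaf σ) = 0 := rfl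

theorem ES_node (G : Src → ℝ≥0∞) (a b : CTree) : ES Φ ε G (node a b) =
    G (rsrc Φ ε (node b a)) + (ES Φ ε G a + ES Φ ε G b) := rfl

theorem measurable_ES (hΦ : IsPotential Φ) (hε : ε ≠ 0) {G : Src → ℝ≥0∞} (hG : Measurable G) :
    Measurable (ES Φ ε G) := by
  have h := measurable_marks (X := Unit) (F := fun _ a b _ _ => G (rsrc Φ ε (node b a)))
    (fun m => hG.comp ((measurable_rsrc hΦ hε).comp (measurable_node.comp
      ((measurable_fst.comp (measurable_snd.comp measurable_fst)).prodMk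
        (measurable_fst.comp measurable_fst)))))
  exact h.comp (measurable_id.prodMk (measurable_const (a := ())))

theorem exsum_le_ES (G : Src → ℝ≥0∞) (T : CTree) :
    exsum T (fun x => G (rsrc Φ ε x)) ≤ ES Φ ε G T := exsum_le _

theorem ES_le_pow {G : Src → ℝ≥0∞} (hG : ∀ σ, G σ ≤ 1) (T : CTree) :
    ES Φ ε G T + 1 ≤ 2 ^ T.depth := by
  induction T with
  | leaf σ =>
    rw [ES_leaf, zero_add]
    exact one_le_pow₀ one_le_two
  | node a b iha ihb =>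
    rw [ES_node]
    have h1 : (2 : ℝ≥0∞) ^ a.depth ≤ 2 ^ max a.depth b.depth :=
      pow_le_pow_right₀ one_le_two (le_max_left _ _)
    have h2 : (2 : ℝ≥0∞) ^ b.depth ≤ 2 ^ max a.depth b.depth :=
      pow_le_pow_right₀ one_le_two (le_max_right _ _)
    calc G (rsrc Φ ε (node b a)) + (ES Φ ε G a + ES Φ ε G b) + 1
        ≤ 1 + (ES Φ ε G a + ES Φ ε G b) + 1 := by gcongr; exact hG _
      _ = (ES Φ ε G a + 1) + (ES Φ ε G b + 1) := by ring
      _ ≤ 2 ^ max a.depth b.depth + 2 ^ max a.depth b.depth :=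
          add_le_add (iha.trans h1) (ihb.trans h2)
      _ = 2 ^ (node a b).depth := by
          change _ = 2 ^ (max a.depth b.depth + 1)
          rw [pow_succ]; ring

theorem ae_depth_le {ν : Measure Ph} (L : ℕ) : ∀ᵐ T ∂(tree ν L), T.depth ≤ L := by
  have hm : MeasurableSet {T : CTree | ¬ T.depth ≤ L} :=
    (measurable_depth (measurableSet_Iic (a := L))).compl
  rw [ae_iff, ← lintegral_indicator_one hm, lintegral_tree L (measurable_one.indicator hm)]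
  refine Finset.sum_eq_zero fun τ hτ => ?_
  have h1 : ∀ z, ({T : CTree | ¬ T.depth ≤ L}).indicator (1 : CTree → ℝ≥0∞) (τ.ord z) = 0 := by
    intro z
    rw [indicator_of_notMem]
    simp only [mem_ofPred_eq, not_not]
    have h2 : (τ.ord z).depth = τ.depth := τ.depth_mk_eq _ fun _ => rfl
    rw [h2]
    exact mem_shapes.1 hτ
  simp_rw [h1]
  exact lintegral_zero

theorem lintegral_ES_le {ν : Measure Ph} {L : ℕ} {G : Src → ℝ≥0∞} (hG : ∀ σ, G σ ≤ 1)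
    (S : Set CTree) (h : CTree → ℝ≥0∞) :
    ∫⁻ T in S, h T * ES Φ ε G T ∂(tree ν L) ≤ 2 ^ L * ∫⁻ T in S, h T ∂(tree ν L) := by
  have h1 : (2 : ℝ≥0∞) ^ L ≠ ∞ := ENNReal.pow_ne_top (by norm_num)
  rw [← lintegral_const_mul' _ _ h1]
  refine lintegral_mono_ae ?_
  filter_upwards [ae_restrict_of_ae (ae_depth_le (ν := ν) L)] with T hT
  rw [mul_comm]
  gcongr
  calc ES Φ ε G T ≤ ES Φ ε G T + 1 := le_self_add
    _ ≤ 2 ^ T.depth := ES_le_pow hG T
    _ ≤ 2 ^ L := pow_le_pow_right₀ one_le_two hT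

/-! ### The recursion -/

/-- The trees of `Al` such that one of the two subtrees at the last node is not in `Al`. -/
def Bad1 (Al : Set CTree) : Set CTree :=
  {T | T ∈ Al ∧ ∃ A B, T = node A B ∧ ¬(A ∈ Al ∧ B ∈ Al)}

theorem measurableSet_Bad1 {Al : Set CTree} (hAl : MeasurableSet Al) :
    MeasurableSet (Bad1 Al) := by
  classical
  have h1 : Measurable fun T : CTree => (Bad1 Al).indicator (fun _ => (1 : ℝ≥0∞)) T := by
    refine measurable_cases (h := fun _ => 0) (g := fun p : CTree × CTree =>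
      ({p : CTree × CTree | node p.1 p.2 ∈ Al ∧ ¬(p.1 ∈ Al ∧ p.2 ∈ Al)}).indicator
        (fun _ => (1 : ℝ≥0∞)) p) ?_ measurable_const ?_ ?_
    · refine measurable_const.indicator ((measurable_node hAl).inter
        ((measurable_fst hAl).inter (measurable_snd hAl)).compl)
    · intro σ
      exact indicator_of_notMem (fun h => by obtain ⟨-, A, B, h, -⟩ := h; cases h) _
    · intro a b
      by_cases h : node a b ∈ Al ∧ ¬(a ∈ Al ∧ b ∈ Al)
      · rw [indicator_of_mem (show node a b ∈ Bad1 Al from ⟨h.1, a, b, rfl, h.2⟩),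
          indicator_of_mem (show (a, b) ∈ {p : CTree × CTree | node p.1 p.2 ∈ Al ∧
            ¬(p.1 ∈ Al ∧ p.2 ∈ Al)} from h)]
      · rw [indicator_of_notMem (show node a b ∉ Bad1 Al from fun h' => h (by
            obtain ⟨h1, A, B, h2, h3⟩ := h'
            cases h2
            exact ⟨h1, h3⟩)),
          indicator_of_notMem (show (a, b) ∉ {p : CTree × CTree | node p.1 p.2 ∈ Al ∧
            ¬(p.1 ∈ Al ∧ p.2 ∈ Al)} from h)]
  have h2 : Bad1 Al = (fun T : CTree => (Bad1 Al).indicator (fun _ => (1 : ℝ≥0∞)) T) ⁻¹' {1} := by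
    ext T
    by_cases h : T ∈ Bad1 Al
    · simp [h]
    · simp [h]
  rw [h2]
  exact h1 (measurableSet_singleton 1)

section Abs

variable {α β : Type*} [MeasurableSpace α] [MeasurableSpace β]

theorem abs_split (Θ : Measure α) [SFinite Θ] {k h : α × α → ℝ≥0∞} {e : α → ℝ≥0∞}
    (hk : Measurable k) (hh : Measurable h) (he : Measurable e) :
    ∫⁻ A, ∫⁻ B, k (A, B) * (h (A, B) + (e A + e B)) ∂Θ ∂Θ =
      ∫⁻ A, ∫⁻ B, k (A, B) * h (A, B) ∂Θ ∂Θ +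
      (∫⁻ A, ∫⁻ B, k (A, B) * e A ∂Θ ∂Θ + ∫⁻ A, ∫⁻ B, k (A, B) * e B ∂Θ ∂Θ) := by
  have hkA : ∀ A, Measurable fun B => k (A, B) := fun A =>
    hk.comp (measurable_const.prodMk measurable_id)
  have hhA : ∀ A, Measurable fun B => h (A, B) := fun A =>
    hh.comp (measurable_const.prodMk measurable_id)
  have hp1 : Measurable fun p : α × α => k (p.1, p.2) * h (p.1, p.2) := hk.mul hh
  have hp2 : Measurable fun p : α × α => k (p.1, p.2) * e p.1 := hk.mul (he.comp measurable_fst)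
  have e1 : ∀ A, ∫⁻ B, k (A, B) * (h (A, B) + (e A + e B)) ∂Θ =
      ∫⁻ B, k (A, B) * h (A, B) ∂Θ +
      (∫⁻ B, k (A, B) * e A ∂Θ + ∫⁻ B, k (A, B) * e B ∂Θ) := by
    intro A
    have m1 : Measurable fun B => k (A, B) * h (A, B) := (hkA A).mul (hhA A)
    have m2 : Measurable fun B => k (A, B) * e A := (hkA A).mul measurable_const
    rw [← lintegral_add_left m2, ← lintegral_add_left m1]
    refine lintegral_congr fun B => ?_
    ring
  simp_rw [e1]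
  rw [lintegral_add_left (hp1.lintegral_prod_right'), lintegral_add_left
    (hp2.lintegral_prod_right')]

theorem abs_two (Θ : Measure α) [SFinite Θ] {typ aty : Measure β} [SFinite typ] [SFinite aty]
    {k : β × β → ℝ≥0∞} {r : α → β} {e : α → ℝ≥0∞} (hk : Measurable k) (hr : Measurable r)
    (he : Measurable e) {c : ℝ≥0∞}
    (hlam : ∀ F : β → ℝ≥0∞, Measurable F → ∫⁻ T, F (r T) ∂Θ ≤
      c * (∫⁻ σ, F σ ∂typ + ∫⁻ σ, F σ ∂aty)) :
    ∫⁻ A, ∫⁻ B, k (r A, r B) * e A ∂Θ ∂Θ + ∫⁻ A, ∫⁻ B, k (r A, r B) * e B ∂Θ ∂Θ ≤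
      ∫⁻ T, ((c * ∫⁻ σ', k (r T, σ') ∂typ + c * ∫⁻ σ', k (σ', r T) ∂typ) +
        (c * ∫⁻ σ', k (r T, σ') ∂aty + c * ∫⁻ σ', k (σ', r T) ∂aty)) * e T ∂Θ := by
  have hkr : Measurable fun p : α × α => k (r p.1, r p.2) :=
    hk.comp ((hr.comp measurable_fst).prodMk (hr.comp measurable_snd))
  have hkA : ∀ A, Measurable fun B => k (r A, r B) := fun A =>
    hkr.comp (measurable_const.prodMk measurable_id)
  have hkB : ∀ B, Measurable fun A => k (r A, r B) := fun B =>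
    hkr.comp (measurable_id.prodMk measurable_const)
  have hp3 : Measurable fun p : α × α => k (r p.1, r p.2) * e p.2 :=
    hkr.mul (he.comp measurable_snd)
  have h7 : ∫⁻ A, ∫⁻ B, k (r A, r B) * e A ∂Θ ∂Θ ≤
      ∫⁻ A, (c * (∫⁻ σ', k (r A, σ') ∂typ + ∫⁻ σ', k (r A, σ') ∂aty)) * e A ∂Θ := by
    refine lintegral_mono fun A => ?_
    rw [lintegral_mul_const _ (hkA A)]
    gcongr
    exact hlam (fun σ' => k (r A, σ')) (hk.comp (measurable_const.prodMk measurable_id))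
  have h8 : ∫⁻ A, ∫⁻ B, k (r A, r B) * e B ∂Θ ∂Θ ≤
      ∫⁻ A, (c * (∫⁻ σ', k (σ', r A) ∂typ + ∫⁻ σ', k (σ', r A) ∂aty)) * e A ∂Θ := by
    rw [lintegral_lintegral_swap hp3.aemeasurable]
    refine lintegral_mono fun B => ?_
    rw [lintegral_mul_const _ (hkB B)]
    gcongr
    exact hlam (fun σ' => k (σ', r B)) (hk.comp (measurable_id.prodMk measurable_const))
  refine (add_le_add h7 h8).trans (le_of_eq ?_)
  have m1 : ∀ (m : Measure β) [SFinite m], Measurable fun A => ∫⁻ σ', k (r A, σ') ∂m := by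
    intro m _
    have h : Measurable fun p : α × β => k (r p.1, p.2) :=
      hk.comp ((hr.comp measurable_fst).prodMk measurable_snd)
    exact h.lintegral_prod_right'
  have m2 : Measurable fun A => (c * (∫⁻ σ', k (r A, σ') ∂typ + ∫⁻ σ', k (r A, σ') ∂aty)) * e A :=
    (((m1 typ).add (m1 aty)).const_mul _).mul he
  rw [← lintegral_add_left m2]
  refine lintegral_congr fun A => ?_
  ring

end Abs

section Rec

set_option linter.unusedSectionVars false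

variable {ν : Measure Ph} [IsFiniteMeasure ν] {L : ℕ} {Al : Set CTree} {t : ℝ}

/-- The weighted sum over the exhausts of the trees of `Al`. -/
noncomputable def NN (Φ : E3 → ℝ) (ε : ℝ) (ν : Measure Ph) (Al : Set CTree) (G : Src → ℝ≥0∞)
    (n : ℕ) (g : Src → ℝ≥0∞) : ℝ≥0∞ :=
  ∫⁻ T in Al, g (rsrc Φ ε T) * ES Φ ε G T ∂(tree ν n)

/-- The contribution of the last node. -/
noncomputable def Dn (Φ : E3 → ℝ) (ε t : ℝ) (ν : Measure Ph) (L : ℕ) (Al : Set CTree)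
    (G : Src → ℝ≥0∞) (g : Src → ℝ≥0∞) : ℝ≥0∞ :=
  ∫⁻ A in Al, ∫⁻ B in Al, kf Φ ε t g (rsrc Φ ε A, rsrc Φ ε B) *
    G (nd Φ ε (rsrc Φ ε B, rsrc Φ ε A)) ∂(tree ν L) ∂(tree ν L)

/-- The contribution of the exceptional trees. -/
noncomputable def Xn (Φ : E3 → ℝ) (ε : ℝ) (ν : Measure Ph) (L : ℕ) (Al : Set CTree)
    (G : Src → ℝ≥0∞) (g : Src → ℝ≥0∞) : ℝ≥0∞ :=
  ∫⁻ T in Bad1 Al, g (rsrc Φ ε T) * ES Φ ε G T ∂(tree ν L)

theorem lintegral_Qm (hΦ : IsPotential Φ) (hε : ε ≠ 0) {m : Measure Src} {g : Src → ℝ≥0∞}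
    (hg : Measurable g) (σ : Src) :
    Qm Φ ε t m g σ = muE ε * ∫⁻ σ', kf Φ ε t g (σ, σ') ∂m + muE ε * ∫⁻ σ', kf Φ ε t g (σ', σ) ∂m := by
  have h1 : Measurable fun σ' : Src => kf Φ ε t g (σ, σ') :=
    (measurable_kf hΦ hε t hg).comp (measurable_const.prodMk measurable_id)
  unfold Qm
  rw [lintegral_add_left h1, mul_add]

theorem measurable_kfr (hΦ : IsPotential Φ) (hε : ε ≠ 0) {g : Src → ℝ≥0∞} (hg : Measurable g) :
    Measurable fun p : CTree × CTree => kf Φ ε t g (rsrc Φ ε p.1, rsrc Φ ε p.2) := by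
  have hr := measurable_rsrc hΦ hε (Φ := Φ) (ε := ε)
  exact (measurable_kf hΦ hε t hg).comp ((hr.comp measurable_fst).prodMk (hr.comp measurable_snd))

theorem measurable_Gnd (hΦ : IsPotential Φ) (hε : ε ≠ 0) {G : Src → ℝ≥0∞} (hG : Measurable G) :
    Measurable fun p : CTree × CTree => G (nd Φ ε (rsrc Φ ε p.2, rsrc Φ ε p.1)) := by
  have hr := measurable_rsrc hΦ hε (Φ := Φ) (ε := ε)
  exact hG.comp ((measurable_nd hΦ hε).comp ((hr.comp measurable_snd).prodMk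
    (hr.comp measurable_fst)))

/-- The recursion for the measure on the trees. -/
theorem NN_rec (hΦ : IsPotential Φ) (hε : 0 < ε) (hAl : MeasurableSet Al)
    (hok : ∀ T ∈ Al, ok Φ ε T ∧ ext Φ ε T ≤ t)
    {G g : Src → ℝ≥0∞} (hG : Measurable G) (hg : Measurable g) {n : ℕ} (hn : n + 1 ≤ L) :
    NN Φ ε ν Al G (n + 1) g ≤ Xn Φ ε ν L Al G g +
      ∫⁻ A in Al, ∫⁻ B in Al, kf Φ ε t g (rsrc Φ ε A, rsrc Φ ε B) *
        (G (nd Φ ε (rsrc Φ ε B, rsrc Φ ε A)) + (ES Φ ε G A + ES Φ ε G B)) ∂(tree ν n)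
        ∂(tree ν n) := by
  have hε' : ε ≠ 0 := hε.ne'
  have hr := measurable_rsrc hΦ hε' (Φ := Φ) (ε := ε)
  have hES := measurable_ES hΦ hε' hG (Φ := Φ) (ε := ε)
  have hB1 := measurableSet_Bad1 hAl
  set f : CTree → ℝ≥0∞ := fun T => g (rsrc Φ ε T) * ES Φ ε G T with hf
  have hfm : Measurable f := (hg.comp hr).mul hES
  have h1 : NN Φ ε ν Al G (n + 1) g = ∫⁻ A, ∫⁻ B, Al.indicator f (node A B) ∂(tree ν n)
      ∂(tree ν n) := by
    unfold NN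
    rw [← lintegral_indicator hAl, lintegral_tree_succ n (hfm.indicator hAl)]
    have : ∀ z : Ph, Al.indicator f (leaf (src z)) = 0 := by
      intro z
      by_cases h : leaf (src z) ∈ Al
      · rw [indicator_of_mem h]
        simp only [hf]
        rw [ES_leaf, mul_zero]
      · rw [indicator_of_notMem h]
    simp_rw [this]
    rw [lintegral_zero, zero_add]
  have h2 : ∀ A B : CTree, Al.indicator f (node A B) ≤ (Bad1 Al).indicator f (node A B) +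
      Al.indicator (fun A => Al.indicator (fun B => kf Φ ε t g (rsrc Φ ε A, rsrc Φ ε B) *
        (G (nd Φ ε (rsrc Φ ε B, rsrc Φ ε A)) + (ES Φ ε G A + ES Φ ε G B))) B) A := by
    intro A B
    by_cases h : node A B ∈ Al
    · by_cases h' : A ∈ Al ∧ B ∈ Al
      · refine le_add_left (le_of_eq ?_)
        rw [indicator_of_mem h, indicator_of_mem h'.1, indicator_of_mem h'.2]
        unfold kf
        rw [indicator_of_mem (show (rsrc Φ ε A, rsrc Φ ε B) ∈ {p | hc Φ ε t p} from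
          hc_rsrc hΦ hε (hok _ h).1 (hok _ h).2)]
        rfl
      · refine le_add_right (le_of_eq ?_)
        rw [indicator_of_mem h, indicator_of_mem (show node A B ∈ Bad1 Al from ⟨h, A, B, rfl, h'⟩)]
    · rw [indicator_of_notMem h]
      exact zero_le
  have hBm : Measurable fun p : CTree × CTree => (Bad1 Al).indicator f (node p.1 p.2) :=
    (hfm.indicator hB1).comp measurable_node
  have h3 : ∫⁻ A, ∫⁻ B, Al.indicator f (node A B) ∂(tree ν n) ∂(tree ν n) ≤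
      ∫⁻ A, ∫⁻ B, (Bad1 Al).indicator f (node A B) ∂(tree ν n) ∂(tree ν n) +
      ∫⁻ A in Al, ∫⁻ B in Al, kf Φ ε t g (rsrc Φ ε A, rsrc Φ ε B) *
        (G (nd Φ ε (rsrc Φ ε B, rsrc Φ ε A)) + (ES Φ ε G A + ES Φ ε G B)) ∂(tree ν n)
        ∂(tree ν n) := by
    rw [← lintegral_indicator hAl (μ := tree ν n) (f := fun A => ∫⁻ B in Al, _ ∂(tree ν n)),
      ← lintegral_add_left (Measurable.lintegral_prod_right' hBm)]
    refine lintegral_mono fun A => ?_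
    refine (lintegral_mono fun B => h2 A B).trans ?_
    have hBA : Measurable fun B => (Bad1 Al).indicator f (node A B) :=
      hBm.comp (measurable_const.prodMk measurable_id)
    rw [lintegral_add_left hBA]
    refine add_le_add le_rfl ?_
    by_cases hA : A ∈ Al
    · rw [indicator_of_mem hA, ← lintegral_indicator hAl]
      refine lintegral_mono fun B => ?_
      rw [indicator_of_mem hA]
    · rw [indicator_of_notMem hA]
      refine le_of_eq ?_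
      simp only [indicator_of_notMem hA, lintegral_zero]
  have h4 : ∫⁻ A, ∫⁻ B, (Bad1 Al).indicator f (node A B) ∂(tree ν n) ∂(tree ν n) ≤
      Xn Φ ε ν L Al G g := by
    have e := lintegral_tree_succ (ν := ν) n (hfm.indicator hB1)
    unfold Xn
    rw [← lintegral_indicator hB1]
    calc ∫⁻ A, ∫⁻ B, (Bad1 Al).indicator f (node A B) ∂(tree ν n) ∂(tree ν n)
        ≤ ∫⁻ T, (Bad1 Al).indicator f T ∂(tree ν (n + 1)) := by rw [e]; exact le_add_self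
      _ ≤ _ := lintegral_mono' (tree_mono hn) le_rfl
  rw [h1]
  exact h3.trans (add_le_add h4 le_rfl)

/-- The splitting of the integral over the two subtrees. -/
theorem split_sum (hΦ : IsPotential Φ) (hε : ε ≠ 0) {G g : Src → ℝ≥0∞} (hG : Measurable G)
    (hg : Measurable g) (Θ : Measure CTree) [SFinite Θ] :
    ∫⁻ A, ∫⁻ B, kf Φ ε t g (rsrc Φ ε A, rsrc Φ ε B) *
        (G (nd Φ ε (rsrc Φ ε B, rsrc Φ ε A)) + (ES Φ ε G A + ES Φ ε G B)) ∂Θ ∂Θ =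
      ∫⁻ A, ∫⁻ B, kf Φ ε t g (rsrc Φ ε A, rsrc Φ ε B) *
        G (nd Φ ε (rsrc Φ ε B, rsrc Φ ε A)) ∂Θ ∂Θ +
      (∫⁻ A, ∫⁻ B, kf Φ ε t g (rsrc Φ ε A, rsrc Φ ε B) * ES Φ ε G A ∂Θ ∂Θ +
        ∫⁻ A, ∫⁻ B, kf Φ ε t g (rsrc Φ ε A, rsrc Φ ε B) * ES Φ ε G B ∂Θ ∂Θ) :=
  abs_split Θ (measurable_kfr hΦ hε hg) (measurable_Gnd hΦ hε hG) (measurable_ES hΦ hε hG)

/-- The terms in which the marked node is in one of the two subtrees. -/
theorem two_terms_le (hΦ : IsPotential Φ) (hε : ε ≠ 0) {typ aty : Measure Src} [SFinite typ]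
    [SFinite aty] {G g : Src → ℝ≥0∞} (hG : Measurable G)
    (hg : Measurable g) (Θ : Measure CTree) [SFinite Θ]
    (hlam : ∀ F : Src → ℝ≥0∞, Measurable F → ∫⁻ T, F (rsrc Φ ε T) ∂Θ ≤
      muE ε * (∫⁻ σ, F σ ∂typ + ∫⁻ σ, F σ ∂aty)) :
    ∫⁻ A, ∫⁻ B, kf Φ ε t g (rsrc Φ ε A, rsrc Φ ε B) * ES Φ ε G A ∂Θ ∂Θ +
        ∫⁻ A, ∫⁻ B, kf Φ ε t g (rsrc Φ ε A, rsrc Φ ε B) * ES Φ ε G B ∂Θ ∂Θ ≤
      ∫⁻ T, (Qm Φ ε t typ g (rsrc Φ ε T) + Qm Φ ε t aty g (rsrc Φ ε T)) * ES Φ ε G T ∂Θ := by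
  simp only [lintegral_Qm hΦ hε hg]
  exact abs_two Θ (measurable_kf hΦ hε t hg) (measurable_rsrc hΦ hε) (measurable_ES hΦ hε hG) hlam

/-- **One step of the recursion over the depth.** -/
theorem NN_succ_le (hΦ : IsPotential Φ) (hε : 0 < ε) (hAl : MeasurableSet Al)
    (hok : ∀ T ∈ Al, ok Φ ε T ∧ ext Φ ε T ≤ t) {typ aty : Measure Src} [SFinite typ] [SFinite aty]
    (hlam : ∀ F : Src → ℝ≥0∞, Measurable F → ∫⁻ T in Al, F (rsrc Φ ε T) ∂(tree ν L) ≤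
      muE ε * (∫⁻ σ, F σ ∂typ + ∫⁻ σ, F σ ∂aty))
    {G g : Src → ℝ≥0∞} (hG : Measurable G) (hg : Measurable g) {n : ℕ} (hn : n + 1 ≤ L) :
    NN Φ ε ν Al G (n + 1) g ≤ Dn Φ ε t ν L Al G g + Xn Φ ε ν L Al G g +
      NN Φ ε ν Al G n (fun σ => Qm Φ ε t typ g σ + Qm Φ ε t aty g σ) := by
  have hnL : n ≤ L := (Nat.le_succ n).trans hn
  have hΘL : (tree ν n).restrict Al ≤ (tree ν L).restrict Al :=
    Measure.restrict_mono le_rfl (tree_mono hnL)
  refine (NN_rec hΦ hε hAl hok hG hg hn).trans ?_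
  rw [split_sum hΦ hε.ne' hG hg]
  have h6 : ∫⁻ A in Al, ∫⁻ B in Al, kf Φ ε t g (rsrc Φ ε A, rsrc Φ ε B) *
        G (nd Φ ε (rsrc Φ ε B, rsrc Φ ε A)) ∂(tree ν n) ∂(tree ν n) ≤ Dn Φ ε t ν L Al G g :=
    lintegral_mono' hΘL fun A => lintegral_mono' hΘL le_rfl
  have hlam' : ∀ F : Src → ℝ≥0∞, Measurable F → ∫⁻ T in Al, F (rsrc Φ ε T) ∂(tree ν n) ≤
      muE ε * (∫⁻ σ, F σ ∂typ + ∫⁻ σ, F σ ∂aty) := fun F hF =>
    (lintegral_mono' hΘL le_rfl).trans (hlam F hF)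
  have h7 := two_terms_le hΦ hε.ne' hG hg (t := t) ((tree ν n).restrict Al) hlam'
  calc Xn Φ ε ν L Al G g + (∫⁻ A in Al, ∫⁻ B in Al, kf Φ ε t g (rsrc Φ ε A, rsrc Φ ε B) *
        G (nd Φ ε (rsrc Φ ε B, rsrc Φ ε A)) ∂(tree ν n) ∂(tree ν n) +
      (∫⁻ A in Al, ∫⁻ B in Al, kf Φ ε t g (rsrc Φ ε A, rsrc Φ ε B) * ES Φ ε G A ∂(tree ν n)
        ∂(tree ν n) + ∫⁻ A in Al, ∫⁻ B in Al, kf Φ ε t g (rsrc Φ ε A, rsrc Φ ε B) *
        ES Φ ε G B ∂(tree ν n) ∂(tree ν n)))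
      ≤ Xn Φ ε ν L Al G g + (Dn Φ ε t ν L Al G g +
        NN Φ ε ν Al G n (fun σ => Qm Φ ε t typ g σ + Qm Φ ε t aty g σ)) :=
        add_le_add le_rfl (add_le_add h6 h7)
    _ = _ := by ring

theorem NN_add (hΦ : IsPotential Φ) (hε : ε ≠ 0) {G g g' : Src → ℝ≥0∞} (hG : Measurable G)
    (hg : Measurable g) (n : ℕ) : NN Φ ε ν Al G n (fun σ => g σ + g' σ) =
      NN Φ ε ν Al G n g + NN Φ ε ν Al G n g' := by
  unfold NN
  have h1 : Measurable fun T => g (rsrc Φ ε T) * ES Φ ε G T :=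
    (hg.comp (measurable_rsrc hΦ hε)).mul (measurable_ES hΦ hε hG)
  rw [← lintegral_add_left h1]
  refine lintegral_congr fun T => ?_
  rw [add_mul]

theorem NN_zero (hΦ : IsPotential Φ) (hε : ε ≠ 0) (hAl : MeasurableSet Al)
    {G g : Src → ℝ≥0∞} (hG : Measurable G) (hg : Measurable g) : NN Φ ε ν Al G 0 g = 0 := by
  unfold NN
  have h1 : Measurable fun T => g (rsrc Φ ε T) * ES Φ ε G T :=
    (hg.comp (measurable_rsrc hΦ hε)).mul (measurable_ES hΦ hε hG)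
  rw [← lintegral_indicator hAl, lintegral_tree_zero (h1.indicator hAl)]
  refine (lintegral_congr fun z => ?_).trans lintegral_zero
  by_cases h : leaf (src z) ∈ Al
  · rw [indicator_of_mem h, ES_leaf, mul_zero]
  · rw [indicator_of_notMem h]

/-- **The recursion, unrolled.** -/
theorem NN_le (hΦ : IsPotential Φ) (hε : 0 < ε) (hAl : MeasurableSet Al)
    (hok : ∀ T ∈ Al, ok Φ ε T ∧ ext Φ ε T ≤ t) {typ aty : Measure Src} [SFinite typ] [SFinite aty]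
    (hlam : ∀ F : Src → ℝ≥0∞, Measurable F → ∫⁻ T in Al, F (rsrc Φ ε T) ∂(tree ν L) ≤
      muE ε * (∫⁻ σ, F σ ∂typ + ∫⁻ σ, F σ ∂aty))
    {G : Src → ℝ≥0∞} (hG : Measurable G) : ∀ n ≤ L, ∀ g : Src → ℝ≥0∞, Measurable g →
    NN Φ ε ν Al G n g ≤ ∑ k ∈ Finset.range n, (Dn Φ ε t ν L Al G ((Qm Φ ε t typ)^[k] g) +
      Xn Φ ε ν L Al G ((Qm Φ ε t typ)^[k] g) +
      NN Φ ε ν Al G L (Qm Φ ε t aty ((Qm Φ ε t typ)^[k] g))) := by
  intro n
  induction n with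
  | zero =>
    intro _ g hg
    rw [NN_zero hΦ hε.ne' hAl hG hg]
    exact zero_le
  | succ n ih =>
    intro hn g hg
    have hnL : n ≤ L := (Nat.le_succ n).trans hn
    have hQ := measurable_Qm hΦ hε.ne' t typ hg
    refine (NN_succ_le hΦ hε hAl hok hlam hG hg hn).trans ?_
    rw [NN_add hΦ hε.ne' hG hQ, Finset.sum_range_succ']
    have h1 := ih hnL (Qm Φ ε t typ g) hQ
    have h2 : NN Φ ε ν Al G n (Qm Φ ε t aty g) ≤ NN Φ ε ν Al G L (Qm Φ ε t aty g) :=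
      lintegral_mono' (Measure.restrict_mono le_rfl (tree_mono hnL)) le_rfl
    simp only [Function.iterate_succ_apply, Function.iterate_zero, id_eq]
    calc Dn Φ ε t ν L Al G g + Xn Φ ε ν L Al G g +
          (NN Φ ε ν Al G n (Qm Φ ε t typ g) + NN Φ ε ν Al G n (Qm Φ ε t aty g))
        ≤ Dn Φ ε t ν L Al G g + Xn Φ ε ν L Al G g +
          (∑ k ∈ Finset.range n, (Dn Φ ε t ν L Al G ((Qm Φ ε t typ)^[k] (Qm Φ ε t typ g)) +
      Xn Φ ε ν L Al G ((Qm Φ ε t typ)^[k] (Qm Φ ε t typ g)) +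
      NN Φ ε ν Al G L (Qm Φ ε t aty ((Qm Φ ε t typ)^[k] (Qm Φ ε t typ g)))) +
          NN Φ ε ν Al G L (Qm Φ ε t aty g)) := by gcongr
      _ = _ := by ring

/-! ### The estimates of the terms -/

/-- Duality. -/
theorem lintegral_Qm_comm (hΦ : IsPotential Φ) (hε : ε ≠ 0) {m m' : Measure Src} [SFinite m]
    [SFinite m'] {g : Src → ℝ≥0∞} (hg : Measurable g) :
    ∫⁻ σ, Qm Φ ε t m g σ ∂m' = ∫⁻ σ, Qm Φ ε t m' g σ ∂m := by
  unfold Qm
  have hk := measurable_kf hΦ hε t hg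
  have h2 : Measurable fun p : Src × Src => kf Φ ε t g (p.1, p.2) + kf Φ ε t g (p.2, p.1) :=
    hk.add (hk.comp measurable_swap)
  rw [lintegral_const_mul' _ _ muE_ne_top, lintegral_const_mul' _ _ muE_ne_top,
    lintegral_lintegral_swap h2.aemeasurable]
  congr 1
  refine lintegral_congr fun σ => lintegral_congr fun σ' => ?_
  rw [add_comm]

/-- The atypical terms of the recursion. -/
theorem NN_aty_le (hΦ : IsPotential Φ) (hε : 0 < ε) {aty cr : Measure Src} [SFinite aty]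
    [SFinite cr] {Ccr : ℝ≥0∞}
    (hcr : ∀ F : Src → ℝ≥0∞, Measurable F → ∫⁻ T in Al, F (rsrc Φ ε T) ∂(tree ν L) ≤
      muE ε * (Ccr * ∫⁻ σ, F σ ∂cr))
    {G g : Src → ℝ≥0∞} (hG1 : ∀ σ, G σ ≤ 1) (hg : Measurable g) :
    NN Φ ε ν Al G L (Qm Φ ε t aty g) ≤
      2 ^ L * (muE ε * (Ccr * ∫⁻ σ, Qm Φ ε t cr g σ ∂aty)) := by
  unfold NN
  refine (lintegral_ES_le hG1 Al (fun T => Qm Φ ε t aty g (rsrc Φ ε T))).trans ?_
  gcongr
  refine (hcr _ (measurable_Qm hΦ hε.ne' t aty hg)).trans (le_of_eq ?_)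
  rw [lintegral_Qm_comm hΦ hε.ne' hg]

/-- The last node. -/
theorem Dn_le (hΦ : IsPotential Φ) (hε : 0 < ε) {typ aty cr : Measure Src} [SFinite typ]
    [SFinite aty] [SFinite cr]
    (hlam : ∀ F : Src → ℝ≥0∞, Measurable F → ∫⁻ T in Al, F (rsrc Φ ε T) ∂(tree ν L) ≤
      muE ε * (∫⁻ σ, F σ ∂typ + ∫⁻ σ, F σ ∂aty)) {Ccr : ℝ≥0∞}
    (hcr : ∀ F : Src → ℝ≥0∞, Measurable F → ∫⁻ T in Al, F (rsrc Φ ε T) ∂(tree ν L) ≤
      muE ε * (Ccr * ∫⁻ σ, F σ ∂cr))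
    {G g : Src → ℝ≥0∞} (hG : Measurable G) (hG1 : ∀ σ, G σ ≤ 1) (hg : Measurable g) :
    Dn Φ ε t ν L Al G g ≤ muE ε * (muE ε * ∫⁻ σ, ∫⁻ σ', kf Φ ε t g (σ, σ') *
        G (nd Φ ε (σ', σ)) ∂typ ∂typ) +
      muE ε * ∫⁻ σ, Qm Φ ε t typ g σ ∂aty + muE ε * (Ccr * ∫⁻ σ, Qm Φ ε t cr g σ ∂aty) := by
  have hε' : ε ≠ 0 := hε.ne'
  set Ψ : Src × Src → ℝ≥0∞ := fun p => kf Φ ε t g p * G (nd Φ ε p.swap) with hΨ
  have hΨm : Measurable Ψ := (measurable_kf hΦ hε' t hg).mul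
    (hG.comp ((measurable_nd hΦ hε').comp measurable_swap))
  have hΨ1 : ∀ σ σ' : Src, Ψ (σ, σ') ≤ kf Φ ε t g (σ, σ') + kf Φ ε t g (σ', σ) := by
    intro σ σ'
    calc Ψ (σ, σ') ≤ kf Φ ε t g (σ, σ') * 1 := by
          simp only [hΨ]
          gcongr
          exact hG1 _
      _ ≤ _ := by rw [mul_one]; exact le_self_add
  have hΨr : ∀ σ : Src, Measurable fun σ' => Ψ (σ, σ') := fun σ =>
    hΨm.comp (measurable_const.prodMk measurable_id)
  have hi : ∀ (m : Measure Src) [SFinite m], Measurable fun σ => ∫⁻ σ', Ψ (σ, σ') ∂m :=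
    fun m _ => hΨm.lintegral_prod_right'
  have hq : ∀ (m : Measure Src) [SFinite m] (σ : Src), muE ε * ∫⁻ σ', Ψ (σ, σ') ∂m ≤
      Qm Φ ε t m g σ := by
    intro m _ σ
    unfold Qm
    gcongr with σ'
    exact hΨ1 σ σ'
  have h0 : Dn Φ ε t ν L Al G g ≤ ∫⁻ A in Al, (muE ε * (∫⁻ σ', Ψ (rsrc Φ ε A, σ') ∂typ +
      ∫⁻ σ', Ψ (rsrc Φ ε A, σ') ∂aty)) ∂(tree ν L) := by
    unfold Dn
    exact lintegral_mono fun A => hlam (fun σ' => Ψ (rsrc Φ ε A, σ')) (hΨr _)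
  have h1 : ∫⁻ A in Al, (muE ε * (∫⁻ σ', Ψ (rsrc Φ ε A, σ') ∂typ +
      ∫⁻ σ', Ψ (rsrc Φ ε A, σ') ∂aty)) ∂(tree ν L) =
      muE ε * (∫⁻ A in Al, ∫⁻ σ', Ψ (rsrc Φ ε A, σ') ∂typ ∂(tree ν L) +
        ∫⁻ A in Al, ∫⁻ σ', Ψ (rsrc Φ ε A, σ') ∂aty ∂(tree ν L)) := by
    rw [lintegral_const_mul' _ _ muE_ne_top]
    congr 1
    exact lintegral_add_left ((hi typ).comp (measurable_rsrc hΦ hε')) _
  have h2 := hlam (fun σ => ∫⁻ σ', Ψ (σ, σ') ∂typ) (hi typ)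
  have h3 := hcr (fun σ => ∫⁻ σ', Ψ (σ, σ') ∂aty) (hi aty)
  have h4 : muE ε * ∫⁻ σ, ∫⁻ σ', Ψ (σ, σ') ∂typ ∂aty ≤ ∫⁻ σ, Qm Φ ε t typ g σ ∂aty := by
    rw [← lintegral_const_mul' _ _ muE_ne_top]
    exact lintegral_mono fun σ => hq typ σ
  have h5 : muE ε * ∫⁻ σ, ∫⁻ σ', Ψ (σ, σ') ∂aty ∂cr ≤ ∫⁻ σ, Qm Φ ε t cr g σ ∂aty := by
    rw [lintegral_Qm_comm hΦ hε' hg, ← lintegral_const_mul' _ _ muE_ne_top]
    exact lintegral_mono fun σ => hq aty σ
  calc Dn Φ ε t ν L Al G g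
      ≤ muE ε * (muE ε * (∫⁻ σ, ∫⁻ σ', Ψ (σ, σ') ∂typ ∂typ + ∫⁻ σ, ∫⁻ σ', Ψ (σ, σ') ∂typ ∂aty) +
        muE ε * (Ccr * ∫⁻ σ, ∫⁻ σ', Ψ (σ, σ') ∂aty ∂cr)) := by
        refine h0.trans (h1.le.trans ?_)
        gcongr
    _ = muE ε * (muE ε * ∫⁻ σ, ∫⁻ σ', Ψ (σ, σ') ∂typ ∂typ) +
        muE ε * (muE ε * ∫⁻ σ, ∫⁻ σ', Ψ (σ, σ') ∂typ ∂aty) +
        muE ε * (Ccr * (muE ε * ∫⁻ σ, ∫⁻ σ', Ψ (σ, σ') ∂aty ∂cr)) := by ring
    _ ≤ _ := by gcongr; exact le_rfl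

end Rec

end Vale.Agent.P119.PB.EX
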