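import Vale.Agent.P119.PB.DM2
import Vale.Agent.P119.PB.Exh
import Vale.Agent.P119.ML.Crude
import Vale.Agent.P119.ML.CapSplit

/-!
# P119, block PROB: the mass of the trees of given depth, fixed world, crude part (`helper347`)

* `OKs`: the trees which end before `T₀`; `crude_LawH`, `mass_OKs_le`: crude exponential mass;
* `LawH.trunc`: the law of the root lines with exponential weights;
* `errT_le`, `mass_bad_le`.
-/

open MeasureTheory Set Filter Topology Metric ProbabilityTheory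
open scoped ENNReal

namespace Vale.Agent.P119.PB

open KU FL M CTree

variable {Φ : E3 → ℝ} {ε : ℝ}

/-- The trees which end before `T₀`. -/
def OKs (Φ : E3 → ℝ) (ε T₀ : ℝ) : Set CTree := {T | ok Φ ε T ∧ ext Φ ε T ≤ T₀}

theorem measurableSet_OKs (hΦ : IsPotential Φ) (hε : ε ≠ 0) (T₀ : ℝ) :
    MeasurableSet (OKs Φ ε T₀) :=
  (measurableSet_ok hΦ hε).inter (measurableSet_le (measurable_ext hΦ hε) measurable_const)

/-- The crude law. -/
theorem crude_LawH (hΦ : IsPotential Φ) {f₀ : Ph → ℝ} {κ b T₀ M₀ : ℝ} (hg : GoodDatum f₀ κ)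
    (hb : 0 < b) (hT : 0 ≤ T₀) (hM : 0 ≤ M₀) (hf : ∀ z, f₀ z ≤ M₀ * Real.exp (-b * ‖z.2‖ ^ 2))
    (L : ℕ) : ∃ C : ℝ≥0∞, C ≠ ∞ ∧ ∀ ε : ℝ, 0 < ε →
      LawH Φ ε (GC.inten f₀ ε) L T₀ (b / 2) (fun n => if n ≤ L then C else 0) 0
        (OKs Φ ε T₀) := by
  classical
  obtain ⟨C, hC, h⟩ := ML.crude_tree hΦ hg hb hT hM hf L
  refine ⟨C, hC, fun ε hε => ⟨measurableSet_OKs hΦ hε.ne' T₀, fun T h => h.1, fun T h => h.2,
    fun F hF => (h ε hε F hF).trans ?_⟩⟩
  have e0 : muE ε = ENNReal.ofReal (mu ε) := rfl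
  rw [lintegral_zero_measure, add_zero, e0]
  refine mul_le_mul_right ?_ _
  set G : ℕ → ℝ≥0∞ := fun n => (∫⁻ z : Ph, gw (b / 2) z.2 * F (0, z, n)) +
      (∫⁻ s in Icc 0 T₀, ∫⁻ z : Ph, gw (b / 2) z.2 * F (s, z, n)) with hG
  have h1 : ∀ n, C * (if n ∈ Finset.range (L + 1) then G n else 0) =
      (if n ≤ L then C else 0) * G n := by
    intro n
    by_cases hn : n ≤ L
    · rw [if_pos (Finset.mem_range.2 (by omega)), if_pos hn]
    · rw [if_neg (fun h => hn (by have := Finset.mem_range.1 h; omega)), if_neg hn, mul_zero,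
        zero_mul]
  calc _ ≤ C * ∑ n ∈ Finset.range (L + 1), G n := by
        refine mul_le_mul_right ?_ _
        have h2 : insert 0 (Finset.Icc 1 L) = Finset.range (L + 1) := by
          ext n
          simp only [Finset.mem_insert, Finset.mem_Icc, Finset.mem_range]
          omega
        rw [← h2, Finset.sum_insert (by simp)]
        refine add_le_add ?_ (Finset.sum_le_sum fun n _ => ?_)
        · exact le_self_add
        · exact le_add_self
    _ = ∑' n, (if n ≤ L then C else 0) * G n := by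
        rw [Finset.mul_sum]
        simp_rw [← h1]
        rw [tsum_eq_sum (s := Finset.range (L + 1)) fun n hn => by rw [if_neg hn, mul_zero]]
        exact Finset.sum_congr rfl fun n hn => by rw [if_pos hn]
    _ ≤ _ := le_rfl

/-- No subtree of a tree of `OKs` is bad. -/
theorem bad1_OKs (hΦ : IsPotential Φ) (hε : 0 < ε) (T₀ : ℝ) : bad1 (OKs Φ ε T₀) = ∅ := by
  refine eq_empty_of_forall_notMem fun T hT => ?_
  obtain ⟨⟨h1, h2⟩, h3⟩ := hT
  apply h3
  cases T with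
  | leaf σ => trivial
  | node A B =>
    obtain ⟨k1, k2, -, k4, k5, k6, k7⟩ := h1
    have h8 : hitT ε (ln Φ ε A, ln Φ ε B) < sepT Φ ε (ln Φ ε A, ln Φ ε B) :=
      hitT_lt_sepT hΦ hε k5 k4.2
    have h9 : sepT Φ ε (ln Φ ε A, ln Φ ε B) ≤ T₀ := h2
    exact ⟨⟨k1, by linarith⟩, ⟨k2, by linarith⟩⟩

/-- The mass of the leaves. -/
theorem mass_zero_le (hΦ : IsPotential Φ) (hε : 0 < ε) {ν : Measure Ph} [IsFiniteMeasure ν]
    (L : ℕ) {c T₀ Λ : ℝ} {S : Set CTree} (hS : MeasurableSet S) :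
    mass Φ ε ν L c T₀ Λ (S ∩ dep 0) ≤ ∫⁻ z, wB c T₀ Λ 0 z.2 ∂ν := by
  have hw := measurable_wT hΦ hε.ne' c T₀ Λ
  have hSd : MeasurableSet (S ∩ dep 0) := hS.inter (measurableSet_dep 0)
  unfold mass
  rw [← lintegral_indicator hSd]
  refine (lintegral_tree_le L (hw.indicator hSd)).trans ?_
  have h0 : ∀ A B : CTree, (S ∩ dep 0).indicator
      (fun T : CTree => wB c T₀ Λ (ext Φ ε T) (ln Φ ε T).2) (CTree.node A B) = 0 := by
    intro A B
    apply indicator_of_notMem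
    rintro ⟨-, h⟩
    have h1 : (CTree.node A B).depth = 0 := h
    have h2 : (CTree.node A B).depth = max A.depth B.depth + 1 := rfl
    omega
  simp only [h0, lintegral_zero, add_zero]
  refine lintegral_mono fun z => ?_
  refine (indicator_le_self _ _ _).trans (le_of_eq ?_)
  rfl

theorem mass_mono {ν : Measure Ph} {L : ℕ} {c T₀ Λ : ℝ} {S S' : Set CTree} (h : S ⊆ S') :
    mass Φ ε ν L c T₀ Λ S ≤ mass Φ ε ν L c T₀ Λ S' := lintegral_mono_set h

/-- The mass is the sum of the masses of the depths. -/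
theorem mass_eq_sum {ν : Measure Ph} {L : ℕ} {c T₀ Λ : ℝ} {S : Set CTree}
    (hS : MeasurableSet S) :
    mass Φ ε ν L c T₀ Λ S = ∑ d ∈ Finset.range (L + 1), mass Φ ε ν L c T₀ Λ (S ∩ dep d) := by
  unfold mass
  have h1 : (S ∩ ⋃ d ∈ Finset.range (L + 1), dep d : Set CTree) =ᵐ[tree ν L] S := by
    filter_upwards [EX.ae_depth_le (ν := ν) L] with T hT
    apply propext
    refine ⟨fun h => h.1, fun h => ⟨h, ?_⟩⟩
    exact mem_biUnion (show T.depth ∈ (Finset.range (L + 1) : Set ℕ) from by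
      rw [Finset.mem_coe, Finset.mem_range]; omega) rfl
  rw [← setLIntegral_congr h1, inter_iUnion₂]
  rw [lintegral_biUnion_finset]
  · intro i _ j _ hij
    refine disjoint_left.2 fun T h2 h3 => hij ?_
    exact h2.2.symm.trans h3.2
  · exact fun d _ => hS.inter (measurableSet_dep d)

/-- **The crude exponential mass.** -/
theorem mass_OKs_le (hΦ : IsPotential Φ) {f₀ : Ph → ℝ} {κ b T₀ M₀ : ℝ} (hg : GoodDatum f₀ κ)
    (hb : 0 < b) (hT : 0 < T₀) (hM : 0 ≤ M₀) (hf : ∀ z, f₀ z ≤ M₀ * Real.exp (-b * ‖z.2‖ ^ 2))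
    {c : ℝ} (hc : 0 < c) (hcb : c ≤ b / 4)
    (hc0 : ∫⁻ z, wB c T₀ 1 0 z.2 ∂(law f₀) ≠ ∞) (L : ℕ) :
    ∃ C : ℝ≥0∞, C ≠ ∞ ∧ ∀ ε : ℝ, 0 < ε →
      mass Φ ε (GC.inten f₀ ε) L c T₀ 1 (OKs Φ ε T₀) ≤ muE ε * C := by
  obtain ⟨C, hC, h⟩ := crude_LawH hΦ hg hb hT.le hM hf L
  set m : ℕ → ℝ≥0∞ := fun n => if n ≤ L then C else 0 with hm
  set q := 2 * cStep m (b / 2) c T₀ 1 with hq
  have hmt : ∑' n, m n ≠ ∞ := by
    rw [tsum_eq_sum (s := Finset.range (L + 1)) fun n hn => by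
      rw [hm]; exact if_neg fun h => hn (Finset.mem_range.2 (by omega))]
    refine ENNReal.sum_ne_top.2 fun n _ => ?_
    rw [hm]
    dsimp only
    split_ifs
    · exact hC
    · exact ENNReal.zero_ne_top
  have hqt : q ≠ ∞ := by
    rw [hq]
    unfold cStep cHB
    refine ENNReal.mul_ne_top (by norm_num) (ENNReal.mul_ne_top hmt (ENNReal.mul_ne_top
      (ENNReal.add_ne_top.2 ⟨ENNReal.one_ne_top, ENNReal.ofReal_ne_top⟩)
      (ENNReal.mul_ne_top (ENNReal.mul_ne_top ENNReal.ofReal_ne_top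
        (I0_ne_top (by positivity))) ENNReal.ofReal_ne_top)))
  set C₀ := ∫⁻ z, wB c T₀ 1 0 z.2 ∂(law f₀) with hC₀
  refine ⟨∑ d ∈ Finset.range (L + 1), q ^ d * C₀, ENNReal.sum_ne_top.2 fun d _ =>
    ENNReal.mul_ne_top (ENNReal.pow_ne_top hqt) hc0, fun ε hε => ?_⟩
  have hfin : IsFiniteMeasure (GC.inten f₀ ε) := GC.isFiniteMeasure_inten hg
  have hL := h ε hε
  rw [mass_eq_sum (measurableSet_OKs hΦ hε.ne' T₀), Finset.mul_sum]
  have key : ∀ d, mass Φ ε (GC.inten f₀ ε) L c T₀ 1 (OKs Φ ε T₀ ∩ dep d) ≤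
      muE ε * (q ^ d * C₀) := by
    intro d
    induction d with
    | zero =>
      refine (mass_zero_le hΦ hε L (measurableSet_OKs hΦ hε.ne' T₀)).trans (le_of_eq ?_)
      rw [pow_zero, one_mul]
      unfold GC.inten
      rw [lintegral_smul_measure]
      rfl
    | succ d ih =>
      have h1 := hL.mass_succ_le hΦ hε (Λ := 1) (by positivity) hc (by linarith) hT le_rfl d
      have h2 : mass Φ ε (GC.inten f₀ ε) L c T₀ 1 (bad1 (OKs Φ ε T₀) ∩ dep (d + 1)) = 0 := by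
        rw [bad1_OKs hΦ hε]
        unfold mass
        simp
      have h3 : errT Φ ε (GC.inten f₀ ε) L c T₀ 1 0 (OKs Φ ε T₀ ∩ dep d) = 0 := by
        unfold errT
        simp
      rw [h2, h3] at h1
      simp only [mul_zero, add_zero] at h1
      refine h1.trans ?_
      calc q * mass Φ ε (GC.inten f₀ ε) L c T₀ 1 (OKs Φ ε T₀ ∩ dep d)
          ≤ q * (muE ε * (q ^ d * C₀)) := by gcongr
        _ = muE ε * (q ^ (d + 1) * C₀) := by rw [pow_succ]; ring
  exact Finset.sum_le_sum fun d _ => key d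

/-! ### Truncation of the velocities -/

/-- The trees of large velocity. -/
def fastT (Φ : E3 → ℝ) (ε R : ℝ) : Set CTree := {T | R < ‖(ln Φ ε T).2‖}

theorem measurableSet_fastT (hΦ : IsPotential Φ) (hε : ε ≠ 0) (R : ℝ) :
    MeasurableSet (fastT Φ ε R) :=
  measurableSet_lt measurable_const (measurable_ln hΦ hε).snd.norm

/-- A Gaussian of large velocity. -/
theorem gw_fast_le {b R : ℝ} (hb : 0 < b) (hR : 0 ≤ R) {v : E3} (hv : R < ‖v‖) :
    gw (b / 2) v ≤ ENNReal.ofReal (Real.exp (-(b / 4) * R ^ 2)) * gw (b / 4) v := by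
  unfold gw
  rw [← ENNReal.ofReal_mul (Real.exp_nonneg _), ← Real.exp_add]
  apply ENNReal.ofReal_le_ofReal
  apply Real.exp_le_exp.2
  have h1 : R ^ 2 ≤ ‖v‖ ^ 2 := by
    have := norm_nonneg v
    nlinarith
  nlinarith

theorem gw_anti' {b b' : ℝ} (h : b' ≤ b) (v : E3) : gw b v ≤ gw b' v := by
  unfold gw
  apply ENNReal.ofReal_le_ofReal
  apply Real.exp_le_exp.2
  have := sq_nonneg ‖v‖
  nlinarith

/-- **The law of the root lines, with the atypical part truncated.** -/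
theorem LawH.trunc (hΦ : IsPotential Φ) (hε : 0 < ε) {ν : Measure Ph} {L : ℕ} {T₀ b b₁ : ℝ}
    {m : ℕ → ℝ≥0∞} {A : Measure Src}
    {Al : Set CTree} (h : LawH Φ ε ν L T₀ b₁ m A Al) {C : ℝ≥0∞}
    (hcr : LawH Φ ε ν L T₀ (b / 2) (fun n => if n ≤ L then C else 0) 0 (OKs Φ ε T₀))
    (hb : 0 < b) {R : ℝ} (hR : 0 ≤ R) {b₂ : ℝ} (h1 : b₂ ≤ b₁) (h2 : b₂ ≤ b / 4) :
    LawH Φ ε ν L T₀ b₂ (fun n => m n + if n ≤ L then
      C * ENNReal.ofReal (Real.exp (-(b / 4) * R ^ 2)) else 0)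
      (A.restrict {p : Src | ‖p.2.1.2‖ ≤ R}) Al := by
  refine ⟨h.meas, h.ok, h.ext_le, fun F hF => ?_⟩
  have hp : Measurable fun p : Src => ‖p.2.1.2‖ :=
    (measurable_snd.comp (measurable_fst.comp measurable_snd)).norm
  set S : Set Src := {p : Src | ‖p.2.1.2‖ ≤ R} with hS
  have hSm : MeasurableSet S := measurableSet_le hp measurable_const
  set E := ENNReal.ofReal (Real.exp (-(b / 4) * R ^ 2)) with hE
  have e1 : ∀ T, F (rsrc Φ ε T) = S.indicator F (rsrc Φ ε T) + Sᶜ.indicator F (rsrc Φ ε T) :=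
    fun T => (congrFun (indicator_self_add_compl S F) _).symm
  have hsub : Al ⊆ OKs Φ ε T₀ := fun T hT => ⟨h.ok T hT, h.ext_le T hT⟩
  have hrs : Measurable fun T : CTree => S.indicator F (rsrc Φ ε T) :=
    (hF.indicator hSm).comp (measurable_rsrc hΦ hε.ne')
  set G : ℕ → ℝ≥0∞ := fun n => (∫⁻ z : Ph, gw b₂ z.2 * F (0, z, n)) +
        (∫⁻ s in Icc 0 T₀, ∫⁻ z : Ph, gw b₂ z.2 * F (s, z, n)) with hG
  have a1 : ∫⁻ T in Al, S.indicator F (rsrc Φ ε T) ∂(tree ν L) ≤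
      muE ε * ((∑' n, m n * G n) + ∫⁻ p in S, F p ∂A) := by
    refine (h.law _ (hF.indicator hSm)).trans ?_
    rw [lintegral_indicator hSm]
    simp only [hG]
    gcongr with n z s z
    · exact gw_anti' h1 _
    · exact indicator_le_self _ _ _
    · exact gw_anti' h1 _
    · exact indicator_le_self _ _ _
  have key : ∀ (s : ℝ) (z : Ph) (n : ℕ), gw (b / 2) z.2 * Sᶜ.indicator F (s, z, n) ≤
      E * (gw b₂ z.2 * F (s, z, n)) := by
    intro s z n
    by_cases hz : (s, z, n) ∈ Sᶜ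
    · rw [indicator_of_mem hz, ← mul_assoc]
      refine mul_le_mul_left ?_ _
      have hz' : R < ‖z.2‖ := not_le.1 hz
      exact (gw_fast_le hb hR hz').trans (mul_le_mul_right (gw_anti' h2 _) _)
    · rw [indicator_of_notMem hz, mul_zero]
      exact zero_le
  have a2 : ∫⁻ T in Al, Sᶜ.indicator F (rsrc Φ ε T) ∂(tree ν L) ≤
      muE ε * ∑' n, (if n ≤ L then C * E else 0) * G n := by
    refine (lintegral_mono_set hsub).trans ((hcr.law _ (hF.indicator hSm.compl)).trans ?_)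
    rw [lintegral_zero_measure, add_zero]
    refine mul_le_mul_right (ENNReal.tsum_le_tsum fun n => ?_) _
    by_cases hn : n ≤ L
    · rw [if_pos hn, if_pos hn, mul_assoc]
      refine mul_le_mul_right ?_ _
      rw [hG, mul_add]
      refine add_le_add ?_ ?_
      · rw [← lintegral_const_mul' _ _ ENNReal.ofReal_ne_top]
        exact lintegral_mono fun z => key 0 z n
      · rw [← lintegral_const_mul' _ _ ENNReal.ofReal_ne_top]
        refine lintegral_mono fun s => ?_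
        dsimp only
        rw [← lintegral_const_mul' _ _ ENNReal.ofReal_ne_top]
        exact lintegral_mono fun z => key s z n
    · rw [if_neg hn, if_neg hn]
      simp
  calc ∫⁻ T in Al, F (rsrc Φ ε T) ∂(tree ν L)
      = ∫⁻ T in Al, S.indicator F (rsrc Φ ε T) ∂(tree ν L) +
        ∫⁻ T in Al, Sᶜ.indicator F (rsrc Φ ε T) ∂(tree ν L) := by
        rw [← lintegral_add_left hrs]
        exact lintegral_congr fun T => e1 T
    _ ≤ muE ε * ((∑' n, m n * G n) + ∫⁻ p in S, F p ∂A) +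
        muE ε * ∑' n, (if n ≤ L then C * E else 0) * G n := add_le_add a1 a2
    _ = _ := by
        rw [← mul_add]
        congr 1
        simp only [add_mul]
        rw [ENNReal.tsum_add]
        ring

/-! ### The error terms -/

theorem HB_le_zero {c T₀ Λ s : ℝ} (hs : 0 ≤ s) (l l' : Ph) :
    HB ε c T₀ Λ s l l' ≤ HB ε c T₀ Λ 0 l' l := by
  unfold HB
  by_cases h : Meets ε (l, l') ∧ hitT ε (l, l') ∈ Ioc s T₀
  · have hsw : hitT ε (l', l) = hitT ε (l, l') := hitT_swap (l, l')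
    have h1 : Meets ε (l', l) ∧ hitT ε (l', l) ∈ Ioc 0 T₀ := by
      refine ⟨(meets_swap (l, l')).2 h.1, ?_⟩
      rw [hsw]
      exact ⟨lt_of_le_of_lt hs h.2.1, h.2.2⟩
    rw [indicator_of_mem (show l' ∈ {l' : Ph | Meets ε (l, l') ∧ hitT ε (l, l') ∈ Ioc s T₀}
      from h), indicator_of_mem (show l ∈ {l : Ph | Meets ε (l', l) ∧ hitT ε (l', l) ∈ Ioc 0 T₀}
      from h1), hsw, add_comm (‖l'.2‖ ^ 2)]
  · rw [indicator_of_notMem (show l' ∉ {l' : Ph | Meets ε (l, l') ∧ hitT ε (l, l') ∈ Ioc s T₀}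
      from h)]
    exact zero_le

/-- **The error of the atypical part.** -/
theorem errT_le (hΦ : IsPotential Φ) (hε : 0 < ε) {ν : Measure Ph} [IsFiniteMeasure ν] {L : ℕ}
    {T₀ b : ℝ} {C : ℝ≥0∞}
    (hcr : LawH Φ ε ν L T₀ b (fun n => if n ≤ L then C else 0) 0 (OKs Φ ε T₀))
    (hb : 0 < b) {c : ℝ} (hc : 0 < c) (hcb : c ≤ b / 2) (hT : 0 < T₀) {Λ : ℝ} (hΛ : 1 ≤ Λ)
    {A : Measure Src} [SFinite A] {S : Set CTree} (hS : S ⊆ OKs Φ ε T₀) :
    errT Φ ε ν L c T₀ Λ A S ≤ muE ε * (cStep (fun n => if n ≤ L then C else 0) b c T₀ Λ *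
      ∫⁻ p : Src, wB c T₀ Λ 0 p.2.1.2 ∂A) := by
  unfold errT
  refine mul_le_mul_right ?_ _
  have hm : Measurable fun q : CTree × Src => HB ε c T₀ Λ 0 q.2.2.1 (ln Φ ε q.1) := by
    have h1 : Measurable fun q : CTree × Src => (((0, q.2.2.1), ln Φ ε q.1) : (ℝ × Ph) × Ph) :=
      (measurable_const.prodMk (measurable_fst.comp (measurable_snd.comp measurable_snd))).prodMk
        ((measurable_ln hΦ hε.ne').comp measurable_fst)
    exact (measurable_HB c T₀ Λ).comp h1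
  have hw : Measurable fun p : Src => wB c T₀ Λ 0 p.2.1.2 := by
    have h1 : Measurable fun p : Src => ((0, p.2.1.2) : ℝ × E3) :=
      measurable_const.prodMk (measurable_snd.comp (measurable_fst.comp measurable_snd))
    exact (measurable_wB c T₀ Λ).comp h1
  calc ∫⁻ T in S, ∫⁻ p, HB ε c T₀ Λ (ext Φ ε T) (ln Φ ε T) p.2.1 ∂A ∂(tree ν L)
      ≤ ∫⁻ T in OKs Φ ε T₀, ∫⁻ p, HB ε c T₀ Λ (ext Φ ε T) (ln Φ ε T) p.2.1 ∂A ∂(tree ν L) :=
        lintegral_mono_set hS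
    _ ≤ ∫⁻ T in OKs Φ ε T₀, ∫⁻ p : Src, HB ε c T₀ Λ 0 p.2.1 (ln Φ ε T) ∂A ∂(tree ν L) :=
        setLIntegral_mono' (measurableSet_OKs hΦ hε.ne' T₀) fun T hT =>
          lintegral_mono fun p => HB_le_zero (ext_nonneg hΦ hε hT.1) _ _
    _ = ∫⁻ p : Src, ∫⁻ T in OKs Φ ε T₀, HB ε c T₀ Λ 0 p.2.1 (ln Φ ε T) ∂(tree ν L) ∂A :=
        lintegral_lintegral_swap hm.aemeasurable
    _ ≤ ∫⁻ p : Src, cStep (fun n => if n ≤ L then C else 0) b c T₀ Λ *
          wB c T₀ Λ 0 p.2.1.2 ∂A := by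
        refine lintegral_mono fun p => ?_
        refine (hcr.inner_le hε hb hc hcb hT hΛ le_rfl p.2.1).trans (le_of_eq ?_)
        rw [lintegral_zero_measure, mul_zero, add_zero]
    _ = _ := lintegral_const_mul _ hw

/-- The mass of the fast trees. -/
theorem mass_fast_le (hΦ : IsPotential Φ) (hε : 0 < ε) {ν : Measure Ph} {L : ℕ} {c T₀ Λ R : ℝ}
    (hc : 0 < c) (hT : 0 < T₀) (hΛ : 1 ≤ Λ) (hR : 0 ≤ R) :
    mass Φ ε ν L c T₀ Λ (OKs Φ ε T₀ ∩ fastT Φ ε R) ≤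
      ENNReal.ofReal (Real.exp (T₀ - c * R ^ 2)) * mass Φ ε ν L (4 * c) T₀ 1 (OKs Φ ε T₀) := by
  unfold mass
  have hm := measurable_wT hΦ hε.ne' (4 * c) T₀ 1
  rw [← lintegral_const_mul _ hm]
  refine le_trans ?_ (lintegral_mono_set (s := OKs Φ ε T₀ ∩ fastT Φ ε R) inter_subset_left)
  refine setLIntegral_mono' ((measurableSet_OKs hΦ hε.ne' T₀).inter
    (measurableSet_fastT hΦ hε.ne' R)) fun T hT' => ?_
  obtain ⟨⟨h1, h2⟩, h3⟩ := hT'
  have h4 := ext_nonneg hΦ hε h1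
  unfold wB
  rw [← ENNReal.ofReal_mul (Real.exp_nonneg _), ← Real.exp_add]
  apply ENNReal.ofReal_le_ofReal
  apply Real.exp_le_exp.2
  have h5 : R < ‖(ln Φ ε T).2‖ := h3
  have h6 := bt_le hc hT h4
  have h7 := le_bt (show 0 < 4 * c by positivity) hT h2
  have h8 : R ^ 2 ≤ ‖(ln Φ ε T).2‖ ^ 2 := by nlinarith
  have h9 := mul_le_mul_of_nonneg_right h6 (sq_nonneg ‖(ln Φ ε T).2‖)
  have h10 := mul_le_mul_of_nonneg_right h7 (sq_nonneg ‖(ln Φ ε T).2‖)
  have h11 : 0 ≤ Λ * ext Φ ε T := by positivity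
  nlinarith

/-- **The mass of the bad trees.** -/
theorem mass_bad_le (hΦ : IsPotential Φ) (hε : 0 < ε) {ν : Measure Ph} {L : ℕ} {c T₀ Λ R : ℝ}
    (hc : 0 < c) (hT : 0 < T₀) (hΛ : 1 ≤ Λ) (hR : 0 ≤ R) {S : Set CTree} (hS : MeasurableSet S)
    (hSo : S ⊆ OKs Φ ε T₀) :
    mass Φ ε ν L c T₀ Λ S ≤ ENNReal.ofReal (Real.exp (c * R ^ 2)) * tree ν L S +
      ENNReal.ofReal (Real.exp (T₀ - c * R ^ 2)) * mass Φ ε ν L (4 * c) T₀ 1 (OKs Φ ε T₀) := by
  have hF := measurableSet_fastT hΦ hε.ne' R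
  have hw := measurable_wT hΦ hε.ne' c T₀ Λ
  have h1 : mass Φ ε ν L c T₀ Λ S = mass Φ ε ν L c T₀ Λ (S \ fastT Φ ε R) +
      mass Φ ε ν L c T₀ Λ (S ∩ fastT Φ ε R) := by
    unfold mass
    rw [← lintegral_inter_add_sdiff _ S hF, add_comm]
  rw [h1]
  refine add_le_add ?_ ((mass_mono (inter_subset_inter_left _ hSo)).trans
    (mass_fast_le hΦ hε hc hT hΛ hR))
  unfold mass
  calc ∫⁻ T in S \ fastT Φ ε R, wB c T₀ Λ (ext Φ ε T) (ln Φ ε T).2 ∂(tree ν L)
      ≤ ∫⁻ T in S \ fastT Φ ε R, ENNReal.ofReal (Real.exp (c * R ^ 2)) ∂(tree ν L) := by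
        refine setLIntegral_mono' (hS.diff hF) fun T hT' => ?_
        obtain ⟨h2, h3⟩ := hT'
        obtain ⟨h4, h5⟩ := hSo h2
        have h6 := ext_nonneg hΦ hε h4
        unfold wB
        apply ENNReal.ofReal_le_ofReal
        apply Real.exp_le_exp.2
        have h7 : ‖(ln Φ ε T).2‖ ≤ R := not_lt.1 h3
        have h8 := bt_le hc hT h6
        have h9 : ‖(ln Φ ε T).2‖ ^ 2 ≤ R ^ 2 := by
          have := norm_nonneg (ln Φ ε T).2
          nlinarith
        have h10 := mul_le_mul_of_nonneg_right h8 (sq_nonneg ‖(ln Φ ε T).2‖)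
        have h11 : 0 ≤ Λ * ext Φ ε T := by positivity
        nlinarith
    _ ≤ ∫⁻ T in S, ENNReal.ofReal (Real.exp (c * R ^ 2)) ∂(tree ν L) :=
        lintegral_mono_set sdiff_subset
    _ = _ := by rw [lintegral_const, Measure.restrict_apply_univ]

end Vale.Agent.P119.PB
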