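import Vale.Agent.P119.PB.DM3
import Vale.Agent.P119.PB.Int5

/-!
# P119, block PROB: the mass of the trees of given depth, in expectation (`helper347`)

* `CapL`: the law of the partners (CAP0), with the limit of its atypical part;
* `depth_mass_aux`: the expected mass of the alive trees of depth `d`.
-/

open MeasureTheory Set Filter Topology Metric ProbabilityTheory
open scoped ENNReal

namespace Vale.Agent.P119.PB

open KU FL M CTree

variable {Φ : E3 → ℝ} {ε : ℝ}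

/-- **CAP0**: the law of the partners. -/
structure CapL (Φ : E3 → ℝ) (f₀ : Ph → ℝ) (L : ℕ) (Tm b : ℝ) (α : ℕ → ℝ≥0∞)
    (ν : ℝ → GC.Conf Ph → Measure Src) : Prop where
  law : ∀ ε, 0 < ε → ∀ c, ∀ F : Src → ℝ≥0∞, Measurable F →
    ∫⁻ T in Cap.AL Φ ε L Tm (GC.pts c : Set Ph), F (rsrc Φ ε T) ∂(tree (GC.inten f₀ ε) L) ≤
      muE ε * (typI b Tm α F + ∫⁻ p, F p ∂(ν ε c))
  sf : ∀ ε c, SFinite (ν ε c)
  lim : ∀ q : ℕ, Tendsto (fun ε => ∫⁻ c, ∫⁻ p : Src, Cap.pw q p.2.1.2 ∂(ν ε c) ∂(GC.PP f₀ ε))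
    (𝓝[>] 0) (𝓝 0)

theorem measurableSet_ALc (hΦ : IsPotential Φ) (hε : 0 < ε) (L : ℕ) (Tm : ℝ) (c : GC.Conf Ph) :
    MeasurableSet (Cap.AL Φ ε L Tm (GC.pts c : Set Ph)) := by
  have h := Cap.measurableSet_AL (X := CTree) (c := fun _ => c) (T := fun T => T) (L := L)
    (Tm := Tm) hΦ hε measurable_const measurable_id
  exact h

/-- The law of the partners, in a fixed world. -/
theorem CapL.lawH (hΦ : IsPotential Φ) {f₀ : Ph → ℝ} {L : ℕ} {Tm b : ℝ} {α : ℕ → ℝ≥0∞}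
    {ν : ℝ → GC.Conf Ph → Measure Src} (h : CapL Φ f₀ L Tm b α ν) (hε : 0 < ε) (c : GC.Conf Ph) :
    LawH Φ ε (GC.inten f₀ ε) L Tm b α (ν ε c) (Cap.AL Φ ε L Tm (GC.pts c : Set Ph)) :=
  ⟨measurableSet_ALc hΦ hε L Tm c, fun _ hT => Cap.AL_ok hT, fun _ hT => hT.2,
    fun F hF => h.law ε hε c F hF⟩

/-- The mass is a measurable function of the configuration. -/
theorem measurable_massAL (hΦ : IsPotential Φ) (hε : 0 < ε) {ν : Measure Ph} [IsFiniteMeasure ν]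
    (L : ℕ) (Tm c T₀ Λ : ℝ) {S : Set CTree} (hS : MeasurableSet S) :
    Measurable fun x : GC.Conf Ph =>
      mass Φ ε ν L c T₀ Λ (Cap.AL Φ ε L Tm (GC.pts x : Set Ph) ∩ S) := by
  have h1 := Cap.measurableSet_AL (X := GC.Conf Ph × CTree) (c := fun p => p.1)
    (T := fun p => p.2) (L := L) (Tm := Tm) hΦ hε measurable_fst measurable_snd
  have h2 : MeasurableSet {p : GC.Conf Ph × CTree | p.2 ∈ S} := measurable_snd hS
  have hw : Measurable fun p : GC.Conf Ph × CTree => wB c T₀ Λ (ext Φ ε p.2) (ln Φ ε p.2).2 :=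
    (measurable_wT hΦ hε.ne' c T₀ Λ).comp (measurable_snd (α := GC.Conf Ph))
  have h3 := ((hw.indicator (h1.inter h2)).lintegral_prod_right' (ν := tree ν L))
  have e : (fun x : GC.Conf Ph => mass Φ ε ν L c T₀ Λ (Cap.AL Φ ε L Tm (GC.pts x : Set Ph) ∩ S)) =
      fun x => ∫⁻ T, (({p : GC.Conf Ph × CTree | p.2 ∈ Cap.AL Φ ε L Tm (GC.pts p.1 : Set Ph)} ∩
        {p | p.2 ∈ S}).indicator
          fun p => wB c T₀ Λ (ext Φ ε p.2) (ln Φ ε p.2).2) (x, T) ∂(tree ν L) := by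
    funext x
    unfold mass
    rw [← lintegral_indicator ((measurableSet_ALc hΦ hε L Tm x).inter hS)]
    rfl
  rw [e]
  exact h3

/-- The bad trees satisfy (I1). -/
theorem bad1_sub_I1 (hΦ : IsPotential Φ) (hε : 0 < ε) {L : ℕ} {Tm : ℝ} {w : Set Ph} :
    bad1 (Cap.AL Φ ε L Tm w) ⊆ Cap.I1 Φ ε L Tm w := by
  rintro T ⟨h1, h2⟩
  refine ⟨h1, ?_⟩
  cases T with
  | leaf σ => exact absurd trivial h2
  | node A B =>
    refine ⟨A, B, rfl, fun ⟨hA, hB⟩ => h2 ?_⟩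
    obtain ⟨k1, k2, -, k4, k5, k6, k7⟩ := Cap.AL_ok h1
    have h8 : hitT ε (ln Φ ε A, ln Φ ε B) < sepT Φ ε (ln Φ ε A, ln Φ ε B) :=
      hitT_lt_sepT hΦ hε k5 k4.2
    have h9 : sepT Φ ε (ln Φ ε A, ln Φ ε B) ≤ Tm := h1.2
    exact ⟨Cap.AL_of_ALt hA (by linarith), Cap.AL_of_ALt hB (by linarith)⟩

theorem measurable_treeI1 (hΦ : IsPotential Φ) (hε : 0 < ε) {ν : Measure Ph} [IsFiniteMeasure ν]
    (L : ℕ) (Tm : ℝ) :
    Measurable fun x : GC.Conf Ph => tree ν L (Cap.I1 Φ ε L Tm (GC.pts x : Set Ph)) := by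
  have h1 := Cap.measurableSet_I1 (X := GC.Conf Ph × CTree) (c := fun p => p.1)
    (T := fun p => p.2) (L := L) (Tm := Tm) hΦ hε measurable_fst measurable_snd
  exact measurable_measure_prodMk_left h1

/-- Choice of a small number. -/
theorem exists_mul_le' {x ρ : ℝ≥0∞} (hx : x ≠ ∞) (hρ : ρ ≠ 0) : ∃ r : ℝ≥0∞, r ≠ 0 ∧ x * r ≤ ρ := by
  have h1 : x + 1 ≠ ∞ := ENNReal.add_ne_top.2 ⟨hx, ENNReal.one_ne_top⟩
  refine ⟨ρ / (x + 1), (ENNReal.div_pos hρ h1).ne', ?_⟩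
  calc x * (ρ / (x + 1)) ≤ (x + 1) * (ρ / (x + 1)) := by gcongr; exact le_self_add
    _ ≤ ρ := ENNReal.mul_div_le

/-- Choice of the truncation. -/
theorem exists_trunc {x ρ : ℝ≥0∞} (hx : x ≠ ∞) (hρ : ρ ≠ 0) {a : ℝ} (ha : 0 < a) (A : ℝ) :
    ∃ R₀ : ℝ, ∀ R, R₀ ≤ R → x * ENNReal.ofReal (Real.exp (A - a * R ^ 2)) ≤ ρ := by
  have h1 : Tendsto (fun R : ℝ => A - a * R ^ 2) atTop atBot := by
    have h2 : Tendsto (fun R : ℝ => a * R ^ 2) atTop atTop :=
      (tendsto_pow_atTop (by norm_num)).const_mul_atTop ha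
    refine (tendsto_atBot_add_const_left atTop A (tendsto_neg_atTop_atBot.comp h2)).congr
      fun R => ?_
    exact (sub_eq_add_neg _ _).symm
  have h3 : Tendsto (fun R : ℝ => x * ENNReal.ofReal (Real.exp (A - a * R ^ 2))) atTop
      (𝓝 (x * ENNReal.ofReal 0)) :=
    ENNReal.Tendsto.const_mul (ENNReal.tendsto_ofReal (Real.tendsto_exp_atBot.comp h1))
      (Or.inr hx)
  rw [ENNReal.ofReal_zero, mul_zero] at h3
  obtain ⟨R₀, h4⟩ := Filter.eventually_atTop.1 (h3.eventually_le_const (pos_iff_ne_zero.2 hρ))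
  exact ⟨R₀, h4⟩

/-- The contraction factor. -/
noncomputable def kapE (α : ℕ → ℝ≥0∞) (b c T₀ Λ : ℝ) : ℝ≥0∞ :=
  2 * (((∑' n, α n) + 1) * ((1 + ENNReal.ofReal T₀) * cHB b c T₀ Λ))

theorem cHB_ne_top {b c T₀ Λ : ℝ} (hb : 0 < b) : cHB b c T₀ Λ ≠ ∞ := by
  unfold cHB
  exact ENNReal.mul_ne_top (ENNReal.mul_ne_top ENNReal.ofReal_ne_top (I0_ne_top (by positivity)))
    ENNReal.ofReal_ne_top

theorem kapE_ne_top {α : ℕ → ℝ≥0∞} (hα : ∑' n, α n ≠ ∞) {b c T₀ Λ : ℝ} (hb : 0 < b) :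
    kapE α b c T₀ Λ ≠ ∞ := by
  unfold kapE
  exact ENNReal.mul_ne_top (by norm_num) (ENNReal.mul_ne_top
    (ENNReal.add_ne_top.2 ⟨hα, ENNReal.one_ne_top⟩) (ENNReal.mul_ne_top
      (ENNReal.add_ne_top.2 ⟨ENNReal.one_ne_top, ENNReal.ofReal_ne_top⟩) (cHB_ne_top hb)))

theorem wB_zero_le {c T₀ Λ R : ℝ} (hc : 0 < c) {v : E3} (hv : ‖v‖ ≤ R) :
    wB c T₀ Λ 0 v ≤ ENNReal.ofReal (Real.exp (c * R ^ 2)) := by
  unfold wB
  apply ENNReal.ofReal_le_ofReal
  apply Real.exp_le_exp.2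
  have h1 : ‖v‖ ^ 2 ≤ R ^ 2 := by
    have := norm_nonneg v
    nlinarith
  have h2 : bt c T₀ 0 = c := by unfold bt; ring
  rw [h2]
  nlinarith

theorem wB_zero_eq (c T₀ Λ Λ' : ℝ) (v : E3) : wB c T₀ Λ 0 v = wB c T₀ Λ' 0 v := by
  unfold wB
  simp

/-- **The expected mass of the alive trees of depth `d`.** -/
theorem depth_mass_aux (hΦ : IsPotential Φ) {f₀ : Ph → ℝ} {κ b T₀ M₀ : ℝ} (hg : GoodDatum f₀ κ)
    (hb : 0 < b) (hT : 0 < T₀) (hM : 0 ≤ M₀) (hf : ∀ z, f₀ z ≤ M₀ * Real.exp (-b * ‖z.2‖ ^ 2))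
    {b₁ b₂ c : ℝ} (hb₂ : 0 < b₂) (h21 : b₂ ≤ b₁) (h2b : b₂ ≤ b / 4) (hc : 0 < c)
    (hcb : c ≤ b₂ / 4) (hc0 : ∫⁻ z, wB (4 * c) T₀ 1 0 z.2 ∂(law f₀) ≠ ∞)
    {α : ℕ → ℝ≥0∞} (hα : ∑' n, α n ≠ ∞) {L : ℕ} {ν : ℝ → GC.Conf Ph → Measure Src}
    (hcap : CapL Φ f₀ L T₀ b₁ α ν) (hI : Cap.InI1 Φ f₀ L T₀) {Λ : ℝ} (hΛ : 1 ≤ Λ)
    {ρ : ℝ≥0∞} (hρ : ρ ≠ 0) :
    ∀ᶠ ε in 𝓝[>] (0 : ℝ), ∀ d ≤ L, ∫⁻ x, mass Φ ε (GC.inten f₀ ε) L c T₀ Λ
        (Cap.AL Φ ε L T₀ (GC.pts x : Set Ph) ∩ dep d) ∂(GC.PP f₀ ε) ≤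
      muE ε * (kapE α b₂ c T₀ Λ ^ d * (∫⁻ z, wB c T₀ 1 0 z.2 ∂(law f₀)) + ρ) := by
  obtain ⟨C, hC, hcr⟩ := crude_LawH hΦ hg hb hT.le hM hf L
  obtain ⟨C₁, hC₁, hfast⟩ := mass_OKs_le hΦ hg hb hT hM hf (c := 4 * c) (by positivity)
    (by linarith) hc0 L
  set q := kapE α b₂ c T₀ Λ with hq
  have hqt : q ≠ ∞ := kapE_ne_top hα hb₂
  set C₀ := ∫⁻ z, wB c T₀ 1 0 z.2 ∂(law f₀) with hC₀
  set K := cStep (fun n => if n ≤ L then C else 0) (b / 2) c T₀ Λ with hK
  have hKt : K ≠ ∞ := by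
    rw [hK]
    unfold cStep
    refine ENNReal.mul_ne_top ?_ (ENNReal.mul_ne_top
      (ENNReal.add_ne_top.2 ⟨ENNReal.one_ne_top, ENNReal.ofReal_ne_top⟩)
      (cHB_ne_top (by positivity)))
    rw [tsum_eq_sum (s := Finset.range (L + 1)) fun n hn =>
      if_neg fun h => hn (Finset.mem_range.2 (by omega))]
    refine ENNReal.sum_ne_top.2 fun n _ => ?_
    split_ifs
    · exact hC
    · exact ENNReal.zero_ne_top
  -- the choice of the constants
  set S := ∑ j ∈ Finset.range (L + 1), q ^ j with hS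
  have hSt : S ≠ ∞ := ENNReal.sum_ne_top.2 fun j _ => ENNReal.pow_ne_top hqt
  obtain ⟨r, hr, hrS⟩ := exists_mul_le' (x := S * 3) (ENNReal.mul_ne_top hSt (by norm_num)) hρ
  obtain ⟨R₁, hR₁⟩ := exists_trunc (x := (L + 1 : ℕ) * C) (ρ := 1)
    (ENNReal.mul_ne_top (ENNReal.natCast_ne_top _) hC) one_ne_zero (a := b / 4) (by positivity) 0
  obtain ⟨R₂, hR₂⟩ := exists_trunc (x := C₁) (ρ := r) hC₁ hr (a := c) hc T₀
  set R := max 0 (max R₁ R₂) with hR
  have hR0 : 0 ≤ R := le_max_left _ _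
  have hR1 := hR₁ R ((le_max_left _ _).trans (le_max_right _ _))
  have hR2 := hR₂ R ((le_max_right _ _).trans (le_max_right _ _))
  rw [zero_sub] at hR1
  set E := ENNReal.ofReal (Real.exp (-(b / 4) * R ^ 2)) with hE
  have hR1' : (L + 1 : ℕ) * C * E ≤ 1 := by
    rw [hE, neg_mul]
    exact hR1
  set EcR := ENNReal.ofReal (Real.exp (c * R ^ 2)) with hEcR
  -- limits
  have l1 : ∀ᶠ ε in 𝓝[>] (0 : ℝ), EcR * ((ENNReal.ofReal (mu ε))⁻¹ * ∫⁻ x,
      tree (GC.inten f₀ ε) L (Cap.I1 Φ ε L T₀ (GC.pts x : Set Ph)) ∂(GC.PP f₀ ε)) ≤ r := by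
    have h1 := ENNReal.Tendsto.const_mul (a := EcR) (hI 0) (Or.inr ENNReal.ofReal_ne_top)
    rw [mul_zero] at h1
    refine (h1.eventually_le_const (pos_iff_ne_zero.2 hr)).mono fun ε h => le_trans (le_of_eq ?_) h
    have h2 : ∀ x : GC.Conf Ph, tree (GC.inten f₀ ε) L (Cap.I1 Φ ε L T₀ (GC.pts x : Set Ph)) =
        ∫⁻ T in Cap.I1 Φ ε L T₀ (GC.pts x : Set Ph), Cap.pw 0 (CTree.ln Φ ε T).2
          ∂(tree (GC.inten f₀ ε) L) := by
      intro x
      have h3 : ∀ v : E3, Cap.pw 0 v = 1 := fun v => by unfold Cap.pw; simp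
      simp only [h3, lintegral_const, Measure.restrict_apply_univ, one_mul]
    simp only [h2]
  have l2 : ∀ᶠ ε in 𝓝[>] (0 : ℝ), 2 * (K * EcR) * (∫⁻ x, ν ε x univ ∂(GC.PP f₀ ε)) ≤ r := by
    have h1 := ENNReal.Tendsto.const_mul (a := 2 * (K * EcR)) (hcap.lim 0)
      (Or.inr (ENNReal.mul_ne_top (by norm_num) (ENNReal.mul_ne_top hKt ENNReal.ofReal_ne_top)))
    rw [mul_zero] at h1
    refine (h1.eventually_le_const (pos_iff_ne_zero.2 hr)).mono fun ε h => le_trans (le_of_eq ?_) h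
    have h3 : ∀ v : E3, Cap.pw 0 v = 1 := fun v => by unfold Cap.pw; simp
    simp only [h3, lintegral_const, one_mul]
  filter_upwards [l1, l2, self_mem_nhdsWithin] with ε h1 h2 hε
  have hε : 0 < ε := hε
  have hfin : IsFiniteMeasure (GC.inten f₀ ε) := GC.isFiniteMeasure_inten hg
  have hP : IsProbabilityMeasure (GC.PP f₀ ε) := GC.isProbability_PP (ε := ε) hg
  have hcrε := hcr ε hε
  have hm0 : muE ε ≠ 0 := ML.muE_ne_zero hε
  set a : ℕ → ℝ≥0∞ := fun d => ∫⁻ x, mass Φ ε (GC.inten f₀ ε) L c T₀ Λ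
    (Cap.AL Φ ε L T₀ (GC.pts x : Set Ph) ∩ dep d) ∂(GC.PP f₀ ε) with ha
  -- one step
  have hstep : ∀ d, a (d + 1) ≤ q * a d + muE ε * (3 * r) := by
    intro d
    have hm' : ∀ x : GC.Conf Ph, mass Φ ε (GC.inten f₀ ε) L c T₀ Λ
        (Cap.AL Φ ε L T₀ (GC.pts x : Set Ph) ∩ dep (d + 1)) ≤
        q * mass Φ ε (GC.inten f₀ ε) L c T₀ Λ (Cap.AL Φ ε L T₀ (GC.pts x : Set Ph) ∩ dep d) +
        ((EcR * tree (GC.inten f₀ ε) L (Cap.I1 Φ ε L T₀ (GC.pts x : Set Ph)) + muE ε * r) +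
          muE ε * (2 * (K * EcR) * ν ε x univ)) := by
      intro x
      have := hcap.sf ε x
      set Al := Cap.AL Φ ε L T₀ (GC.pts x : Set Ph) with hAl
      have hlaw := (hcap.lawH hΦ hε x).trunc hΦ hε hcrε hb hR0 h21 h2b
      have hsub : Al ⊆ OKs Φ ε T₀ := fun T hT' => ⟨Cap.AL_ok hT', hT'.2⟩
      have hmeas := measurableSet_ALc hΦ hε L T₀ x
      have k1 := hlaw.mass_succ_le hΦ hε hb₂ hc (by linarith) hT hΛ d
      refine k1.trans (add_le_add (mul_le_mul_left ?_ _) (add_le_add ?_ ?_))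
      · rw [hq]
        unfold cStep kapE
        gcongr
        rw [ENNReal.tsum_add]
        gcongr
        rw [tsum_eq_sum (s := Finset.range (L + 1)) fun n hn =>
          if_neg fun h => hn (Finset.mem_range.2 (by omega))]
        refine le_trans ?_ hR1'
        calc ∑ n ∈ Finset.range (L + 1), (if n ≤ L then C * E else 0)
            ≤ ∑ n ∈ Finset.range (L + 1), C * E := by
              refine Finset.sum_le_sum fun n _ => ?_
              split_ifs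
              · exact le_rfl
              · exact zero_le
          _ = _ := by rw [Finset.sum_const, Finset.card_range, nsmul_eq_mul, mul_assoc]
      · have hbm : MeasurableSet (bad1 Al ∩ dep (d + 1)) :=
          (measurableSet_bad1 hmeas).inter (measurableSet_dep _)
        refine (mass_bad_le hΦ hε hc hT hΛ hR0 hbm
          (inter_subset_left.trans (inter_subset_left.trans hsub))).trans ?_
        refine add_le_add (mul_le_mul_right (measure_mono
          (inter_subset_left.trans (bad1_sub_I1 hΦ hε))) _) ?_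
        calc ENNReal.ofReal (Real.exp (T₀ - c * R ^ 2)) *
              mass Φ ε (GC.inten f₀ ε) L (4 * c) T₀ 1 (OKs Φ ε T₀)
            ≤ ENNReal.ofReal (Real.exp (T₀ - c * R ^ 2)) * (muE ε * C₁) := by
              gcongr
              exact hfast ε hε
          _ = muE ε * (C₁ * ENNReal.ofReal (Real.exp (T₀ - c * R ^ 2))) := by ring
          _ ≤ _ := by gcongr
      · have k2 := errT_le hΦ hε hcrε (by positivity) hc (by linarith) hT hΛ
          (A := (ν ε x).restrict {p : Src | ‖p.2.1.2‖ ≤ R}) (S := Al ∩ dep d)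
          (inter_subset_left.trans hsub)
        have k3 : ∫⁻ p : Src, wB c T₀ Λ 0 p.2.1.2
            ∂((ν ε x).restrict {p : Src | ‖p.2.1.2‖ ≤ R}) ≤ EcR * ν ε x univ := by
          have hp : Measurable fun p : Src => ‖p.2.1.2‖ :=
            (measurable_snd.comp (measurable_fst.comp measurable_snd)).norm
          have hSm : MeasurableSet {p : Src | ‖p.2.1.2‖ ≤ R} := measurableSet_le hp measurable_const
          calc _ ≤ ∫⁻ _ in {p : Src | ‖p.2.1.2‖ ≤ R}, EcR ∂(ν ε x) :=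
                setLIntegral_mono' hSm fun p hp => wB_zero_le hc hp
            _ ≤ ∫⁻ _ in univ, EcR ∂(ν ε x) := lintegral_mono_set (subset_univ _)
            _ = _ := by rw [lintegral_const, Measure.restrict_apply_univ]
        calc 2 * errT Φ ε (GC.inten f₀ ε) L c T₀ Λ
              ((ν ε x).restrict {p : Src | ‖p.2.1.2‖ ≤ R}) (Al ∩ dep d)
            ≤ 2 * (muE ε * (K * (EcR * ν ε x univ))) := by
              gcongr
              exact k2.trans (by gcongr)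
          _ = _ := by ring
    have m1 := measurable_massAL (ν := GC.inten f₀ ε) hΦ hε L T₀ c T₀ Λ (measurableSet_dep d)
    have m2 := measurable_treeI1 (ν := GC.inten f₀ ε) hΦ hε L T₀
    calc a (d + 1) ≤ ∫⁻ x, (q * mass Φ ε (GC.inten f₀ ε) L c T₀ Λ
          (Cap.AL Φ ε L T₀ (GC.pts x : Set Ph) ∩ dep d) +
        ((EcR * tree (GC.inten f₀ ε) L (Cap.I1 Φ ε L T₀ (GC.pts x : Set Ph)) + muE ε * r) +
          muE ε * (2 * (K * EcR) * ν ε x univ))) ∂(GC.PP f₀ ε) := lintegral_mono hm'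
      _ = q * a d + ((EcR * (∫⁻ x, tree (GC.inten f₀ ε) L
            (Cap.I1 Φ ε L T₀ (GC.pts x : Set Ph)) ∂(GC.PP f₀ ε)) + muE ε * r) +
          muE ε * (2 * (K * EcR) * ∫⁻ x, ν ε x univ ∂(GC.PP f₀ ε))) := by
          have n1 : Measurable fun x : GC.Conf Ph => EcR * tree (GC.inten f₀ ε) L
            (Cap.I1 Φ ε L T₀ (GC.pts x : Set Ph)) + muE ε * r := (m2.const_mul _).add_const _
          rw [lintegral_add_left (m1.const_mul _), lintegral_const_mul _ m1,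
            lintegral_add_left n1, lintegral_add_left (m2.const_mul _),
            lintegral_const_mul _ m2, lintegral_const, measure_univ, mul_one,
            lintegral_const_mul' _ _ muE_ne_top, lintegral_const_mul' _ _
              (ENNReal.mul_ne_top (by norm_num) (ENNReal.mul_ne_top hKt ENNReal.ofReal_ne_top))]
      _ ≤ q * a d + ((muE ε * r + muE ε * r) + muE ε * r) := by
          refine add_le_add le_rfl (add_le_add (add_le_add ?_ le_rfl) (mul_le_mul_right h2 _))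
          calc EcR * (∫⁻ x, tree (GC.inten f₀ ε) L
                (Cap.I1 Φ ε L T₀ (GC.pts x : Set Ph)) ∂(GC.PP f₀ ε))
              = muE ε * (EcR * ((ENNReal.ofReal (mu ε))⁻¹ * ∫⁻ x, tree (GC.inten f₀ ε) L
                (Cap.I1 Φ ε L T₀ (GC.pts x : Set Ph)) ∂(GC.PP f₀ ε))) := by
                have e1 : muE ε * (ENNReal.ofReal (mu ε))⁻¹ = 1 :=
                  ENNReal.mul_inv_cancel hm0 muE_ne_top
                calc _ = EcR * (1 * (∫⁻ x, tree (GC.inten f₀ ε) L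
                    (Cap.I1 Φ ε L T₀ (GC.pts x : Set Ph)) ∂(GC.PP f₀ ε))) := by rw [one_mul]
                  _ = _ := by rw [← e1]; ring
            _ ≤ muE ε * r := mul_le_mul_right h1 _
      _ = _ := by ring
  -- the recursion
  have key : ∀ d, a d ≤ muE ε * (q ^ d * C₀ + (∑ j ∈ Finset.range d, q ^ j) * (3 * r)) := by
    intro d
    induction d with
    | zero =>
      rw [Finset.range_zero, Finset.sum_empty, zero_mul, add_zero, pow_zero, one_mul]
      calc a 0 ≤ ∫⁻ _, muE ε * C₀ ∂(GC.PP f₀ ε) := by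
            refine lintegral_mono fun x => ?_
            refine (mass_zero_le hΦ hε L (measurableSet_ALc hΦ hε L T₀ x)).trans (le_of_eq ?_)
            unfold GC.inten
            rw [lintegral_smul_measure, hC₀]
            simp only [wB_zero_eq c T₀ Λ 1]
            rfl
        _ = _ := by rw [lintegral_const, measure_univ, mul_one]
    | succ d ih =>
      calc a (d + 1) ≤ q * a d + muE ε * (3 * r) := hstep d
        _ ≤ q * (muE ε * (q ^ d * C₀ + (∑ j ∈ Finset.range d, q ^ j) * (3 * r))) +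
            muE ε * (3 * r) := by gcongr
        _ = muE ε * (q ^ (d + 1) * C₀ + (q * (∑ j ∈ Finset.range d, q ^ j) + 1) * (3 * r)) := by
            rw [pow_succ]; ring
        _ = _ := by
            congr 3
            rw [Finset.sum_range_succ', Finset.mul_sum, pow_zero]
            congr 1
            refine Finset.sum_congr rfl fun j _ => ?_
            rw [pow_succ]; ring
  intro d hd
  refine (key d).trans (mul_le_mul_right (add_le_add le_rfl ?_) _)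
  calc (∑ j ∈ Finset.range d, q ^ j) * (3 * r) ≤ S * (3 * r) := by
        gcongr
        rw [hS]
        exact Finset.sum_le_sum_of_subset (Finset.range_mono (by omega))
    _ = S * 3 * r := by ring
    _ ≤ ρ := hrS

end Vale.Agent.P119.PB
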