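import Vale.Agent.P119.PB.LamA
import Vale.Agent.P119.PB.LamS
import Vale.Agent.P119.PB.Par

/-!
# P119, second events: the constants of the sums of laws A (`helper755`)

* `tsum_aw`: sums over the indices of the depths and sides of a spine;
* `sum_aw_pow`, `sum_aw_v`: the sums with the weight `A ^ dM`, and with a weight of the depth of `e`;
* `vA`, `sum_vA_ne_top`: the weight `1 + 1 / a_d` of the norm `Nm`;
* `kpS_Ix_le`: the constants of the sums over the indices.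
-/

open MeasureTheory Set Filter Topology Metric ProbabilityTheory
open scoped ENNReal

namespace Vale.Agent.P119.PB

open M CTree KU FB RB AU FL TL

/-! ### Sums over indices -/

theorem dpt_leK : ∀ (N n : ℕ) (ds : Fin N → ℕ), dpt N n ds ≤ n + ∑ j, (ds j + 1) := by
  intro N
  induction N with
  | zero => intro n ds; exact Nat.le_add_right _ _
  | succ k ih =>
    intro n ds
    have h1 := ih (max n (ds 0) + 1) fun j => ds j.succ
    rw [Fin.sum_univ_succ]
    have h2 : max n (ds 0) ≤ n + ds 0 := max_le (Nat.le_add_right _ _) (Nat.le_add_left _ _)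
    change dpt k (max n (ds 0) + 1) (fun j => ds j.succ) ≤ _
    omega

theorem tsum_fin_prod {C : Type*} [Countable C] (h : C → ℝ≥0∞) (N : ℕ) :
    ∑' c : Fin N → C, ∏ j, h (c j) = (∑' c, h c) ^ N := by
  induction N with
  | zero => simp
  | succ N ih =>
    rw [tsum_fcons, pow_succ', ← ENNReal.tsum_mul_right]
    refine tsum_congr fun c₀ => ?_
    rw [← ih, ← ENNReal.tsum_mul_left]
    refine tsum_congr fun c => ?_
    rw [Fin.prod_univ_succ]
    simp

/-- **Sums over the indices.** -/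
theorem tsum_aw (α : ℕ → ℝ≥0∞) (g : ℕ → ℕ → ℝ≥0∞) (h : ℕ → ℝ≥0∞) (N : ℕ) :
    ∑' y : Ix N, aw α y * (g y.1 y.2.1 * ∏ j, h (y.2.2 j).2) =
      (∑' d, ∑' d', α d * (α d' * g d d')) * (2 * ∑' n, α n * h n) ^ N := by
  have h1 : ∑' c : Fin N → Bool × ℕ, ∏ j, (α (c j).2 * h (c j).2) =
      (2 * ∑' n, α n * h n) ^ N := by
    rw [tsum_fin_prod (fun c : Bool × ℕ => α c.2 * h c.2), ENNReal.tsum_prod', tsum_fintype]
    simp only [Finset.sum_const, Finset.card_univ, Fintype.card_bool, nsmul_eq_mul]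
    norm_num
  rw [ENNReal.tsum_prod', ← ENNReal.tsum_mul_right]
  refine tsum_congr fun d => ?_
  rw [ENNReal.tsum_prod', ← ENNReal.tsum_mul_right]
  refine tsum_congr fun d' => ?_
  rw [← h1, ← ENNReal.tsum_mul_left]
  refine tsum_congr fun c => ?_
  unfold aw
  simp only
  rw [Finset.prod_mul_distrib]
  ring

theorem pow_dM_le {A : ℝ≥0∞} (hA : 1 ≤ A) {N : ℕ} (y : Ix N) :
    A ^ dM y ≤ (A * (A ^ y.1 * A ^ y.2.1)) * ∏ j, (A * A ^ (y.2.2 j).2) := by
  have h1 := dpt_leK N (max y.1 y.2.1 + 1) fun j => (y.2.2 j).2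
  have h2 : max y.1 y.2.1 ≤ y.1 + y.2.1 := max_le (Nat.le_add_right _ _) (Nat.le_add_left _ _)
  have h3 : dM y ≤ (1 + (y.1 + y.2.1)) + ∑ j, (1 + (y.2.2 j).2) := by
    unfold dM
    have e : ∑ j, ((y.2.2 j).2 + 1) = ∑ j, (1 + (y.2.2 j).2) :=
      Finset.sum_congr rfl fun j _ => Nat.add_comm _ _
    rw [← e]
    omega
  refine (pow_le_pow_right' hA h3).trans (le_of_eq ?_)
  rw [pow_add, pow_add, pow_add, pow_one]
  congr 1
  rw [Finset.prod_pow_eq_pow_sum _ _ A |>.symm]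
  refine Finset.prod_congr rfl fun j _ => ?_
  rw [pow_add, pow_one]

/-- The sum with the weight `A ^ dM`. -/
theorem sum_aw_pow (α : ℕ → ℝ≥0∞) {A : ℝ≥0∞} (hA : 1 ≤ A) (N : ℕ) :
    ∑' y : Ix N, aw α y * A ^ dM y ≤
      (A * (∑' n, α n * A ^ n) ^ 2) * (2 * (A * ∑' n, α n * A ^ n)) ^ N := by
  refine (ENNReal.tsum_le_tsum fun y => mul_le_mul' le_rfl (pow_dM_le hA y)).trans (le_of_eq ?_)
  rw [tsum_aw α (fun d d' => A * (A ^ d * A ^ d')) (fun n => A * A ^ n)]
  congr 1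
  · have e : ∀ d d' : ℕ, α d * (α d' * (A * (A ^ d * A ^ d'))) =
        A * ((α d * A ^ d) * (α d' * A ^ d')) := fun d d' => by ring
    simp only [e]
    simp_rw [ENNReal.tsum_mul_left]
    rw [ENNReal.tsum_mul_right]
    ring
  · congr 2
    rw [← ENNReal.tsum_mul_left]
    exact tsum_congr fun n => by ring

/-- The sum with a weight of the depth of `e`. -/
theorem sum_aw_v (α v : ℕ → ℝ≥0∞) (N : ℕ) :
    ∑' y : Ix N, aw α y * v (max y.1 y.2.1 + 1) =
      (∑' d, ∑' d', α d * (α d' * v (max d d' + 1))) * (2 * ∑' n, α n) ^ N := by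
  have h := tsum_aw α (fun d d' => v (max d d' + 1)) (fun _ => 1) N
  simp only [Finset.prod_const_one, mul_one] at h
  exact h

/-! ### The weight of the norm -/

/-- The weight `1 + 1 / a_d`. -/
noncomputable def vA (a : ℕ → ℝ) (d : ℕ) : ℝ≥0∞ := 1 + (ENNReal.ofReal (a d))⁻¹

theorem one_le_vA (a : ℕ → ℝ) (d : ℕ) : 1 ≤ vA a d := le_add_right le_rfl

theorem vA_ne_top {a : ℕ → ℝ} (ha : ∀ n, 0 < a n) (d : ℕ) : vA a d ≠ ∞ := by
  unfold vA
  exact ENNReal.add_ne_top.2 ⟨ENNReal.one_ne_top, ENNReal.inv_ne_top.2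
    (ENNReal.ofReal_pos.2 (ha d)).ne'⟩

theorem sum_vA_ne_top {α : ℕ → ℝ≥0∞} {α₀ a : ℕ → ℝ} {Q : ℝ} (hw : Wts α₀ a Q)
    (hα : ∀ n : ℕ, ((n : ℝ≥0∞) + 1) * α n ≤ ENNReal.ofReal (α₀ n)) (hs : ∑' n, α n ≠ ∞) :
    ∑' d, ∑' d', α d * (α d' * vA a (max d d' + 1)) ≠ ∞ := by
  have ha := hw.apos
  -- one depth
  have h1 : ∀ d : ℕ, ∑' d' : ℕ, ((d' : ℝ≥0∞) + 1) * α d' *
      ((ENNReal.ofReal (a (max d d' + 1)))⁻¹ *
        (ENNReal.ofReal √((max d d' + 1 : ℕ) : ℝ))⁻¹) ≤
      (ENNReal.ofReal (a d))⁻¹ * ENNReal.ofReal Q := by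
    intro d
    have h2 := hw.w1 d
    have hd : ENNReal.ofReal (a d) ≠ 0 := (ENNReal.ofReal_pos.2 (ha d)).ne'
    calc _ ≤ ∑' m : ℕ, (ENNReal.ofReal (a d))⁻¹ *
          ENNReal.ofReal (α₀ m * (a d / a (max d m + 1)) / √((max d m + 1 : ℕ) : ℝ)) := by
          refine ENNReal.tsum_le_tsum fun m => ?_
          have hm : (0 : ℝ) < √((max d m + 1 : ℕ) : ℝ) := Real.sqrt_pos.2 (by positivity)
          have e : ENNReal.ofReal (α₀ m * (a d / a (max d m + 1)) / √((max d m + 1 : ℕ) : ℝ)) =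
              ENNReal.ofReal (a d) * (ENNReal.ofReal (α₀ m) *
                ((ENNReal.ofReal (a (max d m + 1)))⁻¹ *
                (ENNReal.ofReal √((max d m + 1 : ℕ) : ℝ))⁻¹)) := by
            rw [← ENNReal.ofReal_inv_of_pos (ha _), ← ENNReal.ofReal_inv_of_pos hm,
              ← ENNReal.ofReal_mul (inv_nonneg.2 (ha _).le), ← ENNReal.ofReal_mul (hw.α0 m),
              ← ENNReal.ofReal_mul (ha d).le]
            congr 1
            field_simp
          rw [e, ← mul_assoc (ENNReal.ofReal (a d))⁻¹, ENNReal.inv_mul_cancel hd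
            ENNReal.ofReal_ne_top, one_mul]
          exact mul_le_mul' (hα m) le_rfl
      _ ≤ _ := by
          rw [ENNReal.tsum_mul_left]
          exact mul_le_mul' le_rfl h2
  have h3 : ∑' d, ∑' d', α d * (α d' * (ENNReal.ofReal (a (max d d' + 1)))⁻¹) ≤
      ENNReal.ofReal Q * ENNReal.ofReal Q := by
    calc _ ≤ ∑' d : ℕ, ((d : ℝ≥0∞) + 1) * α d * ∑' d' : ℕ, ((d' : ℝ≥0∞) + 1) * α d' *
          ((ENNReal.ofReal (a (max d d' + 1)))⁻¹ *
            (ENNReal.ofReal √((max d d' + 1 : ℕ) : ℝ))⁻¹) := by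
          refine ENNReal.tsum_le_tsum fun d => ?_
          rw [← ENNReal.tsum_mul_left]
          refine ENNReal.tsum_le_tsum fun d' => ?_
          have hm : (0 : ℝ) < √((max d d' + 1 : ℕ) : ℝ) := Real.sqrt_pos.2 (by positivity)
          have hs0 : ENNReal.ofReal √((max d d' + 1 : ℕ) : ℝ) ≠ 0 :=
            (ENNReal.ofReal_pos.2 hm).ne'
          have h4 : (1 : ℝ≥0∞) ≤ ((d : ℝ≥0∞) + 1) * ((d' : ℝ≥0∞) + 1) *
              (ENNReal.ofReal √((max d d' + 1 : ℕ) : ℝ))⁻¹ := by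
            rw [← div_eq_mul_inv, ENNReal.le_div_iff_mul_le (Or.inl hs0)
              (Or.inl ENNReal.ofReal_ne_top), one_mul]
            have h5 : √((max d d' + 1 : ℕ) : ℝ) ≤ ((d : ℝ) + 1) * (d' + 1) := by
              have h6 : ((max d d' + 1 : ℕ) : ℝ) ≤ ((d : ℝ) + 1) * (d' + 1) := by
                have hd : (0 : ℝ) ≤ d := Nat.cast_nonneg d
                have hd' : (0 : ℝ) ≤ d' := Nat.cast_nonneg d'
                push_cast
                rcases max_cases (d : ℝ) (d' : ℝ) with ⟨h, _⟩ | ⟨h, _⟩ <;> rw [h] <;> nlinarith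
              have h7 : (1 : ℝ) ≤ ((d : ℝ) + 1) * (d' + 1) := by
                have hd : (0 : ℝ) ≤ d := Nat.cast_nonneg d
                have hd' : (0 : ℝ) ≤ d' := Nat.cast_nonneg d'
                nlinarith [mul_nonneg hd hd']
              calc √((max d d' + 1 : ℕ) : ℝ) ≤ √(((d : ℝ) + 1) * (d' + 1)) := Real.sqrt_le_sqrt h6
                _ ≤ ((d : ℝ) + 1) * (d' + 1) := by
                    rw [Real.sqrt_le_left (by linarith)]
                    nlinarith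
            calc ENNReal.ofReal √((max d d' + 1 : ℕ) : ℝ) ≤
                ENNReal.ofReal (((d : ℝ) + 1) * (d' + 1)) := ENNReal.ofReal_le_ofReal h5
              _ = _ := by
                rw [ENNReal.ofReal_mul (by positivity)]
                norm_num [ENNReal.ofReal_add, ENNReal.ofReal_natCast]
          calc α d * (α d' * (ENNReal.ofReal (a (max d d' + 1)))⁻¹)
              ≤ (((d : ℝ≥0∞) + 1) * ((d' : ℝ≥0∞) + 1) *
                (ENNReal.ofReal √((max d d' + 1 : ℕ) : ℝ))⁻¹) *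
                (α d * (α d' * (ENNReal.ofReal (a (max d d' + 1)))⁻¹)) :=
                le_mul_of_one_le_left zero_le h4
            _ = _ := by ring
      _ ≤ ∑' d : ℕ, ENNReal.ofReal (α₀ d) * ((ENNReal.ofReal (a d))⁻¹ * ENNReal.ofReal Q) :=
          ENNReal.tsum_le_tsum fun d => mul_le_mul' (hα d) (h1 d)
      _ = (∑' d : ℕ, ENNReal.ofReal (α₀ d / a d)) * ENNReal.ofReal Q := by
          rw [← ENNReal.tsum_mul_right]
          refine tsum_congr fun d => ?_
          rw [ENNReal.ofReal_div_of_pos (ha d), div_eq_mul_inv, mul_assoc]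
      _ ≤ _ := mul_le_mul' hw.w2 le_rfl
  have h5 : ∑' d, ∑' d', α d * (α d' * vA a (max d d' + 1)) =
      (∑' d, α d) * (∑' d', α d') +
        ∑' d, ∑' d', α d * (α d' * (ENNReal.ofReal (a (max d d' + 1)))⁻¹) := by
    unfold vA
    simp only [mul_add, mul_one]
    simp_rw [ENNReal.tsum_add, ENNReal.tsum_mul_left]
    rw [ENNReal.tsum_mul_right]
  rw [h5]
  exact ENNReal.add_ne_top.2 ⟨ENNReal.mul_ne_top hs hs, (h3.trans_lt (ENNReal.mul_lt_top
    ENNReal.ofReal_lt_top ENNReal.ofReal_lt_top)).ne⟩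

/-! ### The constants of the sums over the indices -/

/-- The constants of a sum over the indices. -/
theorem kpS_Ix_le {cN : ℕ → ℝ≥0∞} {α : ℕ → ℝ≥0∞} {W : (Σ N, Ix N) → ℝ≥0∞} {C P R q : ℝ≥0∞}
    (hc : ∀ N, cN N ≤ C * q ^ N)
    (hW : ∀ N, ∑' y : Ix N, aw α y * W ⟨N, y⟩ ≤ P * R ^ N) (x : ℝ≥0∞) :
    kpS (fun k : Σ N, Ix N => cN k.1 * aw α k.2 * W k) (fun k => k.1) x ≤
      C * P * ∑' N, fS (q * R * x) N := by
  unfold kpS
  rw [ENNReal.tsum_sigma', ← ENNReal.tsum_mul_left]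
  refine ENNReal.tsum_le_tsum fun N => ?_
  calc ∑' y : Ix N, cN N * aw α y * W ⟨N, y⟩ * fS x N
      = cN N * fS x N * ∑' y : Ix N, aw α y * W ⟨N, y⟩ := by
        rw [← ENNReal.tsum_mul_left]
        exact tsum_congr fun y => by ring
    _ ≤ C * q ^ N * fS x N * (P * R ^ N) :=
        mul_le_mul' (mul_le_mul' (hc N) le_rfl) (hW N)
    _ = _ := by
        rw [← mul_fS (q * R) x, mul_pow]
        ring

end Vale.Agent.P119.PB
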