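import Vale.Agent.P119.PB.BLA3
import Vale.Agent.P119.PB.LamK
import Vale.Agent.P119.AU.Mono
import Vale.Agent.P119.PB.In8b

/-!
# P119, block PROB: the bound of the brackets in the mean (`helper860`)

* `EbA_le8`: `EbA` is at most `vA a n` times the right side of P8, up to `ρ`.
-/

open MeasureTheory Set Filter Topology Metric ProbabilityTheory
open scoped ENNReal NNReal

noncomputable section

namespace Vale.Agent.P119.PB

open KU M M.CTree FL FB RB EN AU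

variable {Φ : E3 → ℝ} {ε : ℝ} {L : ℕ} {hΦ : IsPotential Φ} {hε : 0 < ε} {f₀ : Ph → ℝ} {κ : ℝ}
  {T b₀ b l₁ l₂ Q : ℝ} {m α a : ℕ → ℝ}

/-- The exponent of the norm is not larger. -/
theorem srcJ_le_vA (hP : Par T b₀ m b l₁ l₂ Q α a) {β t : ℝ} (hβ : b ≤ β) (ht : t ≤ T)
    {θ : Src → ℝ≥0∞} (n : ℕ) : srcJ β t (fun y => θ (srcN n y)) ≤
      vA a n * (ENNReal.ofReal T * Nm b T l₁ l₂ a t θ) := by
  refine (srcJ_le_Nm hP.b0 hP.T0 hβ hP.l₁0 hP.l₂0 (hP.wts.apos n)).trans ?_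
  calc ENNReal.ofReal t * ((ENNReal.ofReal (a n))⁻¹ * Nm b T l₁ l₂ a t θ)
      ≤ ENNReal.ofReal T * (vA a n * Nm b T l₁ l₂ a t θ) := by
        refine mul_le_mul' (ENNReal.ofReal_le_ofReal ht) (mul_le_mul' ?_ le_rfl)
        unfold vA
        exact le_add_self
    _ = _ := by ring

open Classical in
/-- **The brackets in the mean.** -/
theorem EbA_le8 (hP : Par T b₀ m b l₁ l₂ Q α a) (hΦ : IsPotential Φ) {B : ℝ}
    (hB : RW.StableWith Φ B) (h₀ : GoodDatum f₀ κ) (hm2 : m2 f₀ < ∞) {β : ℝ} (hβ : b ≤ β) :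
    ∃ C : ℝ, 1 ≤ C ∧ ∀ L : ℕ, ∀ δ ∈ Ioc (0 : ℝ) 1, ∀ η η' : ℝ, 0 < η → η < η' → η' ≤ 1 →
      ∀ δ₁ : ℝ≥0∞, δ₁ ≤ ENNReal.ofReal δ → ∀ ρ : ℝ, 0 < ρ →
      ∀ᶠ ε in 𝓝[>] (0 : ℝ), ∀ hε : 0 < ε, ∀ t ∈ Icc 0 T, ∀ n : ℕ,
        EbA L hΦ hε f₀ B T β t δ η η' T δ₁ n ≤ vA a n *
          (ENNReal.ofReal (C * (η' / δ ^ 3 + δ)) * (dD hΦ f₀ L η' ε t +
            dTh b T l₁ l₂ a hΦ f₀ T L η' ε t + dF hΦ f₀ L η' ε t) +
          ENNReal.ofReal C * dTh b T l₁ l₂ a hΦ f₀ δ L η' ε t + ENNReal.ofReal ρ) := by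
  have hT := hP.T0
  have hβ0 : 0 < β := hP.b0.trans_le hβ
  set c₁ : ℝ := |cY B T| with hc₁
  set c₂ : ℝ := |2 * cDD B 1 * T| + 2 * (1 + T) with hc₂
  have hc₁0 : 0 ≤ c₁ := abs_nonneg _
  have hc₂0 : 0 ≤ c₂ := by positivity
  set C : ℝ := 1 + T + 6 * T + 2 * c₁ + 2 * c₂ * T with hC
  have hC1 : 1 ≤ C := by
    have : 0 ≤ T + 6 * T + 2 * c₁ + 2 * c₂ * T := by positivity
    linarith
  refine ⟨C, hC1, fun L δ hδ η η' hη hηη hη1 δ₁ hδ₁ ρ hρ => ?_⟩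
  have hδ0 : 0 < δ := hδ.1
  have hK : 2 * ENNReal.ofReal (1 / δ ^ 3) ≠ ∞ :=
    ENNReal.mul_ne_top (by norm_num) ENNReal.ofReal_ne_top
  filter_upwards [card_TE_small hΦ hB h₀ hm2 hβ0 T L hρ hK,
    Ioc_mem_nhdsGT (lt_min hδ0 (zero_lt_one' ℝ))] with ε e1 e2 hε t ht n
  have hεδ : ε ≤ δ := e2.2.trans (min_le_left _ _)
  have hε1 : ε ≤ 1 := e2.2.trans (min_le_right _ _)
  have hcard := (e1 hε η hη t ht).2
  have hη' : 0 < η' := hη.trans hηη
  rw [dTh_pos hε, dTh_pos hε, dD_pos hε, dF_pos hε]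
  set Wd := Nm b T l₁ l₂ a t (thL L hΦ hε f₀ η' t δ)
  set Th := Nm b T l₁ l₂ a t (thL L hΦ hε f₀ η' t T)
  set D := DD L hΦ hε f₀ η' t
  set F := FF L hΦ hε f₀ η' t
  have hF : FF L hΦ hε f₀ η t ≤ F := by
    have h := dF_mono (hΦ := hΦ) (f₀ := f₀) L η η' ε t hη hηη.le hε ht.1
    rwa [dF_pos hε, dF_pos hε] at h
  set v := vA a n
  have hv : 1 ≤ v := one_le_vA a n
  have hJ1 : srcJ β t (fun y => thL L hΦ hε f₀ η' t δ (srcN n y)) ≤
      v * (ENNReal.ofReal T * Wd) := srcJ_le_vA hP hβ ht.2 n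
  have hJ2 : srcJ β t (fun y => thL L hΦ hε f₀ η' t T (srcN n y)) ≤
      v * (ENNReal.ofReal T * Th) := srcJ_le_vA hP hβ ht.2 n
  have hcT : ENNReal.ofReal (1 / δ ^ 3) * (2 * cT3 L hΦ hε f₀ β η t) ≤ ENNReal.ofReal ρ := by
    refine le_trans (le_of_eq ?_) hcard
    unfold cT3
    ring
  have k1 : 4 * δ₁ + 2 * ENNReal.ofReal δ ≤ ENNReal.ofReal (6 * δ) := by
    have e : ENNReal.ofReal (6 * δ) = 4 * ENNReal.ofReal δ + 2 * ENNReal.ofReal δ := by
      rw [ENNReal.ofReal_mul (by norm_num)]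
      norm_num
      ring
    rw [e]
    exact add_le_add (mul_le_mul' le_rfl hδ₁) le_rfl
  have k2 : ENNReal.ofReal (cY B T * (ε + δ)) ≤ ENNReal.ofReal (2 * c₁ * δ) := by
    refine ENNReal.ofReal_le_ofReal ?_
    calc cY B T * (ε + δ) ≤ c₁ * (ε + δ) :=
          mul_le_mul_of_nonneg_right (le_abs_self _) (by positivity)
      _ ≤ c₁ * (2 * δ) := mul_le_mul_of_nonneg_left (by linarith) hc₁0
      _ = _ := by ring
  have k3 : ENNReal.ofReal (2 * cDD B 1 * t + 2 * (ε + t)) ≤ ENNReal.ofReal c₂ := by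
    refine ENNReal.ofReal_le_ofReal ?_
    have h1 : 2 * cDD B 1 * t ≤ |2 * cDD B 1 * T| := by
      rw [abs_mul, abs_of_pos hT]
      exact mul_le_mul (le_abs_self _) ht.2 ht.1 (abs_nonneg _)
    have h2 : 2 * (ε + t) ≤ 2 * (1 + T) := by linarith [ht.2]
    exact add_le_add h1 h2
  have hq : 0 ≤ η' / δ ^ 3 := by positivity
  have k4 : ENNReal.ofReal (6 * δ) * ENNReal.ofReal T + ENNReal.ofReal (1 / δ ^ 3) *
      (ENNReal.ofReal c₂ * ENNReal.ofReal η * (2 * ENNReal.ofReal T)) ≤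
      ENNReal.ofReal (C * (η' / δ ^ 3 + δ)) := by
    have e2 : (2 : ℝ≥0∞) = ENNReal.ofReal 2 := by norm_num
    rw [e2, ← ENNReal.ofReal_mul (by positivity), ← ENNReal.ofReal_mul (by positivity),
      ← ENNReal.ofReal_mul (by positivity), ← ENNReal.ofReal_mul (by positivity),
      ← ENNReal.ofReal_mul (by positivity), ← ENNReal.ofReal_add (by positivity) (by positivity)]
    refine ENNReal.ofReal_le_ofReal ?_
    have h1 : 1 / δ ^ 3 * (c₂ * η * (2 * T)) ≤ (2 * c₂ * T) * (η' / δ ^ 3) := by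
      have h2 : 1 / δ ^ 3 * (c₂ * η * (2 * T)) = (2 * c₂ * T) * (η / δ ^ 3) := by ring
      rw [h2]
      exact mul_le_mul_of_nonneg_left (div_le_div_of_nonneg_right hηη.le (by positivity))
        (by positivity)
    have h3 : (2 * c₂ * T) * (η' / δ ^ 3) ≤ C * (η' / δ ^ 3) :=
      mul_le_mul_of_nonneg_right (by rw [hC]; nlinarith) hq
    have h4 : (6 * T) * δ ≤ C * δ := by
      refine mul_le_mul_of_nonneg_right ?_ hδ0.le
      rw [hC]
      have : 0 ≤ 2 * c₂ * T := by positivity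
      linarith
    linarith
  have k5 : ENNReal.ofReal (2 * c₁ * δ) ≤ ENNReal.ofReal (C * (η' / δ ^ 3 + δ)) := by
    refine ENNReal.ofReal_le_ofReal ?_
    have h1 : (2 * c₁) * δ ≤ C * δ := by
      refine mul_le_mul_of_nonneg_right ?_ hδ0.le
      rw [hC]
      have : 0 ≤ 2 * c₂ * T := by positivity
      linarith
    have h2 : 0 ≤ C * (η' / δ ^ 3) := by positivity
    linarith
  have k6 : ENNReal.ofReal T ≤ ENNReal.ofReal C := by
    refine ENNReal.ofReal_le_ofReal ?_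
    rw [hC]
    have : 0 ≤ 2 * c₂ * T := by positivity
    linarith
  set X := ENNReal.ofReal (C * (η' / δ ^ 3 + δ))
  set oT := ENNReal.ofReal T
  set o3 := ENNReal.ofReal (1 / δ ^ 3)
  unfold EbA
  calc ((srcJ β t fun y => thL L hΦ hε f₀ η' t δ (srcN n y)) +
        (4 * δ₁ + 2 * ENNReal.ofReal δ) * (srcJ β t fun y => thL L hΦ hε f₀ η' t T (srcN n y)) +
        ENNReal.ofReal (cY B T * (ε + δ)) * (D + FF L hΦ hε f₀ η t)) +
      o3 * (2 * cT3 L hΦ hε f₀ β η t +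
        ENNReal.ofReal (2 * cDD B 1 * t + 2 * (ε + t)) * ENNReal.ofReal η *
          (2 * srcJ β t fun y => thL L hΦ hε f₀ η' t T (srcN n y)))
      = ((srcJ β t fun y => thL L hΦ hε f₀ η' t δ (srcN n y)) +
        (4 * δ₁ + 2 * ENNReal.ofReal δ) * (srcJ β t fun y => thL L hΦ hε f₀ η' t T (srcN n y)) +
        ENNReal.ofReal (cY B T * (ε + δ)) * (D + FF L hΦ hε f₀ η t)) +
      (o3 * (2 * cT3 L hΦ hε f₀ β η t) +
        o3 * (ENNReal.ofReal (2 * cDD B 1 * t + 2 * (ε + t)) * ENNReal.ofReal η *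
          (2 * srcJ β t fun y => thL L hΦ hε f₀ η' t T (srcN n y)))) := by ring
    _ ≤ (v * (oT * Wd) + ENNReal.ofReal (6 * δ) * (v * (oT * Th)) +
        v * (X * (D + F))) + (v * ENNReal.ofReal ρ +
        o3 * (ENNReal.ofReal c₂ * ENNReal.ofReal η * (2 * (v * (oT * Th))))) := by
        refine add_le_add (add_le_add (add_le_add hJ1 (mul_le_mul' k1 hJ2)) ?_)
          (add_le_add ?_ ?_)
        · calc ENNReal.ofReal (cY B T * (ε + δ)) * (D + FF L hΦ hε f₀ η t)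
              ≤ X * (D + F) := mul_le_mul' (k2.trans k5) (add_le_add le_rfl hF)
            _ = 1 * (X * (D + F)) := (one_mul _).symm
            _ ≤ v * (X * (D + F)) := mul_le_mul' hv le_rfl
        · calc o3 * (2 * cT3 L hΦ hε f₀ β η t) ≤ ENNReal.ofReal ρ := hcT
            _ = 1 * ENNReal.ofReal ρ := (one_mul _).symm
            _ ≤ v * ENNReal.ofReal ρ := mul_le_mul' hv le_rfl
        · exact mul_le_mul' le_rfl (mul_le_mul' (mul_le_mul' k3 le_rfl)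
            (mul_le_mul' le_rfl hJ2))
    _ = v * (oT * Wd + (ENNReal.ofReal (6 * δ) * oT +
        o3 * (ENNReal.ofReal c₂ * ENNReal.ofReal η * (2 * oT))) * Th + X * (D + F) +
        ENNReal.ofReal ρ) := by ring
    _ ≤ v * (ENNReal.ofReal C * Wd + X * Th + X * (D + F) + ENNReal.ofReal ρ) := by
        refine mul_le_mul' le_rfl (add_le_add (add_le_add (add_le_add
          (mul_le_mul' k6 le_rfl) (mul_le_mul' k4 le_rfl)) le_rfl) le_rfl)
    _ = _ := by ring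

end Vale.Agent.P119.PB
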