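import Vale.Agent.P119.TL.Core
import Vale.Agent.P119.TL.Late
import Vale.Agent.P119.PB.RPk

/-!
# P119, block PROB: the trees which are related to a colliding pair (`helper472`)

`T = node x y` is a colliding pair, `R` a tree of the environment `U`, `V = rm U R`; before the
collision the lines of `T` are those of the exhausts of `x` and `y`.

* `LateW.badi`: sources which are born late do not matter for bad particles;
* `rlt`: the births of the lines of the pair, with late births of the two lines of the pair;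
* **`depP_cases`**: if the packets of the pair and the lines of `R` do not interact over `V`
  then the pair is independent of `R`, or `Drp`.
-/

open MeasureTheory Filter Topology Set
open scoped ENNReal NNReal

noncomputable section

namespace Vale.Agent.P119.TL

open KU M M.CTree RB

section late

variable {Φ : E3 → ℝ} {ε : ℝ} {L : ℕ} {W W' : Set Src} {T R : CTree} {h s : ℝ} {a b : Src}

theorem LateW.lives (hl : LateW W W' h) (hΦ : IsPotential Φ) (hε : 0 < ε) (hs : s < h) :
    M.lives Φ ε L W' T s ↔ M.lives Φ ε L W T s := by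
  constructor
  · rintro ⟨h1, h2, h3, h4, h5⟩
    exact ⟨hl.leaves hΦ hε h2 (h4.trans_lt hs) h1, h2, h3, h4, fun X u hu hh hX =>
      h5 X u hu hh ((hl.alive hΦ hε (hu.trans_lt hs)).2 hX)⟩
  · rintro ⟨h1, h2, h3, h4, h5⟩
    exact ⟨h1.trans hl.sub, h2, h3, h4, fun X u hu hh hX =>
      h5 X u hu hh ((hl.alive hΦ hε (hu.trans_lt hs)).1 hX)⟩

theorem LateW.stat (hl : LateW W W' h) (hΦ : IsPotential Φ) (hε : 0 < ε) (hW : W.Finite)
    (hW' : W'.Finite) (hs : s < h) : M.stat Φ ε L W' a s = M.stat Φ ε L W a s := by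
  ext T
  have h1 : ∀ X, M.stat Φ ε L W' a s = some X ↔ M.stat Φ ε L W a s = some X := fun X => by
    rw [stat_eq_some_iff hΦ hε hW', stat_eq_some_iff hΦ hε hW, hl.lives hΦ hε hs]
  exact h1 T

theorem LateW.badi (hl : LateW W W' h) (hΦ : IsPotential Φ) (hε : 0 < ε) (hW : W.Finite)
    (hW' : W'.Finite) (hs : s < h) (ha : a ∈ W) :
    RB.badi Φ ε L W' a s ↔ RB.badi Φ ε L W a s := by
  have hmc : ∀ c, mcon Φ ε L W' s a c ↔ mcon Φ ε L W s a c := fun c => by
    unfold mcon
    exact and_congr_right fun _ => exists_congr fun T => exists_congr fun T' =>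
      and_congr_right fun _ => and_congr_right fun _ =>
        and_congr (hl.live hΦ hε hs) (and_congr_left' (hl.live hΦ hε hs))
  have hpt : ∀ c, part Φ ε L W' s a c ↔ part Φ ε L W s a c := fun c => by
    unfold part
    rw [hl.stat hΦ hε hW hW' hs, hl.stat hΦ hε hW hW' hs]
  unfold RB.badi
  rw [hl.stat hΦ hε hW hW' hs]
  refine and_congr (iff_of_true (hl.sub ha) ha) (and_congr_right fun _ => and_congr_right fun _ =>
    or_congr_right (exists_congr fun c => ?_))
  rw [hmc, hpt]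

/-- Nice trees and late sources. -/
theorem NiceH.late (hl : LateW W W' h) (hΦ : IsPotential Φ) (hε : 0 < ε) (hW : W.Finite)
    (hW' : W'.Finite) {r : CTree → ℝ} (hR : R.leaves ⊆ W) (hn : NiceH Φ ε L W' R r h) :
    NiceH Φ ε L W R r h :=
  ⟨hR, hn.ok, hn.depth, fun x hx X s hs hsh hh ha =>
    hn.free x hx X s hs hsh hh ((hl.alive hΦ hε hsh).2 ha), fun x hx s hs hsh hb =>
    hn.good x hx s hs hsh ((hl.badi hΦ hε hW hW' hsh (hR (outs_leaves hx x.root_mem_leaves))).2 hb)⟩

end late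

variable {Φ : E3 → ℝ} {ε : ℝ} {L : ℕ} {W : Finset Src} {T : CTree} {h : ℝ}

theorem Nice.niceH (hΦ : IsPotential Φ) (hε : 0 < ε) (hn : Nice Φ ε L W T) :
    NiceH Φ ε L (W : Set Src) T (ext Φ ε) h := by
  have hT := alive_pre hn.alive
  refine ⟨hT.sub, hT.ok, hT.depth, fun x hx X s hs _ hh => ?_, fun x hx s hs _ => hn.good x hx s hs⟩
  have ha : M.alive Φ ε L (W : Set Src) x (ext Φ ε x) := by
    rcases hx with rfl | hx
    · exact hn.alive
    · exact out_alive hΦ hε W.finite_toSet hn.alive hx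
  rcases hs with hs | hs
  · exact no_hit hΦ hε W.finite_toSet ha hs hh
  · exact absurd rfl hs.2

end Vale.Agent.P119.TL

namespace Vale.Agent.P119.PB

open M CTree KU FB RB AU TL IND

variable {Φ : E3 → ℝ} {ε : ℝ} {L : ℕ} {hΦ : IsPotential Φ} {hε : 0 < ε}
  {U V W : Finset Src} {K : Finset (Finset Src)} {R x y z : CTree} {β t s u : ℝ} {a : Src}

/-! ### The lines of the pair -/

theorem outs_node : outs (node x y) = {node x y, node y x} ∪ (exs x ∪ exs y) := by
  ext z
  change (z = node x y ∨ z ∈ exs (node x y)) ↔ _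
  rw [mem_exs_node]
  simp only [mem_union, mem_insert_iff, mem_singleton_iff]
  tauto

/-- The exhausts of `x` and `y` do not contain both roots. -/
theorem exs_pair_ne (hok : ok Φ ε (node x y)) (hz : z ∈ exs x ∪ exs y) :
    z ≠ node x y ∧ z ≠ node y x := by
  have hd : Disjoint x.leaves y.leaves := hok.2.2.1
  have key : ¬(x.root ∈ z.leaves ∧ y.root ∈ z.leaves) := by
    rintro ⟨h1, h2⟩
    rcases hz with hz | hz
    · exact disjoint_left.1 hd (exs_leaves hz h2) y.root_mem_leaves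
    · exact disjoint_left.1 hd x.root_mem_leaves (exs_leaves hz h1)
  constructor
  · rintro rfl
    exact key ⟨Or.inl x.root_mem_leaves, Or.inr y.root_mem_leaves⟩
  · rintro rfl
    exact key ⟨Or.inr x.root_mem_leaves, Or.inl y.root_mem_leaves⟩

open Classical in
/-- The births of the lines of the pair: the exits; late births for the two lines of the pair. -/
def rlt (Φ : E3 → ℝ) (ε : ℝ) (x y : CTree) (β : ℝ) (z : CTree) : ℝ :=
  if z = node x y then β + 1 else if z = node y x then β + 2 else ext Φ ε z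

theorem rlt_pair_lt (hz : z = node x y ∨ z = node y x) : β < rlt Φ ε x y β z := by
  classical
  unfold rlt
  split_ifs with h1 h2
  · linarith
  · linarith
  · exact (hz.elim h1 h2).elim

theorem rlt_exs (hok : ok Φ ε (node x y)) (hz : z ∈ exs x ∪ exs y) :
    rlt Φ ε x y β z = ext Φ ε z := by
  classical
  unfold rlt
  rw [if_neg (exs_pair_ne hok hz).1, if_neg (exs_pair_ne hok hz).2]

theorem le_rlt (hΦ : IsPotential Φ) (hok : ok Φ ε (node x y)) (hβ : ext Φ ε (node x y) ≤ β)
    (hz : z ∈ outs (node x y)) : ext Φ ε z ≤ rlt Φ ε x y β z := by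
  rw [outs_node] at hz
  rcases hz with hz | hz
  · refine le_trans ?_ (rlt_pair_lt hz).le
    rcases hz with rfl | hz
    · exact hβ
    · rw [mem_singleton_iff.1 hz, ext_swap hΦ x y]
      exact hβ
  · rw [rlt_exs hok hz]

theorem rlt_inj (hΦ : IsPotential Φ) (hε : 0 < ε) (hok : ok Φ ε (node x y))
    (hβ : ext Φ ε (node x y) ≤ β) (hinj : InjOn (rsrc Φ ε) (outs x ∪ outs y)) :
    InjOn (msrc Φ ε (rlt Φ ε x y β)) (outs (node x y)) := by
  classical
  have h1 : ∀ z ∈ exs x ∪ exs y, rlt Φ ε x y β z ≤ β := fun z hz => by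
    rw [rlt_exs hok hz]
    refine (out_ext_le hΦ hε hok ?_).trans hβ
    rw [outs_node]
    exact Or.inr hz
  have hne : ∀ {z z' : CTree}, msrc Φ ε (rlt Φ ε x y β) z = msrc Φ ε (rlt Φ ε x y β) z' →
      rlt Φ ε x y β z = rlt Φ ε x y β z' := fun he => congrArg (fun p : Src => p.1) he
  have hp : ∀ {z z' : CTree}, (z = node x y ∨ z = node y x) → (z' = node x y ∨ z' = node y x) →
      rlt Φ ε x y β z = rlt Φ ε x y β z' → z = z' := by
    intro z z' hz hz' he
    unfold rlt at he
    rcases hz with rfl | rfl <;> rcases hz' with rfl | rfl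
    · rfl
    · by_contra hcon
      rw [if_pos rfl, if_neg (Ne.symm hcon), if_pos rfl] at he
      linarith
    · by_contra hcon
      rw [if_pos rfl, if_neg hcon, if_pos rfl] at he
      linarith
    · rfl
  intro z hz z' hz' he
  rw [outs_node] at hz hz'
  rcases hz with hz | hz <;> rcases hz' with hz' | hz'
  · exact hp hz hz' (hne he)
  · have := hne he
    exact absurd (this ▸ rlt_pair_lt hz) (not_lt.2 (h1 z' hz'))
  · have := hne he
    exact absurd (this ▸ rlt_pair_lt hz') (not_lt.2 (h1 z hz))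
  · refine hinj (exs_sub_outs hz) (exs_sub_outs hz') ?_
    have h2 := hne he
    unfold msrc at he
    rw [rlt_exs hok hz, rlt_exs hok hz'] at he
    exact he

/-- The world of lines without the two lines of the pair. -/
theorem late_epk (hok : ok Φ ε (node x y)) (hβ : u ≤ β) :
    LateW (wF V id (epk Φ ε x y) : Set Src) (TL.lwd Φ ε (rlt Φ ε x y β) (V : Set Src) (node x y))
      u := by
  have key : ∀ z ∈ exs x ∪ exs y, msrc Φ ε (rlt Φ ε x y β) z = rsrc Φ ε z := by
    intro z hz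
    unfold msrc
    rw [rlt_exs hok hz]
    rfl
  constructor
  · intro a ha
    rcases mem_wF.1 (Finset.mem_coe.1 ha) with ha | ⟨A, hA, ha⟩
    · exact Or.inl (Finset.mem_coe.2 ha)
    · obtain ⟨z, hz, rfl⟩ := mem_epk.1 hA
      refine Or.inr ⟨z, ?_, ?_⟩
      · rw [outs_node]
        exact Or.inr hz
      · rw [key z hz]
        exact (Finset.mem_singleton.1 ha).symm
  · rintro a (ha | ⟨z, hz, rfl⟩) hn
    · exact absurd (Finset.mem_coe.2 (mem_wF.2 (Or.inl (Finset.mem_coe.1 ha)))) hn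
    · rw [outs_node] at hz
      rcases hz with hz | hz
      · exact hβ.trans (rlt_pair_lt hz).le
      · refine absurd ?_ hn
        rw [key z hz]
        exact Finset.mem_coe.2 (mem_wF.2 (Or.inr ⟨_, mem_epk.2 ⟨z, hz, rfl⟩,
          Finset.mem_singleton_self _⟩))

/-- Independence of the lines of the exhausts. -/
theorem indep_epk (hΦ : IsPotential Φ) (hε : 0 < ε) (hE : epk Φ ε x y ⊆ K)
    (hg : Good Φ ε L V id K t) (p q : CTree) (s : ℝ) (hs : s ≤ t)
    (hp : live Φ ε L (wF V id (epk Φ ε x y) : Set Src) p s)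
    (hq : M.alive Φ ε L (wF V id (epk Φ ε x y) : Set Src) q s) (hd : Disjoint p.leaves q.leaves)
    (hh : hit Φ ε p q s) : p.leaves ⊆ (V : Set Src) ∨ q.leaves ⊆ (V : Set Src) := by
  classical
  by_contra hcon
  rw [not_or, not_subset, not_subset] at hcon
  obtain ⟨⟨σ, h1, h2⟩, σ', h3, h4⟩ := hcon
  have key : ∀ σ, σ ∈ (wF V id (epk Φ ε x y) : Set Src) → σ ∉ (V : Set Src) → sgl σ ∈ K := by
    intro σ h1 h2
    rcases mem_wF.1 (Finset.mem_coe.1 h1) with h | ⟨A, hA, h⟩
    · exact absurd (Finset.mem_coe.2 h) h2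
    · obtain ⟨z, hz, rfl⟩ := mem_epk.1 hA
      rw [show σ = rsrc Φ ε z from Finset.mem_singleton.1 h]
      exact hE (mem_epk.2 ⟨z, hz, rfl⟩)
  have h5 := key σ (hp.sub h1) h2
  have h6 := key σ' ((alive_pre hq).sub h3) h4
  refine not_hit_of_NI (Wc := fun J => (wF V id J : Set Src)) hΦ hε hg.cubeW hg.ni hE hs hp hq h1
    (hg.idx h5 (Finset.mem_singleton_self _)) h3 (hg.idx h6 (Finset.mem_singleton_self _)) ?_ hh
  intro he
  have h7 : σ = σ' := Finset.singleton_injective he
  exact disjoint_left.1 hd h1 (h7 ▸ h3)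

/-! ### The pair -/

/-- The pair is nice before its collision. -/
theorem niceH_pair (hl : live Φ ε L (W : Set Src) (node x y) (sig Φ ε (node x y)))
    (hux : ∀ s < sig Φ ε (node x y), ¬(RB.Y Φ ε L hΦ hε).Exp W x.root s)
    (huy : ∀ s < sig Φ ε (node x y), ¬(RB.Y Φ ε L hΦ hε).Exp W y.root s) :
    NiceH Φ ε L (W : Set Src) (node x y) (rlt Φ ε x y β) (sig Φ ε (node x y)) := by
  have hok := hl.ok
  have hax := live_left hΦ hε W.finite_toSet hl
  have hay := live_right hΦ hε W.finite_toSet hl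
  have hx1 : ext Φ ε x < sig Φ ε (node x y) := hok.2.2.2.2.2.1
  have hy1 : ext Φ ε y < sig Φ ε (node x y) := hok.2.2.2.2.2.2
  have hsw : ext Φ ε (node y x) = ext Φ ε (node x y) := ext_swap hΦ x y
  have hse := sig_lt_ext hΦ hε hok
  refine ⟨hl.sub, hok, hl.depth, fun z hz X s hs hsh hh => ?_, fun z hz s hs hsh hb => ?_⟩
  · rw [outs_node] at hz
    rcases hz with (rfl | hz) | hz | hz
    · exact hl.nohit X s hsh hh
    · rw [mem_singleton_iff.1 hz] at hh
      exact hl.nohit X s hsh (hit_swap hΦ (by rw [hsw]; exact hsh.trans hse) hh)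
    · rw [rlt_exs hok (Or.inl hz)] at hs
      rcases hs with hs | hs
      · exact no_hit hΦ hε W.finite_toSet (out_alive hΦ hε W.finite_toSet hax hz) hs hh
      · exact absurd rfl hs.2
    · rw [rlt_exs hok (Or.inr hz)] at hs
      rcases hs with hs | hs
      · exact no_hit hΦ hε W.finite_toSet (out_alive hΦ hε W.finite_toSet hay hz) hs hh
      · exact absurd rfl hs.2
  · have he : (RB.Y Φ ε L hΦ hε).Exp W z.root s := exp_of_badi hb le_rfl
    rw [outs_node] at hz
    rcases hz with (rfl | hz) | hz | hz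
    · exact hux s hsh he
    · rw [mem_singleton_iff.1 hz] at he
      exact huy s hsh he
    · rw [rlt_exs hok (Or.inl hz)] at hs
      exact leg_lemma hax (fun s hs => hux s (hs.trans hx1)) hz hs he
    · rw [rlt_exs hok (Or.inr hz)] at hs
      exact leg_lemma hay (fun s hs => huy s (hs.trans hy1)) hz hs he

theorem linePkR_spk (hi : InjOn (rsrc Φ ε) (outs R)) :
    LinePkR Φ ε (ext Φ ε) R id (spk Φ ε R) (fun z => sgl (rsrc Φ ε z)) :=
  ⟨fun z hz => mem_spk.2 ⟨z, hz, rfl⟩, fun _ hk => mem_spk.1 hk, fun _ _ => rfl,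
    fun _ hz _ hz' he => hi hz hz' (Finset.singleton_injective he)⟩

/-- **The pair without the tree `R`.** -/
theorem pair_rm (hP : PGood Φ ε L U x y u) (hW : (W : Set Src) = (U : Set Src) ∪ (node x y).leaves)
    (hl : live Φ ε L (W : Set Src) (node x y) (sig Φ ε (node x y)))
    (hux : ∀ s < sig Φ ε (node x y), ¬(RB.Y Φ ε L hΦ hε).Exp W x.root s)
    (huy : ∀ s < sig Φ ε (node x y), ¬(RB.Y Φ ε L hΦ hε).Exp W y.root s)
    (h1 : sig Φ ε (node x y) ≤ u) (hRU : R.leaves ⊆ (U : Set Src)) (nR : Nice Φ ε L W R)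
    (hK : GoodP Φ ε L (rm U R) R (pks Φ ε x y) u) (hβ : ext Φ ε (node x y) ≤ β)
    (hβU : ∀ a ∈ U, a.1 ≤ β) :
    NiceH Φ ε L ((rm U R : Set Src) ∪ (node x y).leaves) (node x y) (rlt Φ ε x y β)
      (sig Φ ε (node x y)) ∨
      Drp Φ ε L (rm U R) R (outs (node x y)) (ext Φ ε) (sig Φ ε (node x y)) := by
  classical
  have hok := hl.ok
  have hse := sig_lt_ext hΦ hε hok
  have hsb : sig Φ ε (node x y) ≤ β := hse.le.trans hβ
  have hd : Disjoint (U : Set Src) (node x y).leaves := hP.disj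
  have hVU : (rm U R : Set Src) ⊆ (U : Set Src) := fun a ha => (mem_rm.1 ha).1
  have hE1 : epk Φ ε x y ⊆ pks Φ ε x y := epk_subset
  have hE : epk Φ ε x y ⊆ spk Φ ε R ∪ pks Φ ε x y := hE1.trans Finset.subset_union_right
  have hN : spk Φ ε R ⊆ spk Φ ε R ∪ pks Φ ε x y := Finset.subset_union_left
  have hIN : Disjoint (epk Φ ε x y) (spk Φ ε R) := (hK.disj.mono_right hE1).symm
  have hu : epk Φ ε x y ∪ spk Φ ε R ⊆ spk Φ ε R ∪ pks Φ ε x y := Finset.union_subset hE hN
  have hinj := rlt_inj hΦ hε hok hβ hP.inj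
  have hler : ∀ z ∈ outs (node x y), ext Φ ε z ≤ rlt Φ ε x y β z := fun z hz => le_rlt hΦ hok hβ hz
  have hms : ∀ z ∈ exs x ∪ exs y, msrc Φ ε (rlt Φ ε x y β) z = rsrc Φ ε z := by
    intro z hz
    unfold msrc
    rw [rlt_exs hok hz]
    rfl
  have hfr : ∀ z ∈ outs (node x y), msrc Φ ε (rlt Φ ε x y β) z ∉ (U : Set Src) := by
    intro z hz hm
    rw [outs_node] at hz
    rcases hz with hz | hz
    · exact absurd (hβU _ (Finset.mem_coe.1 hm)) (not_le.2 (rlt_pair_lt hz))
    · rw [hms z hz] at hm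
      exact hP.fresh (exs_sub_outs hz) (Finset.mem_coe.1 hm)
  have lU := late_epk (Φ := Φ) (ε := ε) (V := U) hok hsb
  have lV := late_epk (Φ := Φ) (ε := ε) (V := rm U R) hok hsb
  -- the setup of the pair
  have hnT : NiceH Φ ε L ((U : Set Src) ∪ (node x y).leaves) (node x y) (rlt Φ ε x y β)
      (sig Φ ε (node x y)) := by
    rw [← hW]
    exact niceH_pair hl hux huy
  have sT : TSetup Φ ε L (U : Set Src) (node x y) (rlt Φ ε x y β) (sig Φ ε (node x y)) :=
    hnT.tsetup hΦ hε U.finite_toSet hd hinj hfr hler fun p q s hs hp hq =>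
      indep_epk hΦ hε hE1 hP.good p q s (hs.le.trans h1) ((lU.live hΦ hε hs).1 hp)
        ((lU.alive hΦ hε hs).1 hq)
  -- the tree `R`
  have eU : (wF U id (epk Φ ε x y) : Set Src) =
      (wF (rm U R) id (epk Φ ε x y) : Set Src) ∪ R.leaves := by
    ext a
    rw [mem_union, RPk.mem_wF_id, RPk.mem_wF_id, mem_rm]
    constructor
    · rintro (h | h)
      · by_cases h2 : a ∈ R.leaves
        · exact Or.inr h2
        · exact Or.inl (Or.inl ⟨h, h2⟩)
      · exact Or.inl (Or.inr h)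
    · rintro ((h | h) | h)
      · exact Or.inl h.1
      · exact Or.inr h
      · exact Or.inl (Finset.mem_coe.1 (hRU h))
  have hdR : Disjoint (wF (rm U R) id (epk Φ ε x y) : Set Src) R.leaves := by
    refine disjoint_left.2 fun a h2 h3 => ?_
    rcases RPk.mem_wF_id.1 h2 with h2 | ⟨A, hA, h2⟩
    · exact (mem_rm.1 h2).2 h3
    · obtain ⟨z, hz, rfl⟩ := mem_epk.1 hA
      rw [show a = rsrc Φ ε z from Finset.mem_singleton.1 h2] at h3
      exact hP.fresh (exs_sub_outs hz) (Finset.mem_coe.1 (hRU h3))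
  have nR1 : NiceH Φ ε L (TL.lwd Φ ε (rlt Φ ε x y β) (U : Set Src) (node x y)) R (ext Φ ε)
      (sig Φ ε (node x y)) := by
    refine NiceH.lwd hΦ hε sT hRU ?_
    rw [← hW]
    exact nR.niceH hΦ hε
  have nR2 : NiceH Φ ε L ((wF (rm U R) id (epk Φ ε x y) : Set Src) ∪ R.leaves) R (ext Φ ε)
      (sig Φ ε (node x y)) := by
    rw [← eU]
    refine nR1.late lU hΦ hε (Finset.finite_toSet _) (Tr.lwd_finite sT) ?_
    rw [eU]
    exact subset_union_right
  have sR : TSetup Φ ε L (wF (rm U R) id (epk Φ ε x y) : Set Src) R (ext Φ ε)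
      (sig Φ ε (node x y)) :=
    (linePkR_spk hK.inj).tsetup hΦ hε hN hE hIN hK.good h1 hdR (fun _ _ => le_rfl) nR2
  have htrans : ∀ q s, s < sig Φ ε (node x y) →
      q.leaves ⊆ (wF (rm U R) id (epk Φ ε x y) : Set Src) →
      live Φ ε L (wF (rm U R) id (epk Φ ε x y ∪ spk Φ ε R) : Set Src) q s →
      live Φ ε L (W : Set Src) (th Φ ε (rlt Φ ε x y β) (node x y) q) s := by
    intro q s hs hq hql
    rw [(linePkR_spk hK.inj).wF_eq] at hql
    have h2 := ((Tr.live_th hΦ hε sR hs hql.sub).1 hql).1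
    rw [Tr.th_of_subset sR hq, ← eU] at h2
    have h3 := (lU.live hΦ hε hs).2 h2
    rw [hW]
    exact ((Tr.live_th hΦ hε sT hs h3.sub).1 h3).1
  have hindV : ∀ p q s, s < sig Φ ε (node x y) →
      live Φ ε L (TL.lwd Φ ε (rlt Φ ε x y β) (rm U R : Set Src) (node x y)) p s →
      M.alive Φ ε L (TL.lwd Φ ε (rlt Φ ε x y β) (rm U R : Set Src) (node x y)) q s →
        Disjoint p.leaves q.leaves → hit Φ ε p q s →
          p.leaves ⊆ (rm U R : Set Src) ∨ q.leaves ⊆ (rm U R : Set Src) := fun p q s hs hp hq =>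
    indep_epk hΦ hε hE hK.good p q s (hs.le.trans h1) ((lV.live hΦ hε hs).1 hp)
      ((lV.alive hΦ hε hs).1 hq)
  have hDD : ∀ q s, s < sig Φ ε (node x y) → Bg Φ ε q s →
      live Φ ε L (TL.lwd Φ ε (rlt Φ ε x y β) (rm U R : Set Src) (node x y)) q s →
      live Φ ε L (W : Set Src) (th Φ ε (rlt Φ ε x y β) (node x y) q) s ∨
        (live Φ ε L (rm U R : Set Src) q s ∧ ∃ z ∈ outs R,
          ¬live Φ ε L (insert (rsrc Φ ε z) (rm U R : Set Src)) q s) := by
    intro q s hs _ hq
    replace hq := (lV.live hΦ hε hs).1 hq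
    obtain ⟨i, hi⟩ := hK.good.live_dep hΦ hε q (hs.le.trans h1)
    by_cases hiN : i ∈ spk Φ ε R
    · have hiT : i ∉ epk Φ ε x y := fun h => Finset.disjoint_left.1 hIN h hiN
      by_cases hlive : live Φ ε L (wF (rm U R) id (epk Φ ε x y ∪ spk Φ ε R) : Set Src) q s
      · exact Or.inl (htrans q s hs hq.sub hlive)
      · right
        have h2 : live Φ ε L (wF (rm U R) id ∅ : Set Src) q s := (hi _ _ hE
          (Finset.empty_subset _) (iff_of_false hiT (Finset.notMem_empty _))).1 hq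
        have h3 : ¬live Φ ε L (wF (rm U R) id {i} : Set Src) q s := fun h' => hlive
          ((hi {i} _ (Finset.singleton_subset_iff.2 (hN hiN)) hu
            (iff_of_true (Finset.mem_singleton_self _) (Finset.mem_union_right _ hiN))).1 h')
        rw [wF_empty] at h2
        obtain ⟨z, hz, rfl⟩ := mem_spk.1 hiN
        have e2 : (wF (rm U R) id {sgl (rsrc Φ ε z)} : Set Src) =
            insert (rsrc Φ ε z) (rm U R : Set Src) := by
          rw [coe_wF_singleton]
          change (rm U R : Set Src) ∪ (({rsrc Φ ε z} : Finset Src) : Set Src) = _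
          rw [Finset.coe_singleton, union_singleton]
        rw [e2] at h3
        exact ⟨h2, z, hz, h3⟩
    · left
      refine htrans q s hs hq.sub ((hi _ _ hE hu ?_).1 hq)
      rw [Finset.mem_union]
      tauto
  rcases nice_without_h hΦ hε (V := (rm U R : Set Src)) (W := (U : Set Src) ∪ (node x y).leaves)
    (hW ▸ W.finite_toSet) hnT (Finset.finite_toSet _) (hd.mono_left hVU) hinj
    (fun z hz hm => hfr z hz (hVU hm)) hler hindV (hW ▸ hDD) with h2 | h2
  · exact Or.inl h2
  · right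
    obtain ⟨z, hz, q, s, h2, h3, h4, h5, ⟨h6, w, hw, h7⟩, h8⟩ := h2
    refine ⟨w, hw, z, hz, q, s, h2.le, h3, ?_, h5, h6, h7, h8⟩
    rw [outs_node] at hz
    rcases hz with (rfl | hz) | hz
    · exact (h2.trans hse).le
    · rw [mem_singleton_iff.1 hz, ext_swap hΦ x y]
      exact (h2.trans hse).le
    · rwa [rlt_exs hok hz] at h4

/-- **The trees which are counted in `relP`.** -/
theorem depP_cases (hP : PGood Φ ε L U x y u) (hW : (W : Set Src) = (U : Set Src) ∪ (node x y).leaves)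
    (hl : live Φ ε L (W : Set Src) (node x y) (sig Φ ε (node x y)))
    (hux : ∀ s < sig Φ ε (node x y), ¬(RB.Y Φ ε L hΦ hε).Exp W x.root s)
    (huy : ∀ s < sig Φ ε (node x y), ¬(RB.Y Φ ε L hΦ hε).Exp W y.root s)
    (h1 : sig Φ ε (node x y) ≤ u) (h0 : ∀ a ∈ W, 0 ≤ a.1) (hRU : R.leaves ⊆ (U : Set Src))
    (nR : Nice Φ ε L (lw2 Φ ε U x y) R) (hRu : ext Φ ε R ≤ u)
    (hK : GoodP Φ ε L (rm U R) R (pks Φ ε x y) u) :
    IndP Φ ε L U x y u R ∨
      Drp Φ ε L (rm U R) R (outs (node x y)) (ext Φ ε) (sig Φ ε (node x y)) := by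
  classical
  have hok := hl.ok
  have hax := live_left hΦ hε W.finite_toSet hl
  have hay := live_right hΦ hε W.finite_toSet hl
  have hx1 : ext Φ ε x < sig Φ ε (node x y) := hok.2.2.2.2.2.1
  have hy1 : ext Φ ε y < sig Φ ε (node x y) := hok.2.2.2.2.2.2
  have hA : PAl Φ ε L hΦ hε W x y := ⟨hok.2.2.1, alive_anti hax hx1.le le_rfl,
    alive_anti hay hy1.le le_rfl, fun s hs => hux s (hs.trans hx1), fun s hs => huy s (hs.trans hy1)⟩
  have hrep := hP.rep h0 hW hA (hx1.le.trans h1) (hy1.le.trans h1)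
  have hfR : ∀ σ ∈ R.leaves, TF.fs Φ ε (ext Φ ε) {x, y} σ = leaf σ := fun σ hσ =>
    hP.fs_of_mem (Finset.mem_coe.1 (hRU hσ))
  have nRW : Nice Φ ε L W R := by
    refine ⟨hrep.alive_ext nR.sub hfR hRu nR.alive, fun z hz s hs hb => ?_⟩
    have hzr := outs_leaves hz z.root_mem_leaves
    have hsu : s ≤ u := (hs.trans_le (out_ext_le hΦ hε nR.ok hz)).le.trans hRu
    have h2 := hrep.lines.badc z.root (Finset.mem_coe.1 (nR.sub hzr)) s hsu
    beta_reduce at h2
    rw [hfR _ hzr] at h2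
    obtain ⟨s', hs', h3⟩ := h2.2 ⟨s, le_rfl, hb⟩
    exact nR.good z hz s' (hs'.trans_lt hs) h3
  obtain ⟨β, hβ, hβU⟩ : ∃ β, ext Φ ε (node x y) ≤ β ∧ ∀ a ∈ U, a.1 ≤ β := by
    obtain ⟨β, hβ⟩ := (U.finite_toSet.image Prod.fst).bddAbove
    exact ⟨max (ext Φ ε (node x y)) β, le_max_left _ _, fun a ha =>
      (hβ ⟨a, Finset.mem_coe.2 ha, rfl⟩).trans (le_max_right _ _)⟩
  rcases pair_rm hP hW hl hux huy h1 hRU nRW hK hβ hβU with h2 | h2
  swap
  · exact Or.inr h2
  left
  have e : (rm (addT U (node x y)) R : Set Src) = (rm U R : Set Src) ∪ (node x y).leaves :=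
    coe_rm_of_disjoint hRU hP.disj (coe_addT _ _)
  have hfin : ((rm U R : Set Src) ∪ (node x y).leaves).Finite :=
    (Finset.finite_toSet _).union (node x y).leaves_finite
  have hT : node x y ∈ outs (node x y) := Or.inl rfl
  have hb : sig Φ ε (node x y) < rlt Φ ε x y β (node x y) :=
    ((sig_lt_ext hΦ hε hok).trans_le hβ).trans (rlt_pair_lt (Or.inl rfl))
  have hdx : x.depth ≤ L := (le_max_left x.depth y.depth).trans (Nat.le_of_succ_le hl.depth)
  have hdy : y.depth ≤ L := (le_max_right x.depth y.depth).trans (Nat.le_of_succ_le hl.depth)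
  refine ⟨hRU, ?_, ?_, ⟨hP.disj.mono_left fun a ha => (mem_rm.1 ha).1, hP.inj,
    hK.good.subset Finset.subset_union_right⟩⟩
  · rw [e, alive_iff_live hΦ hε hfin]
    refine ⟨⟨fun a ha => Or.inr (Or.inl ha), hok.1, hdx, sig_le_ext hΦ hε hok.1,
      fun X s hs hh => ?_⟩, le_rfl⟩
    exact h2.free _ hT X s (Or.inl ((hs.trans hx1).trans hb)) (hs.trans hx1)
      (hit_left_of_lt (hs.trans hx1) hh)
  · rw [e, alive_iff_live hΦ hε hfin]
    refine ⟨⟨fun a ha => Or.inr (Or.inr ha), hok.2.1, hdy, sig_le_ext hΦ hε hok.2.1,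
      fun X s hs hh => ?_⟩, le_rfl⟩
    exact h2.free _ hT X s (Or.inl ((hs.trans hy1).trans hb)) (hs.trans hy1)
      (hit_right_of_lt (hs.trans hy1) hh)

end Vale.Agent.P119.PB
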