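import Vale.Agent.P119.PB.PairRel
import Vale.Agent.P119.PB.ExcPair
import Vale.Agent.P119.PB.ExcDep
import Vale.Agent.P119.PB.RPk
import Vale.Agent.P119.RM.PGood
import Vale.Agent.P119.PB.RelCasesP

/-!
# P119, block PROB, P9: the trees which are not independent of a colliding pair (`helper384`)

* `DepP`: the trees which are counted in `relP`;
* `BadQ`: the event of the pair `x`, `y` and the tree `R`;
* `GoodPLaw`: the law of the interaction of the lines of `R` and of the pair;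
* **`excQ2_of`**: `ExcQ2`.
-/

open MeasureTheory Filter Topology Set
open scoped ENNReal NNReal

noncomputable section

namespace Vale.Agent.P119.PB.XR

open M CTree KU FL FB RB AU TL GC IND PB.XT PB.RelX PB.PL ContExc

variable {Φ : E3 → ℝ} {ε T t u : ℝ} {L : ℕ} {S R x y : CTree} {U V : Finset Src} {f₀ : Ph → ℝ}
  {κ₀ b c M₀ M₁ : ℝ}

/-- The trees which are counted in `relP`. -/
structure DepP (Φ : E3 → ℝ) (ε : ℝ) (L : ℕ) (U : Finset Src) (x y : CTree) (t : ℝ) (R : CTree) :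
    Prop where
  sub : R.leaves ⊆ (lw2 Φ ε U x y : Set Src)
  depth : R.depth ≤ L
  ext_le : ext Φ ε R ≤ t
  alive : M.alive Φ ε L (lw2 Φ ε U x y : Set Src) R (ext Φ ε R)
  root : ∀ (hΦ : IsPotential Φ) (hε : 0 < ε), ∀ s < ext Φ ε R,
    ¬(RB.Y Φ ε L hΦ hε).Exp (lw2 Φ ε U x y) R.root s
  dep : ¬IndP Φ ε L U x y t R

open Classical in
theorem relP_eq : relP Φ ε L U x y t =
    ∑' R : CTree, if DepP Φ ε L U x y t R then wln Φ ε R else 0 := by
  unfold relP relI
  refine tsum_congr fun R => ?_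
  by_cases h : DepP Φ ε L U x y t R
  · rw [if_pos h, if_pos ⟨h.sub, h.depth, h.ext_le, h.alive, h.root, h.dep⟩]
    rfl
  · rw [if_neg h, if_neg fun ⟨h1, h2, h3, h4, h5, h6⟩ => h ⟨h1, h2, h3, h4, h5, h6⟩]

theorem measurableSet_DepP {X : Type} [MeasurableSpace X] (hΦ : IsPotential Φ) (hε : 0 < ε)
    {U : X → Finset Src} {x y R : X → CTree} {t : X → ℝ}
    (hU : MM.RS fun q => (U q : Set Src)) (hx : Measurable x) (hy : Measurable y)
    (ht : Measurable t) (hR : Measurable R) :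
    MeasurableSet {q | DepP Φ ε L (U q) (x q) (y q) (t q) (R q)} := by
  have hV : MM.RS fun q => (lw2 Φ ε (U q) (x q) (y q) : Set Src) := RM.rs_lw2 hΦ hε hU hx hy
  have he : Measurable fun q => ext Φ ε (R q) := (measurable_ext hΦ hε.ne').comp hR
  have h1 : MeasurableSet {q | ∃ s < ext Φ ε (R q),
      (RB.Y Φ ε L hΦ hε).Exp (lw2 Φ ε (U q) (x q) (y q)) (R q).root s} :=
    (RM.msys_Y hΦ hε).measurableSet_exp_lt hV (MM.meas_root hR) he
  have h2 := RM.measurableSet_IndP (L := L) hΦ hε hU hx hy ht hR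
  have h := (MM.measurableSet_tree_leaves_subset hV hR).inter
    ((MM.meas_depth hR (measurableSet_Iic (a := L))).inter ((measurableSet_le he ht).inter
      ((MM.measurableSet_tree_alive hΦ hε hV hR he (L := L)).inter (h1.compl.inter h2.compl))))
  convert h using 1
  ext q
  exact ⟨fun h => ⟨h.sub, h.depth, h.ext_le, h.alive, fun ⟨s, hs, he⟩ => h.root hΦ hε s hs he,
    h.dep⟩, fun h => ⟨h.1, h.2.1, h.2.2.1, h.2.2.2.1,
      fun _ _ s hs he => h.2.2.2.2.1 ⟨s, hs, he⟩, h.2.2.2.2.2⟩⟩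

variable (T L) in
/-- The tree `R` is counted in `relP` of the inserted pair, in the world with `R`. -/
def BadQ (hΦ : IsPotential Φ) (hε : 0 < ε) (u : ℝ) (x y : CTree) (V : Finset Src) (R : CTree) :
    Prop :=
  coT Φ ε L T (addT V R) x y ∧ GdP L hΦ hε u (addT V R) x y ∧
    DepP Φ ε L (addT V R) x y u R

theorem measurableSet_BadQ (hΦ : IsPotential Φ) (hε : 0 < ε) {g : CTree → CTree → ℝ}
    (hg : Measurable fun p : CTree × CTree => g p.1 p.2) :
    MeasurableSet {p : ((CTree × CTree) × CTree) × Conf Ph |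
      BadQ T L hΦ hε (g p.1.1.1 p.1.1.2) p.1.1.1 p.1.1.2 (wS (pts p.2)) p.1.2} := by
  have hV : MM.RS fun p : ((CTree × CTree) × CTree) × Conf Ph =>
      ((wS (pts p.2) : Finset Src) : Set Src) := RM.rs_wS measurable_snd
  have hx : Measurable fun p : ((CTree × CTree) × CTree) × Conf Ph => p.1.1.1 := by fun_prop
  have hy : Measurable fun p : ((CTree × CTree) × CTree) × Conf Ph => p.1.1.2 := by fun_prop
  have hR : Measurable fun p : ((CTree × CTree) × CTree) × Conf Ph => p.1.2 := by fun_prop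
  have hu : Measurable fun p : ((CTree × CTree) × CTree) × Conf Ph => g p.1.1.1 p.1.1.2 :=
    hg.comp (by fun_prop : Measurable fun p : ((CTree × CTree) × CTree) × Conf Ph =>
      (p.1.1.1, p.1.1.2))
  have hU := rs_addT hV hR
  have hn : Measurable fun p : ((CTree × CTree) × CTree) × Conf Ph => node p.1.1.1 p.1.1.2 :=
    measurable_node.comp (hx.prodMk hy)
  have hUS := rs_addT hU hn
  have hs : Measurable fun p : ((CTree × CTree) × CTree) × Conf Ph =>
      sig Φ ε (node p.1.1.1 p.1.1.2) := MM.meas_sig hΦ hε.ne' hn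
  have h1 := measurableSet_coT (L := L) hΦ hε hU hx hy (measurable_const (a := T))
  have h2 : MeasurableSet {p : ((CTree × CTree) × CTree) × Conf Ph |
      GdP L hΦ hε (g p.1.1.1 p.1.1.2) (addT (wS (pts p.2)) p.1.2) p.1.1.1 p.1.1.2} :=
    (((RM.msys_Y hΦ hε).measurableSet_exp hUS (MM.meas_root hx) hs).compl.inter
      ((RM.msys_Y hΦ hε).measurableSet_exp hUS (MM.meas_root hy) hs).compl).inter
      ((measurableSet_le hs hu).inter (RM.measurableSet_PGood (L := L) hΦ hε hU hx hy hu))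
  exact h1.inter (h2.inter (measurableSet_DepP hΦ hε hU hx hy hu hR))

variable (T L) in
/-- **The law of the interaction of the lines of `R` and of the pair.** -/
def GoodPLaw (hΦ : IsPotential Φ) (N : ℕ → ℕ) : Prop :=
  ∀ (ε : ℝ) (hε : 0 < ε) (x y R : CTree) (l : Fin 0 → Src) (w : Finset Ph) (u : ℝ),
    OKP Φ ε T L x y → OKt Φ ε L T R → Base Φ ε (sn (node x y) R) l →
    (∀ σ ∈ (node x y).leaves, σ ∉ wS w) → (∀ σ ∈ R.leaves, σ ∉ wS w) →
    (∀ z ∈ outs x ∪ outs y, rsrc Φ ε z ∉ wS w) → (∀ σ ∈ srcs Φ ε R, σ ∉ wS w) →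
    coT Φ ε L T (addT (wS w) R) x y → GdP L hΦ hε u (addT (wS w) R) x y → u ≤ T →
    u < ext Φ ε (node x y) → Nice Φ ε L (lw2 Φ ε (addT (wS w) R) x y) R → ext Φ ε R ≤ u →
    ¬GoodP Φ ε L (wS w) R (pks Φ ε x y) u → ∀ J,
    LawC hΦ hε L T J 1 (N J) (sn (node x y) R) l w
      (msrc Φ ε (ext Φ ε) '' (outs x ∪ outs y ∪ outs R))

/-- **The deterministic classification.** -/
theorem depP_cases' (hΦ : IsPotential Φ) (hε : 0 < ε) (hc : coT Φ ε L T U x y)
    (hG : GdP L hΦ hε u U x y) (hR : R.leaves ⊆ (U : Set Src))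
    (hN : Nice Φ ε L (lw2 Φ ε U x y) R) (he : ext Φ ε R ≤ u)
    (hg : GoodP Φ ε L (rm U R) R (pks Φ ε x y) u) :
    IndP Φ ε L U x y u R ∨
      Drp Φ ε L (rm U R) R (outs (node x y)) (ext Φ ε) (sig Φ ε (node x y)) :=
  depP_cases hG.2.2 (coe_addT _ _) hc.live (fun s hs => hG.1.left hs.le)
    (fun s hs => hG.1.right hs.le) hG.2.1
    (addT_nonneg (fun a ha => (hG.2.2.good.birthV a ha).1) (birth_of_ok hc.ok)) hR hN he hg

/-- The sizes for `Drp`. -/
def NP (L J : ℕ) : ℕ := 5 * 2 ^ (L + 2) + 2 ^ (L + 3) + 2 * Nb0 L J + 1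

/-- The relations of the laws for one pair and one related tree. -/
def XQ (hΦ : IsPotential Φ) (L : ℕ) (T : ℝ) (N : ℕ → ℕ) (J : ℕ) : Set Rln :=
  irrs hΦ T (max (N J) (NP L J)) 2 ∪ nears Φ T (max (N J) (NP L J)) 1

theorem lawC_outP (hΦ : IsPotential Φ) (hε : 0 < ε) {N : ℕ → ℕ} {l : Fin 0 → Src}
    {w : Finset Ph} {A : Set Src} {J n : ℕ} (hn : n ≤ max (N J) (NP L J))
    (hA : A ⊆ msrc Φ ε (ext Φ ε) '' (outs x ∪ outs y ∪ outs R))
    (h : LawC hΦ hε L T J 1 n (sn (node x y) R) l w A) :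
    (∃ z ∈ outs x ∪ outs y ∪ outs R,
        HasClean hΦ hε.ne' L T (T + 1) J (wS w) (ext Φ ε z) (ln Φ ε z)) ∨
      PrgC Φ ε T 2 (max (N J) (NP L J)) (sn (node x y) R) l w ∨
      PrgO Φ ε T 1 (max (N J) (NP L J)) (sn (node x y) R) l w ∨
      SBad (XQ hΦ L T N J) ε (sn (node x y) R) l w := by
  rcases h with ⟨σ, hσ, h1⟩ | h1 | h1 | h1
  · left
    obtain ⟨z, hz, rfl⟩ := hA hσ
    exact ⟨z, hz, h1⟩
  · exact Or.inr (Or.inl (h1.mono le_rfl hn))
  · exact Or.inr (Or.inr (Or.inl (h1.mono le_rfl hn)))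
  · exact Or.inr (Or.inr (Or.inr (((h1.mono le_rfl hn).sbad hΦ hε).mono subset_union_left)))

/-- **The law of `Drp`** for one pair and one related tree. -/
theorem law_drpP (hΦ : IsPotential Φ) (hε : 0 < ε) {l : Fin 0 → Src} {w : Finset Ph}
    (hxy : OKP Φ ε T L x y) (hR : OKt Φ ε L T R) (hB : Base Φ ε (sn (node x y) R) l)
    (hzw : ∀ σ ∈ (node x y).leaves, σ ∉ wS w) (hRw : ∀ σ ∈ R.leaves, σ ∉ wS w)
    (hRw' : ∀ σ ∈ srcs Φ ε R, σ ∉ wS w)
    (h : Drp Φ ε L (wS w) R (outs (node x y)) (ext Φ ε) (sig Φ ε (node x y))) (J : ℕ) :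
    LawC hΦ hε L T J 1 (NP L J) (sn (node x y) R) l w (srcs Φ ε R) ∨
      PrgN Φ ε T 1 (NP L J) (sn (node x y) R) l w := by
  classical
  have hf := fam_pair hΦ hε hxy.1 hxy.2.2
  have hd : Disjoint (node x y).leaves R.leaves := by
    have h5 := hB.disj 0 1 (by decide)
    rwa [sn_zero, sn_one] at h5
  have h1 := Fam.law_drp (F₀ := famP x y) (G₀ := ghP Φ ε x y) hΦ hε hf.1
    (slab_pair (S := fun _ : Fin 1 => node x y) hΦ hε rfl hxy.1 l) hR.1 hR.2.1 hR.2.2
    (fun σ hσ => Set.disjoint_left.1 hd (mem_lab_famP.1 hσ))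
    (fun σ hσ => hzw σ (mem_lab_famP.1 hσ))
    (disjoint_left.2 fun σ h4 h5 => hRw σ h4 (Finset.mem_coe.1 h5))
    (Finset.disjoint_left.2 hRw') (O := outs (node x y)) (fun z hz => ⟨outs_ok hΦ hxy.1 hz,
      fun a ha => ⟨mem_lab_famP.2 (outs_leaves hz ha), hf.2.1 a
        (mem_lab_famP.2 (outs_leaves hz ha)) _
        (mem_lab_famP.2 (outs_leaves hz z.root_mem_leaves))⟩⟩) hxy.2.2 h J
  have h7 := szB_pair_le (Φ := Φ) (ε := ε) hxy.2.1
  have h8 : szB (famP x y) (ghP Φ ε x y) + 2 ^ (L + 3) + 2 * Nb0 L J + 1 ≤ NP L J := by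
    unfold NP
    omega
  exact h1.imp (fun h2 => h2.imp id (Or.imp (PrgC.mono le_rfl h8) (Or.imp (PrgO.mono le_rfl h8)
      (IrrO.mono le_rfl h8)))) (PrgN.mono le_rfl h8)

theorem wqP_exp_le (hΦ : IsPotential Φ) (hε : 0 < ε) (hb : 0 < b) : wqP Φ ε x y ≤
      ENNReal.ofReal (1 + 8 / b) * ENNReal.ofReal (Real.exp (b / 8 * enT (node x y))) := by
  unfold wqP
  rw [← ENNReal.ofReal_mul (by positivity)]
  refine ENNReal.ofReal_le_ofReal ?_
  have h1 := ln_sq_le_enT hΦ hε.ne' x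
  have h1' := ln_sq_le_enT hΦ hε.ne' y
  have e : enT (node x y) = enT x + enT y := rfl
  obtain ⟨E, hE⟩ : ∃ E, E = enT (node x y) := ⟨_, rfl⟩
  have hE0 : 0 ≤ E := by rw [hE]; exact enT_nonneg _
  rw [← hE]
  have h2 : b / 8 * E + 1 ≤ Real.exp (b / 8 * E) := Real.add_one_le_exp _
  have h3 : 0 ≤ b / 8 * E := mul_nonneg (by positivity) hE0
  have h5 : 1 ≤ Real.exp (b / 8 * E) := Real.one_le_exp h3
  have h4 : E = 8 / b * (b / 8 * E) := by field_simp
  have h7 : E ≤ 8 / b * Real.exp (b / 8 * E) := by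
    calc E = 8 / b * (b / 8 * E) := h4
      _ ≤ _ := mul_le_mul_of_nonneg_left (by linarith) (by positivity)
  nlinarith

open Classical in
/-- **`ExcQ2`**, from the law of the interaction of the lines. -/
theorem excQ2_of (h : GoodDatum f₀ κ₀) (hΦ : IsPotential Φ) (hb : 0 < b)
    (hM₀ : 0 ≤ M₀) (hf : ∀ z, f₀ z ≤ M₀ * Real.exp (-b * ‖z.2‖ ^ 2)) (hM₁ : 0 ≤ M₁)
    (hmarg : ∀ v, ∫⁻ x, ENNReal.ofReal (f₀ (x, v)) ≤
      ENNReal.ofReal (M₁ * Real.exp (-b * ‖v‖ ^ 2)))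
    (hT : 0 ≤ T) (L : ℕ) {N : ℕ → ℕ} (hlaw : GoodPLaw T L hΦ N) :
    ContExc.ExcQ2 hΦ f₀ L T := by
  obtain ⟨Dl, hDl, h1⟩ := XP_rel_le (c := b / 8) h hΦ hb (by positivity) (by linarith) hM₀ hf hM₁
    hmarg L (fun J => max (N J) (NP L J)) hT (X := XQ hΦ L T N)
    (fun J => (irrs_finite hΦ T _ 2).union (nears_finite Φ T _ 1))
    (fun J r hr => by
      rcases hr with hr | hr
      · exact irrs_small hΦ h.meas hM₁ hmarg (by linarith) hT hr
      · exact nears_small hΦ h.meas hM₁ hmarg (by linarith) hT one_lt_two hr)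
  have h2 : Tendsto (fun ε => ENNReal.ofReal (1 + 8 / b) * Dl ε) (𝓝[>] 0) (𝓝 0) := by
    have h3 := ENNReal.Tendsto.const_mul (a := ENNReal.ofReal (1 + 8 / b)) hDl
      (Or.inr ENNReal.ofReal_ne_top)
    rwa [mul_zero] at h3
  have hev : ∀ᶠ ε : ℝ in 𝓝[>] 0, ε ≤ 1 :=
    (eventually_nhdsWithin_of_eventually_nhds (eventually_le_nhds one_pos))
  intro ρ hρ
  filter_upwards [hev, (ENNReal.tendsto_nhds_zero.1 h2) (ENNReal.ofReal ρ)
    (ENNReal.ofReal_pos.2 hρ)] with ε hε1 hsm hε n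
  refine le_trans ?_ hsm
  have hun := measurable_un hΦ hε T n
  refine h1 ε hε hε1 (ENNReal.ofReal (1 + 8 / b)) ENNReal.ofReal_ne_top (wqP Φ ε)
    (measurable_wqP hΦ hε measurable_fst measurable_snd) (fun x y _ => wqP_exp_le hΦ hε hb)
    (fun x y => ENNReal.ofReal_ne_top)
    (fun U x y R => GdP L hΦ hε (un Φ ε T x y n) U x y ∧ DepP Φ ε L U x y (un Φ ε T x y n) R)
    (fun U x y => ind (GdP L hΦ hε (un Φ ε T x y n) U x y) * relP Φ ε L U x y (un Φ ε T x y n))
    ?_ ?_ (fun U x y => lw2 Φ ε U x y) ?_ ?_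
    (fun x y V R => BadQ T L hΦ hε (un Φ ε T x y n) x y V R) 
    (measurableSet_BadQ (g := fun x y => un Φ ε T x y n) hΦ hε hun)
    (fun _ _ _ _ => False) ?_ ?_ ?_
  · -- measurability
    have mU : MM.RS fun p : (CTree × CTree) × Conf Ph => ((wS (pts p.2) : Finset Src) : Set Src) :=
      rs_wS_pair
    have mx : Measurable fun p : (CTree × CTree) × Conf Ph => p.1.1 := by fun_prop
    have my : Measurable fun p : (CTree × CTree) × Conf Ph => p.1.2 := by fun_prop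
    have mu : Measurable fun p : (CTree × CTree) × Conf Ph => un Φ ε T p.1.1 p.1.2 n :=
      hun.comp measurable_fst
    have hn : Measurable fun p : (CTree × CTree) × Conf Ph => node p.1.1 p.1.2 :=
      measurable_node.comp (mx.prodMk my)
    have hs : Measurable fun p : (CTree × CTree) × Conf Ph => sig Φ ε (node p.1.1 p.1.2) :=
      MM.meas_sig hΦ hε.ne' hn
    have h3 : MeasurableSet {p : (CTree × CTree) × Conf Ph |
        GdP L hΦ hε (un Φ ε T p.1.1 p.1.2 n) (wS (pts p.2)) p.1.1 p.1.2} :=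
      measurableSet_UnP.inter ((measurableSet_le hs mu).inter
        (RM.measurableSet_PGood (L := L) hΦ hε mU mx my mu))
    exact (measurable_ind h3).mul (RM.measurable_relP hΦ hε mU mx my mu)
  · intro U x y _ _
    by_cases hN : GdP L hΦ hε (un Φ ε T x y n) U x y
    · rw [ind_of hN, one_mul, relP_eq]
      refine ENNReal.tsum_le_tsum fun R => ?_
      by_cases hR : DepP Φ ε L U x y (un Φ ε T x y n) R
      · rw [if_pos hR, if_pos ⟨hN, hR⟩]
      · rw [if_neg hR]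
        exact zero_le
    · rw [ind_of_not hN, zero_mul]
      exact zero_le
  · intro U x y _ R hP
    exact ⟨hP.2.alive, hP.2.ext_le.trans un_le⟩
  · intro U x y _ a ha
    exact mem_lw2.1 ha
  · intro U x y hco _ R hP hR
    right
    refine ⟨?_, ?_, ?_⟩
    · rw [addT_rm hR]; exact hco
    · rw [addT_rm hR]; exact hP.1
    · rw [addT_rm hR]; exact hP.2
  · intro U x y _ a _ hA
    exact hA.elim
  · intro J x y R hxy hR l hB
    have h3 := XT.ae_forall_notMem_wS (ε := ε) h hε.le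
      (A := ((node x y).leaves ∪ R.leaves) ∪ (msrc Φ ε (ext Φ ε) '' (outs x ∪ outs y) ∪
        (srcs Φ ε R : Set Src)))
      (((node x y).leaves_finite.union R.leaves_finite).union
        ((((outs_finite x).union (outs_finite y)).image _).union (srcs Φ ε R).finite_toSet))
    filter_upwards [h3] with w hw hbad
    have hzw : ∀ σ ∈ (node x y).leaves, σ ∉ wS (pts w) := fun σ hσ => hw σ (Or.inl (Or.inl hσ))
    have hRw : ∀ σ ∈ R.leaves, σ ∉ wS (pts w) := fun σ hσ => hw σ (Or.inl (Or.inr hσ))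
    have hRw' : ∀ σ ∈ srcs Φ ε R, σ ∉ wS (pts w) := fun σ hσ => hw σ (Or.inr (Or.inr hσ))
    obtain ⟨g1, g2, g3⟩ := hbad
    have hd : Disjoint (wS (pts w) : Set Src) R.leaves :=
      disjoint_left.2 fun σ h4 h5 => hRw σ h5 (Finset.mem_coe.1 h4)
    have hRU : R.leaves ⊆ (addT (wS (pts w)) R : Set Src) := by
      rw [coe_addT]
      exact subset_union_right
    have hN : Nice Φ ε L (lw2 Φ ε (addT (wS (pts w)) R) x y) R :=
      Nice.of_not_exp g3.alive (g3.root hΦ hε)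
    by_cases hG : GoodP Φ ε L (wS (pts w)) R (pks Φ ε x y) (un Φ ε T x y n)
    · have h4 := (depP_cases' hΦ hε g1 g2 hRU hN g3.ext_le
        (by rw [rm_addT hd]; exact hG)).resolve_left g3.dep
      rw [rm_addT hd] at h4
      rcases law_drpP hΦ hε hxy hR hB hzw hRw hRw' h4 J with h5 | h5
      · refine lawC_outP hΦ hε (le_max_right _ _) (fun σ hσ => ?_) h5
        obtain ⟨z, hz, rfl⟩ := mem_srcs.1 (Finset.mem_coe.1 hσ)
        exact ⟨z, Or.inr hz, rfl⟩
      · exact Or.inr (Or.inr (Or.inr ((h5.mono le_rfl (le_max_right _ _)).sbad.mono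
          subset_union_right)))
    · exact lawC_outP hΦ hε (le_max_left _ _) (Subset.refl _)
        (hlaw ε hε x y R l (pts w) _ hxy hR hB hzw hRw
          (fun z hz => hw _ (Or.inr (Or.inl ⟨z, hz, rfl⟩))) hRw' g1 g2 un_le un_lt hN g3.ext_le
          hG J)

end Vale.Agent.P119.PB.XR
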