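import Vale.Agent.P119.PB.ExcOne
import Vale.Agent.P119.IND.PairBase
import Vale.Agent.P119.IND.LateNI
import Vale.Agent.P119.IND.TriLaw
import Vale.Agent.P119.FB.Unfelt

/-!
# P119, block PROB: the exceptional event `¬NoExc`, deterministic part (`helper119`)

The base structures of a tree `S` which is hit by a line `l`:

* `FA`, `GA`, `XA`: the tree and the line in contact at the time of the hit (world (A));
  `sbaseA`, `slabA`;
* `sbaseB`, `slabB`: the tree `node S (leaf l)` (world (B));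
* **`not_noExc`**: a failure of `NoExc` gives the alternatives of the laws.
-/

open MeasureTheory Filter Topology Set
open scoped ENNReal NNReal

noncomputable section

namespace Vale.Agent.P119.PB.NE

open M CTree KU FL FB RB AU TL GC IND XT

variable {Φ : E3 → ℝ} {ε T : ℝ} {L : ℕ} {S : CTree} {l : Src}

/-! ### World (A) -/

/-- The family of the tree `S` and the line `l`. -/
def FA (S : CTree) (l : Src) : Finset CTree := by
  classical
  exact partsF (leaf l) ∪ partsF S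

/-- The contact of the line `l` with the tree `S`. -/
def GA (Φ : E3 → ℝ) (ε : ℝ) (S : CTree) (l : Src) : List Gh :=
  [(leaf l, S, sig Φ ε (node (leaf l) S))]

open Classical in
/-- The lines which are seen by the gas. -/
def XA (Φ : E3 → ℝ) (ε : ℝ) (S : CTree) (l : Src) (σ : Src) : Src :=
  if σ = S.root then kcS Φ ε S l else XS Φ ε S σ

theorem mem_lab_FA {σ : Src} : σ ∈ lab (FA S l) ↔ σ = l ∨ σ ∈ S.leaves := by
  classical
  have h1 : σ ∈ lab (partsF (leaf l)) ↔ σ = l := by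
    rw [← Finset.mem_coe, lab_partsF]
    exact Iff.rfl
  unfold FA
  rw [mem_lab_union, h1, mem_lab_partsF]

theorem notMem_leaves (hok : CTree.ok Φ ε (node S (leaf l))) : l ∉ S.leaves := fun h =>
  Set.disjoint_left.1 hok.2.2.1 h (mem_singleton l)

theorem root_ne (hok : CTree.ok Φ ε (node S (leaf l))) : S.root ≠ l := fun h =>
  notMem_leaves hok (h ▸ S.root_mem_leaves)

theorem XA_root : XA Φ ε S l S.root = kcS Φ ε S l := by
  unfold XA
  rw [if_pos rfl]

theorem XA_exs (hS : CTree.ok Φ ε S) {x : CTree} (hx : x ∈ exs S) :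
    XA Φ ε S l x.root = rsrc Φ ε x := by
  have h1 : x.root ≠ S.root := exs_root_ne hS hx
  unfold XA
  rw [if_neg h1, XS_eq hS (Or.inr hx)]

theorem isLast_FA (hΦ : IsPotential Φ) (hε : 0 < ε) (hok : CTree.ok Φ ε (node S (leaf l)))
    (hsg : sig Φ ε (node S (leaf l)) ≤ T) {x : CTree} (hx : x ∈ outs S) :
    IsLast (FA S l) x := by
  classical
  have h := (fam_pair hΦ hε (ok_swap hΦ hok) ((sig_swap _ _).le.trans hsg)).2.2 x (Or.inr hx)
  unfold FA
  exact h

/-- **The base structure of the world (A).** -/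
theorem sbaseA (hΦ : IsPotential Φ) (hε : 0 < ε) (hok : CTree.ok Φ ε (node S (leaf l)))
    (hsg : sig Φ ε (node S (leaf l)) ≤ T) (hinj : InjOn (rsrc Φ ε) (outs S)) :
    SBase Φ ε T (FA S l) (GA Φ ε S l) {l} (XA Φ ε S l) := by
  classical
  have hS := hok.1
  have hex : ext Φ ε S < sig Φ ε (node S (leaf l)) := hok.2.2.2.2.2.1
  have h := fam_pair hΦ hε (ok_swap hΦ hok) ((sig_swap _ _).le.trans hsg)
  refine ⟨by unfold FA GA; exact h.1, fun g hg => ?_, fun g hg _ => ?_, fun σ hσ hD => ?_, ?_⟩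
  · rw [show g = (leaf l, S, sig Φ ε (node (leaf l) S)) from List.mem_singleton.1 hg]
    exact mem_singleton l
  · rw [show g = (leaf l, S, sig Φ ε (node (leaf l) S)) from List.mem_singleton.1 hg]
    rw [XA_root]
    exact (sig_swap S (leaf l)).le
  · have hσS : σ ∈ S.leaves := (mem_lab_FA.1 hσ).resolve_left hD
    obtain ⟨x, hx, rfl⟩ := exists_out hσS
    refine ⟨x, isLast_FA hΦ hε hok hsg hx, rfl, ?_, ?_⟩
    · rcases hx with rfl | hx
      · rw [XA_root]; rfl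
      · rw [XA_exs hS hx]; rfl
    · rcases hx with rfl | hx
      · rw [XA_root]; exact hex.le
      · rw [XA_exs hS hx]; exact le_rfl
  · rintro σ ⟨hσ, hσD⟩ τ ⟨hτ, hτD⟩ he
    obtain ⟨x, hx, rfl⟩ := exists_out ((mem_lab_FA.1 (Finset.mem_coe.1 hσ)).resolve_left hσD)
    obtain ⟨y, hy, rfl⟩ := exists_out ((mem_lab_FA.1 (Finset.mem_coe.1 hτ)).resolve_left hτD)
    have hlt : ∀ z ∈ exs S, kcS Φ ε S l ≠ rsrc Φ ε z := fun z hz h' => by
      have h1 : sig Φ ε (node S (leaf l)) = ext Φ ε z := congrArg (fun a : Src => a.1) h'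
      have h2 := out_ext_le hΦ hε hS (Or.inr hz)
      linarith
    rcases hx with rfl | hx <;> rcases hy with rfl | hy
    · rfl
    · rw [XA_root, XA_exs hS hy] at he
      exact absurd he (hlt y hy)
    · rw [XA_root, XA_exs hS hx] at he
      exact absurd he.symm (hlt x hx)
    · rw [XA_exs hS hx, XA_exs hS hy] at he
      rw [hinj (Or.inr hx) (Or.inr hy) he]

/-- The births of the lines of the world (A). -/
theorem birthA (hΦ : IsPotential Φ) (hε : 0 < ε) (hok : CTree.ok Φ ε (node S (leaf l)))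
    (hsg : sig Φ ε (node S (leaf l)) ≤ T) {R : CTree} (hR : IsLast (FA S l) R)
    (hRl : R.root ∉ ({l} : Set Src)) :
    (XA Φ ε S l R.root).1 = ext Φ ε R ∨ SKc Φ ε (GA Φ ε S l) (XA Φ ε S l R.root).1 R := by
  have hσS : R.root ∈ S.leaves := (mem_lab_FA.1 (root_mem_lab hR.mem)).resolve_left hRl
  obtain ⟨x, hx, hxr⟩ := exists_out hσS
  have hRx : R = x := hR.unique (isLast_FA hΦ hε hok hsg hx) hxr.symm
  subst hRx
  rcases hx with rfl | hx
  · right
    rw [XA_root]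
    have h1 : hitT ε (ln Φ ε (leaf l), ln Φ ε R) = sig Φ ε (node R (leaf l)) :=
      hitT_swap (ln Φ ε R, ln Φ ε (leaf l))
    refine ⟨_, List.mem_singleton.2 rfl, rfl, sig_swap R (leaf l), hok.2.2.2.2.2.2,
      hok.2.2.2.2.2.1, (meets_swap (ln Φ ε R, ln Φ ε (leaf l))).2 hok.2.2.2.1, h1⟩
  · left
    rw [XA_exs hok.1 hx]
    rfl

/-- The labels of the world (A). -/
theorem slabA (hΦ : IsPotential Φ) (hε : 0 < ε) {S : Fin 1 → CTree} {l : Fin 1 → Src}
    (hok : CTree.ok Φ ε (node (S 0) (leaf (l 0))))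
    (hsg : sig Φ ε (node (S 0) (leaf (l 0))) ≤ T) :
    SLab S l (FA (S 0) (l 0)) (GA Φ ε (S 0) (l 0)) 1 {(S 0).root} := by
  classical
  have h := (fam_pair hΦ hε (ok_swap hΦ hok) ((sig_swap _ _).le.trans hsg)).2.1
  have hr : (S 0).root ∈ lab (FA (S 0) (l 0)) := mem_lab_FA.2 (Or.inr (S 0).root_mem_leaves)
  refine ⟨fun σ hσ => ?_, fun j σ hσ => ?_, fun j => ?_, fun r hr' => ?_, fun σ hσ => ?_,
    le_of_eq (Finset.card_singleton _), fun r hr' => ?_⟩
  · rcases mem_lab_FA.1 hσ with h1 | h1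
    · exact Or.inr ⟨0, h1.symm⟩
    · exact Or.inl ⟨0, h1⟩
  · rw [Fin.fin_one_eq_zero j] at hσ
    exact Finset.mem_coe.2 (mem_lab_FA.2 (Or.inr hσ))
  · rw [Fin.fin_one_eq_zero j]
    exact mem_lab_FA.2 (Or.inl rfl)
  · rw [Finset.mem_singleton.1 hr']
    exact hr
  · refine ⟨_, Finset.mem_singleton_self _, ?_⟩
    have hσ' : σ ∈ lab (partsF (leaf (l 0)) ∪ partsF (S 0)) := by
      unfold FA at hσ
      exact hσ
    have hr' : (S 0).root ∈ lab (partsF (leaf (l 0)) ∪ partsF (S 0)) := by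
      unfold FA at hr
      exact hr
    unfold FA GA
    exact h σ hσ' _ hr'
  · rw [Finset.mem_singleton.1 hr']
    rintro ⟨j, hj⟩
    rw [Fin.fin_one_eq_zero j] at hj
    exact root_ne hok hj.symm

/-! ### World (B) -/

/-- The labels of the world (B). -/
theorem slabB (hΦ : IsPotential Φ) (hε : 0 < ε) {S : Fin 1 → CTree} {l : Fin 1 → Src}
    (hok : CTree.ok Φ ε (node (S 0) (leaf (l 0)))) :
    SLab S l (partsF (node (S 0) (leaf (l 0)))) [] 1 {(S 0).root} := by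
  have hlab : ∀ σ, σ ∈ lab (partsF (node (S 0) (leaf (l 0)))) ↔ σ ∈ (S 0).leaves ∨ σ = l 0 :=
    fun σ => mem_lab_partsF
  have hr : (S 0).root ∈ (node (S 0) (leaf (l 0))).leaves := Or.inl (S 0).root_mem_leaves
  refine ⟨fun σ hσ => ?_, fun j σ hσ => ?_, fun j => ?_, fun r hr' => ?_, fun σ hσ => ?_,
    le_of_eq (Finset.card_singleton _), fun r hr' => ?_⟩
  · rcases (hlab σ).1 hσ with h1 | h1
    · exact Or.inl ⟨0, h1⟩
    · exact Or.inr ⟨0, h1.symm⟩
  · rw [Fin.fin_one_eq_zero j] at hσ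
    exact Finset.mem_coe.2 ((hlab σ).2 (Or.inl hσ))
  · rw [Fin.fin_one_eq_zero j]
    exact (hlab _).2 (Or.inr rfl)
  · rw [Finset.mem_singleton.1 hr']
    exact mem_lab_partsF.2 hr
  · exact ⟨_, Finset.mem_singleton_self _, fj_partsF hΦ hε hok (mem_lab_partsF.1 hσ) hr⟩
  · rw [Finset.mem_singleton.1 hr']
    rintro ⟨j, hj⟩
    rw [Fin.fin_one_eq_zero j] at hj
    exact root_ne hok hj.symm

/-! ### The failures of `NoExc` -/

/-- The number of labels. -/
def Nn (L J : ℕ) : ℕ := 8 * 2 ^ (L + 3) + 2 * Nb0 L J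

theorem szB_le_card (F : Finset CTree) (G : List Gh) : szB F G ≤ 2 * F.card + G.length := by
  have h1 := card_lab_le F
  have h2 := card_nl_le F
  unfold szB
  omega

theorem szA_le (hd : S.depth ≤ L) (hl : l.2.2 ≤ L) :
    szB (FA S l) (GA Φ ε S l) ≤ 8 * 2 ^ (L + 3) := by
  classical
  have h1 := szB_le_card (FA S l) (GA Φ ε S l)
  have h2 : (FA S l).card ≤ 2 ^ (L + 2) + 2 ^ (L + 2) := by
    unfold FA
    exact (Finset.card_union_le _ _).trans (add_le_add (XT.card_partsF_le (S := leaf l) hl)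
      (XT.card_partsF_le hd))
  have h3 : (GA Φ ε S l).length = 1 := rfl
  have h4 : 1 ≤ 2 ^ (L + 2) := Nat.one_le_two_pow
  have h5 : 2 ^ (L + 3) = 2 * 2 ^ (L + 2) := by ring
  omega

theorem szBB_le (hd : S.depth ≤ L) (hl : l.2.2 ≤ L) :
    szB (partsF (node S (leaf l))) [] ≤ 8 * 2 ^ (L + 3) := by
  have h1 := szB_le_card (partsF (node S (leaf l))) []
  have h2 : (node S (leaf l)).depth ≤ L + 1 := by
    have h3 : max S.depth (leaf l).depth ≤ L := max_le hd hl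
    exact Nat.succ_le_succ h3
  have h3 := XT.card_partsF_le h2
  simp only [List.length_nil] at h1
  have h4 : 2 ^ (L + 1 + 2) = 2 ^ (L + 3) := by ring
  omega

theorem LawC.mono_set {hΦ : IsPotential Φ} {hε : 0 < ε} {J c₀ N N' m q : ℕ} {T₀ : Fin m → CTree}
    {l₀ : Fin q → Src} {w : Finset Ph} {A A' : Set Src} (hA : A ⊆ A') (hN : N ≤ N')
    (h : LawC hΦ hε L T J c₀ N T₀ l₀ w A) : LawC hΦ hε L T J c₀ N' T₀ l₀ w A' :=
  h.imp (fun ⟨σ, hσ, h'⟩ => ⟨σ, hA hσ, h'⟩) (Or.imp (PrgC.mono le_rfl hN)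
    (Or.imp (PrgO.mono le_rfl hN) (IrrO.mono le_rfl hN)))

/-- The lines which are seen by the gas, up to the horizon. -/
def kT (Φ : E3 → ℝ) (ε T : ℝ) (S : CTree) (l : Src) : Set Src :=
  {σ | (σ ∈ kA Φ ε S l ∨ σ ∈ kB Φ ε S l) ∧ σ.1 ≤ T}

theorem rsrc_exs_ok (hΦ : IsPotential Φ) (hε : 0 < ε) (hS : CTree.ok Φ ε S) (hd : S.depth ≤ L)
    {x : CTree} (hx : x ∈ outs S) : 0 ≤ (rsrc Φ ε x).1 ∧ (rsrc Φ ε x).2.2 ≤ L :=
  ⟨ext_nonneg_of_ok hΦ hε (outs_ok hΦ hS hx), (outs_depth hx).trans hd⟩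

/-- **A failure of `NoExc`.** -/
theorem not_noExc (hΦ : IsPotential Φ) (hε : 0 < ε) {S : Fin 1 → CTree} {l : Fin 1 → Src}
    (hok : CTree.ok Φ ε (node (S 0) (leaf (l 0)))) (hd : (S 0).depth ≤ L) (hl : (l 0).2.2 ≤ L)
    (hsg : sig Φ ε (node (S 0) (leaf (l 0))) ≤ T) {w : Finset Ph} (hlw : l 0 ∉ wS w)
    (hSw : ∀ σ ∈ (S 0).leaves, σ ∉ wS w) (hkA : ∀ σ ∈ kA Φ ε (S 0) (l 0), σ ∉ wS w)
    (hkB : ∀ σ ∈ kB Φ ε (S 0) (l 0), σ ∉ wS w)
    (hal : alive Φ ε L (addT (wS w) (S 0) : Set Src) (S 0)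
      (sig Φ ε (node (S 0) (leaf (l 0)))))
    (h : ¬NoExc Φ ε L T (l 0) (wS w) (S 0)) (J : ℕ) :
    LawC hΦ hε L T J 0 (Nn L J) S l w (kT Φ ε T (S 0) (l 0)) := by
  have hS := hok.1
  have hex : ext Φ ε (S 0) < sig Φ ε (node (S 0) (leaf (l 0))) := hok.2.2.2.2.2.1
  have hsg0 : 0 ≤ sig Φ ε (node (S 0) (leaf (l 0))) :=
    (ext_nonneg_of_ok hΦ hε hS).trans hex.le
  have hbase : Base Φ ε S l := by
    refine ⟨fun j => ?_, fun i j hij => absurd (Subsingleton.elim i j) hij,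
      Function.injective_of_subsingleton _, fun i j => ?_⟩
    · rw [Fin.fin_one_eq_zero j]; exact hS
    · rw [Fin.fin_one_eq_zero i, Fin.fin_one_eq_zero j]
      exact notMem_leaves hok
  have hNn : ∀ {n : ℕ}, n ≤ 8 * 2 ^ (L + 3) → n ≤ Nn L J := fun hn =>
    hn.trans (Nat.le_add_right _ _)
  -- coincidences
  by_cases hi : InjOn (rsrc Φ ε) (outs (S 0) ∪ outs (leaf (l 0)))
  swap
  · have h1 : PrgBad Φ ε T (2 * 2 ^ (L + 3)) S l w :=
      PrgBad.of_not_inj_pair hΦ hε hok hd (show (leaf (l 0)).depth ≤ L from hl) hsg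
        (fun j => by rw [Fin.fin_one_eq_zero j]; exact fun σ hσ => Or.inl hσ)
        (fun j => by rw [Fin.fin_one_eq_zero j]; exact Or.inr rfl)
        (fun a ha => ha.imp (fun h => ⟨0, h⟩) fun h => ⟨0, h.symm⟩) hi
    refine Or.inr (Or.inl ((h1.prgC one_pos hbase).mono le_rfl (hNn ?_)))
    omega
  have hi1 : InjOn (rsrc Φ ε) (outs (S 0)) := hi.mono subset_union_left
  have hi2 : InjOn (rsrc Φ ε) (outs (node (S 0) (leaf (l 0)))) := injOn_outs_node hΦ hε hok hi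
  -- the births and the depths
  have hK : ∀ σ, σ ∈ exl Φ ε (S 0) → ∃ x ∈ exs (S 0), rsrc Φ ε x = σ := fun σ hσ => by
    rw [← Finset.mem_coe, coe_exl] at hσ
    exact hσ
  have hKA : ∀ σ ∈ kA Φ ε (S 0) (l 0), (0 ≤ σ.1 ∧ σ.2.2 ≤ L) ∧ σ ∉ wS w := by
    intro σ hσ
    refine ⟨?_, hkA σ hσ⟩
    rcases mem_kA.1 hσ with rfl | h1
    · exact ⟨hsg0, hd⟩
    · obtain ⟨x, hx, rfl⟩ := hK σ h1
      exact rsrc_exs_ok hΦ hε hS hd (Or.inr hx)
  -- the lines of the base (A)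
  have hXA : ∀ σ ∈ kA Φ ε (S 0) (l 0), ∃ τ ∈ lab (FA (S 0) (l 0)), τ ∉ ({l 0} : Set Src) ∧
      XA Φ ε (S 0) (l 0) τ = σ := by
    intro σ hσ
    rcases mem_kA.1 hσ with rfl | h1
    · exact ⟨(S 0).root, mem_lab_FA.2 (Or.inr (S 0).root_mem_leaves), root_ne hok, XA_root⟩
    · obtain ⟨x, hx, rfl⟩ := hK σ h1
      have hxS : x.root ∈ (S 0).leaves := outs_leaves (Or.inr hx) x.root_mem_leaves
      refine ⟨x.root, mem_lab_FA.2 (Or.inr hxS), fun h' => notMem_leaves hok ?_, XA_exs hS hx⟩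
      rw [← mem_singleton_iff.1 h']
      exact hxS
  have hzwA : ∀ σ ∈ lab (FA (S 0) (l 0)), σ ∉ wS w := by
    intro σ hσ
    rcases mem_lab_FA.1 hσ with rfl | h1
    · exact hlw
    · exact hSw σ h1
  have hxwA : ∀ σ ∈ lab (FA (S 0) (l 0)), σ ∉ ({l 0} : Set Src) →
      XA Φ ε (S 0) (l 0) σ ∉ wS w := by
    intro σ hσ hσl
    obtain ⟨x, hx, rfl⟩ := exists_out ((mem_lab_FA.1 hσ).resolve_left hσl)
    rcases hx with hx | hx
    · rw [hx, XA_root]
      exact hkA _ (mem_kA.2 (Or.inl rfl))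
    · rw [XA_exs hS hx]
      refine hkA _ (mem_kA.2 (Or.inr ?_))
      rw [← Finset.mem_coe, coe_exl]
      exact ⟨x, hx, rfl⟩
  have hA := sbaseA hΦ hε hok hsg hi1
  have hAl := slabA (T := T) (S := S) (l := l) hΦ hε hok hsg
  have hszA := szA_le (Φ := Φ) (ε := ε) hd hl
  -- world (A)
  by_cases hga : Good Φ ε L (wS w) sgl (kA Φ ε (S 0) (l 0)) T
  swap
  · refine LawC.mono_set ?_ ?_ (hA.not_good_late hΦ hε hAl hzwA hxwA
      (fun R hR hRl => birthA hΦ hε hok hsg hR hRl) hKA (fun σ hσ _ => hXA σ hσ) le_rfl hga J)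
    · rintro σ ⟨h1, h2⟩
      exact ⟨Or.inl h1, h2⟩
    · unfold Nn
      omega
  -- world (B)
  by_cases hgb : max (l 0).2.2 (S 0).depth + 1 ≤ L → Good Φ ε L (wS w) sgl (kB Φ ε (S 0) (l 0)) T
  swap
  · rw [Classical.not_imp] at hgb
    obtain ⟨hdL, hgb⟩ := hgb
    have hdB : (node (S 0) (leaf (l 0))).depth ≤ L := by
      change max (S 0).depth (l 0).2.2 + 1 ≤ L
      rw [max_comm]
      exact hdL
    have hKB : ∀ σ ∈ kB Φ ε (S 0) (l 0), (0 ≤ σ.1 ∧ σ.2.2 ≤ L) ∧ σ ∉ wS w := by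
      intro σ hσ
      refine ⟨?_, hkB σ hσ⟩
      rcases mem_kB.1 hσ with rfl | rfl | h1
      · exact rsrc_exs_ok hΦ hε hok hdB (Or.inl rfl)
      · refine rsrc_exs_ok hΦ hε (ok_swap hΦ hok) ?_ (Or.inl rfl)
        exact hdL
      · obtain ⟨x, hx, rfl⟩ := hK σ h1
        exact rsrc_exs_ok hΦ hε hS hd (Or.inr hx)
    rcases le_or_gt (ext Φ ε (node (S 0) (leaf (l 0)))) T with hle | hgt
    · -- the pair has separated
      have hB := sbase_tree hΦ hε hok hle hi2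
      have hBl := slabB (S := S) (l := l) hΦ hε hok
      have hszB := szBB_le hd hl
      have hout : ∀ σ ∈ kB Φ ε (S 0) (l 0), ∃ x ∈ outs (node (S 0) (leaf (l 0))),
          rsrc Φ ε x = σ := by
        intro σ hσ
        rcases mem_kB.1 hσ with rfl | rfl | h1
        · exact ⟨_, Or.inl rfl, rfl⟩
        · exact ⟨_, Or.inr (mem_exs_node.2 (Or.inr (Or.inr rfl))), rfl⟩
        · obtain ⟨x, hx, rfl⟩ := hK σ h1
          exact ⟨x, Or.inr (mem_exs_node.2 (Or.inl hx)), rfl⟩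
      have hout' : ∀ x ∈ outs (node (S 0) (leaf (l 0))), rsrc Φ ε x ∈ kB Φ ε (S 0) (l 0) := by
        intro x hx
        rw [mem_kB]
        rcases hx with rfl | hx
        · exact Or.inl rfl
        · rcases mem_exs_node.1 hx with h1 | h1 | rfl
          · refine Or.inr (Or.inr ?_)
            rw [← Finset.mem_coe, coe_exl]
            exact ⟨x, h1, rfl⟩
          · exact absurd h1 (notMem_empty _)
          · exact Or.inr (Or.inl rfl)
      refine LawC.mono_set ?_ ?_ (hB.not_good_late hΦ hε hBl (fun σ hσ => ?_)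
        (fun σ hσ _ => ?_) (fun R hR _ => Or.inl ?_) hKB (fun σ hσ _ => ?_) le_rfl hgb J)
      · rintro σ ⟨h1, h2⟩
        exact ⟨Or.inr h1, h2⟩
      · unfold Nn
        omega
      · rcases mem_lab_partsF.1 hσ with h1 | h1
        · exact hSw σ h1
        · rw [show σ = l 0 from h1]; exact hlw
      · obtain ⟨x, hx, rfl⟩ := exists_out (mem_lab_partsF.1 hσ)
        rw [XS_eq hok hx]
        exact hkB _ (hout' x hx)
      · rw [XS_eq hok (isLast_partsF hok hR)]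
        rfl
      · obtain ⟨x, hx, rfl⟩ := hout σ hσ
        exact ⟨x.root, mem_lab_partsF.2 (outs_leaves hx x.root_mem_leaves), notMem_empty _,
          XS_eq hok hx⟩
    · -- the pair is colliding at the horizon
      refine LawC.mono_set ?_ ?_ (hA.not_good_late hΦ hε hAl hzwA hxwA
        (fun R hR hRl => birthA hΦ hε hok hsg hR hRl) hKB (fun σ hσ hσT => ?_) le_rfl hgb J)
      · rintro σ ⟨h1, h2⟩
        exact ⟨Or.inr h1, h2⟩
      · unfold Nn
        omega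
      · rcases mem_kB.1 hσ with rfl | rfl | h1
        · exact absurd hσT (not_le.2 hgt)
        · refine absurd hσT (not_le.2 ?_)
          change T < ext Φ ε (node (leaf (l 0)) (S 0))
          rw [ext_swap hΦ]
          exact hgt
        · exact hXA σ (mem_kA.2 (Or.inr h1))
  -- the third body
  by_cases htr : TriW Φ ε L (addT (wS w) (S 0)) (S 0) (l 0) T
  · have h1 := triW_irrBad hΦ hε hlw hSw hok hal le_rfl htr
    have e1 : (fun _ : Fin 1 => S 0) = S := funext fun j => by rw [Fin.fin_one_eq_zero j]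
    have e2 : (fun _ : Fin 1 => l 0) = l := funext fun j => by rw [Fin.fin_one_eq_zero j]
    rw [e1, e2] at h1
    refine Or.inr (Or.inr (Or.inr ?_))
    refine (h1.irrO hΦ hε one_pos hbase (fun j => ?_) fun j => ?_).mono le_rfl (hNn ?_)
    · rw [Fin.fin_one_eq_zero j]
      exact fun σ hσ => leaf_nonneg hS hσ
    · rw [Fin.fin_one_eq_zero j]
      exact hok.2.1
    have h5 : 2 ^ (L + 3) = 2 * 2 ^ (L + 2) := by ring
    have h4 : 1 ≤ 2 ^ (L + 2) := Nat.one_le_two_pow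
    omega
  · exact absurd ⟨hok.2.2.2.2.1, hi1, hi2, hga, hgb, htr⟩ h

end Vale.Agent.P119.PB.NE
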