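import Vale.Agent.P119.PB.ExcPair
import Vale.Agent.P119.PB.ExcIrrs
import Vale.Agent.P119.PB.ContExc
import Vale.Agent.P119.IND.PairLaw

/-!
# P119, block PROB, P9: the lines of a colliding pair interact (`helper667`)

* `QDet`: the deterministic part: if the lines of a colliding pair interact before the end of the
  collision then the outputs `PairOut` of `helper621`;
* `law_badQ`: the alternatives of the laws;
* **`excQ1_of`**: the exceptional term `ExcQ1`.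
-/

open MeasureTheory Filter Topology Set
open scoped ENNReal NNReal

noncomputable section

namespace Vale.Agent.P119.PB.XT

open M CTree KU FL FB RB AU TL GC IND ContExc

variable {Φ : E3 → ℝ} {ε T t : ℝ} {L : ℕ} {f₀ : Ph → ℝ} {κ₀ b c M₀ M₁ : ℝ} {x y : CTree}
  {w : Finset Ph}

/-- **The deterministic part of `ExcQ1`**: the lines of a colliding pair interact before the end of
the collision. -/
def QDet (hΦ : IsPotential Φ) (L : ℕ) (T : ℝ) : Prop :=
  ∀ (ε : ℝ) (hε : 0 < ε) (x y : CTree) (w : Finset Ph) (u : ℝ) (J : ℕ),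
    coT Φ ε L T (wS w) x y → UnP L hΦ hε (wS w) x y →
    (∀ σ ∈ (node x y).leaves, σ ∉ wS w) → (∀ z ∈ outs x ∪ outs y, rsrc Φ ε z ∉ wS w) →
    InjOn (rsrc Φ ε) (outs x ∪ outs y) → sig Φ ε (node x y) ≤ u → u ≤ T →
    u < ext Φ ε (node x y) → ¬M.Good Φ ε L (wS w) id (pks Φ ε x y) u →
    ∃ s ≤ u, PairOut hΦ hε L (wS w : Set Src) {σ | ∃ A ∈ pks Φ ε x y, σ ∈ A}
      (lw2 Φ ε (wS w) x y : Set Src) (rsrc Φ ε x) (rsrc Φ ε y) (sig Φ ε (node x y)) u J
      (Nb0 L J) s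

/-- The sizes. -/
def NQ (L J : ℕ) : ℕ := 5 * 2 ^ (L + 2) + 2 * Nb0 L J + 1

theorem mem_pks_iff {σ : Src} :
    (∃ A ∈ pks Φ ε x y, σ ∈ A) ↔ ∃ z ∈ outs x ∪ outs y, rsrc Φ ε z = σ := by
  constructor
  · rintro ⟨A, hA, ha⟩
    rcases pks_cases hA with rfl | hA
    · rcases mem_prk.1 ha with rfl | rfl
      · exact ⟨x, left_mem_outs, rfl⟩
      · exact ⟨y, right_mem_outs, rfl⟩
    · obtain ⟨z, hz, rfl⟩ := mem_epk.1 hA
      exact ⟨z, exs_sub_outs hz, (Finset.mem_singleton.1 ha).symm⟩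
  · rintro ⟨z, hz, rfl⟩
    rcases outs_cases hz with rfl | rfl | hz
    · exact ⟨_, prk_mem, mem_prk.2 (Or.inl rfl)⟩
    · exact ⟨_, prk_mem, mem_prk.2 (Or.inr rfl)⟩
    · exact ⟨_, sgl_mem_pks hz, Finset.mem_singleton_self _⟩

/-- **The alternatives of the laws.** -/
theorem law_badQ (hΦ : IsPotential Φ) (hε : 0 < ε) (hT : 0 ≤ T) (hd : QDet hΦ L T)
    {S : Fin 1 → CTree} (e : S 0 = node x y) (l : Fin 0 → Src)
    (hzw : ∀ σ ∈ (node x y).leaves, σ ∉ wS w) (hxw : ∀ z ∈ outs x ∪ outs y, rsrc Φ ε z ∉ wS w)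
    (hc : coT Φ ε L T (wS w) x y) (hB : BadQ L hΦ hε T (wS w) x y) (J : ℕ) :
    LawC hΦ hε L T J 0 (NQ L J) S l w {σ | ∃ A ∈ pks Φ ε x y, σ ∈ A} := by
  classical
  have hP : PPair Φ ε T (famP x y) ∅ (XR Φ ε (XR Φ ε id y) x) x y :=
    PPair.of_pair hΦ hε hc.ok hc.sig_le
  have hX : ∀ z ∈ outs x ∪ outs y, XR Φ ε (XR Φ ε id y) x z.root = rsrc Φ ε z := fun z hz =>
    PPair.XR_pair hc.ok hz
  have hlab : ∀ z ∈ outs x ∪ outs y, z.root ∈ lab (famP x y) := by
    intro z hz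
    refine mem_lab_famP.2 ?_
    rcases hz with hz | hz
    · exact Or.inl (outs_leaves hz z.root_mem_leaves)
    · exact Or.inr (outs_leaves hz z.root_mem_leaves)
  have hout : ∀ σ ∈ lab (famP x y), ∃ z ∈ outs x ∪ outs y, z.root = σ := by
    intro σ hσ
    rcases mem_lab_famP.1 hσ with h1 | h1
    · obtain ⟨z, hz, h2⟩ := TL.exists_out h1
      exact ⟨z, Or.inl hz, h2⟩
    · obtain ⟨z, hz, h2⟩ := TL.exists_out h1
      exact ⟨z, Or.inr hz, h2⟩
  have hmem : ∀ z ∈ outs x ∪ outs y, ∃ τ ∈ lab (famP x y), τ ∉ (∅ : Set Src) ∧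
      XR Φ ε (XR Φ ε id y) x τ = rsrc Φ ε z := fun z hz =>
    ⟨z.root, hlab z hz, notMem_empty _, hX z hz⟩
  obtain ⟨hun, u, hu, hue, hsu, hng⟩ := hB
  have h1 := hP.law hΦ hε hT (slab_pair hΦ hε e hc.ok l) (w := w)
    (fun σ hσ => hzw σ (mem_lab_famP.1 hσ))
    (fun σ hσ _ => by
      obtain ⟨z, hz, rfl⟩ := hout σ hσ
      rw [hX z hz]
      exact hxw z hz) (L := L) (J := J) (N := Nb0 L J) (ins := {σ | ∃ A ∈ pks Φ ε x y, σ ∈ A})
    (all := (lw2 Φ ε (wS w) x y : Set Src)) hu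
    (fun σ hσ => by
      rcases mem_lw2.1 hσ with h2 | ⟨z, hz, rfl⟩
      · exact Or.inl h2
      · exact Or.inr (hmem z hz))
    (fun σ hσ => by
      obtain ⟨z, hz, rfl⟩ := mem_pks_iff.1 hσ
      exact hmem z hz)
    (fun σ hσ => mem_lw2.2 (Or.inr (mem_pks_iff.1 hσ)))
    (fun hi => by
      have hinj : InjOn (rsrc Φ ε) (outs x ∪ outs y) := by
        intro z hz z' hz' he
        have h2 := hi ⟨Finset.mem_coe.2 (hlab z hz), notMem_empty _⟩
          ⟨Finset.mem_coe.2 (hlab z' hz'), notMem_empty _⟩ (by rw [hX z hz, hX z' hz', he])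
        rcases hz with hz | hz <;> rcases hz' with hz' | hz'
        · exact outs_root_inj hc.ok.1 hz hz' h2
        · exact absurd (outs_leaves hz' z'.root_mem_leaves)
            (h2 ▸ Set.disjoint_left.1 hc.ok.2.2.1 (outs_leaves hz z.root_mem_leaves))
        · exact absurd (outs_leaves hz z.root_mem_leaves)
            (h2 ▸ Set.disjoint_left.1 hc.ok.2.2.1 (outs_leaves hz' z'.root_mem_leaves))
        · exact outs_root_inj hc.ok.2.1 hz hz' h2
      have hnG : ¬M.Good Φ ε L (wS w) id (pks Φ ε x y) u := fun hG => hng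
        ⟨disjoint_left.2 fun σ h2 h3 => hzw σ h3 (Finset.mem_coe.1 h2), hinj, hG⟩
      have h2 := hd ε hε x y w u J hc hun hzw hxw hinj hsu hu hue hnG
      rw [hX x left_mem_outs, hX y right_mem_outs]
      exact h2)
  have h2 := szB_pair_le (Φ := Φ) (ε := ε) hc.depth
  have h3 : szB (famP x y) [(x, y, sig Φ ε (node x y))] + 2 * Nb0 L J + 1 ≤ NQ L J := by
    unfold NQ
    have h4 : szB (famP x y) [(x, y, sig Φ ε (node x y))] = szB (famP x y) (ghP Φ ε x y) := rfl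
    omega
  exact h1.imp id (Or.imp (PrgC.mono le_rfl h3) (Or.imp (PrgO.mono le_rfl h3)
    (IrrO.mono le_rfl h3)))

theorem wqP_le_exp (hΦ : IsPotential Φ) (hε : 0 < ε) (hc : 0 < c) (x y : CTree) :
    wqP Φ ε x y ≤
      ENNReal.ofReal (2 * (1 + 1 / c)) * ENNReal.ofReal (Real.exp (c * enT (node x y))) := by
  have h1 := ln_sq_le_enT hΦ hε.ne' x
  have h1' := ln_sq_le_enT hΦ hε.ne' y
  have e : enT (node x y) = enT x + enT y := rfl
  unfold wqP
  rw [← ENNReal.ofReal_mul (by positivity)]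
  refine ENNReal.ofReal_le_ofReal ?_
  have h2 := one_add_le_exp hc (enT (node x y)) (enT_nonneg _)
  have h3 : 0 ≤ (1 + 1 / c) * Real.exp (c * enT (node x y)) := by positivity
  linarith

/-- **The lines of a colliding pair interact**: the exceptional term `ExcQ1`, from the deterministic
part. -/
theorem excQ1_of (h : GoodDatum f₀ κ₀) (hΦ : IsPotential Φ) (hb : 0 < b) (hM₀ : 0 ≤ M₀)
    (hf : ∀ z, f₀ z ≤ M₀ * Real.exp (-b * ‖z.2‖ ^ 2)) (hM₁ : 0 ≤ M₁)
    (hmarg : ∀ v, ∫⁻ x, ENNReal.ofReal (f₀ (x, v)) ≤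
      ENNReal.ofReal (M₁ * Real.exp (-b * ‖v‖ ^ 2)))
    (hT : 0 ≤ T) (L : ℕ) (hd : QDet hΦ L T) : ContExc.ExcQ1 hΦ f₀ L T := by
  have h1 := tendsto_XP (L := L) (c := b / 2) (g := fun ε x y => wqP Φ ε x y)
    (CW := ENNReal.ofReal (2 * (1 + 1 / (b / 2))))
    (bad := fun ε U x y => ∃ hε : 0 < ε, BadQ L hΦ hε T U x y) (N := fun J => NQ L J)
    (X := fun J => irrs hΦ T (NQ L J) 1) h hΦ hb (by positivity) (by linarith) hM₀ hf hM₁ hmarg
    hT (fun J => irrs_finite hΦ T _ 1)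
    (fun J r hr => irrs_small hΦ h.meas hM₁ hmarg (by linarith) hT hr) ENNReal.ofReal_ne_top
    (fun ε hε => measurable_wqP hΦ hε measurable_fst measurable_snd)
    (fun ε hε x y _ => wqP_le_exp hΦ hε (half_pos hb) x y)
    (fun ε hε => by
      have h2 := measurableSet_BadQ (L := L) (hΦ := hΦ) (hε := hε) T
      convert h2 using 1
      ext p
      exact ⟨fun ⟨_, h3⟩ => h3, fun h3 => ⟨hε, h3⟩⟩)
    (fun J ε hε hε1 S x y e hok hdp hsg l => by
      have h3 := ae_forall_notMem_wS (ε := ε) h hε.le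
        (A := (node x y).leaves ∪ msrc Φ ε (ext Φ ε) '' (outs x ∪ outs y))
        ((node x y).leaves_finite.union (((outs_finite x).union (outs_finite y)).image _))
      filter_upwards [h3] with w hw hc hbad
      obtain ⟨_, hbad⟩ := hbad
      rcases law_badQ hΦ hε hT hd e l (fun σ hσ => hw σ (Or.inl hσ))
        (fun z hz => hw _ (Or.inr ⟨z, hz, rfl⟩)) hc hbad J with ⟨σ, hσ, h4⟩ | h4 | h4 | h4
      · obtain ⟨z, hz, rfl⟩ := mem_pks_iff.1 hσ
        exact Or.inl ⟨z, hz, h4⟩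
      · exact Or.inr (Or.inl h4)
      · exfalso
        obtain ⟨n, hn, z, P, Rs, h5, h6, h7, h8, h9, -⟩ := h4
        have h10 : Rs = ∅ := Finset.card_eq_zero.1 (Nat.le_zero.1 h8)
        obtain ⟨σ, hσ⟩ := (S 0).leaves_nonempty
        obtain ⟨i, -⟩ := h6.trees 0 hσ
        obtain ⟨r, hr, -⟩ := h7.cov i
        rw [h10] at hr
        exact absurd hr (Finset.notMem_empty r)
      · exact Or.inr (Or.inr (h4.sbad hΦ hε)))
  intro ρ hρ
  filter_upwards [(ENNReal.tendsto_nhds_zero.1 h1) (ENNReal.ofReal ρ)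
    (ENNReal.ofReal_pos.2 hρ)] with ε hsm hε
  refine le_trans (mul_le_mul_right (XP_mono fun U x y _ => mul_le_mul_right
    (ind_mono fun h2 => ⟨hε, h2⟩) _) _) hsm

end Vale.Agent.P119.PB.XT
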