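import Vale.Agent.P119.PB.PairGood

/-!
# P119, block PROB: independent trees from the good event (`helper384`)

`lvF S`: the particles of the tree `S`, as one packet.  `U' = rm U S`.

* `square_of_good`, `not_rel_of_good`: if the packets of `K` and the packet `lvF S` do not interact
  over `U'` then `S` is independent of the difference of two worlds made of packets of `K`;
* `dep_of_good`: then the histories in a packet of `K` are the same with or without `S`;
* `indT_of_good`, `indP_of_good`: the conditions of independence of `relT` and `relP`.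
-/

open MeasureTheory Filter Topology Set
open scoped ENNReal NNReal

noncomputable section

namespace Vale.Agent.P119.PB

open M CTree KU FB RB AU TL

variable {Φ : E3 → ℝ} {ε : ℝ} {L : ℕ} {hΦ : IsPotential Φ} {hε : 0 < ε}
  {U V W : Finset Src} {x y z S T : CTree} {s t u ρ : ℝ} {a : Src}
  {K I J : Finset (Finset Src)} {A : Finset Src}

/-- The particles of `S`. -/
def lvF (S : CTree) : Finset Src := S.leaves_finite.toFinset

theorem mem_lvF : a ∈ lvF S ↔ a ∈ S.leaves := by
  unfold lvF
  rw [Set.Finite.mem_toFinset]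

theorem root_mem_lvF : S.root ∈ lvF S := mem_lvF.2 S.root_mem_leaves

theorem wF_lvF : wF U id {lvF S} = addT U S := by
  ext a
  rw [mem_wF, mem_addT]
  refine or_congr_right ⟨?_, fun h => ⟨_, Finset.mem_singleton_self _, mem_lvF.2 h⟩⟩
  rintro ⟨A, hA, ha⟩
  rw [Finset.mem_singleton.1 hA] at ha
  exact mem_lvF.1 ha

/-- The worlds with the tree `S`. -/
theorem wF_insert_lvF [DecidableEq (Finset Src)] (hS : S.leaves ⊆ (U : Set Src)) :
    wF (rm U S) id (insert (lvF S) I) = wF U id I := by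
  ext a
  rw [mem_wF, mem_wF, mem_rm]
  constructor
  · rintro (h | ⟨A, hA, ha⟩)
    · exact Or.inl h.1
    · rcases Finset.mem_insert.1 hA with rfl | hA
      · exact Or.inl (Finset.mem_coe.1 (hS (mem_lvF.1 ha)))
      · exact Or.inr ⟨A, hA, ha⟩
  · rintro (h | ⟨A, hA, ha⟩)
    · by_cases h2 : a ∈ S.leaves
      · exact Or.inr ⟨_, Finset.mem_insert_self _ _, mem_lvF.2 h2⟩
      · exact Or.inl ⟨h, h2⟩
    · exact Or.inr ⟨A, Finset.mem_insert_of_mem hA, ha⟩

/-- The worlds without the tree `S`. -/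
theorem rm_wF (hS : S.leaves ⊆ (U : Set Src)) (hI : ∀ A ∈ I, Disjoint U A) :
    rm (wF U id I) S = wF (rm U S) id I := by
  ext a
  rw [mem_rm, mem_wF, mem_wF, mem_rm]
  constructor
  · rintro ⟨h | h, h2⟩
    · exact Or.inl ⟨h, h2⟩
    · exact Or.inr h
  · rintro (h | ⟨A, hA, ha⟩)
    · exact ⟨Or.inl h.1, h.2⟩
    · exact ⟨Or.inr ⟨A, hA, ha⟩, fun h2 =>
        Finset.disjoint_left.1 (hI A hA) (Finset.mem_coe.1 (hS h2)) ha⟩

theorem lvF_not_mem (hS : S.leaves ⊆ (U : Set Src)) (hK : ∀ A ∈ K, Disjoint U A) :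
    lvF S ∉ K := fun h =>
  Finset.disjoint_left.1 (hK _ h) (Finset.mem_coe.1 (hS S.root_mem_leaves)) root_mem_lvF

/-- **Squares from the good event.** -/
theorem square_of_good [DecidableEq (Finset Src)] (hS : lvF S ∉ K) (hI : I ⊆ K) (hJ : J ⊆ K)
    (h : Good Φ ε L V id (insert (lvF S) K) t) :
    FB.Sys.Square (Y Φ ε L hΦ hε) (wF V id I) (wF V id J) (wF V id (insert (lvF S) I))
      (wF V id (insert (lvF S) J)) t :=
  square_of_cube (h.cube hΦ hε) (hI.trans (Finset.subset_insert _ _))
    (hJ.trans (Finset.subset_insert _ _)) (Finset.mem_insert_self _ _) (fun h => hS (hI h))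
    fun h => hS (hJ h)

/-- **A tree of the common world is independent of the difference of two worlds.** -/
theorem not_rel_of_good [DecidableEq (Finset Src)] (hS : S.leaves ⊆ (U : Set Src))
    (hK : ∀ A ∈ K, Disjoint U A) (hI : I ⊆ K) (hJ : J ⊆ K)
    (h : Good Φ ε L (rm U S) id (insert (lvF S) K) t) :
    ¬Rel L hΦ hε (wF U id I) (wF U id J) t S := by
  intro hR
  refine hR.rel ?_
  have key := square_of_good (hΦ := hΦ) (hε := hε) (lvF_not_mem hS hK) hI hJ h
  rwa [wF_insert_lvF hS, wF_insert_lvF hS, ← rm_wF hS fun A hA => hK A (hI hA),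
    ← rm_wF hS fun A hA => hK A (hJ hA)] at key

/-- **A property which needs a particle of the packet `A` is the same with or without the other
packets.** -/
theorem dep_of_good [DecidableEq (Finset Src)] {P : Finset (Finset Src) → Prop} (hP : Dep K P)
    (hA : A ∈ K) (hPA : ∀ J ⊆ K, P J → A ∈ J) (hJ : J ⊆ K) (h : P J) (hI : I ⊆ K) (hAI : A ∈ I) :
    P I := by
  obtain ⟨i, hi⟩ := hP
  have h0 : ¬P ∅ := fun h => Finset.notMem_empty A (hPA ∅ (Finset.empty_subset _) h)
  have h1 : i = A := by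
    rcases hi.const_or with h1 | ⟨h1, h2⟩
    · exact absurd ((h1 J ∅ hJ (Finset.empty_subset _)).1 h) h0
    · have h3 : P {i} := by
        by_contra hcon
        exact h2 ⟨fun h => absurd h h0, fun h => absurd h hcon⟩
      exact (Finset.mem_singleton.1 (hPA {i} (Finset.singleton_subset_iff.2 h1) h3)).symm
  subst h1
  exact (hi J I hJ hI (iff_of_true (hPA J hJ h) hAI)).1 h

/-- A tree with a particle in the packet `A` needs this packet. -/
theorem mem_of_leaf (h : Good Φ ε L V id K t) (hA : A ∈ K) (ha : a ∈ A) (haT : a ∈ T.leaves)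
    (hJ : J ⊆ K) (hT : T.leaves ⊆ (wF V id J : Set Src)) : A ∈ J :=
  h.idx (i := A) hA ha J hJ (hT haT)

section two

variable [DecidableEq (Finset Src)]

/-- The histories in the packet of `T` without `S`. -/
theorem alive_rm (hS : S.leaves ⊆ (U : Set Src)) (hT : Disjoint (U : Set Src) T.leaves)
    (h : Good Φ ε L (rm U S) id {lvF S, lvF T} t) (hΦ : IsPotential Φ) (hε : 0 < ε)
    {X : CTree} (hX : X.leaves ⊆ T.leaves) (hs : s ≤ t)
    (ha : alive Φ ε L (addT U T : Set Src) X s) :
    alive Φ ε L (rm (addT U T) S : Set Src) X s := by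
  have hne : Nonempty (Finset Src) := ⟨∅⟩
  have hT' : ∀ A ∈ ({lvF T} : Finset (Finset Src)), Disjoint U A := by
    intro A hA
    rw [Finset.mem_singleton.1 hA]
    exact Finset.disjoint_left.2 fun a h1 h2 =>
      disjoint_left.1 hT (Finset.mem_coe.2 h1) (mem_lvF.1 h2)
  have hmT : lvF T ∈ ({lvF S, lvF T} : Finset (Finset Src)) := by simp
  have e1 : wF (rm U S) id {lvF S, lvF T} = addT U T := by
    rw [← wF_lvF, ← wF_insert_lvF hS]
  have e2 : wF (rm U S) id {lvF T} = rm (addT U T) S := by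
    rw [← rm_wF hS hT', wF_lvF]
  have key := dep_of_good (P := fun J => alive Φ ε L (wF (rm U S) id J : Set Src) X s)
    (h.alive_dep hΦ hε X hs) hmT
    (fun J hJ hal => mem_of_leaf h hmT (mem_lvF.2 (hX X.root_mem_leaves)) X.root_mem_leaves hJ
      (alive_pre hal).sub) (Finset.Subset.refl _) (by rw [e1]; exact ha)
    (I := {lvF T}) (Finset.singleton_subset_iff.2 hmT) (Finset.mem_singleton_self _)
  rw [e2] at key
  exact key

theorem lives_rm (hS : S.leaves ⊆ (U : Set Src)) (hT : Disjoint (U : Set Src) T.leaves)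
    (h : Good Φ ε L (rm U S) id {lvF S, lvF T} t) (hΦ : IsPotential Φ) (hε : 0 < ε)
    {X : CTree} (hX : X.leaves ⊆ T.leaves) (hs : s ≤ t)
    (ha : lives Φ ε L (addT U T : Set Src) X s) :
    lives Φ ε L (rm (addT U T) S : Set Src) X s := by
  have hne : Nonempty (Finset Src) := ⟨∅⟩
  have hT' : ∀ A ∈ ({lvF T} : Finset (Finset Src)), Disjoint U A := by
    intro A hA
    rw [Finset.mem_singleton.1 hA]
    exact Finset.disjoint_left.2 fun a h1 h2 =>
      disjoint_left.1 hT (Finset.mem_coe.2 h1) (mem_lvF.1 h2)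
  have hmT : lvF T ∈ ({lvF S, lvF T} : Finset (Finset Src)) := by simp
  have e1 : wF (rm U S) id {lvF S, lvF T} = addT U T := by
    rw [← wF_lvF, ← wF_insert_lvF hS]
  have e2 : wF (rm U S) id {lvF T} = rm (addT U T) S := by
    rw [← rm_wF hS hT', wF_lvF]
  have key := dep_of_good (P := fun J => lives Φ ε L (wF (rm U S) id J : Set Src) X s)
    (h.lives_dep hΦ hε X hs) hmT
    (fun J hJ hal => mem_of_leaf h hmT (mem_lvF.2 (hX X.root_mem_leaves)) X.root_mem_leaves hJ
      hal.sub) (Finset.Subset.refl _) (by rw [e1]; exact ha)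
    (I := {lvF T}) (Finset.singleton_subset_iff.2 hmT) (Finset.mem_singleton_self _)
  rw [e2] at key
  exact key

/-- **The conditions of independence of `relT`.** -/
theorem indT_of_good (hS : S.leaves ⊆ (U : Set Src)) (hT : Disjoint (U : Set Src) T.leaves)
    (h : Good Φ ε L (rm U S) id {lvF S, lvF T} t) (hΦ : IsPotential Φ) (hε : 0 < ε)
    (hρ : ρ ≤ t) (ha : alive Φ ε L (addT U T : Set Src) T ρ)
    (hl : ρ = ext Φ ε T ∨ lives Φ ε L (addT U T : Set Src) T ρ) (hg : LGood Φ ε L (rm U S) T ρ t) :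
    IndT Φ ε L U T (addT U T) ρ t S :=
  ⟨hS, alive_rm hS hT h hΦ hε subset_rfl hρ ha,
    hl.imp id fun hl => lives_rm hS hT h hΦ hε subset_rfl hρ hl, hg⟩

/-- **The conditions of independence of `relP`.** -/
theorem indP_of_good (hS : S.leaves ⊆ (U : Set Src))
    (hT : Disjoint (U : Set Src) (node x y).leaves)
    (h : Good Φ ε L (rm U S) id {lvF S, lvF (node x y)} t) (hΦ : IsPotential Φ) (hε : 0 < ε)
    (hx : ext Φ ε x ≤ t) (hy : ext Φ ε y ≤ t)
    (ax : alive Φ ε L (addT U (node x y) : Set Src) x (ext Φ ε x))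
    (ay : alive Φ ε L (addT U (node x y) : Set Src) y (ext Φ ε y))
    (hg : PGood Φ ε L (rm U S) x y t) : IndP Φ ε L U x y t S :=
  ⟨hS, alive_rm hS hT h hΦ hε subset_union_left hx ax,
    alive_rm hS hT h hΦ hε subset_union_right hy ay, hg⟩

end two

end Vale.Agent.P119.PB
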