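import Vale.Agent.P119.PB.RelLim2
import Vale.Agent.P119.PB.ExcOne
import Vale.Agent.P119.PB.RelRed

/-!
# P119, block PROB: trees related to one real tree (`helper384`)

* `XX_rel_le`: **the number of the trees `R` which are related to an inserted tree `S`** is
  `o(μ²)` in mean, if the bad event of the two trees `S`, `R` has the outputs of `exc_lim_prog`
  for two trees and two classes (instance of `RelX.rel_lim` of `helper423`).
-/

open MeasureTheory Filter Topology Set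
open scoped ENNReal NNReal

noncomputable section

namespace Vale.Agent.P119.PB.XR

open M CTree KU FL FB RB AU TL GC IND PB.XT PB.RelX

variable {Φ : E3 → ℝ} {ε T : ℝ} {L : ℕ} {S : CTree}

/-! ### The lines and the leaves of a tree -/

/-- The particles and the lines of a tree. -/
def Bof (Φ : E3 → ℝ) (ε : ℝ) (S : CTree) : Finset Src := by
  classical
  exact srcs Φ ε S ∪ lvF S

theorem mem_Bof {a : Src} : a ∈ Bof Φ ε S ↔ a ∈ srcs Φ ε S ∨ a ∈ S.leaves := by
  classical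
  unfold Bof
  rw [Finset.mem_union, mem_lvF]

theorem card_srcs_le (hd : S.depth ≤ L) : (srcs Φ ε S).card ≤ 2 ^ (L + 2) := by
  classical
  have h1 : srcs Φ ε S ⊆ (partsF S).image (rsrc Φ ε) := by
    intro σ hσ
    obtain ⟨x, hx, rfl⟩ := mem_srcs.1 hσ
    refine Finset.mem_image.2 ⟨x, mem_partsF.2 ?_, rfl⟩
    rcases hx with h | h
    · rw [h]; exact self_mem_parts S
    · exact Or.inr h
  exact (Finset.card_le_card h1).trans (Finset.card_image_le.trans (XT.card_partsF_le hd))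

theorem card_lvF_le (hd : S.depth ≤ L) : (lvF S).card ≤ 2 ^ (L + 2) := by
  classical
  have h1 : lvF S ⊆ lab (partsF S) := by
    intro σ hσ
    rw [← Finset.mem_coe, lab_partsF]
    exact mem_lvF.1 hσ
  exact (Finset.card_le_card h1).trans ((card_lab_le _).trans (XT.card_partsF_le hd))

theorem card_Bof_le (hd : S.depth ≤ L) : (Bof Φ ε S).card ≤ 2 ^ (L + 3) := by
  classical
  unfold Bof
  have h1 := card_srcs_le (Φ := Φ) (ε := ε) hd
  have h2 := card_lvF_le hd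
  have h3 := Finset.card_union_le (srcs Φ ε S) (lvF S)
  have h4 : 2 ^ (L + 3) = 2 ^ (L + 2) + 2 ^ (L + 2) := by ring
  omega

theorem leaf_sq_le_enT {a : Src} : ∀ {S : CTree}, a ∈ S.leaves → ‖a.2.1.2‖ ^ 2 ≤ enT S
  | leaf _, h => by
    rw [show a = _ from h]
    exact le_rfl
  | node x y, h => by
    have hx := enT_nonneg x
    have hy := enT_nonneg y
    change _ ≤ enT x + enT y
    rcases h with h | h
    · have := leaf_sq_le_enT h
      linarith
    · have := leaf_sq_le_enT h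
      linarith

theorem EW_Bof_le (hΦ : IsPotential Φ) (hε : 0 < ε) (hd : S.depth ≤ L) :
    EW (Bof Φ ε S) ≤ (2 ^ (L + 3) : ℕ) * (1 + enT S) := by
  have h1 : ∀ a ∈ Bof Φ ε S, 1 + ‖a.2.1.2‖ ^ 2 ≤ 1 + enT S := by
    intro a ha
    rcases mem_Bof.1 ha with h | h
    · obtain ⟨x, hx, rfl⟩ := mem_srcs.1 h
      have h2 : ‖(ln Φ ε x).2‖ ^ 2 ≤ enT S := ln_sq_le_enT_outs hΦ hε.ne' hx
      change 1 + ‖(ln Φ ε x).2‖ ^ 2 ≤ _
      linarith
    · have := leaf_sq_le_enT h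
      linarith
  unfold EW
  refine (Finset.sum_le_sum h1).trans ?_
  rw [Finset.sum_const, nsmul_eq_mul]
  refine mul_le_mul_of_nonneg_right ?_ (by linarith [enT_nonneg S])
  exact_mod_cast card_Bof_le hd

/-! ### The related trees -/

open Classical in
/-- The lines of the trees, with their births. -/
def AlT (Φ : E3 → ℝ) (ε : ℝ) {m : ℕ} (T : Fin m → CTree) : Finset (ℝ × Ph) :=
  Finset.univ.biUnion fun j => Aln Φ ε (T j)

theorem mem_AlT {m : ℕ} {T : Fin m → CTree} {σ : ℝ × Ph} :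
    σ ∈ AlT Φ ε T ↔ ∃ j, ∃ x ∈ outs (T j), σ = (ext Φ ε x, ln Φ ε x) := by
  classical
  unfold AlT
  rw [Finset.mem_biUnion]
  constructor
  · rintro ⟨j, -, h⟩
    exact ⟨j, mem_Aln.1 h⟩
  · rintro ⟨j, h⟩
    exact ⟨j, Finset.mem_univ _, mem_Aln.2 h⟩

theorem card_AlT_le {m : ℕ} {T : Fin m → CTree} (hd : ∀ j, (T j).depth ≤ L) :
    (AlT Φ ε T).card ≤ m * 2 ^ (L + 2) := by
  classical
  unfold AlT
  refine Finset.card_biUnion_le.trans ((Finset.sum_le_sum fun j _ =>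
    card_Aln_le (Φ := Φ) (ε := ε) (hd j)).trans ?_)
  rw [Finset.sum_const, Finset.card_univ, Fintype.card_fin, smul_eq_mul]

section Lim

variable {f₀ : Ph → ℝ} {κ₀ b c M₀ M₁ : ℝ}

open Classical in
/-- **The number of the trees which are related to an inserted tree** is `o(μ²)` in mean. -/
theorem XX_rel_le (h : GoodDatum f₀ κ₀) (hΦ : IsPotential Φ) (hb : 0 < b) (hc : 0 ≤ c)
    (hcb : c ≤ b / 2) (hM₀ : 0 ≤ M₀) (hf : ∀ z, f₀ z ≤ M₀ * Real.exp (-b * ‖z.2‖ ^ 2))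
    (hM₁ : 0 ≤ M₁)
    (hmarg : ∀ v, ∫⁻ x, ENNReal.ofReal (f₀ (x, v)) ≤
      ENNReal.ofReal (M₁ * Real.exp (-b * ‖v‖ ^ 2)))
    (L : ℕ) (N : ℕ → ℕ) (hT : 0 ≤ T) {X : ℕ → Set Rln} (hX : ∀ J, (X J).Finite)
    (hXs : ∀ J, ∀ r ∈ X J, r.Small f₀ b (c + b / 8) 2) :
    ∃ Dl : ℝ → ℝ≥0∞, Tendsto Dl (𝓝[>] 0) (𝓝 0) ∧ ∀ (ε : ℝ) (hε : 0 < ε), ε ≤ 1 →
      ∀ g : CTree → ℝ≥0∞, Measurable g → ∀ CW : ℝ≥0∞, CW ≠ ∞ →
      (∀ S, CTree.ok Φ ε S → g S ≤ CW * ENNReal.ofReal (Real.exp (c * enT S))) →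
      ∀ K : Finset Src → CTree → ℝ≥0∞,
      (Measurable fun p : CTree × Conf Ph => K (wS (pts p.2)) p.1) →
      ∀ (W₂ : Finset Src → CTree → Finset Src) (P : Finset Src → CTree → CTree → Prop),
      (∀ U S, alT Φ ε L T U S → Disjoint S.leaves (U : Set Src) →
        K U S ≤ ∑' R : CTree, if P U S R then wln Φ ε R else 0) →
      (∀ U S R, alT Φ ε L T U S → P U S R →
        M.alive Φ ε L (W₂ U S : Set Src) R (ext Φ ε R) ∧ ext Φ ε R ≤ T) →
      (∀ U S, ∀ a ∈ W₂ U S, a ∈ U ∨ a ∈ Bof Φ ε S) →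
      ∀ Bad : CTree → Finset Src → CTree → Prop,
      MeasurableSet {p : (CTree × CTree) × Conf Ph | Bad p.1.1 (wS (pts p.2)) p.1.2} →
      ∀ Alt : Finset Src → CTree → Src → Prop,
      (∀ U S R, alT Φ ε L T U S → Disjoint S.leaves (U : Set Src) → P U S R →
        R.leaves ⊆ (U : Set Src) → (∃ a ∈ R.leaves, Alt U S a) ∨ Bad S (rm U R) R) →
      (∀ U S a, alT Φ ε L T U S → Disjoint S.leaves (U : Set Src) → a ∈ U → Alt U S a →
        Bad S (rm U (leaf a)) (leaf a)) →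
      (∀ J, ∀ (S : Fin 1 → CTree) (R : CTree) (l : Fin 0 → Src), OKt Φ ε L T (S 0) →
        OKt Φ ε L T R → Base Φ ε (Fin.snoc S R : Fin 2 → CTree) l → ∀ᵐ w ∂(PP f₀ ε),
        Bad (S 0) (wS (pts w)) R →
        (∃ x ∈ outs (S 0) ∪ outs R,
          HasClean hΦ hε.ne' L T (T + 1) J (wS (pts w)) (ext Φ ε x) (ln Φ ε x)) ∨
        PrgC Φ ε T 2 (N J) (Fin.snoc S R : Fin 2 → CTree) l (pts w) ∨
        PrgO Φ ε T 1 (N J) (Fin.snoc S R : Fin 2 → CTree) l (pts w) ∨
        SBad (X J) ε (Fin.snoc S R : Fin 2 → CTree) l (pts w)) →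
      (muE ε)⁻¹ * ((muE ε)⁻¹ * XX Φ ε L f₀ T (fun U S => g S * K U S)) ≤ CW * Dl ε := by
  classical
  obtain ⟨Dl, hDl, h1⟩ := rel_lim h hΦ hb hc hcb hM₀ hf hM₁ hmarg 1 0 L (2 * 2 ^ (L + 2))
    (2 ^ (L + 3)) 1 (2 ^ (L + 2)) N hT hX hXs
  refine ⟨Dl, hDl, ?_⟩
  intro ε hε hε1 g hg CW hCW hgb K hKm W₂ P hK hP hW₂ Bad hBm Alt hA1 hA2 hlaw
  have hfin : IsFiniteMeasure (inten f₀ ε) := isFiniteMeasure_inten h
  have hprob := isProbability_PP (ε := ε) h
  have h2 := h1 ε hε hε1 T T (T + 1) hT le_rfl le_rfl le_rfl (default : Fin 0 → ℝ)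
    (fun j => j.elim0) (default : Fin 0 → ℕ) (fun S _ => Wt Φ ε T L g (S 0))
    ((measurable_Wt hΦ hε hg).comp ((measurable_pi_apply 0).comp measurable_fst)) CW hCW
    (fun S l => by
      rw [enB_one]
      by_cases hS : Wt Φ ε T L g (S 0) = 0
      · rw [hS]; exact zero_le
      · refine le_trans ?_ (hgb (S 0) (Wt_ne_zero hS).1)
        unfold Wt
        calc _ ≤ 1 * g (S 0) := mul_le_mul_left (ind_le_one _) _
          _ = _ := one_mul _)
    (fun S l hS => base_one (Wt_ne_zero hS).1 _)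
    (fun S l hS => prgO_tree hΦ hε (Wt_ne_zero hS).1 (Wt_ne_zero hS).2.1 (Wt_ne_zero hS).2.2 _)
    (fun S _ => Bof Φ ε (S 0))
    (fun S l hS => by
      rw [enB_one]
      exact ⟨card_Bof_le (Wt_ne_zero hS).2.1, EW_Bof_le hΦ hε (Wt_ne_zero hS).2.1⟩)
    (fun S _ w => W₂ (wS (pts w)) (S 0))
    (fun S _ w R => (alT Φ ε L T (wS (pts w)) (S 0) ∧ Disjoint (S 0).leaves (wS (pts w) : Set Src)) ∧
      P (wS (pts w)) (S 0) R)
    (fun S l _ w R hPR => hP _ _ _ hPR.1.1 hPR.2)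
    (fun S l _ w a ha => hW₂ _ _ a ha)
    (fun S l _ w R hPR => ⟨fun j => by rw [Fin.fin_one_eq_zero j]; exact hPR.1.2,
      fun j => j.elim0⟩)
    (fun S _ V R => Bad (S 0) V R)
    (by
      have e : Measurable fun p : (((Fin 1 → CTree) × (Fin 0 → Ph)) × CTree) × Conf Ph =>
          (((p.1.1.1 0, p.1.2), p.2) : (CTree × CTree) × Conf Ph) :=
        ((((measurable_pi_apply 0).comp (measurable_fst.comp
          (measurable_fst.comp measurable_fst))).prodMk
          (measurable_snd.comp measurable_fst)).prodMk measurable_snd)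
      exact e hBm)
    (fun S _ w a => (alT Φ ε L T (wS (pts w)) (S 0) ∧
      Disjoint (S 0).leaves (wS (pts w) : Set Src)) ∧ Alt (wS (pts w)) (S 0) a)
    (fun S l _ w R hPR hR => (hA1 _ _ _ hPR.1.1 hPR.1.2 hPR.2 hR).imp
      (fun ⟨a, ha, ha'⟩ => ⟨a, ha, hPR.1, ha'⟩) id)
    (fun S l _ w a ha hA => hA2 _ _ _ hA.1.1 hA.1.2 ha hA.2)
    (fun S _ => AlT Φ ε S)
    (fun S l R hS hR hB => by
      obtain ⟨h9, h10, h11⟩ := Wt_ne_zero hS
      have hok : ∀ j, CTree.ok Φ ε ((Fin.snoc S R : Fin 2 → CTree) j) := hB.1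
      have hdj : ∀ j, ((Fin.snoc S R : Fin 2 → CTree) j).depth ≤ L ∧
          ext Φ ε ((Fin.snoc S R : Fin 2 → CTree) j) ≤ T := by
        intro j
        induction j using Fin.lastCases with
        | last => rw [Fin.snoc_last]; exact hR.2
        | cast j =>
          rw [Fin.snoc_castSucc, Fin.fin_one_eq_zero j]
          exact ⟨h10, h11⟩
      refine ⟨card_AlT_le fun j => (hdj j).1, fun σ hσ => ?_⟩
      obtain ⟨j, x, hx, rfl⟩ := mem_AlT.1 hσ
      refine ⟨ext_nonneg_of_ok hΦ hε (outs_ok hΦ (hok j) hx),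
        ((ext_outs_le hΦ hε (hok j) hx).trans (hdj j).2).trans (by linarith), ?_⟩
      refine (ln_sq_le_enT_outs hΦ hε.ne' hx).trans ?_
      unfold enB
      have h12 : enT ((Fin.snoc S R : Fin 2 → CTree) j) ≤
          ∑ j, enT ((Fin.snoc S R : Fin 2 → CTree) j) :=
        Finset.single_le_sum (f := fun j => enT ((Fin.snoc S R : Fin 2 → CTree) j))
          (fun j _ => enT_nonneg _) (Finset.mem_univ j)
      have h13 : 0 ≤ ∑ j : Fin 0, ‖(l j).2‖ ^ 2 := Finset.sum_nonneg fun j _ => sq_nonneg _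
      linarith)
    (fun J S l R hS hR hB => by
      obtain ⟨h9, h10, h11⟩ := Wt_ne_zero hS
      filter_upwards [hlaw J S R _ ⟨h9, h10, h11⟩ hR hB] with w hw hb'
      rcases hw hb' with ⟨x, hx, h12⟩ | h12
      · refine Or.inl ⟨(ext Φ ε x, ln Φ ε x), mem_AlT.2 ?_, ?_⟩
        · rcases hx with hx | hx
          · exact ⟨Fin.castSucc 0, x, by rw [Fin.snoc_castSucc]; exact hx, rfl⟩
          · exact ⟨Fin.last 1, x, by rw [Fin.snoc_last]; exact hx, rfl⟩
        · rw [coe_wS] at h12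
          exact h12
      · exact Or.inr h12)
  rw [XT.lintegral_pi_one] at h2
  simp only [lintegral_fin_zero, pow_zero, one_mul, Finset.univ_eq_empty, Finset.prod_empty] at h2
  -- the exchange of the integrals
  have hal : MeasurableSet {p : CTree × Conf Ph | alT Φ ε L T (wS (pts p.2)) p.1} :=
    measurableSet_alT' hΦ hε T
  have hm : Measurable fun p : CTree × Conf Ph => ind (alT Φ ε L T (wS (pts p.2)) p.1) *
      (g p.1 * K (wS (pts p.2)) p.1) :=
    (measurable_ind hal).mul ((hg.comp measurable_fst).mul hKm)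
  have h4 : XX Φ ε L f₀ T (fun U S => g S * K U S) ≤ CW * (muE ε ^ (1 + 1) * Dl ε) := by
    refine le_trans ?_ h2
    unfold XX
    rw [← lintegral_lintegral_swap hm.aemeasurable]
    refine lintegral_mono fun S => ?_
    by_cases hS : CTree.ok Φ ε S ∧ S.depth ≤ L ∧ ext Φ ε S ≤ T
    · have hg1 : g S ≠ ∞ := ne_top_of_le_ne_top
        (ENNReal.mul_ne_top hCW ENNReal.ofReal_ne_top) (hgb S hS.1)
      beta_reduce
      unfold Wt
      rw [ind_of hS, one_mul, ← lintegral_const_mul' _ _ hg1]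
      refine lintegral_mono_ae ?_
      filter_upwards [ae_forall_notMem_wS h hε.le S.leaves_finite] with w hw
      by_cases h6 : alT Φ ε L T (wS (pts w)) S
      · have h7 : Disjoint S.leaves (wS (pts w) : Set Src) :=
          disjoint_left.2 fun σ h1 h2 => hw σ h1 (Finset.mem_coe.1 h2)
        rw [ind_of h6, one_mul]
        refine mul_le_mul_right ((hK _ _ h6 h7).trans (le_of_eq ?_)) _
        refine tsum_congr fun R => ?_
        by_cases h8 : P (wS (pts w)) S R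
        · rw [if_pos h8, if_pos ⟨⟨h6, h7⟩, h8⟩]
        · rw [if_neg h8, if_neg fun h9 => h8 h9.2]
      · rw [ind_of_not h6, zero_mul]
        exact zero_le
    · refine le_of_eq_of_le (lintegral_congr (g := fun _ => 0) fun w => ?_)
        (by rw [lintegral_zero]; exact zero_le)
      have h6 : ¬alT Φ ε L T (wS (pts w)) S := fun h => hS ⟨h.ok, h.depth, h.ext_le⟩
      rw [ind_of_not h6, zero_mul]
  have hmu0 : muE ε ≠ 0 := (ENNReal.ofReal_pos.2 (GC.mu_pos hε)).ne'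
  calc (muE ε)⁻¹ * ((muE ε)⁻¹ * XX Φ ε L f₀ T (fun U S => g S * K U S))
      ≤ (muE ε)⁻¹ * ((muE ε)⁻¹ * (CW * (muE ε ^ (1 + 1) * Dl ε))) := by
        refine mul_le_mul_right (mul_le_mul_right h4 _) _
    _ = ((muE ε)⁻¹ * muE ε) * (((muE ε)⁻¹ * muE ε) * (CW * Dl ε)) := by ring
    _ = CW * Dl ε := by
        rw [ENNReal.inv_mul_cancel hmu0 muE_ne_top, one_mul, one_mul]

end Lim

end Vale.Agent.P119.PB.XR
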