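import Vale.Agent.P119.IND.ExcProg
import Vale.Agent.P119.IND.Base
import Vale.Agent.P119.IND.Conn
import Vale.Agent.P119.RM.Good
import Vale.Agent.P119.PB.Felt

/-!
# P119, block PROB: exceptional events of one real tree (`helper667`)

* `exists_base`: the base program of one tree, the labels are the leaves, the final sources are the
  sources `rsrc` of the particles;
* `prgO_tree`: the program of the base structure;
* `lintegral_pi_one`: the law of one tree;
* `tendsto_XX`: **the limit of the exceptional events of one tree** (`exc_lim_prog` of `helper228`).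
-/

open MeasureTheory Filter Topology Set
open scoped ENNReal NNReal

noncomputable section

namespace Vale.Agent.P119.PB.XT

open M CTree KU FL FB RB AU TL GC IND

variable {Φ : E3 → ℝ} {ε T : ℝ} {L : ℕ} {S : CTree}

/-! ### The base program of one tree -/

/-- The leaves of a tree, as a type. -/
abbrev Lf (S : CTree) : Type := {σ : Src // σ ∈ S.leaves}

instance finite_Lf (S : CTree) : Finite (Lf S) := S.leaves_finite.to_subtype

theorem card_partsF_le (hd : S.depth ≤ L) : (partsF S).card ≤ 2 ^ (L + 2) := by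
  have h1 : partsF S ⊆ pf S := fun P hP =>
    Finset.mem_coe.1 (parts_subset_pf S (mem_partsF.1 hP))
  have h2 := pf_card_le S
  have h3 : 2 ^ (S.depth + 2) ≤ 2 ^ (L + 2) := Nat.pow_le_pow_right (by norm_num) (by omega)
  exact (Finset.card_le_card h1).trans (by omega)

theorem card_Lf_le [Fintype (Lf S)] (hd : S.depth ≤ L) : Fintype.card (Lf S) ≤ 2 ^ (L + 2) := by
  classical
  refine le_trans ?_ (card_partsF_le hd)
  refine le_trans ?_ (card_lab_le (partsF S))
  rw [← Fintype.card_coe (lab (partsF S))]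
  refine Fintype.card_le_of_injective (fun σ : Lf S => (⟨σ.1, ?_⟩ : {σ // σ ∈ lab (partsF S)})) ?_
  · rw [← Finset.mem_coe, lab_partsF]
    exact σ.2
  · intro a b hab
    exact Subtype.ext (congrArg (fun c : {σ // σ ∈ lab (partsF S)} => c.1) hab)

theorem range_val (S : CTree) : range (Subtype.val : Lf S → Src) = S.leaves := by
  rw [Subtype.range_coe_subtype]
  rfl

/-- The final history of a particle. -/
def outOf (S : CTree) (k : Lf S) : CTree := (exists_out k.2).choose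

theorem outOf_mem (k : Lf S) : outOf S k ∈ outs S := (exists_out k.2).choose_spec.1

theorem outOf_root (k : Lf S) : (outOf S k).root = k.1 := (exists_out k.2).choose_spec.2

theorem outOf_eq (hS : CTree.ok Φ ε S) {k : Lf S} {x : CTree} (hx : x ∈ outs S)
    (hr : x.root = k.1) : outOf S k = x :=
  outs_root_inj hS (outOf_mem k) hx ((outOf_root k).trans hr.symm)

theorem exists_outOf (hS : CTree.ok Φ ε S) {x : CTree} (hx : x ∈ outs S) :
    ∃ k : Lf S, outOf S k = x :=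
  ⟨⟨x.root, outs_leaves hx x.root_mem_leaves⟩, outOf_eq hS hx rfl⟩

/-- **The base program of one tree.** -/
theorem exists_base (hΦ : IsPotential Φ) (hε : 0 < ε) [DecidableEq (Lf S)]
    (hS : CTree.ok Φ ε S) (hT : ext Φ ε S ≤ T) (hinj : InjOn (rsrc Φ ε) (outs S)) :
    ∃ Q : List (Ev (Lf S) × ℝ), BaseP Φ ε T Subtype.val (fun k => rsrc Φ ε (outOf S k)) ∅ Q ∧
      2 * Q.length = (nl (partsF S)).card ∧ (∀ i k, Jn Q i k) ∧
      ∀ k, finB Φ ε Q (fun i : Lf S => i.1.1) (fun i => i.1.2.1) k =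
        (rsrc Φ ε (outOf S k)).1 := by
  obtain ⟨Q, h1, h2, h3, h4⟩ := BaseP.of_tree hΦ hε hS hT (κ := Lf S) (z := Subtype.val)
    (x := fun k => rsrc Φ ε (outOf S k)) Subtype.val_injective (range_val S)
    (fun k => ⟨outOf S k, outOf_mem k, outOf_root k, rfl, le_rfl⟩) (fun i k h => by
      have h5 := hinj (outOf_mem i) (outOf_mem k) h
      exact Subtype.ext ((outOf_root i).symm.trans ((congrArg CTree.root h5).trans (outOf_root k))))
  exact ⟨Q, h1, h2, h3, fun k => h4 k (outOf S k) (outOf_mem k) (outOf_root k)⟩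

theorem base_one {S : Fin 1 → CTree} (hS : CTree.ok Φ ε (S 0)) (l : Fin 0 → Src) :
    Base Φ ε S l := by
  refine ⟨fun j => ?_, fun i j hij => absurd (Subsingleton.elim i j) hij, fun j => j.elim0,
    fun i j => j.elim0⟩
  rw [Fin.fin_one_eq_zero j]
  exact hS

/-- **The program of the base structure.** -/
theorem prgO_tree (hΦ : IsPotential Φ) (hε : 0 < ε) {S : Fin 1 → CTree}
    (hS : CTree.ok Φ ε (S 0)) (hd : (S 0).depth ≤ L) (hT : ext Φ ε (S 0) ≤ T)
    (l : Fin 0 → Src) : PrgO Φ ε T 1 (2 ^ (L + 2)) S l ∅ := by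
  classical
  have : Fintype (Lf (S 0)) := Fintype.ofFinite _
  set e := Fintype.equivFin (Lf (S 0)) with he
  obtain ⟨Q, h1, h2, h3, -⟩ := BaseP.of_tree hΦ hε hS hT (κ := Lf (S 0)) (z := Subtype.val)
    (x := fun k => (ext Φ ε (outOf (S 0) k), ln Φ ε (outOf (S 0) k), (e k : ℕ)))
    Subtype.val_injective (range_val (S 0))
    (fun k => ⟨outOf (S 0) k, outOf_mem k, outOf_root k, rfl, le_rfl⟩) (fun i k h => by
      simp only [Prod.mk.injEq] at h
      exact e.injective (Fin.ext h.2.2))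
  have hlen : Q.length ≤ 2 ^ (L + 2) := by
    have h4 := card_nl_le (partsF (S 0))
    have h5 := card_partsF_le hd
    omega
  refine PrgO.of_connected (ι := Lf (S 0)) (z := Subtype.val) (P := Q.map Prod.fst) one_pos
    (base_one hS l) (card_Lf_le hd) (by rw [List.length_map]; exact hlen) ?_
    (fun i k => (jn_pl T Q).2 (h3 i k)) (h1.run.run hΦ hε h1.nonneg)
  refine ⟨Subtype.val_injective, fun i => Or.inl ⟨0, i.2⟩, fun j => ?_, fun j => j.elim0⟩
  rw [range_val, Fin.fin_one_eq_zero j]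


/-! ### The law of one tree -/

theorem lintegral_pi_one {X : Type*} [MeasurableSpace X] (μ : Measure X)
    (f : (Fin 1 → X) → ℝ≥0∞) :
    ∫⁻ T, f T ∂(Measure.pi fun _ : Fin 1 => μ) = ∫⁻ S, f (fun _ => S) ∂μ :=
  (measurePreserving_funUnique μ (Fin 1)).symm.lintegral_map_equiv f _

theorem lintegral_fin_zero (f : (Fin 0 → Ph) → ℝ≥0∞) : ∫⁻ l : Fin 0 → Ph, f l = f default := by
  rw [lintegral_unique, volume_pi, Measure.pi_of_empty]
  have h1 : ∀ a : Fin 0 → Ph, f a = f default := fun a => congrArg f (Subsingleton.elim _ _)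
  rw [h1]
  simp

/-- The energy of the base structure. -/
theorem enB_one (S : Fin 1 → CTree) (l : Fin 0 → Ph) : enB S l = enT (S 0) := by
  unfold enB
  simp

section Lim

variable {f₀ : Ph → ℝ} {κ₀ b c M₀ M₁ : ℝ} {g : ℝ → CTree → ℝ≥0∞} {CW : ℝ≥0∞}
  {bad : ℝ → Finset Src → CTree → Prop} {N : ℕ → ℕ} {X : ℕ → Set Rln}

/-- The lines of the particles of a tree, with their births. -/
def Aln (Φ : E3 → ℝ) (ε : ℝ) (S : CTree) : Finset (ℝ × Ph) := by
  classical
  exact (srcs Φ ε S).image fun a => (a.1, a.2.1)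

theorem mem_Aln {σ : ℝ × Ph} :
    σ ∈ Aln Φ ε S ↔ ∃ x ∈ outs S, σ = (ext Φ ε x, ln Φ ε x) := by
  classical
  unfold Aln
  rw [Finset.mem_image]
  constructor
  · rintro ⟨a, ha, rfl⟩
    obtain ⟨x, hx, rfl⟩ := mem_srcs.1 ha
    exact ⟨x, hx, rfl⟩
  · rintro ⟨x, hx, rfl⟩
    exact ⟨_, mem_srcs.2 ⟨x, hx, rfl⟩, rfl⟩

theorem card_Aln_le (hd : S.depth ≤ L) : (Aln Φ ε S).card ≤ 2 ^ (L + 2) := by
  classical
  have h1 : Aln Φ ε S ⊆ (partsF S).image fun x => (ext Φ ε x, ln Φ ε x) := by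
    intro σ hσ
    obtain ⟨x, hx, rfl⟩ := mem_Aln.1 hσ
    refine Finset.mem_image.2 ⟨x, mem_partsF.2 ?_, rfl⟩
    rcases hx with h | h
    · rw [h]; exact self_mem_parts S
    · exact Or.inr h
  exact (Finset.card_le_card h1).trans (Finset.card_image_le.trans (card_partsF_le hd))

theorem ext_nonneg_of_ok (hΦ : IsPotential Φ) (hε : 0 < ε) {x : CTree} (hx : CTree.ok Φ ε x) :
    0 ≤ ext Φ ε x := by
  have h1 := birth_of_ok hx x.root x.root_mem_leaves
  exact h1.trans ((root_birth_le_sig hΦ hε hx).trans (sig_le_ext hΦ hε hx))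

theorem ext_outs_le (hΦ : IsPotential Φ) (hε : 0 < ε) (hS : CTree.ok Φ ε S) {x : CTree}
    (hx : x ∈ outs S) : ext Φ ε x ≤ ext Φ ε S := by
  rcases hx with h | h
  · rw [h]
  · obtain ⟨a, b, h1, rfl⟩ := exs_iff.1 h
    rw [ext_swap hΦ a b]
    exact h1.ext_le hΦ hε hS

/-- The weight of one tree. -/
def Wt (Φ : E3 → ℝ) (ε T : ℝ) (L : ℕ) (g : CTree → ℝ≥0∞) (S : CTree) : ℝ≥0∞ :=
  ind (CTree.ok Φ ε S ∧ S.depth ≤ L ∧ ext Φ ε S ≤ T) * g S

theorem measurable_Wt (hΦ : IsPotential Φ) (hε : 0 < ε) {g : CTree → ℝ≥0∞}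
    (hg : Measurable g) : Measurable (Wt Φ ε T L g) := by
  unfold Wt
  refine (measurable_ind ?_).mul hg
  exact (measurableSet_ok hΦ hε.ne').inter ((measurable_depth measurableSet_Iic).inter
    (measurableSet_le (measurable_ext hΦ hε.ne') measurable_const))

theorem Wt_ne_zero {g : CTree → ℝ≥0∞} (h : Wt Φ ε T L g S ≠ 0) :
    CTree.ok Φ ε S ∧ S.depth ≤ L ∧ ext Φ ε S ≤ T := by
  by_contra hcon
  unfold Wt at h
  rw [ind_of_not hcon, zero_mul] at h
  exact h rfl

/-- **The exceptional events of one tree.** -/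
theorem tendsto_XX (h : GoodDatum f₀ κ₀) (hΦ : IsPotential Φ) (hb : 0 < b) (hc : 0 ≤ c)
    (hcb : c + b / 4 < b) (hM₀ : 0 ≤ M₀) (hf : ∀ z, f₀ z ≤ M₀ * Real.exp (-b * ‖z.2‖ ^ 2))
    (hM₁ : 0 ≤ M₁)
    (hmarg : ∀ v, ∫⁻ x, ENNReal.ofReal (f₀ (x, v)) ≤
      ENNReal.ofReal (M₁ * Real.exp (-b * ‖v‖ ^ 2)))
    (hT : 0 ≤ T) (hX : ∀ J, (X J).Finite) (hXs : ∀ J, ∀ r ∈ X J, r.Small f₀ b c 1)
    (hCW : CW ≠ ∞) (hg : ∀ ε, 0 < ε → Measurable (g ε))
    (hgb : ∀ ε, 0 < ε → ∀ S, CTree.ok Φ ε S → g ε S ≤ CW * ENNReal.ofReal (Real.exp (c * enT S)))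
    (hbm : ∀ ε, 0 < ε → MeasurableSet {p : CTree × Conf Ph | bad ε (wS (pts p.2)) p.1})
    (hbad : ∀ J, ∀ (ε : ℝ) (hε : 0 < ε), ε ≤ 1 → ∀ S : Fin 1 → CTree, CTree.ok Φ ε (S 0) →
      (S 0).depth ≤ L → ext Φ ε (S 0) ≤ T → ∀ l : Fin 0 → Src, ∀ᵐ w ∂(PP f₀ ε),
      alT Φ ε L T (wS (pts w)) (S 0) → bad ε (wS (pts w)) (S 0) →
      (∃ x ∈ outs (S 0), HasClean hΦ hε.ne' L T (T + 1) J (wS (pts w)) (ext Φ ε x) (ln Φ ε x)) ∨
        PrgC Φ ε T 1 (N J) S l (pts w) ∨ SBad (X J) ε S l (pts w)) :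
    Tendsto (fun ε => (muE ε)⁻¹ * XX Φ ε L f₀ T (fun U S => g ε S * ind (bad ε U S)))
      (𝓝[>] 0) (𝓝 0) := by
  obtain ⟨Dl, hDl, h1⟩ := exc_lim_prog h hΦ hb hc hcb hM₀ hf hM₁ hmarg 1 0 L (2 ^ (L + 2)) 1
    (2 ^ (L + 2)) one_pos N hT hX hXs
  have h2 : Tendsto (fun ε => CW * Dl ε) (𝓝[>] 0) (𝓝 0) := by
    have h3 := ENNReal.Tendsto.const_mul (a := CW) hDl (Or.inr hCW)
    rwa [mul_zero] at h3
  have hev : ∀ᶠ ε : ℝ in 𝓝[>] 0, ε ≤ 1 :=
    (eventually_nhdsWithin_of_eventually_nhds (eventually_le_nhds one_pos))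
  refine tendsto_of_tendsto_of_tendsto_of_le_of_le' tendsto_const_nhds h2
    (Eventually.of_forall fun _ => zero_le) ?_
  filter_upwards [self_mem_nhdsWithin, hev] with ε hε hε1
  rw [mem_Ioi] at hε
  have hfin : IsFiniteMeasure (inten f₀ ε) := isFiniteMeasure_inten h
  have hprob := isProbability_PP (ε := ε) h
  -- the measurability
  have hal : MeasurableSet {p : CTree × Conf Ph | alT Φ ε L T (wS (pts p.2)) p.1} :=
    measurableSet_alT' hΦ hε T
  have hbm' : MeasurableSet {p : CTree × Conf Ph | alT Φ ε L T (wS (pts p.2)) p.1 ∧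
      bad ε (wS (pts p.2)) p.1} := hal.inter (hbm ε hε)
  have hm : Measurable fun p : CTree × Conf Ph => ind (alT Φ ε L T (wS (pts p.2)) p.1) *
      (g ε p.1 * ind (bad ε (wS (pts p.2)) p.1)) :=
    (measurable_ind hal).mul (((hg ε hε).comp measurable_fst).mul (measurable_ind (hbm ε hε)))
  -- the exchange of the integrals
  have h4 : XX Φ ε L f₀ T (fun U S => g ε S * ind (bad ε U S)) =
      ∫⁻ S, Wt Φ ε T L (g ε) S * (PP f₀ ε) {w | alT Φ ε L T (wS (pts w)) S ∧
        bad ε (wS (pts w)) S} ∂(tree (inten f₀ ε) L) := by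
    unfold XX
    rw [← lintegral_lintegral_swap hm.aemeasurable]
    refine lintegral_congr fun S => ?_
    have h5 : MeasurableSet {w : Conf Ph | alT Φ ε L T (wS (pts w)) S ∧
        bad ε (wS (pts w)) S} :=
      (measurable_const.prodMk measurable_id : Measurable fun w : Conf Ph => (S, w)) hbm'
    rw [← lintegral_indicator_one h5, ← lintegral_const_mul _ (measurable_one.indicator h5)]
    refine lintegral_congr fun w => ?_
    beta_reduce
    by_cases h6 : alT Φ ε L T (wS (pts w)) S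
    · by_cases h7 : bad ε (wS (pts w)) S
      · rw [indicator_of_mem (show w ∈ {w : Conf Ph | alT Φ ε L T (wS (pts w)) S ∧
          bad ε (wS (pts w)) S} from ⟨h6, h7⟩)]
        unfold Wt
        rw [ind_of h6, ind_of h7, ind_of ⟨h6.ok, h6.depth, h6.ext_le⟩]
        simp
      · rw [indicator_of_notMem (fun h => h7 h.2), ind_of_not h7]
        simp
    · rw [indicator_of_notMem (fun h => h6 h.1), ind_of_not h6]
      simp
  have h8 := h1 ε hε hε1 T (T + 1) le_rfl le_rfl (default : Fin 0 → ℝ) (fun j => j.elim0)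
    (default : Fin 0 → ℕ) (fun S _ => Wt Φ ε T L (g ε) (S 0))
    ((measurable_Wt hΦ hε (hg ε hε)).comp ((measurable_pi_apply 0).comp measurable_fst)) CW hCW
    (fun S l => by
      rw [enB_one]
      by_cases hS : Wt Φ ε T L (g ε) (S 0) = 0
      · rw [hS]; exact zero_le
      · refine le_trans ?_ (hgb ε hε (S 0) (Wt_ne_zero hS).1)
        unfold Wt
        calc _ ≤ 1 * g ε (S 0) := mul_le_mul_left (ind_le_one _) _
          _ = _ := one_mul _)
    (fun S l hS => base_one (Wt_ne_zero hS).1 _)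
    (fun S l hS => prgO_tree hΦ hε (Wt_ne_zero hS).1 (Wt_ne_zero hS).2.1 (Wt_ne_zero hS).2.2 _)
    (fun S _ => Aln Φ ε (S 0))
    (fun S l hS => by
      obtain ⟨h9, h10, h11⟩ := Wt_ne_zero hS
      refine ⟨card_Aln_le h10, fun σ hσ => ?_⟩
      obtain ⟨x, hx, rfl⟩ := mem_Aln.1 hσ
      refine ⟨ext_nonneg_of_ok hΦ hε (outs_ok hΦ h9 hx),
        ((ext_outs_le hΦ hε h9 hx).trans h11).trans (by linarith), ?_⟩
      rw [enB_one]
      exact ln_sq_le_enT_outs hΦ hε.ne' hx)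
    (fun S _ w => alT Φ ε L T (wS (pts w)) (S 0) ∧ bad ε (wS (pts w)) (S 0))
    (fun J S l hS => by
      obtain ⟨h9, h10, h11⟩ := Wt_ne_zero hS
      filter_upwards [hbad J ε hε hε1 S h9 h10 h11 (lns default default l)] with w hw hb'
      rcases hw hb'.1 hb'.2 with ⟨x, hx, h12⟩ | h12 | h12
      · refine Or.inl ⟨(ext Φ ε x, ln Φ ε x), mem_Aln.2 ⟨x, hx, rfl⟩, ?_⟩
        rw [coe_wS] at h12
        exact h12
      · exact Or.inr (Or.inl h12)
      · exact Or.inr (Or.inr (Or.inr h12)))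
  rw [lintegral_pi_one] at h8
  simp only [lintegral_fin_zero, pow_zero, one_mul, Finset.univ_eq_empty, Finset.prod_empty,
    pow_one] at h8
  rw [h4]
  refine (mul_le_mul_right h8 _).trans (le_of_eq ?_)
  rw [mul_left_comm, ← mul_assoc (muE ε)⁻¹, ENNReal.inv_mul_cancel, one_mul]
  · exact (ENNReal.ofReal_pos.2 (GC.mu_pos hε)).ne'
  · exact muE_ne_top

end Lim

end Vale.Agent.P119.PB.XT
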