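import Vale.Agent.P119.PB.Exh

/-!
# P119, block PROB: sums over the exhausts of alive trees, final form (`helper776`)
-/

open MeasureTheory Set Filter Topology Metric ProbabilityTheory
open scoped ENNReal

namespace Vale.Agent.P119.PB.EX

open KU FL M CTree

variable {Φ : E3 → ℝ} {ε : ℝ}

/-! ### Constants -/

/-- The sum of the masses of the spines. -/
noncomputable def Sx (x : ℝ) : ℝ≥0∞ := ∑' k : ℕ, ENNReal.ofReal (x ^ k / √(k.factorial : ℝ))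

theorem Sx_ne_top {x : ℝ} (hx : 0 ≤ x) : Sx x ≠ ∞ := by
  have h1 : ∀ k : ℕ, x ^ k / √(k.factorial : ℝ) ≤ √(Real.exp ((2 * x) ^ 2)) * (1 / 2) ^ k := by
    intro k
    have hf : (0 : ℝ) < k.factorial := by exact_mod_cast Nat.factorial_pos k
    have h2 : ((2 * x) ^ 2) ^ k / k.factorial ≤ Real.exp ((2 * x) ^ 2) :=
      Real.pow_div_factorial_le_exp _ (by positivity) k
    have h3 : (2 * x) ^ k / √(k.factorial : ℝ) = √(((2 * x) ^ 2) ^ k / k.factorial) := by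
      rw [Real.sqrt_div (by positivity), ← pow_mul, mul_comm 2 k, pow_mul,
        Real.sqrt_sq (pow_nonneg (by positivity) k)]
    have h4 : (2 * x) ^ k / √(k.factorial : ℝ) ≤ √(Real.exp ((2 * x) ^ 2)) := by
      rw [h3]; exact Real.sqrt_le_sqrt h2
    calc x ^ k / √(k.factorial : ℝ) = (2 * x) ^ k / √(k.factorial : ℝ) * (1 / 2) ^ k := by
          rw [div_mul_eq_mul_div, ← mul_pow]
          congr 2
          ring
      _ ≤ _ := by gcongr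
  have hs : Summable fun k : ℕ => √(Real.exp ((2 * x) ^ 2)) * ((1 : ℝ) / 2) ^ k :=
    (summable_geometric_of_lt_one (by norm_num) (by norm_num)).mul_left _
  unfold Sx
  refine ne_top_of_le_ne_top hs.tsum_ofReal_ne_top (ENNReal.tsum_le_tsum fun k => ?_)
  exact ENNReal.ofReal_le_ofReal (h1 k)

/-- The crude depth measure. -/
noncomputable def cL (L : ℕ) : Measure ℕ := ∑ d ∈ Finset.range (L + 1), Measure.dirac d

instance (L : ℕ) : IsFiniteMeasure (cL L) := by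
  unfold cL
  infer_instance

/-- From the exponent `b` with a weight to the exponent `b / 2`. -/
theorem weight_le {b A : ℝ} (hA : 0 ≤ A) (T : ℝ) (κ : Measure ℕ) [SFinite κ] {w : E3 → ℝ≥0∞}
    (hw : ∀ v, w v ≤ ENNReal.ofReal (A * Real.exp (b / 2 * ‖v‖ ^ 2)))
    {G : Src → ℝ≥0∞} (hG : Measurable G) :
    ∫⁻ s, (∫⁻ z : Ph, gw b z.2 * (w z.2 * ∫⁻ n, G (s, z, n) ∂κ)) ∂(tm T) ≤
      ENNReal.ofReal A * ∫⁻ σ, G σ ∂(refM (b / 2) T κ) := by
  rw [lintegral_refM _ _ _ hG, ← lintegral_const_mul' _ _ ENNReal.ofReal_ne_top]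
  refine lintegral_mono fun s => ?_
  rw [← lintegral_const_mul' _ _ ENNReal.ofReal_ne_top]
  refine lintegral_mono fun z => ?_
  rw [← mul_assoc, ← mul_assoc]
  refine mul_le_mul' ?_ le_rfl
  calc gw b z.2 * w z.2 ≤ gw b z.2 * ENNReal.ofReal (A * Real.exp (b / 2 * ‖z.2‖ ^ 2)) := by
        gcongr; exact hw _
    _ = _ := by
        unfold gw
        rw [← ENNReal.ofReal_mul (Real.exp_nonneg _), ← ENNReal.ofReal_mul hA]
        congr 1
        calc Real.exp (-b * ‖z.2‖ ^ 2) * (A * Real.exp (b / 2 * ‖z.2‖ ^ 2))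
            = A * (Real.exp (-b * ‖z.2‖ ^ 2) * Real.exp (b / 2 * ‖z.2‖ ^ 2)) := by ring
          _ = _ := by rw [← Real.exp_add]; congr 2; ring

/-- The typical part of the last node. -/
theorem typ_node_le (hΦ : IsPotential Φ) (hε : 0 < ε) {b t : ℝ} (hb : 0 < b) (ht : 0 ≤ t)
    (κ : Measure ℕ) [SFinite κ] {g G : Src → ℝ≥0∞} (hG : Measurable G) {A A₁ : ℝ} (hA : 0 ≤ A)
    (hA₁ : 0 ≤ A₁) (h₁ : ∀ x : ℝ, 0 ≤ x → 1 + x ≤ A₁ * Real.exp (b / 2 * x ^ 2))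
    (hg : ∀ σ : Src, σ.1 ∈ Icc 0 t → g σ ≤
      ENNReal.ofReal (A * Real.exp (b / 2 * ‖σ.2.1.2‖ ^ 2))) :
    muE ε * ∫⁻ σ, ∫⁻ σ', kf Φ ε t g (σ, σ') * G (nd Φ ε (σ', σ)) ∂(refM b t κ) ∂(refM b t κ) ≤
      ENNReal.ofReal A * (ENNReal.ofReal (1 + t) * ENNReal.ofReal (1 + t) *
        (ENNReal.ofReal Real.pi * I0 (b / 2)) * ENNReal.ofReal A₁ *
        ∫⁻ σ, G σ ∂(refM (b / 2) t (kap κ))) := by
  have hκ : SFinite (kap κ) := by unfold kap; infer_instance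
  have h2 := main_node hΦ hε hb ht κ hG hA hg
  have h3 : ∫⁻ τ in Ioc 0 t, ∫⁻ z : Ph, gw b z.2 * ENNReal.ofReal (1 + ‖z.2‖) *
      ∫⁻ n, G (τ, z, n) ∂(kap κ) ≤ ENNReal.ofReal A₁ * ∫⁻ σ, G σ ∂(refM (b / 2) t (kap κ)) := by
    have h4 := weight_le (b := b) hA₁ t (kap κ) (w := fun v => ENNReal.ofReal (1 + ‖v‖))
      (fun v => ENNReal.ofReal_le_ofReal (h₁ _ (norm_nonneg v))) hG
    refine le_trans ?_ h4
    have h5 : volume.restrict (Ioc 0 t) ≤ tm t := by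
      unfold tm
      exact (Measure.restrict_mono Ioc_subset_Icc_self le_rfl).trans (Measure.le_add_left le_rfl)
    refine lintegral_mono' h5 fun s => lintegral_mono fun z => ?_
    rw [mul_assoc]
  calc muE ε * ∫⁻ σ, ∫⁻ σ', kf Φ ε t g (σ, σ') * G (nd Φ ε (σ', σ)) ∂(refM b t κ) ∂(refM b t κ)
      ≤ muE ε * (ENNReal.ofReal (1 + t) * (ENNReal.ofReal (1 + t) * (ENNReal.ofReal A *
        (ENNReal.ofReal (ε ^ 2) * (ENNReal.ofReal Real.pi * I0 (b / 2)) *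
        (ENNReal.ofReal A₁ * ∫⁻ σ, G σ ∂(refM (b / 2) t (kap κ))))))) := by
        gcongr
        exact h2.trans (by gcongr)
    _ = (muE ε * ENNReal.ofReal (ε ^ 2)) * (ENNReal.ofReal A * (ENNReal.ofReal (1 + t) *
        ENNReal.ofReal (1 + t) * (ENNReal.ofReal Real.pi * I0 (b / 2)) * ENNReal.ofReal A₁ *
        ∫⁻ σ, G σ ∂(refM (b / 2) t (kap κ)))) := by ring
    _ = _ := by rw [muE_mul hε, one_mul]

/-- The constants of the polynomial bounds of the iterates. -/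
noncomputable def Pk (b t N : ℝ) (q k : ℕ) : ℝ≥0∞ :=
  ∏ i ∈ Finset.range k, (ENNReal.ofReal N * (ENNReal.ofReal (2 * Real.pi * t) * Jp b (q + i)))

theorem Pk_ne_top {b : ℝ} (hb : 0 < b) (t N : ℝ) (q k : ℕ) : Pk b t N q k ≠ ∞ :=
  ENNReal.prod_ne_top fun _ _ => ENNReal.mul_ne_top ENNReal.ofReal_ne_top
    (ENNReal.mul_ne_top ENNReal.ofReal_ne_top (Jp_ne_top hb _))

/-- The weight `(1 + |v|)^q`. -/
noncomputable def vp (q : ℕ) (σ : Src) : ℝ≥0∞ := ENNReal.ofReal ((1 + ‖σ.2.1.2‖) ^ q)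

theorem measurable_vp (q : ℕ) : Measurable (vp q) := by
  unfold vp
  refine ENNReal.measurable_ofReal.comp (Measurable.pow_const (Measurable.const_add ?_ _) _)
  exact measurable_norm.comp (measurable_snd.comp (measurable_fst.comp measurable_snd))

theorem vp_mono {q q' : ℕ} (h : q ≤ q') (σ : Src) : vp q σ ≤ vp q' σ := by
  unfold vp
  apply ENNReal.ofReal_le_ofReal
  exact pow_le_pow_right₀ (by linarith [norm_nonneg σ.2.1.2]) h

theorem lintegral_Qm_poly (hΦ : IsPotential Φ) (hε : 0 < ε) {β t : ℝ} (ht : 0 ≤ t)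
    (κ : Measure ℕ) [IsFiniteMeasure κ] {g : Src → ℝ≥0∞} (hgm : Measurable g) {P : ℝ≥0∞}
    {p p' : ℕ} (hp : p + 1 ≤ p') (hg : ∀ σ : Src, σ.1 ∈ Icc 0 t → g σ ≤ P * vp p σ)
    (aty : Measure Src) :
    ∫⁻ σ, Qm Φ ε t (refM β t κ) g σ ∂aty ≤ ENNReal.ofReal (1 + t) * κ univ *
      (P * (ENNReal.ofReal (2 * Real.pi * t) * Jp β p)) * ∫⁻ σ, vp p' σ ∂aty := by
  rw [← lintegral_const_mul _ (measurable_vp p')]
  refine lintegral_mono fun σ => ?_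
  refine (one_step_poly hΦ hε ht κ hgm p hg σ).trans ?_
  gcongr
  exact vp_mono hp σ

theorem iter_vp (hΦ : IsPotential Φ) (hε : 0 < ε) {b t N : ℝ} (ht : 0 ≤ t)
    (κ : Measure ℕ) [IsFiniteMeasure κ] (hN : ENNReal.ofReal (1 + t) * κ univ ≤ ENNReal.ofReal N)
    (q k : ℕ) (σ : Src) (hσ : σ.1 ∈ Icc 0 t) :
    (Qm Φ ε t (refM b t κ))^[k] (vp q) σ ≤ Pk b t N q k * vp (q + k) σ := by
  have h1 := iter_poly (β := b) hΦ hε ht κ (measurable_vp q) (A := 1) q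
    (fun σ _ => by rw [one_mul]; exact le_rfl) k σ hσ
  refine h1.trans ?_
  rw [mul_one]
  refine mul_le_mul' ?_ le_rfl
  unfold Pk
  exact Finset.prod_le_prod' fun i _ => mul_le_mul' hN le_rfl

/-- The constant of the error terms at the step `k`. -/
noncomputable def Ek (b t N : ℝ) (q L : ℕ) (Ccr : ℝ≥0∞) (k : ℕ) : ℝ≥0∞ :=
  ENNReal.ofReal N * (Pk b t N q k * (ENNReal.ofReal (2 * Real.pi * t) * Jp b (q + k))) +
    (1 + 2 ^ L) * (Ccr * (ENNReal.ofReal (1 + t) * cL L univ *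
      (Pk b t N q k * (ENNReal.ofReal (2 * Real.pi * t) * Jp (b / 2) (q + k)))))

theorem Ek_ne_top {b : ℝ} (hb : 0 < b) (t N : ℝ) (q L : ℕ) {Ccr : ℝ≥0∞} (hC : Ccr ≠ ∞) (k : ℕ) :
    Ek b t N q L Ccr k ≠ ∞ := by
  unfold Ek
  have h1 := Pk_ne_top hb t N q k
  have h2 : (2 : ℝ≥0∞) ^ L ≠ ∞ := ENNReal.pow_ne_top (by norm_num)
  refine ENNReal.add_ne_top.2 ⟨?_, ?_⟩
  · exact ENNReal.mul_ne_top ENNReal.ofReal_ne_top (ENNReal.mul_ne_top h1
      (ENNReal.mul_ne_top ENNReal.ofReal_ne_top (Jp_ne_top hb _)))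
  · refine ENNReal.mul_ne_top (ENNReal.add_ne_top.2 ⟨ENNReal.one_ne_top, h2⟩)
      (ENNReal.mul_ne_top hC (ENNReal.mul_ne_top (ENNReal.mul_ne_top ENNReal.ofReal_ne_top
        (measure_ne_top _ _)) (ENNReal.mul_ne_top h1
        (ENNReal.mul_ne_top ENNReal.ofReal_ne_top (Jp_ne_top (half_pos hb) _)))))

section Final

variable {ν : Measure Ph} [IsFiniteMeasure ν] {L : ℕ} {Al : Set CTree}

/-- The term number `k` of the unrolled recursion. -/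
theorem term_k (hΦ : IsPotential Φ) (hε : 0 < ε) {b t N A A₁ : ℝ} (hb : 0 < b) (ht : 0 ≤ t)
    (hN0 : 0 ≤ N) (κ : Measure ℕ) [IsFiniteMeasure κ]
    (hN : ENNReal.ofReal (1 + t) * κ univ ≤ ENNReal.ofReal N) (hA : 0 ≤ A) (hA₁ : 0 ≤ A₁)
    (h₁ : ∀ x : ℝ, 0 ≤ x → 1 + x ≤ A₁ * Real.exp (b / 2 * x ^ 2)) {q : ℕ}
    (h₀ : ∀ x : ℝ, 0 ≤ x → (1 + x) ^ q ≤ A * Real.exp (b / 4 * x ^ 2))
    {aty : Measure Src} [SFinite aty]
    (hok : ∀ T ∈ Al, ok Φ ε T ∧ ext Φ ε T ≤ t)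
    (hlam : ∀ F : Src → ℝ≥0∞, Measurable F → ∫⁻ T in Al, F (rsrc Φ ε T) ∂(tree ν L) ≤
      muE ε * (∫⁻ σ, F σ ∂(refM b t κ) + ∫⁻ σ, F σ ∂aty)) {Ccr : ℝ≥0∞}
    (hcr : ∀ F : Src → ℝ≥0∞, Measurable F → ∫⁻ T in Al, F (rsrc Φ ε T) ∂(tree ν L) ≤
      muE ε * (Ccr * ∫⁻ σ, F σ ∂(refM (b / 2) t (cL L))))
    {G : Src → ℝ≥0∞} (hG : Measurable G) (hG1 : ∀ σ, G σ ≤ 1) {k : ℕ} (hk : k < L)
    (hB : MeasurableSet (Bad1 Al)) :
    Dn Φ ε t ν L Al G ((Qm Φ ε t (refM b t κ))^[k] (vp q)) +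
      Xn Φ ε ν L Al G ((Qm Φ ε t (refM b t κ))^[k] (vp q)) +
      NN Φ ε ν Al G L (Qm Φ ε t aty ((Qm Φ ε t (refM b t κ))^[k] (vp q))) ≤
    muE ε * (ENNReal.ofReal (A * ((N * Ks b * √(Real.exp 1) * t) ^ k / √(k.factorial : ℝ))) *
      (ENNReal.ofReal (1 + t) * ENNReal.ofReal (1 + t) *
        (ENNReal.ofReal Real.pi * I0 (b / 2)) * ENNReal.ofReal A₁ *
        ∫⁻ σ, G σ ∂(refM (b / 2) t (kap κ)))) +
    muE ε * (Ek b t N q L Ccr k * ∫⁻ σ, vp (q + L) σ ∂aty) +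
    (2 ^ L * Pk b t N q k) * ∫⁻ T in Bad1 Al, vp (q + L) (rsrc Φ ε T) ∂(tree ν L) := by
  set g := (Qm Φ ε t (refM b t κ))^[k] (vp q) with hg
  have hgm : Measurable g := measurable_iter hΦ hε _ (measurable_vp q) k
  have hpoly : ∀ σ : Src, σ.1 ∈ Icc 0 t → g σ ≤ Pk b t N q k * vp (q + k) σ := fun σ hσ =>
    iter_vp hΦ hε ht κ hN q k σ hσ
  have hexp : ∀ σ : Src, σ.1 ∈ Icc 0 t → g σ ≤ ENNReal.ofReal
      (A * ((N * Ks b * √(Real.exp 1) * t) ^ k / √(k.factorial : ℝ)) *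
        Real.exp (b / 2 * ‖σ.2.1.2‖ ^ 2)) := fun σ hσ =>
    iter_exp hΦ hε hb ht κ hN0 hN (measurable_vp q) hA
      (fun σ _ => ENNReal.ofReal_le_ofReal (h₀ _ (norm_nonneg _))) k σ hσ
  have hKs := Ks_nonneg b
  have hAk : 0 ≤ A * ((N * Ks b * √(Real.exp 1) * t) ^ k / √(k.factorial : ℝ)) := by positivity
  have hL2 : (2 : ℝ≥0∞) ^ L ≠ ∞ := ENNReal.pow_ne_top (by norm_num)
  have hkL : q + k + 1 ≤ q + L := by omega
  -- the last node
  have hD := Dn_le hΦ hε hlam hcr hG hG1 hgm (t := t)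
  have hD1 := typ_node_le hΦ hε hb ht κ hG hAk hA₁ h₁ hexp
  have e1 := lintegral_Qm_poly (β := b) hΦ hε ht κ hgm hkL hpoly aty
  have e2 := lintegral_Qm_poly (β := b / 2) hΦ hε ht (cL L) hgm hkL hpoly aty
  -- atypical
  have hY := NN_aty_le hΦ hε hcr (aty := aty) hG1 hgm (t := t)
  -- exceptional
  have hX : Xn Φ ε ν L Al G g ≤
      (2 ^ L * Pk b t N q k) * ∫⁻ T in Bad1 Al, vp (q + L) (rsrc Φ ε T) ∂(tree ν L) := by
    unfold Xn
    refine (lintegral_ES_le hG1 (Bad1 Al) (fun T => g (rsrc Φ ε T))).trans ?_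
    rw [mul_assoc]
    gcongr
    rw [← lintegral_const_mul' _ _ (Pk_ne_top hb t N q k)]
    refine setLIntegral_mono' hB fun T hT => ?_
    have hT1 := hok T hT.1
    refine (hpoly _ ⟨ext_nonneg hΦ hε hT1.1, hT1.2⟩).trans ?_
    gcongr
    exact vp_mono (by omega) _
  set aV := ∫⁻ σ, vp (q + L) σ ∂aty with haV
  set RG := ∫⁻ σ, G σ ∂(refM (b / 2) t (kap κ)) with hRG
  set Z := ENNReal.ofReal (1 + t) * ENNReal.ofReal (1 + t) *
        (ENNReal.ofReal Real.pi * I0 (b / 2)) * ENNReal.ofReal A₁ * RG with hZ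
  set m := ENNReal.ofReal (A * ((N * Ks b * √(Real.exp 1) * t) ^ k / √(k.factorial : ℝ))) with hm
  set P := Pk b t N q k with hP
  set J1 := ENNReal.ofReal (2 * Real.pi * t) * Jp b (q + k) with hJ1
  set J2 := ENNReal.ofReal (2 * Real.pi * t) * Jp (b / 2) (q + k) with hJ2
  have f1 : muE ε * ∫⁻ σ, Qm Φ ε t (refM b t κ) g σ ∂aty ≤
      muE ε * (ENNReal.ofReal N * (P * J1) * aV) := by
    gcongr
    refine e1.trans ?_
    gcongr
  have f2 : muE ε * (Ccr * ∫⁻ σ, Qm Φ ε t (refM (b / 2) t (cL L)) g σ ∂aty) ≤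
      muE ε * (Ccr * (ENNReal.ofReal (1 + t) * cL L univ * (P * J2) * aV)) := by gcongr
  calc Dn Φ ε t ν L Al G g + Xn Φ ε ν L Al G g + NN Φ ε ν Al G L (Qm Φ ε t aty g)
      ≤ (muE ε * (m * Z) + muE ε * (ENNReal.ofReal N * (P * J1) * aV) +
          muE ε * (Ccr * (ENNReal.ofReal (1 + t) * cL L univ * (P * J2) * aV))) +
        (2 ^ L * P) * ∫⁻ T in Bad1 Al, vp (q + L) (rsrc Φ ε T) ∂(tree ν L) +
        2 ^ L * (muE ε * (Ccr * (ENNReal.ofReal (1 + t) * cL L univ * (P * J2) * aV))) := by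
        refine add_le_add (add_le_add (hD.trans (add_le_add (add_le_add ?_ f1) f2)) hX)
          (hY.trans ?_)
        · gcongr
        · gcongr
    _ = _ := by
        unfold Ek
        rw [← hP, ← hJ1, ← hJ2]
        ring

end Final

/-- **Sums over the root line and the exhausts of the alive trees (EXH).**  The constant `C` does not
depend on `L`. -/
theorem exh (hΦ : IsPotential Φ) {b t : ℝ} (hb : 0 < b) (ht : 0 ≤ t) (q : ℕ) {N : ℝ}
    (hN0 : 0 ≤ N) :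
    ∃ C : ℝ≥0∞, C ≠ ∞ ∧ ∀ (L : ℕ) (Ccr : ℝ≥0∞), Ccr ≠ ∞ → ∃ C' : ℝ≥0∞, C' ≠ ∞ ∧
      ∀ ε : ℝ, 0 < ε → ∀ (ν : Measure Ph) [IsFiniteMeasure ν] (κ : Measure ℕ) [IsFiniteMeasure κ],
      ENNReal.ofReal (1 + t) * κ univ ≤ ENNReal.ofReal N →
      ∀ (aty : Measure Src) [SFinite aty] (Al : Set CTree), MeasurableSet Al →
      (∀ T ∈ Al, ok Φ ε T ∧ ext Φ ε T ≤ t) →
      (∀ F : Src → ℝ≥0∞, Measurable F → ∫⁻ T in Al, F (rsrc Φ ε T) ∂(tree ν L) ≤
        muE ε * (∫⁻ σ, F σ ∂(refM b t κ) + ∫⁻ σ, F σ ∂aty)) →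
      (∀ F : Src → ℝ≥0∞, Measurable F → ∫⁻ T in Al, F (rsrc Φ ε T) ∂(tree ν L) ≤
        muE ε * (Ccr * ∫⁻ σ, F σ ∂(refM (b / 2) t (cL L)))) →
      ∀ G : Src → ℝ≥0∞, Measurable G → (∀ σ, G σ ≤ 1) →
        ∫⁻ T in Al, vp q (rsrc Φ ε T) * (G (rsrc Φ ε T) + exsum T (fun x => G (rsrc Φ ε x)))
            ∂(tree ν L) ≤
          muE ε * (C * (∫⁻ σ, G σ ∂(refM (b / 2) t κ) + ∫⁻ σ, G σ ∂(refM (b / 2) t (kap κ)))) +
          C' * (muE ε * ∫⁻ σ, vp (q + L) σ ∂aty +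
            ∫⁻ T in Bad1 Al, vp (q + L) (rsrc Φ ε T) ∂(tree ν L)) := by
  obtain ⟨A, hA, h₀⟩ := exists_pow_le q (show 0 < b / 4 by positivity)
  obtain ⟨A₁, hA₁, h₁⟩ := exists_pow_le 1 (half_pos hb)
  simp only [pow_one] at h₁
  set x : ℝ := N * Ks b * √(Real.exp 1) * t with hx
  have hKs := Ks_nonneg b
  have hx0 : 0 ≤ x := by positivity
  set K₀ : ℝ≥0∞ := ENNReal.ofReal (1 + t) * ENNReal.ofReal (1 + t) *
        (ENNReal.ofReal Real.pi * I0 (b / 2)) * ENNReal.ofReal A₁ with hK₀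
  have hK₀t : K₀ ≠ ∞ := by
    rw [hK₀]
    exact ENNReal.mul_ne_top (ENNReal.mul_ne_top (ENNReal.mul_ne_top ENNReal.ofReal_ne_top
      ENNReal.ofReal_ne_top) (ENNReal.mul_ne_top ENNReal.ofReal_ne_top (I0_ne_top (half_pos hb))))
      ENNReal.ofReal_ne_top
  refine ⟨ENNReal.ofReal A + ENNReal.ofReal A * Sx x * K₀, ?_, fun L Ccr hCcr => ?_⟩
  · exact ENNReal.add_ne_top.2 ⟨ENNReal.ofReal_ne_top, ENNReal.mul_ne_top
      (ENNReal.mul_ne_top ENNReal.ofReal_ne_top (Sx_ne_top hx0)) hK₀t⟩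
  refine ⟨1 + (∑ k ∈ Finset.range L, Ek b t N q L Ccr k +
    ∑ k ∈ Finset.range L, 2 ^ L * Pk b t N q k), ?_, ?_⟩
  · refine ENNReal.add_ne_top.2 ⟨ENNReal.one_ne_top, ENNReal.add_ne_top.2 ⟨?_, ?_⟩⟩
    · exact ENNReal.sum_ne_top.2 fun k _ => Ek_ne_top hb t N q L hCcr k
    · exact ENNReal.sum_ne_top.2 fun k _ => ENNReal.mul_ne_top
        (ENNReal.pow_ne_top (by norm_num)) (Pk_ne_top hb t N q k)
  intro ε hε ν _ κ _ hN aty _ Al hAl hok hlam hcr G hG hG1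
  have hB := measurableSet_Bad1 hAl
  have hr := measurable_rsrc hΦ hε.ne' (Φ := Φ) (ε := ε)
  set aV := ∫⁻ σ, vp (q + L) σ ∂aty with haV
  set bV := ∫⁻ T in Bad1 Al, vp (q + L) (rsrc Φ ε T) ∂(tree ν L) with hbV
  set R0 := ∫⁻ σ, G σ ∂(refM (b / 2) t κ) with hR0
  set RG := ∫⁻ σ, G σ ∂(refM (b / 2) t (kap κ)) with hRG
  set S1 := ∑ k ∈ Finset.range L, Ek b t N q L Ccr k with hS1
  set S2 := ∑ k ∈ Finset.range L, 2 ^ L * Pk b t N q k with hS2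
  -- the root source
  have hroot : ∫⁻ T in Al, vp q (rsrc Φ ε T) * G (rsrc Φ ε T) ∂(tree ν L) ≤
      muE ε * (ENNReal.ofReal A * R0 + aV) := by
    refine (hlam (fun σ => vp q σ * G σ) ((measurable_vp q).mul hG)).trans ?_
    gcongr
    · have h2 := weight_le (b := b) hA t κ (w := fun v => ENNReal.ofReal ((1 + ‖v‖) ^ q))
        (fun v => ENNReal.ofReal_le_ofReal ((h₀ _ (norm_nonneg v)).trans (by gcongr; norm_num))) hG
      refine le_trans (le_of_eq ?_) h2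
      have hm : Measurable fun σ => vp q σ * G σ := (measurable_vp q).mul hG
      rw [lintegral_refM b t κ hm]
      refine lintegral_congr fun s => lintegral_congr fun z => ?_
      congr 1
      rw [← lintegral_const_mul' _ _ ENNReal.ofReal_ne_top]
      rfl
    · refine lintegral_mono fun σ => ?_
      calc vp q σ * G σ ≤ vp q σ * 1 := by gcongr; exact hG1 σ
        _ ≤ _ := by rw [mul_one]; exact vp_mono (Nat.le_add_right _ _) σ
  -- the exhausts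
  have hNN : NN Φ ε ν Al G L (vp q) ≤ muE ε * (ENNReal.ofReal A * Sx x * K₀ * RG) +
      (muE ε * (S1 * aV) + S2 * bV) := by
    refine (NN_le hΦ hε hAl hok hlam hG L le_rfl (vp q) (measurable_vp q)).trans ?_
    refine (Finset.sum_le_sum fun k hk => term_k hΦ hε hb ht hN0 κ hN hA hA₁ h₁ h₀ hok hlam hcr
      hG hG1 (Finset.mem_range.1 hk) hB).trans ?_
    rw [Finset.sum_add_distrib, Finset.sum_add_distrib, ← Finset.mul_sum, ← Finset.mul_sum,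
      ← Finset.sum_mul, ← Finset.sum_mul, ← Finset.sum_mul, add_assoc]
    refine add_le_add (mul_le_mul' le_rfl ?_) le_rfl
    have h3 : ∑ k ∈ Finset.range L, ENNReal.ofReal (A * (x ^ k / √(k.factorial : ℝ))) ≤
        ENNReal.ofReal A * Sx x := by
      unfold Sx
      rw [← ENNReal.tsum_mul_left]
      refine le_trans (le_of_eq (Finset.sum_congr rfl fun k _ => ?_)) (ENNReal.sum_le_tsum _)
      rw [ENNReal.ofReal_mul hA]
    exact (mul_le_mul' h3 le_rfl).trans (le_of_eq (by ring))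
  have hsplit : ∫⁻ T in Al, vp q (rsrc Φ ε T) * (G (rsrc Φ ε T) +
      exsum T (fun x => G (rsrc Φ ε x))) ∂(tree ν L) ≤
      ∫⁻ T in Al, vp q (rsrc Φ ε T) * G (rsrc Φ ε T) ∂(tree ν L) + NN Φ ε ν Al G L (vp q) := by
    unfold NN
    have h4 : Measurable fun T => vp q (rsrc Φ ε T) * G (rsrc Φ ε T) :=
      ((measurable_vp q).comp hr).mul (hG.comp hr)
    rw [← lintegral_add_left h4]
    refine lintegral_mono fun T => ?_
    rw [mul_add]
    gcongr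
    exact exsum_le_ES G T
  refine hsplit.trans ((add_le_add hroot hNN).trans ?_)
  calc muE ε * (ENNReal.ofReal A * R0 + aV) + (muE ε * (ENNReal.ofReal A * Sx x * K₀ * RG) +
        (muE ε * (S1 * aV) + S2 * bV))
      = muE ε * (ENNReal.ofReal A * R0 + ENNReal.ofReal A * Sx x * K₀ * RG) +
        ((1 + S1) * (muE ε * aV) + S2 * bV) := by ring
    _ ≤ muE ε * ((ENNReal.ofReal A + ENNReal.ofReal A * Sx x * K₀) * R0 +
        (ENNReal.ofReal A + ENNReal.ofReal A * Sx x * K₀) * RG) +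
        ((1 + (S1 + S2)) * (muE ε * aV) + (1 + (S1 + S2)) * bV) := by
        gcongr
        · exact le_self_add
        · exact le_add_self
        · exact le_self_add
        · exact le_add_left le_add_self
    _ = _ := by ring

end Vale.Agent.P119.PB.EX
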