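import Vale.Agent.P119.PB.Op3
import Vale.Agent.P119.KE.Tails

/-!
# P119, block PROB: existence of the depth weights (`helper347`)
-/

open MeasureTheory Set Filter Topology Metric ProbabilityTheory
open scoped ENNReal

namespace Vale.Agent.P119.PB

/-- `1 / √(m!)`. -/
noncomputable def wf (m : ℕ) : ℝ := 1 / √(m.factorial : ℝ)

theorem wf_pos (m : ℕ) : 0 < wf m := by
  unfold wf
  have : (0 : ℝ) < m.factorial := by exact_mod_cast Nat.factorial_pos m
  positivity

theorem wf_succ (m : ℕ) : wf (m + 1) = wf m / √((m + 1 : ℕ) : ℝ) := by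
  unfold wf
  rw [Nat.factorial_succ, Nat.cast_mul, Real.sqrt_mul (by positivity)]
  field_simp

theorem wf_pow_le (m : ℕ) {R : ℝ} (hR : 0 ≤ R) : wf m * R ^ m ≤ √(Real.exp (R ^ 2)) := by
  have h1 : (R ^ 2) ^ m / m.factorial ≤ Real.exp (R ^ 2) :=
    Real.pow_div_factorial_le_exp (R ^ 2) (by positivity) m
  have h2 : wf m * R ^ m = √((R ^ 2) ^ m / m.factorial) := by
    unfold wf
    rw [Real.sqrt_div (by positivity), ← pow_mul, mul_comm 2 m, pow_mul,
      Real.sqrt_sq (pow_nonneg hR m)]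
    ring
  rw [h2]
  exact Real.sqrt_le_sqrt h1

/-- The weights of the majorant. -/
noncomputable def wa (α : ℕ → ℝ) (n : ℕ) : ℝ :=
  2 ^ n * ∑ p ∈ Finset.HasAntidiagonal.antidiagonal n, (α p.1 + if p.1 = 0 then 1 else 0) * wf p.2

theorem wa_nonneg_term {α : ℕ → ℝ} (h0 : ∀ n, 0 ≤ α n) (i : ℕ) :
    0 ≤ α i + if i = 0 then (1 : ℝ) else 0 := by
  have := h0 i
  split_ifs <;> linarith

theorem le_wa {α : ℕ → ℝ} (h0 : ∀ n, 0 ≤ α n) (n : ℕ) : 2 ^ n * α n ≤ wa α n := by
  unfold wa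
  refine mul_le_mul_of_nonneg_left ?_ (by positivity)
  have h1 : ((n, 0) : ℕ × ℕ) ∈ Finset.HasAntidiagonal.antidiagonal n := by simp
  have h2 : (α n + if n = 0 then (1 : ℝ) else 0) * wf 0 ≤
      ∑ p ∈ Finset.HasAntidiagonal.antidiagonal n, (α p.1 + if p.1 = 0 then (1 : ℝ) else 0) * wf p.2 :=
    Finset.single_le_sum (f := fun p : ℕ × ℕ => (α p.1 + if p.1 = 0 then (1 : ℝ) else 0) * wf p.2)
      (fun p _ => mul_nonneg (wa_nonneg_term h0 p.1) (wf_pos p.2).le) h1
  refine le_trans ?_ h2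
  have h3 : wf 0 = 1 := by unfold wf; simp
  rw [h3, mul_one]
  split_ifs <;> linarith

theorem wa_pos {α : ℕ → ℝ} (h0 : ∀ n, 0 ≤ α n) (n : ℕ) : 0 < wa α n := by
  unfold wa
  refine mul_pos (by positivity) ?_
  have h1 : ((0, n) : ℕ × ℕ) ∈ Finset.HasAntidiagonal.antidiagonal n := by simp
  have h2 : (α 0 + if (0 : ℕ) = 0 then (1 : ℝ) else 0) * wf n ≤
      ∑ p ∈ Finset.HasAntidiagonal.antidiagonal n, (α p.1 + if p.1 = 0 then (1 : ℝ) else 0) * wf p.2 :=
    Finset.single_le_sum (f := fun p : ℕ × ℕ => (α p.1 + if p.1 = 0 then (1 : ℝ) else 0) * wf p.2)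
      (fun p _ => mul_nonneg (wa_nonneg_term h0 p.1) (wf_pos p.2).le) h1
  refine lt_of_lt_of_le (mul_pos ?_ (wf_pos n)) h2
  have := h0 0
  simp only [if_true]
  linarith

theorem wa_succ {α : ℕ → ℝ} (h0 : ∀ n, 0 ≤ α n) (n : ℕ) :
    2 * wa α n ≤ wa α (n + 1) * √((n + 1 : ℕ) : ℝ) := by
  unfold wa
  rw [Finset.Nat.sum_antidiagonal_succ' (n := n)
    (f := fun p : ℕ × ℕ => (α p.1 + if p.1 = 0 then (1 : ℝ) else 0) * wf p.2), pow_succ]
  have hs : 0 < √((n + 1 : ℕ) : ℝ) := Real.sqrt_pos.2 (by positivity)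
  have h1 : ∑ p ∈ Finset.HasAntidiagonal.antidiagonal n, (α p.1 + if p.1 = 0 then (1 : ℝ) else 0) * wf p.2 ≤
      (∑ p ∈ Finset.HasAntidiagonal.antidiagonal n, (α p.1 + if p.1 = 0 then (1 : ℝ) else 0) * wf (p.2 + 1)) *
        √((n + 1 : ℕ) : ℝ) := by
    rw [Finset.sum_mul]
    refine Finset.sum_le_sum fun p hp => ?_
    rw [mul_assoc]
    refine mul_le_mul_of_nonneg_left ?_ (wa_nonneg_term h0 p.1)
    rw [wf_succ, div_mul_eq_mul_div, le_div_iff₀ (Real.sqrt_pos.2 (by positivity))]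
    refine mul_le_mul_of_nonneg_left (Real.sqrt_le_sqrt ?_) (wf_pos _).le
    have h2 : p.2 ≤ n := by
      have := Finset.HasAntidiagonal.mem_antidiagonal.1 hp
      omega
    exact_mod_cast Nat.succ_le_succ h2
  have h3 : 0 ≤ (α (n + 1) + if n + 1 = 0 then (1 : ℝ) else 0) * wf 0 :=
    mul_nonneg (wa_nonneg_term h0 _) (wf_pos _).le
  have h4 : (0 : ℝ) ≤ 2 ^ n * 2 := by positivity
  calc 2 * (2 ^ n * ∑ p ∈ Finset.HasAntidiagonal.antidiagonal n, (α p.1 + if p.1 = 0 then (1 : ℝ) else 0) * wf p.2)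
      = 2 ^ n * 2 * ∑ p ∈ Finset.HasAntidiagonal.antidiagonal n,
        (α p.1 + if p.1 = 0 then (1 : ℝ) else 0) * wf p.2 := by ring
    _ ≤ 2 ^ n * 2 * ((∑ p ∈ Finset.HasAntidiagonal.antidiagonal n,
        (α p.1 + if p.1 = 0 then (1 : ℝ) else 0) * wf (p.2 + 1)) * √((n + 1 : ℕ) : ℝ)) := by
        gcongr
    _ ≤ 2 ^ n * 2 * (((α (n + 1) + if n + 1 = 0 then (1 : ℝ) else 0) * wf 0 +
        ∑ p ∈ Finset.HasAntidiagonal.antidiagonal n,
        (α p.1 + if p.1 = 0 then (1 : ℝ) else 0) * wf (p.2 + 1)) * √((n + 1 : ℕ) : ℝ)) := by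
        gcongr
        linarith
    _ = _ := by
        simp only
        ring

/-- Bounded after multiplication by any exponential. -/
def SExp (α : ℕ → ℝ) : Prop := ∀ K : ℝ, ∃ B : ℝ, ∀ n : ℕ, α n * Real.exp (K * n) ≤ B

theorem sExp_of_superExp {α : ℕ → ℝ} (h : KE.SuperExp α) : SExp α := by
  intro K
  have h1 := h (Real.exp K) (Real.exp_nonneg _)
  obtain ⟨B, hB⟩ := h1.bddAbove_range
  refine ⟨B, fun n => ?_⟩
  have h2 := hB (mem_range_self n)
  have h3 : Real.exp (K * n) = Real.exp K ^ n := by rw [mul_comm, Real.exp_nat_mul]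
  rw [h3, mul_comm]
  exact h2

theorem wa_sExp {α : ℕ → ℝ} (h0 : ∀ n, 0 ≤ α n) (h : SExp α) : SExp (wa α) := by
  intro K
  set R : ℝ := 2 * Real.exp K with hR
  have hR0 : 0 < R := by positivity
  obtain ⟨B, hB⟩ := h (Real.log (2 * R))
  have hB0 : 0 ≤ B := le_trans (mul_nonneg (h0 0) (Real.exp_nonneg _)) (hB 0)
  set W := √(Real.exp (R ^ 2)) with hW
  refine ⟨2 * (B + 1) * W, fun n => ?_⟩
  have h1 : Real.exp (K * n) = Real.exp K ^ n := by rw [mul_comm, Real.exp_nat_mul]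
  have h2 : wa α n * Real.exp (K * n) = ∑ p ∈ Finset.HasAntidiagonal.antidiagonal n,
      ((α p.1 + if p.1 = 0 then (1 : ℝ) else 0) * R ^ p.1) * (wf p.2 * R ^ p.2) := by
    unfold wa
    rw [h1, mul_right_comm, ← mul_pow, Finset.mul_sum, ← hR]
    refine Finset.sum_congr rfl fun p hp => ?_
    have h3 := Finset.HasAntidiagonal.mem_antidiagonal.1 hp
    rw [← h3, pow_add]
    ring
  rw [h2]
  have h4 : ∀ i : ℕ, (α i + if i = 0 then (1 : ℝ) else 0) * R ^ i ≤ (B + 1) * (1 / 2) ^ i := by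
    intro i
    have h5 := hB i
    have h6 : Real.exp (Real.log (2 * R) * i) = (2 * R) ^ i := by
      rw [mul_comm, Real.exp_nat_mul, Real.exp_log (by positivity)]
    rw [h6, mul_pow] at h5
    have h7 : α i * R ^ i ≤ B * (1 / 2) ^ i := by
      rw [one_div, inv_pow, ← div_eq_mul_inv, le_div_iff₀ (by positivity)]
      linarith
    have h8 : (if i = 0 then (1 : ℝ) else 0) * R ^ i ≤ 1 * (1 / 2) ^ i := by
      split_ifs with hi
      · rw [hi]; simp
      · rw [zero_mul]; positivity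
    calc (α i + if i = 0 then (1 : ℝ) else 0) * R ^ i
        = α i * R ^ i + (if i = 0 then (1 : ℝ) else 0) * R ^ i := by ring
      _ ≤ B * (1 / 2) ^ i + 1 * (1 / 2) ^ i := add_le_add h7 h8
      _ = _ := by ring
  calc ∑ p ∈ Finset.HasAntidiagonal.antidiagonal n,
      ((α p.1 + if p.1 = 0 then (1 : ℝ) else 0) * R ^ p.1) * (wf p.2 * R ^ p.2)
      ≤ ∑ p ∈ Finset.HasAntidiagonal.antidiagonal n, ((B + 1) * (1 / 2) ^ p.1) * W := by
        refine Finset.sum_le_sum fun p _ => ?_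
        exact mul_le_mul (h4 p.1) (wf_pow_le p.2 hR0.le)
          (mul_nonneg (wf_pos _).le (by positivity)) (by positivity)
    _ = (B + 1) * W * ∑ i ∈ Finset.range (n + 1), (1 / 2 : ℝ) ^ i := by
        rw [Finset.Nat.sum_antidiagonal_eq_sum_range_succ
          (fun i _ => ((B + 1) * (1 / 2) ^ i) * W), Finset.mul_sum]
        refine Finset.sum_congr rfl fun i _ => ?_
        ring
    _ ≤ (B + 1) * W * 2 := by
        gcongr
        have h9 := sum_geometric_two_le (n + 1)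
        exact h9
    _ = _ := by ring

/-- **Existence of the depth weights.** -/
theorem exists_wts {α : ℕ → ℝ} (h0 : ∀ n, 0 ≤ α n) (h : SExp α) :
    ∃ Q, Wts α (wa α) Q := by
  have hpos := wa_pos h0
  have hsucc := wa_succ h0
  obtain ⟨B₀, hB₀⟩ := wa_sExp h0 h 0
  have hB₀' : ∀ n, wa α n ≤ B₀ := fun n => by
    have := hB₀ n
    simpa using this
  have hB₀0 : 0 ≤ B₀ := (hpos 0).le.trans (hB₀' 0)
  obtain ⟨A, hA⟩ := h (Real.log 2)
  have hA' : ∀ n, α n ≤ A * (1 / 2) ^ n := by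
    intro n
    have h1 := hA n
    rw [show Real.exp (Real.log 2 * n) = 2 ^ n by
      rw [mul_comm, Real.exp_nat_mul, Real.exp_log two_pos]] at h1
    rw [one_div, inv_pow, ← div_eq_mul_inv, le_div_iff₀ (by positivity)]
    exact h1
  have hA0 : 0 ≤ A := by
    have := (h0 0).trans (hA' 0)
    simpa using this
  have hgeo : ∀ C : ℝ, 0 ≤ C → ∑' m : ℕ, ENNReal.ofReal (C * (1 / 2) ^ m) =
      ENNReal.ofReal (C * 2) := by
    intro C hC
    rw [← ENNReal.ofReal_tsum_of_nonneg (fun m => by positivity)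
      (summable_geometric_two.mul_left C), tsum_mul_left, tsum_geometric_two]
  have hr : ∀ m, α m / wa α m ≤ (1 / 2) ^ m := by
    intro m
    rw [div_le_iff₀ (hpos m)]
    have h1 := le_wa h0 m
    calc α m = (1 / 2) ^ m * (2 ^ m * α m) := by
          rw [← mul_assoc, ← mul_pow]; norm_num
      _ ≤ _ := by gcongr
  refine ⟨max ((A + B₀) * 2) 2, hpos, h0, le_max_of_le_right zero_le_two, fun n => ?_, ?_,
    wa_sExp h0 h⟩
  · have h2 : ∀ m : ℕ, ENNReal.ofReal (α m * (wa α n / wa α (max n m + 1)) /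
        √((max n m + 1 : ℕ) : ℝ)) ≤ ENNReal.ofReal ((A + B₀) * (1 / 2) ^ m) := by
      intro m
      apply ENNReal.ofReal_le_ofReal
      set D := max n m with hD
      have hsD : 0 < √((D + 1 : ℕ) : ℝ) := Real.sqrt_pos.2 (by positivity)
      have h3 := hsucc D
      have h4 : α m * (wa α n / wa α (D + 1)) / √((D + 1 : ℕ) : ℝ) =
          α m * wa α n / (wa α (D + 1) * √((D + 1 : ℕ) : ℝ)) := by
        rw [← mul_div_assoc, div_div]
      rw [h4]
      have h5 : α m * wa α n / (wa α (D + 1) * √((D + 1 : ℕ) : ℝ)) ≤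
          α m * wa α n / wa α D := by
        refine div_le_div_of_nonneg_left (mul_nonneg (h0 m) (hpos n).le) (hpos D) ?_
        have := hpos D
        linarith
      refine h5.trans ?_
      rcases le_total m n with hmn | hmn
      · have : D = n := max_eq_left hmn
        rw [this, mul_div_assoc, div_self (hpos n).ne', mul_one]
        calc α m ≤ A * (1 / 2) ^ m := hA' m
          _ ≤ _ := by gcongr; linarith
      · have : D = m := max_eq_right hmn
        rw [this]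
        calc α m * wa α n / wa α m = (α m / wa α m) * wa α n := by ring
          _ ≤ (1 / 2) ^ m * B₀ := mul_le_mul (hr m) (hB₀' n) (hpos n).le (by positivity)
          _ ≤ _ := by
            rw [mul_comm]
            gcongr
            linarith
    refine (ENNReal.tsum_le_tsum h2).trans ?_
    rw [hgeo _ (by positivity)]
    exact ENNReal.ofReal_le_ofReal (le_max_left _ _)
  · refine (ENNReal.tsum_le_tsum fun m => ENNReal.ofReal_le_ofReal
      (show α m / wa α m ≤ 1 * (1 / 2) ^ m by rw [one_mul]; exact hr m)).trans ?_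
    rw [hgeo _ zero_le_one]
    exact ENNReal.ofReal_le_ofReal (by rw [one_mul]; exact le_max_right _ _)

end Vale.Agent.P119.PB
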