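import Vale.Agent.P119.PB.Exh2
import Vale.Agent.P119.PB.Op4

/-!
# P119, block PROB: the reference integrals and the norm of `helper347` (`helper776`)
-/

open MeasureTheory Set Filter Topology Metric ProbabilityTheory
open scoped ENNReal

namespace Vale.Agent.P119.PB.EX

open KU FL M CTree

/-- The depth law with weights `m`. -/
noncomputable def dmeas (m : ℕ → ℝ) : Measure ℕ :=
  Measure.sum fun n => ENNReal.ofReal (m n) • Measure.dirac n

theorem lintegral_dmeas (m : ℕ → ℝ) (f : ℕ → ℝ≥0∞) :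
    ∫⁻ n, f n ∂(dmeas m) = ∑' n, ENNReal.ofReal (m n) * f n := by
  unfold dmeas
  rw [lintegral_sum_measure]
  refine tsum_congr fun n => ?_
  rw [lintegral_smul_measure, lintegral_dirac, smul_eq_mul]

instance (m : ℕ → ℝ) : SFinite (dmeas m) := by unfold dmeas; infer_instance

theorem isFiniteMeasure_dmeas {m : ℕ → ℝ} (h : Summable m) :
    IsFiniteMeasure (dmeas m) := by
  refine ⟨?_⟩
  rw [← lintegral_one, lintegral_dmeas]
  simp only [mul_one]
  exact lt_top_iff_ne_top.2 h.tsum_ofReal_ne_top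

/-- **The reference integral is bounded by the norm.** -/
theorem ref_le {b b₀ T t l₁ l₂ : ℝ} {a : ℕ → ℝ} (hb : 0 < b) (hbb : b ≤ b₀) (hT : 0 < T)
    (ht : 0 ≤ t) (hl₁ : 0 ≤ l₁) (hl₂ : 0 ≤ l₂) (ha : ∀ n, 0 < a n)
    (κ : Measure ℕ) [SFinite κ] {θ : Src → ℝ≥0∞} (hθ : Measurable θ) :
    ∫⁻ σ, θ σ ∂(refM b₀ t κ) ≤ ENNReal.ofReal (1 + t) * (∫⁻ n, ENNReal.ofReal (1 / a n) ∂κ) *
      Nm b T l₁ l₂ a t θ := by
  rw [lintegral_refM _ _ _ hθ]
  have h1 : ∀ s ∈ Icc 0 t, ∫⁻ z : Ph, gw b₀ z.2 * ∫⁻ n, θ (s, z, n) ∂κ ≤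
      (∫⁻ n, ENNReal.ofReal (1 / a n) ∂κ) * Nm b T l₁ l₂ a t θ := by
    intro s hs
    have hm : Measurable fun p : Ph × ℕ => gw b₀ p.1.2 * θ (s, p.1, p.2) :=
      ((measurable_gw2 b₀).comp measurable_fst).mul (hθ.comp (measurable_const.prodMk
        (measurable_fst.prodMk measurable_snd)))
    have e1 : ∀ z : Ph, gw b₀ z.2 * ∫⁻ n, θ (s, z, n) ∂κ = ∫⁻ n, gw b₀ z.2 * θ (s, z, n) ∂κ :=
      fun z => (lintegral_const_mul' _ _ ENNReal.ofReal_ne_top).symm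
    simp_rw [e1]
    rw [lintegral_lintegral_swap hm.aemeasurable, ← lintegral_mul_const _ (measurable_of_countable _)]
    refine lintegral_mono fun n => ?_
    have h2 : ∫⁻ z : Ph, gw b₀ z.2 * θ (s, z, n) ≤ Y b T θ s n := by
      unfold Y
      refine lintegral_mono fun z => mul_le_mul' (gw_anti ?_ _) le_rfl
      exact (bt_le hb hT hs.1).trans hbb
    refine h2.trans ((Y_le_Nm ha hs n θ).trans (mul_le_mul' (ENNReal.ofReal_le_ofReal ?_) le_rfl))
    unfold wgt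
    have h3 : 0 ≤ (l₁ * n + l₂) * s := mul_nonneg (by positivity) hs.1
    have h4 := Real.one_le_exp h3
    have h5 := ha n
    exact one_div_le_one_div_of_le h5 (by nlinarith)
  calc ∫⁻ s, (∫⁻ z : Ph, gw b₀ z.2 * ∫⁻ n, θ (s, z, n) ∂κ) ∂(tm t)
      ≤ ∫⁻ _s, (∫⁻ n, ENNReal.ofReal (1 / a n) ∂κ) * Nm b T l₁ l₂ a t θ ∂(tm t) :=
        lintegral_mono_ae ((ae_tm ht).mono fun s hs => h1 s hs)
    _ = _ := by rw [lintegral_const, tm_univ ht]; ring

theorem inv_dmeas_le {α a m : ℕ → ℝ} {Q : ℝ} (hw : Wts α a Q) (hm0 : ∀ n, 0 ≤ m n)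
    (hm : ∀ n, (n + 1) * m n ≤ α n) :
    ∫⁻ n, ENNReal.ofReal (1 / a n) ∂(dmeas m) ≤ ENNReal.ofReal Q := by
  rw [lintegral_dmeas]
  refine le_trans (ENNReal.tsum_le_tsum fun n => ?_) hw.w2
  rw [← ENNReal.ofReal_mul (hm0 n)]
  apply ENNReal.ofReal_le_ofReal
  have h1 := hw.apos n
  have h2 : m n ≤ α n := by
    have h3 := hm n
    have h4 := hm0 n
    have h5 : (0 : ℝ) ≤ n := Nat.cast_nonneg n
    nlinarith [mul_nonneg h5 h4]
  rw [mul_one_div]
  gcongr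

theorem inv_kap_le {α a m : ℕ → ℝ} {Q : ℝ} (hw : Wts α a Q) (hm0 : ∀ n, 0 ≤ m n)
    (hm : ∀ n, (n + 1) * m n ≤ α n) :
    ∫⁻ n, ENNReal.ofReal (1 / a n) ∂(kap (dmeas m)) ≤ ENNReal.ofReal Q * ENNReal.ofReal Q := by
  rw [lintegral_kap, lintegral_dmeas]
  simp_rw [lintegral_dmeas]
  have key : ∀ n n' : ℕ, ENNReal.ofReal (m n) * (ENNReal.ofReal (m n') *
      ENNReal.ofReal (1 / a (max n n' + 1))) ≤ ENNReal.ofReal (α n / a n) *
      ENNReal.ofReal (α n' * (a n / a (max n n' + 1)) / √((max n n' + 1 : ℕ) : ℝ)) := by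
    intro n n'
    have ha := hw.apos n
    have ha' := hw.apos (max n n' + 1)
    have hα := hw.α0 n
    have hα' := hw.α0 n'
    have hs : 0 < √((max n n' + 1 : ℕ) : ℝ) := Real.sqrt_pos.2 (by positivity)
    rw [← ENNReal.ofReal_mul (hm0 n'), ← ENNReal.ofReal_mul (hm0 n), ← ENNReal.ofReal_mul
      (by positivity)]
    apply ENNReal.ofReal_le_ofReal
    have h1 : √((max n n' + 1 : ℕ) : ℝ) * (m n * m n') ≤ α n * α n' := by
      have h2 : √((max n n' + 1 : ℕ) : ℝ) ≤ ((max n n' + 1 : ℕ) : ℝ) := by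
        rw [Real.sqrt_le_left (by positivity)]
        have : (1 : ℝ) ≤ ((max n n' + 1 : ℕ) : ℝ) := by exact_mod_cast Nat.le_add_left 1 _
        nlinarith
      have h3 : ((max n n' + 1 : ℕ) : ℝ) ≤ ((n : ℝ) + 1) * ((n' : ℝ) + 1) := by
        have : max n n' + 1 ≤ (n + 1) * (n' + 1) := by
          rcases le_total n n' with h | h
          · rw [max_eq_right h]; nlinarith
          · rw [max_eq_left h]; nlinarith
        exact_mod_cast this
      calc √((max n n' + 1 : ℕ) : ℝ) * (m n * m n')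
          ≤ (((n : ℝ) + 1) * ((n' : ℝ) + 1)) * (m n * m n') :=
            mul_le_mul_of_nonneg_right (h2.trans h3) (mul_nonneg (hm0 n) (hm0 n'))
        _ = ((n + 1) * m n) * ((n' + 1) * m n') := by ring
        _ ≤ α n * α n' := mul_le_mul (hm n) (hm n') (mul_nonneg (by positivity) (hm0 n')) hα
    calc m n * (m n' * (1 / a (max n n' + 1)))
        = (√((max n n' + 1 : ℕ) : ℝ) * (m n * m n')) / (a (max n n' + 1) *
          √((max n n' + 1 : ℕ) : ℝ)) := by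
          field_simp
      _ ≤ (α n * α n') / (a (max n n' + 1) * √((max n n' + 1 : ℕ) : ℝ)) := by gcongr
      _ = _ := by field_simp
  calc ∑' n, ENNReal.ofReal (m n) * ∑' n', ENNReal.ofReal (m n') *
        ENNReal.ofReal (1 / a (max n n' + 1))
      ≤ ∑' n, ENNReal.ofReal (α n / a n) * ENNReal.ofReal Q := by
        refine ENNReal.tsum_le_tsum fun n => ?_
        rw [← ENNReal.tsum_mul_left]
        calc ∑' n', ENNReal.ofReal (m n) * (ENNReal.ofReal (m n') *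
              ENNReal.ofReal (1 / a (max n n' + 1)))
            ≤ ∑' n', ENNReal.ofReal (α n / a n) *
              ENNReal.ofReal (α n' * (a n / a (max n n' + 1)) / √((max n n' + 1 : ℕ) : ℝ)) :=
              ENNReal.tsum_le_tsum fun n' => key n n'
          _ ≤ _ := by
              rw [ENNReal.tsum_mul_left]
              gcongr
              exact hw.w1 n
    _ = (∑' n, ENNReal.ofReal (α n / a n)) * ENNReal.ofReal Q := ENNReal.tsum_mul_right
    _ ≤ _ := by gcongr; exact hw.w2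

/-- **The reference integrals of EXH are bounded by the norm.** -/
theorem ref_le_Nm {b b₀ T t l₁ l₂ Q : ℝ} {α a m : ℕ → ℝ} (hb : 0 < b) (hbb : b ≤ b₀) (hT : 0 < T)
    (ht : 0 ≤ t) (hl₁ : 0 ≤ l₁) (hl₂ : 0 ≤ l₂) (hw : Wts α a Q) (hm0 : ∀ n, 0 ≤ m n)
    (hm : ∀ n, (n + 1) * m n ≤ α n) {θ : Src → ℝ≥0∞} (hθ : Measurable θ) :
    ∫⁻ σ, θ σ ∂(refM b₀ t (dmeas m)) + ∫⁻ σ, θ σ ∂(refM b₀ t (kap (dmeas m))) ≤
      ENNReal.ofReal (1 + t) * (ENNReal.ofReal Q + ENNReal.ofReal Q * ENNReal.ofReal Q) *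
        Nm b T l₁ l₂ a t θ := by
  have hκ : SFinite (kap (dmeas m)) := by unfold kap; infer_instance
  have h1 := ref_le hb hbb hT ht hl₁ hl₂ hw.apos (dmeas m) hθ (t := t)
  have h2 := ref_le hb hbb hT ht hl₁ hl₂ hw.apos (kap (dmeas m)) hθ (t := t)
  refine (add_le_add h1 h2).trans ?_
  calc ENNReal.ofReal (1 + t) * (∫⁻ n, ENNReal.ofReal (1 / a n) ∂(dmeas m)) *
        Nm b T l₁ l₂ a t θ + ENNReal.ofReal (1 + t) *
        (∫⁻ n, ENNReal.ofReal (1 / a n) ∂(kap (dmeas m))) * Nm b T l₁ l₂ a t θ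
      ≤ ENNReal.ofReal (1 + t) * ENNReal.ofReal Q * Nm b T l₁ l₂ a t θ +
        ENNReal.ofReal (1 + t) * (ENNReal.ofReal Q * ENNReal.ofReal Q) * Nm b T l₁ l₂ a t θ := by
        gcongr
        · exact inv_dmeas_le hw hm0 hm
        · exact inv_kap_le hw hm0 hm
    _ = _ := by ring

end Vale.Agent.P119.PB.EX
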