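import Vale.Agent.P119.PB.Op2
import Vale.Agent.P119.M.Tree

/-!
# P119, block PROB: line-level estimates for the sums over exhausts (`helper776`)

`refM β T κ`: the reference measure on sources: birth time `δ₀ + 1_{[0,T]} ds`, Gaussian line with
exponent `β`, depth with law `κ`.  `Qm m g`: one more collision with a partner of law `μ m`.
-/

open MeasureTheory Set Filter Topology Metric ProbabilityTheory
open scoped ENNReal

namespace Vale.Agent.P119.PB.EX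

open KU FL M

variable {Φ : E3 → ℝ} {ε : ℝ}

/-! ### The reference measure -/

/-- Time: an atom at `0` and the Lebesgue measure of `[0,T]`. -/
noncomputable def tm (T : ℝ) : Measure ℝ := Measure.dirac 0 + volume.restrict (Icc 0 T)

instance (T : ℝ) : IsFiniteMeasure (tm T) := by
  unfold tm
  have : IsFiniteMeasure (volume.restrict (Icc (0 : ℝ) T)) :=
    ⟨by rw [Measure.restrict_apply MeasurableSet.univ, univ_inter]; exact measure_Icc_lt_top⟩
  infer_instance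

theorem tm_univ {T : ℝ} (hT : 0 ≤ T) : tm T univ = ENNReal.ofReal (1 + T) := by
  unfold tm
  rw [Measure.add_apply, Measure.restrict_apply MeasurableSet.univ, univ_inter, Real.volume_Icc,
    measure_univ, sub_zero, ENNReal.ofReal_add zero_le_one hT, ENNReal.ofReal_one]

/-- Gaussian measure on the lines. -/
noncomputable def gm (β : ℝ) : Measure Ph := (volume : Measure Ph).withDensity fun z => gw β z.2

theorem measurable_gw2 (β : ℝ) : Measurable fun z : Ph => gw β z.2 :=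
  (measurable_gw β).comp measurable_snd

instance (β : ℝ) : SFinite (gm β) := by unfold gm; infer_instance

theorem lintegral_gm (β : ℝ) {F : Ph → ℝ≥0∞} (hF : Measurable F) :
    ∫⁻ z, F z ∂(gm β) = ∫⁻ z : Ph, gw β z.2 * F z := by
  unfold gm
  rw [lintegral_withDensity_eq_lintegral_mul _ (measurable_gw2 β) hF]
  rfl

/-- The reference measure on sources. -/
noncomputable def refM (β T : ℝ) (κ : Measure ℕ) : Measure Src := (tm T).prod ((gm β).prod κ)

instance (β T : ℝ) (κ : Measure ℕ) [SFinite κ] : SFinite (refM β T κ) := by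
  unfold refM; infer_instance

theorem lintegral_refM (β T : ℝ) (κ : Measure ℕ) [SFinite κ] {F : Src → ℝ≥0∞} (hF : Measurable F) :
    ∫⁻ σ, F σ ∂(refM β T κ) = ∫⁻ s, (∫⁻ z : Ph, gw β z.2 * ∫⁻ n, F (s, z, n) ∂κ) ∂(tm T) := by
  unfold refM
  rw [lintegral_prod _ hF.aemeasurable]
  refine lintegral_congr fun s => ?_
  have h1 : Measurable fun p : Ph × ℕ => F (s, p) := hF.comp (measurable_const.prodMk measurable_id)
  rw [lintegral_prod _ h1.aemeasurable, lintegral_gm β h1.lintegral_prod_right']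

theorem ae_tm {T : ℝ} (hT : 0 ≤ T) : ∀ᵐ s ∂(tm T), s ∈ Icc 0 T := by
  unfold tm
  rw [ae_add_measure_iff]
  refine ⟨?_, ae_restrict_mem measurableSet_Icc⟩
  have h2 : (0 : ℝ) ∈ Icc 0 T := ⟨le_rfl, hT⟩
  have h3 : MeasurableSet {s : ℝ | s ∈ Icc 0 T} := measurableSet_Icc
  exact (ae_dirac_iff h3).2 h2

theorem lintegral_refM_le {β T : ℝ} (hT : 0 ≤ T) (κ : Measure ℕ) [IsFiniteMeasure κ]
    {F : Src → ℝ≥0∞} (hF : Measurable F) {G : Ph → ℝ≥0∞}
    (h : ∀ s ∈ Icc 0 T, ∀ z n, F (s, z, n) ≤ G z) :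
    ∫⁻ σ, F σ ∂(refM β T κ) ≤ ENNReal.ofReal (1 + T) * κ univ * ∫⁻ z : Ph, gw β z.2 * G z := by
  rw [lintegral_refM β T κ hF]
  calc ∫⁻ s, (∫⁻ z : Ph, gw β z.2 * ∫⁻ n, F (s, z, n) ∂κ) ∂(tm T)
      ≤ ∫⁻ s, (∫⁻ z : Ph, κ univ * (gw β z.2 * G z)) ∂(tm T) := by
        refine lintegral_mono_ae ((ae_tm hT).mono fun s hs => lintegral_mono fun z => ?_)
        calc gw β z.2 * ∫⁻ n, F (s, z, n) ∂κ ≤ gw β z.2 * ∫⁻ _n, G z ∂κ := by
              gcongr with n; exact h s hs z n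
          _ = _ := by rw [lintegral_const]; ring
    _ = _ := by
        rw [lintegral_const, tm_univ hT, lintegral_const_mul' _ _ (measure_ne_top κ univ)]
        ring

/-! ### Nodes -/

/-- The conditions on the two root sources at a node. -/
def hc (Φ : E3 → ℝ) (ε T : ℝ) (p : Src × Src) : Prop :=
  Meets ε (p.1.2.1, p.2.2.1) ∧ p.1.1 < hitT ε (p.1.2.1, p.2.2.1) ∧
    p.2.1 < hitT ε (p.1.2.1, p.2.2.1) ∧ 0 < hitT ε (p.1.2.1, p.2.2.1) ∧
    hitT ε (p.1.2.1, p.2.2.1) < sepT Φ ε (p.1.2.1, p.2.2.1) ∧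
    sepT Φ ε (p.1.2.1, p.2.2.1) ≤ T

/-- The root source of a node. -/
noncomputable def nd (Φ : E3 → ℝ) (ε : ℝ) (p : Src × Src) : Src :=
  (sepT Φ ε (p.1.2.1, p.2.2.1), (sc2 Φ ε (p.1.2.1, p.2.2.1)).1, max p.1.2.2 p.2.2.2 + 1)

theorem measurable_lines : Measurable fun p : Src × Src => ((p.1.2.1, p.2.2.1) : Ph × Ph) :=
  (measurable_fst.comp (measurable_snd.comp measurable_fst)).prodMk
    (measurable_fst.comp (measurable_snd.comp measurable_snd))

theorem measurableSet_hc (hΦ : IsPotential Φ) (ε T : ℝ) : MeasurableSet {p | hc Φ ε T p} := by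
  have h1 : Measurable fun p : Src × Src => hitT ε (p.1.2.1, p.2.2.1) :=
    measurable_hitT.comp measurable_lines
  have h2 : Measurable fun p : Src × Src => sepT Φ ε (p.1.2.1, p.2.2.1) :=
    (measurable_sepT hΦ).comp measurable_lines
  refine (measurable_lines measurableSet_meets).inter
    ((measurableSet_lt (measurable_fst.comp measurable_fst) h1).inter
    ((measurableSet_lt (measurable_fst.comp measurable_snd) h1).inter
    ((measurableSet_lt measurable_const h1).inter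
    ((measurableSet_lt h1 h2).inter (measurableSet_le h2 measurable_const)))))

theorem measurable_nd (hΦ : IsPotential Φ) (hε : ε ≠ 0) : Measurable (nd Φ ε) := by
  have hd : Measurable fun p : Src × Src => max p.1.2.2 p.2.2.2 + 1 := by
    have h : Measurable fun p : ℕ × ℕ => max p.1 p.2 + 1 := measurable_of_countable _
    exact h.comp ((measurable_snd.comp (measurable_snd.comp measurable_fst)).prodMk
      (measurable_snd.comp (measurable_snd.comp measurable_snd)))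
  exact ((measurable_sepT hΦ).comp measurable_lines).prodMk
    (((measurable_sc2 hΦ hε).comp measurable_lines).fst.prodMk hd)

theorem hc_swap (hΦ : IsPotential Φ) (T : ℝ) (p : Src × Src) :
    hc Φ ε T p.swap ↔ hc Φ ε T p := by
  have e : ((p.swap.1.2.1, p.swap.2.2.1) : Ph × Ph) = ((p.1.2.1, p.2.2.1) : Ph × Ph).swap := rfl
  unfold hc
  rw [e, meets_swap, hitT_swap, sepT_swap hΦ]
  constructor
  · rintro ⟨a, b, c, d⟩; exact ⟨a, c, b, d⟩
  · rintro ⟨a, b, c, d⟩; exact ⟨a, c, b, d⟩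

theorem nd_swap (hΦ : IsPotential Φ) (p : Src × Src) :
    nd Φ ε p.swap = (sepT Φ ε (p.1.2.1, p.2.2.1), (sc2 Φ ε (p.1.2.1, p.2.2.1)).2,
      max p.1.2.2 p.2.2.2 + 1) := by
  have e : ((p.swap.1.2.1, p.swap.2.2.1) : Ph × Ph) = ((p.1.2.1, p.2.2.1) : Ph × Ph).swap := rfl
  unfold nd
  rw [e, sepT_swap hΦ, sc2_swap hΦ, max_comm]
  rfl

/-- The value of `g` at the new source. -/
noncomputable def kf (Φ : E3 → ℝ) (ε T : ℝ) (g : Src → ℝ≥0∞) (p : Src × Src) : ℝ≥0∞ :=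
  {p | hc Φ ε T p}.indicator (fun p => g (nd Φ ε p)) p

theorem measurable_kf (hΦ : IsPotential Φ) (hε : ε ≠ 0) (T : ℝ) {g : Src → ℝ≥0∞}
    (hg : Measurable g) : Measurable (kf Φ ε T g) :=
  (hg.comp (measurable_nd hΦ hε)).indicator (measurableSet_hc hΦ ε T)

/-- One more collision with a partner of law `μ m`. -/
noncomputable def Qm (Φ : E3 → ℝ) (ε T : ℝ) (m : Measure Src) (g : Src → ℝ≥0∞) (σ : Src) : ℝ≥0∞ :=
  muE ε * ∫⁻ σ', (kf Φ ε T g (σ, σ') + kf Φ ε T g (σ', σ)) ∂m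

theorem measurable_Qm (hΦ : IsPotential Φ) (hε : ε ≠ 0) (T : ℝ) (m : Measure Src) [SFinite m]
    {g : Src → ℝ≥0∞} (hg : Measurable g) : Measurable (Qm Φ ε T m g) := by
  unfold Qm
  refine Measurable.const_mul ?_ _
  have h1 := measurable_kf hΦ hε T hg
  have h2 : Measurable fun p : Src × Src => kf Φ ε T g (p.1, p.2) + kf Φ ε T g (p.2, p.1) :=
    h1.add (h1.comp measurable_swap)
  exact h2.lintegral_prod_right'

theorem Qm_mono (T : ℝ) {m : Measure Src} {g g' : Src → ℝ≥0∞}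
    (h : ∀ σ : Src, σ.1 ∈ Icc 0 T → g σ ≤ g' σ) (σ : Src) :
    Qm Φ ε T m g σ ≤ Qm Φ ε T m g' σ := by
  have key : ∀ p, kf Φ ε T g p ≤ kf Φ ε T g' p := by
    intro p
    unfold kf
    by_cases hp : hc Φ ε T p
    · rw [indicator_of_mem (show p ∈ {p | hc Φ ε T p} from hp),
        indicator_of_mem (show p ∈ {p | hc Φ ε T p} from hp)]
      exact h _ ⟨hp.2.2.2.1.le.trans hp.2.2.2.2.1.le, hp.2.2.2.2.2⟩
    · rw [indicator_of_notMem (show p ∉ {p | hc Φ ε T p} from hp)]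
      exact zero_le
  unfold Qm
  gcongr with σ'
  · exact key _
  · exact key _

/-- Bound of `kf g (σ, σ') + kf g (σ', σ)` for a radial majorant of `g`. -/
theorem kf_add_le (hΦ : IsPotential Φ) (hε : ε ≠ 0) {T : ℝ} {g : Src → ℝ≥0∞}
    {φ : ℝ → ℝ≥0∞} {ψ : ℝ → ℝ≥0∞} (hφ : Monotone φ) (hψ : AntitoneOn ψ (Icc 0 T))
    (hg : ∀ σ : Src, σ.1 ∈ Icc 0 T → g σ ≤ ψ σ.1 * φ (‖σ.2.1.2‖ ^ 2)) (σ σ' : Src) :
    kf Φ ε T g (σ, σ') + kf Φ ε T g (σ', σ) ≤
      ({z' : Ph | Meets ε (σ.2.1, z')}).indicator (fun z' =>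
        (Ioo (max σ.1 0) T).indicator (fun τ => 2 * ψ τ) (hitT ε (σ.2.1, z')) *
          φ (‖σ.2.1.2‖ ^ 2 + ‖z'.2‖ ^ 2)) σ'.2.1 := by
  have hs := hc_swap hΦ T (ε := ε) (σ, σ')
  have hn := nd_swap (ε := ε) hΦ (σ, σ')
  simp only [Prod.swap_prod_mk] at hs hn
  by_cases h : hc Φ ε T (σ, σ')
  · obtain ⟨h1, h2, h3, h4, h5, h6⟩ := id h
    simp only at h1 h2 h3 h4 h5 h6
    unfold kf
    rw [indicator_of_mem (show (σ, σ') ∈ {p | hc Φ ε T p} from h),
      indicator_of_mem (show (σ', σ) ∈ {p | hc Φ ε T p} from hs.2 h), hn,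
      indicator_of_mem (show σ'.2.1 ∈ {z' : Ph | Meets ε (σ.2.1, z')} from h1)]
    have hmem : hitT ε (σ.2.1, σ'.2.1) ∈ Ioo (max σ.1 0) T :=
      ⟨max_lt h2 h4, h5.trans_le h6⟩
    rw [indicator_of_mem hmem]
    have hT1 : hitT ε (σ.2.1, σ'.2.1) ∈ Icc 0 T := ⟨h4.le, (h5.trans_le h6).le⟩
    have hT2 : sepT Φ ε (σ.2.1, σ'.2.1) ∈ Icc 0 T := ⟨(h4.trans h5).le, h6⟩
    have hψ' := hψ hT1 hT2 h5.le
    have hen := energy_sc2 hΦ hε (σ.2.1, σ'.2.1)
    simp only at hen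
    have e1 : ‖(sc2 Φ ε (σ.2.1, σ'.2.1)).1.2‖ ^ 2 ≤ ‖σ.2.1.2‖ ^ 2 + ‖σ'.2.1.2‖ ^ 2 := by
      have := sq_nonneg ‖(sc2 Φ ε (σ.2.1, σ'.2.1)).2.2‖
      linarith
    have e2 : ‖(sc2 Φ ε (σ.2.1, σ'.2.1)).2.2‖ ^ 2 ≤ ‖σ.2.1.2‖ ^ 2 + ‖σ'.2.1.2‖ ^ 2 := by
      have := sq_nonneg ‖(sc2 Φ ε (σ.2.1, σ'.2.1)).1.2‖
      linarith
    have g1 : g (nd Φ ε (σ, σ')) ≤ ψ (hitT ε (σ.2.1, σ'.2.1)) *
        φ (‖σ.2.1.2‖ ^ 2 + ‖σ'.2.1.2‖ ^ 2) :=
      (hg _ hT2).trans (mul_le_mul' hψ' (hφ e1))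
    have g2 : g (sepT Φ ε (σ.2.1, σ'.2.1), (sc2 Φ ε (σ.2.1, σ'.2.1)).2,
        max σ.2.2 σ'.2.2 + 1) ≤ ψ (hitT ε (σ.2.1, σ'.2.1)) *
        φ (‖σ.2.1.2‖ ^ 2 + ‖σ'.2.1.2‖ ^ 2) :=
      (hg _ hT2).trans (mul_le_mul' hψ' (hφ e2))
    refine (add_le_add g1 g2).trans (le_of_eq ?_)
    ring
  · unfold kf
    rw [indicator_of_notMem (show (σ, σ') ∉ {p | hc Φ ε T p} from h),
      indicator_of_notMem (show (σ', σ) ∉ {p | hc Φ ε T p} from fun h' => h (hs.1 h')), add_zero]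
    exact zero_le

/-- **One step**: partner with the reference law. -/
theorem Qm_refM_le (hΦ : IsPotential Φ) (hε : 0 < ε) {β T : ℝ} (hT : 0 ≤ T) (κ : Measure ℕ)
    [IsFiniteMeasure κ] {g : Src → ℝ≥0∞} (hgm : Measurable g)
    {φ : ℝ → ℝ≥0∞} {ψ : ℝ → ℝ≥0∞} (hφ : Monotone φ) (hψ : AntitoneOn ψ (Icc 0 T))
    (hψm : Measurable ψ)
    (hg : ∀ σ : Src, σ.1 ∈ Icc 0 T → g σ ≤ ψ σ.1 * φ (‖σ.2.1.2‖ ^ 2)) (σ : Src) :
    Qm Φ ε T (refM β T κ) g σ ≤ ENNReal.ofReal (1 + T) * κ univ * (ENNReal.ofReal Real.pi *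
      ((∫⁻ τ in Ioo (max σ.1 0) T, 2 * ψ τ) *
        ∫⁻ u : E3, ‖σ.2.1.2 - u‖ₑ * (gw β u * φ (‖σ.2.1.2‖ ^ 2 + ‖u‖ ^ 2)))) := by
  have hφm : Measurable φ := hφ.measurable
  have hkm := measurable_kf hΦ hε.ne' T hgm
  have h1 : Measurable fun σ' : Src => kf Φ ε T g (σ, σ') + kf Φ ε T g (σ', σ) :=
    (hkm.comp (measurable_const.prodMk measurable_id)).add
      (hkm.comp (measurable_id.prodMk measurable_const))
  set G : Ph → ℝ≥0∞ := ({z' : Ph | Meets ε (σ.2.1, z')}).indicator (fun z' =>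
        (Ioo (max σ.1 0) T).indicator (fun τ => 2 * ψ τ) (hitT ε (σ.2.1, z')) *
          φ (‖σ.2.1.2‖ ^ 2 + ‖z'.2‖ ^ 2)) with hG
  have h2 := lintegral_refM_le (β := β) hT κ h1 (G := G)
    (fun s _ z n => kf_add_le hΦ hε.ne' hφ hψ hg σ (s, z, n))
  have hms : MeasurableSet {z' : Ph | Meets ε (σ.2.1, z')} :=
    measurable_prodMk_left measurableSet_meets
  have hind : Measurable ((Ioo (max σ.1 0) T).indicator fun τ => 2 * ψ τ) :=
    (hψm.const_mul 2).indicator measurableSet_Ioo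
  set H : ℝ → E3 → ℝ≥0∞ := fun τ u => (Ioo (max σ.1 0) T).indicator (fun τ => 2 * ψ τ) τ *
    (gw β u * φ (‖σ.2.1.2‖ ^ 2 + ‖u‖ ^ 2)) with hH
  have hwm : Measurable fun u : E3 => gw β u * φ (‖σ.2.1.2‖ ^ 2 + ‖u‖ ^ 2) :=
    (measurable_gw β).mul (hφm.comp (by fun_prop))
  have hHm : Measurable fun q : ℝ × E3 => H q.1 q.2 :=
    (hind.comp measurable_fst).mul (hwm.comp measurable_snd)
  have h3 : ∫⁻ z : Ph, gw β z.2 * G z = ∫⁻ z in {z' : Ph | Meets ε (σ.2.1, z')},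
      H (hitT ε (σ.2.1, z)) z.2 := by
    rw [← lintegral_indicator hms]
    refine lintegral_congr fun z => ?_
    rw [hG, hH]
    by_cases h : Meets ε (σ.2.1, z)
    · rw [indicator_of_mem (show z ∈ {z' : Ph | Meets ε (σ.2.1, z')} from h),
        indicator_of_mem (show z ∈ {z' : Ph | Meets ε (σ.2.1, z')} from h)]
      ring
    · rw [indicator_of_notMem (show z ∉ {z' : Ph | Meets ε (σ.2.1, z')} from h),
        indicator_of_notMem (show z ∉ {z' : Ph | Meets ε (σ.2.1, z')} from h), mul_zero]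
  have h4 := lintegral_hit hε σ.2.1 hHm
  have h5 : ∀ u : E3, ∫⁻ τ, H τ u = (∫⁻ τ in Ioo (max σ.1 0) T, 2 * ψ τ) *
      (gw β u * φ (‖σ.2.1.2‖ ^ 2 + ‖u‖ ^ 2)) := by
    intro u
    rw [hH]
    simp only
    rw [lintegral_mul_const _ hind, lintegral_indicator measurableSet_Ioo]
  have hm6 : Measurable fun u : E3 =>
      ‖σ.2.1.2 - u‖ₑ * (gw β u * φ (‖σ.2.1.2‖ ^ 2 + ‖u‖ ^ 2)) :=
    (by fun_prop : Measurable fun u : E3 => ‖σ.2.1.2 - u‖ₑ).mul hwm
  have h6 : ∀ c : ℝ≥0∞, ∫⁻ u : E3, ‖σ.2.1.2 - u‖ₑ *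
      (c * (gw β u * φ (‖σ.2.1.2‖ ^ 2 + ‖u‖ ^ 2))) =
      c * ∫⁻ u : E3, ‖σ.2.1.2 - u‖ₑ * (gw β u * φ (‖σ.2.1.2‖ ^ 2 + ‖u‖ ^ 2)) := fun c => by
    rw [← lintegral_const_mul _ hm6]
    refine lintegral_congr fun u => ?_
    ring
  unfold Qm
  calc muE ε * ∫⁻ σ', (kf Φ ε T g (σ, σ') + kf Φ ε T g (σ', σ)) ∂(refM β T κ)
      ≤ muE ε * (ENNReal.ofReal (1 + T) * κ univ * ∫⁻ z : Ph, gw β z.2 * G z) := by gcongr
    _ = muE ε * (ENNReal.ofReal (1 + T) * κ univ * (ENNReal.ofReal (ε ^ 2) *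
        (ENNReal.ofReal Real.pi * ∫⁻ u : E3, ‖σ.2.1.2 - u‖ₑ *
          ((∫⁻ τ in Ioo (max σ.1 0) T, 2 * ψ τ) *
          (gw β u * φ (‖σ.2.1.2‖ ^ 2 + ‖u‖ ^ 2)))))) := by
        rw [h3, h4]
        simp_rw [h5]
    _ = (muE ε * ENNReal.ofReal (ε ^ 2)) * (ENNReal.ofReal (1 + T) * κ univ *
        (ENNReal.ofReal Real.pi * ((∫⁻ τ in Ioo (max σ.1 0) T, 2 * ψ τ) * ∫⁻ u : E3,
          ‖σ.2.1.2 - u‖ₑ * (gw β u * φ (‖σ.2.1.2‖ ^ 2 + ‖u‖ ^ 2))))) := by
        rw [h6]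
        ring
    _ = _ := by rw [muE_mul hε, one_mul]

/-! ### Exponential weights -/

/-- The constant of one step. -/
noncomputable def Ks (b : ℝ) : ℝ := 2 * Real.pi * (1 + 1 / √(b / 2)) * (I0 b).toReal

theorem Ks_nonneg (b : ℝ) : 0 ≤ Ks b := by unfold Ks; positivity

theorem one_step_exp (hΦ : IsPotential Φ) (hε : 0 < ε) {b T : ℝ} (hb : 0 < b) (hT : 0 ≤ T)
    (κ : Measure ℕ) [IsFiniteMeasure κ] {g : Src → ℝ≥0∞} (hgm : Measurable g) {A c M : ℝ}
    (hA : 0 ≤ A) (hc0 : 0 ≤ c) (hc : c ≤ b / 2) (hM : 1 ≤ M) (m : ℕ)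
    (hg : ∀ σ : Src, σ.1 ∈ Icc 0 T → g σ ≤
      ENNReal.ofReal (A * ((T - σ.1) ^ m / m.factorial) * Real.exp (c * ‖σ.2.1.2‖ ^ 2)))
    (σ : Src) (hσ : σ.1 ∈ Icc 0 T) :
    Qm Φ ε T (refM b T κ) g σ ≤ ENNReal.ofReal (1 + T) * κ univ *
      ENNReal.ofReal (A * (Ks b * √M) * ((T - σ.1) ^ (m + 1) / (m + 1).factorial) *
        Real.exp ((c + b / (4 * M)) * ‖σ.2.1.2‖ ^ 2)) := by
  set φ : ℝ → ℝ≥0∞ := fun x => ENNReal.ofReal (Real.exp (c * x)) with hφ
  set ψ : ℝ → ℝ≥0∞ := fun τ => ENNReal.ofReal (A / m.factorial) *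
    ENNReal.ofReal ((T - τ) ^ m) with hψ
  have hφmono : Monotone φ := fun x y h => by
    simp only [hφ]
    apply ENNReal.ofReal_le_ofReal
    apply Real.exp_le_exp.2
    gcongr
  have hψanti : AntitoneOn ψ (Icc 0 T) := fun x hx y hy h => by
    simp only [hψ]
    gcongr
    linarith [hy.2]
  have hψm : Measurable ψ := by
    simp only [hψ]
    fun_prop
  have hg' : ∀ σ : Src, σ.1 ∈ Icc 0 T → g σ ≤ ψ σ.1 * φ (‖σ.2.1.2‖ ^ 2) := fun σ hσ => by
    refine (hg σ hσ).trans (le_of_eq ?_)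
    have h0 : 0 ≤ T - σ.1 := sub_nonneg.2 hσ.2
    simp only [hφ, hψ]
    rw [← ENNReal.ofReal_mul (by positivity), ← ENNReal.ofReal_mul (by positivity)]
    congr 2
    ring
  refine (Qm_refM_le hΦ hε hT κ hgm hφmono hψanti hψm hg' σ).trans ?_
  gcongr
  rw [max_eq_left hσ.1]
  have h1 : ∫⁻ τ in Ioo σ.1 T, 2 * ψ τ =
      ENNReal.ofReal (2 * A * ((T - σ.1) ^ (m + 1) / (m + 1).factorial)) := by
    have : ∀ τ, 2 * ψ τ = ENNReal.ofReal (2 * (A / m.factorial)) * ENNReal.ofReal ((T - τ) ^ m) := by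
      intro τ
      simp only [hψ]
      rw [← mul_assoc, ENNReal.ofReal_mul (p := 2) (by norm_num)]
      norm_num
    simp_rw [this]
    rw [lintegral_const_mul' _ _ ENNReal.ofReal_ne_top, lintegral_pow hσ.2 m,
      ← ENNReal.ofReal_mul (by positivity)]
    congr 1
    rw [Nat.factorial_succ]
    push_cast
    field_simp
  have h2 : ∫⁻ u : E3, ‖σ.2.1.2 - u‖ₑ * (gw b u * φ (‖σ.2.1.2‖ ^ 2 + ‖u‖ ^ 2)) ≤
      ENNReal.ofReal (Real.exp (c * ‖σ.2.1.2‖ ^ 2)) *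
        (ENNReal.ofReal (1 + ‖σ.2.1.2‖) * I0 b) := by
    have h3 : ∀ u : E3, ‖σ.2.1.2 - u‖ₑ * (gw b u * φ (‖σ.2.1.2‖ ^ 2 + ‖u‖ ^ 2)) =
        ENNReal.ofReal (Real.exp (c * ‖σ.2.1.2‖ ^ 2)) * (‖σ.2.1.2 - u‖ₑ *
          ENNReal.ofReal (Real.exp (-b * ‖u‖ ^ 2) * Real.exp (c * ‖u‖ ^ 2))) := by
      intro u
      simp only [hφ, gw]
      rw [ENNReal.ofReal_mul (Real.exp_nonneg (-b * ‖u‖ ^ 2)), mul_add, Real.exp_add,
        ENNReal.ofReal_mul (Real.exp_nonneg (c * ‖σ.2.1.2‖ ^ 2))]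
      ring
    simp_rw [h3]
    rw [lintegral_const_mul' _ _ ENNReal.ofReal_ne_top]
    gcongr
    exact lintegral_vel_le _ hc
  rw [h1]
  calc ENNReal.ofReal Real.pi * (ENNReal.ofReal (2 * A * ((T - σ.1) ^ (m + 1) / (m + 1).factorial)) *
        ∫⁻ u : E3, ‖σ.2.1.2 - u‖ₑ * (gw b u * φ (‖σ.2.1.2‖ ^ 2 + ‖u‖ ^ 2)))
      ≤ ENNReal.ofReal Real.pi * (ENNReal.ofReal (2 * A * ((T - σ.1) ^ (m + 1) /
        (m + 1).factorial)) * (ENNReal.ofReal (Real.exp (c * ‖σ.2.1.2‖ ^ 2)) *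
        (ENNReal.ofReal (1 + ‖σ.2.1.2‖) * I0 b))) := by gcongr
    _ ≤ _ := by
        have h0 : 0 ≤ T - σ.1 := sub_nonneg.2 hσ.2
        have hI : I0 b = ENNReal.ofReal (I0 b).toReal := (ENNReal.ofReal_toReal (I0_ne_top hb)).symm
        have hI0 : 0 ≤ (I0 b).toReal := ENNReal.toReal_nonneg
        rw [hI, ← ENNReal.ofReal_mul (by positivity), ← ENNReal.ofReal_mul (by positivity),
          ← ENNReal.ofReal_mul (by positivity), ← ENNReal.ofReal_mul (by positivity)]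
        apply ENNReal.ofReal_le_ofReal
        have h4 := one_add_le (x := ‖σ.2.1.2‖) (half_pos hb) hM
        have h5 : b / 2 / (2 * M) = b / (4 * M) := by ring
        rw [h5] at h4
        have h6 : Real.exp ((c + b / (4 * M)) * ‖σ.2.1.2‖ ^ 2) =
            Real.exp (c * ‖σ.2.1.2‖ ^ 2) * Real.exp (b / (4 * M) * ‖σ.2.1.2‖ ^ 2) := by
          rw [← Real.exp_add]; ring_nf
        rw [h6]
        set X := (T - σ.1) ^ (m + 1) / ((m + 1).factorial : ℝ) with hX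
        have hX0 : 0 ≤ X := by rw [hX]; positivity
        calc Real.pi * (2 * A * X * (Real.exp (c * ‖σ.2.1.2‖ ^ 2) *
              ((1 + ‖σ.2.1.2‖) * (I0 b).toReal)))
            ≤ Real.pi * (2 * A * X * (Real.exp (c * ‖σ.2.1.2‖ ^ 2) *
              ((√M * (1 + 1 / √(b / 2)) * Real.exp (b / (4 * M) * ‖σ.2.1.2‖ ^ 2)) *
                (I0 b).toReal))) := by gcongr
          _ = _ := by unfold Ks; ring

/-- The iteration, with a parameter `M`. -/
theorem iter_exp_aux (hΦ : IsPotential Φ) (hε : 0 < ε) {b T : ℝ} (hb : 0 < b) (hT : 0 ≤ T)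
    (κ : Measure ℕ) [IsFiniteMeasure κ] {N : ℝ} (hN0 : 0 ≤ N)
    (hN : ENNReal.ofReal (1 + T) * κ univ ≤ ENNReal.ofReal N) {g : Src → ℝ≥0∞}
    (hgm : Measurable g) {A : ℝ} (hA : 0 ≤ A) {M : ℕ} (hM : 1 ≤ M)
    (hg : ∀ σ : Src, σ.1 ∈ Icc 0 T → g σ ≤
      ENNReal.ofReal (A * Real.exp (b / 4 * ‖σ.2.1.2‖ ^ 2))) :
    ∀ k ≤ M, ∀ σ : Src, σ.1 ∈ Icc 0 T → (Qm Φ ε T (refM b T κ))^[k] g σ ≤
      ENNReal.ofReal (A * (N * (Ks b * √M)) ^ k * ((T - σ.1) ^ k / k.factorial) *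
        Real.exp ((b / 4 + b / (4 * M) * k) * ‖σ.2.1.2‖ ^ 2)) := by
  have hM1 : (1 : ℝ) ≤ M := by exact_mod_cast hM
  have hM0 : (0 : ℝ) < M := by linarith
  intro k
  induction k with
  | zero =>
    intro _ σ hσ
    simpa using hg σ hσ
  | succ k ih =>
    intro hk σ hσ
    have hk' : (k : ℝ) + 1 ≤ M := by exact_mod_cast hk
    have hmeas : ∀ k, Measurable ((Qm Φ ε T (refM b T κ))^[k] g) := by
      intro k
      induction k with
      | zero => exact hgm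
      | succ k ihk =>
        rw [Function.iterate_succ_apply']
        exact measurable_Qm hΦ hε.ne' T _ ihk
    rw [Function.iterate_succ_apply']
    have hc : b / 4 + b / (4 * M) * k ≤ b / 2 := by
      have : b / (4 * M) * k ≤ b / (4 * M) * M := by
        have : (k : ℝ) ≤ M := by linarith
        gcongr
      have h2 : b / (4 * M) * M = b / 4 := by field_simp
      linarith
    have h1 := one_step_exp hΦ hε hb hT κ (hmeas k) (A := A * (N * (Ks b * √M)) ^ k)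
      (c := b / 4 + b / (4 * M) * k) (M := M)
      (mul_nonneg hA (pow_nonneg (mul_nonneg hN0 (mul_nonneg (Ks_nonneg b) (Real.sqrt_nonneg _))) _))
      (by positivity) hc hM1 k (ih (Nat.le_of_succ_le hk)) σ hσ
    refine h1.trans ?_
    refine (mul_le_mul' hN le_rfl).trans (le_of_eq ?_)
    rw [← ENNReal.ofReal_mul hN0]
    congr 1
    have e1 : (b / 4 + b / (4 * M) * ((k + 1 : ℕ) : ℝ)) = b / 4 + b / (4 * M) * k + b / (4 * M) := by
      push_cast; ring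
    rw [e1]
    ring

/-- **The iterates have a uniform Gaussian bound, summable in the number of steps.** -/
theorem iter_exp (hΦ : IsPotential Φ) (hε : 0 < ε) {b T : ℝ} (hb : 0 < b) (hT : 0 ≤ T)
    (κ : Measure ℕ) [IsFiniteMeasure κ] {N : ℝ} (hN0 : 0 ≤ N)
    (hN : ENNReal.ofReal (1 + T) * κ univ ≤ ENNReal.ofReal N) {g : Src → ℝ≥0∞}
    (hgm : Measurable g) {A : ℝ} (hA : 0 ≤ A)
    (hg : ∀ σ : Src, σ.1 ∈ Icc 0 T → g σ ≤
      ENNReal.ofReal (A * Real.exp (b / 4 * ‖σ.2.1.2‖ ^ 2)))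
    (k : ℕ) (σ : Src) (hσ : σ.1 ∈ Icc 0 T) : (Qm Φ ε T (refM b T κ))^[k] g σ ≤
      ENNReal.ofReal (A * ((N * Ks b * √(Real.exp 1) * T) ^ k / √(k.factorial : ℝ)) *
        Real.exp (b / 2 * ‖σ.2.1.2‖ ^ 2)) := by
  rcases Nat.eq_zero_or_pos k with rfl | hk
  · refine (hg σ hσ).trans (ENNReal.ofReal_le_ofReal ?_)
    simp only [pow_zero, Nat.factorial_zero, Nat.cast_one, Real.sqrt_one, div_one, mul_one]
    gcongr
    linarith
  · have hk0 : (0 : ℝ) < k := by exact_mod_cast hk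
    refine (iter_exp_aux hΦ hε hb hT κ hN0 hN hgm hA hk hg k le_rfl σ hσ).trans
      (ENNReal.ofReal_le_ofReal ?_)
    have e1 : b / 4 + b / (4 * (k : ℝ)) * k = b / 2 := by field_simp; ring
    rw [e1]
    have hNK : 0 ≤ N * Ks b := mul_nonneg hN0 (Ks_nonneg b)
    have h0 : 0 ≤ T - σ.1 := sub_nonneg.2 hσ.2
    have h1 := sqrt_pow_div_factorial_le k
    have h2 : (N * (Ks b * √(k : ℝ))) ^ k * ((T - σ.1) ^ k / k.factorial) =
        (N * Ks b * (T - σ.1)) ^ k * ((√(k : ℝ)) ^ k / k.factorial) := by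
      rw [← mul_assoc, mul_pow (N * Ks b) (√(k : ℝ)), mul_pow (N * Ks b) (T - σ.1)]
      ring
    have h3 : (N * Ks b * (T - σ.1)) ^ k ≤ (N * Ks b * T) ^ k := by
      have := hσ.1
      gcongr
      linarith
    calc A * (N * (Ks b * √(k : ℝ))) ^ k * ((T - σ.1) ^ k / k.factorial) *
          Real.exp (b / 2 * ‖σ.2.1.2‖ ^ 2)
        = A * ((N * Ks b * (T - σ.1)) ^ k * ((√(k : ℝ)) ^ k / k.factorial)) *
          Real.exp (b / 2 * ‖σ.2.1.2‖ ^ 2) := by rw [mul_assoc A, h2]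
      _ ≤ A * ((N * Ks b * T) ^ k * ((√(Real.exp 1)) ^ k / √(k.factorial : ℝ))) *
          Real.exp (b / 2 * ‖σ.2.1.2‖ ^ 2) := by
          gcongr
      _ = _ := by
          rw [mul_pow (N * Ks b * √(Real.exp 1)), mul_pow (N * Ks b), mul_pow (N * Ks b)]
          ring

/-! ### Polynomial weights -/

/-- Powers are dominated by Gaussians. -/
theorem exists_pow_le (q : ℕ) {c : ℝ} (hc : 0 < c) :
    ∃ A : ℝ, 0 ≤ A ∧ ∀ x : ℝ, 0 ≤ x → (1 + x) ^ q ≤ A * Real.exp (c * x ^ 2) := by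
  set b : ℝ := 2 * c / (q + 1) with hb
  have hb0 : 0 < b := by positivity
  refine ⟨(√1 * (1 + 1 / √b)) ^ q, by positivity, fun x hx => ?_⟩
  have h1 := one_add_le (x := x) hb0 (M := 1) le_rfl
  calc (1 + x) ^ q ≤ (√1 * (1 + 1 / √b) * Real.exp (b / (2 * 1) * x ^ 2)) ^ q := by gcongr
    _ = (√1 * (1 + 1 / √b)) ^ q * Real.exp (q * (b / (2 * 1) * x ^ 2)) := by
        rw [mul_pow, ← Real.exp_nat_mul]
    _ ≤ _ := by
        refine mul_le_mul_of_nonneg_left (Real.exp_le_exp.2 ?_) (by positivity)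
        have : (q : ℝ) * (b / (2 * 1) * x ^ 2) = c * x ^ 2 * (q / (q + 1)) := by
          rw [hb]; field_simp
        rw [this]
        have h2 : (q : ℝ) / (q + 1) ≤ 1 := by rw [div_le_one (by positivity)]; linarith
        have h3 : 0 ≤ c * x ^ 2 := by positivity
        nlinarith

/-- Gaussian moments. -/
noncomputable def Jp (β : ℝ) (p : ℕ) : ℝ≥0∞ :=
  ∫⁻ u : E3, ENNReal.ofReal ((1 + ‖u‖) ^ (p + 1)) * gw β u

theorem Jp_ne_top {β : ℝ} (hβ : 0 < β) (p : ℕ) : Jp β p ≠ ∞ := by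
  obtain ⟨A, hA, h⟩ := exists_pow_le (p + 1) (half_pos hβ)
  have h3 : Integrable (fun u : E3 => A * Real.exp (-(β / 2) * ‖u‖ ^ 2)) :=
    (integrable_gauss (by positivity)).const_mul _
  refine (lt_of_le_of_lt (lintegral_mono fun u => ?_) h3.lintegral_lt_top).ne
  unfold gw
  rw [← ENNReal.ofReal_mul (by positivity)]
  apply ENNReal.ofReal_le_ofReal
  calc (1 + ‖u‖) ^ (p + 1) * Real.exp (-β * ‖u‖ ^ 2)
      ≤ (A * Real.exp (β / 2 * ‖u‖ ^ 2)) * Real.exp (-β * ‖u‖ ^ 2) := by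
        gcongr; exact h _ (norm_nonneg u)
    _ = _ := by rw [mul_assoc, ← Real.exp_add]; ring_nf

theorem one_step_poly (hΦ : IsPotential Φ) (hε : 0 < ε) {β T : ℝ} (hT : 0 ≤ T)
    (κ : Measure ℕ) [IsFiniteMeasure κ] {g : Src → ℝ≥0∞} (hgm : Measurable g) {A : ℝ≥0∞} (p : ℕ)
    (hg : ∀ σ : Src, σ.1 ∈ Icc 0 T → g σ ≤ A * ENNReal.ofReal ((1 + ‖σ.2.1.2‖) ^ p))
    (σ : Src) :
    Qm Φ ε T (refM β T κ) g σ ≤ ENNReal.ofReal (1 + T) * κ univ *
      (A * (ENNReal.ofReal (2 * Real.pi * T) * Jp β p)) *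
        ENNReal.ofReal ((1 + ‖σ.2.1.2‖) ^ (p + 1)) := by
  set φ : ℝ → ℝ≥0∞ := fun x => ENNReal.ofReal ((1 + √x) ^ p) with hφ
  set ψ : ℝ → ℝ≥0∞ := fun _ => A with hψ
  have hφmono : Monotone φ := fun x y h => by
    simp only [hφ]
    apply ENNReal.ofReal_le_ofReal
    gcongr
  have hg' : ∀ σ : Src, σ.1 ∈ Icc 0 T → g σ ≤ ψ σ.1 * φ (‖σ.2.1.2‖ ^ 2) := fun σ hσ => by
    refine (hg σ hσ).trans (le_of_eq ?_)
    simp only [hφ, hψ]
    rw [Real.sqrt_sq (norm_nonneg _)]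
  refine (Qm_refM_le hΦ hε hT κ hgm hφmono (fun x _ y _ _ => le_rfl) measurable_const hg' σ).trans ?_
  have h1 : ∫⁻ τ in Ioo (max σ.1 0) T, 2 * ψ τ ≤ 2 * A * ENNReal.ofReal T := by
    simp only [hψ]
    rw [setLIntegral_const, Real.volume_Ioo]
    gcongr
    have := le_max_right σ.1 0
    linarith
  have h2 : ∫⁻ u : E3, ‖σ.2.1.2 - u‖ₑ * (gw β u * φ (‖σ.2.1.2‖ ^ 2 + ‖u‖ ^ 2)) ≤
      ENNReal.ofReal ((1 + ‖σ.2.1.2‖) ^ (p + 1)) * Jp β p := by
    unfold Jp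
    rw [← lintegral_const_mul' _ _ ENNReal.ofReal_ne_top]
    refine lintegral_mono fun u => ?_
    simp only [hφ]
    rw [← ofReal_norm]
    have h3 : ‖σ.2.1.2 - u‖ ≤ (1 + ‖σ.2.1.2‖) * (1 + ‖u‖) := by
      have := norm_sub_le σ.2.1.2 u
      nlinarith [mul_nonneg (norm_nonneg σ.2.1.2) (norm_nonneg u)]
    have h4 : 1 + √(‖σ.2.1.2‖ ^ 2 + ‖u‖ ^ 2) ≤ (1 + ‖σ.2.1.2‖) * (1 + ‖u‖) := by
      have h5 : √(‖σ.2.1.2‖ ^ 2 + ‖u‖ ^ 2) ≤ ‖σ.2.1.2‖ + ‖u‖ := by
        rw [Real.sqrt_le_left (by positivity)]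
        nlinarith [mul_nonneg (norm_nonneg σ.2.1.2) (norm_nonneg u)]
      nlinarith [mul_nonneg (norm_nonneg σ.2.1.2) (norm_nonneg u)]
    calc ENNReal.ofReal ‖σ.2.1.2 - u‖ * (gw β u *
          ENNReal.ofReal ((1 + √(‖σ.2.1.2‖ ^ 2 + ‖u‖ ^ 2)) ^ p))
        ≤ ENNReal.ofReal ((1 + ‖σ.2.1.2‖) * (1 + ‖u‖)) * (gw β u *
          ENNReal.ofReal (((1 + ‖σ.2.1.2‖) * (1 + ‖u‖)) ^ p)) := by gcongr
      _ = ENNReal.ofReal (((1 + ‖σ.2.1.2‖) * (1 + ‖u‖)) ^ (p + 1)) * gw β u := by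
          rw [pow_succ, ENNReal.ofReal_mul (p := ((1 + ‖σ.2.1.2‖) * (1 + ‖u‖)) ^ p)
            (by positivity)]
          ring
      _ = _ := by
          rw [mul_pow, ENNReal.ofReal_mul (by positivity)]
          ring
  calc ENNReal.ofReal (1 + T) * κ univ * (ENNReal.ofReal Real.pi *
        ((∫⁻ τ in Ioo (max σ.1 0) T, 2 * ψ τ) *
          ∫⁻ u : E3, ‖σ.2.1.2 - u‖ₑ * (gw β u * φ (‖σ.2.1.2‖ ^ 2 + ‖u‖ ^ 2))))
      ≤ ENNReal.ofReal (1 + T) * κ univ * (ENNReal.ofReal Real.pi *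
        ((2 * A * ENNReal.ofReal T) * (ENNReal.ofReal ((1 + ‖σ.2.1.2‖) ^ (p + 1)) * Jp β p))) := by
        gcongr
    _ = _ := by
        rw [ENNReal.ofReal_mul (p := 2 * Real.pi) (by positivity),
          ENNReal.ofReal_mul (p := 2) (by norm_num)]
        norm_num
        ring

theorem iter_poly (hΦ : IsPotential Φ) (hε : 0 < ε) {β T : ℝ} (hT : 0 ≤ T)
    (κ : Measure ℕ) [IsFiniteMeasure κ] {g : Src → ℝ≥0∞} (hgm : Measurable g) {A : ℝ≥0∞} (p : ℕ)
    (hg : ∀ σ : Src, σ.1 ∈ Icc 0 T → g σ ≤ A * ENNReal.ofReal ((1 + ‖σ.2.1.2‖) ^ p)) (k : ℕ) :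
    ∀ σ : Src, σ.1 ∈ Icc 0 T → (Qm Φ ε T (refM β T κ))^[k] g σ ≤
      (∏ i ∈ Finset.range k, (ENNReal.ofReal (1 + T) * κ univ *
        (ENNReal.ofReal (2 * Real.pi * T) * Jp β (p + i)))) * A *
        ENNReal.ofReal ((1 + ‖σ.2.1.2‖) ^ (p + k)) := by
  induction k with
  | zero => intro σ hσ; simpa using hg σ hσ
  | succ k ih =>
    intro σ _
    have hmeas : ∀ k, Measurable ((Qm Φ ε T (refM β T κ))^[k] g) := by
      intro k
      induction k with
      | zero => exact hgm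
      | succ k ihk =>
        rw [Function.iterate_succ_apply']
        exact measurable_Qm hΦ hε.ne' T _ ihk
    rw [Function.iterate_succ_apply']
    refine (one_step_poly hΦ hε hT κ (hmeas k) (p + k) ih σ).trans (le_of_eq ?_)
    rw [Finset.prod_range_succ, add_assoc]
    ring

theorem measurable_iter (hΦ : IsPotential Φ) (hε : 0 < ε) {T : ℝ} (m : Measure Src) [SFinite m]
    {g : Src → ℝ≥0∞} (hgm : Measurable g) (k : ℕ) : Measurable ((Qm Φ ε T m)^[k] g) := by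
  induction k with
  | zero => exact hgm
  | succ k ihk =>
    rw [Function.iterate_succ_apply']
    exact measurable_Qm hΦ hε.ne' T _ ihk

/-! ### The first node -/

/-- The law of (separation time, second outgoing line) with a Gaussian weight on the first outgoing
line. -/
theorem flux_node (hΦ : IsPotential Φ) (hε : 0 < ε) {b c t : ℝ} (hc : 0 < c) 
    {θ : ℝ × Ph → ℝ≥0∞} (hθ : Measurable θ) :
    ∫⁻ q in {q : Ph × Ph | Meets ε q ∧ 0 < hitT ε q}, gw b q.1.2 * gw b q.2.2 *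
        (ENNReal.ofReal (Real.exp ((b - c) * ‖(sc2 Φ ε q).1.2‖ ^ 2)) *
        (Iic t).indicator (fun τ => θ (τ, (sc2 Φ ε q).2)) (sepT Φ ε q)) ≤
      ENNReal.ofReal (ε ^ 2) * (ENNReal.ofReal Real.pi * I0 c) *
        ∫⁻ τ in Ioc 0 t, ∫⁻ z : Ph, gw b z.2 * ENNReal.ofReal (1 + ‖z.2‖) * θ (τ, z) := by
  refine le_trans ?_ (flux_pair (fluxTime_outT hε) hc le_rfl
    (w := fun z => gw b z.2) ((measurable_gw b).comp measurable_snd) hθ)
  have hMs : MeasurableSet {q : Ph × Ph | Meets ε q} := measurableSet_meets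
  set H : Ph × Ph → ℝ≥0∞ := fun q => gw b q.1.2 * gw c q.2.2 *
    (Ioc 0 t).indicator (fun τ => θ (τ, q.1)) (outT ε q) with hH
  have hI := measurable_tind (s := 0) (t := t) hθ
  have hHm : Measurable H :=
    (((measurable_gw b).comp measurable_fst.snd).mul
      ((measurable_gw c).comp measurable_snd.snd)).mul
      (hI.comp (measurable_outT.prodMk measurable_fst))
  rw [← lintegral_meets_swap hHm]
  have hHs : Measurable fun q : Ph × Ph => H q.swap := hHm.comp measurable_swap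
  rw [← (measurePreserving_sc2 hΦ hε.ne').setLIntegral_comp_preimage hMs hHs]
  have e : sc2 Φ ε ⁻¹' {q : Ph × Ph | Meets ε q} = {q : Ph × Ph | Meets ε q} := by
    ext q; exact meets_sc2 hΦ hε.ne' q
  rw [e]
  have hS : MeasurableSet {q : Ph × Ph | Meets ε q ∧ 0 < hitT ε q} :=
    hMs.inter (measurableSet_lt measurable_const measurable_hitT)
  rw [← lintegral_indicator hS, ← lintegral_indicator hMs]
  refine lintegral_mono_ae ?_
  filter_upwards [ae_exits_pair hΦ hε.ne'] with q hq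
  by_cases h : Meets ε q ∧ 0 < hitT ε q
  · rw [indicator_of_mem (show q ∈ {q : Ph × Ph | Meets ε q ∧ 0 < hitT ε q} from h),
      indicator_of_mem (show q ∈ {q : Ph × Ph | Meets ε q} from h.1)]
    have h1 : 0 < sepT Φ ε q := h.2.trans (hitT_lt_sepT hΦ hε hq h.1.2)
    have h2 : gw b q.1.2 * gw b q.2.2 *
        ENNReal.ofReal (Real.exp ((b - c) * ‖(sc2 Φ ε q).1.2‖ ^ 2)) ≤
        gw b (sc2 Φ ε q).2.2 * gw c (sc2 Φ ε q).1.2 := by
      unfold gw
      rw [← ENNReal.ofReal_mul (Real.exp_nonneg _), ← ENNReal.ofReal_mul (by positivity),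
        ← ENNReal.ofReal_mul (Real.exp_nonneg _),
        ← Real.exp_add, ← Real.exp_add, ← Real.exp_add]
      apply ENNReal.ofReal_le_ofReal
      apply Real.exp_le_exp.2
      have h3 := energy_sc2 hΦ hε.ne' q
      have h4 : b * (‖(sc2 Φ ε q).1.2‖ ^ 2 + ‖(sc2 Φ ε q).2.2‖ ^ 2) =
        b * (‖q.1.2‖ ^ 2 + ‖q.2.2‖ ^ 2) := by rw [h3]
      linarith
    rw [hH]
    simp only [Prod.fst_swap, Prod.snd_swap]
    rw [outT_swap, ← sepT_eq_outT hΦ hε.ne', ← mul_assoc]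
    by_cases h5 : sepT Φ ε q ≤ t
    · rw [indicator_of_mem (show sepT Φ ε q ∈ Iic t from h5),
        indicator_of_mem (show sepT Φ ε q ∈ Ioc 0 t from ⟨h1, h5⟩)]
      gcongr
    · rw [indicator_of_notMem (show sepT Φ ε q ∉ Iic t from h5), mul_zero]
      exact zero_le
  · rw [indicator_of_notMem (show q ∉ {q : Ph × Ph | Meets ε q ∧ 0 < hitT ε q} from h)]
    exact zero_le

/-- The law of the depth of the node. -/
noncomputable def kap (κ : Measure ℕ) : Measure ℕ := (κ.prod κ).map fun p => max p.1 p.2 + 1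

theorem lintegral_kap (κ : Measure ℕ) [SFinite κ] (f : ℕ → ℝ≥0∞) :
    ∫⁻ n, f n ∂(kap κ) = ∫⁻ n, ∫⁻ n', f (max n n' + 1) ∂κ ∂κ := by
  unfold kap
  rw [lintegral_map (measurable_of_countable f) (measurable_of_countable _),
    lintegral_prod _ (measurable_of_countable _).aemeasurable]

theorem lintegral_refM_snd {β T : ℝ} (hT : 0 ≤ T) (κ : Measure ℕ) [SFinite κ]
    {h : Ph × ℕ → ℝ≥0∞} (hh : Measurable h) :
    ∫⁻ σ, h σ.2 ∂(refM β T κ) = ENNReal.ofReal (1 + T) * ∫⁻ z, ∫⁻ n, h (z, n) ∂κ ∂(gm β) := by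
  unfold refM
  have h2 : Measurable fun σ : ℝ × Ph × ℕ => h σ.2 := hh.comp measurable_snd
  rw [lintegral_prod _ h2.aemeasurable]
  simp only
  rw [lintegral_const, tm_univ hT, lintegral_prod _ hh.aemeasurable, mul_comm]

/-- **The main term**: the first node of the spine. -/
theorem main_node (hΦ : IsPotential Φ) (hε : 0 < ε) {b T : ℝ} (hb : 0 < b) (hT : 0 ≤ T)
    (κ : Measure ℕ) [SFinite κ] {g G : Src → ℝ≥0∞} (hG : Measurable G) {A : ℝ} (hA : 0 ≤ A)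
    (hg : ∀ σ : Src, σ.1 ∈ Icc 0 T → g σ ≤
      ENNReal.ofReal (A * Real.exp (b / 2 * ‖σ.2.1.2‖ ^ 2))) :
    ∫⁻ σ, ∫⁻ σ', kf Φ ε T g (σ, σ') * G (nd Φ ε (σ', σ)) ∂(refM b T κ) ∂(refM b T κ) ≤
      ENNReal.ofReal (1 + T) * (ENNReal.ofReal (1 + T) * (ENNReal.ofReal A *
        (ENNReal.ofReal (ε ^ 2) * (ENNReal.ofReal Real.pi * I0 (b / 2)) *
        ∫⁻ τ in Ioc 0 T, ∫⁻ z : Ph, gw b z.2 * ENNReal.ofReal (1 + ‖z.2‖) *
          ∫⁻ n, G (τ, z, n) ∂(kap κ)))) := by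
  -- the function of the lines and depths only
  set E : Ph × Ph → ℝ≥0∞ := fun q =>
    ENNReal.ofReal (Real.exp ((b - b / 2) * ‖(sc2 Φ ε q).1.2‖ ^ 2)) with hE
  set S : Set (Ph × Ph) := {q : Ph × Ph | Meets ε q ∧ 0 < hitT ε q} with hS
  have hSm : MeasurableSet S :=
    measurableSet_meets.inter (measurableSet_lt measurable_const measurable_hitT)
  set K : (Ph × ℕ) × (Ph × ℕ) → ℝ≥0∞ := fun x => S.indicator (fun q =>
    ENNReal.ofReal A * (E q * (Iic T).indicator (fun τ =>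
      G (τ, (sc2 Φ ε q).2, max x.1.2 x.2.2 + 1)) (sepT Φ ε q))) (x.1.1, x.2.1) with hK
  have hsc := measurable_sc2 hΦ hε.ne' (ε := ε)
  have hsep := measurable_sepT hΦ (ε := ε)
  have hEm : Measurable E := by
    rw [hE]
    exact ENNReal.measurable_ofReal.comp (Real.measurable_exp.comp
      (((measurable_norm.comp hsc.fst.snd).pow_const 2).const_mul _))
  have hKm : Measurable K := by
    have hq : Measurable fun x : (Ph × ℕ) × (Ph × ℕ) => ((x.1.1, x.2.1) : Ph × Ph) :=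
      (measurable_fst.comp measurable_fst).prodMk (measurable_fst.comp measurable_snd)
    have hd : Measurable fun x : (Ph × ℕ) × (Ph × ℕ) => max x.1.2 x.2.2 + 1 := by
      have h : Measurable fun p : ℕ × ℕ => max p.1 p.2 + 1 := measurable_of_countable _
      exact h.comp ((measurable_snd.comp measurable_fst).prodMk
        (measurable_snd.comp measurable_snd))
    have e : K = ({x : (Ph × ℕ) × (Ph × ℕ) | (x.1.1, x.2.1) ∈ S}).indicator (fun x =>
        ENNReal.ofReal A * (E (x.1.1, x.2.1) *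
        ({x : (Ph × ℕ) × (Ph × ℕ) | sepT Φ ε (x.1.1, x.2.1) ≤ T}).indicator (fun x =>
          G (sepT Φ ε (x.1.1, x.2.1), (sc2 Φ ε (x.1.1, x.2.1)).2, max x.1.2 x.2.2 + 1)) x)) := by
      rfl
    rw [e]
    refine Measurable.indicator (Measurable.const_mul ((hEm.comp hq).mul ?_) _) (hq hSm)
    refine Measurable.indicator (hG.comp ?_) (measurableSet_le (hsep.comp hq) measurable_const)
    exact (hsep.comp hq).prodMk ((hsc.comp hq).snd.prodMk hd)
  have h1 : ∀ σ σ' : Src, kf Φ ε T g (σ, σ') * G (nd Φ ε (σ', σ)) ≤ K (σ.2, σ'.2) := by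
    intro σ σ'
    have hn := nd_swap (ε := ε) hΦ (σ, σ')
    simp only [Prod.swap_prod_mk] at hn
    unfold kf
    by_cases h : hc Φ ε T (σ, σ')
    · obtain ⟨a1, a2, a3, a4, a5, a6⟩ := id h
      simp only at a1 a2 a3 a4 a5 a6
      rw [indicator_of_mem (show (σ, σ') ∈ {p | hc Φ ε T p} from h), hn]
      simp only [hK]
      rw [indicator_of_mem (show (σ.2.1, σ'.2.1) ∈ S from ⟨a1, a4⟩),
        indicator_of_mem (show sepT Φ ε (σ.2.1, σ'.2.1) ∈ Iic T from a6), ← mul_assoc]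
      gcongr
      refine (hg _ ⟨(a4.trans a5).le, a6⟩).trans (le_of_eq ?_)
      rw [ENNReal.ofReal_mul hA]
      simp only [hE, nd]
      congr 3
      ring
    · rw [indicator_of_notMem (show (σ, σ') ∉ {p | hc Φ ε T p} from h), zero_mul]
      exact zero_le
  have h2 : ∀ z z' : Ph, ∫⁻ n, ∫⁻ n', K ((z, n), (z', n')) ∂κ ∂κ = S.indicator (fun q =>
      ENNReal.ofReal A * (E q * (Iic T).indicator (fun τ =>
        ∫⁻ n, G (τ, (sc2 Φ ε q).2, n) ∂(kap κ)) (sepT Φ ε q))) (z, z') := by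
    intro z z'
    by_cases h : (z, z') ∈ S
    · rw [indicator_of_mem h]
      by_cases h' : sepT Φ ε (z, z') ≤ T
      · rw [indicator_of_mem (show sepT Φ ε (z, z') ∈ Iic T from h'), lintegral_kap]
        have e : ∀ n n', K ((z, n), (z', n')) = ENNReal.ofReal A * E (z, z') *
            G (sepT Φ ε (z, z'), (sc2 Φ ε (z, z')).2, max n n' + 1) := by
          intro n n'
          simp only [hK]
          rw [indicator_of_mem h, indicator_of_mem (show sepT Φ ε (z, z') ∈ Iic T from h')]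
          ring
        simp_rw [e]
        simp_rw [lintegral_const_mul _ (measurable_of_countable (fun n' : ℕ => _))]
        rw [mul_assoc]
      · rw [indicator_of_notMem (show sepT Φ ε (z, z') ∉ Iic T from h'), mul_zero, mul_zero]
        have e : ∀ n n', K ((z, n), (z', n')) = 0 := by
          intro n n'
          simp only [hK]
          rw [indicator_of_mem h, indicator_of_notMem (show sepT Φ ε (z, z') ∉ Iic T from h'),
            mul_zero, mul_zero]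
        simp [e]
    · rw [indicator_of_notMem h]
      have e : ∀ n n', K ((z, n), (z', n')) = 0 := by
        intro n n'
        simp only [hK]
        rw [indicator_of_notMem h]
      simp [e]
  have hgm : Measurable fun z : Ph => gw b z.2 := measurable_gw2 b
  set Θ : ℝ × Ph → ℝ≥0∞ := fun p => ∫⁻ n, G (p.1, p.2, n) ∂(kap κ) with hΘ
  have hκ : SFinite (kap κ) := by unfold kap; infer_instance
  have hΘm : Measurable Θ := by
    have h : Measurable fun x : (ℝ × Ph) × ℕ => G (x.1.1, x.1.2, x.2) :=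
      hG.comp ((measurable_fst.comp measurable_fst).prodMk
        ((measurable_snd.comp measurable_fst).prodMk measurable_snd))
    exact h.lintegral_prod_right'
  set R : Ph × Ph → ℝ≥0∞ := fun q => S.indicator (fun q =>
      ENNReal.ofReal A * (E q * (Iic T).indicator (fun τ => Θ (τ, (sc2 Φ ε q).2))
        (sepT Φ ε q))) q with hR
  have hRm : Measurable R := by
    have e : R = S.indicator (fun q => ENNReal.ofReal A * (E q *
        ({q : Ph × Ph | sepT Φ ε q ≤ T}).indicator (fun q => Θ (sepT Φ ε q, (sc2 Φ ε q).2)) q)) :=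
      rfl
    rw [e]
    refine Measurable.indicator (Measurable.const_mul (hEm.mul ?_) _) hSm
    exact (hΘm.comp (hsep.prodMk hsc.snd)).indicator (measurableSet_le hsep measurable_const)
  calc ∫⁻ σ, ∫⁻ σ', kf Φ ε T g (σ, σ') * G (nd Φ ε (σ', σ)) ∂(refM b T κ) ∂(refM b T κ)
      ≤ ∫⁻ σ, ∫⁻ σ', K (σ.2, σ'.2) ∂(refM b T κ) ∂(refM b T κ) :=
        lintegral_mono fun σ => lintegral_mono fun σ' => h1 σ σ'
    _ = ENNReal.ofReal (1 + T) * (ENNReal.ofReal (1 + T) *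
          ∫⁻ z, ∫⁻ z', R (z, z') ∂(gm b) ∂(gm b)) := by
        have e1 : ∀ x : Ph × ℕ, ∫⁻ σ' : Src, K (x, σ'.2) ∂(refM b T κ) =
            ENNReal.ofReal (1 + T) * ∫⁻ z', ∫⁻ n', K (x, (z', n')) ∂κ ∂(gm b) := fun x =>
          lintegral_refM_snd hT κ (hKm.comp (measurable_const.prodMk measurable_id))
        simp_rw [e1]
        have hm1 : Measurable fun y : (Ph × ℕ) × Ph => ∫⁻ n', K (y.1, (y.2, n')) ∂κ := by
          have h : Measurable fun y : ((Ph × ℕ) × Ph) × ℕ => K (y.1.1, (y.1.2, y.2)) :=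
            hKm.comp ((measurable_fst.comp measurable_fst).prodMk
              ((measurable_snd.comp measurable_fst).prodMk measurable_snd))
          exact h.lintegral_prod_right'
        have hm2 : Measurable fun x : Ph × ℕ => ∫⁻ z', ∫⁻ n', K (x, (z', n')) ∂κ ∂(gm b) :=
          hm1.lintegral_prod_right'
        rw [lintegral_refM_snd hT κ (h := fun x => ENNReal.ofReal (1 + T) *
          ∫⁻ z', ∫⁻ n', K (x, (z', n')) ∂κ ∂(gm b)) (hm2.const_mul _)]
        congr 1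
        have e2 : ∀ z : Ph, ∫⁻ n, ENNReal.ofReal (1 + T) * ∫⁻ z', ∫⁻ n', K ((z, n), (z', n')) ∂κ
            ∂(gm b) ∂κ = ENNReal.ofReal (1 + T) * ∫⁻ z', R (z, z') ∂(gm b) := by
          intro z
          rw [lintegral_const_mul _ (measurable_of_countable _)]
          congr 1
          have hm3 : Measurable fun p : ℕ × Ph => ∫⁻ n', K ((z, p.1), (p.2, n')) ∂κ :=
            hm1.comp ((measurable_const.prodMk measurable_fst).prodMk measurable_snd)
          rw [lintegral_lintegral_swap hm3.aemeasurable]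
          exact lintegral_congr fun z' => h2 z z'
        simp_rw [e2]
        rw [lintegral_const_mul _ (Measurable.lintegral_prod_right' hRm)]
    _ ≤ _ := by
        gcongr
        have e3 : ∫⁻ z, ∫⁻ z', R (z, z') ∂(gm b) ∂(gm b) =
            ∫⁻ q in S, gw b q.1.2 * (gw b q.2.2 * (ENNReal.ofReal A * (E q *
              (Iic T).indicator (fun τ => Θ (τ, (sc2 Φ ε q).2)) (sepT Φ ε q)))) := by
          rw [lintegral_gm b (Measurable.lintegral_prod_right' hRm)]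
          have e4 : ∀ z : Ph, ∫⁻ z', R (z, z') ∂(gm b) = ∫⁻ z' : Ph, gw b z'.2 * R (z, z') :=
            fun z => lintegral_gm b (hRm.comp (measurable_const.prodMk measurable_id))
          simp_rw [e4]
          have hgR : Measurable fun q : Ph × Ph => gw b q.2.2 * R q :=
            (hgm.comp measurable_snd).mul hRm
          have e5 : ∀ z : Ph, gw b z.2 * ∫⁻ z' : Ph, gw b z'.2 * R (z, z') =
              ∫⁻ z' : Ph, gw b z.2 * (gw b z'.2 * R (z, z')) := fun z =>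
            (lintegral_const_mul' (gw b z.2) _ ENNReal.ofReal_ne_top).symm
          simp_rw [e5]
          have e6 := lintegral_prod (μ := (volume : Measure Ph)) (ν := (volume : Measure Ph))
            (fun q : Ph × Ph => gw b q.1.2 * (gw b q.2.2 * R q))
            ((hgm.comp measurable_fst).mul hgR).aemeasurable
          rw [← e6, ← Measure.volume_eq_prod, ← lintegral_indicator hSm]
          refine lintegral_congr fun q => ?_
          simp only [hR]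
          by_cases h : q ∈ S
          · rw [indicator_of_mem h, indicator_of_mem h]
          · rw [indicator_of_notMem h, indicator_of_notMem h, mul_zero, mul_zero]
        rw [e3]
        have hc2 : (0 : ℝ) < b / 2 := half_pos hb
        have h5 := flux_node (b := b) (t := T) hΦ hε hc2 hΘm
        have e7 : ∀ q : Ph × Ph, gw b q.1.2 * (gw b q.2.2 * (ENNReal.ofReal A * (E q *
              (Iic T).indicator (fun τ => Θ (τ, (sc2 Φ ε q).2)) (sepT Φ ε q)))) =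
            ENNReal.ofReal A * (gw b q.1.2 * gw b q.2.2 *
              (ENNReal.ofReal (Real.exp ((b - b / 2) * ‖(sc2 Φ ε q).1.2‖ ^ 2)) *
              (Iic T).indicator (fun τ => Θ (τ, (sc2 Φ ε q).2)) (sepT Φ ε q))) := fun q => by
          simp only [hE]; ring
        simp_rw [e7]
        rw [lintegral_const_mul' _ _ ENNReal.ofReal_ne_top]
        gcongr

end Vale.Agent.P119.PB.EX
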