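import Vale.Agent.P119.PB.Iter6

/-!
# P119, block PROB: second events, the iterated bound (`helper178`)

`gT6_iter`: the probability of the second events of `e` and `m` is bounded by the iterates (in line
form) of the sources `F6`, of the remainder `tE6`, of the creation of too deep trees `FA`, and of the
exceptional terms.
-/

open MeasureTheory Filter Topology Set ProbabilityTheory
open scoped ENNReal NNReal

noncomputable section

namespace Vale.Agent.P119.PB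

open M CTree KU FB RB AU FL TL

variable {Φ : E3 → ℝ} {ε : ℝ} {L : ℕ} {hΦ : IsPotential Φ} {hε : 0 < ε} {f₀ : Ph → ℝ}
  {κ b Tm t η η' w u θ : ℝ} {σ e m : Src}

/-- The levels of the iteration. -/
def lv (η η' : ℝ) (J j : ℕ) : ℝ := η + j * ((η' - η) / J)

theorem lv_zero (η η' : ℝ) (J : ℕ) : lv η η' J 0 = η := by
  unfold lv
  simp

theorem lv_succ (η η' : ℝ) (J j : ℕ) : lv η η' J (j + 1) - lv η η' J j = (η' - η) / J := by
  unfold lv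
  push_cast
  ring

theorem lv_lt {J j : ℕ} (hJ : 0 < J) (h : η < η') : lv η η' J j < lv η η' J (j + 1) := by
  have h1 := lv_succ η η' J j
  have h2 : 0 < (η' - η) / J := div_pos (by linarith) (by exact_mod_cast hJ)
  linarith

theorem lv_pos {J : ℕ} (j : ℕ) (hη : 0 < η) (h : η < η') : 0 < lv η η' J j := by
  unfold lv
  have h2 : 0 ≤ (j : ℝ) * ((η' - η) / J) :=
    mul_nonneg (Nat.cast_nonneg _) (div_nonneg (by linarith) (Nat.cast_nonneg _))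
  linarith

theorem lv_le {J j : ℕ} (hJ : 0 < J) (hj : j ≤ J) (h : η < η') : lv η η' J j ≤ η' := by
  unfold lv
  have hJ' : (0 : ℝ) < J := by exact_mod_cast hJ
  have hj' : (j : ℝ) ≤ J := by exact_mod_cast hj
  have h2 : (j : ℝ) * ((η' - η) / J) ≤ J * ((η' - η) / J) :=
    mul_le_mul_of_nonneg_right hj' (div_nonneg (by linarith) hJ'.le)
  have h3 : (J : ℝ) * ((η' - η) / J) = η' - η := by field_simp
  linarith

/-- The atypical terms are measurable. -/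
theorem measurable_atyS (h₀ : GoodDatum f₀ κ) (ν : Kernel (GC.Conf Ph) Src) [IsSFiniteKernel ν] :
    Measurable (atyS (GC.PP f₀ ε) (fun c => ν c) ε t) := by
  have := GC.isProbability_PP (ε := ε) h₀
  have hS : MeasurableSet {p : (Src × GC.Conf Ph) × Src | hitI ε t p.1.1 p.2.2.1} :=
    measurableSet_hitI (t := t) (ε := ε) (measurable_fst.comp measurable_fst)
      (measurable_fst.comp (measurable_snd.comp measurable_snd))
  have h1 : Measurable fun p : Src × GC.Conf Ph => (ν.comap Prod.snd measurable_snd p)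
      (Prod.mk p ⁻¹' {p : (Src × GC.Conf Ph) × Src | hitI ε t p.1.1 p.2.2.1}) :=
    Kernel.measurable_kernel_prodMk_left (κ := ν.comap Prod.snd measurable_snd) hS
  have h2 : Measurable fun σ : Src => ∫⁻ c, (ν.comap Prod.snd measurable_snd (σ, c))
      (Prod.mk (σ, c) ⁻¹' {p : (Src × GC.Conf Ph) × Src | hitI ε t p.1.1 p.2.2.1})
        ∂(GC.PP f₀ ε) := h1.lintegral_prod_right'
  exact h2.const_mul _

theorem meas_line2 : Measurable fun m : Src => ((m.1, m.2.1) : ℝ × Ph) :=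
  measurable_fst.prodMk (measurable_fst.comp measurable_snd)

theorem meas_lineF {F : ℝ → Ph → ℝ≥0∞} (hF : Measurable fun q : ℝ × Ph => F q.1 q.2) :
    Measurable fun m : Src => F m.1 m.2.1 := hF.comp meas_line2

theorem meas_maxF {F : ℝ → Ph → ℝ≥0∞} (hF : Measurable fun q : ℝ × Ph => F q.1 q.2) :
    Measurable fun q : ℝ × Ph => F (max q.1 0) q.2 :=
  hF.comp ((measurable_fst.max measurable_const).prodMk measurable_snd)

/-- The iterates of a function of the line, without negative births. -/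
theorem KIt_cut_le (hΦ : IsPotential Φ) (hε : 0 < ε) {t' : ℝ} (htt : t < t') {a : ℕ → ℝ≥0∞}
    {F : ℝ → Ph → ℝ≥0∞} (hF : Measurable fun q : ℝ × Ph => F q.1 q.2)
    (hanti : ∀ s s' l, 0 ≤ s → s ≤ s' → F s' l ≤ F s l) (hm0 : 0 ≤ m.1) (j : ℕ) :
    KIt Φ ε b t a j (cut0 fun m => F m.1 m.2.1) m ≤ (∑' n, a n) ^ j *
      Gc hΦ hε.ne' b t' j F m.1 m.2.1 := by
  have h1 := KIt_le_Gc (Φ := Φ) (b := b) (α := a) hΦ hε htt j
    (F := fun s l => F (max s 0) l) (meas_maxF hF)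
    (fun s s' l hs => hanti _ _ l (le_max_right _ _) (max_le_max_right 0 hs))
    (dw_one a) (θ := cut0 fun m => F m.1 m.2.1) (fun σ => by
      rw [one_mul]
      by_cases hσ : 0 ≤ σ.1
      · rw [cut0_of hσ, max_eq_left hσ]
      · rw [cut0_neg hσ]; exact zero_le) m
  rw [mul_one, Gc_congr_nonneg hΦ hε.ne' b t' j
    (F' := F) (fun s hs l => by rw [max_eq_left hs]) hm0] at h1
  exact h1

/-- The sources, without negative births. -/
def S0 (L : ℕ) (hΦ : IsPotential Φ) (hε : 0 < ε) (f₀ : Ph → ℝ) (b : ℝ) (a : ℕ → ℝ≥0∞)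
    (η t w u : ℝ) (e : Src) : Src → ℝ≥0∞ :=
  cut0 fun m => F6 L hΦ hε f₀ b a η t w u e m.1 m.2.1

/-- The creation of too deep trees, in line form. -/
def O0 (f₀ : Ph → ℝ) (Φ : E3 → ℝ) (ε : ℝ) (L : ℕ) (t : ℝ) (A : ℝ≥0∞) (m : Src) : ℝ≥0∞ :=
  A ^ m.2.2 * ((A ^ L)⁻¹ * FA f₀ Φ ε L t A m.1 m.2.1)

theorem measurable_S0 (h₀ : GoodDatum f₀ κ) {a : ℕ → ℝ≥0∞} :
    Measurable (S0 L hΦ hε f₀ b a η t w u e) :=
  measurable_cut0 (meas_lineF (F := F6 L hΦ hε f₀ b a η t w u e) (measurable_F6 h₀))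

theorem measurable_O0 (h₀ : GoodDatum f₀ κ) (hΦ : IsPotential Φ) (hε : 0 < ε) {A : ℝ≥0∞} :
    Measurable (O0 f₀ Φ ε L t A) :=
  ((measurable_from_top (f := fun n : ℕ => A ^ n)).comp
    (measurable_snd.comp measurable_snd)).mul
      ((meas_lineF (F := FA f₀ Φ ε L t A) (measurable_FA h₀ hΦ hε)).const_mul _)

/-- One step of the iteration. -/
theorem iter6_step (h₀ : GoodDatum f₀ κ) (ht : 0 ≤ t) (htT : t ≤ Tm) (hη : 0 < η) (hηη : η < η')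
    (hw : t ≤ w) (he0 : 0 ≤ e.1) (hed : e.2.2 ≤ L) {α : ℕ → ℝ≥0∞}
    {ν : GC.Conf Ph → Measure Src} (hcap : CapI Φ ε L f₀ b Tm α ν) {J : ℕ} (hJ : 0 < J)
    {A : ℝ≥0∞} (hA : 1 ≤ A) (hA' : A ≠ ∞) {X : Src → ℝ≥0∞}
    (hXle : ∀ m : Src, 0 ≤ m.1 → m.2.2 ≤ L → 5 * atyS (GC.PP f₀ ε) ν ε t m +
      exc6 L hΦ hε f₀ η' ((η' - η) / J) t e m ≤ X m) {a : ℕ → ℝ≥0∞}
    (ha : a = fun n => α n * ENNReal.ofReal (1 + Tm)) {j : ℕ} (hj : j < J) (σ : Src) :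
    cut0 (gT6 L hΦ hε f₀ (lv η η' J j) t e) σ ≤
      (S0 L hΦ hε f₀ b a η' t w u e σ + O0 f₀ Φ ε L t A σ + X σ) +
        KOp Φ ε b t a (cut0 (gT6 L hΦ hε f₀ (lv η η' J (j + 1)) t e)) σ := by
  by_cases hσ : 0 ≤ σ.1
  swap
  · rw [cut0_neg hσ]
    exact zero_le
  rw [cut0_of hσ]
  by_cases hd : σ.2.2 ≤ L
  swap
  · rw [gT6_of_depth (not_le.1 hd)]
    exact zero_le
  have h1 : lv η η' J (j + 1) ≤ η' := lv_le hJ hj hηη
  have hp : 0 < lv η η' J j := lv_pos j hη hηη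
  have hp1 : 0 < lv η η' J (j + 1) := lv_pos (j + 1) hη hηη
  have h2 := gT6_le (hΦ := hΦ) (hε := hε) (u := u) h₀ ht htT hp (lv_lt hJ hηη) hw he0 hed hσ
    hcap
  rw [lv_succ, ← ha] at h2
  have h3 : KOp Φ ε b t a (gT6 L hΦ hε f₀ (lv η η' J (j + 1)) t e) σ ≤
      KOp Φ ε b t a (cut0 (gT6 L hΦ hε f₀ (lv η η' J (j + 1)) t e)) σ :=
    KOp_cut hΦ hε _ hσ
  have h4 : sS6 L hΦ hε f₀ (lv η η' J (j + 1)) t w u e σ +
      pG6 L hΦ hε f₀ b a (lv η η' J (j + 1)) t w e σ +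
      yG6 L hΦ hε f₀ b a (lv η η' J (j + 1)) t u e σ ≤ S0 L hΦ hε f₀ b a η' t w u e σ := by
    unfold S0
    rw [cut0_of hσ]
    exact add_le_add (add_le_add (sS6_mono hp1 h1 ht) (pG6_mono hp1 h1 ht))
      (yG6_mono hp1 h1 ht)
  have h5 : overX f₀ Φ ε L t σ ≤ O0 f₀ Φ ε L t A σ := overX_le hA hA' σ
  have h6 : 5 * atyS (GC.PP f₀ ε) ν ε t σ +
      exc6 L hΦ hε f₀ (lv η η' J j) ((η' - η) / J) t e σ ≤ X σ :=
    (add_le_add le_rfl (exc6_mono hp (lv_le hJ hj.le hηη) ht)).trans (hXle σ hσ hd)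
  calc _ ≤ _ := h2
    _ = (sS6 L hΦ hε f₀ (lv η η' J (j + 1)) t w u e σ +
        pG6 L hΦ hε f₀ b a (lv η η' J (j + 1)) t w e σ +
        yG6 L hΦ hε f₀ b a (lv η η' J (j + 1)) t u e σ) + overX f₀ Φ ε L t σ +
        (5 * atyS (GC.PP f₀ ε) ν ε t σ +
          exc6 L hΦ hε f₀ (lv η η' J j) ((η' - η) / J) t e σ) +
        KOp Φ ε b t a (gT6 L hΦ hε f₀ (lv η η' J (j + 1)) t e) σ := by ring
    _ ≤ _ := add_le_add (add_le_add (add_le_add h4 h5) h6) h3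

/-- The iterates of the sources. -/
theorem KIt_S0_le (h₀ : GoodDatum f₀ κ) (ht : 0 ≤ t) (hη : 0 < η) (hw : t ≤ w) {t' : ℝ}
    (htt : t < t') {a : ℕ → ℝ≥0∞} (hm0 : 0 ≤ m.1) (j : ℕ) :
    KIt Φ ε b t a j (S0 L hΦ hε f₀ b a η t w u e) m ≤ (∑' n, a n) ^ j *
      Gc hΦ hε.ne' b t' j (F6 L hΦ hε f₀ b a η t w u e) m.1 m.2.1 :=
  KIt_cut_le (F := F6 L hΦ hε f₀ b a η t w u e) hΦ hε htt (measurable_F6 h₀)
    (fun _ _ l hs h => F6_anti hη ht hw hs h l) hm0 j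

/-- The iterates of the creation of too deep trees. -/
theorem KIt_O0_le (h₀ : GoodDatum f₀ κ) (hΦ : IsPotential Φ) (hε : 0 < ε) {t' : ℝ}
    (htt : t < t') {a : ℕ → ℝ≥0∞} {A : ℝ≥0∞} (hA : 1 ≤ A) (j : ℕ) :
    KIt Φ ε b t a j (O0 f₀ Φ ε L t A) m ≤ A ^ m.2.2 * (A ^ L)⁻¹ *
      ((A * (∑' n, a n + ∑' n, a n * A ^ n)) ^ j *
        Gc hΦ hε.ne' b t' j (FA f₀ Φ ε L t A) m.1 m.2.1) := by
  have hFAm : Measurable fun q : ℝ × Ph => FA f₀ Φ ε L t A q.1 q.2 := measurable_FA h₀ hΦ hε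
  have h1 := KIt_le_Gc (Φ := Φ) (b := b) (α := a) hΦ hε htt j
    (F := fun s l => (A ^ L)⁻¹ * FA f₀ Φ ε L t A s l) (hFAm.const_mul _)
    (fun s s' l hs => mul_le_mul' le_rfl (FA_anti l hs)) (dw_pow a hA)
    (θ := O0 f₀ Φ ε L t A) (fun σ => le_rfl) m
  rw [Gc_const_mul hΦ hε.ne' b t' j _ hFAm] at h1
  refine h1.trans (le_of_eq ?_)
  ring

/-- The remainder. -/
theorem KIt_rem_le (ht : 0 ≤ t) (hη : 0 < η) (hηη : η ≤ η') {t' : ℝ}
    (htt : t < t') {a : ℕ → ℝ≥0∞} (j : ℕ) :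
    KIt Φ ε b t a j (cut0 (gT6 L hΦ hε f₀ η t e)) m ≤ (∑' n, a n) ^ j *
      Gc hΦ hε.ne' b t' j (fun _ _ => tE6 L hΦ hε f₀ η' t e) m.1 m.2.1 := by
  have h1 := KIt_le_Gc (Φ := Φ) (b := b) (α := a) hΦ hε htt j
    (F := fun _ _ => tE6 L hΦ hε f₀ η' t e) measurable_const
    (fun s s' l hs => le_rfl) (dw_one a) (θ := cut0 (gT6 L hΦ hε f₀ η t e))
    (fun σ => by
      rw [one_mul]
      exact (cut0_le _ _).trans (gT6_le_tE6.trans (tE6_mono hη hηη ht))) m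
  rw [mul_one] at h1
  exact h1

/-- **The second events, iterated.** -/
theorem gT6_iter (h₀ : GoodDatum f₀ κ) (ht : 0 ≤ t) (htT : t ≤ Tm) (hη : 0 < η) (hηη : η < η')
    (hw : t ≤ w) (he0 : 0 ≤ e.1) (hed : e.2.2 ≤ L) {α : ℕ → ℝ≥0∞}
    {ν : GC.Conf Ph → Measure Src} (hcap : CapI Φ ε L f₀ b Tm α ν) {J : ℕ} (hJ : 0 < J) {t' : ℝ}
    (htt : t < t') {A : ℝ≥0∞} (hA : 1 ≤ A) (hA' : A ≠ ∞) {X : Src → ℝ≥0∞} (hX : Measurable X)
    (hXle : ∀ m : Src, 0 ≤ m.1 → m.2.2 ≤ L → 5 * atyS (GC.PP f₀ ε) ν ε t m +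
      exc6 L hΦ hε f₀ η' ((η' - η) / J) t e m ≤ X m) {a : ℕ → ℝ≥0∞}
    (ha : a = fun n => α n * ENNReal.ofReal (1 + Tm)) (hm0 : 0 ≤ m.1) :
    gT6 L hΦ hε f₀ η t e m ≤
      (∑ j ∈ Finset.range J, (∑' n, a n) ^ j *
        Gc hΦ hε.ne' b t' j (F6 L hΦ hε f₀ b a η' t w u e) m.1 m.2.1) +
      (∑' n, a n) ^ J * Gc hΦ hε.ne' b t' J (fun _ _ => tE6 L hΦ hε f₀ η' t e) m.1 m.2.1 +
      A ^ m.2.2 * (A ^ L)⁻¹ * (∑ j ∈ Finset.range J, (A * (∑' n, a n + ∑' n, a n * A ^ n)) ^ j *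
        Gc hΦ hε.ne' b t' j (FA f₀ Φ ε L t A) m.1 m.2.1) +
      ∑ j ∈ Finset.range J, KIt Φ ε b t a j X m := by
  have hSm : Measurable (S0 L hΦ hε f₀ b a η' t w u e) := measurable_S0 h₀
  have hOm : Measurable (O0 f₀ Φ ε L t A) := measurable_O0 h₀ hΦ hε
  have hiter := iter_le (Φ := Φ) (b := b) (t := t) (α := a) hΦ hε.ne'
    (θ := fun j => cut0 (gT6 L hΦ hε f₀ (lv η η' J j) t e))
    (A := fun _ σ => S0 L hΦ hε f₀ b a η' t w u e σ + O0 f₀ Φ ε L t A σ + X σ)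
    (fun _ => (hSm.add hOm).add hX) J
    (fun j hj σ => iter6_step h₀ ht htT hη hηη hw he0 hed hcap hJ hA hA' hXle ha hj σ) m
  rw [lv_zero, cut0_of hm0] at hiter
  have hsplit : ∀ j, KIt Φ ε b t a j (fun σ => S0 L hΦ hε f₀ b a η' t w u e σ +
      O0 f₀ Φ ε L t A σ + X σ) m =
      KIt Φ ε b t a j (S0 L hΦ hε f₀ b a η' t w u e) m +
        KIt Φ ε b t a j (O0 f₀ Φ ε L t A) m + KIt Φ ε b t a j X m := by
    intro j
    have hSO : Measurable fun σ => S0 L hΦ hε f₀ b a η' t w u e σ + O0 f₀ Φ ε L t A σ :=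
      hSm.add hOm
    rw [KIt_add hΦ hε.ne' j hSO, KIt_add hΦ hε.ne' j hSm]
  calc _ ≤ _ := hiter
    _ ≤ (∑ j ∈ Finset.range J, (((∑' n, a n) ^ j *
        Gc hΦ hε.ne' b t' j (F6 L hΦ hε f₀ b a η' t w u e) m.1 m.2.1) +
        (A ^ m.2.2 * (A ^ L)⁻¹ * ((A * (∑' n, a n + ∑' n, a n * A ^ n)) ^ j *
          Gc hΦ hε.ne' b t' j (FA f₀ Φ ε L t A) m.1 m.2.1)) +
        KIt Φ ε b t a j X m)) +
        (∑' n, a n) ^ J * Gc hΦ hε.ne' b t' J (fun _ _ => tE6 L hΦ hε f₀ η' t e) m.1 m.2.1 := by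
        refine add_le_add (Finset.sum_le_sum fun j _ => ?_)
          (KIt_rem_le ht (lv_pos J hη hηη) (lv_le hJ le_rfl hηη) htt J)
        rw [hsplit]
        exact add_le_add (add_le_add (KIt_S0_le h₀ ht (hη.trans hηη) hw htt hm0 j)
          (KIt_O0_le h₀ hΦ hε htt hA j)) le_rfl
    _ = _ := by
        rw [Finset.sum_add_distrib, Finset.sum_add_distrib, ← Finset.mul_sum]
        ring

end Vale.Agent.P119.PB
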