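import Vale.Agent.P119.PB.GcComm
import Vale.Agent.P119.PB.Iter6b
import Vale.Agent.P119.RM.Ex6

/-!
# P119, block PROB: the sources of the second events as integrals over the worlds (`helper758`)

* `pGc`, `F6c`: the parts of `F6` which depend on the world, for one world; joint measurability in
  the world, the source and the line; `F6_eq_F6c`;
* `measurable_tE6_src`, `measurable_gT6_pair`, `measurable_F6_joint`;
* **`lam_Gc_F6`**, **`lam_Gc_F6_sum`**: the iterates of `F6` integrated against a law of pairs of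
  sources, with the integral over the worlds outside.
-/

open MeasureTheory Filter Topology Set
open scoped ENNReal NNReal

noncomputable section

namespace Vale.Agent.P119.PB

open M CTree KU FB RB AU FL TL

variable {Φ : E3 → ℝ} {ε : ℝ} {L : ℕ} {hΦ : IsPotential Φ} {hε : 0 < ε} {f₀ : Ph → ℝ}
  {b t η w u : ℝ} {α : ℕ → ℝ≥0∞}

variable (L hΦ hε) in
/-- The pairs of `m` and a typical partner which are in contact, in one world. -/
def pGc (b : ℝ) (α : ℕ → ℝ≥0∞) (η t w : ℝ) (V : Finset Src) (e m : Src) : ℝ≥0∞ :=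
  muE ε * ∑' n, α n * ∫⁻ z' : Ph, gw b z'.2 * ind (PairG L hΦ hε η t w V e m z')

variable (L hΦ hε) in
/-- The sources of the second events which depend on the world, in one world. -/
def F6c (b : ℝ) (α : ℕ → ℝ≥0∞) (η t w u : ℝ) (c : GC.Conf Ph) (e : Src) (s : ℝ) (z : Ph) :
    ℝ≥0∞ :=
  S6 L hΦ hε η t w u (wS (GC.pts c)) e (s, z, 0) +
    pGc L hΦ hε b α η t w (wS (GC.pts c)) e (s, z, 0)

/-! ### Measurability -/

section meas

variable {X : Type} [MeasurableSpace X] {V : X → Finset Src} {e m : X → Src}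

theorem measurable_pGc (hV : MM.RS fun x => (V x : Set Src)) (he : Measurable e)
    (hm : Measurable m) : Measurable fun x => pGc L hΦ hε b α η t w (V x) (e x) (m x) := by
  have h1 : Measurable fun p : X × Ph =>
      gw b p.2.2 * ind (PairG L hΦ hε η t w (V p.1) (e p.1) (m p.1) p.2) :=
    ((measurable_gw b).comp measurable_snd.snd).mul (measurable_ind
      (RM.measurableSet_PairG (MM.RS.comp hV measurable_fst) (he.comp measurable_fst)
        (hm.comp measurable_fst) measurable_snd))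
  exact (Measurable.tsum fun n => (h1.lintegral_prod_right').const_mul _).const_mul _

end meas

theorem meas_src3 : Measurable fun q : GC.Conf Ph × Src × ℝ × Ph =>
    ((q.2.2.1, q.2.2.2, 0) : Src) :=
  measurable_snd.snd.fst.prodMk (measurable_snd.snd.snd.prodMk measurable_const)

/-- Joint measurability of `S6`. -/
theorem measurable_S6c : Measurable fun q : GC.Conf Ph × Src × ℝ × Ph =>
    S6 L hΦ hε η t w u (wS (GC.pts q.1)) q.2.1 (q.2.2.1, q.2.2.2, 0) :=
  RM.measurable_S6 (RM.rs_wS measurable_fst) measurable_snd.fst meas_src3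

/-- Joint measurability of `PairG`. -/
theorem measurableSet_PairGc : MeasurableSet {q : (GC.Conf Ph × Src × ℝ × Ph) × Ph |
    PairG L hΦ hε η t w (wS (GC.pts q.1.1)) q.1.2.1 (q.1.2.2.1, q.1.2.2.2, 0) q.2} :=
  RM.measurableSet_PairG (RM.rs_wS measurable_fst.fst) measurable_fst.snd.fst
    (meas_src3.comp measurable_fst) measurable_snd

/-- Joint measurability of `F6c`. -/
theorem measurable_F6c : Measurable fun q : GC.Conf Ph × Src × ℝ × Ph =>
    F6c L hΦ hε b α η t w u q.1 q.2.1 q.2.2.1 q.2.2.2 :=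
  measurable_S6c.add (measurable_pGc (RM.rs_wS measurable_fst) measurable_snd.fst meas_src3)

/-- `tE6` is measurable. -/
theorem measurable_tE6_src [SFinite (GC.PP f₀ ε)] : Measurable (tE6 L hΦ hε f₀ η t) := by
  have h : Measurable fun q : Src × GC.Conf Ph => ind (TE L hΦ hε η t (wS (GC.pts q.2)) q.1) :=
    measurable_ind (RM.measurableSet_TE (RM.rs_wS measurable_snd) measurable_fst)
  exact h.lintegral_prod_right'

/-- `gT6` is measurable in the pair of sources. -/
theorem measurable_gT6_pair [SFinite (GC.PP f₀ ε)] :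
    Measurable fun p : Src × Src => gT6 L hΦ hε f₀ η t p.1 p.2 := by
  have h : Measurable fun q : (Src × Src) × GC.Conf Ph =>
      GGL L hΦ hε η t (wS (GC.pts q.2)) q.1.1 q.1.2 :=
    RM.measurable_GGL (RM.rs_wS measurable_snd) measurable_fst.fst measurable_fst.snd
  exact h.lintegral_prod_right'

/-- `yG6` is measurable in the pair of sources. -/
theorem measurable_yG6_pair [SFinite (GC.PP f₀ ε)] :
    Measurable fun p : Src × Src => yG6 L hΦ hε f₀ b α η t u p.1 p.2 := by
  have hS : MeasurableSet {q : (Src × Src) × Ph | hitI ε t q.1.2 q.2 ∧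
      hitT ε (q.1.2.2.1, q.2) < u} := by
    refine (measurableSet_hitI measurable_fst.snd measurable_snd).inter (measurableSet_lt
      (measurable_hitT.comp ?_) measurable_const)
    exact measurable_fst.snd.snd.fst.prodMk measurable_snd
  have h1 : Measurable fun q : (Src × Src) × Ph => {q : (Src × Src) × Ph | hitI ε t q.1.2 q.2 ∧
      hitT ε (q.1.2.2.1, q.2) < u}.indicator (fun q => gw b q.2.2) q :=
    ((measurable_gw b).comp measurable_snd.snd).indicator hS
  have h2 : Measurable fun p : Src × Src => ∫⁻ z' in {z' : Ph | hitI ε t p.2 z' ∧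
      hitT ε (p.2.2.1, z') < u}, gw b z'.2 := by
    have e : (fun p : Src × Src => ∫⁻ z' in {z' : Ph | hitI ε t p.2 z' ∧
        hitT ε (p.2.2.1, z') < u}, gw b z'.2) = fun p => ∫⁻ z' : Ph,
        {q : (Src × Src) × Ph | hitI ε t q.1.2 q.2 ∧
          hitT ε (q.1.2.2.1, q.2) < u}.indicator (fun q => gw b q.2.2) (p, z') := by
      funext p
      rw [← lintegral_indicator]
      · rfl
      · exact hS.preimage (measurable_const.prodMk measurable_id)
    rw [e]
    exact h1.lintegral_prod_right'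
  exact (h2.const_mul _).mul (measurable_tE6_src.comp measurable_fst)

/-! ### The sources as integrals -/

theorem pG6_eq_lintegral [SFinite (GC.PP f₀ ε)] (e m : Src) :
    pG6 L hΦ hε f₀ b α η t w e m =
      ∫⁻ c, pGc L hΦ hε b α η t w (wS (GC.pts c)) e m ∂(GC.PP f₀ ε) := by
  have h1 : Measurable fun p : GC.Conf Ph × Ph =>
      gw b p.2.2 * ind (PairG L hΦ hε η t w (wS (GC.pts p.1)) e m p.2) :=
    ((measurable_gw b).comp measurable_snd.snd).mul (measurable_ind
      (RM.measurableSet_PairG (RM.rs_wS measurable_fst) measurable_const measurable_const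
        measurable_snd))
  have h2 : Measurable fun c : GC.Conf Ph =>
      ∫⁻ z' : Ph, gw b z'.2 * ind (PairG L hΦ hε η t w (wS (GC.pts c)) e m z') :=
    h1.lintegral_prod_right'
  have h3 : Measurable fun c : GC.Conf Ph => ∑' n, α n *
      ∫⁻ z' : Ph, gw b z'.2 * ind (PairG L hΦ hε η t w (wS (GC.pts c)) e m z') :=
    Measurable.tsum fun n => h2.const_mul _
  unfold pG6 pGc
  rw [lintegral_const_mul _ h3, lintegral_tsum fun n => (h2.const_mul _).aemeasurable]
  congr 1
  refine tsum_congr fun n => ?_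
  rw [lintegral_const_mul _ h2, lintegral_lintegral_swap h1.aemeasurable]
  congr 1
  refine lintegral_congr fun z' => ?_
  have h4 : Measurable fun c : GC.Conf Ph => ind (PairG L hΦ hε η t w (wS (GC.pts c)) e m z') :=
    measurable_ind (RM.measurableSet_PairG (RM.rs_wS measurable_id) measurable_const
      measurable_const measurable_const)
  rw [lintegral_const_mul _ h4]

/-- **The sources of the second events are an integral over the worlds**, plus `yG6`. -/
theorem F6_eq_F6c [SFinite (GC.PP f₀ ε)] (e : Src) (s : ℝ) (l : Ph) :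
    F6 L hΦ hε f₀ b α η t w u e s l =
      (∫⁻ c, F6c L hΦ hε b α η t w u c e s l ∂(GC.PP f₀ ε)) +
        yG6 L hΦ hε f₀ b α η t u e (s, l, 0) := by
  have h1 : Measurable fun c : GC.Conf Ph =>
      S6 L hΦ hε η t w u (wS (GC.pts c)) e (s, l, 0) :=
    RM.measurable_S6 (RM.rs_wS measurable_id) measurable_const measurable_const
  unfold F6 F6c sS6
  rw [pG6_eq_lintegral, lintegral_add_left h1]

theorem F6c_def (c : GC.Conf Ph) (e : Src) (s : ℝ) (z : Ph) :
    F6c L hΦ hε b α η t w u c e s z = S6 L hΦ hε η t w u (wS (GC.pts c)) e (s, z, 0) +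
      muE ε * ∑' n, α n * ∫⁻ z' : Ph, gw b z'.2 *
        ind (PairG L hΦ hε η t w (wS (GC.pts c)) e (s, z, 0) z') := rfl

attribute [irreducible] F6c pGc

attribute [local irreducible] F6 yG6 Gc

theorem measurable_F6int [SFinite (GC.PP f₀ ε)] : Measurable fun q : Src × ℝ × Ph =>
    ∫⁻ c, F6c L hΦ hε b α η t w u c q.1 q.2.1 q.2.2 ∂(GC.PP f₀ ε) := by
  have hq : Measurable fun q : (Src × ℝ × Ph) × GC.Conf Ph => (q.2, q.1) := by fun_prop
  have h := (measurable_F6c (L := L) (hΦ := hΦ) (hε := hε) (b := b) (α := α) (η := η) (t := t)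
    (w := w) (u := u)).comp hq
  exact h.lintegral_prod_right'

theorem measurable_yG6_joint [SFinite (GC.PP f₀ ε)] : Measurable fun q : Src × ℝ × Ph =>
    yG6 L hΦ hε f₀ b α η t u q.1 (q.2.1, q.2.2, 0) := by
  have hq : Measurable fun q : Src × ℝ × Ph => ((q.1, (q.2.1, q.2.2, 0)) : Src × Src) :=
    measurable_fst.prodMk
      (measurable_snd.fst.prodMk (measurable_snd.snd.prodMk measurable_const))
  have h := (measurable_yG6_pair (L := L) (hΦ := hΦ) (hε := hε) (f₀ := f₀) (b := b) (α := α)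
    (η := η) (t := t) (u := u)).comp hq
  exact h

/-- Joint measurability of `F6`. -/
theorem measurable_F6_joint [SFinite (GC.PP f₀ ε)] : Measurable fun q : Src × ℝ × Ph =>
    F6 L hΦ hε f₀ b α η t w u q.1 q.2.1 q.2.2 := by
  have e : (fun q : Src × ℝ × Ph => F6 L hΦ hε f₀ b α η t w u q.1 q.2.1 q.2.2) =
      fun q => (∫⁻ c, F6c L hΦ hε b α η t w u c q.1 q.2.1 q.2.2 ∂(GC.PP f₀ ε)) +
        yG6 L hΦ hε f₀ b α η t u q.1 (q.2.1, q.2.2, 0) :=
    funext fun q => F6_eq_F6c _ _ _
  rw [e]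
  exact measurable_F6int.add measurable_yG6_joint

/-! ### The iterates, integrated -/

theorem meas_e_m : Measurable fun p : Src × Src => ((p.1, (p.2.1, p.2.2.1)) : Src × ℝ × Ph) :=
  measurable_fst.prodMk (measurable_snd.fst.prodMk measurable_snd.snd.fst)

/-- The iterates of `F6` are measurable in the pair of sources. -/
theorem measurable_Gc_F6_pair [SFinite (GC.PP f₀ ε)] (b' t' : ℝ) (j : ℕ) :
    Measurable fun p : Src × Src =>
      Gc hΦ hε.ne' b' t' j (F6 L hΦ hε f₀ b α η t w u p.1) p.2.1 p.2.2.1 := by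
  have h := (measurable_Gc_param hΦ hε.ne' b' t' j (X := Src)
    (F := fun e => F6 L hΦ hε f₀ b α η t w u e) measurable_F6_joint).comp meas_e_m
  exact h

/-- The iterates of `F6c` are measurable in the pair of sources. -/
theorem measurable_Gc_F6c (b' t' : ℝ) (j : ℕ) : Measurable fun q : GC.Conf Ph × (Src × Src) =>
      Gc hΦ hε.ne' b' t' j (F6c L hΦ hε b α η t w u q.1 q.2.1) q.2.2.1 q.2.2.2.1 := by
  have hq : Measurable fun q : (Src × GC.Conf Ph) × ℝ × Ph =>
      (q.1.2, q.1.1, q.2.1, q.2.2) := by fun_prop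
  have h3 := (measurable_F6c (L := L) (hΦ := hΦ) (hε := hε) (b := b) (α := α) (η := η) (t := t)
    (w := w) (u := u)).comp hq
  have h4 := measurable_Gc_param hΦ hε.ne' b' t' j (X := Src × GC.Conf Ph)
    (F := fun x => F6c L hΦ hε b α η t w u x.2 x.1) h3
  have h5 : Measurable fun q : GC.Conf Ph × (Src × Src) =>
      (((q.2.1, q.1), (q.2.2.1, q.2.2.2.1)) : (Src × GC.Conf Ph) × ℝ × Ph) := by fun_prop
  have h6 := h4.comp h5
  exact h6

/-- The iterates of `yG6` are measurable in the pair of sources. -/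
theorem measurable_Gc_yG6 [SFinite (GC.PP f₀ ε)] (b' t' : ℝ) (j : ℕ) :
    Measurable fun p : Src × Src =>
      Gc hΦ hε.ne' b' t' j (fun s l => yG6 L hΦ hε f₀ b α η t u p.1 (s, l, 0))
        p.2.1 p.2.2.1 := by
  have h := (measurable_Gc_param hΦ hε.ne' b' t' j (X := Src)
    (F := fun e s l => yG6 L hΦ hε f₀ b α η t u e (s, l, 0)) measurable_yG6_joint).comp meas_e_m
  exact h

/-- **The iterates of `F6`, integrated against a law of pairs of sources**: the integral over the
worlds is outside. -/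
theorem lam_Gc_F6 [SFinite (GC.PP f₀ ε)] (b' t' : ℝ) (j : ℕ) {lam : Measure (Src × Src)}
    [SFinite lam] :
    ∫⁻ p, Gc hΦ hε.ne' b' t' j (F6 L hΦ hε f₀ b α η t w u p.1) p.2.1 p.2.2.1 ∂lam =
      (∫⁻ c, ∫⁻ p, Gc hΦ hε.ne' b' t' j (F6c L hΦ hε b α η t w u c p.1) p.2.1 p.2.2.1 ∂lam
        ∂(GC.PP f₀ ε)) +
      ∫⁻ p, Gc hΦ hε.ne' b' t' j (fun s l => yG6 L hΦ hε f₀ b α η t u p.1 (s, l, 0))
        p.2.1 p.2.2.1 ∂lam := by
  have h1 : ∀ e : Src, Measurable fun q : ℝ × Ph =>
      ∫⁻ c, F6c L hΦ hε b α η t w u c e q.1 q.2 ∂(GC.PP f₀ ε) := by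
    intro e
    have hq : Measurable fun q : ℝ × Ph => ((e, q) : Src × ℝ × Ph) :=
      measurable_const.prodMk measurable_id
    have h := (measurable_F6int (L := L) (hΦ := hΦ) (hε := hε) (f₀ := f₀) (b := b) (α := α)
      (η := η) (t := t) (w := w) (u := u)).comp hq
    exact h
  have h2 : ∀ p : Src × Src,
      Gc hΦ hε.ne' b' t' j (F6 L hΦ hε f₀ b α η t w u p.1) p.2.1 p.2.2.1 =
      Gc hΦ hε.ne' b' t' j (fun s z => ∫⁻ c, F6c L hΦ hε b α η t w u c p.1 s z ∂(GC.PP f₀ ε))
        p.2.1 p.2.2.1 +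
      Gc hΦ hε.ne' b' t' j (fun s l => yG6 L hΦ hε f₀ b α η t u p.1 (s, l, 0))
        p.2.1 p.2.2.1 := by
    intro p
    rw [← Gc_add hΦ hε.ne' b' t' j (h1 p.1)]
    congr 1
    funext s l
    exact F6_eq_F6c _ _ _
  simp only [h2]
  have h3 : Measurable fun p : Src × Src =>
      Gc hΦ hε.ne' b' t' j (fun s z => ∫⁻ c, F6c L hΦ hε b α η t w u c p.1 s z ∂(GC.PP f₀ ε))
        p.2.1 p.2.2.1 := by
    have h := (measurable_Gc_param hΦ hε.ne' b' t' j (X := Src)
      (F := fun e s z => ∫⁻ c, F6c L hΦ hε b α η t w u c e s z ∂(GC.PP f₀ ε))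
      measurable_F6int).comp meas_e_m
    exact h
  rw [lintegral_add_left h3]
  congr 1
  exact lam_Gc_comm hΦ hε.ne' b' t' j (F := fun c e s z => F6c L hΦ hε b α η t w u c e s z)
    measurable_F6c

/-- **The weighted sum of the iterates of `F6`, integrated against a law of pairs of sources.** -/
theorem lam_Gc_F6_sum [SFinite (GC.PP f₀ ε)] (b' t' : ℝ) (J : ℕ) (W : ℕ → ℝ≥0∞)
    {lam : Measure (Src × Src)} [SFinite lam] :
    ∫⁻ p, ∑ j ∈ Finset.range J, W j *
      Gc hΦ hε.ne' b' t' j (F6 L hΦ hε f₀ b α η t w u p.1) p.2.1 p.2.2.1 ∂lam =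
      (∫⁻ c, ∑ j ∈ Finset.range J, W j *
        ∫⁻ p, Gc hΦ hε.ne' b' t' j (F6c L hΦ hε b α η t w u c p.1) p.2.1 p.2.2.1 ∂lam
        ∂(GC.PP f₀ ε)) +
      ∑ j ∈ Finset.range J, W j *
        ∫⁻ p, Gc hΦ hε.ne' b' t' j (fun s l => yG6 L hΦ hε f₀ b α η t u p.1 (s, l, 0))
          p.2.1 p.2.2.1 ∂lam := by
  have h1 : ∀ j, Measurable fun c : GC.Conf Ph =>
      ∫⁻ p, Gc hΦ hε.ne' b' t' j (F6c L hΦ hε b α η t w u c p.1) p.2.1 p.2.2.1 ∂lam := by
    intro j
    have h := (measurable_Gc_F6c (L := L) (hΦ := hΦ) (hε := hε) (b := b) (α := α) (η := η)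
      (t := t) (w := w) (u := u) b' t' j).lintegral_prod_right' (ν := lam)
    exact h
  rw [lintegral_finsetSum _ fun j _ => (measurable_Gc_F6_pair b' t' j).const_mul _,
    lintegral_finsetSum _ fun j _ => (h1 j).const_mul _, ← Finset.sum_add_distrib]
  refine Finset.sum_congr rfl fun j _ => ?_
  rw [lintegral_const_mul _ (measurable_Gc_F6_pair b' t' j), lam_Gc_F6, mul_add,
    lintegral_const_mul _ (h1 j)]

end Vale.Agent.P119.PB
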