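import Vale.Agent.P119.PB.For8
import Vale.Agent.P119.FL.LawC7

/-!
# P119, block PROB, P8: the laws of two branches (`helper776`)

* `lam8D_eq`: the law of two exhausts in different branches is symmetric;
* `law8_C`, `law8_D`: from `FL.law8_lamC` (`helper690`).
-/

open MeasureTheory Filter Topology Set ProbabilityTheory
open scoped ENNReal NNReal

noncomputable section

namespace Vale.Agent.P119.PB

open M CTree KU FB RB AU FL TL EX

variable {Φ : E3 → ℝ} {hΦ : IsPotential Φ} {f₀ : Ph → ℝ} {κ T b b₀ l₁ l₂ Q B : ℝ}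
  {m αP a : ℕ → ℝ} {a' : ℕ → ℝ≥0∞} {D F : ℕ → ℝ → ℝ → ℝ → ℝ≥0∞}
  {W : ℕ → ℝ → ℝ → ℝ → ℝ → ℝ≥0∞}

/-- The law of two exhausts in different branches is symmetric. -/
theorem lam8D_eq (q : ℕ) : lam8D hΦ b T m q = PB.lam8C hΦ b T m q := by
  funext L ε hε t
  unfold lam8D PB.lam8C
  refine Measure.ext fun s hs => ?_
  rw [Measure.map_apply measurable_swap hs, ← lintegral_indicator_one (measurable_swap hs),
    ← lintegral_indicator_one hs]
  exact lamC_swap hΦ hε.ne' b t (K8 T) (aM8 m) L q (measurable_one.indicator hs)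

theorem law8_C (hP : PB.Par T b₀ m b l₁ l₂ Q αP a) (hΦ : IsPotential Φ)
    (h₀ : GoodDatum f₀ κ) (hB : RW.StableWith Φ B) (hm2 : m2 f₀ < ∞) (q : ℕ)
    (ha' : ∑' n, a' n ≠ ∞) :
    Law8 hΦ f₀ T (b₀ / 2) a' D (dTh b T l₁ l₂ a hΦ f₀ T) F W
      (PB.lam8C hΦ (b₀ / 2) T m q) :=
  law8_lamC hP hΦ h₀ hB hm2 q (K := K8 T) ENNReal.ofReal_ne_top ha'

theorem law8_D (hP : PB.Par T b₀ m b l₁ l₂ Q αP a) (hΦ : IsPotential Φ)
    (h₀ : GoodDatum f₀ κ) (hB : RW.StableWith Φ B) (hm2 : m2 f₀ < ∞) (q : ℕ)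
    (ha' : ∑' n, a' n ≠ ∞) :
    Law8 hΦ f₀ T (b₀ / 2) a' D (dTh b T l₁ l₂ a hΦ f₀ T) F W
      (lam8D hΦ (b₀ / 2) T m q) := by
  rw [lam8D_eq]
  exact law8_C hP hΦ h₀ hB hm2 q ha'

end Vale.Agent.P119.PB
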