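import Vale.Agent.P119.PB.Int5
import Vale.Agent.P119.PB.ContDef
import Vale.Agent.P119.PB.Op5

/-!
# P119, block PROB: monotonicity of the second events in the stopping level (`helper185`)

`GG`, `PairC`, `secN`, `secS`, `TwoF`, `DirP`, `TwoP` are monotone in the stopping level `η`
(`0 < η ≤ η'`, `0 ≤ t`).  (`DD`, `FF`, `theta`: see `AU/Mono`.)
-/

open MeasureTheory Filter Topology Set
open scoped ENNReal NNReal

namespace Vale.Agent.P119.PB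

open M CTree KU FB RB FL

variable {Φ : E3 → ℝ} {ε : ℝ} {L : ℕ} {hΦ : IsPotential Φ} {hε : 0 < ε} {f₀ : Ph → ℝ}
  {η η' t w : ℝ} {U V : Finset Src} {σ e m : Src} {S T x y : CTree} {z' : Ph}

theorem GG_mono (h0 : 0 < η) (h : η ≤ η') (ht : 0 ≤ t) (hG : GG L hΦ hε η t V e m) :
    GG L hΦ hε η' t V e m :=
  ⟨FB.Sys.Touch.mono hG.1 (hz_mono_left h h0 ht), FB.Sys.Touch.mono hG.2 (hz_mono_left h h0 ht)⟩

theorem PairC_mono (h0 : 0 < η) (h : η ≤ η') (ht : 0 ≤ t) (hP : PairC L hΦ hε η t w U σ z') :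
    PairC L hΦ hε η' t w U σ z' := by
  obtain ⟨h1, h2, r, h3, h4, h5⟩ := hP
  exact ⟨h1, h2, r, h3, h4.trans (min_le_min_right _ (hz_mono_left h h0 ht)), h5⟩

theorem gI_mono (h0 : 0 < η) (h : η ≤ η') (ht : 0 ≤ t) :
    gI L hΦ hε η t V e m ≤ gI L hΦ hε η' t V e m := by
  unfold gI
  split_ifs
  · exact ind_mono (GG_mono h0 h ht)
  · exact le_rfl

theorem pI_mono (h0 : 0 < η) (h : η ≤ η') (ht : 0 ≤ t) :
    pI L hΦ hε η t w V e σ z' ≤ pI L hΦ hε η' t w V e σ z' := by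
  unfold pI
  exact ind_mono fun h1 => ⟨FB.Sys.Touch.mono h1.1 (hz_mono_left h h0 ht),
    PairC_mono h0 h ht h1.2⟩

theorem secN_mono (h0 : 0 < η) (h : η ≤ η') (ht : 0 ≤ t) :
    secN L hΦ hε η t w V σ T ≤ secN L hΦ hε η' t w V σ T := by
  unfold secN
  refine exsum_mono fun x _ => add_le_add (add_le_add (add_le_add (add_le_add ?_ ?_) ?_) ?_) ?_
  · exact gI_mono h0 h ht
  · exact gI_mono h0 h ht
  · exact gI_mono h0 h ht
  · exact pI_mono h0 h ht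
  · refine exsum_mono fun y _ => ?_
    split_ifs
    · exact le_rfl
    · exact gI_mono h0 h ht

theorem secS_mono (h0 : 0 < η) (h : η ≤ η') (ht : 0 ≤ t) :
    secS L hΦ hε f₀ η t w σ ≤ secS L hΦ hε f₀ η' t w σ := by
  unfold secS XI
  exact XX_mono fun _ _ _ => mul_le_mul_right (mul_le_mul_right (secN_mono h0 h ht) _) _

theorem Nm_secS_mono {b Tm l₁ l₂ : ℝ} {a : ℕ → ℝ} (h0 : 0 < η) (h : η ≤ η') (ht : 0 ≤ t) :
    Nm b Tm l₁ l₂ a t (secS L hΦ hε f₀ η t w) ≤ Nm b Tm l₁ l₂ a t (secS L hΦ hε f₀ η' t w) :=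
  Nm_mono fun _ _ => secS_mono h0 h ht

theorem TwoF_mono (h0 : 0 < η) (h : η ≤ η') (ht : 0 ≤ t) (hT : TwoF L hΦ hε η t U T) :
    TwoF L hΦ hε η' t U T := by
  obtain ⟨e, he, m, hm, hne, hG⟩ := hT
  exact ⟨e, he, m, hm, hne, GG_mono h0 h ht hG⟩

theorem DirP_mono {h h' : ℝ} (hh : h ≤ h') (hD : DirP L hΦ hε U h x y) :
    DirP L hΦ hε U h' x y := by
  obtain ⟨r, hr, h1⟩ := hD
  exact ⟨r, hr.trans hh, h1⟩

theorem TwoP_mono (h0 : 0 < η) (h : η ≤ η') (ht : 0 ≤ t) (hT : TwoP L hΦ hε η t U x y) :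
    TwoP L hΦ hε η' t U x y := by
  obtain ⟨e, he, h1 | h1⟩ := hT
  · obtain ⟨m, hm, hne, hG⟩ := h1
    exact ⟨e, he, Or.inl ⟨m, hm, hne, GG_mono h0 h ht hG⟩⟩
  · exact ⟨e, he, Or.inr ⟨FB.Sys.Touch.mono h1.1 (hz_mono_left h h0 ht),
      DirP_mono (hz_mono_left h h0 ht) h1.2⟩⟩

end Vale.Agent.P119.PB
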