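import Vale.Agent.P119.PB.P9Dir
import Vale.Agent.P119.PB.ContX
import Vale.Agent.P119.PB.DM4
import Vale.Agent.P119.PB.CrudeDF

/-!
# P119, block PROB, P9 (contamination): the direct terms, in the limit `ε → 0` (`helper185`)

* **`dirF_raw`**: `μ⁻¹ XX (1 + |v|²) 1{DirF}` is at most `ρ + K ∫₀ᵗ DD η s ds` for small `ε`, with a
  constant `K` which does not depend on the depth `L`.
-/

open MeasureTheory Filter Topology Set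
open scoped ENNReal NNReal

noncomputable section

namespace Vale.Agent.P119.PB

open M CTree KU FB RB AU FL

variable {Φ : E3 → ℝ} {ε : ℝ} {L : ℕ} {hΦ : IsPotential Φ} {hε : 0 < ε} {f₀ : Ph → ℝ} {κ : ℝ}
  {η t b : ℝ}

theorem qv_le_pw (v : E3) : qv v ≤ Cap.pw 2 v := by
  unfold qv Cap.pw
  apply ENNReal.ofReal_le_ofReal
  have := norm_nonneg v
  nlinarith

theorem eventually_mul_le {f : ℝ → ℝ≥0∞} (hf : Tendsto f (𝓝[>] 0) (𝓝 0)) {C : ℝ≥0∞}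
    (hC : C ≠ ∞) {ρ : ℝ} (hρ : 0 < ρ) : ∀ᶠ ε in 𝓝[>] (0 : ℝ), C * f ε ≤ ENNReal.ofReal ρ := by
  have h1 : Tendsto (fun ε => C * f ε) (𝓝[>] 0) (𝓝 (C * 0)) :=
    ENNReal.Tendsto.const_mul hf (Or.inr hC)
  rw [mul_zero] at h1
  exact h1.eventually (ge_mem_nhds (ENNReal.ofReal_pos.2 hρ))

theorem tendsto_ofReal_zero : Tendsto (fun ε : ℝ => ENNReal.ofReal ε) (𝓝[>] 0) (𝓝 0) := by
  have h1 : Tendsto (fun ε : ℝ => ENNReal.ofReal ε) (𝓝 0) (𝓝 (ENNReal.ofReal 0)) :=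
    ENNReal.tendsto_ofReal tendsto_id
  rw [ENNReal.ofReal_zero] at h1
  exact h1.mono_left nhdsWithin_le_nhds

/-- The atypical part with the weight `1 + |v|²`. -/
theorem CapL.qv_small {Tm : ℝ} {α : ℕ → ℝ≥0∞} {ν : ℝ → GC.Conf Ph → Measure Src}
    (h : CapL Φ f₀ L Tm b α ν) {C : ℝ≥0∞} (hC : C ≠ ∞) {ρ : ℝ} (hρ : 0 < ρ) :
    ∀ᶠ ε in 𝓝[>] (0 : ℝ), C * (∫⁻ c, ∫⁻ p : Src, qv p.2.1.2 ∂(ν ε c) ∂(GC.PP f₀ ε)) ≤
      ENNReal.ofReal ρ := by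
  filter_upwards [eventually_mul_le (h.lim 2) hC hρ] with ε hε
  refine le_trans ?_ hε
  gcongr with c p
  exact qv_le_pw _

/-- **The direct term of one tree**, for small `ε`. -/
theorem dirF_raw {B : ℝ} (hΦ : IsPotential Φ) (hB : RW.StableWith Φ B) (hg : GoodDatum f₀ κ)
    {T : ℝ} (hT : 0 ≤ T) {bD M₀ : ℝ} (hbD : 0 < bD) (hM₀ : 0 ≤ M₀)
    (hf : ∀ z, f₀ z ≤ M₀ * Real.exp (-bD * ‖z.2‖ ^ 2))
    (hx : ∀ v : E3, ∫⁻ x : E3, ENNReal.ofReal (f₀ (x, v)) ≤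
      ENNReal.ofReal (M₀ * Real.exp (-bD * ‖v‖ ^ 2)))
    (hb : 0 < b) {α : ℕ → ℝ≥0∞} (hα : ∑' d, α d ≠ ∞)
    {ν : ℝ → GC.Conf Ph → Measure Src} (hcap : CapL Φ f₀ L T b α ν) (hη : 0 < η) {ρ : ℝ}
    (hρ : 0 < ρ) : ∀ᶠ ε in 𝓝[>] (0 : ℝ), ∀ hε : 0 < ε, ∀ t ∈ Icc 0 T,
      (muE ε)⁻¹ * XX Φ ε L f₀ t (fun U T => qv (ln Φ ε T).2 *
        ind (DirF L hΦ hε U (hz L hΦ hε η t U) T)) ≤
      ENNReal.ofReal ρ + Kdir b B T α * ∫⁻ s in Icc 0 t, DD L hΦ hε f₀ η s := by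
  obtain ⟨M, hM, hMD⟩ := crude_DD_FF hΦ hg hbD hM₀ hf hx L hT
  have hK := Kdir_ne_top (b := b) (B := B) (Tm := T) hα
  have hC : Kdir b B T α * ENNReal.ofReal M ≠ ∞ := ENNReal.mul_ne_top hK ENNReal.ofReal_ne_top
  filter_upwards [eventually_mul_le tendsto_ofReal_zero hC (half_pos hρ),
    hcap.qv_small ENNReal.one_ne_top (half_pos hρ)] with ε h1 h2 hε t ht
  have h3 := XX_dirF_le (hΦ := hΦ) (hε := hε) hg ht.2 hT ht.1 hη hB hb (α := α)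
    (ν := ν ε) (hcap.law ε hε)
  refine h3.trans ?_
  rw [one_mul] at h2
  calc Kdir b B T α * (ENNReal.ofReal ε * DD L hΦ hε f₀ η t + ∫⁻ r in Icc 0 t, DD L hΦ hε f₀ η r) +
        ∫⁻ c, ∫⁻ p, qv p.2.1.2 ∂(ν ε c) ∂(GC.PP f₀ ε)
      ≤ Kdir b B T α * (ENNReal.ofReal ε * ENNReal.ofReal M +
          ∫⁻ r in Icc 0 t, DD L hΦ hε f₀ η r) + ENNReal.ofReal (ρ / 2) := by
        have h4 := (hMD ε hε η hη t ht).1
        gcongr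
    _ = Kdir b B T α * ENNReal.ofReal M * ENNReal.ofReal ε + ENNReal.ofReal (ρ / 2) +
          Kdir b B T α * ∫⁻ r in Icc 0 t, DD L hΦ hε f₀ η r := by ring
    _ ≤ ENNReal.ofReal (ρ / 2) + ENNReal.ofReal (ρ / 2) +
          Kdir b B T α * ∫⁻ r in Icc 0 t, DD L hΦ hε f₀ η r := by gcongr
    _ = _ := by
        rw [← ENNReal.ofReal_add (by positivity) (by positivity), add_halves]

/-- **The direct term of one tree**, with the weight `wq`. -/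
theorem dirF_wq {B : ℝ} (hΦ : IsPotential Φ) (hB : RW.StableWith Φ B) (hg : GoodDatum f₀ κ)
    {T : ℝ} (hT : 0 ≤ T) {bD M₀ : ℝ} (hbD : 0 < bD) (hM₀ : 0 ≤ M₀)
    (hf : ∀ z, f₀ z ≤ M₀ * Real.exp (-bD * ‖z.2‖ ^ 2))
    (hx : ∀ v : E3, ∫⁻ x : E3, ENNReal.ofReal (f₀ (x, v)) ≤
      ENNReal.ofReal (M₀ * Real.exp (-bD * ‖v‖ ^ 2)))
    (hb : 0 < b) {α : ℕ → ℝ≥0∞} (hα : ∑' d, α d ≠ ∞)
    {ν : ℝ → GC.Conf Ph → Measure Src} (hcap : CapL Φ f₀ L T b α ν) (hη : 0 < η) {ρ : ℝ}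
    (hρ : 0 < ρ) : ∀ᶠ ε in 𝓝[>] (0 : ℝ), ∀ hε : 0 < ε, ∀ t ∈ Icc 0 T,
      (muE ε)⁻¹ * XX Φ ε L f₀ t (fun U T => wq Φ ε T *
        ind (DirF L hΦ hε U (hz L hΦ hε η t U) T)) ≤
      ENNReal.ofReal ρ + Kdir b B T α * ∫⁻ s in Icc 0 t, DD L hΦ hε f₀ η s :=
  dirF_raw hΦ hB hg hT hbD hM₀ hf hx hb hα hcap hη hρ

end Vale.Agent.P119.PB
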