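import Vale.Agent.P119.PB.In8b
import Vale.Agent.P119.PB.P9DirR
import Vale.Agent.P119.PB.Mono

/-!
# P119, block PROB, P8: the bounds of the functionals at the second events (`helper336`)

* `Cap8`: what is needed from the law of the alive trees;
* `LawB`: the second events off the exceptional pairs, for a law of pairs; `Law8.lawB`;
* `ForS8`: a functional which is bounded by finitely many laws;
* `ok8_of_laws`, `ok8_pair`: the bounds of the functionals at the second events.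
-/

open MeasureTheory Filter Topology Set ProbabilityTheory
open scoped ENNReal NNReal

noncomputable section

namespace Vale.Agent.P119.PB

open M CTree KU FB RB AU FL TL

/-- **What is needed from the law of the alive trees.** -/
structure Cap8 (Φ : E3 → ℝ) (f₀ : Ph → ℝ) (T b : ℝ) (m : ℕ → ℝ) : Prop where
  m0 : ∀ n, 0 ≤ m n
  sup : KE.SuperExp m
  cap : ∀ᶠ L in atTop, CapT Φ f₀ L T b m
  ovr : ∀ A : ℝ≥0∞, A ≠ ∞ → ∃ C : ℝ≥0∞, C ≠ ∞ ∧ ∀ᶠ L in atTop, ∀ᶠ ε in 𝓝[>] (0 : ℝ),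
    ∀ _ : 0 < ε, ∀ t ∈ Icc 0 T, ENNReal.ofReal (ε ^ 2) *
      XX Φ ε L f₀ t (fun _ S => A ^ S.depth * ENNReal.ofReal (1 + ‖(ln Φ ε S).2‖)) ≤ C

/-- The partner weights of P8. -/
def a8 (T : ℝ) (m : ℕ → ℝ) (n : ℕ) : ℝ≥0∞ := ENNReal.ofReal (m n) * ENNReal.ofReal (1 + T)

theorem tsum_a8_ne_top {T : ℝ} {m : ℕ → ℝ} (h : KE.SuperExp m) {A : ℝ≥0∞}
    (hA : A ≠ ∞) : ∑' n, a8 T m n * A ^ n ≠ ∞ := by
  have h1 : KE.SuperExp fun n => A.toReal ^ n * m n := by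
    intro B hB
    refine (h (B * A.toReal) (mul_nonneg hB ENNReal.toReal_nonneg)).congr fun n => ?_
    rw [mul_pow]
    ring
  obtain ⟨B, hB, hB'⟩ := superExp_geom h1
  have h2 : ∀ n, a8 T m n * A ^ n ≤ ENNReal.ofReal (1 + T) * ENNReal.ofReal (B * (1 / 2) ^ n) := by
    intro n
    have e1 : A ^ n = ENNReal.ofReal (A.toReal ^ n) := by
      rw [ENNReal.ofReal_pow ENNReal.toReal_nonneg, ENNReal.ofReal_toReal hA]
    unfold a8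
    calc ENNReal.ofReal (m n) * ENNReal.ofReal (1 + T) * A ^ n
        = ENNReal.ofReal (1 + T) * (ENNReal.ofReal (A.toReal ^ n) * ENNReal.ofReal (m n)) := by
          rw [e1]; ring
      _ = ENNReal.ofReal (1 + T) * ENNReal.ofReal (A.toReal ^ n * m n) := by
          rw [ENNReal.ofReal_mul (by positivity)]
      _ ≤ _ := mul_le_mul' le_rfl (ENNReal.ofReal_le_ofReal (hB' n))
  refine ne_top_of_le_ne_top ?_ (ENNReal.tsum_le_tsum h2)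
  rw [ENNReal.tsum_mul_left]
  refine ENNReal.mul_ne_top ENNReal.ofReal_ne_top ?_
  have h3 : Summable fun n : ℕ => B * (1 / 2 : ℝ) ^ n :=
    (summable_geometric_of_lt_one (by norm_num) (by norm_num)).mul_left B
  exact h3.tsum_ofReal_ne_top

theorem tsum_a8_ne_top' {T : ℝ} {m : ℕ → ℝ} (h : KE.SuperExp m) :
    ∑' n, a8 T m n ≠ ∞ := by
  have h1 := tsum_a8_ne_top (T := T) h (A := 1) ENNReal.one_ne_top
  simpa using h1

variable {Φ : E3 → ℝ} {hΦ : IsPotential Φ} {f₀ : Ph → ℝ} {κ T b : ℝ} {m : ℕ → ℝ} {a : ℕ → ℝ≥0∞}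
  {D Θ F : ℕ → ℝ → ℝ → ℝ → ℝ≥0∞} {W : ℕ → ℝ → ℝ → ℝ → ℝ → ℝ≥0∞} {L : ℕ} {ε : ℝ} {hε : 0 < ε}

/-- **The second events off the exceptional pairs**, for a law of pairs. -/
def LawB (hΦ : IsPotential Φ) (f₀ : Ph → ℝ) (T b : ℝ) (a : ℕ → ℝ≥0∞)
    (D Θ F : ℕ → ℝ → ℝ → ℝ → ℝ≥0∞) (W : ℕ → ℝ → ℝ → ℝ → ℝ → ℝ≥0∞) (K : ℝ) (p : ℕ)
    (c : ℕ → ℝ) (lam : Lam8) : Prop :=
  ∀ n : ℕ, 1 ≤ n → ∀ᶠ L in atTop, ∀ δ ∈ Ioc (0 : ℝ) 1, ∀ η η' : ℝ, 0 < η → η < η' → η' ≤ 1 →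
    ∀ ρ : ℝ, 0 < ρ → ∃ δ₀ : ℝ≥0∞, δ₀ ≠ 0 ∧ δ₀ ≤ 2⁻¹ ∧ ∀ δ₁ ≤ δ₀, ∃ J₀ : ℕ, ∀ J ≥ J₀,
      ∀ᶠ ε in 𝓝[>] (0 : ℝ), ∀ hε : 0 < ε, ∀ t ∈ Icc 0 T,
        ∫⁻ x in (BX L hΦ hε f₀ b a ((η + η') / 2) (((η + η') / 2 - η) / J) t J δ₁)ᶜ,
          gT6 L hΦ hε f₀ η t x.1 x.2 ∂(lam L ε hε t) ≤
        ENNReal.ofReal (c n * ((n : ℝ) ^ L)⁻¹ + ρ) + R8 K p D Θ F W L δ η' ε t

theorem ofReal_nat_pow_inv {n : ℕ} (hn : 1 ≤ n) (L : ℕ) :
    (((n : ℝ≥0∞)) ^ L)⁻¹ = ENNReal.ofReal (((n : ℝ) ^ L)⁻¹) := by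
  have hn0 : (0 : ℝ) < n := by exact_mod_cast hn
  rw [ENNReal.ofReal_inv_of_pos (by positivity), ENNReal.ofReal_pow hn0.le,
    ENNReal.ofReal_natCast]

/-- **The second events off the exceptional pairs.** -/
theorem Law8.lawB (h₀ : GoodDatum f₀ κ) (hC : Cap8 Φ f₀ T b m) {lam : Lam8}
    (h : Law8 hΦ f₀ T b (a8 T m) D Θ F W lam) :
    ∃ (K : ℝ) (p : ℕ) (c : ℕ → ℝ), 1 ≤ K ∧ (∀ n, 0 ≤ c n) ∧
      LawB hΦ f₀ T b (a8 T m) D Θ F W K p c lam := by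
  classical
  obtain ⟨K, p, hK, hmain⟩ := h.main
  have key : ∀ n : ℕ, 1 ≤ n → ∃ c : ℝ, 0 ≤ c ∧ ∀ᶠ L in atTop, ∀ δ ∈ Ioc (0 : ℝ) 1,
      ∀ η η' : ℝ, 0 < η → η < η' → η' ≤ 1 →
      ∀ ρ : ℝ, 0 < ρ → ∃ δ₀ : ℝ≥0∞, δ₀ ≠ 0 ∧ δ₀ ≤ 2⁻¹ ∧ ∀ δ₁ ≤ δ₀, ∃ J₀ : ℕ, ∀ J ≥ J₀,
      ∀ᶠ ε in 𝓝[>] (0 : ℝ), ∀ hε : 0 < ε, ∀ t ∈ Icc 0 T,
        ∫⁻ x in (BX L hΦ hε f₀ b (a8 T m) ((η + η') / 2) (((η + η') / 2 - η) / J) t J δ₁)ᶜ,
          gT6 L hΦ hε f₀ η t x.1 x.2 ∂(lam L ε hε t) ≤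
        ENNReal.ofReal (c * ((n : ℝ) ^ L)⁻¹ + ρ) + R8 K p D Θ F W L δ η' ε t := by
    intro n hn
    have hA1 : (1 : ℝ≥0∞) ≤ (n : ℝ≥0∞) := by exact_mod_cast hn
    have hAt : (n : ℝ≥0∞) ≠ ∞ := ENNReal.natCast_ne_top n
    obtain ⟨C, hCs, hCh⟩ := h.hit n hA1 hAt
    obtain ⟨Cv, hCv, hov⟩ := hC.ovr n hAt
    have ha1 := tsum_a8_ne_top' (T := T) hC.sup
    have haA := tsum_a8_ne_top (T := T) hC.sup hAt
    set M : ℝ≥0∞ := (n : ℝ≥0∞) * (∑' k, a8 T m k + ∑' k, a8 T m k * (n : ℝ≥0∞) ^ k) with hM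
    have hMt : M ≠ ∞ := ENNReal.mul_ne_top hAt (ENNReal.add_ne_top.2 ⟨ha1, haA⟩)
    have hSt := hCs M hMt
    have hSt' := hCs (∑' k, a8 T m k) ha1
    have hX : (∑' j, M ^ j * C j) * Cv ≠ ∞ := ENNReal.mul_ne_top hSt hCv
    refine ⟨((∑' j, M ^ j * C j) * Cv).toReal, ENNReal.toReal_nonneg, ?_⟩
    filter_upwards [h.ok, hCh, hov, hC.cap, h.mass, hmain] with L hok hCh hov hcap hmass hmain
      δ hδ η η' h1 h2 h3 ρ hρ
    obtain ⟨ν, hν1, hν2, hν3⟩ := hcap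
    set η₁ : ℝ := (η + η') / 2 with hη₁
    have g1 : η < η₁ := by rw [hη₁]; linarith
    have g2 : η₁ < η' := by rw [hη₁]; linarith
    have g3 : 0 < η₁ := h1.trans g1
    obtain ⟨Cm, hCm, hmass⟩ := hmass η₁ ⟨g3, g2.le.trans h3⟩
    have hρ4 : 0 < ρ / 4 := by positivity
    have hρ4' : ENNReal.ofReal (ρ / 4) ≠ 0 := by
      rw [Ne, ENNReal.ofReal_eq_zero, not_le]
      exact hρ4
    have hCm1 : Cm + 1 ≠ ∞ := ENNReal.add_ne_top.2 ⟨hCm, ENNReal.one_ne_top⟩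
    refine ⟨min (min 2⁻¹ (ENNReal.ofReal δ)) (ENNReal.ofReal (ρ / 4) / (Cm + 1)), ?_,
      (min_le_left _ _).trans (min_le_left _ _), ?_⟩
    · rw [← pos_iff_ne_zero, lt_min_iff, lt_min_iff]
      exact ⟨⟨by simp, ENNReal.ofReal_pos.2 hδ.1⟩, ENNReal.div_pos hρ4' hCm1⟩
    intro δ₁ hδ₁
    have hδa : δ₁ ≤ 2⁻¹ := hδ₁.trans ((min_le_left _ _).trans (min_le_left _ _))
    have hδc : δ₁ ≤ ENNReal.ofReal δ := hδ₁.trans ((min_le_left _ _).trans (min_le_right _ _))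
    have hδb : δ₁ * Cm ≤ ENNReal.ofReal (ρ / 4) := by
      calc δ₁ * Cm ≤ ENNReal.ofReal (ρ / 4) / (Cm + 1) * (Cm + 1) :=
            mul_le_mul' (hδ₁.trans (min_le_right _ _)) le_self_add
        _ = _ := ENNReal.div_mul_cancel (by simp) hCm1
    obtain ⟨J₀, hJ₀⟩ := hmain δ hδ η₁ η' g3 g2 h3 δ₁ hδa hδc (ρ / 4) hρ4
    refine ⟨max J₀ 1, fun J hJ => ?_⟩
    have hJ1 : 1 ≤ J := (le_max_right _ _).trans hJ
    set SJ : ℝ≥0∞ := ∑ j ∈ Finset.range J, (∑' k, a8 T m k) ^ j * C j with hSJ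
    have hSJt : 5 * SJ ≠ ∞ := ENNReal.mul_ne_top (by norm_num)
      (ne_top_of_le_ne_top hSt' (ENNReal.sum_le_tsum _))
    have haty : ∀ᶠ ε in 𝓝[>] (0 : ℝ), (5 * SJ) * ∫⁻ c, ∫⁻ σ, Cap.pw 1 σ.2.1.2 ∂(ν ε c)
        ∂(GC.PP f₀ ε) ≤ ENNReal.ofReal (ρ / 4) :=
      eventually_mul_le (hν3 1) hSJt hρ4
    filter_upwards [hok, hCh, hov, hmass, hJ₀ J ((le_max_left _ _).trans hJ), haty] with ε
      e1 e2 e3 e4 e5 e6 hε t ht
    have hκ : ∀ c, ∀ Fn : Src → ℝ≥0∞, Measurable Fn →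
        ∫⁻ S in Cap.AL Φ ε L T (GC.pts c : Set Ph), Fn (rsrc Φ ε S) ∂(tree (GC.inten f₀ ε) L) ≤
        FL.muE ε * (typI b T (fun d => ENNReal.ofReal (m d)) Fn + ∫⁻ σ, Fn σ ∂(ν ε c)) :=
      hν2 ε hε
    have := hν1 ε
    have := h.sf L ε hε t
    set θ : ℝ := (η₁ - η) / J with hθ
    have hGm : MeasurableSet (GX L hΦ hε f₀ η₁ θ t δ₁) := measurableSet_GX h₀
    have hJr : (1 : ℝ) ≤ J := by exact_mod_cast hJ1
    have hθ' : θ ≤ η' - η₁ := by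
      have h5 : η' - η₁ = η₁ - η := by rw [hη₁]; ring
      rw [h5, hθ]
      exact div_le_self (by linarith) hJr
    obtain ⟨u, hu, hmn⟩ := e5 hε t ht (GX L hΦ hε f₀ η₁ θ t δ₁) hGm
      fun e he => (rE6_anti hθ' e).trans he
    have hfin := lam_gT6_compl_le (hε := hε) (hΦ := hΦ) (L := L) (w := T) (t' := T + 1) (Tm := T) (η := η) (η' := η₁)
      (α := fun d => ENNReal.ofReal (m d)) (ν := ν ε) (J := J) (A := (n : ℝ≥0∞))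
      (a := a8 T m) (lam := lam L ε hε t) (C := C) (u := u) (δ := δ₁) (κ := κ)
      h₀ ht.1 ht.2 h1 g1 ht.2 hκ hJ1 (by linarith [ht.2]) hA1 hAt rfl
      (e1 hε t ht) (e2 hε t ht) hu
    refine hfin.trans ?_
    -- the four terms
    have k2 : ((n : ℝ≥0∞) ^ L)⁻¹ * ((∑ j ∈ Finset.range J, M ^ j * C j) *
        (ENNReal.ofReal (ε ^ 2) * XX Φ ε L f₀ t fun _ S => (n : ℝ≥0∞) ^ S.depth *
          ENNReal.ofReal (1 + ‖(ln Φ ε S).2‖))) ≤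
        ENNReal.ofReal (((∑' j, M ^ j * C j) * Cv).toReal * ((n : ℝ) ^ L)⁻¹) := by
      rw [ENNReal.ofReal_mul ENNReal.toReal_nonneg, ENNReal.ofReal_toReal hX,
        ofReal_nat_pow_inv hn, mul_comm ((∑' j, M ^ j * C j) * Cv)]
      exact mul_le_mul' le_rfl (mul_le_mul' (ENNReal.sum_le_tsum _) (e3 hε t ht))
    have k3 : 5 * (SJ * (ENNReal.ofReal (ε ^ 2) *
        (muE ε * ∫⁻ c, ∫⁻ σ : Src, ENNReal.ofReal (1 + ‖σ.2.1.2‖) ∂(ν ε c) ∂(GC.PP f₀ ε)))) ≤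
        ENNReal.ofReal (ρ / 4) := by
      rw [ofReal_sq_mul_muE hε, ← mul_assoc]
      refine le_trans (mul_le_mul' le_rfl ?_) e6
      refine lintegral_mono fun c => lintegral_mono fun σ => ?_
      unfold Cap.pw
      rw [pow_one]
    have k4 : δ₁ * ∫⁻ x, tE6 L hΦ hε f₀ η₁ t x.1 ∂(lam L ε hε t) ≤ ENNReal.ofReal (ρ / 4) :=
      (mul_le_mul' le_rfl (e4 hε t ht)).trans hδb
    refine (add_le_add (add_le_add (add_le_add hmn k2) k3) k4).trans ?_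
    have hc0 : 0 ≤ ((∑' j, M ^ j * C j) * Cv).toReal * ((n : ℝ) ^ L)⁻¹ := by positivity
    set X : ℝ := ((∑' j, M ^ j * C j) * Cv).toReal * ((n : ℝ) ^ L)⁻¹ with hXd
    calc R8 K p D Θ F W L δ η' ε t + ENNReal.ofReal (ρ / 4) + ENNReal.ofReal X +
          ENNReal.ofReal (ρ / 4) + ENNReal.ofReal (ρ / 4)
        = R8 K p D Θ F W L δ η' ε t + (ENNReal.ofReal X + (ENNReal.ofReal (ρ / 4) +
          ENNReal.ofReal (ρ / 4) + ENNReal.ofReal (ρ / 4))) := by ring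
      _ = R8 K p D Θ F W L δ η' ε t + ENNReal.ofReal (X + (ρ / 4 + ρ / 4 + ρ / 4)) := by
          rw [ENNReal.ofReal_add hc0 (by positivity), ENNReal.ofReal_add (by positivity) hρ4.le,
            ENNReal.ofReal_add hρ4.le hρ4.le]
      _ ≤ R8 K p D Θ F W L δ η' ε t + ENNReal.ofReal (X + ρ) :=
          add_le_add le_rfl (ENNReal.ofReal_le_ofReal (by linarith))
      _ = _ := add_comm _ _
  choose! c hc0 hc using key
  refine ⟨K, p, fun n => if 1 ≤ n then c n else 0, hK, fun n => ?_, fun n hn => ?_⟩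
  · by_cases hn : 1 ≤ n
    · simp only [if_pos hn]
      exact hc0 n hn
    · simp only [if_neg hn]
      exact le_rfl
  · simp only [if_pos hn]
    exact hc n hn

/-! ### The functionals -/

/-- **A functional which is bounded by finitely many laws.** -/
structure ForS8 (f₀ : Ph → ℝ) (T : ℝ) (𝔉 : Fun8) {ι : Type} [Fintype ι] (lam : ι → Lam8) :
    Prop where
  add : ∀ L ε hε t ψ ψ', MW ψ → MW ψ' →
    𝔉 L ε hε t (fun V e m => ψ V e m + ψ' V e m) ≤ 𝔉 L ε hε t ψ + 𝔉 L ε hε t ψ'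
  le : ∀ᶠ L in atTop, ∀ ρ : ℝ, 0 < ρ → ∀ᶠ ε in 𝓝[>] (0 : ℝ), ∀ hε : 0 < ε, ∀ t ∈ Icc 0 T,
    ∀ ψ : Finset Src → Src → Src → ℝ≥0∞, MW ψ → (∀ V e m, ψ V e m ≤ 1) →
      𝔉 L ε hε t ψ ≤ (∑ i, ∫⁻ c, ∫⁻ x, ψ (wS (GC.pts c)) x.1 x.2 ∂(lam i L ε hε t)
        ∂(GC.PP f₀ ε)) + ENNReal.ofReal ρ

/-- The right side of P8 is monotone in the constants. -/
theorem R8_le {K K' : ℝ} {p p' : ℕ} (hK0 : 0 ≤ K) (hK : K ≤ K') (hp : p ≤ p') {δ η' t : ℝ}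
    (hδ : δ ∈ Ioc (0 : ℝ) 1) (hη' : 0 < η') : R8 K p D Θ F W L δ η' ε t ≤
      R8 K' p' D Θ F W L δ η' ε t := by
  unfold R8
  refine add_le_add ?_ ?_
  · exact mul_le_mul_left (ENNReal.ofReal_le_ofReal (coef8_le hK0 hK hp hδ hη' L)) _
  · exact mul_le_mul_left (kp_le hK0 hK L) _

/-- A multiple of the right side of P8. -/
theorem nsmul_R8_le {K : ℝ} {p : ℕ} (hK0 : 0 ≤ K) (hL : 1 ≤ L) (N : ℕ) (hN : 1 ≤ N) {δ η' t : ℝ}
    (hδ : δ ∈ Ioc (0 : ℝ) 1) (hη' : 0 < η') : (N : ℝ≥0∞) * R8 K p D Θ F W L δ η' ε t ≤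
      R8 (N * K) p D Θ F W L δ η' ε t := by
  unfold R8
  have hN1 : (1 : ℝ) ≤ N := by exact_mod_cast hN
  have hNL : (N : ℝ) ≤ (N : ℝ) ^ L := by
    calc (N : ℝ) = (N : ℝ) ^ 1 := (pow_one _).symm
      _ ≤ (N : ℝ) ^ L := pow_le_pow_right₀ hN1 hL
  have k1 : (N : ℝ) * K ^ L ≤ (N * K) ^ L := by
    rw [mul_pow]
    exact mul_le_mul_of_nonneg_right hNL (pow_nonneg hK0 L)
  have hδ0 := hδ.1
  have e0 : (N : ℝ≥0∞) = ENNReal.ofReal (N : ℝ) := (ENNReal.ofReal_natCast N).symm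
  rw [mul_add, ← mul_assoc, ← mul_assoc]
  refine add_le_add (mul_le_mul_left ?_ _) (mul_le_mul_left ?_ _)
  · rw [e0, ← ENNReal.ofReal_mul (by positivity), ← mul_assoc]
    exact ENNReal.ofReal_le_ofReal (mul_le_mul_of_nonneg_right k1 (by positivity))
  · rw [e0, ← ENNReal.ofReal_mul (by positivity)]
    exact ENNReal.ofReal_le_ofReal k1

/-- **The bound of a functional at the second events.** -/
theorem ok8_of_laws (h₀ : GoodDatum f₀ κ) (hC : Cap8 Φ f₀ T b m) {ι : Type} [Fintype ι]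
    {lam : ι → Lam8} (hL : ∀ i, Law8 hΦ f₀ T b (a8 T m) D Θ F W (lam i)) {𝔉 : Fun8}
    (hF : ForS8 f₀ T 𝔉 lam) (hcr : Crude8 hΦ f₀ T b (a8 T m) 𝔉) :
    Ok8 T D Θ F W fun L η ε hε t => 𝔉 L ε hε t (gI L hΦ hε η t) := by
  classical
  choose K p c hK hc hB using fun i => (hL i).lawB h₀ hC
  have hN1 : 1 ≤ Fintype.card ι + 1 := by omega
  have hKi : ∀ i, K i ≤ 1 + ∑ i, K i := fun i => by
    have := Finset.single_le_sum (f := K) (fun j _ => (zero_le_one.trans (hK j)))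
      (Finset.mem_univ i)
    linarith
  have hpi : ∀ i, p i ≤ ∑ i, p i := fun i =>
    Finset.single_le_sum (f := p) (fun j _ => Nat.zero_le _) (Finset.mem_univ i)
  have hKs : 0 ≤ ∑ i, K i := Finset.sum_nonneg fun i _ => zero_le_one.trans (hK i)
  refine ⟨((Fintype.card ι + 1 : ℕ) : ℝ) * (1 + ∑ i, K i), ∑ i, p i, fun n => ∑ i, c i n, ?_,
    fun n => Finset.sum_nonneg fun i _ => hc i n, fun n hn => ?_⟩
  · refine one_le_mul_of_one_le_of_one_le ?_ (by linarith)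
    exact_mod_cast hN1
  filter_upwards [eventually_all.2 fun i => hB i n hn, hF.le, hcr, eventually_ge_atTop 1]
    with L hB hle hcr hL1 δ hδ η η' h1 h2 h3 ρ hρ
  set N : ℕ := Fintype.card ι with hN
  obtain ⟨r, hr⟩ : ∃ r : ℝ, r = ρ / (N + 2) := ⟨_, rfl⟩
  have hr0 : 0 < r := by rw [hr]; positivity
  have hrN : (N : ℝ) * r + r + r = ρ := by rw [hr]; field_simp; ring
  choose δ₀ hδ0 hδ2 hδ₀ using fun i => hB i δ hδ η η' h1 h2 h3 r hr0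
  set δ₁ : ℝ≥0∞ := min 2⁻¹ (Finset.univ.inf δ₀) with hδ₁
  have hδ₁0 : δ₁ ≠ 0 := by
    rw [← pos_iff_ne_zero, hδ₁, lt_min_iff]
    refine ⟨by simp, ?_⟩
    rw [Finset.lt_inf_iff ENNReal.zero_lt_top]
    exact fun i _ => pos_iff_ne_zero.2 (hδ0 i)
  have hδ₁i : ∀ i, δ₁ ≤ δ₀ i := fun i => (min_le_right _ _).trans (Finset.inf_le (Finset.mem_univ i))
  have hδ₁t : δ₁ ≠ ∞ := ne_top_of_le_ne_top (by simp) (min_le_left _ _)
  choose J₀ hJ₀ using fun i => hδ₀ i δ₁ (hδ₁i i)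
  set J : ℕ := max 1 (Finset.univ.sup J₀) with hJ
  have hJi : ∀ i, J₀ i ≤ J := fun i => (Finset.le_sup (Finset.mem_univ i)).trans (le_max_right _ _)
  have hJ1 : 1 ≤ J := le_max_left _ _
  set η₁ : ℝ := (η + η') / 2 with hη₁
  have g1 : η < η₁ := by rw [hη₁]; linarith
  have g2 : η₁ < η' := by rw [hη₁]; linarith
  have hJr : (0 : ℝ) < J := by exact_mod_cast hJ1
  set θ : ℝ := (η₁ - η) / J with hθ
  have hθ0 : 0 < θ := div_pos (by linarith) hJr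
  filter_upwards [eventually_all.2 fun i => hJ₀ i J (hJi i), hle r hr0,
    hcr η η₁ θ h1 g1 (g2.le.trans h3) hθ0 J δ₁ hδ₁0 hδ₁t r hr0] with ε e1 e2 e3 hε t ht
  have hsf : ∀ i, SFinite (lam i L ε hε t) := fun i => (hL i).sf L ε hε t
  have hsum : ∀ i, ∫⁻ c, ∫⁻ x, gIG L hΦ hε f₀ b (a8 T m) η η₁ θ t J δ₁ (wS (GC.pts c)) x.1 x.2
      ∂(lam i L ε hε t) ∂(GC.PP f₀ ε) ≤ ENNReal.ofReal (c i n * ((n : ℝ) ^ L)⁻¹ + r) +
        R8 (1 + ∑ i, K i) (∑ i, p i) D Θ F W L δ η' ε t := by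
    intro i
    have := hsf i
    rw [lintegral_gIG h₀]
    exact (e1 i hε t ht).trans (add_le_add le_rfl (R8_le (zero_le_one.trans (hK i)) (hKi i)
      (hpi i) hδ (h1.trans h2)))
  have hsplit : 𝔉 L ε hε t (gI L hΦ hε η t) ≤
      𝔉 L ε hε t (gIG L hΦ hε f₀ b (a8 T m) η η₁ θ t J δ₁) +
      𝔉 L ε hε t (gIB L hΦ hε f₀ b (a8 T m) η η₁ θ t J δ₁) := by
    conv_lhs => rw [gI_eq_add (f₀ := f₀) (b := b) (a := a8 T m) (η' := η₁) (θ := θ) (J := J)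
      (δ := δ₁)]
    exact hF.add L ε hε t _ _ (MW_gIG h₀) (MW_gIB h₀)
  have hG := e2 hε t ht _ (MW_gIG (L := L) (hΦ := hΦ) (hε := hε) (b := b) (a := a8 T m) (η := η)
    (η' := η₁) (θ := θ) (t := t) (J := J) (δ := δ₁) h₀) fun V e m => gIG_le_one
  have hS : (∑ i, ∫⁻ c, ∫⁻ x, gIG L hΦ hε f₀ b (a8 T m) η η₁ θ t J δ₁ (wS (GC.pts c)) x.1 x.2
      ∂(lam i L ε hε t) ∂(GC.PP f₀ ε)) ≤
      ENNReal.ofReal ((∑ i, c i n) * ((n : ℝ) ^ L)⁻¹ + N * r) +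
        (N : ℝ≥0∞) * R8 (1 + ∑ i, K i) (∑ i, p i) D Θ F W L δ η' ε t := by
    refine (Finset.sum_le_sum fun i _ => hsum i).trans (le_of_eq ?_)
    have hn0 : (0 : ℝ) < n := by exact_mod_cast hn
    have hci : ∀ i, 0 ≤ c i n * ((n : ℝ) ^ L)⁻¹ + r := fun i => by
      have := hc i n
      positivity
    rw [Finset.sum_add_distrib, ← ENNReal.ofReal_sum_of_nonneg fun i _ => hci i,
      Finset.sum_add_distrib, ← Finset.sum_mul, Finset.sum_const, Finset.card_univ,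
      nsmul_eq_mul, Finset.sum_const, Finset.card_univ, nsmul_eq_mul]
  have hR : (N : ℝ≥0∞) * R8 (1 + ∑ i, K i) (∑ i, p i) D Θ F W L δ η' ε t ≤
      R8 (((N + 1 : ℕ) : ℝ) * (1 + ∑ i, K i)) (∑ i, p i) D Θ F W L δ η' ε t := by
    refine le_trans (mul_le_mul_left ?_ _) (nsmul_R8_le (by linarith) hL1 (N + 1) (by omega) hδ
      (h1.trans h2))
    exact_mod_cast Nat.le_succ N
  have hc0 : 0 ≤ (∑ i, c i n) * ((n : ℝ) ^ L)⁻¹ := by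
    have : 0 ≤ ∑ i, c i n := Finset.sum_nonneg fun i _ => hc i n
    positivity
  calc 𝔉 L ε hε t (gI L hΦ hε η t)
      ≤ (ENNReal.ofReal ((∑ i, c i n) * ((n : ℝ) ^ L)⁻¹ + N * r) +
        R8 (((N + 1 : ℕ) : ℝ) * (1 + ∑ i, K i)) (∑ i, p i) D Θ F W L δ η' ε t +
        ENNReal.ofReal r) + ENNReal.ofReal r :=
        hsplit.trans (add_le_add (hG.trans (add_le_add (hS.trans (add_le_add le_rfl hR)) le_rfl))
          (e3 hε t ht))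
    _ = (ENNReal.ofReal ((∑ i, c i n) * ((n : ℝ) ^ L)⁻¹ + N * r) + ENNReal.ofReal r +
        ENNReal.ofReal r) +
        R8 (((N + 1 : ℕ) : ℝ) * (1 + ∑ i, K i)) (∑ i, p i) D Θ F W L δ η' ε t := by ring
    _ = ENNReal.ofReal ((∑ i, c i n) * ((n : ℝ) ^ L)⁻¹ + ρ) +
        R8 (((N + 1 : ℕ) : ℝ) * (1 + ∑ i, K i)) (∑ i, p i) D Θ F W L δ η' ε t := by
        rw [← ENNReal.ofReal_add (by positivity) hr0.le, ← ENNReal.ofReal_add (by positivity)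
          hr0.le]
        congr 2
        linarith
    _ = _ := by
        unfold R8
        ring

/-- **The bound of a functional of the colliding pairs.** -/
theorem ok8_pair (h₀ : GoodDatum f₀ κ) {𝔉 : FunP8} (hF : ForP8 𝔉) {K : ℝ} {p : ℕ} (hK : 1 ≤ K)
    (hm : MainP8 hΦ f₀ T D Θ F W K p 𝔉) (hcr : CrudeP8 hΦ f₀ T 𝔉) :
    Ok8 T D Θ F W fun L η ε hε t => 𝔉 L ε hε t (pI L hΦ hε η t T) := by
  classical
  refine ⟨K, p, fun _ => 0, hK, fun _ => le_rfl, fun n hn => ?_⟩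
  filter_upwards [hm, hcr] with L hm hcr δ hδ η η' h1 h2 h3 ρ hρ
  set η₁ : ℝ := (η + η') / 2 with hη₁
  have g1 : η < η₁ := by rw [hη₁]; linarith
  have g2 : η₁ < η' := by rw [hη₁]; linarith
  have g3 : 0 < η₁ := h1.trans g1
  have hρ2 : 0 < ρ / 2 := by positivity
  obtain ⟨δ₁, hδ₁⟩ : ∃ δ₁ : ℝ≥0∞, δ₁ = min 2⁻¹ (ENNReal.ofReal δ) := ⟨_, rfl⟩
  have d1 : δ₁ ≠ 0 := by
    rw [hδ₁, ← pos_iff_ne_zero, lt_min_iff]
    exact ⟨by simp, ENNReal.ofReal_pos.2 hδ.1⟩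
  have d2 : δ₁ ≤ 2⁻¹ := by rw [hδ₁]; exact min_le_left _ _
  have d3 : δ₁ ≤ ENNReal.ofReal δ := by rw [hδ₁]; exact min_le_right _ _
  have d4 : δ₁ ≠ ∞ := ne_top_of_le_ne_top (by simp) d2
  filter_upwards [hm δ hδ η₁ η' g3 g2 h3 δ₁ d2 d3 (ρ / 2) hρ2,
    hcr η η₁ (η' - η₁) h1 g1 (g2.le.trans h3) (by linarith) δ₁ d1 d4 (ρ / 2) hρ2]
    with ε e1 e2 hε t ht
  have hsplit : 𝔉 L ε hε t (pI L hΦ hε η t T) ≤
      𝔉 L ε hε t (pIG L hΦ hε f₀ η η₁ (η' - η₁) t T δ₁) +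
      𝔉 L ε hε t (pIB L hΦ hε f₀ η η₁ (η' - η₁) t T δ₁) := by
    conv_lhs => rw [pI_eq_add (f₀ := f₀) (η' := η₁) (θ := η' - η₁) (δ := δ₁)]
    exact hF.add L ε hε t _ _ (MWp_pIG h₀) (MWp_pIB h₀)
  have hmono : 𝔉 L ε hε t (pIG L hΦ hε f₀ η η₁ (η' - η₁) t T δ₁) ≤
      𝔉 L ε hε t (fun V e σ z' => pI L hΦ hε η₁ t T V e σ z' *
        ind (e ∈ GX L hΦ hε f₀ η₁ (η' - η₁) t δ₁)) := by
    refine hF.mono L ε hε t _ _ fun V e σ z' => ?_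
    unfold pIG
    exact mul_le_mul' (pI_mono h1 g1.le ht.1) le_rfl
  have hmain := e1 hε t ht (GX L hΦ hε f₀ η₁ (η' - η₁) t δ₁) (measurableSet_GX h₀)
    fun e he => he
  calc 𝔉 L ε hε t (pI L hΦ hε η t T) ≤ (R8 K p D Θ F W L δ η' ε t + ENNReal.ofReal (ρ / 2)) +
        ENNReal.ofReal (ρ / 2) := hsplit.trans (add_le_add (hmono.trans hmain) (e2 hε t ht))
    _ = ENNReal.ofReal ρ + R8 K p D Θ F W L δ η' ε t := by
        rw [add_assoc, ← ENNReal.ofReal_add hρ2.le hρ2.le, add_halves, add_comm]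
    _ = _ := by
        unfold R8
        rw [zero_mul, zero_add]
        ring

end Vale.Agent.P119.PB
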