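import Vale.Agent.P119.PB.LamT
import Vale.Agent.P119.PB.For8
import Vale.Agent.P119.PB.In8c

/-!
# P119, block PROB, P8: support and hits of the laws of pairs (`helper456`)

* `Hit8`: the field `hit` of `Law8`; `Sup8`: the field `ok`;
* `hit8R`, `hit8A`, `hit8B`, `hit8F`: the field `hit` for `lam8R`, `lam8A`, `lam8B`, `lam8F`;
* `sup8R`, `sup8A`, `sup8B`, `sup8F`: the field `ok`;
* `tsum_wgt_pow_ne_top`: the weights of the norm can be used in `lam8F`.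
-/

open MeasureTheory Filter Topology Set ProbabilityTheory
open scoped ENNReal NNReal

noncomputable section

namespace Vale.Agent.P119.PB

open M CTree KU FB RB AU FL TL

/-! ### The fields -/

/-- The field `hit` of `Law8`. -/
def Hit8 {Φ : E3 → ℝ} (hΦ : IsPotential Φ) (T b : ℝ) (lam : Lam8) : Prop :=
  ∀ A : ℝ≥0∞, 1 ≤ A → A ≠ ∞ → ∃ C : ℕ → ℝ≥0∞,
    (∀ M : ℝ≥0∞, M ≠ ∞ → ∑' j, M ^ j * C j ≠ ∞) ∧
    ∀ᶠ L in atTop, ∀ᶠ ε in 𝓝[>] (0 : ℝ), ∀ hε : 0 < ε, ∀ t ∈ Icc 0 T,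
      HitLam hΦ hε.ne' b t (T + 1) A (lam L ε hε t) C

/-- The field `ok` of `Law8`. -/
def Sup8 (T : ℝ) (lam : Lam8) : Prop :=
  ∀ᶠ L in atTop, ∀ᶠ ε in 𝓝[>] (0 : ℝ), ∀ hε : 0 < ε, ∀ t ∈ Icc 0 T,
    ∀ᵐ x ∂(lam L ε hε t), 0 ≤ x.1.1 ∧ x.1.2.2 ≤ L ∧ 0 ≤ x.2.1

/-! ### The constants -/

/-- The base of the constants. -/
def xH (b Tm : ℝ) : ℝ≥0∞ := ENNReal.ofReal (Kc (b / 2 / 2) * (Tm + 1))

theorem xH_ne_top {b Tm : ℝ} : xH b Tm ≠ ∞ := ENNReal.ofReal_ne_top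

/-- The constants of `HitLam`. -/
def CH8 (b Tm : ℝ) (κ : ℝ≥0∞) (j : ℕ) : ℝ≥0∞ := fS (3 * xH b Tm) j * (KHA b Tm * κ)

theorem tsum_CH8 {b Tm : ℝ} (hb : 0 < b) {κ : ℝ≥0∞} (hκ : κ ≠ ∞) {M : ℝ≥0∞} (hM : M ≠ ∞) :
    ∑' j, M ^ j * CH8 b Tm κ j ≠ ∞ := by
  have e : ∀ j, M ^ j * CH8 b Tm κ j = fS (M * (3 * xH b Tm)) j * (KHA b Tm * κ) := fun j => by
    unfold CH8
    rw [← mul_assoc, mul_fS]
  simp only [e]
  rw [ENNReal.tsum_mul_right]
  exact ENNReal.mul_ne_top (tsum_fS_ne_top (ENNReal.mul_ne_top hM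
    (ENNReal.mul_ne_top (by norm_num) xH_ne_top))) (ENNReal.mul_ne_top (KHA_ne_top hb) hκ)

variable {Φ : E3 → ℝ} {hΦ : IsPotential Φ} {ε b b' t t₂ t' T Tm : ℝ} {L : ℕ} {α c : ℕ → ℝ≥0∞}
  {A κ K : ℝ≥0∞}

theorem HitLam.mono_C {hε : ε ≠ 0} {lam : Measure (Src × Src)} {C C' : ℕ → ℝ≥0∞}
    (h : HitLam hΦ hε b t t' A lam C) (hC : ∀ j, C j ≤ C' j) : HitLam hΦ hε b t t' A lam C' :=
  fun j z' => (h j z').trans (mul_le_mul' (hC j) le_rfl)

/-! ### `lamN` -/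

/-- **The hits under `lamN`.** -/
theorem hitLam_lamN (hε : 0 < ε) (hε1 : ε ≤ 1) (hb : 0 < b) (hb' : b ≤ b') (ht : 0 ≤ t)
    (htT : t ≤ Tm) (htt : t₂ ≤ t')
    (hκ : kpS (fun k : KN => cN α c k * A ^ dM k.2) (fun k => k.1) (xH b Tm) ≤ κ) :
    HitLam hΦ hε.ne' b' t t' A (lamN hΦ hε.ne' b t t₂ α L c) (CH8 b Tm κ) := by
  refine (hitLam_lamS hΦ hε hε1 hb le_rfl hb' ht htT htt (measurable_bN hΦ hε.ne')
    (fun k x _ => bN_ge hΦ hε.ne' k x) (lamN_le_lamS hΦ hε.ne' b t t₂ α L c)).mono_C fun j => ?_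
  unfold CH8
  exact mul_le_mul' le_rfl (mul_le_mul' le_rfl hκ)

theorem eventually_le_one : ∀ᶠ ε : ℝ in 𝓝[>] 0, ε ≤ 1 :=
  (eventually_nhdsWithin_of_eventually_nhds (eventually_le_nhds one_pos))

/-- The laws `lamN`, with coefficients which may depend on the time. -/
def lamN8 (hΦ : IsPotential Φ) (b : ℝ) (t₂ : ℝ → ℝ) (α : ℕ → ℝ≥0∞) (c : ℝ → ℕ → ℝ≥0∞) : Lam8 :=
  fun L _ hε t => lamN hΦ hε.ne' b t (t₂ t) α L (c t)

theorem hit8_lamN (hb : 0 < b) (hb' : b ≤ b') {t₂ : ℝ → ℝ} (ht₂ : ∀ t ∈ Icc 0 T, t₂ t ≤ T + 1)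
    {c : ℝ → ℕ → ℝ≥0∞} (hκ : ∀ A : ℝ≥0∞, 1 ≤ A → A ≠ ∞ → ∃ κ : ℝ≥0∞, κ ≠ ∞ ∧ ∀ t ∈ Icc 0 T,
      kpS (fun k : KN => cN α (c t) k * A ^ dM k.2) (fun k => k.1) (xH b T) ≤ κ) :
    Hit8 hΦ T b' (lamN8 hΦ b t₂ α c) := by
  intro A hA hA'
  obtain ⟨κ, hκt, h⟩ := hκ A hA hA'
  refine ⟨CH8 b T κ, fun M hM => tsum_CH8 hb hκt hM, Eventually.of_forall fun L => ?_⟩
  filter_upwards [eventually_le_one] with ε hε1 hε t ht
  exact hitLam_lamN hε hε1 hb hb' ht.1 ht.2 (ht₂ t ht) (h t ht)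

/-- **Root.** -/
theorem hit8_lamN_Rt (hb : 0 < b) (hb' : b ≤ b') {t₂ : ℝ → ℝ}
    (ht₂ : ∀ t ∈ Icc 0 T, t₂ t ≤ T + 1) (hK : K ≠ ∞)
    (hα : ∀ A : ℝ≥0∞, A ≠ ∞ → ∑' n, α n * A ^ n ≠ ∞) (b₂ : ℝ) (q : ℕ) :
    Hit8 hΦ T b' (lamN8 hΦ b t₂ α fun _ => cRt b₂ K q) :=
  hit8_lamN hb hb' ht₂ fun A hA hA' =>
    ⟨ENNReal.ofReal (Cgp (b₂ / 4) q) * kC K (∑' n, α n * A ^ n) A (xH b T),
      ENNReal.mul_ne_top ENNReal.ofReal_ne_top (kC_ne_top hK (hα A hA') hA' xH_ne_top),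
      fun t _ => kpN_Rt b₂ K α hA q _⟩

theorem tsum_α_ne_top (hα : ∀ A : ℝ≥0∞, A ≠ ∞ → ∑' n, α n * A ^ n ≠ ∞) : ∑' n, α n ≠ ∞ := by
  have h := hα 1 ENNReal.one_ne_top
  simpa using h

/-- **Two nodes, one above the other (A).** -/
theorem hit8_lamN_Al (hT : 0 ≤ T) (hb : 0 < b) (hb' : b ≤ b') {t₂ : ℝ → ℝ}
    (ht₂ : ∀ t ∈ Icc 0 T, t₂ t ≤ T + 1) (hK : K ≠ ∞)
    (hα : ∀ A : ℝ≥0∞, A ≠ ∞ → ∑' n, α n * A ^ n ≠ ∞) (b₂ : ℝ) (q : ℕ) :
    Hit8 hΦ T b' (lamN8 hΦ b t₂ α fun t => cAl b₂ t K α q) :=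
  hit8_lamN hb hb' ht₂ fun A hA hA' =>
    ⟨cTR b₂ T (K * ∑' n, α n) q * kC K (∑' n, α n * A ^ n) A (xH b T),
      ENNReal.mul_ne_top (cTR_ne_top (ENNReal.mul_ne_top hK (tsum_α_ne_top hα)) hT q)
        (kC_ne_top hK (hα A hA') hA' xH_ne_top),
      fun t ht => kpN_Al ht.1 ht.2 K α hA q _⟩

theorem lamN_SS (hΦ : IsPotential Φ) (hε : ε ≠ 0) (b t t₂ : ℝ) (α : ℕ → ℝ≥0∞) (L : ℕ)
    (c : ℕ → ℝ≥0∞) : ∀ᵐ x ∂(lamN hΦ hε b t t₂ α L c), x ∈ SS t L := by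
  unfold lamN
  have hm : MeasurableSet {x : Src × Src | x ∈ SS t L} := measurableSet_SS t L
  rw [Measure.ae_sum_iff' hm]
  intro N
  refine Measure.ae_smul_measure ?_ _
  rw [Measure.ae_sum_iff' hm]
  intro y
  refine Measure.ae_smul_measure ?_ _
  exact ae_restrict_mem (measurableSet_SS t L)

theorem sup8_lamN {t₂ : ℝ → ℝ} {c : ℝ → ℕ → ℝ≥0∞} : Sup8 T (lamN8 hΦ b t₂ α c) := by
  refine Eventually.of_forall fun L => Eventually.of_forall fun ε hε t ht => ?_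
  filter_upwards [lamN_SS hΦ hε.ne' b t (t₂ t) α L (c t)] with x hx
  exact ⟨hx.1.1.le, hx.1.2.2, hx.2.1.le⟩

theorem sf8_lamN {t₂ : ℝ → ℝ} {c : ℝ → ℕ → ℝ≥0∞} (L : ℕ) (ε : ℝ) (hε : 0 < ε) (t : ℝ) :
    SFinite (lamN8 hΦ b t₂ α c L ε hε t) := by
  unfold lamN8
  infer_instance

/-! ### The exchanged law -/

/-- A law with the two sources exchanged. -/
def swap8 (lam : Lam8) : Lam8 := fun L ε hε t => (lam L ε hε t).map Prod.swap

theorem sup8_swap {t₂ : ℝ → ℝ} {c : ℝ → ℕ → ℝ≥0∞} : Sup8 T (swap8 (lamN8 hΦ b t₂ α c)) := by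
  refine Eventually.of_forall fun L => Eventually.of_forall fun ε hε t ht => ?_
  unfold swap8
  have hm : MeasurableSet {x : Src × Src | 0 ≤ x.1.1 ∧ x.1.2.2 ≤ L ∧ 0 ≤ x.2.1} := by
    refine (measurableSet_le measurable_const measurable_fst.fst).inter
      (MeasurableSet.inter ?_ (measurableSet_le measurable_const measurable_snd.fst))
    exact (measurable_fst.snd.snd : Measurable fun x : Src × Src => x.1.2.2)
      (measurableSet_Iic (a := L))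
  rw [ae_map_iff measurable_swap.aemeasurable hm]
  filter_upwards [lamN_SS hΦ hε.ne' b t (t₂ t) α L (c t)] with x hx
  exact ⟨hx.2.1.le, hx.2.2.2, hx.1.1.le⟩

theorem le_dpt8 (k : ℕ) : ∀ (n : ℕ) (ds : Fin k → ℕ), n ≤ dpt k n ds := by
  induction k with
  | zero => intro n ds; exact le_rfl
  | succ k ih =>
    intro n ds
    exact ((le_max_left n (ds 0)).trans (Nat.le_succ _)).trans (ih _ fun j => ds j.succ)

theorem dE_le_dM {N : ℕ} (y : Ix N) : dE y ≤ dM y := le_dpt8 N _ _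

/-- The law A with the two lines exchanged is a law B. -/
theorem lintegral_lawA_swap {n : ℕ} (S R : ℕ → Step) {F : ℝ → Ph → ℝ≥0∞}
    (hF : Measurable fun q : ℝ × Ph => F q.1 q.2) :
    ∫⁻ x, F (exT ε (x.1, x.2.1)) x.1 ∂(lawA ε b b t t (n + 1) S) =
      ∫⁻ x, F (endB ε R x).1 (endB ε R x).2 ∂(lawB ε b t t₂ n 0 S R) := by
  have hG : Measurable fun q : (Ph × (Fin (n + 1) → Ph) × Ph) × ℝ × Ph => F q.2.1 q.2.2 :=
    hF.comp measurable_snd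
  have hFA : Measurable fun x : XA (n + 1) => F (exT ε (x.1, x.2.1)) x.1 :=
    hF.comp (measurable_exA.prodMk measurable_fst)
  rw [lintegral_lawB_end 0 R (G := fun _ s l => F s l) hG, lintegral_lawA' S hFA]
  refine lintegral_congr fun β => lintegral_congr fun p => lintegral_congr fun m => ?_
  have e1 : exT ε (m, β) = exT ε (β, m) := exT_swap (β, m)
  have e2 : Meets ε (m, β) ↔ Meets ε (β, m) := (meets_swap (m, β)).symm
  have e3 : (m, β, p) ∈ evA ε t t S ↔ m ∈ evH ε t S β p := by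
    unfold evA evH
    rw [mem_setOf_eq, mem_setOf_eq]
    simp only
    rw [e1, e2]
  unfold inA
  by_cases hm : m ∈ evH ε t S β p
  · rw [wA_of (e3.2 hm), indicator_of_mem hm]
    simp only
    rw [e1]
    unfold opn
    ring
  · rw [wA_of_not fun h => hm (e3.1 h), indicator_of_notMem hm, zero_mul]

/-- **The hits under the exchanged law.** -/
theorem hitLam_swap (hε : 0 < ε) (hε1 : ε ≤ 1) (hb : 0 < b) (hb' : b ≤ b') (ht : 0 ≤ t)
    (htT : t ≤ Tm) (hc : c 0 = 0) (hA : 1 ≤ A)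
    (hκ : kpS (fun k : KN => cN α c k * A ^ dM k.2) (fun k => k.1)
      (ENNReal.ofReal (Kc b * (Tm + 1))) ≤ κ) :
    HitLam hΦ hε.ne' b' t t' A ((lamN hΦ hε.ne' b t t α L c).map Prod.swap)
      (CH8 b Tm κ) := by
  intro j z'
  have hT0 : 0 ≤ Tm := ht.trans htT
  set Z : ℝ≥0∞ := ENNReal.ofReal (ε ^ 2) * ENNReal.ofReal (1 + ‖z'.2‖) with hZ
  set X₁ : ℝ≥0∞ := ENNReal.ofReal (Kc b * (Tm + 1)) with hX₁
  have hGm : Measurable fun q : ℝ × Ph => Gc hΦ hε.ne' b' t' j (hitL ε t z') q.1 q.2 :=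
    measurable_Gc hΦ hε.ne' b' t' j (measurable_hitL measurable_const measurable_fst
      measurable_snd)
  have hf : Measurable fun p : Src × Src => A ^ p.2.2.2 *
      Gc hΦ hε.ne' b' t' j (hitL ε t z') p.2.1 p.2.2.1 :=
    (measurable_powD A (measurable_snd.comp (measurable_snd.comp measurable_snd))).mul
      (hGm.comp (measurable_snd.fst.prodMk measurable_snd.snd.fst))
  have hfs : Measurable fun p : Src × Src => A ^ p.1.2.2 *
      Gc hΦ hε.ne' b' t' j (hitL ε t z') p.1.1 p.1.2.1 := hf.comp measurable_swap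
  have key : ∀ (N : ℕ) (y : Ix N), c N * ∫⁻ x, (SS t L).indicator (fun p : Src × Src =>
      A ^ p.1.2.2 * Gc hΦ hε.ne' b' t' j (hitL ε t z') p.1.1 p.1.2.1) (srcP hΦ hε.ne' y x)
      ∂(lawA ε b b t t N (ixS hΦ hε.ne' y)) ≤
      (c N * A ^ dM y * fS X₁ N) * (fS (3 * xH b Tm) j * KHA b Tm * Z) := by
    intro N y
    cases N with
    | zero => rw [hc, zero_mul]; exact zero_le
    | succ n =>
      rw [mul_assoc (c (n + 1)), mul_assoc (c (n + 1))]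
      refine mul_le_mul' le_rfl ?_
      calc ∫⁻ x, (SS t L).indicator (fun p : Src × Src =>
            A ^ p.1.2.2 * Gc hΦ hε.ne' b' t' j (hitL ε t z') p.1.1 p.1.2.1)
              (srcP hΦ hε.ne' y x) ∂(lawA ε b b t t (n + 1) (ixS hΦ hε.ne' y))
          ≤ ∫⁻ x, A ^ dE y * Gc hΦ hε.ne' b' t' j (hitL ε t z') (exT ε (x.1, x.2.1)) x.1
              ∂(lawA ε b b t t (n + 1) (ixS hΦ hε.ne' y)) :=
            lintegral_mono fun x => indicator_le_self' (fun _ _ => zero_le) _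
        _ = A ^ dE y * ∫⁻ x, Gc hΦ hε.ne' b' t' j (hitL ε t z') (exT ε (x.1, x.2.1)) x.1
              ∂(lawA ε b b t t (n + 1) (ixS hΦ hε.ne' y)) :=
            lintegral_const_mul _ (hGm.comp (measurable_exA.prodMk measurable_fst))
        _ ≤ A ^ dM y * (3 ^ j * (cHitB b Tm n (0 + j) * Z)) := by
            refine mul_le_mul' (pow_le_pow_right' hA (dE_le_dM y)) ?_
            rw [lintegral_lawA_swap (t₂ := t') (ixS hΦ hε.ne' y) (ixS hΦ hε.ne' y) hGm]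
            exact hitB_Gc_le hΦ hε hε1 hb hb' ht htT le_rfl _ _ j z'
        _ = _ := by
            unfold cHitB cMS
            rw [fS_of_real (mul_nonneg (Kc_nonneg _) (by linarith)),
              fS_of_real (mul_nonneg (Kc_nonneg _) (by linarith)), zero_add, ← mul_fS]
            unfold xH
            ring
  rw [lintegral_map hf measurable_swap]
  simp only [Prod.snd_swap]
  rw [lintegral_lamN hΦ hε.ne' b t t α L c hfs]
  calc ∑' N, c N * ∑' y : Ix N, aw α y * ∫⁻ x, (SS t L).indicator (fun p : Src × Src =>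
        A ^ p.1.2.2 * Gc hΦ hε.ne' b' t' j (hitL ε t z') p.1.1 p.1.2.1) (srcP hΦ hε.ne' y x)
        ∂(lawA ε b b t t N (ixS hΦ hε.ne' y))
      ≤ ∑' N, ∑' y : Ix N, (cN α c ⟨N, y⟩ * A ^ dM y * fS X₁ N) *
          (fS (3 * xH b Tm) j * KHA b Tm * Z) := by
        refine ENNReal.tsum_le_tsum fun N => ?_
        rw [← ENNReal.tsum_mul_left]
        refine ENNReal.tsum_le_tsum fun y => ?_
        calc c N * (aw α y * ∫⁻ x, (SS t L).indicator (fun p : Src × Src =>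
              A ^ p.1.2.2 * Gc hΦ hε.ne' b' t' j (hitL ε t z') p.1.1 p.1.2.1)
              (srcP hΦ hε.ne' y x) ∂(lawA ε b b t t N (ixS hΦ hε.ne' y)))
            = aw α y * (c N * ∫⁻ x, (SS t L).indicator (fun p : Src × Src =>
              A ^ p.1.2.2 * Gc hΦ hε.ne' b' t' j (hitL ε t z') p.1.1 p.1.2.1)
              (srcP hΦ hε.ne' y x) ∂(lawA ε b b t t N (ixS hΦ hε.ne' y))) := by ring
          _ ≤ aw α y * ((c N * A ^ dM y * fS X₁ N) * (fS (3 * xH b Tm) j * KHA b Tm * Z)) :=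
              mul_le_mul' le_rfl (key N y)
          _ = _ := by
              unfold cN
              ring
    _ = (∑' k : KN, cN α c k * A ^ dM k.2 * fS X₁ k.1) *
          (fS (3 * xH b Tm) j * KHA b Tm * Z) := by
        rw [ENNReal.tsum_sigma', ← ENNReal.tsum_mul_right]
        refine tsum_congr fun N => ?_
        rw [← ENNReal.tsum_mul_right]
    _ ≤ CH8 b Tm κ j * Z := by
        refine (mul_le_mul' hκ le_rfl).trans (le_of_eq ?_)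
        unfold CH8
        ring

/-- **Order exchanged (B).** -/
theorem hit8_swap (hT : 0 ≤ T) (hb : 0 < b) (hb' : b ≤ b') (hK : K ≠ ∞)
    (hα : ∀ A : ℝ≥0∞, A ≠ ∞ → ∑' n, α n * A ^ n ≠ ∞) (b₂ : ℝ) (q : ℕ) :
    Hit8 hΦ T b' (swap8 (lamN8 hΦ b (fun t => t) α fun t => cAl b₂ t K α q)) := by
  intro A hA hA'
  refine ⟨CH8 b T (cTR b₂ T (K * ∑' n, α n) q * kC K (∑' n, α n * A ^ n) A
    (ENNReal.ofReal (Kc b * (T + 1)))), fun M hM => tsum_CH8 hb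
    (ENNReal.mul_ne_top (cTR_ne_top (ENNReal.mul_ne_top hK (tsum_α_ne_top hα)) hT q)
      (kC_ne_top hK (hα A hA') hA' ENNReal.ofReal_ne_top)) hM,
    Eventually.of_forall fun L => ?_⟩
  filter_upwards [eventually_le_one] with ε hε1 hε t ht
  exact hitLam_swap hε hε1 hb hb' ht.1 ht.2 rfl hA (kpN_Al ht.1 ht.2 K α hA q _)

theorem sf8_swap {lam : Lam8} (h : ∀ L ε hε t, SFinite (lam L ε hε t)) (L : ℕ) (ε : ℝ)
    (hε : 0 < ε) (t : ℝ) : SFinite (swap8 lam L ε hε t) := by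
  have := h L ε hε t
  unfold swap8
  infer_instance

/-! ### `lamFs` -/

/-- **The hits under `lamFs`.** -/
theorem hitLam_lamFs {bE : ℝ} (hε : 0 < ε) (hε1 : ε ≤ 1) (hb : 0 < b) (hbE : b ≤ bE)
    (hb' : b ≤ b') (ht : 0 ≤ t) (htT : t ≤ Tm) (htt : t₂ ≤ t') {wg : ℕ → ℝ≥0∞}
    (hκ : kpS (fun k : ℕ × KF => cFs α c wg k * A ^ dFr k.1 (dM k.2.2.1) k.2.2.2)
      (fun k => k.2.1 + 1) (xH b Tm) ≤ κ) :
    HitLam hΦ hε.ne' b' t t' A (lamFs hΦ hε.ne' bE b t t₂ α L c wg) (CH8 b Tm κ) := by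
  refine (hitLam_lamS hΦ hε hε1 hb hbE hb' ht htT htt
    (fun k : ℕ × KF => measurable_bFk hΦ hε.ne' k.1 k.2)
    (fun k x _ => bFk_ge hΦ hε.ne' k.1 k.2 x)
    (lamFs_le_lamS hΦ hε.ne' bE b t t₂ α L c wg)).mono_C fun j => ?_
  unfold CH8
  exact mul_le_mul' le_rfl (mul_le_mul' le_rfl hκ)

/-- The laws `lamFs`. -/
def lamF8 (hΦ : IsPotential Φ) (bE b : ℝ) (t₂ : ℝ → ℝ) (α c wg : ℕ → ℝ≥0∞) : Lam8 :=
  fun L _ hε t => lamFs hΦ hε.ne' bE b t (t₂ t) α L c wg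

/-- **Fresh.** -/
theorem hit8_lamF {bE : ℝ} (hb : 0 < b) (hbE : b ≤ bE) (hb' : b ≤ b') {t₂ : ℝ → ℝ}
    (ht₂ : ∀ t ∈ Icc 0 T, t₂ t ≤ T + 1) (hK : K ≠ ∞)
    (hα : ∀ A : ℝ≥0∞, A ≠ ∞ → ∑' n, α n * A ^ n ≠ ∞) {wg : ℕ → ℝ≥0∞}
    (hw : ∀ A : ℝ≥0∞, A ≠ ∞ → ∑' n, wg n * A ^ n ≠ ∞) :
    Hit8 hΦ T b' (lamF8 hΦ bE b t₂ α (fun N => K ^ (N + 2)) wg) := by
  intro A hA hA'
  set κ₀ : ℝ≥0∞ := 3 * A * fS (xH b T) 1 * kC K (∑' n, α n * A ^ n) A (xH b T) with hκ₀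
  have hκt : κ₀ ≠ ∞ := ENNReal.mul_ne_top (ENNReal.mul_ne_top (ENNReal.mul_ne_top (by norm_num) hA')
    (fS_ne_top xH_ne_top 1)) (kC_ne_top hK (hα A hA') hA' xH_ne_top)
  refine ⟨CH8 b T ((∑' n, wg n * A ^ n) * κ₀), fun M hM => tsum_CH8 hb
    (ENNReal.mul_ne_top (hw A hA') hκt) hM, Eventually.of_forall fun L => ?_⟩
  filter_upwards [eventually_le_one] with ε hε1 hε t ht
  exact hitLam_lamFs hε hε1 hb hbE hb' ht.1 ht.2 (ht₂ t ht) (kpFs_Rt K α wg hA _)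

theorem lamF_ok (hΦ : IsPotential Φ) (hε : 0 < ε) (bE b t t₂ : ℝ) (α : ℕ → ℝ≥0∞) (L : ℕ)
    (c : ℕ → ℝ≥0∞) (n : ℕ) : ∀ᵐ x ∂(lamF hΦ hε.ne' bE b t t₂ α L c n),
      0 ≤ x.1.1 ∧ x.1.2.2 ≤ L ∧ 0 ≤ x.2.1 := by
  have hm : MeasurableSet {x : Src × Src | 0 ≤ x.1.1 ∧ x.1.2.2 ≤ L ∧ 0 ≤ x.2.1} := by
    refine (measurableSet_le measurable_const measurable_fst.fst).inter
      (MeasurableSet.inter ?_ (measurableSet_le measurable_const measurable_snd.fst))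
    exact (measurable_fst.snd.snd : Measurable fun x : Src × Src => x.1.2.2)
      (measurableSet_Iic (a := L))
  unfold lamF
  rw [Measure.ae_sum_iff' hm]
  intro N
  refine Measure.ae_smul_measure ?_ _
  rw [Measure.ae_sum_iff' hm]
  intro p
  refine Measure.ae_smul_measure ?_ _
  have h1 : ∀ᵐ x ∂((lawA ε bE b t t₂ (N + 1) (ixF hΦ hε.ne' p.1 p.2)).map
      (srcF hΦ hε.ne' n p.1 p.2)), 0 ≤ x.2.1 := by
    rw [ae_map_iff (measurable_srcF hΦ hε.ne' n p.1 p.2).aemeasurable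
      (measurableSet_le measurable_const measurable_snd.fst)]
    exact lawA_ae fun x hx => (evA_end_nonneg hx).trans (srcF_birth hΦ hε.ne' n p.1 p.2 x)
  filter_upwards [ae_restrict_of_ae h1, ae_restrict_mem ((measurableSet_srcS t L).prod
    MeasurableSet.univ)] with x h2 h3
  exact ⟨h3.1.1.le, h3.1.2.2, h2⟩

theorem sup8_lamF {bE : ℝ} {t₂ : ℝ → ℝ} {wg : ℕ → ℝ≥0∞} :
    Sup8 T (lamF8 hΦ bE b t₂ α c wg) := by
  have hm : ∀ L : ℕ, MeasurableSet {x : Src × Src | 0 ≤ x.1.1 ∧ x.1.2.2 ≤ L ∧ 0 ≤ x.2.1} := by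
    intro L
    refine (measurableSet_le measurable_const measurable_fst.fst).inter
      (MeasurableSet.inter ?_ (measurableSet_le measurable_const measurable_snd.fst))
    exact (measurable_fst.snd.snd : Measurable fun x : Src × Src => x.1.2.2)
      (measurableSet_Iic (a := L))
  refine Eventually.of_forall fun L => Eventually.of_forall fun ε hε t ht => ?_
  unfold lamF8 lamFs
  rw [Measure.ae_sum_iff' (hm L)]
  intro n
  exact Measure.ae_smul_measure (lamF_ok hΦ hε bE b t (t₂ t) α L c n) _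

/-! ### The laws of P8 -/

section laws

variable {β : ℝ} {m : ℕ → ℝ}

theorem tsum_aM8_ne_top (h : KE.SuperExp m) {A : ℝ≥0∞} (hA : A ≠ ∞) :
    ∑' n, aM8 m n * A ^ n ≠ ∞ := by
  have h1 := tsum_a8_ne_top (T := 0) h hA
  unfold a8 at h1
  simpa using h1

theorem K8_ne_top : K8 T ≠ ∞ := ENNReal.ofReal_ne_top

theorem hit8R (hm : KE.SuperExp m) (hb : 0 < b) (q : ℕ) :
    Hit8 hΦ T b (lam8R hΦ b T m q) :=
  hit8_lamN_Rt (half_pos hb) (by linarith) (fun t ht => by linarith [ht.2]) K8_ne_top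
    (fun _ hA => tsum_aM8_ne_top hm hA) b q

theorem sup8R (q : ℕ) : Sup8 T (lam8R hΦ b T m q) :=
  sup8_lamN (t₂ := fun t => t) (c := fun _ => cRt b (K8 T) q)

theorem hit8A (hm : KE.SuperExp m) (hT : 0 ≤ T) (hb : 0 < b) (q : ℕ) :
    Hit8 hΦ T b (lam8A hΦ b T m q) :=
  hit8_lamN_Al hT (half_pos hb) (by linarith) (fun t ht => by linarith [ht.2]) K8_ne_top
    (fun _ hA => tsum_aM8_ne_top hm hA) b q

theorem sup8A (q : ℕ) : Sup8 T (lam8A hΦ b T m q) :=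
  sup8_lamN (t₂ := fun t => t) (c := fun t => cAl b t (K8 T) (aM8 m) q)

theorem hit8B (hm : KE.SuperExp m) (hT : 0 ≤ T) (hb : 0 < b) (q : ℕ) :
    Hit8 hΦ T b (lam8B hΦ b T m q) :=
  hit8_swap hT (half_pos hb) (by linarith) K8_ne_top (fun _ hA => tsum_aM8_ne_top hm hA) b q

theorem sup8B (q : ℕ) : Sup8 T (lam8B hΦ b T m q) :=
  sup8_swap (t₂ := fun t => t) (c := fun t => cAl b t (K8 T) (aM8 m) q)

theorem hit8F (hm : KE.SuperExp m) (hβ : 0 < β) (hβb : β ≤ b) {wg : ℕ → ℝ≥0∞}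
    (hw : ∀ A : ℝ≥0∞, A ≠ ∞ → ∑' n, wg n * A ^ n ≠ ∞) :
    Hit8 hΦ T b (lam8F hΦ b β T m wg) :=
  hit8_lamF (t₂ := fun _ => T + 1) hβ hβb hβb (fun t ht => le_rfl) K8_ne_top
    (fun _ hA => tsum_aM8_ne_top hm hA) hw

theorem sup8F {wg : ℕ → ℝ≥0∞} : Sup8 T (lam8F hΦ b β T m wg) :=
  sup8_lamF (t₂ := fun _ => T + 1)

/-- The weights of the norm. -/
theorem tsum_wgt_pow_ne_top {α' a' : ℕ → ℝ} {Q : ℝ} (h : Wts α' a' Q) (l₁ l₂ s : ℝ) {A : ℝ≥0∞}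
    (hA : A ≠ ∞) : ∑' n, ENNReal.ofReal (wgt l₁ l₂ a' s n) * A ^ n ≠ ∞ := by
  obtain ⟨B, hB⟩ := h.w3 (l₁ * s + (A.toReal + Real.log 2))
  have hA0 : 0 ≤ A.toReal := ENNReal.toReal_nonneg
  have h2 : ∀ n, ENNReal.ofReal (wgt l₁ l₂ a' s n) * A ^ n ≤
      ENNReal.ofReal ((B * Real.exp (l₂ * s)) * (1 / 2) ^ n) := by
    intro n
    have e1 : A ^ n = ENNReal.ofReal (A.toReal ^ n) := by
      rw [ENNReal.ofReal_pow ENNReal.toReal_nonneg, ENNReal.ofReal_toReal hA]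
    have h3 := h.apos n
    have h4 : A.toReal ^ n ≤ Real.exp (A.toReal * n) := by
      have h5 : A.toReal ≤ Real.exp A.toReal := by
        have := Real.add_one_le_exp A.toReal
        linarith
      calc A.toReal ^ n ≤ Real.exp A.toReal ^ n := pow_le_pow_left₀ hA0 h5 n
        _ = Real.exp (A.toReal * n) := by
            rw [← Real.exp_nat_mul, mul_comm]
    have h6 : Real.exp (Real.log 2 * n) * (1 / 2 : ℝ) ^ n = 1 := by
      rw [mul_comm (Real.log 2), Real.exp_nat_mul, Real.exp_log two_pos, ← mul_pow]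
      norm_num
    rw [e1, ← ENNReal.ofReal_mul (by unfold wgt; positivity)]
    refine ENNReal.ofReal_le_ofReal ?_
    have h7 : Real.exp ((l₁ * n + l₂) * s) * Real.exp (A.toReal * n) * Real.exp (Real.log 2 * n) =
        Real.exp (l₂ * s) * Real.exp ((l₁ * s + (A.toReal + Real.log 2)) * n) := by
      rw [← Real.exp_add, ← Real.exp_add, ← Real.exp_add]
      congr 1
      ring
    calc wgt l₁ l₂ a' s n * A.toReal ^ n
        ≤ wgt l₁ l₂ a' s n * Real.exp (A.toReal * n) :=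
          mul_le_mul_of_nonneg_left h4 (by unfold wgt; positivity)
      _ = a' n * (Real.exp ((l₁ * n + l₂) * s) * Real.exp (A.toReal * n)) *
            (Real.exp (Real.log 2 * n) * (1 / 2) ^ n) := by
          rw [h6]
          unfold wgt
          ring
      _ = (a' n * (Real.exp ((l₁ * n + l₂) * s) * Real.exp (A.toReal * n) *
            Real.exp (Real.log 2 * n))) * (1 / 2) ^ n := by ring
      _ = (a' n * Real.exp ((l₁ * s + (A.toReal + Real.log 2)) * n)) * Real.exp (l₂ * s) *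
            (1 / 2) ^ n := by
          rw [h7]
          ring
      _ ≤ (B * Real.exp (l₂ * s)) * (1 / 2) ^ n := by
          refine mul_le_mul_of_nonneg_right (mul_le_mul_of_nonneg_right (hB n) ?_) ?_ <;>
            positivity
  refine ne_top_of_le_ne_top ?_ (ENNReal.tsum_le_tsum h2)
  have h3 : Summable fun n : ℕ => (B * Real.exp (l₂ * s)) * (1 / 2 : ℝ) ^ n :=
    (summable_geometric_of_lt_one (by norm_num) (by norm_num)).mul_left _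
  exact h3.tsum_ofReal_ne_top

end laws

end Vale.Agent.P119.PB
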