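import Vale.Agent.P119.PB.HitLaw
import Vale.Agent.P119.PB.LinesLim
import Vale.Agent.P119.PB.Exc5R
import Vale.Agent.P119.PB.RelTree
import Vale.Agent.P119.PB.Top8b

/-!
# P119, block PROB: a Gaussian line and the tree which it hits, as a structure law (`helper347`)

* `WH`: the weight; `LI_le_struct`: the integral over a Gaussian line and the tree which it hits, after
  its exit, is at most a structure law with one tree and one line.
-/

open MeasureTheory Filter Topology Set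
open scoped ENNReal NNReal

noncomputable section

namespace Vale.Agent.P119.PB

open M CTree KU FB RB AU TL IND GC PB.CT

namespace RLn

variable {Φ : E3 → ℝ} {ε : ℝ} {L : ℕ} {hΦ : IsPotential Φ} {hε : 0 < ε} {f₀ : Ph → ℝ} {κ₀ : ℝ}
  {S : CTree} {T b β s : ℝ} {n : ℕ}

/-- The weight of a tree which is hit by a line. -/
def WH (Φ : E3 → ℝ) (ε T : ℝ) (L : ℕ) (b s : ℝ) (n : ℕ) (S : CTree) (z : Ph) : ℝ≥0∞ :=
  ENNReal.ofReal (Real.exp (b / 2 * ‖z.2‖ ^ 2)) * ind (HL.Hst Φ ε T L (s, z, n) S)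

theorem WH_ne_zero {z : Ph} (h : WH Φ ε T L b s n S z ≠ 0) : HL.Hst Φ ε T L (s, z, n) S := by
  by_contra hcon
  unfold WH at h
  rw [ind_of_not hcon, mul_zero] at h
  exact h rfl

theorem measurableSet_Hst (hΦ : IsPotential Φ) (hε : 0 < ε) {X : Type*} [MeasurableSpace X]
    {S : X → CTree} {σ : X → Src} (hS : Measurable S) (hσ : Measurable σ) :
    MeasurableSet {x | HL.Hst Φ ε T L (σ x) (S x)} := by
  have hln : Measurable fun x => ln Φ ε (S x) := (M.measurable_ln hΦ hε.ne').comp hS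
  have hq : Measurable fun x => ((σ x).2.1, ln Φ ε (S x)) :=
    (measurable_fst.comp (measurable_snd.comp hσ)).prodMk hln
  have hh : Measurable fun x => hitT ε ((σ x).2.1, ln Φ ε (S x)) := measurable_hitT.comp hq
  have h1 : MeasurableSet {x | CTree.ok Φ ε (S x)} := hS (measurableSet_ok hΦ hε.ne')
  have h2 : MeasurableSet {x | (S x).depth ≤ L} :=
    (measurable_depth.comp hS) (measurableSet_Iic (a := L))
  have h3 : MeasurableSet {x | 0 ≤ (σ x).1} := measurableSet_le measurable_const hσ.fst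
  have h4 : MeasurableSet {x | σ x ∉ (S x).leaves} :=
    ((MM.RS.leaves hS).measurableSet_mem_of hσ).compl
  have h5 : MeasurableSet {x | Meets ε ((σ x).2.1, ln Φ ε (S x))} :=
    measurableSet_meets.preimage hq
  have h6 : MeasurableSet {x | (σ x).1 < hitT ε ((σ x).2.1, ln Φ ε (S x))} :=
    measurableSet_lt hσ.fst hh
  have h7 : MeasurableSet {x | ext Φ ε (S x) < hitT ε ((σ x).2.1, ln Φ ε (S x))} :=
    measurableSet_lt ((M.measurable_ext hΦ hε.ne').comp hS) hh
  have h8 : MeasurableSet {x | hitT ε ((σ x).2.1, ln Φ ε (S x)) ≤ T} :=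
    measurableSet_le hh measurable_const
  have e : {x | HL.Hst Φ ε T L (σ x) (S x)} = {x | CTree.ok Φ ε (S x)} ∩
      ({x | (S x).depth ≤ L} ∩ ({x | 0 ≤ (σ x).1} ∩ ({x | σ x ∉ (S x).leaves} ∩
      ({x | Meets ε ((σ x).2.1, ln Φ ε (S x))} ∩
      ({x | (σ x).1 < hitT ε ((σ x).2.1, ln Φ ε (S x))} ∩
      ({x | ext Φ ε (S x) < hitT ε ((σ x).2.1, ln Φ ε (S x))} ∩
      {x | hitT ε ((σ x).2.1, ln Φ ε (S x)) ≤ T})))))) := by
    ext x
    exact ⟨fun h => ⟨h.ok, h.depth, h.birth, h.notMem, h.meets, h.lt, h.ext_lt, h.le⟩,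
      fun h => ⟨h.1, h.2.1, h.2.2.1, h.2.2.2.1, h.2.2.2.2.1, h.2.2.2.2.2.1, h.2.2.2.2.2.2.1,
        h.2.2.2.2.2.2.2⟩⟩
  rw [e]
  exact h1.inter (h2.inter (h3.inter (h4.inter (h5.inter (h6.inter (h7.inter h8))))))

theorem measurable_WH (hΦ : IsPotential Φ) (hε : 0 < ε) {X : Type*} [MeasurableSpace X]
    {S : X → CTree} {z : X → Ph} (hS : Measurable S) (hz : Measurable z) :
    Measurable fun x => WH Φ ε T L b s n (S x) (z x) := by
  unfold WH
  refine Measurable.mul ?_ (measurable_ind (measurableSet_Hst hΦ hε hS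
    (measurable_const.prodMk (hz.prodMk measurable_const))))
  exact ENNReal.measurable_ofReal.comp (Real.measurable_exp.comp
    (measurable_const.mul ((hz.snd.norm).pow_const 2)))

theorem gw_le_g1 (hb : b ≤ 2 * β) (v : E3) :
    gw β v ≤ g1 b v * ENNReal.ofReal (Real.exp (b / 2 * ‖v‖ ^ 2)) := by
  unfold gw g1
  rw [← ENNReal.ofReal_mul (Real.exp_pos _).le, ← Real.exp_add]
  refine ENNReal.ofReal_le_ofReal (Real.exp_le_exp.2 ?_)
  nlinarith [sq_nonneg ‖v‖]

/-- A Gaussian line is almost surely not a source of a given tree. -/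
theorem ae_notMem_leaves (S : CTree) (s : ℝ) (n : ℕ) :
    ∀ᵐ z : Ph, ((s, z, n) : Src) ∉ S.leaves := by
  have h1 : {z : Ph | ((s, z, n) : Src) ∈ S.leaves}.Finite := by
    refine Set.Finite.preimage (fun x _ y _ h => ?_) S.leaves_finite
    simpa using h
  rw [ae_iff]
  simp only [not_not]
  rw [← Set.biUnion_of_singleton {z : Ph | ((s, z, n) : Src) ∈ S.leaves},
    measure_biUnion_null_iff h1.countable]
  intro z _
  have e : ({z} : Set Ph) = {z.1} ×ˢ {z.2} := by
    rw [Set.singleton_prod_singleton]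
  rw [e, Measure.volume_eq_prod, Measure.prod_prod, measure_singleton, zero_mul]

/-- **A Gaussian line and the tree which it hits, after its exit**: a structure law. -/
theorem LI_le_struct (h : GoodDatum f₀ κ₀) (hΦ : IsPotential Φ) (hε : 0 < ε) (hb : b ≤ 2 * β)
    (hs : 0 ≤ s) {G : Ph → Finset Src → CTree → ℝ≥0∞}
    (hG : Measurable fun p : (Ph × CTree) × GC.Conf Ph => G p.1.1 (wS (GC.pts p.2)) p.1.2)
    (hG0 : ∀ z V S, ¬ext Φ ε S < hitT ε (z, ln Φ ε S) → G z V S = 0) {N : CTree → Ph → ℝ≥0∞}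
    (hN : ∀ S z, HL.Hst Φ ε T L (s, z, n) S →
      ∫⁻ c, G z (wS (GC.pts c)) S ∂(GC.PP f₀ ε) ≤ N S z) :
    LI f₀ Φ ε L β T s n G ≤ ∫⁻ S, ∫⁻ z : Ph, g1 b z.2 * (WH Φ ε T L b s n S z * N S z)
      ∂volume ∂(tree (GC.inten f₀ ε) L) := by
  have hfin : IsFiniteMeasure (GC.inten f₀ ε) := GC.isFiniteMeasure_inten h
  have hprob := GC.isProbability_PP (ε := ε) h
  -- the integrand
  obtain ⟨F, hF⟩ : ∃ F : Ph → GC.Conf Ph → CTree → ℝ≥0∞, F = fun z c S =>
    gw β z.2 * (ind (alT Φ ε L T (wS (GC.pts c)) S) * (ind (hitI ε T (s, z, n) (ln Φ ε S)) *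
      G z (wS (GC.pts c)) S)) := ⟨_, rfl⟩
  have hFm : Measurable fun p : (Ph × GC.Conf Ph) × CTree => F p.1.1 p.1.2 p.2 := by
    rw [hF]
    have hz : Measurable fun p : (Ph × GC.Conf Ph) × CTree => p.1.1 :=
      measurable_fst.comp measurable_fst
    have hc : Measurable fun p : (Ph × GC.Conf Ph) × CTree => p.1.2 :=
      measurable_snd.comp measurable_fst
    have h1 : Measurable fun p : (Ph × GC.Conf Ph) × CTree =>
        ind (alT Φ ε L T (wS (GC.pts p.1.2)) p.2) :=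
      measurable_ind (measurableSet_alT hΦ hε (RM.rs_wS hc) measurable_snd measurable_const)
    have h2 : Measurable fun p : (Ph × GC.Conf Ph) × CTree =>
        ind (hitI ε T (s, p.1.1, n) (ln Φ ε p.2)) := by
      refine measurable_ind (measurableSet_hitI ?_ ((M.measurable_ln hΦ hε.ne').comp
        measurable_snd))
      exact measurable_const.prodMk (hz.prodMk measurable_const)
    have h3 : Measurable fun p : (Ph × GC.Conf Ph) × CTree =>
        G p.1.1 (wS (GC.pts p.1.2)) p.2 := hG.comp ((hz.prodMk measurable_snd).prodMk hc)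
    exact (((measurable_gw β).comp measurable_snd).comp hz).mul (h1.mul (h2.mul h3))
  -- the exchange of the integrals
  have e1 : LI f₀ Φ ε L β T s n G = ∫⁻ z : Ph, ∫⁻ c, ∫⁻ S, F z c S ∂(tree (GC.inten f₀ ε) L)
      ∂(GC.PP f₀ ε) := by
    unfold LI XI XX
    refine lintegral_congr fun z => ?_
    have hz : gw β z.2 ≠ ∞ := ENNReal.ofReal_ne_top
    rw [← lintegral_const_mul' _ _ hz]
    refine lintegral_congr fun c => ?_
    rw [← lintegral_const_mul' _ _ hz, hF]
  have e2 : ∀ z : Ph, ∫⁻ c, ∫⁻ S, F z c S ∂(tree (GC.inten f₀ ε) L) ∂(GC.PP f₀ ε) =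
      ∫⁻ S, ∫⁻ c, F z c S ∂(GC.PP f₀ ε) ∂(tree (GC.inten f₀ ε) L) := by
    intro z
    have h1 : Measurable fun p : GC.Conf Ph × CTree => F z p.1 p.2 :=
      hFm.comp ((measurable_const.prodMk measurable_fst).prodMk measurable_snd)
    exact lintegral_lintegral_swap h1.aemeasurable
  have h3 : Measurable fun p : (Ph × CTree) × GC.Conf Ph => F p.1.1 p.2 p.1.2 :=
    hFm.comp ((measurable_fst.fst.prodMk measurable_snd).prodMk measurable_fst.snd)
  have h4 : Measurable fun p : Ph × CTree => ∫⁻ c, F p.1 c p.2 ∂(GC.PP f₀ ε) :=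
    h3.lintegral_prod_right'
  have e3 : LI f₀ Φ ε L β T s n G = ∫⁻ S, ∫⁻ z : Ph, ∫⁻ c, F z c S ∂(GC.PP f₀ ε) ∂volume
      ∂(tree (GC.inten f₀ ε) L) := by
    rw [e1, lintegral_congr e2]
    exact lintegral_lintegral_swap h4.aemeasurable
  rw [e3]
  refine lintegral_mono fun S => lintegral_mono_ae ?_
  filter_upwards [ae_notMem_leaves S s n] with z hz
  have hgz : gw β z.2 ≠ ∞ := ENNReal.ofReal_ne_top
  have e4 : ∀ c, F z c S = gw β z.2 * (ind (alT Φ ε L T (wS (GC.pts c)) S) *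
      (ind (hitI ε T (s, z, n) (ln Φ ε S)) * G z (wS (GC.pts c)) S)) := fun c => by rw [hF]
  rw [lintegral_congr e4, lintegral_const_mul' _ _ hgz]
  by_cases hH : HL.Hst Φ ε T L (s, z, n) S
  · have h5 : ∫⁻ c, ind (alT Φ ε L T (wS (GC.pts c)) S) *
        (ind (hitI ε T (s, z, n) (ln Φ ε S)) * G z (wS (GC.pts c)) S) ∂(GC.PP f₀ ε) ≤ N S z := by
      refine le_trans (lintegral_mono fun c => ?_) (hN S z hH)
      calc _ ≤ 1 * (1 * G z (wS (GC.pts c)) S) :=
            mul_le_mul' (ind_le_one _) (mul_le_mul_left (ind_le_one _) _)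
        _ = _ := by rw [one_mul, one_mul]
    calc gw β z.2 * ∫⁻ c, ind (alT Φ ε L T (wS (GC.pts c)) S) *
        (ind (hitI ε T (s, z, n) (ln Φ ε S)) * G z (wS (GC.pts c)) S) ∂(GC.PP f₀ ε)
        ≤ (g1 b z.2 * ENNReal.ofReal (Real.exp (b / 2 * ‖z.2‖ ^ 2))) * N S z :=
          mul_le_mul' (gw_le_g1 hb _) h5
      _ = g1 b z.2 * (WH Φ ε T L b s n S z * N S z) := by
          unfold WH
          rw [ind_of hH, mul_one, mul_assoc]
  · have h5 : ∀ c, ind (alT Φ ε L T (wS (GC.pts c)) S) *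
        (ind (hitI ε T (s, z, n) (ln Φ ε S)) * G z (wS (GC.pts c)) S) = 0 := by
      intro c
      by_cases h6 : alT Φ ε L T (wS (GC.pts c)) S
      · by_cases h7 : hitI ε T (s, z, n) (ln Φ ε S)
        · by_cases h8 : ext Φ ε S < hitT ε (z, ln Φ ε S)
          · exact absurd ⟨h6.ok, h6.depth, hs, hz, h7.1, h7.2.1, h8, h7.2.2⟩ hH
          · rw [hG0 z _ S h8, mul_zero, mul_zero]
        · rw [ind_of_not h7, zero_mul, mul_zero]
      · rw [ind_of_not h6, zero_mul]
    rw [lintegral_congr h5, lintegral_zero, mul_zero]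
    exact zero_le

/-- The law of one line. -/
theorem lintegral_fin_one (f : (Fin 1 → Ph) → ℝ≥0∞) :
    ∫⁻ l : Fin 1 → Ph, f l = ∫⁻ z : Ph, f fun _ => z :=
  (volume_preserving_funUnique (Fin 1) Ph).symm.lintegral_map_equiv f _

end RLn

end Vale.Agent.P119.PB
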