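import Vale.Agent.P119.PB.Raw

/-!
# P119, block PROB, P8: the form of the bounds and the choice of the depth weight (`helper336`)

* `Bd8`: the bound of a quantity by the terms of P8; the creation term is `CA n / n ^ L`, for every
  `n`;
* `Ok8`: the same with some constants; it is closed under sums, constant multiples and majorants;
* `Ok8.in8`: P8, with `n = n (L)` which tends slowly to infinity.
-/

open MeasureTheory Filter Topology Set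
open scoped ENNReal NNReal

noncomputable section

namespace Vale.Agent.P119.PB

open M RB AU

/-- **The bound of a quantity by the terms of P8.** The creation term has the weight `n ^ (-L)`, for
every `n`. -/
def Bd8 (T K : ℝ) (p : ℕ) (CA : ℕ → ℝ) (D Θ F : ℕ → ℝ → ℝ → ℝ → ℝ≥0∞)
    (W : ℕ → ℝ → ℝ → ℝ → ℝ → ℝ≥0∞) (f : ℕ → ℝ → (ε : ℝ) → 0 < ε → ℝ → ℝ≥0∞) : Prop :=
  ∀ n : ℕ, 1 ≤ n → ∀ᶠ L in atTop, ∀ δ ∈ Ioc (0 : ℝ) 1, ∀ η η' : ℝ, 0 < η → η < η' → η' ≤ 1 →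
    ∀ ρ : ℝ, 0 < ρ → ∀ᶠ ε in 𝓝[>] (0 : ℝ), ∀ hε : 0 < ε, ∀ t ∈ Icc 0 T,
      f L η ε hε t ≤ ENNReal.ofReal (CA n * ((n : ℝ) ^ L)⁻¹ + ρ) +
        ENNReal.ofReal (K ^ L * (η' / δ ^ p + δ)) *
          (D L η' ε t + Θ L η' ε t + F L η' ε t) +
        ENNReal.ofReal (K ^ L) * W L δ η' ε t

/-- The bound of a quantity by the terms of P8, with some constants. -/
def Ok8 (T : ℝ) (D Θ F : ℕ → ℝ → ℝ → ℝ → ℝ≥0∞) (W : ℕ → ℝ → ℝ → ℝ → ℝ → ℝ≥0∞)
    (f : ℕ → ℝ → (ε : ℝ) → 0 < ε → ℝ → ℝ≥0∞) : Prop :=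
  ∃ (K : ℝ) (p : ℕ) (CA : ℕ → ℝ), 1 ≤ K ∧ (∀ n, 0 ≤ CA n) ∧ Bd8 T K p CA D Θ F W f

variable {T K K' : ℝ} {p p' : ℕ} {CA CA' : ℕ → ℝ} {D Θ F : ℕ → ℝ → ℝ → ℝ → ℝ≥0∞}
  {W : ℕ → ℝ → ℝ → ℝ → ℝ → ℝ≥0∞} {f g : ℕ → ℝ → (ε : ℝ) → 0 < ε → ℝ → ℝ≥0∞}

/-- The coefficient of P8 is monotone in the constants. -/
theorem coef8_le (hK0 : 0 ≤ K) (hK : K ≤ K') (hp : p ≤ p') {δ η' : ℝ} (hδ : δ ∈ Ioc (0 : ℝ) 1)
    (hη' : 0 < η') (L : ℕ) : K ^ L * (η' / δ ^ p + δ) ≤ K' ^ L * (η' / δ ^ p' + δ) := by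
  have hδ0 := hδ.1
  have h4 : η' / δ ^ p ≤ η' / δ ^ p' :=
    div_le_div_of_nonneg_left hη'.le (by positivity) (pow_le_pow_of_le_one hδ0.le hδ.2 hp)
  exact mul_le_mul (pow_le_pow_left₀ hK0 hK L) (add_le_add_left h4 _) (by positivity)
    (pow_nonneg (hK0.trans hK) L)

theorem Bd8.mono_const (h : Bd8 T K p CA D Θ F W f) (hK0 : 0 ≤ K) (hK : K ≤ K') (hp : p ≤ p')
    (hCA : ∀ n, CA n ≤ CA' n) : Bd8 T K' p' CA' D Θ F W f := by
  intro n hn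
  filter_upwards [h n hn] with L h δ hδ η η' h1 h2 h3 ρ hρ
  filter_upwards [h δ hδ η η' h1 h2 h3 ρ hρ] with ε h hε t ht
  have hn0 : (0 : ℝ) < n := by exact_mod_cast hn
  refine (h hε t ht).trans (add_le_add (add_le_add ?_ ?_) ?_)
  · refine ENNReal.ofReal_le_ofReal (add_le_add_left ?_ _)
    exact mul_le_mul_of_nonneg_right (hCA n) (by positivity)
  · exact mul_le_mul_left (ENNReal.ofReal_le_ofReal (coef8_le hK0 hK hp hδ (h1.trans h2) L)) _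
  · exact mul_le_mul_left (kp_le hK0 hK L) _

/-- Majorants. -/
theorem Ok8.mono (h : Ok8 T D Θ F W g)
    (hfg : ∀ᶠ L in atTop, ∀ η ∈ Ioc (0 : ℝ) 1, ∀ ρ : ℝ, 0 < ρ → ∀ᶠ ε in 𝓝[>] (0 : ℝ),
      ∀ hε : 0 < ε, ∀ t ∈ Icc 0 T, f L η ε hε t ≤ g L η ε hε t + ENNReal.ofReal ρ) :
    Ok8 T D Θ F W f := by
  obtain ⟨K, p, CA, hK, hCA, h⟩ := h
  refine ⟨K, p, CA, hK, hCA, fun n hn => ?_⟩
  filter_upwards [h n hn, hfg] with L h hfg δ hδ η η' h1 h2 h3 ρ hρ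
  filter_upwards [h δ hδ η η' h1 h2 h3 (ρ / 2) (half_pos hρ),
    hfg η ⟨h1, (h2.trans_le h3).le⟩ (ρ / 2) (half_pos hρ)] with ε h hfg hε t ht
  have hn0 : (0 : ℝ) < n := by exact_mod_cast hn
  have e1 : ENNReal.ofReal (CA n * ((n : ℝ) ^ L)⁻¹ + ρ) =
      ENNReal.ofReal (CA n * ((n : ℝ) ^ L)⁻¹ + ρ / 2) + ENNReal.ofReal (ρ / 2) := by
    have := mul_nonneg (hCA n) (by positivity : (0 : ℝ) ≤ ((n : ℝ) ^ L)⁻¹)
    rw [← ENNReal.ofReal_add (by positivity) (by positivity)]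
    congr 1; ring
  rw [e1]
  refine (hfg hε t ht).trans ((add_le_add_left (h hε t ht) _).trans (le_of_eq ?_))
  ring

theorem Ok8.mono' (h : Ok8 T D Θ F W g)
    (hfg : ∀ L, ∀ η ∈ Ioc (0 : ℝ) 1, ∀ ε : ℝ, ∀ hε : 0 < ε, ∀ t ∈ Icc 0 T,
      f L η ε hε t ≤ g L η ε hε t) : Ok8 T D Θ F W f :=
  h.mono (Eventually.of_forall fun L η hη _ _ => Eventually.of_forall fun ε hε t ht =>
    (hfg L η hη ε hε t ht).trans (le_add_right le_rfl))

theorem Ok8.add (hf : Ok8 T D Θ F W f) (hg : Ok8 T D Θ F W g) :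
    Ok8 T D Θ F W fun L η ε hε t => f L η ε hε t + g L η ε hε t := by
  obtain ⟨K, p, CA, hK, hCA, hf⟩ := hf
  obtain ⟨K', p', CA', hK', hCA', hg⟩ := hg
  have hM : 1 ≤ max K K' := le_max_of_le_left hK
  refine ⟨2 * max K K', max p p', fun n => CA n + CA' n, by linarith, fun n =>
    add_nonneg (hCA n) (hCA' n), fun n hn => ?_⟩
  have hf' := hf.mono_const (by linarith) (le_max_left K K') (le_max_left p p') fun n => le_rfl
  have hg' := hg.mono_const (by linarith) (le_max_right K K') (le_max_right p p') fun n => le_rfl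
  filter_upwards [hf' n hn, hg' n hn, eventually_ge_atTop 1] with L h h' hL δ hδ η η' h1 h2 h3 ρ hρ
  filter_upwards [h δ hδ η η' h1 h2 h3 (ρ / 2) (half_pos hρ),
    h' δ hδ η η' h1 h2 h3 (ρ / 2) (half_pos hρ)] with ε h h' hε t ht
  have hn0 : (0 : ℝ) < n := by exact_mod_cast hn
  have hi : (0 : ℝ) ≤ ((n : ℝ) ^ L)⁻¹ := by positivity
  have hη' : 0 < η' := h1.trans h2
  have hδ0 : 0 < δ := hδ.1
  have hM0 : 0 ≤ max K K' := by linarith
  have h2L : (2 : ℝ) ≤ 2 ^ L := by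
    calc (2 : ℝ) = 2 ^ 1 := (pow_one 2).symm
      _ ≤ 2 ^ L := pow_le_pow_right₀ (by norm_num) hL
  have k1 : 2 * max K K' ^ L ≤ (2 * max K K') ^ L := by
    rw [mul_pow]
    exact mul_le_mul_of_nonneg_right h2L (pow_nonneg hM0 L)
  have e1 : ENNReal.ofReal ((CA n + CA' n) * ((n : ℝ) ^ L)⁻¹ + ρ) =
      ENNReal.ofReal (CA n * ((n : ℝ) ^ L)⁻¹ + ρ / 2) +
        ENNReal.ofReal (CA' n * ((n : ℝ) ^ L)⁻¹ + ρ / 2) := by
    have a1 := mul_nonneg (hCA n) hi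
    have a2 := mul_nonneg (hCA' n) hi
    rw [← ENNReal.ofReal_add (by positivity) (by positivity)]
    congr 1; ring
  have c1 : (2 : ℝ≥0∞) * ENNReal.ofReal (max K K' ^ L * (η' / δ ^ max p p' + δ)) ≤
      ENNReal.ofReal ((2 * max K K') ^ L * (η' / δ ^ max p p' + δ)) := by
    rw [show (2 : ℝ≥0∞) = ENNReal.ofReal 2 by norm_num, ← ENNReal.ofReal_mul (by norm_num)]
    refine ENNReal.ofReal_le_ofReal ?_
    rw [← mul_assoc]
    exact mul_le_mul_of_nonneg_right k1 (by positivity)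
  have c2 : (2 : ℝ≥0∞) * ENNReal.ofReal (max K K' ^ L) ≤
      ENNReal.ofReal ((2 * max K K') ^ L) := by
    rw [show (2 : ℝ≥0∞) = ENNReal.ofReal 2 by norm_num, ← ENNReal.ofReal_mul (by norm_num)]
    exact ENNReal.ofReal_le_ofReal k1
  rw [e1]
  refine (add_le_add (h hε t ht) (h' hε t ht)).trans ?_
  refine le_trans (le_of_eq ?_) (add_le_add (add_le_add le_rfl (mul_le_mul_left c1 _))
    (mul_le_mul_left c2 _))
  ring

theorem Ok8.const_mul (hf : Ok8 T D Θ F W f) {c : ℝ≥0∞} (hc : c ≠ ∞) :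
    Ok8 T D Θ F W fun L η ε hε t => c * f L η ε hε t := by
  obtain ⟨K, p, CA, hK, hCA, hf⟩ := hf
  set r : ℝ := max 1 c.toReal with hr
  have hr1 : 1 ≤ r := le_max_left _ _
  have hcr : c ≤ ENNReal.ofReal r := by
    rw [← ENNReal.ofReal_toReal hc]
    exact ENNReal.ofReal_le_ofReal (le_max_right _ _)
  refine ⟨r * K, p, fun n => r * CA n, one_le_mul_of_one_le_of_one_le hr1 hK,
    fun n => mul_nonneg (by linarith) (hCA n), fun n hn => ?_⟩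
  filter_upwards [hf n hn, eventually_ge_atTop 1] with L h hL δ hδ η η' h1 h2 h3 ρ hρ
  have hρ' : 0 < ρ / r := div_pos hρ (by linarith)
  filter_upwards [h δ hδ η η' h1 h2 h3 (ρ / r) hρ'] with ε h hε t ht
  have hn0 : (0 : ℝ) < n := by exact_mod_cast hn
  have hr0 : 0 ≤ r := by linarith
  have hη' : 0 < η' := h1.trans h2
  have hδ0 : 0 < δ := hδ.1
  have hrL : r ≤ r ^ L := by
    calc r = r ^ 1 := (pow_one r).symm
      _ ≤ r ^ L := pow_le_pow_right₀ hr1 hL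
  have k1 : r * K ^ L ≤ (r * K) ^ L := by
    rw [mul_pow]
    exact mul_le_mul_of_nonneg_right hrL (pow_nonneg (by linarith) L)
  calc c * f L η ε hε t ≤ ENNReal.ofReal r * (ENNReal.ofReal (CA n * ((n : ℝ) ^ L)⁻¹ + ρ / r) +
        ENNReal.ofReal (K ^ L * (η' / δ ^ p + δ)) *
          (D L η' ε t + Θ L η' ε t + F L η' ε t) +
        ENNReal.ofReal (K ^ L) * W L δ η' ε t) := mul_le_mul' hcr (h hε t ht)
    _ = ENNReal.ofReal (r * CA n * ((n : ℝ) ^ L)⁻¹ + ρ) +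
        ENNReal.ofReal (r * K ^ L * (η' / δ ^ p + δ)) *
          (D L η' ε t + Θ L η' ε t + F L η' ε t) +
        ENNReal.ofReal (r * K ^ L) * W L δ η' ε t := by
        rw [mul_add, mul_add, ← mul_assoc, ← mul_assoc, ← ENNReal.ofReal_mul hr0,
          ← ENNReal.ofReal_mul hr0, ← ENNReal.ofReal_mul hr0]
        have e1 : r * (CA n * ((n : ℝ) ^ L)⁻¹ + ρ / r) = r * CA n * ((n : ℝ) ^ L)⁻¹ + ρ := by
          field_simp
        rw [e1, ← mul_assoc]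
    _ ≤ _ := by
        refine add_le_add (add_le_add le_rfl (mul_le_mul_left (ENNReal.ofReal_le_ofReal ?_) _))
          (mul_le_mul_left (ENNReal.ofReal_le_ofReal k1) _)
        exact mul_le_mul_of_nonneg_right k1 (by positivity)

theorem Ok8.zero (hf : ∀ᶠ L in atTop, ∀ η ∈ Ioc (0 : ℝ) 1, ∀ ρ : ℝ, 0 < ρ →
    ∀ᶠ ε in 𝓝[>] (0 : ℝ), ∀ hε : 0 < ε, ∀ t ∈ Icc 0 T, f L η ε hε t ≤ ENNReal.ofReal ρ) :
    Ok8 T D Θ F W f := by
  refine ⟨1, 0, fun _ => 0, le_rfl, fun _ => le_rfl, fun n _ => ?_⟩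
  filter_upwards [hf] with L h δ hδ η η' h1 h2 h3 ρ hρ
  filter_upwards [h η ⟨h1, (h2.trans_le h3).le⟩ ρ hρ] with ε h hε t ht
  refine (h hε t ht).trans ?_
  rw [zero_mul, zero_add]
  exact le_add_right (le_add_right le_rfl)

/-! ### The choice of the weight -/

/-- A slow sequence: `n L → ∞` and any sequence of eventual properties holds at `n L`. -/
theorem exists_slow {P : ℕ → ℕ → Prop} (hP : ∀ n, 1 ≤ n → ∀ᶠ L in atTop, P n L) :
    ∃ n : ℕ → ℕ, Tendsto n atTop atTop ∧ (∀ L, 1 ≤ n L) ∧ ∀ᶠ L in atTop, P (n L) L := by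
  classical
  choose! N hN using fun n (hn : 1 ≤ n) => eventually_atTop.1 (hP n hn)
  -- `n L` is the largest `n ≤ L` with `N k ≤ L` for all `1 ≤ k ≤ n`
  let S : ℕ → Finset ℕ := fun L => (Finset.range (L + 1)).filter fun n =>
    1 ≤ n ∧ N n ≤ L
  let n : ℕ → ℕ := fun L => max 1 ((S L).sup id)
  refine ⟨n, ?_, fun L => le_max_left _ _, ?_⟩
  · refine tendsto_atTop.2 fun k => ?_
    filter_upwards [eventually_ge_atTop (max (k + 1) (N (k + 1)))] with L hL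
    have h1 : k + 1 ∈ S L := Finset.mem_filter.2 ⟨Finset.mem_range.2 (by
      have := (le_max_left (k + 1) (N (k + 1))).trans hL; omega), by omega,
      (le_max_right _ _).trans hL⟩
    have h2 : id (k + 1) ≤ (S L).sup id := Finset.le_sup h1
    exact (Nat.le_succ k).trans (h2.trans (le_max_right _ _))
  · filter_upwards [eventually_ge_atTop (max 1 (N 1))] with L hL
    have hne : (S L).Nonempty := ⟨1, Finset.mem_filter.2 ⟨Finset.mem_range.2 (by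
      have := (le_max_left 1 (N 1)).trans hL; omega), le_rfl, (le_max_right _ _).trans hL⟩⟩
    obtain ⟨k, hk, hk'⟩ := Finset.exists_mem_eq_sup (S L) hne id
    have h3 := Finset.mem_filter.1 hk
    have h4 : n L = k := by
      change max 1 ((S L).sup id) = k
      rw [hk']
      exact max_eq_right h3.2.1
    rw [h4]
    exact hN k h3.2.1 L h3.2.2

/-- **P8 from the bound.** -/
theorem Ok8.in8 {SE : ℕ → ℝ → ℝ → ℝ → ℝ≥0∞} (h : Ok8 T D Θ F W f)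
    (hSE : ∀ᶠ L in atTop, ∀ η ∈ Ioc (0 : ℝ) 1, ∀ ε : ℝ, ∀ hε : 0 < ε, ∀ t ∈ Icc 0 T,
      SE L η ε t ≤ f L η ε hε t) :
    ∃ C K p cr, Cst C K cr ∧ In8 T K p cr D Θ F SE W := by
  obtain ⟨K, p, CA, hK, hCA, h⟩ := h
  have hP : ∀ n : ℕ, 1 ≤ n → ∀ᶠ L in atTop, (∀ δ ∈ Ioc (0 : ℝ) 1, ∀ η η' : ℝ, 0 < η → η < η' →
      η' ≤ 1 → ∀ ρ : ℝ, 0 < ρ → ∀ᶠ ε in 𝓝[>] (0 : ℝ), ∀ hε : 0 < ε, ∀ t ∈ Icc 0 T,
      f L η ε hε t ≤ ENNReal.ofReal (CA n * ((n : ℝ) ^ L)⁻¹ + ρ) +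
        ENNReal.ofReal (K ^ L * (η' / δ ^ p + δ)) *
          (D L η' ε t + Θ L η' ε t + F L η' ε t) +
        ENNReal.ofReal (K ^ L) * W L δ η' ε t) ∧ CA n ≤ 2 ^ L := by
    intro n hn
    have h1 : ∀ᶠ L : ℕ in atTop, CA n ≤ 2 ^ L :=
      (tendsto_pow_atTop_atTop_of_one_lt (by norm_num : (1 : ℝ) < 2)).eventually_ge_atTop (CA n)
    exact (h n hn).and h1
  obtain ⟨n, hn1, hn2, hn3⟩ := exists_slow hP
  have hpos : ∀ L, (0 : ℝ) < n L := fun L => by exact_mod_cast hn2 L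
  refine ⟨0, K, p, fun L => (2 / (n L : ℝ)) ^ L, ⟨le_rfl, hK, fun L => by
    have := hpos L; positivity, fun A hA => ?_⟩, ?_⟩
  · have h1 : ∀ᶠ L in atTop, A ^ L * (2 / (n L : ℝ)) ^ L ≤ (1 / 2) ^ L := by
      obtain ⟨k, hk⟩ := exists_nat_ge (4 * A)
      filter_upwards [hn1.eventually_ge_atTop k] with L hL
      rw [← mul_pow]
      have h3 := hpos L
      refine pow_le_pow_left₀ (by positivity) ?_ L
      have h4 : (k : ℝ) ≤ n L := by exact_mod_cast hL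
      rw [mul_div_assoc', div_le_div_iff₀ h3 (by norm_num)]
      linarith
    refine squeeze_zero' (Eventually.of_forall fun L => ?_) h1
      (tendsto_pow_atTop_nhds_zero_of_lt_one (by norm_num) (by norm_num))
    have := hpos L
    positivity
  · filter_upwards [hn3, hSE] with L h4 h5 δ hδ η η' h1 h2 h3 ρ hρ
    filter_upwards [h4.1 δ hδ η η' h1 h2 h3 ρ hρ, self_mem_nhdsWithin] with ε h6 hε t ht
    refine (h5 η ⟨h1, (h2.trans_le h3).le⟩ ε hε t ht).trans ((h6 hε t ht).trans ?_)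
    refine add_le_add (add_le_add (ENNReal.ofReal_le_ofReal (add_le_add_left ?_ ρ)) le_rfl) le_rfl
    have h7 := hpos L
    have hKL : 1 ≤ K ^ L := one_le_pow₀ hK
    calc CA (n L) * ((n L : ℝ) ^ L)⁻¹ ≤ 2 ^ L * ((n L : ℝ) ^ L)⁻¹ :=
          mul_le_mul_of_nonneg_right h4.2 (by positivity)
      _ = (2 / (n L : ℝ)) ^ L := by rw [div_pow, div_eq_mul_inv]
      _ ≤ K ^ L * (2 / (n L : ℝ)) ^ L := le_mul_of_one_le_left (by positivity) hKL

end Vale.Agent.P119.PB
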