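import Vale.Agent.P119.PB.In8e
import Vale.Agent.P119.PB.For8C

/-!
# P119, block PROB, P8: the final assembly (`helper336`)

* `Laws8`: what is needed from the laws of one branch, from the functionals of the colliding pairs,
  and from the crude laws;
* `p8_of_laws8`: **P8**.
-/

open MeasureTheory Filter Topology Set ProbabilityTheory
open scoped ENNReal NNReal

noncomputable section

namespace Vale.Agent.P119.PB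

open M CTree KU FB RB AU FL TL EX

variable {Φ : E3 → ℝ} {hΦ : IsPotential Φ} {f₀ : Ph → ℝ} {κ T b b₀ l₁ l₂ Q M₀ B : ℝ}
  {m α a : ℕ → ℝ} {D Θ F : ℕ → ℝ → ℝ → ℝ → ℝ≥0∞} {W : ℕ → ℝ → ℝ → ℝ → ℝ → ℝ≥0∞}

/-- The laws of one branch, the functionals of the colliding pairs, the crude laws. -/
structure Laws8 (hΦ : IsPotential Φ) (f₀ : Ph → ℝ) (T b₀ b l₁ l₂ : ℝ) (m a : ℕ → ℝ)
    (D Θ F : ℕ → ℝ → ℝ → ℝ → ℝ≥0∞) (W : ℕ → ℝ → ℝ → ℝ → ℝ → ℝ≥0∞) : Prop where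
  r2 : Law8 hΦ f₀ T (b₀ / 2) (a8 T m) D Θ F W (lam8R hΦ (b₀ / 2) T m 2)
  a2 : Law8 hΦ f₀ T (b₀ / 2) (a8 T m) D Θ F W (lam8A hΦ (b₀ / 2) T m 2)
  b2 : Law8 hΦ f₀ T (b₀ / 2) (a8 T m) D Θ F W (lam8B hΦ (b₀ / 2) T m 2)
  a3 : Law8 hΦ f₀ T (b₀ / 2) (a8 T m) D Θ F W (lam8A hΦ (b₀ / 2) T m 3)
  b3 : Law8 hΦ f₀ T (b₀ / 2) (a8 T m) D Θ F W (lam8B hΦ (b₀ / 2) T m 3)
  c2 : Law8 hΦ f₀ T (b₀ / 2) (a8 T m) D Θ F W (PB.lam8C hΦ (b₀ / 2) T m 2)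
  c3 : Law8 hΦ f₀ T (b₀ / 2) (a8 T m) D Θ F W (PB.lam8C hΦ (b₀ / 2) T m 3)
  d2 : Law8 hΦ f₀ T (b₀ / 2) (a8 T m) D Θ F W (lam8D hΦ (b₀ / 2) T m 2)
  d3 : Law8 hΦ f₀ T (b₀ / 2) (a8 T m) D Θ F W (lam8D hΦ (b₀ / 2) T m 3)
  f : Law8 hΦ f₀ T (b₀ / 2) (a8 T m) D Θ F W
    (lam8F hΦ (b₀ / 2) (b / 2) T m fun n => ENNReal.ofReal (wgt l₁ l₂ a T n))
  xp : ∃ (K : ℝ) (p : ℕ), 1 ≤ K ∧ MainP8 hΦ f₀ T D Θ F W K p (fXp Φ f₀ b)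
  p9c : ∃ (K : ℝ) (p : ℕ), 1 ≤ K ∧ MainP8 hΦ f₀ T D Θ F W K p (f9c Φ f₀)
  cr : Cr8 hΦ f₀ T (b₀ / 2) (b / 2) (a8 T m)

theorem ForL8.forC8 {𝔉 : Fun8} {C : ℝ≥0∞} {lams : List Lam8} (h : ForL8 f₀ T 𝔉 C lams) :
    ForC8 f₀ T 𝔉 C lams := ⟨h.add, h.le⟩

/-- **P8 from the laws.** -/
theorem p8_of_laws8 (hP : Par T b₀ m b l₁ l₂ Q α a) (hg : GoodDatum f₀ κ) (hM : 0 ≤ M₀)
    (hf : ∀ z, f₀ z ≤ M₀ * Real.exp (-b₀ * ‖z.2‖ ^ 2))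
    (hx : ∀ v : E3, ∫⁻ x : E3, ENNReal.ofReal (f₀ (x, v)) ≤
      ENNReal.ofReal (M₀ * Real.exp (-b₀ * ‖v‖ ^ 2)))
    (hcap : ∀ᶠ L in atTop, CapT Φ f₀ L T (b₀ / 2) m) (hI1 : ∀ᶠ L in atTop, Cap.InI1 Φ f₀ L T)
    (hbad : BadS Φ f₀ T) (H : Laws8 hΦ f₀ T b₀ b l₁ l₂ m a D Θ F W) :
    ∃ C K p cr, Cst C K cr ∧ In8 T K p cr D Θ F (dSE b T l₁ l₂ a hΦ f₀ T) W := by
  have hb₀ := hP.b₀0
  have hb := hP.b0
  have hT := hP.T0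
  have hC := cap8_of_par hP hΦ hg hM hf hx hcap hI1
  have : IsFiniteMeasure (dmeas m) :=
    ⟨lt_top_iff_ne_top.2 (dmeas_univ_ne_top hP.wts hP.m0 hP.succ_mul_le)⟩
  have hcapH : ∀ᶠ L in atTop, CapH Φ f₀ L T (b₀ / 2) m := hcap.mono fun L h => h.capH
  have hb2 : 0 < b₀ / 2 := by positivity
  have hbb : b₀ / 2 ≤ b₀ := by linarith
  have hbβ : b / 2 ≤ b₀ / 2 := by
    rw [hP.hb]
    linarith
  have f1 := forL8_P2g hΦ hg hb2 hbb hM hf hT.le hcapH hI1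
  have f2 := forL8_P9a hΦ hg hb2 hbb hM hf hT.le hcapH hI1
  have f3 := forL8_P9b hΦ hg hb2 hbb hM hf hT.le hcapH hI1
  have f4 := forL8_FXg hΦ hg hb2 hbb hM hf hT.le hcapH hI1 (half_pos hb) (half_pos hb) hbβ
    le_rfl (tsum_wgt8_ne_top hP.wts l₁ l₂ T)
  have k1 : Ok8 T D Θ F W fun L η ε hε t => fP2 Φ f₀ L ε hε t (gI L hΦ hε η t) := by
    refine ok8_of_list hg hC ?_ ENNReal.one_ne_top f1.forC8 (crude_fP2 hg H.cr)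
    intro lam hlam
    simp only [List.mem_cons, List.not_mem_nil, or_false] at hlam
    rcases hlam with h | h | h | h | h <;> rw [h]
    exacts [H.r2, H.a2, H.b2, H.c2, H.d2]
  have k2 : Ok8 T D Θ F W fun L η ε hε t =>
      fFX Φ f₀ T b l₁ l₂ a L ε hε t (gI L hΦ hε η t) := by
    refine ok8_of_list hg hC ?_ ENNReal.one_ne_top f4.forC8 (crude_fFX hg hP.wts H.cr)
    intro lam hlam
    simp only [List.mem_cons, List.not_mem_nil, or_false] at hlam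
    rw [hlam]
    exact H.f
  have k4 : Ok8 T D Θ F W fun L η ε hε t => f9a Φ f₀ L ε hε t (gI L hΦ hε η t) := by
    refine ok8_of_list hg hC ?_ (C9_ne_top hb2) f2.forC8 (crude_f9a hg H.cr)
    intro lam hlam
    simp only [List.mem_cons, List.not_mem_nil, or_false] at hlam
    rcases hlam with h | h | h | h <;> rw [h]
    exacts [H.a3, H.b3, H.c3, H.d3]
  have k5 : Ok8 T D Θ F W fun L η ε hε t => f9b Φ f₀ L ε hε t (gI L hΦ hε η t) := by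
    refine ok8_of_list hg hC ?_ C9b_ne_top f3.forC8 (crude_f9b hg H.cr)
    intro lam hlam
    simp only [List.mem_cons, List.not_mem_nil, or_false] at hlam
    rw [hlam]
    exact H.c2
  obtain ⟨K₁, p₁, hK₁, hm₁⟩ := H.xp
  obtain ⟨K₂, p₂, hK₂, hm₂⟩ := H.p9c
  have k3 := ok8_pair hg (forP_fXp hg hΦ) hK₁ hm₁ (crudeP_fXp hg H.cr)
  have k6 := ok8_pair hg (forP_f9c hg hΦ) hK₂ hm₂ (crudeP_f9c hg H.cr)
  exact in8_of_ok8 hP hg hbad k1 k2 k3 k4 k5 k6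

end Vale.Agent.P119.PB
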