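import Vale.Agent.P119.FB.Unfelt
import Vale.Agent.P119.FB.First

/-!
# P119: ONE STEP (`helper939`)

`l` is inserted in the world `U`, `τ` is the first touch of `U` and `insert l U`.  `one_step`: direct
contact, irregular contact, or `l` hits a flying tree `T` and one of the alternatives `StepC`
(`helper336`) holds.  The classification of the first contact and of the collision is `touch_cases`
(`helper119`), the exceptional event is `NoExc` (`helper119`).
-/

open MeasureTheory Filter Topology Set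
open scoped ENNReal NNReal

noncomputable section

namespace Vale.Agent.P119.FB

namespace Sys

variable {α S ι : Type*} {Y : Sys α S} [DecidableEq ι]

/-- **The lines of a tree up to the time `τ`**: they do not touch the base; or the root line `r` is
the first; or a line `e` touches the base, and then the others do not touch the world of `e`, or one
of them does so at a later time `σ₂`. -/
theorem tree_cases {W : Finset ι → Finset α} {E : Finset ι} {r : ι} {τ : ℝ}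
    (h : Cube Y W (insert r E) τ)
    (hT : ∀ I J, I ⊆ insert r E → J ⊆ insert r E → Y.Transfer (W I) (W J)) :
    ¬Y.Touch (W ∅) (W (insert r E)) τ ∨
    (∃ σ ≤ τ, Y.Touch (W ∅) (W {r}) σ ∧ ∀ s < σ, ¬Y.Touch (W ∅) (W (insert r E)) s) ∨
    ∃ e ∈ E, ∃ σ ≤ τ, Y.Touch (W ∅) (W {e}) σ ∧
      (∀ s < σ, ¬Y.Touch (W ∅) (W (insert r E)) s) ∧
      (¬Y.Touch (W {e}) (W (insert r E)) τ ∨
        ∃ σ₂, σ ≤ σ₂ ∧ σ₂ ≤ τ ∧ (∃ m ∈ insert r E, m ≠ e ∧ Y.Touch (W {e}) (W {e, m}) σ₂) ∧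
          ∀ s < σ₂, ¬Y.Touch (W {e}) (W (insert r E)) s) := by
  classical
  by_cases hTo : Y.Touch (W ∅) (W (insert r E)) τ
  swap
  · exact Or.inl hTo
  right
  have hex := (h.touch_iff hT (Finset.Subset.refl _)).1 hTo
  obtain ⟨σ, hσ, ⟨i, hi, hTi⟩, hfirst⟩ := exists_first (insert r E) (fun _ => W ∅)
    (fun i => W {i}) hex
  have nU : ∀ s < σ, ¬Y.Touch (W ∅) (W (insert r E)) s := fun s hs =>
    (h.mono (show s ≤ τ by linarith)).superpose hT (hfirst s hs) _ (Finset.Subset.refl _)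
  by_cases hrT : Y.Touch (W ∅) (W {r}) σ
  · exact Or.inl ⟨σ, hσ, hrT, nU⟩
  right
  have hiE : i ∈ E := by
    rcases Finset.mem_insert.1 hi with rfl | h1
    · exact absurd hTi hrT
    · exact h1
  refine ⟨i, hiE, σ, hσ, hTi, nU, ?_⟩
  by_cases hTo2 : Y.Touch (W {i}) (W (insert r E)) τ
  swap
  · exact Or.inl hTo2
  right
  have hf := h.face hi
  have i1 : ∀ I, I ⊆ (insert r E).erase i → insert i I ⊆ insert r E := fun I hI =>
    Finset.insert_subset hi (hI.trans (Finset.erase_subset _ _))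
  have hT' : ∀ I J, I ⊆ (insert r E).erase i → J ⊆ (insert r E).erase i →
      Y.Transfer (W (insert i I)) (W (insert i J)) := fun I J hI hJ => hT _ _ (i1 I hI) (i1 J hJ)
  have hTo3 : Y.Touch (W (insert i ∅)) (W (insert i ((insert r E).erase i))) τ := by
    rw [Finset.insert_erase hi]
    simpa using hTo2
  have hex2 := (hf.touch_iff hT' (Finset.Subset.refl _)).1 hTo3
  obtain ⟨σ₂, hσ₂, ⟨m, hm, hTm⟩, hfirst₂⟩ := exists_first ((insert r E).erase i)
    (fun _ => W (insert i ∅)) (fun m => W (insert i {m})) hex2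
  rw [Finset.mem_erase] at hm
  have nU₂ : ∀ s < σ₂, ¬Y.Touch (W {i}) (W (insert r E)) s := fun s hs => by
    have h1 := (hf.mono (show s ≤ τ by linarith)).superpose hT' (hfirst₂ s hs) _
      (Finset.Subset.refl _)
    rw [Finset.insert_erase hi] at h1
    simpa using h1
  have hTm' : Y.Touch (W {i}) (W {i, m}) σ₂ := by simpa using hTm
  refine ⟨σ₂, ?_, hσ₂, ⟨m, hm.2, hm.1, hTm'⟩, nU₂⟩
  by_contra hcon
  rw [not_le] at hcon
  exact h.not_touch_pair hT hi hm.2 hm.1.symm (by linarith) (hfirst σ₂ hcon i hi)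
    (hfirst σ₂ hcon m hm.2) hTm'

end Sys

end Vale.Agent.P119.FB

namespace Vale.Agent.P119.PB

open M CTree KU FB RB AU TL

variable {Φ : E3 → ℝ} {ε : ℝ} {L : ℕ} {hΦ : IsPotential Φ} {hε : 0 < ε}
  {U V W w K : Finset Src} {T x : CTree} {l : Src} {s t ρ σ τ h : ℝ}

theorem wF_sgl_pair [DecidableEq Src] {a b : Src} : wF V sgl {a, b} = insert b (insert a V) := by
  ext z
  rw [mem_wF_sgl]
  simp only [Finset.mem_insert, Finset.mem_singleton]
  tauto

theorem exl_birth_le (hT : ok Φ ε T) {a : Src} (ha : a ∈ exl Φ ε T) (hΦ : IsPotential Φ)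
    (hε : 0 < ε) : a.1 ≤ ext Φ ε T := by
  rw [← Finset.mem_coe, coe_exl] at ha
  obtain ⟨x, hx, rfl⟩ := ha
  exact out_ext_le hΦ hε hT (Or.inr hx)

theorem kA_eq [DecidableEq Src] : kA Φ ε T l = insert (kcS Φ ε T l) (exl Φ ε T) := by
  ext a
  rw [mem_kA, Finset.mem_insert]

open Classical in
/-- **ONE STEP.** -/
theorem one_step {E : Finset Src → CTree → Prop}
    (hE : ∀ V T, ¬E V T → NoExc Φ ε L t l V T)
    (hl : l ∉ U) (hbd : ∀ a ∈ insert l U, 0 ≤ a.1 ∧ a.2.2 ≤ L) (hτt : τ ≤ t)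
    (hT : (RB.Y Φ ε L hΦ hε).Touch U (insert l U) τ)
    (hfirst : ∀ s < τ, ¬(RB.Y Φ ε L hΦ hε).Touch U (insert l U) s) :
    FB.Direct Φ ε L hΦ hε U l τ ∨ Irr Φ ε L U l τ ∨
      ∃ T ∈ trs L U, HitC Φ ε L t U l T ∧ hitT ε (l.2.1, ln Φ ε T) ≤ τ ∧
        HitR L hΦ hε l (rm U T) T ∧ StepC L hΦ hε t E U l T τ := by
  rcases touch_cases hl hbd hT hfirst with h1 | h1 | ⟨T, hR, hS, hun, hC⟩
  · exact Or.inl h1
  · exact Or.inr (Or.inl h1)
  right; right
  have hsig := sig_eq (Φ := Φ) (ε := ε) (T := T) (l := l)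
  have hTs := hR.sub
  have hTd := (alive_pre hR.alive).depth
  have hw0 := hR.births_w
  have hSt : sig Φ ε (node T (leaf l)) ≤ t := hS.trans hτt
  have hal : alive Φ ε L (U : Set Src) T (ext Φ ε T) := alive_anti hR.alive hR.ext_lt.le le_rfl
  refine ⟨T, mem_trs.2 ⟨hTs, hTd⟩, ⟨(meets_swap (ε := ε) (ln Φ ε T, l.2.1)).2 hR.meets, ?_, ?_,
    hR.ext_lt.le.trans hSt, hal⟩, hsig ▸ hS, ⟨⟨hsig ▸ hR.ext_lt, ?_⟩, ?_⟩, ?_⟩
  · rw [← hsig]; exact hR.birth_lt
  · rw [← hsig]; exact hSt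
  · rw [addT_rm hTs, ← hsig]; exact hR.alive
  · rw [addT_rm hTs, ← hsig]; exact fun s hs he => hun (he.mono hs.le)
  by_cases hdeep : L < max l.2.2 T.depth + 1
  · exact .deep hdeep
  by_cases hexc : E (rm U T) T
  · exact .exc hexc
  by_cases hfelt : fl L hΦ hε U (hitT ε (l.2.1, ln Φ ε T)) T
  · exact .felt hfelt
  have hN := hE _ _ hexc
  have hwT : addT (rm U T) T = U := addT_rm hTs
  have hV : (rm U T : Set Src) = (U : Set Src) \ T.leaves := coe_rm U T
  have hV0 : ∀ a ∈ rm U T, 0 ≤ a.1 := rm_nonneg hw0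
  have hyd : (node T (leaf l)).depth ≤ L := by
    change max T.depth l.2.2 + 1 ≤ L
    rw [max_comm]
    exact not_lt.1 hdeep
  have hok := hR.ok hN.exits
  have hse := sig_lt_ext hΦ hε hok
  have htri : ∀ q ≤ t, ¬TriW Φ ε L U T l q := fun q hq hc => hN.tri (by
    rw [hwT]; exact hc.mono hq)
  -- `T` is not felt
  have hnf : ¬(RB.Y Φ ε L hΦ hε).Touch (rm U T) U (sig Φ ε (node T (leaf l))) := by
    intro hc
    rw [← hsig] at hfelt
    exact hfelt ⟨hTs, hTd, hR.ext_lt.le, hal,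
      fun s hs he => hun (he.mono (hs.trans hR.ext_lt).le), hc⟩
  have htr : (RB.Y Φ ε L hΦ hε).Transfer (rm U T) U := Y_transfer hΦ hε hV0 hw0
  -- the lines
  have hgA : TGood Φ ε L hΦ hε (rm U T) T U (sig Φ ε (node T (leaf l))) t := by
    refine ⟨?_, ?_, hw0, hR.alive, Or.inr ?_, fun s hs he => hun (he.mono hs.le), hSt⟩
    · rw [hV]; exact disjoint_sdiff_left
    · rw [hV, sdiff_union_of_subset hTs]
    · obtain ⟨e, he1, -, hQ⟩ := hR.quiet_right hΦ hε hN.exits hyd le_rfl hse (htri _ hSt)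
      exact fly_lives hΦ hε U.finite_toSet hR.alive
        (fun q h1 h2 b => hQ.old q h1 (h2.trans_lt he1) b) le_rfl
  have hlA := hN.lgood_A hΦ hε hgA.ok hR.ext_lt
  have hrep := hgA.rep hlA
  have hbase : ∀ q ≤ t, (RB.Y Φ ε L hΦ hε).Touch (rm U T) U q ↔
      (RB.Y Φ ε L hΦ hε).Touch (rm U T) (lnw Φ ε (rm U T) T (sig Φ ε (node T (leaf l)))) q :=
    fun q hq => hgA.touch_base hlA hq
  have hWl : lnw Φ ε (rm U T) T (sig Φ ε (node T (leaf l))) =
      wF (rm U T) sgl (insert (kcS Φ ε T l) (exl Φ ε T)) := by rw [lnw_kA, kA_eq]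
  have gA := hN.ga.mono hτt
  rw [kA_eq] at gA
  have cA := gA.cube hΦ hε
  have tA : ∀ I J, I ⊆ insert (kcS Φ ε T l) (exl Φ ε T) → J ⊆ insert (kcS Φ ε T l) (exl Φ ε T) →
      (RB.Y Φ ε L hΦ hε).Transfer (wF (rm U T) sgl I) (wF (rm U T) sgl J) :=
    fun I J hI hJ => gA.transfer hΦ hε hI hJ
  have hkn : kcS Φ ε T l ∉ exl Φ ε T := fun hk =>
    absurd (exl_birth_le hgA.ok hk hΦ hε) (not_le.2 hR.ext_lt)
  -- an exhaust touches after the collision has begun
  have hlate : ∀ e ∈ exl Φ ε T, ∀ σ, (RB.Y Φ ε L hΦ hε).Touch (rm U T) (insert e (rm U T)) σ →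
      sig Φ ε (node T (leaf l)) < σ := by
    intro e he σ hσ
    by_contra hcon
    refine hnf ((hbase _ hSt).2 ?_)
    rw [lnw_kA]
    exact (touch_sgl_iff hN.ga (Finset.Subset.refl _) hSt).2
      ⟨e, mem_kA.2 (Or.inr he), hσ.mono (not_lt.1 hcon)⟩
  -- the second touches
  have hsec : ∀ e ∈ exl Φ ε T, ∀ σ σ₂, σ ≤ σ₂ → σ₂ ≤ τ →
      (RB.Y Φ ε L hΦ hε).Touch (rm U T) (insert e (rm U T)) σ →
      (∀ q < σ₂, ¬(RB.Y Φ ε L hΦ hε).Touch (insert e (rm U T))
        (lnw Φ ε (rm U T) T (sig Φ ε (node T (leaf l)))) q) →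
      ((∃ m, (Frs Φ ε l T m ∨ (m ∈ exl Φ ε T ∧ m ≠ e)) ∧
        (RB.Y Φ ε L hΦ hε).Touch (insert e (rm U T)) (insert m (insert e (rm U T))) σ₂) ∨
        ∃ r, sig Φ ε (node T (leaf l)) ≤ r ∧ r ≤ σ₂ ∧
          PCC L hΦ hε (insert e (rm U T)) l T r) → StepC L hΦ hε t E U l T τ := by
    intro e he σ σ₂ hσσ hσ₂ hTe hq hor
    have he' := he
    rw [← Finset.mem_coe, coe_exl] at he'
    obtain ⟨x, hx, rfl⟩ := he'
    refine .sec x σ₂ hx ?_ hσ₂ ?_ ?_ (hTe.mono hσσ) ?_ ?_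
    · rw [← hsig]; exact (hlate _ he _ hTe).trans_le hσσ
    · rw [← hsig]; exact hgA
    · rw [← hsig]; exact hlA
    · rw [← hsig]; exact hq
    · rw [← hsig]
      refine hor.imp ?_ id
      rintro ⟨m, hm, hmT⟩
      refine ⟨m, hm.imp id ?_, hmT⟩
      rintro ⟨hm1, hm2⟩
      rw [← Finset.mem_coe, coe_exl] at hm1
      obtain ⟨y, hy, rfl⟩ := hm1
      exact ⟨y, hy, fun hxy => hm2 (by rw [hxy]), rfl⟩
  have hnew : ∀ m σ, Frs Φ ε l T m → sig Φ ε (node T (leaf l)) ≤ m.1 → σ ≤ τ →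
      (RB.Y Φ ε L hΦ hε).Touch (rm U T) (insert m (rm U T)) σ →
      (∀ q < σ, ¬(RB.Y Φ ε L hΦ hε).Touch (rm U T)
        (lnw Φ ε (rm U T) T (sig Φ ε (node T (leaf l)))) q) → StepC L hΦ hε t E U l T τ := by
    intro m σ hm hmS hσ hTm hq
    refine .new m σ hm (hsig ▸ hmS) hσ hTm fun q hqσ hc => hq q hqσ ?_
    exact (hbase q (hqσ.le.trans (hσ.trans hτt))).1 hc
  rcases hC with h1 | h1 | h1 | ⟨h1, h2, h3, h4⟩ | ⟨h1, b, h2, h3, h4, ⟨s, hs, h5⟩, h6⟩ | ⟨h1, h2⟩
  · exact absurd hN.exits h1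
  · exact absurd h1 (not_lt.2 hyd)
  · exact absurd h1 (htri _ hτt)
  · -- the root is exposed
    have hmem : kcS Φ ε T l ∈ lnw Φ ε (rm U T) T (sig Φ ε (node T (leaf l))) := by
      rw [lnw_kA, mem_wF_sgl, mem_kA]
      exact Or.inr (Or.inl rfl)
    have hroot : (fs Φ ε (rho Φ ε T (sig Φ ε (node T (leaf l)))) T (kcS Φ ε T l)).root =
        T.root := by
      have : kcS Φ ε T l = msrc Φ ε (rho Φ ε T (sig Φ ε (node T (leaf l)))) T :=
        msrc_rho_self.symm
      rw [this, fs_msrc (hgA.setup hlA) (Or.inl rfl)]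
    have he : (RB.Y Φ ε L hΦ hε).Exp (lnw Φ ε (rm U T) T (sig Φ ε (node T (leaf l))))
        (kcS Φ ε T l) τ := by
      refine (hrep.lines.exp _ hmem τ hτt).2 ?_
      rw [hroot]
      exact h4
    rw [hWl] at he
    have hkV : kcS Φ ε T l ∉ rm U T := fun hk =>
      Finset.disjoint_left.1 (hN.ga.disjV _ (mem_kA.2 (Or.inl rfl))) hk
        (Finset.mem_singleton_self _)
    have ha : ∀ I ⊆ exl Φ ε T, kcS Φ ε T l ∈ (RB.Y Φ ε L hΦ hε).D (wF (rm U T) sgl I)
        (wF (rm U T) sgl (insert (kcS Φ ε T l) (exl Φ ε T))) τ := by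
      intro I hI
      refine mem_D_of_mem (fun h' => ?_) τ
      have h7 := h'.2 (mem_wF_sgl.2 (Or.inr (Finset.mem_insert_self _ _)))
      rcases mem_wF_sgl.1 h7 with h8 | h8
      · exact hkV h8
      · exact hkn (hI h8)
    rcases Sys.contam_first cA tA hkn ha he with ⟨σ, hσ, h7, h8⟩ |
      ⟨e, he', σ, σ₂, h7, h8, h9, ⟨m, hm, hme, h10⟩, h11⟩
    · rw [← hWl] at h8
      rw [wF_empty, wF_sgl_singleton] at h7
      simp only [wF_empty] at h8
      exact hnew _ σ frs_old le_rfl hσ h7 h8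
    · rw [← hWl] at h11
      rw [wF_empty, wF_sgl_singleton] at h9
      simp only [wF_sgl_singleton] at h11
      rw [wF_sgl_singleton, wF_sgl_pair] at h10
      refine hsec e he' σ σ₂ h7 h8 h9 h11 (Or.inl ⟨m, ?_, h10⟩)
      rcases Finset.mem_insert.1 hm with rfl | hm
      · exact Or.inl frs_old
      · exact Or.inr ⟨hm, hme⟩
  · -- contact of the pair with an exposed particle
    have hSτ := hS
    have key : ∀ (W : Finset Src) (c : Src), (RB.Y Φ ε L hΦ hε).Exp W c τ → c.1 ≤ τ →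
        XR Φ ε W τ c = XR Φ ε U τ b → PCC L hΦ hε W l T τ := by
      intro W c hc hcτ hX
      unfold PCC
      rw [pairLine_eq hΦ]
      rcases h6 with h6 | h6
      · exact Or.inr (CC_of_hits hc (Or.inl ⟨hcτ, by rw [hX]; exact h6⟩))
      · exact Or.inl (CC_of_hits hc (Or.inl ⟨hcτ, by rw [hX]; exact h6⟩))
    have hbU : (RB.Y Φ ε L hΦ hε).Exp U b τ := h5.mono hs.le
    rcases Sys.tree_cases cA tA with h7 | ⟨σ, hσ, h7, h8⟩ |
      ⟨e, he, σ, hσ, h7, -, h9⟩
    · -- no line touches the base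
      rw [← hWl, wF_empty] at h7
      have h8 : ¬(RB.Y Φ ε L hΦ hε).Touch (rm U T) U τ := fun hc => h7 ((hbase τ hτt).1 hc)
      have h9 : (RB.Y Φ ε L hΦ hε).Exp (rm U T) b τ := (Sys.exp_iff htr h8 le_rfl).2 hbU
      have hbD : b ∉ (RB.Y Φ ε L hΦ hε).Dlt (rm U T) U τ := fun hc =>
        h8 ⟨b, Sys.Dlt_subset_D hc, Or.inl h9⟩
      have h10 : XR Φ ε (rm U T) τ b = XR Φ ε U τ b :=
        Y_real_eq hΦ hε hV0 hw0 (fun q hq hc => h8 (hc.mono hq.le)) hbD le_rfl
      refine .pair τ (hsig ▸ hSτ) le_rfl (key _ b h9 h4 h10) fun q hq hc => h8 (hc.mono hq.le)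
    · rw [← hWl] at h8
      rw [wF_empty, wF_sgl_singleton] at h7
      simp only [wF_empty] at h8
      exact hnew _ σ frs_old le_rfl hσ h7 h8
    · rw [wF_empty, wF_sgl_singleton] at h7
      rw [← hWl] at h9
      rcases h9 with h9 | ⟨σ₂, h9, h10, ⟨m, hm, hme, h11⟩, h12⟩
      · rw [wF_sgl_singleton] at h9
        -- `b` in the world of lines
        obtain ⟨c, hc1, hc2⟩ := hrep.lines.bij.surjOn (Finset.mem_coe.2 hbU.mem)
        have hc1 : c ∈ lnw Φ ε (rm U T) T (sig Φ ε (node T (leaf l))) := Finset.mem_coe.1 hc1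
        have hc2 : (fs Φ ε (rho Φ ε T (sig Φ ε (node T (leaf l)))) T c).root = b := hc2
        have hcτ : c.1 ≤ τ := hrep.lines.unexp c hc1 τ hτt (by rw [hc2]; exact hbU)
        have hcE : (RB.Y Φ ε L hΦ hε).Exp (lnw Φ ε (rm U T) T (sig Φ ε (node T (leaf l)))) c τ := by
          refine (hrep.lines.exp c hc1 τ hτt).2 ?_
          rw [hc2]; exact hbU
        have hcX : XR Φ ε (lnw Φ ε (rm U T) T (sig Φ ε (node T (leaf l)))) τ c = XR Φ ε U τ b := by
          have := hrep.lines.pos c hc1 τ hcτ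
          rw [hc2] at this
          exact this
        have hln0 : ∀ a ∈ lnw Φ ε (rm U T) T (sig Φ ε (node T (leaf l))), 0 ≤ a.1 := by
          intro a ha
          rw [hWl] at ha
          exact (gA.bd (Finset.Subset.refl _) a ha).1
        have hen0 : ∀ a ∈ insert e (rm U T), 0 ≤ a.1 := by
          intro a ha
          rw [← wF_sgl_singleton] at ha
          exact (gA.bd (Finset.singleton_subset_iff.2 (Finset.mem_insert_of_mem he)) a ha).1
        have htr' : (RB.Y Φ ε L hΦ hε).Transfer (insert e (rm U T))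
            (lnw Φ ε (rm U T) T (sig Φ ε (node T (leaf l)))) := Y_transfer hΦ hε hen0 hln0
        have hcE' : (RB.Y Φ ε L hΦ hε).Exp (insert e (rm U T)) c τ :=
          (Sys.exp_iff htr' h9 le_rfl).2 hcE
        have hcD : c ∉ (RB.Y Φ ε L hΦ hε).Dlt (insert e (rm U T))
            (lnw Φ ε (rm U T) T (sig Φ ε (node T (leaf l)))) τ := fun hc =>
          h9 ⟨c, Sys.Dlt_subset_D hc, Or.inl hcE'⟩
        have h10 : XR Φ ε (insert e (rm U T)) τ c =
            XR Φ ε (lnw Φ ε (rm U T) T (sig Φ ε (node T (leaf l)))) τ c :=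
          Y_real_eq hΦ hε hen0 hln0 (fun q hq hc => h9 (hc.mono hq.le)) hcD le_rfl
        exact hsec e he σ τ hσ le_rfl h7 (fun q hq hc => h9 (hc.mono hq.le))
          (Or.inr ⟨τ, hSτ, le_rfl, key _ c hcE' hcτ (h10.trans hcX)⟩)
      · simp only [wF_sgl_singleton] at h12
        rw [wF_sgl_singleton, wF_sgl_pair] at h11
        refine hsec e he σ σ₂ h9 h10 h7 h12 (Or.inl ⟨m, ?_, h11⟩)
        rcases Finset.mem_insert.1 hm with rfl | hm
        · exact Or.inl frs_old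
        · exact Or.inr ⟨hm, hme⟩
  · -- after the collision
    have hgB : TGood Φ ε L hΦ hε (rm U T) (node T (leaf l)) (insert l U)
        (ext Φ ε (node T (leaf l))) t :=
      h1.tgood_B2 hV (fun q hq => hfirst q (hq.trans_le h2)) (h2.trans hτt)
    have hlB := hN.lgood_B hΦ hε (not_lt.1 hdeep) h1.ok
    have h3 := touch_node hgA hgB hlA hlB hτt hT
    have eA : kA Φ ε T l = exl Φ ε T ∪ {kcS Φ ε T l} := by
      ext a
      rw [mem_kA, Finset.mem_union, Finset.mem_singleton, or_comm]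
    have eB : kB Φ ε T l = exl Φ ε T ∪
        {rsrc Φ ε (node T (leaf l)), rsrc Φ ε (node (leaf l) T)} := by
      ext a
      rw [mem_kB, Finset.mem_union, Finset.mem_insert, Finset.mem_singleton]
      tauto
    have hWl' : lnw Φ ε (rm U T) T (sig Φ ε (node T (leaf l))) =
        wF (rm U T) sgl (exl Φ ε T ∪ {kcS Φ ε T l}) := by rw [lnw_kA, eA]
    rw [hWl', lnw_kB, eB] at h3
    have gA' := hN.ga.mono hτt
    have gB := (hN.gb (not_lt.1 hdeep)).mono hτt
    rw [eA] at gA'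
    rw [eB] at gB
    -- the fresh lines
    have hfr : ∀ m ∈ ({rsrc Φ ε (node T (leaf l)), rsrc Φ ε (node (leaf l) T)} : Finset Src),
        Frs Φ ε l T m ∧ m.1 = ext Φ ε (node T (leaf l)) := by
      intro m hm
      rw [Finset.mem_insert, Finset.mem_singleton] at hm
      rcases hm with rfl | rfl
      · exact ⟨frs_out2 hΦ, rfl⟩
      · exact ⟨frs_out1, ext_swap hΦ T (leaf l)⟩
    rcases Sys.one_step_first (WA := wF (rm U T) sgl) (WB := wF (rm U T) sgl)
      (fun _ _ => rfl) (gA'.cube hΦ hε) (gB.cube hΦ hε)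
      (fun I J hI hJ => gA'.transfer hΦ hε hI hJ) (fun I J hI hJ => gB.transfer hΦ hε hI hJ)
      (Finset.disjoint_singleton_right.2 hkn)
      (Finset.disjoint_right.2 fun m hm hme => by
        have h5 := exl_birth_le hgA.ok hme hΦ hε
        rw [(hfr m hm).2] at h5
        exact absurd h5 (not_le.2 (hR.ext_lt.trans hse))) h3 with
      ⟨σ, hσ, h4, h5⟩ | ⟨e, he, σ, σ₂, h4, h5, h6, h7, h8⟩
    · rw [← hWl'] at h5
      simp only [wF_empty] at h5
      rcases h4 with ⟨i, hi, h4⟩ | ⟨j, hj, h4⟩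
      · rw [Finset.mem_singleton] at hi
        rw [hi, wF_empty, wF_sgl_singleton] at h4
        exact hnew _ σ frs_old le_rfl hσ h4 h5
      · rw [wF_empty, wF_sgl_singleton] at h4
        exact hnew _ σ (hfr j hj).1 (by rw [(hfr j hj).2]; exact hse.le) hσ h4 h5
    · rw [← hWl'] at h8
      simp only [wF_sgl_singleton] at h8
      rw [wF_empty, wF_sgl_singleton] at h6
      refine hsec e he σ σ₂ h4 h5 h6 h8 (Or.inl ?_)
      rcases h7 with ⟨i, hi, h7⟩ | ⟨j, hj, h7⟩ | ⟨e', he', hne, h7⟩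
      · rw [Finset.mem_singleton] at hi
        rw [hi, wF_sgl_singleton, wF_sgl_pair] at h7
        exact ⟨_, Or.inl frs_old, h7⟩
      · rw [wF_sgl_singleton, wF_sgl_pair] at h7
        exact ⟨j, Or.inl (hfr j hj).1, h7⟩
      · rw [wF_sgl_singleton, wF_sgl_pair] at h7
        exact ⟨e', Or.inr ⟨he', hne⟩, h7⟩

open Classical in
/-- **The pointwise ONE STEP inequality of P5.** -/
theorem pt5 {η η' w : ℝ} (hη : 0 < η) (hηη : η < η') (ht : 0 ≤ t) (hl : l ∉ U)
    (hbd : ∀ a ∈ insert l U, 0 ≤ a.1 ∧ a.2.2 ≤ L) {E : Finset Src → CTree → Prop}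
    (hE : ∀ V T, ¬E V T → NoExc Φ ε L t l V T) :
    Pt5 L hΦ hε η η' t w U l (ind (Irr Φ ε L U l t)) (BB L hΦ hε ((η' - η) / 2) t E l) := by
  refine pt5_of_step hη hηη ht (fun a ha => (hbd a (Finset.mem_insert_of_mem ha)).1)
    fun τ _ hτ hT hfirst => ?_
  rcases one_step hE hl hbd hτ hT hfirst with h | h | h
  · exact Or.inl h
  · exact Or.inr (Or.inl (h.mono hτ))
  · exact Or.inr (Or.inr h)

end Vale.Agent.P119.PB
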