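import Vale.Agent.P119.PB.Int5b
import Vale.Agent.P119.PB.Step5

/-!
# P119, block PROB: ONE STEP, integrated, final (`helper336`)

`theta_le_final`: `theta_le_of_step` with the deterministic ONE STEP `PB.one_step` of `helper939`.
-/

open MeasureTheory Filter Topology Set
open scoped ENNReal NNReal

noncomputable section

namespace Vale.Agent.P119.PB

open M CTree KU FB RB AU FL TL

variable {Φ : E3 → ℝ} {ε : ℝ} {L : ℕ} {hΦ : IsPotential Φ} {hε : 0 < ε} {η t w : ℝ} {σ : Src}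
  {f₀ : Ph → ℝ} {κ b η' : ℝ}

/-- **ONE STEP, integrated, final form.** -/
theorem theta_le_final (h₀ : GoodDatum f₀ κ) {Tm : ℝ} (ht : 0 ≤ t) (htT : t ≤ Tm) (hη : 0 < η)
    (hηη : η < η') (hσ0 : 0 ≤ σ.1) (hσL : σ.2.2 ≤ L)
    {α : ℕ → ℝ≥0∞} {ν : GC.Conf Ph → Measure Src}
    (hcap : ∀ c, ∀ F : Src → ℝ≥0∞, Measurable F →
      ∫⁻ T in Cap.AL Φ ε L Tm (GC.pts c : Set Ph), F (rsrc Φ ε T) ∂(tree (GC.inten f₀ ε) L) ≤
        muE ε * (typI b Tm α F + ∫⁻ p, F p ∂(ν c))) :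
    theta L hΦ hε f₀ η t w σ ≤ dirS L hΦ hε f₀ η t w σ + feltS L hΦ hε f₀ η t w σ +
      (pairS L hΦ hε f₀ b (fun n => α n * ENNReal.ofReal (1 + Tm)) η' t w σ +
        KOp Φ ε b t (fun n => α n * ENNReal.ofReal (1 + Tm)) (thL L hΦ hε f₀ η' t w) σ +
        4 * atyS (GC.PP f₀ ε) ν ε t σ) +
      overX f₀ Φ ε L t σ + secS L hΦ hε f₀ η' t w σ +
      ∫⁻ c, (ind (Irr Φ ε L (wS (GC.pts c)) σ t) +
        sumHit Φ ε L t σ (BB L hΦ hε ((η' - η) / 2) t (fun V T => ¬NoExc Φ ε L t σ V T) σ)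
          (wS (GC.pts c))) ∂(GC.PP f₀ ε) := by
  classical
  refine theta_le_of_step (E := fun V T => ¬NoExc Φ ε L t σ V T)
    (I := fun U => Irr Φ ε L U σ t) h₀ ht htT hη hηη hcap fun c τ _ hτ hT hfirst => ?_
  have hl : σ ∉ wS (GC.pts c) := by
    intro hmem
    rw [Finset.insert_eq_self.2 hmem] at hT
    exact not_touch_self hT
  have hbd : ∀ a ∈ insert σ (wS (GC.pts c)), 0 ≤ a.1 ∧ a.2.2 ≤ L := by
    intro a ha
    rcases Finset.mem_insert.1 ha with rfl | ha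
    · exact ⟨hσ0, hσL⟩
    · exact ⟨wS_nonneg _ a ha, wS_depth _ a ha⟩
  rcases one_step (E := fun V T => ¬NoExc Φ ε L t σ V T) (fun V T h => not_not.1 h) hl hbd hτ hT
    hfirst with h | h | h
  · exact Or.inl h
  · exact Or.inr (Or.inl (h.mono hτ))
  · exact Or.inr (Or.inr h)

end Vale.Agent.P119.PB
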