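import Vale.Agent.P119.PB.Op10
import Vale.Agent.P119.ML.IrrMass
import Vale.Agent.P119.ML.CrudeX

/-!
# P119, block PROB: irregular first contacts, part 1: durations of collisions (`helper347`)

* `drn`: the duration of a collision at the scale one;
* `Psi`: the weight of a pair of lines: size of the tube around the centre of mass during the
  collision; `lintegral_Psi`: the flux formula;
* `Jv_small`: its rate tends to zero, uniformly with a Gaussian weight.
-/

open MeasureTheory Set Filter Topology Metric ProbabilityTheory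
open scoped ENNReal

namespace Vale.Agent.P119.PB

open KU FL M CTree

variable {Φ : E3 → ℝ} {ε : ℝ}

/-- The duration of a collision at the scale one. -/
noncomputable def drn (Φ : E3 → ℝ) (ρ V : E3) : ℝ := tout Φ (ρ, V) + half (ρ, V)

theorem measurable_drn (hΦ : IsPotential Φ) : Measurable fun p : E3 × E3 => drn Φ p.1 p.2 := by
  unfold drn
  exact (measurable_tout hΦ).add measurable_half

/-- The weight of a pair. -/
noncomputable def Psi (Φ : E3 → ℝ) (ε T : ℝ) (q : Ph × Ph) : ℝ≥0∞ :=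
  {q : Ph × Ph | Meets ε q ∧ hitT ε q ∈ Ioc 0 T}.indicator (fun q =>
    ENNReal.ofReal (2 * ε) + ENNReal.ofReal (1 + ‖q.1.2‖ + ‖q.2.2‖) *
      ENNReal.ofReal (min (sepT Φ ε q - hitT ε q) T)) q

theorem measurable_Psi (hΦ : IsPotential Φ) (ε T : ℝ) : Measurable (Psi Φ ε T) := by
  have h1 : MeasurableSet {q : Ph × Ph | Meets ε q ∧ hitT ε q ∈ Ioc 0 T} :=
    measurableSet_meets.inter (measurable_hitT measurableSet_Ioc)
  have h2 : Measurable fun q : Ph × Ph => min (sepT Φ ε q - hitT ε q) T :=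
    ((measurable_sepT hΦ).sub measurable_hitT).min measurable_const
  have h3 : Measurable fun q : Ph × Ph => 1 + ‖q.1.2‖ + ‖q.2.2‖ := by fun_prop
  exact ((h3.ennreal_ofReal.mul h2.ennreal_ofReal).const_add _).indicator h1

/-- The rate of a line of velocity `v`. -/
noncomputable def Jv (Φ : E3 → ℝ) (ε β T : ℝ) (v : E3) : ℝ≥0∞ :=
  ∫⁻ u : E3, ‖v - u‖ₑ * (gw β u * ∫⁻ ρ, (ENNReal.ofReal (2 * ε) +
    ENNReal.ofReal (1 + ‖v‖ + ‖u‖) * ENNReal.ofReal (min (ε * drn Φ ρ (v - u)) T))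
      ∂(kappa (v - u)))

/-- **The flux formula for `Psi`.** -/
theorem lintegral_Psi (hΦ : IsPotential Φ) (hε : 0 < ε) {β T : ℝ} (l : Ph) :
    ∫⁻ l' : Ph, gw β l'.2 * Psi Φ ε T (l, l') =
      ENNReal.ofReal (ε ^ 2) * (ENNReal.ofReal T * Jv Φ ε β T l.2) := by
  have hm : MeasurableSet {l' : Ph | Meets ε (l, l')} := measurable_prodMk_left measurableSet_meets
  have hgw : Measurable fun l' : Ph => gw β l'.2 := (measurable_gw β).comp measurable_snd
  have hF : Measurable fun l' : Ph => gw β l'.2 * Psi Φ ε T (l, l') :=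
    hgw.mul ((measurable_Psi hΦ ε T).comp measurable_prodMk_left)
  have h1 : ∫⁻ l' : Ph, gw β l'.2 * Psi Φ ε T (l, l') =
      ∫⁻ l' in {l' : Ph | Meets ε (l, l')}, gw β l'.2 * Psi Φ ε T (l, l') := by
    rw [← lintegral_indicator hm]
    refine lintegral_congr fun l' => ?_
    by_cases h : Meets ε (l, l')
    · rw [indicator_of_mem (show l' ∈ {l' : Ph | Meets ε (l, l')} from h)]
    · rw [indicator_of_notMem (show l' ∉ {l' : Ph | Meets ε (l, l')} from h)]
      unfold Psi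
      rw [indicator_of_notMem (show (l, l') ∉ {q : Ph × Ph | Meets ε q ∧ hitT ε q ∈ Ioc 0 T} from
        fun h' => h h'.1), mul_zero]
  rw [h1, lintegral_partner hε l hF]
  congr 1
  unfold Jv
  rw [← lintegral_const_mul']
  swap
  · exact ENNReal.ofReal_ne_top
  refine lintegral_congr_ae ?_
  have hne : ∀ᵐ u : E3, l.2 - u ≠ 0 := by
    have h0 : (volume : Measure E3) {l.2} = 0 := measure_singleton _
    have h1 : ∀ᵐ u : E3, u ∉ ({l.2} : Set E3) := measure_eq_zero_iff_ae_notMem.1 h0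
    filter_upwards [h1] with u hu h
    exact hu (sub_eq_zero.1 h).symm
  filter_upwards [hne] with u hu
  set V := l.2 - u with hV
  set g : E3 → ℝ≥0∞ := fun ρ => ENNReal.ofReal (2 * ε) + ENNReal.ofReal (1 + ‖l.2‖ + ‖u‖) *
    ENNReal.ofReal (min (ε * drn Φ ρ V) T) with hg
  have hgm : Measurable g := by
    have h2 : Measurable fun ρ : E3 => min (ε * drn Φ ρ V) T :=
      (((measurable_drn hΦ).comp (measurable_id.prodMk measurable_const)).const_mul ε).min
        measurable_const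
    exact (h2.ennreal_ofReal.const_mul _).const_add _
  have h2 : ∀ s : ℝ, ∫⁻ ρ, gw β (partner ε l u s ρ).2 * Psi Φ ε T (l, partner ε l u s ρ)
      ∂(kappa V) = ∫⁻ ρ, gw β u * ((Ioc 0 T).indicator 1 (s - ε * half (ρ, V)) * g ρ)
        ∂(kappa V) := by
    intro s
    refine lintegral_congr_ae ?_
    filter_upwards [ae_kappa hu] with ρ hρ
    have h3 : (partner ε l u s ρ).2 = u := rfl
    have h4 := hitT_partner hε.ne' l hu s hρ.2
    have h5 := ML.sepT_partner hΦ hε.ne' l hu s ρ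
    have h6 : Meets ε (l, partner ε l u s ρ) := by
      refine ⟨hu, ?_⟩
      rw [perp_rel_partner hε.ne' l u s hρ.2]
      exact hρ.1
    rw [h3]
    congr 1
    unfold Psi
    by_cases h7 : s - ε * half (ρ, V) ∈ Ioc 0 T
    · rw [indicator_of_mem (show (l, partner ε l u s ρ) ∈ {q : Ph × Ph | Meets ε q ∧
        hitT ε q ∈ Ioc 0 T} from ⟨h6, by rw [h4]; exact h7⟩), indicator_of_mem h7, Pi.one_apply,
        one_mul, h4, h5]
      simp only [hg, h3]
      congr 4
      unfold drn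
      ring
    · rw [indicator_of_notMem (show (l, partner ε l u s ρ) ∉ {q : Ph × Ph | Meets ε q ∧
        hitT ε q ∈ Ioc 0 T} from fun h8 => h7 (by rw [← h4]; exact h8.2)), indicator_of_notMem h7,
        zero_mul]
  simp only [h2]
  have hhalf : Measurable fun ρ : E3 => half (ρ, V) :=
    measurable_half.comp (measurable_id.prodMk measurable_const)
  have hsm : Measurable fun p : ℝ × E3 => p.1 - ε * half (p.2, V) :=
    measurable_fst.sub ((hhalf.comp measurable_snd).const_mul ε)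
  have h8 : Measurable fun p : ℝ × E3 => gw β u *
      ((Ioc 0 T).indicator (1 : ℝ → ℝ≥0∞) (p.1 - ε * half (p.2, V)) * g p.2) :=
    (((measurable_one.indicator measurableSet_Ioc).comp hsm).mul
      (hgm.comp measurable_snd)).const_mul _
  rw [lintegral_lintegral_swap h8.aemeasurable]
  have h9 : ∀ ρ : E3, ∫⁻ s : ℝ, gw β u * ((Ioc 0 T).indicator (1 : ℝ → ℝ≥0∞)
      (s - ε * half (ρ, V)) * g ρ) = gw β u * (ENNReal.ofReal T * g ρ) := by
    intro ρ
    have h10 : Measurable fun s : ℝ => (Ioc 0 T).indicator (1 : ℝ → ℝ≥0∞)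
        (s - ε * half (ρ, V)) :=
      (measurable_one.indicator measurableSet_Ioc).comp (measurable_id.sub_const _)
    rw [lintegral_const_mul _ (h10.mul_const _), lintegral_mul_const _ h10,
      lintegral_sub_right_eq_self (fun s => (Ioc 0 T).indicator (1 : ℝ → ℝ≥0∞) s),
      lintegral_indicator_one measurableSet_Ioc, Real.volume_Ioc, sub_zero]
  simp only [h9]
  rw [lintegral_const_mul _ (hgm.const_mul _), lintegral_const_mul _ hgm]
  ring

/-! ### The rate is small -/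

theorem gw_sub_le {β R : ℝ} (hβ : 0 < β) {v w : E3} (hv : ‖v‖ ≤ R) :
    gw β (v - w) ≤ ENNReal.ofReal (Real.exp (β * R ^ 2)) * gw (β / 2) w := by
  unfold gw
  rw [← ENNReal.ofReal_mul (Real.exp_nonneg _), ← Real.exp_add]
  apply ENNReal.ofReal_le_ofReal
  apply Real.exp_le_exp.2
  have h1 : ‖w‖ ≤ ‖v - w‖ + ‖v‖ := by
    have := norm_sub_le v (v - w)
    rw [sub_sub_cancel] at this
    linarith
  have h2 : ‖w‖ ^ 2 ≤ 2 * ‖v - w‖ ^ 2 + 2 * R ^ 2 := by
    have h3 := norm_nonneg w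
    have h4 := norm_nonneg v
    have h5 := norm_nonneg (v - w)
    nlinarith [sq_nonneg (‖v - w‖ - ‖v‖)]
  nlinarith

/-- The dominating rate. -/
noncomputable def JR (Φ : E3 → ℝ) (ε β T R : ℝ) : ℝ≥0∞ :=
  ∫⁻ w : E3, ‖w‖ₑ * (gw (β / 2) w * ∫⁻ ρ, (ENNReal.ofReal (2 * ε) +
    ENNReal.ofReal (1 + 2 * R + ‖w‖) * ENNReal.ofReal (min (ε * drn Φ ρ w) T)) ∂(kappa w))

theorem Jv_le_near {β T R : ℝ} (hβ : 0 < β) {v : E3} (hv : ‖v‖ ≤ R) :
    Jv Φ ε β T v ≤ ENNReal.ofReal (Real.exp (β * R ^ 2)) * JR Φ ε β T R := by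
  unfold Jv JR
  rw [← lintegral_const_mul' _ _ ENNReal.ofReal_ne_top,
    ← lintegral_sub_left_eq_self (fun u : E3 => ‖v - u‖ₑ * (gw β u * ∫⁻ ρ,
      (ENNReal.ofReal (2 * ε) + ENNReal.ofReal (1 + ‖v‖ + ‖u‖) *
        ENNReal.ofReal (min (ε * drn Φ ρ (v - u)) T)) ∂(kappa (v - u)))) v]
  refine lintegral_mono fun w => ?_
  simp only [sub_sub_cancel]
  calc ‖w‖ₑ * (gw β (v - w) * ∫⁻ ρ, (ENNReal.ofReal (2 * ε) + ENNReal.ofReal
        (1 + ‖v‖ + ‖v - w‖) * ENNReal.ofReal (min (ε * drn Φ ρ w) T)) ∂(kappa w))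
      ≤ ‖w‖ₑ * ((ENNReal.ofReal (Real.exp (β * R ^ 2)) * gw (β / 2) w) *
        ∫⁻ ρ, (ENNReal.ofReal (2 * ε) + ENNReal.ofReal (1 + 2 * R + ‖w‖) *
          ENNReal.ofReal (min (ε * drn Φ ρ w) T)) ∂(kappa w)) := by
        refine mul_le_mul_right (mul_le_mul' (gw_sub_le hβ hv) (lintegral_mono fun ρ => ?_)) _
        refine add_le_add le_rfl (mul_le_mul_left (ENNReal.ofReal_le_ofReal ?_) _)
        have := norm_sub_le v w
        linarith
    _ = _ := by ring

/-- The inner integral. -/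
theorem kappa_inner_le {A T : ℝ} (hT : 0 ≤ T) (hε1 : ε ≤ 1) (hA : 0 ≤ A) {w : E3} (hw : w ≠ 0) :
    ∫⁻ ρ, (ENNReal.ofReal (2 * ε) + ENNReal.ofReal A * ENNReal.ofReal (min (ε * drn Φ ρ w) T))
      ∂(kappa w) ≤ ENNReal.ofReal (Real.pi * (2 + A * T)) := by
  calc _ ≤ ∫⁻ _ : E3, ENNReal.ofReal (2 + A * T) ∂(kappa w) := by
        refine lintegral_mono fun ρ => ?_
        rw [← ENNReal.ofReal_mul hA]
        refine (add_le_add (ENNReal.ofReal_le_ofReal (show 2 * ε ≤ 2 by linarith))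
          (ENNReal.ofReal_le_ofReal (mul_le_mul_of_nonneg_left (min_le_right _ _) hA))).trans ?_
        rw [← ENNReal.ofReal_add (by norm_num) (by positivity)]
    _ = _ := by
        rw [lintegral_const, kappa_univ hw, ← ENNReal.ofReal_mul (by positivity), mul_comm]

theorem e3_ne_zero_ae : ∀ᵐ w : E3, w ≠ 0 := by
  have h0 : (volume : Measure E3) {0} = 0 := measure_singleton _
  have h1 : ∀ᵐ u : E3, u ∉ ({0} : Set E3) := measure_eq_zero_iff_ae_notMem.1 h0
  filter_upwards [h1] with u hu h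
  exact hu h

theorem measurable_inner_kappa (hΦ : IsPotential Φ) {X : Type*} [MeasurableSpace X] {f : X → E3}
    (hf : Measurable f) {A : X → ℝ} (hA : Measurable A) (ε T : ℝ) :
    Measurable fun x => ∫⁻ ρ, (ENNReal.ofReal (2 * ε) + ENNReal.ofReal (A x) *
      ENNReal.ofReal (min (ε * drn Φ ρ (f x)) T)) ∂(kappa (f x)) := by
  have h1 : Measurable fun p : X × E3 => ENNReal.ofReal (2 * ε) + ENNReal.ofReal (A p.1) *
      ENNReal.ofReal (min (ε * drn Φ p.2 (f p.1)) T) := by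
    have h2 : Measurable fun p : X × E3 => min (ε * drn Φ p.2 (f p.1)) T :=
      (((measurable_drn hΦ).comp (measurable_snd.prodMk (hf.comp measurable_fst))).const_mul
        ε).min measurable_const
    exact (((hA.comp measurable_fst).ennreal_ofReal).mul h2.ennreal_ofReal).const_add _
  exact h1.lintegral_kernel_prod_right' (κ := kappa.comap f hf)

/-- The cubic Gaussian moment. -/
theorem I3_bound {b K : ℝ} (hb : 0 < b) :
    ∫⁻ w : E3, ENNReal.ofReal K * (CT.g1 b w * ENNReal.ofReal ((1 + ‖w‖) ^ 3)) ≠ ∞ := by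
  rw [lintegral_const_mul' _ _ ENNReal.ofReal_ne_top]
  exact ENNReal.mul_ne_top ENNReal.ofReal_ne_top (ML.I3_ne_top hb)

theorem tendsto_JR (hΦ : IsPotential Φ) {β T R : ℝ} (hβ : 0 < β) (hT : 0 < T) (hR : 0 ≤ R) :
    Tendsto (fun ε => JR Φ ε β T R) (𝓝[>] 0) (𝓝 0) := by
  have hβ2 : 0 < β / 2 := by positivity
  have hA : ∀ w : E3, 0 ≤ 1 + 2 * R + ‖w‖ := fun w => by positivity
  have hev : ∀ᶠ ε in 𝓝[>] (0 : ℝ), ε ∈ Ioc (0 : ℝ) 1 := Ioc_mem_nhdsGT one_pos
  have key := tendsto_lintegral_filter_of_dominated_convergence (μ := (volume : Measure E3))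
    (l := 𝓝[>] (0 : ℝ)) (F := fun ε w => ‖w‖ₑ * (gw (β / 2) w * ∫⁻ ρ, (ENNReal.ofReal (2 * ε) +
      ENNReal.ofReal (1 + 2 * R + ‖w‖) * ENNReal.ofReal (min (ε * drn Φ ρ w) T)) ∂(kappa w)))
    (f := fun _ => 0) (fun w => ENNReal.ofReal (Real.pi * (2 + (1 + 2 * R) * T)) *
      (CT.g1 (β / 2) w * ENNReal.ofReal ((1 + ‖w‖) ^ 3))) ?_ ?_
    (I3_bound hβ2) ?_
  · rw [lintegral_zero] at key
    exact key
  · refine Eventually.of_forall fun ε => ?_
    exact measurable_enorm.mul ((measurable_gw _).mul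
      (measurable_inner_kappa hΦ measurable_id (by fun_prop) ε T))
  · filter_upwards [hev] with ε hε
    filter_upwards [e3_ne_zero_ae] with w hw
    refine (mul_le_mul_right (mul_le_mul_right (kappa_inner_le hT.le hε.2 (hA w) hw) _) _).trans ?_
    have h1 : ‖w‖ₑ = ENNReal.ofReal ‖w‖ := (ofReal_norm w).symm
    have h2 : gw (β / 2) w = CT.g1 (β / 2) w := rfl
    rw [h1, h2]
    calc ENNReal.ofReal ‖w‖ * (CT.g1 (β / 2) w *
          ENNReal.ofReal (Real.pi * (2 + (1 + 2 * R + ‖w‖) * T)))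
        = CT.g1 (β / 2) w * (ENNReal.ofReal ‖w‖ *
          ENNReal.ofReal (Real.pi * (2 + (1 + 2 * R + ‖w‖) * T))) := by ring
      _ ≤ CT.g1 (β / 2) w * (ENNReal.ofReal (Real.pi * (2 + (1 + 2 * R) * T)) *
          ENNReal.ofReal ((1 + ‖w‖) ^ 3)) := by
          refine mul_le_mul_right ?_ _
          rw [← ENNReal.ofReal_mul (norm_nonneg _), ← ENNReal.ofReal_mul (by positivity)]
          apply ENNReal.ofReal_le_ofReal
          have h3 := norm_nonneg w
          have h4 : 2 + (1 + 2 * R + ‖w‖) * T ≤ (2 + (1 + 2 * R) * T) * (1 + ‖w‖) := by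
            have : 0 ≤ R * T * ‖w‖ := by positivity
            nlinarith
          calc ‖w‖ * (Real.pi * (2 + (1 + 2 * R + ‖w‖) * T))
              ≤ (1 + ‖w‖) * (Real.pi * ((2 + (1 + 2 * R) * T) * (1 + ‖w‖))) := by
                gcongr
                linarith
            _ = Real.pi * (2 + (1 + 2 * R) * T) * (1 + ‖w‖) ^ 2 := by ring
            _ ≤ Real.pi * (2 + (1 + 2 * R) * T) * (1 + ‖w‖) ^ 3 := by
                refine mul_le_mul_of_nonneg_left ?_ (by positivity)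
                exact pow_le_pow_right₀ (by linarith) (by norm_num)
      _ = _ := by ring
  · filter_upwards [e3_ne_zero_ae] with w hw
    -- the inner limit
    have hin := tendsto_lintegral_filter_of_dominated_convergence (μ := kappa w)
      (l := 𝓝[>] (0 : ℝ)) (F := fun ε ρ => ENNReal.ofReal (2 * ε) +
        ENNReal.ofReal (1 + 2 * R + ‖w‖) * ENNReal.ofReal (min (ε * drn Φ ρ w) T))
      (f := fun _ => 0) (fun _ => ENNReal.ofReal (2 + (1 + 2 * R + ‖w‖) * T)) ?_ ?_ ?_ ?_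
    · rw [lintegral_zero] at hin
      have h1 := ENNReal.Tendsto.const_mul (a := gw (β / 2) w) hin
        (Or.inr ENNReal.ofReal_ne_top)
      have h2 := ENNReal.Tendsto.const_mul (a := ‖w‖ₑ) h1 (Or.inr enorm_ne_top)
      simpa only [mul_zero] using h2
    · refine Eventually.of_forall fun ε => ?_
      have h2 : Measurable fun ρ : E3 => min (ε * drn Φ ρ w) T :=
        (((measurable_drn hΦ).comp (measurable_id.prodMk measurable_const)).const_mul
          ε).min measurable_const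
      exact (h2.ennreal_ofReal.const_mul _).const_add _
    · filter_upwards [hev] with ε hε
      refine Eventually.of_forall fun ρ => ?_
      rw [← ENNReal.ofReal_mul (hA w)]
      refine (add_le_add (ENNReal.ofReal_le_ofReal (show 2 * ε ≤ 2 by linarith [hε.2]))
        (ENNReal.ofReal_le_ofReal (mul_le_mul_of_nonneg_left (min_le_right _ _) (hA w)))).trans ?_
      rw [← ENNReal.ofReal_add (by norm_num) (mul_nonneg (hA w) hT.le)]
    · rw [lintegral_const]
      exact ENNReal.mul_ne_top ENNReal.ofReal_ne_top (measure_ne_top _ _)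
    · refine Eventually.of_forall fun ρ => ?_
      have h0 : Tendsto (fun ε : ℝ => ε) (𝓝[>] 0) (𝓝 0) := nhdsWithin_le_nhds
      have h1 : Tendsto (fun ε : ℝ => ENNReal.ofReal (2 * ε)) (𝓝[>] 0) (𝓝 0) := by
        have := ENNReal.tendsto_ofReal (h0.const_mul 2)
        simpa using this
      have h2 : Tendsto (fun ε : ℝ => ENNReal.ofReal (min (ε * drn Φ ρ w) T)) (𝓝[>] 0)
          (𝓝 0) := by
        have h3 : Tendsto (fun ε : ℝ => min (ε * drn Φ ρ w) T) (𝓝[>] 0)
            (𝓝 (min (0 * drn Φ ρ w) T)) := (h0.mul_const _).min tendsto_const_nhds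
        have h4 := ENNReal.tendsto_ofReal h3
        rw [zero_mul, min_eq_left hT.le, ENNReal.ofReal_zero] at h4
        exact h4
      have h3 := ENNReal.Tendsto.const_mul (a := ENNReal.ofReal (1 + 2 * R + ‖w‖)) h2
        (Or.inr ENNReal.ofReal_ne_top)
      rw [mul_zero] at h3
      simpa only [add_zero] using h1.add h3

/-- The rate of the fast lines. -/
theorem Jv_le_far {β T : ℝ} (hT : 0 ≤ T) (hε1 : ε ≤ 1) (v : E3) :
    Jv Φ ε β T v ≤ ENNReal.ofReal (Real.pi * (2 + T) * (1 + ‖v‖) ^ 2) * ML.I3 β := by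
  unfold Jv ML.I3
  rw [← lintegral_const_mul' _ _ ENNReal.ofReal_ne_top]
  refine lintegral_mono fun u => ?_
  by_cases hu : v - u = 0
  · rw [hu, enorm_zero, zero_mul]
    exact zero_le
  have hv := norm_nonneg v
  have hu0 := norm_nonneg u
  refine (mul_le_mul_right (mul_le_mul_right (kappa_inner_le hT hε1 (by positivity) hu) _) _).trans ?_
  have h1 : ‖v - u‖ₑ = ENNReal.ofReal ‖v - u‖ := (ofReal_norm _).symm
  have h2 : gw β u = CT.g1 β u := rfl
  rw [h1, h2]
  calc ENNReal.ofReal ‖v - u‖ * (CT.g1 β u *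
        ENNReal.ofReal (Real.pi * (2 + (1 + ‖v‖ + ‖u‖) * T)))
      = CT.g1 β u * (ENNReal.ofReal ‖v - u‖ *
        ENNReal.ofReal (Real.pi * (2 + (1 + ‖v‖ + ‖u‖) * T))) := by ring
    _ ≤ CT.g1 β u * (ENNReal.ofReal (Real.pi * (2 + T) * (1 + ‖v‖) ^ 2) *
        ENNReal.ofReal ((1 + ‖u‖) ^ 3)) := by
        refine mul_le_mul_right ?_ _
        rw [← ENNReal.ofReal_mul (norm_nonneg _), ← ENNReal.ofReal_mul (by positivity)]
        apply ENNReal.ofReal_le_ofReal
        have h3 : ‖v - u‖ ≤ (1 + ‖v‖) * (1 + ‖u‖) := by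
          have := norm_sub_le v u
          nlinarith [mul_nonneg hv hu0]
        have h4 : 2 + (1 + ‖v‖ + ‖u‖) * T ≤ (2 + T) * ((1 + ‖v‖) * (1 + ‖u‖)) := by
          have h5 : 0 ≤ ‖v‖ * ‖u‖ := mul_nonneg hv hu0
          have h6 : 0 ≤ ‖v‖ * ‖u‖ * T := mul_nonneg h5 hT
          nlinarith
        calc ‖v - u‖ * (Real.pi * (2 + (1 + ‖v‖ + ‖u‖) * T))
            ≤ ((1 + ‖v‖) * (1 + ‖u‖)) * (Real.pi * ((2 + T) * ((1 + ‖v‖) * (1 + ‖u‖)))) := by
              gcongr
          _ = Real.pi * (2 + T) * (1 + ‖v‖) ^ 2 * (1 + ‖u‖) ^ 2 := by ring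
          _ ≤ Real.pi * (2 + T) * (1 + ‖v‖) ^ 2 * (1 + ‖u‖) ^ 3 := by
              refine mul_le_mul_of_nonneg_left ?_ (by positivity)
              exact pow_le_pow_right₀ (by linarith) (by norm_num)
    _ = _ := by ring

/-- **The rate is small with a Gaussian weight.** -/
theorem Jv_small (hΦ : IsPotential Φ) {β T c : ℝ} (hβ : 0 < β) (hT : 0 < T) (hc : 0 < c)
    {ρ : ℝ≥0∞} (hρ : ρ ≠ 0) :
    ∀ᶠ ε in 𝓝[>] (0 : ℝ), ∀ v : E3, Jv Φ ε β T v ≤
      ρ * ENNReal.ofReal (Real.exp (c * ‖v‖ ^ 2)) := by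
  -- `(1+x)^2 ≤ K e^{(c/2) x^2}`
  set K := ker (c / 4) 1 ^ 2 with hK
  have hK1 : ∀ x : ℝ, 0 ≤ x → (1 + x) ^ 2 ≤ K * Real.exp (c / 2 * x ^ 2) := by
    intro x hx
    have h := one_add_mul_exp_le (x := x) (show 0 < c / 4 by positivity) one_pos
    rw [mul_one, neg_mul, Real.exp_neg, ← div_eq_mul_inv, div_le_iff₀ (Real.exp_pos _)] at h
    have h2 := pow_le_pow_left₀ (by positivity) h 2
    rw [mul_pow, ← Real.exp_nat_mul] at h2
    refine h2.trans (le_of_eq ?_)
    congr 2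
    push_cast
    ring
  have hK0 : 0 ≤ K := by positivity
  obtain ⟨R₀, hR₀⟩ := exists_trunc (x := ENNReal.ofReal (Real.pi * (2 + T) * K) * ML.I3 β)
    (ENNReal.mul_ne_top ENNReal.ofReal_ne_top (ML.I3_ne_top hβ)) hρ (a := c / 2)
    (by positivity) 0
  set R := max R₀ 0 with hR
  have hR0 : 0 ≤ R := le_max_right _ _
  have hRR := hR₀ R (le_max_left _ _)
  have h1 := ENNReal.Tendsto.const_mul (a := ENNReal.ofReal (Real.exp (β * R ^ 2)))
    (tendsto_JR hΦ hβ hT hR0) (Or.inr ENNReal.ofReal_ne_top)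
  rw [mul_zero] at h1
  filter_upwards [h1.eventually_le_const (pos_iff_ne_zero.2 hρ), Ioc_mem_nhdsGT one_pos]
    with ε h2 hε v
  rcases le_or_gt ‖v‖ R with hv | hv
  · refine (Jv_le_near hβ hv).trans (h2.trans ?_)
    refine le_mul_of_one_le_right' ?_
    rw [← ENNReal.ofReal_one]
    apply ENNReal.ofReal_le_ofReal
    rw [← Real.exp_zero]
    exact Real.exp_le_exp.2 (by positivity)
  · refine (Jv_le_far hT.le hε.2 v).trans ?_
    have h3 : Real.pi * (2 + T) * (1 + ‖v‖) ^ 2 ≤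
        Real.pi * (2 + T) * K * Real.exp (0 - c / 2 * R ^ 2) * Real.exp (c * ‖v‖ ^ 2) := by
      have h4 := hK1 ‖v‖ (norm_nonneg v)
      have h5 : Real.exp (c / 2 * ‖v‖ ^ 2) ≤
          Real.exp (0 - c / 2 * R ^ 2) * Real.exp (c * ‖v‖ ^ 2) := by
        rw [← Real.exp_add]
        apply Real.exp_le_exp.2
        have h6 : R ^ 2 ≤ ‖v‖ ^ 2 := by nlinarith
        nlinarith
      calc Real.pi * (2 + T) * (1 + ‖v‖) ^ 2
          ≤ Real.pi * (2 + T) * (K * (Real.exp (0 - c / 2 * R ^ 2) *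
            Real.exp (c * ‖v‖ ^ 2))) := by
            refine mul_le_mul_of_nonneg_left (h4.trans ?_) (by positivity)
            gcongr
        _ = _ := by ring
    calc ENNReal.ofReal (Real.pi * (2 + T) * (1 + ‖v‖) ^ 2) * ML.I3 β
        ≤ ENNReal.ofReal (Real.pi * (2 + T) * K * Real.exp (0 - c / 2 * R ^ 2) *
          Real.exp (c * ‖v‖ ^ 2)) * ML.I3 β :=
          mul_le_mul_left (ENNReal.ofReal_le_ofReal h3) _
      _ = (ENNReal.ofReal (Real.pi * (2 + T) * K) * ML.I3 β *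
          ENNReal.ofReal (Real.exp (0 - c / 2 * R ^ 2))) *
          ENNReal.ofReal (Real.exp (c * ‖v‖ ^ 2)) := by
          rw [ENNReal.ofReal_mul (by positivity), ENNReal.ofReal_mul (by positivity)]
          ring
      _ ≤ _ := mul_le_mul_left hRR _

end Vale.Agent.P119.PB
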