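import Vale.Agent.P119.PB.IrrLim2
import Vale.Agent.P119.PB.Exc5

/-!
# P119, block PROB: irregular first contacts are negligible (`helper758`)

* **`irr_small`**: for a free line with a Gaussian weight, the probability of an irregular first
  contact with the gas tends to zero, uniformly in the birth time and the horizon;
* **`irr_Nm`**: the same for the norm of the operator bounds (the first term of `Exc5`);
* **`irr_typI`**: the same integrated with the typical law of the partners, with a polynomial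
  weight.
-/

open MeasureTheory Set Filter Topology Metric ProbabilityTheory
open scoped ENNReal

namespace Vale.Agent.P119.PB

open KU FL M CTree RB AU

variable {Φ : E3 → ℝ} {ε b : ℝ} {L : ℕ} {f₀ : Ph → ℝ} {κ : ℝ}

/-- The probability of an irregular first contact. -/
noncomputable def prIrr (Φ : E3 → ℝ) (ε : ℝ) (L : ℕ) (f₀ : Ph → ℝ) (t : ℝ) (σ : Src) : ℝ≥0∞ :=
  ∫⁻ c, ind (FB.Irr Φ ε L (wS (GC.pts c)) σ t) ∂(GC.PP f₀ ε)

theorem measurable_prIrr (hΦ : IsPotential Φ) (hε : 0 < ε) [SFinite (GC.PP f₀ ε)] (t : ℝ) :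
    Measurable (prIrr Φ ε L f₀ t) := by
  have h : Measurable fun q : Src × GC.Conf Ph => ind (FB.Irr Φ ε L (wS (GC.pts q.2)) q.1 t) :=
    measurable_ind (RM.measurableSet_Irr hΦ hε (RM.rs_wS measurable_snd) measurable_fst
      measurable_const)
  exact h.lintegral_prod_right'

/-- Birth contacts, in expectation. -/
theorem birth_le (hg : GoodDatum f₀ κ) (hε : 0 < ε) (K : ℝ≥0∞) :
    ∫⁻ c, ENNReal.ofReal (ε ^ 3) * K * (((wS (GC.pts c)).card : ℕ) : ℝ≥0∞) ∂(GC.PP f₀ ε) ≤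
      ENNReal.ofReal ε * K := by
  have h1 : ∀ c : GC.Conf Ph, (((wS (GC.pts c)).card : ℕ) : ℝ≥0∞) =
      ((GC.pts c).card : ℝ≥0∞) := fun c => by rw [card_wS]
  simp only [h1]
  rw [lintegral_const_mul _ measurable_card_pts]
  have h2 := lintegral_card_le (ε := ε) hg hε.le
  have h3 := muE_mul hε
  calc ENNReal.ofReal (ε ^ 3) * K * ∫⁻ c, ((GC.pts c).card : ℝ≥0∞) ∂(GC.PP f₀ ε)
      ≤ ENNReal.ofReal (ε ^ 3) * K * muE ε := by gcongr
    _ = ENNReal.ofReal ε * K * (muE ε * ENNReal.ofReal (ε ^ 2)) := by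
        rw [show ε ^ 3 = ε * ε ^ 2 by ring, ENNReal.ofReal_mul hε.le]
        ring
    _ = _ := by rw [h3, mul_one]

/-- The bound in expectation, before the limit. -/
theorem irr_le (hΦ : IsPotential Φ) (hg : GoodDatum f₀ κ) (hε : 0 < ε) (hb : 0 < b) {s t T : ℝ}
    (htT : t ≤ T) (n : ℕ) :
    ∫⁻ z : Ph, gw b z.2 * prIrr Φ ε L f₀ t (s, z, n) ≤
      ENNReal.ofReal ε * (bv * ML.I3 b * 3) +
        ENNReal.ofReal (4 * ε ^ 2) * Cd b * ∫⁻ c, ∑ p ∈ prs Φ ε L (wS (GC.pts c)) t,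
          Psi Φ ε T (ln Φ ε p.1, ln Φ ε p.2) ∂(GC.PP f₀ ε) := by
  have := GC.isFiniteMeasure_inten (ε := ε) hg
  have := GC.isProbability_PP (ε := ε) hg
  have hm : Measurable fun q : Ph × GC.Conf Ph =>
      gw b q.1.2 * ind (FB.Irr Φ ε L (wS (GC.pts q.2)) (s, q.1, n) t) :=
    ((measurable_gw b).comp measurable_fst.snd).mul (measurable_ind
      (RM.measurableSet_Irr hΦ hε (RM.rs_wS measurable_snd)
        (measurable_const.prodMk (measurable_fst.prodMk measurable_const)) measurable_const))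
  have h1 : ∫⁻ z : Ph, gw b z.2 * prIrr Φ ε L f₀ t (s, z, n) =
      ∫⁻ c, (∫⁻ z : Ph, gw b z.2 * ind (FB.Irr Φ ε L (wS (GC.pts c)) (s, z, n) t))
        ∂(GC.PP f₀ ε) := by
    rw [← lintegral_lintegral_swap hm.aemeasurable]
    refine lintegral_congr fun z => ?_
    have hm2 : Measurable fun c : GC.Conf Ph =>
        ind (FB.Irr Φ ε L (wS (GC.pts c)) (s, z, n) t) :=
      measurable_ind (RM.measurableSet_Irr hΦ hε (RM.rs_wS measurable_id) measurable_const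
        measurable_const)
    rw [lintegral_const_mul _ hm2]
    rfl
  rw [h1]
  refine (lintegral_mono fun c => lintegral_irr_le (b := b) hΦ hε hb htT n
    (wS (GC.pts c))).trans ?_
  have hcm : Measurable fun c : GC.Conf Ph => ENNReal.ofReal (ε ^ 3) * (bv * ML.I3 b) * 3 *
      (((wS (GC.pts c)).card : ℕ) : ℝ≥0∞) := by
    have h2 : ∀ c : GC.Conf Ph, (((wS (GC.pts c)).card : ℕ) : ℝ≥0∞) =
        ((GC.pts c).card : ℝ≥0∞) := fun c => by rw [card_wS]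
    simp only [h2]
    exact measurable_card_pts.const_mul _
  rw [lintegral_add_left hcm]
  refine add_le_add ?_ ?_
  · have h3 := birth_le hg hε (bv * ML.I3 b * 3)
    refine le_trans (le_of_eq ?_) h3
    refine lintegral_congr fun c => ?_
    ring
  · have h4 : ∀ c : GC.Conf Ph, ∑ p ∈ prs Φ ε L (wS (GC.pts c)) t,
        ENNReal.ofReal (4 * ε ^ 2) * Cd b * Psi Φ ε T (ln Φ ε p.1, ln Φ ε p.2) =
        ENNReal.ofReal (4 * ε ^ 2) * Cd b * ∑ p ∈ prs Φ ε L (wS (GC.pts c)) t,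
          Psi Φ ε T (ln Φ ε p.1, ln Φ ε p.2) := fun c => by rw [Finset.mul_sum]
    simp only [h4]
    rw [lintegral_const_mul' _ _ (ENNReal.mul_ne_top ENNReal.ofReal_ne_top (Cd_ne_top b))]

/-- **Irregular first contacts are negligible.** -/
theorem irr_small (hΦ : IsPotential Φ) (hg : GoodDatum f₀ κ) {b₀ T M₀ : ℝ}
    (hb₀ : 0 < b₀) (hT : 0 < T) (hM : 0 ≤ M₀)
    (hf : ∀ z, f₀ z ≤ M₀ * Real.exp (-b₀ * ‖z.2‖ ^ 2))
    (hmom : ∀ k : ℕ, ∫⁻ z, ML.pw k z.2 ∂(law f₀) ≠ ∞) (L : ℕ) (hb : 0 < b) {ρ : ℝ}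
    (hρ : 0 < ρ) :
    ∀ᶠ ε in 𝓝[>] (0 : ℝ), ∀ t ≤ T, ∀ (s : ℝ) (n : ℕ),
      ∫⁻ z : Ph, gw b z.2 * prIrr Φ ε L f₀ t (s, z, n) ≤ ENNReal.ofReal ρ := by
  -- the constants
  have hK1 : bv * ML.I3 b * 3 ≠ ∞ := ENNReal.mul_ne_top
    (ENNReal.mul_ne_top bv_ne_top (ML.I3_ne_top hb)) (by norm_num)
  set K₁ : ℝ := (bv * ML.I3 b * 3).toReal + 1 with hK₁
  set K₂ : ℝ := 4 * (Cd b).toReal + 1 with hK₂
  have hK₁0 : 0 < K₁ := by positivity
  have hK₂0 : 0 < K₂ := by positivity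
  have e1 : bv * ML.I3 b * 3 ≤ ENNReal.ofReal K₁ := by
    rw [← ENNReal.ofReal_toReal hK1]
    apply ENNReal.ofReal_le_ofReal
    rw [hK₁]
    linarith
  have e2 : ENNReal.ofReal 4 * Cd b ≤ ENNReal.ofReal K₂ := by
    rw [← ENNReal.ofReal_toReal (Cd_ne_top b), ← ENNReal.ofReal_mul (by norm_num)]
    apply ENNReal.ofReal_le_ofReal
    rw [hK₂]
    linarith
  have h1 := lintegral_prs_le hΦ hg hb₀ hT hM hf hmom L
    (show 0 < ρ / 2 / K₂ by positivity)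
  have h2 : ∀ᶠ ε in 𝓝[>] (0 : ℝ), ε ≤ ρ / 2 / K₁ := by
    have : (0 : ℝ) < ρ / 2 / K₁ := by positivity
    filter_upwards [Ioc_mem_nhdsGT this] with ε hε
    exact hε.2
  filter_upwards [h1, h2, self_mem_nhdsWithin] with ε h3 h4 hε t ht s n
  have hε' : 0 < ε := hε
  refine (irr_le hΦ hg hε' hb ht n).trans ?_
  have h5 : ENNReal.ofReal ε * (bv * ML.I3 b * 3) ≤ ENNReal.ofReal (ρ / 2) := by
    calc ENNReal.ofReal ε * (bv * ML.I3 b * 3)
        ≤ ENNReal.ofReal (ρ / 2 / K₁) * ENNReal.ofReal K₁ :=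
          mul_le_mul' (ENNReal.ofReal_le_ofReal h4) e1
      _ = ENNReal.ofReal (ρ / 2) := by
          rw [← ENNReal.ofReal_mul (by positivity)]
          congr 1
          field_simp
  have h6 : ENNReal.ofReal (4 * ε ^ 2) * Cd b * ∫⁻ c, ∑ p ∈ prs Φ ε L (wS (GC.pts c)) t,
      Psi Φ ε T (ln Φ ε p.1, ln Φ ε p.2) ∂(GC.PP f₀ ε) ≤ ENNReal.ofReal (ρ / 2) := by
    calc _ ≤ ENNReal.ofReal (4 * ε ^ 2) * Cd b *
          (muE ε * ENNReal.ofReal (ρ / 2 / K₂)) := by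
          gcongr
          exact h3 t ht
      _ = (muE ε * ENNReal.ofReal (ε ^ 2)) *
          ((ENNReal.ofReal 4 * Cd b) * ENNReal.ofReal (ρ / 2 / K₂)) := by
          rw [ENNReal.ofReal_mul (by norm_num)]
          ring
      _ ≤ ENNReal.ofReal K₂ * ENNReal.ofReal (ρ / 2 / K₂) := by
          rw [muE_mul hε', one_mul]
          gcongr
      _ = ENNReal.ofReal (ρ / 2) := by
          rw [← ENNReal.ofReal_mul hK₂0.le]
          congr 1
          field_simp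
  refine (add_le_add h5 h6).trans (le_of_eq ?_)
  rw [← ENNReal.ofReal_add (by positivity) (by positivity)]
  congr 1
  ring

/-- **Irregular first contacts in the norm of the operator bounds** (the first term of `Exc5`). -/
theorem irr_Nm (hΦ : IsPotential Φ) (hg : GoodDatum f₀ κ) {b₀ T M₀ : ℝ}
    (hb₀ : 0 < b₀) (hT : 0 < T) (hM : 0 ≤ M₀)
    (hf : ∀ z, f₀ z ≤ M₀ * Real.exp (-b₀ * ‖z.2‖ ^ 2))
    (hmom : ∀ k : ℕ, ∫⁻ z, ML.pw k z.2 ∂(law f₀) ≠ ∞) (L : ℕ) (hb : 0 < b) {l₁ l₂ B : ℝ}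
    {a : ℕ → ℝ} (hB0 : 0 < B) (hB : ∀ s ∈ Icc 0 T, ∀ n, wgt l₁ l₂ a s n ≤ B) {ρ : ℝ}
    (hρ : 0 < ρ) :
    ∀ᶠ ε in 𝓝[>] (0 : ℝ), ∀ t ∈ Icc 0 T,
      Nm b T l₁ l₂ a t (prIrr Φ ε L f₀ t) ≤ ENNReal.ofReal ρ := by
  filter_upwards [irr_small (b := b / 2) hΦ hg hb₀ hT hM hf hmom L (half_pos hb)
    (div_pos hρ hB0)] with ε h t ht
  refine (Nm_le_of_Y (B := B) (x := ENNReal.ofReal (ρ / B))
    (fun s hs n => hB s ⟨hs.1, hs.2.trans ht.2⟩ n) fun s hs n => ?_).trans (le_of_eq ?_)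
  · refine le_trans ?_ (h t ht.2 s n)
    exact lintegral_mono fun z => mul_le_mul_left
      (gw_anti (le_bt hb hT (hs.2.trans ht.2)) z.2) _
  · rw [← ENNReal.ofReal_mul hB0.le]
    congr 1
    field_simp

/-- The polynomial weight is absorbed by the Gaussian. -/
theorem exists_pw_gw (k : ℕ) (hb : 0 < b) : ∃ C : ℝ, 0 < C ∧ ∀ v : E3,
    gw b v * ML.pw k v ≤ ENNReal.ofReal C * gw (b / 2) v := by
  obtain ⟨C, hC, h⟩ := ML.pw_mul_g1_le k hb
  refine ⟨C.toReal + 1, by positivity, fun v => ?_⟩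
  have h1 := h v
  have e1 : CT.g1 b v = gw b v := rfl
  have e2 : CT.g1 (b / 2) v = gw (b / 2) v := rfl
  rw [e1, e2] at h1
  rw [mul_comm]
  refine h1.trans (mul_le_mul_left ?_ _)
  calc C = ENNReal.ofReal C.toReal := (ENNReal.ofReal_toReal hC).symm
    _ ≤ _ := ENNReal.ofReal_le_ofReal (by linarith)

/-- **Irregular first contacts of the partners**, with a polynomial weight, for the typical law. -/
theorem irr_typI (hΦ : IsPotential Φ) (hg : GoodDatum f₀ κ) {b₀ T M₀ : ℝ}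
    (hb₀ : 0 < b₀) (hT : 0 < T) (hM : 0 ≤ M₀)
    (hf : ∀ z, f₀ z ≤ M₀ * Real.exp (-b₀ * ‖z.2‖ ^ 2))
    (hmom : ∀ k : ℕ, ∫⁻ z, ML.pw k z.2 ∂(law f₀) ≠ ∞) (L : ℕ) (hb : 0 < b) (k : ℕ)
    {α : ℕ → ℝ≥0∞} (hα : ∑' d, α d ≠ ∞) {ρ : ℝ} (hρ : 0 < ρ) :
    ∀ᶠ ε in 𝓝[>] (0 : ℝ), ∀ t ≤ T, ∀ G : Src → ℝ≥0∞,
      (∀ σ, G σ ≤ ML.pw k σ.2.1.2 * prIrr Φ ε L f₀ t σ) →
      typI b T α G ≤ ENNReal.ofReal ρ := by
  obtain ⟨C, hC0, hC⟩ := exists_pw_gw k hb
  set A : ℝ := (∑' d, α d).toReal * (1 + T) + 1 with hA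
  have hA0 : 0 < A := by positivity
  filter_upwards [irr_small (b := b / 2) hΦ hg hb₀ hT hM hf hmom L (half_pos hb)
    (show 0 < ρ / A / C by positivity)] with ε h t ht G hG
  have h1 : ∀ (s : ℝ) (d : ℕ), ∫⁻ z : Ph, gw b z.2 * G (s, z, d) ≤
      ENNReal.ofReal (ρ / A) := by
    intro s d
    calc ∫⁻ z : Ph, gw b z.2 * G (s, z, d)
        ≤ ∫⁻ z : Ph, ENNReal.ofReal C * (gw (b / 2) z.2 * prIrr Φ ε L f₀ t (s, z, d)) := by
          refine lintegral_mono fun z => ?_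
          calc gw b z.2 * G (s, z, d)
              ≤ gw b z.2 * (ML.pw k z.2 * prIrr Φ ε L f₀ t (s, z, d)) :=
                mul_le_mul_right (hG _) _
            _ = gw b z.2 * ML.pw k z.2 * prIrr Φ ε L f₀ t (s, z, d) := by ring
            _ ≤ ENNReal.ofReal C * gw (b / 2) z.2 * prIrr Φ ε L f₀ t (s, z, d) :=
                mul_le_mul_left (hC _) _
            _ = _ := by ring
      _ = ENNReal.ofReal C * ∫⁻ z : Ph, gw (b / 2) z.2 * prIrr Φ ε L f₀ t (s, z, d) :=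
          lintegral_const_mul' _ _ ENNReal.ofReal_ne_top
      _ ≤ ENNReal.ofReal C * ENNReal.ofReal (ρ / A / C) := mul_le_mul_right (h t ht s d) _
      _ = _ := by
          rw [← ENNReal.ofReal_mul hC0.le]
          congr 1
          field_simp
  have h2 : ∀ d, (∫⁻ z : Ph, gw b z.2 * G (0, z, d)) +
      ∫⁻ s in Icc 0 T, ∫⁻ z : Ph, gw b z.2 * G (s, z, d) ≤
      ENNReal.ofReal (ρ / A) * ENNReal.ofReal (1 + T) := by
    intro d
    rw [ENNReal.ofReal_add zero_le_one hT.le, ENNReal.ofReal_one, mul_add, mul_one]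
    refine add_le_add (h1 0 d) ?_
    refine (lintegral_mono fun s => h1 s d).trans ?_
    rw [setLIntegral_const, Real.volume_Icc, sub_zero]
  unfold typI
  calc _ ≤ ∑' d, α d * (ENNReal.ofReal (ρ / A) * ENNReal.ofReal (1 + T)) :=
        ENNReal.tsum_le_tsum fun d => mul_le_mul_right (h2 d) _
    _ = (∑' d, α d) * (ENNReal.ofReal (ρ / A) * ENNReal.ofReal (1 + T)) :=
        ENNReal.tsum_mul_right
    _ = ENNReal.ofReal ((∑' d, α d).toReal * (ρ / A * (1 + T))) := by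
        rw [ENNReal.ofReal_mul ENNReal.toReal_nonneg, ENNReal.ofReal_toReal hα,
          ENNReal.ofReal_mul (by positivity)]
    _ ≤ ENNReal.ofReal ρ := by
        apply ENNReal.ofReal_le_ofReal
        have h3 : (∑' d, α d).toReal * (ρ / A * (1 + T)) =
            ρ * ((∑' d, α d).toReal * (1 + T) / A) := by ring
        rw [h3]
        have h4 : (∑' d, α d).toReal * (1 + T) / A ≤ 1 := by
          rw [div_le_one hA0, hA]
          linarith
        calc ρ * ((∑' d, α d).toReal * (1 + T) / A) ≤ ρ * 1 := by gcongr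
          _ = ρ := mul_one ρ

end Vale.Agent.P119.PB
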