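import Vale.Agent.P119.PB.Irr1
import Vale.Agent.P119.PB.Op6
import Vale.Agent.P119.RM.Exc

/-!
# P119, block PROB: irregular first contacts, part 2: one world (`helper758`)

* `tubeL`: the lines which come within `2ε` of the centre of mass of a colliding pair during the
  collision; `lintegral_tubeL`: its Gaussian mass is at most `4 ε² Cd Psi`;
* `ballL`: the lines which are within `ε` of a given point at a given time;
* `irr_cases`: an irregular first contact of the free line `z` with the world `w` is a contact at a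
  birth, a contact during a collision or a grazing contact;
* **`lintegral_irr_le`**: the Gaussian mass of the lines with an irregular first contact, in one
  world.
-/

open MeasureTheory Set Filter Topology Metric ProbabilityTheory
open scoped ENNReal

namespace Vale.Agent.P119.PB

open KU FL M CTree RB FB

variable {Φ : E3 → ℝ} {ε b : ℝ} {L : ℕ} {w : Finset Src}

/-! ### Tubes -/

/-- The lines which come within `2ε` of the centre of mass line of the pair `q` during the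
collision, in the time window `[s, t]`. -/
def tubeL (Φ : E3 → ℝ) (ε s t : ℝ) (q : Ph × Ph) : Set Ph :=
  lctc (2 * ε) s (min t (sepT Φ ε q)) (hitT ε q) fun r => (com q).1 + r • (com q).2

theorem norm_com_snd_le (q : Ph × Ph) : ‖(com q).2‖ ≤ ‖q.1.2‖ + ‖q.2.2‖ := by
  unfold com
  simp only
  rw [norm_smul]
  have h1 := norm_add_le q.1.2 q.2.2
  have h2 := norm_nonneg q.1.2
  have h3 := norm_nonneg q.2.2
  have h4 : ‖(2 : ℝ)⁻¹‖ = 2⁻¹ := by norm_num
  rw [h4]
  linarith

theorem lintegral_tubeL (hε : 0 < ε) {s t T : ℝ} (hb : 0 < b) {q : Ph × Ph}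
    (hq : Meets ε q ∧ hitT ε q ∈ Ioc 0 T) (htT : t ≤ T) :
    ∫⁻ z : Ph, gw b z.2 * (tubeL Φ ε s t q).indicator 1 z ≤
      ENNReal.ofReal (4 * ε ^ 2) * Cd b * Psi Φ ε T q := by
  set t' := min t (sepT Φ ε q) with ht'
  have h1 := lctc_family (b := b) (s := s) (t := t') (show 0 < 2 * ε by positivity) hb
    ({()} : Finset Unit) (fun _ => lineTarget t' (hitT ε q) (com q))
  rw [Finset.sum_singleton] at h1
  have h2 : {z : Ph | ∃ i ∈ ({()} : Finset Unit), z ∈ lctc (2 * ε) s t'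
      ((fun _ : Unit => lineTarget t' (hitT ε q) (com q)) i).a
      ((fun _ : Unit => lineTarget t' (hitT ε q) (com q)) i).Y} = tubeL Φ ε s t q := by
    ext z
    exact ⟨fun ⟨_, _, h⟩ => h, fun h => ⟨(), Finset.mem_singleton_self _, h⟩⟩
  rw [h2] at h1
  refine h1.trans ?_
  have h3 : (2 * ε) ^ 2 = 4 * ε ^ 2 := by ring
  rw [h3]
  refine mul_le_mul_right ?_ _
  have hP : Psi Φ ε T q = ENNReal.ofReal (2 * ε) + ENNReal.ofReal (1 + ‖q.1.2‖ + ‖q.2.2‖) *
      ENNReal.ofReal (min (sepT Φ ε q - hitT ε q) T) := by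
    unfold Psi
    rw [indicator_of_mem (show q ∈ {q : Ph × Ph | Meets ε q ∧ hitT ε q ∈ Ioc 0 T} from hq)]
  rw [hP]
  have h4 : (((lineTarget t' (hitT ε q) (com q)).cut s t' le_rfl).w (2 * ε)) =
      ENNReal.ofReal (2 * ε) + (1 + ‖(com q).2‖ₑ) *
        ENNReal.ofReal (t' - max (hitT ε q) s) := by
    unfold Target.w
    change _ + ∫⁻ τ in Icc (max (hitT ε q) s) t', (1 + ‖(com q).2‖ₑ) = _
    rw [setLIntegral_const, Real.volume_Icc]
  rw [h4]
  refine add_le_add le_rfl (mul_le_mul' ?_ (ENNReal.ofReal_le_ofReal ?_))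
  · rw [← ofReal_norm, ← ENNReal.ofReal_one, ← ENNReal.ofReal_add zero_le_one (norm_nonneg _)]
    apply ENNReal.ofReal_le_ofReal
    have := norm_com_snd_le q
    linarith
  · have h5 := le_max_left (hitT ε q) s
    have h6 := hq.2.1
    refine le_min ?_ ?_
    · have := min_le_right t (sepT Φ ε q)
      linarith
    · have := min_le_left t (sepT Φ ε q)
      linarith

/-- The lines which are within `ε` of the point `x` at the time `s`. -/
def ballL (ε s : ℝ) (x : E3) : Set Ph := {z | ‖(KU.free s z).1 - x‖ ≤ ε}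

theorem measurableSet_ballL (ε s : ℝ) (x : E3) : MeasurableSet (ballL ε s x) := by
  unfold ballL KU.free
  exact measurableSet_le (by fun_prop) measurable_const

theorem lintegral_ballL (hε : 0 < ε) (s : ℝ) (x : E3) :
    ∫⁻ z : Ph, gw b z.2 * (ballL ε s x).indicator 1 z ≤
      ENNReal.ofReal (ε ^ 3) * (bv * ML.I3 b) := by
  rw [← ML.lintegral_nearL b s x hε.le]
  refine lintegral_mono fun z => mul_le_mul_right ?_ _
  refine indicator_le_indicator_of_subset (fun z hz => ?_) (fun _ => zero_le) z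
  have h1 : ‖(KU.free s z).1 - x‖ ≤ ε := hz
  have h2 : ε ≤ ε * (1 + ‖z.2‖) := by
    have := mul_nonneg hε.le (norm_nonneg z.2)
    linarith
  exact h1.trans h2

/-! ### The cases -/

theorem grazeL_symm (hε : 0 < ε) {l l' : Ph} {s : ℝ}
    (h1 : ‖(KU.free s l).1 - (KU.free s l').1‖ = ε)
    (h2 : (inner ℝ ((KU.free s l).1 - (KU.free s l').1)
      ((KU.free s l).2 - (KU.free s l').2) : ℝ) = 0) : l ∈ ML.grazeL ε l' := by
  refine ML.mem_grazeL hε (s := s) ?_ ?_
  · rw [norm_sub_rev]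
    exact h1
  · rw [← neg_sub (KU.free s l).1, ← neg_sub (KU.free s l).2, inner_neg_neg]
    exact h2

/-- **The cases of an irregular first contact**, in a world with births `≥ 0`. -/
theorem irr_cases (hΦ : IsPotential Φ) (hε : 0 < ε) {s t : ℝ} {z : Ph} {n : ℕ}
    (h : Irr Φ ε L w (s, z, n) t) :
    (∃ S : CTree, live Φ ε L (w : Set Src) S s ∧ z ∈ ballL ε s (st Φ ε S s).1) ∨
    (∃ a ∈ w, z ∈ ballL ε a.1 (KU.free a.1 a.2.1).1) ∨
    (∃ p ∈ trs L w ×ˢ trs L w, ok Φ ε (node p.1 p.2) ∧ hitT ε (ln Φ ε p.1, ln Φ ε p.2) ≤ t ∧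
      z ∈ tubeL Φ ε s t (ln Φ ε p.1, ln Φ ε p.2)) ∨
    (∃ S ∈ trs L w, z ∈ ML.grazeL ε (ln Φ ε S)) := by
  obtain ⟨r, hr, hsr, S, hS, hc, h1 | h1 | ⟨h1, h2, h3⟩⟩ := h
  · -- contact at the birth of `z`
    left
    have h2 : r = s := h1
    subst h2
    exact ⟨S, hS, hc.le⟩
  · cases S with
    | leaf a =>
      right
      left
      have h2 : a.1 = r := le_antisymm hS.sig_le h1
      have h3 : a ∈ w := Finset.mem_coe.1 (hS.sub (by simp [leaves]))
      refine ⟨a, h3, ?_⟩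
      rw [h2]
      exact hc.le
    | node A B =>
      right
      right
      left
      set q : Ph × Ph := (ln Φ ε A, ln Φ ε B) with hq
      have hm : Meets ε q := hS.ok.2.2.2.1
      have hx : Exits Φ (rel ε q) := hS.ok.2.2.2.2.1
      have hr1 : hitT ε q ≤ r := hS.sig_le
      have hr2 : r ≤ sepT Φ ε q := h1
      have h3 := (ML.norm_pairLine_sub_com hΦ hε hm hx hr1 hr2).1
      have h4 : ‖(KU.free r z).1 - (pairLine Φ ε q r).1.1‖ ≤ ε := hc.le
      have hsub : (node A B).leaves ⊆ (w : Set Src) := hS.sub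
      have hdep : (node A B).depth ≤ L := hS.depth
      have hAB : max A.depth B.depth + 1 ≤ L := hdep
      refine ⟨(A, B), ?_, hS.ok, hr1.trans hr, r, ⟨max_le hr1 hsr, le_min hr hr2⟩, ?_⟩
      · rw [Finset.mem_product, mem_trs, mem_trs]
        refine ⟨⟨fun x hx => hsub (Or.inl hx), ?_⟩, fun x hx => hsub (Or.inr hx), ?_⟩
        · change A.depth ≤ L
          have := le_max_left A.depth B.depth
          omega
        · change B.depth ≤ L
          have := le_max_right A.depth B.depth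
          omega
      · have h5 : z.1 + r • z.2 - ((com q).1 + r • (com q).2) =
            ((KU.free r z).1 - (pairLine Φ ε q r).1.1) +
              ((pairLine Φ ε q r).1.1 - (KU.free r (com q)).1) := by
          unfold KU.free
          simp only
          abel
        change ‖z.1 + r • z.2 - ((com q).1 + r • (com q).2)‖ ≤ 2 * ε
        rw [h5]
        refine (norm_add_le _ _).trans ?_
        linarith
  · -- grazing contact
    right
    right
    right
    refine ⟨S, mem_trs.2 ⟨hS.sub, hS.depth⟩, ?_⟩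
    exact grazeL_symm hε h2 h3

/-! ### One world -/

open Classical in
/-- The colliding pairs of the world, with the first contact before `T`. -/
noncomputable def prs (Φ : E3 → ℝ) (ε : ℝ) (L : ℕ) (w : Finset Src) (T : ℝ) :
    Finset (CTree × CTree) :=
  (trs L w ×ˢ trs L w).filter fun p => ok Φ ε (node p.1 p.2) ∧
    hitT ε (ln Φ ε p.1, ln Φ ε p.2) ≤ T

theorem mem_prs {T : ℝ} {p : CTree × CTree} : p ∈ prs Φ ε L w T ↔
    p ∈ trs L w ×ˢ trs L w ∧ ok Φ ε (node p.1 p.2) ∧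
      hitT ε (ln Φ ε p.1, ln Φ ε p.2) ≤ T := by
  classical
  unfold prs
  rw [Finset.mem_filter]

theorem hitT_pos_of_ok (hΦ : IsPotential Φ) (hε : 0 < ε) {A B : CTree}
    (h : ok Φ ε (node A B)) : 0 < hitT ε (ln Φ ε A, ln Φ ε B) :=
  (M.ext_nonneg hΦ hε h.1).trans_lt h.2.2.2.2.2.1

/-- The position of the live tree with root `a` at the time `s`, if it does not begin at `s`. -/
theorem exists_pos (hΦ : IsPotential Φ) (hε : 0 < ε) (L : ℕ) (w : Finset Src) (s : ℝ) :
    ∃ x : Src → E3, ∀ S : CTree, live Φ ε L (w : Set Src) S s → S.root ∈ w ∧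
      ((st Φ ε S s).1 = (KU.free s S.root.2.1).1 ∨ (st Φ ε S s).1 = x S.root) := by
  classical
  have hw := w.finite_toSet
  have h : ∀ a : Src, ∃ x : E3, ∀ T : CTree, live Φ ε L (w : Set Src) T s → T.root = a →
      sig Φ ε T < s → (st Φ ε T s).1 = x := by
    intro a
    by_cases h0 : ∃ T : CTree, live Φ ε L (w : Set Src) T s ∧ T.root = a ∧ sig Φ ε T < s
    · obtain ⟨T₀, h1, h2, h3⟩ := h0
      refine ⟨(st Φ ε T₀ s).1, fun T h4 h5 h6 => ?_⟩
      rw [live_unique hΦ hε hw h4 h1 (h5.trans h2.symm) h6 h3]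
    · exact ⟨0, fun T h4 h5 h6 => absurd ⟨T, h4, h5, h6⟩ h0⟩
  choose x hx using h
  refine ⟨x, fun S hS => ⟨Finset.mem_coe.1 (hS.sub S.root_mem_leaves), ?_⟩⟩
  rcases live_sig hΦ hε hw hS with ⟨h1, h2⟩ | ⟨T₀, h1, h2, h3, h4⟩
  · left
    rw [h1]
    rfl
  · right
    rw [← h4, hx S.root T₀ h2 h1 h3]

theorem lintegral_le_two_sums {α β : Type*} {I : Finset α} {J : Finset β} {F : Ph → ℝ≥0∞}
    {g : α → Ph → ℝ≥0∞} {h : β → Ph → ℝ≥0∞} (hg : ∀ a ∈ I, Measurable (g a))
    (hh : ∀ b ∈ J, Measurable (h b)) (hF : ∀ᵐ z : Ph, F z ≤ ∑ a ∈ I, g a z + ∑ b ∈ J, h b z)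
    {K : ℝ≥0∞} (hK : ∀ a ∈ I, ∫⁻ z, g a z ≤ K) {M : β → ℝ≥0∞}
    (hM : ∀ b ∈ J, ∫⁻ z, h b z ≤ M b) : ∫⁻ z, F z ≤ K * (I.card : ℝ≥0∞) + ∑ b ∈ J, M b := by
  refine (lintegral_mono_ae hF).trans ?_
  rw [lintegral_add_left (Finset.measurable_sum _ hg), lintegral_finsetSum I hg,
    lintegral_finsetSum J hh]
  refine add_le_add ((Finset.sum_le_sum hK).trans (le_of_eq ?_)) (Finset.sum_le_sum hM)
  rw [Finset.sum_const, nsmul_eq_mul, mul_comm]

/-- The three balls at the root `a`. -/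
noncomputable def bal3 (ε b s : ℝ) (x : Src → E3) (a : Src) (z : Ph) : ℝ≥0∞ :=
  (gw b z.2 * (ballL ε s (KU.free s a.2.1).1).indicator 1 z +
    gw b z.2 * (ballL ε s (x a)).indicator 1 z) +
    gw b z.2 * (ballL ε a.1 (KU.free a.1 a.2.1).1).indicator 1 z

theorem measurable_bal1 (ε b θ : ℝ) (y : E3) : Measurable fun z : Ph =>
    gw b z.2 * (ballL ε θ y).indicator 1 z :=
  ((measurable_gw b).comp measurable_snd).mul
    (measurable_one.indicator (measurableSet_ballL ε θ y))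

theorem measurable_bal3 (ε b s : ℝ) (x : Src → E3) (a : Src) : Measurable (bal3 ε b s x a) :=
  ((measurable_bal1 _ _ _ _).add (measurable_bal1 _ _ _ _)).add (measurable_bal1 _ _ _ _)

theorem lintegral_bal3 (hε : 0 < ε) (s : ℝ) (x : Src → E3) (a : Src) :
    ∫⁻ z, bal3 ε b s x a z ≤ ENNReal.ofReal (ε ^ 3) * (bv * ML.I3 b) * 3 := by
  have hm : Measurable fun z : Ph => gw b z.2 * (ballL ε s (KU.free s a.2.1).1).indicator 1 z +
      gw b z.2 * (ballL ε s (x a)).indicator 1 z :=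
    (measurable_bal1 _ _ _ _).add (measurable_bal1 _ _ _ _)
  unfold bal3
  rw [lintegral_add_left hm, lintegral_add_left (measurable_bal1 _ _ _ _)]
  set K := ENNReal.ofReal (ε ^ 3) * (bv * ML.I3 b) with hK
  have e : K * 3 = K + K + K := by ring
  rw [e]
  exact add_le_add (add_le_add (lintegral_ballL hε _ _) (lintegral_ballL hε _ _))
    (lintegral_ballL hε _ _)

theorem bal3_1 {s : ℝ} {x : Src → E3} {a : Src} {z : Ph}
    (h : z ∈ ballL ε s (KU.free s a.2.1).1) : gw b z.2 ≤ bal3 ε b s x a z := by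
  unfold bal3
  refine le_add_right (le_add_right ?_)
  rw [indicator_of_mem h, Pi.one_apply, mul_one]

theorem bal3_2 {s : ℝ} {x : Src → E3} {a : Src} {z : Ph}
    (h : z ∈ ballL ε s (x a)) : gw b z.2 ≤ bal3 ε b s x a z := by
  unfold bal3
  refine le_add_right (le_add_left ?_)
  rw [indicator_of_mem h, Pi.one_apply, mul_one]

theorem bal3_3 {s : ℝ} {x : Src → E3} {a : Src} {z : Ph}
    (h : z ∈ ballL ε a.1 (KU.free a.1 a.2.1).1) : gw b z.2 ≤ bal3 ε b s x a z := by
  unfold bal3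
  refine le_add_left ?_
  rw [indicator_of_mem h, Pi.one_apply, mul_one]

attribute [local irreducible] bal3

/-- The tube of a pair. -/
noncomputable def tub1 (Φ : E3 → ℝ) (ε b s t : ℝ) (p : CTree × CTree) (z : Ph) : ℝ≥0∞ :=
  gw b z.2 * (tubeL Φ ε s t (ln Φ ε p.1, ln Φ ε p.2)).indicator 1 z

theorem measurable_tub1 (b s t : ℝ) (p : CTree × CTree) : Measurable (tub1 Φ ε b s t p) :=
  ((measurable_gw b).comp measurable_snd).mul
    (measurable_one.indicator (measurableSet_lctc (by fun_prop)))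

theorem tub1_of {s t : ℝ} {p : CTree × CTree} {z : Ph}
    (h : z ∈ tubeL Φ ε s t (ln Φ ε p.1, ln Φ ε p.2)) : gw b z.2 ≤ tub1 Φ ε b s t p z := by
  unfold tub1
  rw [indicator_of_mem h, Pi.one_apply, mul_one]

theorem lintegral_tub1 (hΦ : IsPotential Φ) (hε : 0 < ε) (hb : 0 < b) {s t T : ℝ} (htT : t ≤ T)
    {p : CTree × CTree} (hp : p ∈ prs Φ ε L w t) : ∫⁻ z, tub1 Φ ε b s t p z ≤
      ENNReal.ofReal (4 * ε ^ 2) * Cd b * Psi Φ ε T (ln Φ ε p.1, ln Φ ε p.2) := by
  have h1 := mem_prs.1 hp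
  exact lintegral_tubeL hε hb ⟨h1.2.1.2.2.2.1, hitT_pos_of_ok hΦ hε h1.2.1,
    h1.2.2.trans htT⟩ htT

attribute [local irreducible] tub1

/-- **The Gaussian mass of the lines with an irregular first contact, in one world.** -/
theorem lintegral_irr_le (hΦ : IsPotential Φ) (hε : 0 < ε) (hb : 0 < b) {s t T : ℝ}
    (htT : t ≤ T) (n : ℕ) (w : Finset Src) :
    ∫⁻ z : Ph, gw b z.2 * ind (FB.Irr Φ ε L w (s, z, n) t) ≤
      ENNReal.ofReal (ε ^ 3) * (bv * ML.I3 b) * 3 * (w.card : ℝ≥0∞) +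
        ∑ p ∈ prs Φ ε L w t, ENNReal.ofReal (4 * ε ^ 2) * Cd b *
          Psi Φ ε T (ln Φ ε p.1, ln Φ ε p.2) := by
  obtain ⟨x, hx⟩ := exists_pos hΦ hε L w s
  have hnull : ∀ᵐ z : Ph, ∀ S ∈ trs L w, z ∉ ML.grazeL ε (ln Φ ε S) := by
    rw [Finset.eventually_all]
    intro S _
    have h0 := ML.volume_grazeL (ε := ε) (ln Φ ε S)
    exact measure_eq_zero_iff_ae_notMem.1 h0
  refine lintegral_le_two_sums (g := bal3 ε b s x) (h := tub1 Φ ε b s t)
    (fun a _ => measurable_bal3 _ _ _ _ _) (fun p _ => measurable_tub1 _ _ _ _) ?_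
    (fun a _ => lintegral_bal3 hε s x a) fun p hp => lintegral_tub1 hΦ hε hb htT hp
  filter_upwards [hnull] with z hz
  by_cases h : FB.Irr Φ ε L w (s, z, n) t
  swap
  · rw [ind_of_not h, mul_zero]
    exact zero_le
  rw [ind_of h, mul_one]
  rcases irr_cases hΦ hε h with ⟨S, hS, h1⟩ | ⟨a, ha, h1⟩ | ⟨p, hp, h1, h2, h3⟩ | ⟨S, hS, h1⟩
  · obtain ⟨h2, h3⟩ := hx S hS
    have h4 : gw b z.2 ≤ bal3 ε b s x S.root z := by
      rcases h3 with h3 | h3
      · exact bal3_1 (h3 ▸ h1)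
      · exact bal3_2 (h3 ▸ h1)
    exact h4.trans (le_add_right (Finset.single_le_sum (f := fun a => bal3 ε b s x a z)
      (fun _ _ => zero_le) h2))
  · exact (bal3_3 h1).trans (le_add_right (Finset.single_le_sum
      (f := fun a => bal3 ε b s x a z) (fun _ _ => zero_le) ha))
  · have h4 : p ∈ prs Φ ε L w t := mem_prs.2 ⟨hp, h1, h2⟩
    exact (tub1_of h3).trans (le_add_left (Finset.single_le_sum
      (f := fun p => tub1 Φ ε b s t p z) (fun _ _ => zero_le) h4))
  · exact absurd h1 (hz S hS)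

end Vale.Agent.P119.PB
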