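import Vale.Agent.P119.PB.IrrLim1
import Vale.Agent.P119.PB.CardTE
import Vale.Agent.P119.IND.Mecke

/-!
# P119, block PROB: irregular first contacts, part 3: the colliding pairs (`helper758`)

* `Jv_poly`: the rate of `Irr1` is small with a polynomial weight;
* `Fpr`, `sum_prs_le`: the sum over the colliding pairs of a world is a sum over pairs of trees;
* **`lintegral_prs_le`**: the expectation of the sum of `Psi` over the colliding pairs is `o(μ)`.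
-/

open MeasureTheory Set Filter Topology Metric ProbabilityTheory
open scoped ENNReal

namespace Vale.Agent.P119.PB

open KU FL M CTree RB AU

variable {Φ : E3 → ℝ} {ε b : ℝ} {L : ℕ} {f₀ : Ph → ℝ} {κ : ℝ}

/-! ### The rate -/

/-- **The rate is small with a polynomial weight.** -/
theorem Jv_poly (hΦ : IsPotential Φ) {β T : ℝ} (hβ : 0 < β) (hT : 0 < T) {ρ : ℝ} (hρ : 0 < ρ) :
    ∀ᶠ ε in 𝓝[>] (0 : ℝ), ∀ v : E3, Jv Φ ε β T v ≤ ENNReal.ofReal ρ * ML.pw 2 v := by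
  -- the far part: `(1 + |v|)² ≤ (1 + |v|²)² 4 / (1 + R)`
  have hI := ML.I3_ne_top hβ
  set K : ℝ := Real.pi * (2 + T) * (ML.I3 β).toReal with hK
  have hK0 : 0 ≤ K := by positivity
  obtain ⟨R, hR1, hR2⟩ : ∃ R : ℝ, 0 ≤ R ∧ K * 4 ≤ ρ * R ^ 2 := by
    refine ⟨(K * 4) / ρ + 1, by positivity, ?_⟩
    have h1 : K * 4 ≤ ρ * ((K * 4) / ρ + 1) := by
      have : ρ * ((K * 4) / ρ + 1) = K * 4 + ρ := by field_simp
      linarith
    have h2 : (K * 4) / ρ + 1 ≤ ((K * 4) / ρ + 1) ^ 2 := by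
      have : 1 ≤ (K * 4) / ρ + 1 := by
        have : 0 ≤ (K * 4) / ρ := by positivity
        linarith
      nlinarith
    exact h1.trans (mul_le_mul_of_nonneg_left h2 hρ.le)
  have h1 := ENNReal.Tendsto.const_mul (a := ENNReal.ofReal (Real.exp (β * R ^ 2)))
    (tendsto_JR hΦ hβ hT hR1) (Or.inr ENNReal.ofReal_ne_top)
  rw [mul_zero] at h1
  have hρ' : 0 < ENNReal.ofReal ρ := ENNReal.ofReal_pos.2 hρ
  filter_upwards [h1.eventually_le_const hρ', Ioc_mem_nhdsGT one_pos] with ε h2 hε v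
  rcases le_or_gt ‖v‖ R with hv | hv
  · refine (Jv_le_near hβ hv).trans (h2.trans ?_)
    exact le_mul_of_one_le_right' (ML.one_le_pw 2 v)
  · refine (Jv_le_far hT.le hε.2 v).trans ?_
    have h3 : ML.I3 β = ENNReal.ofReal (ML.I3 β).toReal := (ENNReal.ofReal_toReal hI).symm
    rw [h3]
    unfold ML.pw
    rw [← ENNReal.ofReal_mul (by positivity), ← ENNReal.ofReal_mul hρ.le]
    apply ENNReal.ofReal_le_ofReal
    have hv0 := norm_nonneg v
    have h4 : (1 + ‖v‖) ^ 2 ≤ 4 * (1 + ‖v‖ ^ 2) := by nlinarith [sq_nonneg (‖v‖ - 1)]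
    have h5 : R ^ 2 ≤ 1 + ‖v‖ ^ 2 := by nlinarith
    calc Real.pi * (2 + T) * (1 + ‖v‖) ^ 2 * (ML.I3 β).toReal
        = K * (1 + ‖v‖) ^ 2 := by rw [hK]; ring
      _ ≤ K * (4 * (1 + ‖v‖ ^ 2)) := mul_le_mul_of_nonneg_left h4 hK0
      _ = (K * 4) * (1 + ‖v‖ ^ 2) := by ring
      _ ≤ (ρ * R ^ 2) * (1 + ‖v‖ ^ 2) := mul_le_mul_of_nonneg_right hR2 (by positivity)
      _ ≤ (ρ * (1 + ‖v‖ ^ 2)) * (1 + ‖v‖ ^ 2) := by gcongr
      _ = ρ * (1 + ‖v‖ ^ 2) ^ 2 := by ring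

/-! ### Pairs of trees -/

/-- The weight of a pair of trees. -/
noncomputable def Gpr (Φ : E3 → ℝ) (ε : ℝ) (T : ℝ) (A B : CTree) : ℝ≥0∞ :=
  {S | ok Φ ε S ∧ ext Φ ε S ≤ T}.indicator 1 A *
    ({S | ok Φ ε S ∧ ext Φ ε S ≤ T}.indicator 1 B * Psi Φ ε T (ln Φ ε A, ln Φ ε B))

theorem measurableSet_okExt (hΦ : IsPotential Φ) (hε : 0 < ε) (T : ℝ) :
    MeasurableSet {S : CTree | ok Φ ε S ∧ ext Φ ε S ≤ T} :=
  (measurableSet_ok hΦ hε.ne').inter
    (measurableSet_le (measurable_ext hΦ hε.ne') measurable_const)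

theorem measurable_Gpr (hΦ : IsPotential Φ) (hε : 0 < ε) (T : ℝ) :
    Measurable fun p : CTree × CTree => Gpr Φ ε T p.1 p.2 := by
  have h1 : Measurable fun p : CTree × CTree => ((ln Φ ε p.1, ln Φ ε p.2) : Ph × Ph) :=
    ((measurable_ln hΦ hε.ne').comp measurable_fst).prodMk
      ((measurable_ln hΦ hε.ne').comp measurable_snd)
  have h2 : Measurable fun S : CTree =>
      {S : CTree | ok Φ ε S ∧ ext Φ ε S ≤ T}.indicator (1 : CTree → ℝ≥0∞) S :=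
    measurable_one.indicator (measurableSet_okExt hΦ hε T)
  exact (h2.comp measurable_fst).mul ((h2.comp measurable_snd).mul
    ((measurable_Psi hΦ ε T).comp h1))

open Classical in
/-- The weight of a pair of fresh trees. -/
noncomputable def Fpr (Φ : E3 → ℝ) (ε : ℝ) (L : ℕ) (T : ℝ) (S : Fin 2 → CTree) : ℝ≥0∞ :=
  {S : Fin 2 → CTree | IND.Fresh Φ ε L S}.indicator (fun S => Gpr Φ ε T (S 0) (S 1)) S

theorem measurable_Fpr (hΦ : IsPotential Φ) (hε : 0 < ε) (L : ℕ) (T : ℝ) :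
    Measurable (Fpr Φ ε L T) := by
  have h1 : Measurable fun S : Fin 2 → CTree => ((S 0, S 1) : CTree × CTree) :=
    (measurable_pi_apply 0).prodMk (measurable_pi_apply 1)
  have h2 : Measurable fun S : Fin 2 → CTree => Gpr Φ ε T (S 0) (S 1) :=
    (measurable_Gpr hΦ hε T).comp h1
  exact h2.indicator (IND.measurableSet_fresh (L := L) hΦ hε.ne' 2)

open Classical in
/-- The sum over the colliding pairs of a world. -/
theorem sum_prs_le (hΦ : IsPotential Φ) (hε : 0 < ε) {t T : ℝ} (htT : t ≤ T) (w : Finset Ph) :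
    ∑ p ∈ prs Φ ε L (wS w) t, Psi Φ ε T (ln Φ ε p.1, ln Φ ε p.2) ≤
      ∑' S : Fin 2 → CTree, (if IND.InW (world (w : Set Ph)) S then Fpr Φ ε L T S else 0) := by
  set G : (Fin 2 → CTree) → ℝ≥0∞ := fun S =>
    if IND.InW (world (w : Set Ph)) S then Fpr Φ ε L T S else 0 with hG
  have h1 : ∀ p ∈ prs Φ ε L (wS w) t, Psi Φ ε T (ln Φ ε p.1, ln Φ ε p.2) =
      G ((finTwoArrowEquiv CTree).symm p) := by
    intro p hp
    obtain ⟨h2, h3, h4⟩ := mem_prs.1 hp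
    rw [Finset.mem_product, mem_trs, mem_trs, coe_wS] at h2
    obtain ⟨⟨h5, h6⟩, h7, h8⟩ := h2
    set S : Fin 2 → CTree := (finTwoArrowEquiv CTree).symm p with hS
    have e0 : S 0 = p.1 := rfl
    have e1 : S 1 = p.2 := rfl
    have hW : IND.InW (world (w : Set Ph)) S := by
      intro k
      fin_cases k
      · exact h5
      · exact h7
    have hF : IND.Fresh Φ ε L S := by
      refine ⟨fun k => ?_, fun k => ?_, fun j k hjk => ?_⟩
      · fin_cases k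
        · exact h3.1
        · exact h3.2.1
      · fin_cases k
        · exact h6
        · exact h8
      · fin_cases j <;> fin_cases k
        · exact absurd rfl hjk
        · exact h3.2.2.1
        · exact h3.2.2.1.symm
        · exact absurd rfl hjk
    have hA : p.1 ∈ {S : CTree | ok Φ ε S ∧ ext Φ ε S ≤ T} :=
      ⟨h3.1, (h3.2.2.2.2.2.1.le.trans h4).trans htT⟩
    have hB : p.2 ∈ {S : CTree | ok Φ ε S ∧ ext Φ ε S ≤ T} :=
      ⟨h3.2.1, (h3.2.2.2.2.2.2.le.trans h4).trans htT⟩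
    rw [hG]
    simp only
    rw [if_pos hW]
    unfold Fpr
    rw [indicator_of_mem (show S ∈ {S : Fin 2 → CTree | IND.Fresh Φ ε L S} from hF)]
    unfold Gpr
    rw [e0, e1, indicator_of_mem hA, indicator_of_mem hB, Pi.one_apply, Pi.one_apply, one_mul,
      one_mul]
  rw [Finset.sum_congr rfl h1, ← (finTwoArrowEquiv CTree).symm.tsum_eq G]
  exact ENNReal.sum_le_tsum _

theorem Fpr_ne_zero {T : ℝ} {S : Fin 2 → CTree} (h : Fpr Φ ε L T S ≠ 0) : IND.Fresh Φ ε L S := by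
  by_contra hcon
  exact h (indicator_of_notMem hcon _)

/-- The expectation of the sum over the colliding pairs. -/
theorem lintegral_prs_le_tree (hΦ : IsPotential Φ) (hg : GoodDatum f₀ κ) (hε : 0 < ε) {t T : ℝ}
    (htT : t ≤ T) :
    ∫⁻ c, ∑ p ∈ prs Φ ε L (wS (GC.pts c)) t, Psi Φ ε T (ln Φ ε p.1, ln Φ ε p.2) ∂(GC.PP f₀ ε) ≤
      ∫⁻ A, ∫⁻ B, Gpr Φ ε T A B ∂(tree (GC.inten f₀ ε) L) ∂(tree (GC.inten f₀ ε) L) := by
  classical
  have hfin : IsFiniteMeasure (GC.inten f₀ ε) := GC.isFiniteMeasure_inten hg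
  have h1 := IND.multi_extract_le (Φ := Φ) (ε := ε) (L := L) (ν := GC.inten f₀ ε)
    (C := GC.Cx ε) (GC.measurableSet_Cx ε) (GC.Cx_symm ε) (GC.Cx_irrefl hε.le) 2
    (F := Fpr Φ ε L T) (measurable_Fpr hΦ hε L T) fun S hS => Fpr_ne_zero hS
  refine (lintegral_mono fun c => sum_prs_le hΦ hε htT (GC.pts c)).trans (h1.trans ?_)
  have h2 : ∀ S : Fin 2 → CTree, Fpr Φ ε L T S ≤ Gpr Φ ε T (S 0) (S 1) := fun S =>
    indicator_le_self' (fun _ _ => zero_le) S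
  refine (lintegral_mono h2).trans (le_of_eq ?_)
  have h3 := (measurePreserving_finTwoArrow (tree (GC.inten f₀ ε) L)).lintegral_comp
    (measurable_Gpr hΦ hε T)
  have h4 := measurable_Gpr (Φ := Φ) hΦ hε T
  rw [← lintegral_prod _ h4.aemeasurable, ← h3]
  rfl

/-- The inner integral: the partners of one line. -/
theorem lintegral_partners_le (hΦ : IsPotential Φ) (hg : GoodDatum f₀ κ) {b₀ T M₀ : ℝ}
    (hb₀ : 0 < b₀) (hT : 0 ≤ T) (hM : 0 ≤ M₀)
    (hf : ∀ z, f₀ z ≤ M₀ * Real.exp (-b₀ * ‖z.2‖ ^ 2)) (L : ℕ) : ∃ C : ℝ≥0∞, C ≠ ∞ ∧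
      ∀ ε : ℝ, 0 < ε → ∀ l : Ph,
        ∫⁻ B, {S | ok Φ ε S ∧ ext Φ ε S ≤ T}.indicator 1 B * Psi Φ ε T (l, ln Φ ε B)
          ∂(tree (GC.inten f₀ ε) L) ≤ C * Jv Φ ε (b₀ / 2) T l.2 := by
  obtain ⟨C, hC, h⟩ := ML.crude_tree (T₀ := T) hΦ hg hb₀ hT hM hf L
  refine ⟨C * (1 + (L : ℝ≥0∞) * ENNReal.ofReal T) * ENNReal.ofReal T, ?_, fun ε hε l => ?_⟩
  · refine ENNReal.mul_ne_top (ENNReal.mul_ne_top hC (ENNReal.add_ne_top.2
      ⟨ENNReal.one_ne_top, ENNReal.mul_ne_top (ENNReal.natCast_ne_top L)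
        ENNReal.ofReal_ne_top⟩)) ENNReal.ofReal_ne_top
  have hF : Measurable fun σ : Src => Psi Φ ε T (l, σ.2.1) :=
    (measurable_Psi hΦ ε T).comp (measurable_const.prodMk measurable_snd.fst)
  have h1 := h ε hε (fun σ : Src => Psi Φ ε T (l, σ.2.1)) hF
  have h2 : ∫⁻ B, {S | ok Φ ε S ∧ ext Φ ε S ≤ T}.indicator 1 B * Psi Φ ε T (l, ln Φ ε B)
      ∂(tree (GC.inten f₀ ε) L) =
      ∫⁻ B in {S | ok Φ ε S ∧ ext Φ ε S ≤ T}, Psi Φ ε T (l, ln Φ ε B)
        ∂(tree (GC.inten f₀ ε) L) := by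
    rw [← lintegral_indicator (measurableSet_okExt hΦ hε T)]
    refine lintegral_congr fun B => ?_
    by_cases hB : B ∈ {S | ok Φ ε S ∧ ext Φ ε S ≤ T}
    · rw [indicator_of_mem hB, indicator_of_mem hB, Pi.one_apply, one_mul]
    · rw [indicator_of_notMem hB, indicator_of_notMem hB, zero_mul]
  rw [h2]
  refine h1.trans ?_
  have h3 : ∫⁻ z : Ph, CT.g1 (b₀ / 2) z.2 * Psi Φ ε T (l, z) =
      ENNReal.ofReal (ε ^ 2) * (ENNReal.ofReal T * Jv Φ ε (b₀ / 2) T l.2) :=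
    lintegral_Psi hΦ hε l
  simp only [h3]
  rw [setLIntegral_const, Real.volume_Icc, sub_zero, Finset.sum_const, Nat.card_Icc,
    add_tsub_cancel_right, nsmul_eq_mul]
  have h4 : ENNReal.ofReal (mu ε) * ENNReal.ofReal (ε ^ 2) = 1 := by
    have := muE_mul hε
    unfold muE at this
    exact this
  set J := Jv Φ ε (b₀ / 2) T l.2 with hJ
  calc ENNReal.ofReal (mu ε) * (C * (ENNReal.ofReal (ε ^ 2) * (ENNReal.ofReal T * J) +
        (L : ℝ≥0∞) * (ENNReal.ofReal (ε ^ 2) * (ENNReal.ofReal T * J) * ENNReal.ofReal T)))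
      = (ENNReal.ofReal (mu ε) * ENNReal.ofReal (ε ^ 2)) *
        (C * (1 + (L : ℝ≥0∞) * ENNReal.ofReal T) * ENNReal.ofReal T * J) := by ring
    _ = _ := by rw [h4, one_mul]
    _ ≤ _ := le_rfl

/-- **The expectation of the sum of `Psi` over the colliding pairs is `o(μ)`.** -/
theorem lintegral_prs_le (hΦ : IsPotential Φ) (hg : GoodDatum f₀ κ) {b₀ T M₀ : ℝ}
    (hb₀ : 0 < b₀) (hT : 0 < T) (hM : 0 ≤ M₀)
    (hf : ∀ z, f₀ z ≤ M₀ * Real.exp (-b₀ * ‖z.2‖ ^ 2))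
    (hmom : ∀ k : ℕ, ∫⁻ z, ML.pw k z.2 ∂(law f₀) ≠ ∞) (L : ℕ) {ρ : ℝ} (hρ : 0 < ρ) :
    ∀ᶠ ε in 𝓝[>] (0 : ℝ), ∀ t ≤ T,
      ∫⁻ c, ∑ p ∈ prs Φ ε L (wS (GC.pts c)) t, Psi Φ ε T (ln Φ ε p.1, ln Φ ε p.2)
        ∂(GC.PP f₀ ε) ≤ muE ε * ENNReal.ofReal ρ := by
  obtain ⟨C, hC, h1⟩ := lintegral_partners_le hΦ hg hb₀ hT.le hM hf L
  obtain ⟨C', hC', h2⟩ := ML.tree_poly_le hΦ hg hb₀ hT.le hM hf hmom L 2
  set K : ℝ := (C * C').toReal + 1 with hK
  have hK0 : 0 < K := by positivity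
  have hCK : C * C' ≤ ENNReal.ofReal K := by
    rw [← ENNReal.ofReal_toReal (ENNReal.mul_ne_top hC hC')]
    apply ENNReal.ofReal_le_ofReal
    rw [hK]
    linarith
  filter_upwards [Jv_poly hΦ (half_pos hb₀) hT (div_pos hρ hK0), self_mem_nhdsWithin]
    with ε hJ hε t htT
  have hε' : 0 < ε := hε
  refine (lintegral_prs_le_tree hΦ hg hε' htT).trans ?_
  have h3 : ∀ A : CTree, ∫⁻ B, Gpr Φ ε T A B ∂(tree (GC.inten f₀ ε) L) ≤
      {S | ok Φ ε S ∧ ext Φ ε S ≤ T}.indicator (fun A => C * (ENNReal.ofReal (ρ / K) *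
        ML.pw 2 (ln Φ ε A).2)) A := by
    intro A
    unfold Gpr
    by_cases hA : A ∈ {S | ok Φ ε S ∧ ext Φ ε S ≤ T}
    · rw [indicator_of_mem hA, indicator_of_mem hA, Pi.one_apply]
      simp only [one_mul]
      exact (h1 ε hε' _).trans (mul_le_mul_right (hJ _) _)
    · rw [indicator_of_notMem hA, indicator_of_notMem hA]
      simp only [zero_mul, lintegral_zero]
      exact le_rfl
  refine (lintegral_mono h3).trans ?_
  rw [lintegral_indicator (measurableSet_okExt hΦ hε' T), lintegral_const_mul' _ _ hC,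
    lintegral_const_mul' _ _ ENNReal.ofReal_ne_top]
  calc C * (ENNReal.ofReal (ρ / K) * ∫⁻ A in {S | ok Φ ε S ∧ ext Φ ε S ≤ T},
        ML.pw 2 (ln Φ ε A).2 ∂(tree (GC.inten f₀ ε) L))
      ≤ C * (ENNReal.ofReal (ρ / K) * (muE ε * C')) := by
        gcongr
        exact h2 ε hε'
    _ = muE ε * (ENNReal.ofReal (ρ / K) * (C * C')) := by ring
    _ ≤ muE ε * (ENNReal.ofReal (ρ / K) * ENNReal.ofReal K) := by gcongr
    _ = muE ε * ENNReal.ofReal ρ := by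
        rw [← ENNReal.ofReal_mul (by positivity)]
        congr 2
        field_simp

end Vale.Agent.P119.PB
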