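import Vale.Agent.P119.PB.IrrUm
import Vale.Agent.P119.RM.Exs

/-!
# P119, block PROB: colliding histories of the gas near a fixed line (`helper758`)

* `IrM.IrrD`, `IrM.IrrN`: some history of the gas (no liveness) is colliding at the time `s ≤ t`, and
  its root is then within the distance `r` (resp. `2ε`) of the line `p`;
* `RM.measurableSet_IrrD`, `RM.measurableSet_IrrN`: measurability;
* **`irrN_small`**: the probability is at most `ρ (1 + |v|²)` for small `ε`, uniformly in the line `p`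
  with the velocity `v`, and in the horizon.
-/

open MeasureTheory Set Filter Topology Metric ProbabilityTheory
open scoped ENNReal

namespace Vale.Agent.P119.PB

open KU FL M CTree RB AU FB

variable {Φ : E3 → ℝ} {ε b r t : ℝ} {L : ℕ} {f₀ : Ph → ℝ} {κ : ℝ}

namespace IrM

/-- A colliding history of the world has its root at the distance at most `r` of the line `p`. -/
def IrrD (Φ : E3 → ℝ) (ε : ℝ) (L : ℕ) (r : ℝ) (U : Finset Src) (p : Ph) (t : ℝ) : Prop :=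
  ∃ y, ok Φ ε y ∧ y.depth ≤ L ∧ y.leaves ⊆ (U : Set Src) ∧ ∃ s ≤ t, 0 ≤ s ∧ sig Φ ε y ≤ s ∧
    s ≤ ext Φ ε y ∧ (∃ a b, y = node a b) ∧ ‖(st Φ ε y s).1 - (KU.free s p).1‖ ≤ r

/-- A colliding history of the world has its root at the distance at most `2ε` of the line `p`. -/
def IrrN (Φ : E3 → ℝ) (ε : ℝ) (L : ℕ) (U : Finset Src) (p : Ph) (t : ℝ) : Prop :=
  ∃ y, ok Φ ε y ∧ y.depth ≤ L ∧ y.leaves ⊆ (U : Set Src) ∧ ∃ s ≤ t, 0 ≤ s ∧ sig Φ ε y ≤ s ∧
    s ≤ ext Φ ε y ∧ (∃ a b, y = node a b) ∧ ‖(st Φ ε y s).1 - (KU.free s p).1‖ ≤ 2 * ε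

theorem irrN_iff {U : Finset Src} {p : Ph} :
    IrrN Φ ε L U p t ↔ IrrD Φ ε L (2 * ε) U p t := Iff.rfl

/-! ### A cover of the ball -/

/-- The ball of radius `2` is covered by finitely many balls of radius `1`. -/
theorem exists_cover : ∃ A : Finset E3, ∀ v : E3, ‖v‖ ≤ 2 → ∃ c ∈ A, ‖v - c‖ ≤ 1 := by
  obtain ⟨t, -, ht, hc⟩ := (isCompact_closedBall (0 : E3) 2).finite_cover_balls one_pos
  refine ⟨ht.toFinset, fun v hv => ?_⟩
  have h1 := hc (mem_closedBall_zero_iff.2 hv)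
  rw [mem_iUnion₂] at h1
  obtain ⟨c, hct, h2⟩ := h1
  refine ⟨c, ht.mem_toFinset.2 hct, ?_⟩
  rw [← dist_eq_norm]
  exact (mem_ball.1 h2).le

/-- The line `p`, translated. -/
def trl (ε : ℝ) (c : E3) (p : Ph) : Ph := (p.1 + ε • c, p.2)

/-- **The radius `2ε` from the radius `ε`.** -/
theorem IrrN.exists_trl (hε : 0 < ε) {A : Finset E3}
    (hA : ∀ v : E3, ‖v‖ ≤ 2 → ∃ c ∈ A, ‖v - c‖ ≤ 1) {U : Finset Src} {p : Ph}
    (h : IrrN Φ ε L U p t) : ∃ c ∈ A, IrrD Φ ε L ε U (trl ε c p) t := by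
  obtain ⟨y, h1, h2, h3, s, h4, h5, h6, h7, h8, h9⟩ := h
  obtain ⟨c, hc, h10⟩ := hA (ε⁻¹ • ((st Φ ε y s).1 - (KU.free s p).1)) (by
    rw [norm_smul, norm_inv, Real.norm_of_nonneg hε.le, inv_mul_le_iff₀ hε]
    linarith)
  refine ⟨c, hc, y, h1, h2, h3, s, h4, h5, h6, h7, h8, ?_⟩
  have e : (st Φ ε y s).1 - (KU.free s (trl ε c p)).1 =
      ε • (ε⁻¹ • ((st Φ ε y s).1 - (KU.free s p).1) - c) := by
    rw [smul_sub, smul_inv_smul₀ hε.ne']
    unfold KU.free trl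
    simp only
    abel
  rw [e, norm_smul, Real.norm_of_nonneg hε.le]
  exact mul_le_of_le_one_right hε.le h10

/-- The colliding pair of lines. -/
theorem IrrD.exists_prs (hΦ : IsPotential Φ) (hε : 0 < ε) {U : Finset Src} {p : Ph}
    (h : IrrD Φ ε L ε U p t) :
    ∃ q ∈ prs Φ ε L U t, p ∈ tubeL Φ ε 0 t (ln Φ ε q.1, ln Φ ε q.2) := by
  obtain ⟨y, hok, hdep, hsub, s, hs, h0, hsig, hext, ⟨A, B, rfl⟩, hc⟩ := h
  set q : Ph × Ph := (ln Φ ε A, ln Φ ε B) with hq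
  have hmt : Meets ε q := hok.2.2.2.1
  have hx : Exits Φ (rel ε q) := hok.2.2.2.2.1
  have hr1 : hitT ε q ≤ s := hsig
  have hr2 : s ≤ sepT Φ ε q := hext
  have h3 := (ML.norm_pairLine_sub_com hΦ hε hmt hx hr1 hr2).1
  have h4 : ‖(KU.free s p).1 - (pairLine Φ ε q s).1.1‖ ≤ ε := by
    rw [norm_sub_rev]
    exact hc
  have hAB : max A.depth B.depth + 1 ≤ L := hdep
  refine ⟨(A, B), ?_, s, ⟨max_le hr1 h0, le_min hs hr2⟩, ?_⟩
  · refine mem_prs.2 ⟨?_, hok, hr1.trans hs⟩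
    rw [Finset.mem_product, mem_trs, mem_trs]
    refine ⟨⟨fun x hx => hsub (Or.inl hx), ?_⟩, fun x hx => hsub (Or.inr hx), ?_⟩
    · change A.depth ≤ L
      have := le_max_left A.depth B.depth
      omega
    · change B.depth ≤ L
      have := le_max_right A.depth B.depth
      omega
  · have h5 : p.1 + s • p.2 - ((com q).1 + s • (com q).2) =
        ((KU.free s p).1 - (pairLine Φ ε q s).1.1) +
          ((pairLine Φ ε q s).1.1 - (KU.free s (com q)).1) := by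
      unfold KU.free
      simp only
      abel
    change ‖p.1 + s • p.2 - ((com q).1 + s • (com q).2)‖ ≤ 2 * ε
    rw [h5]
    refine (norm_add_le _ _).trans ?_
    linarith

/-- The indicator. -/
theorem ind_irrD_le (hΦ : IsPotential Φ) (hε : 0 < ε) {T : ℝ} (htT : t ≤ T) {w : Finset Ph}
    {p : Ph} :
    ind (IrrD Φ ε L ε (wS w) p t) ≤ ∑ q ∈ prs Φ ε L (wS w) t,
        Gt Φ ε T 0 t p (ln Φ ε q.1, ln Φ ε q.2) := by
  by_cases h : IrrD Φ ε L ε (wS w) p t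
  swap
  · rw [ind_of_not h]
    exact zero_le
  rw [ind_of h]
  obtain ⟨q, hp, h3⟩ := h.exists_prs hΦ hε
  obtain ⟨h5, h6, h7⟩ := mem_prs.1 hp
  have h8 : Gt Φ ε T 0 t p (ln Φ ε q.1, ln Φ ε q.2) = 1 :=
    Gt_eq_one h6.2.2.2.1 (hitT_pos_of_ok hΦ hε h6) (h7.trans htT) h3
  have h9 : Gt Φ ε T 0 t p (ln Φ ε q.1, ln Φ ε q.2) ≤
      ∑ q ∈ prs Φ ε L (wS w) t, Gt Φ ε T 0 t p (ln Φ ε q.1, ln Φ ε q.2) :=
    Finset.single_le_sum (f := fun q : CTree × CTree =>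
      Gt Φ ε T 0 t p (ln Φ ε q.1, ln Φ ε q.2)) (fun _ _ => zero_le) hp
  rwa [h8] at h9

end IrM

end Vale.Agent.P119.PB

namespace Vale.Agent.P119.RM

open KU M CTree MM FB PB RB

variable {Φ : E3 → ℝ} {ε r : ℝ} {L : ℕ}
  {X : Type} [MeasurableSpace X] {W : X → Finset Src} {p : X → Ph} {t : X → ℝ}

/-- **Measurability.** -/
theorem measurableSet_IrrD (hΦ : IsPotential Φ) (hε : 0 < ε) (hW : RS fun x => (W x : Set Src))
    (hp : Measurable p) (ht : Measurable t) :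
    MeasurableSet {x | IrM.IrrD Φ ε L r (W x) (p x) (t x)} := by
  have hP := MPath.line hp
  have h1 := SC.exists_mem (A := fun x (S : CTree) => {s | ((ok Φ ε S ∧ S.depth ≤ L) ∧
      ∃ a b, S = node a b) ∧ sig Φ ε S ≤ s ∧ s ≤ ext Φ ε S ∧
      ‖(st Φ ε S s).1 - (KU.free s (p x)).1‖ - r ≤ 0})
    (RS.trees hW) fun S hS => by
    have he := meas_ext hΦ hε.ne' hS
    have hsg : Measurable fun x => sig Φ ε (S x) := (measurable_sig hΦ hε.ne').comp hS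
    have hok : MeasurableSet {x | (ok Φ ε (S x) ∧ (S x).depth ≤ L) ∧ ∃ a b, S x = node a b} :=
      ((hS (measurableSet_ok hΦ hε.ne')).inter
        ((measurable_depth.comp hS) (measurableSet_Iic (a := L)))).inter (hS measurableSet_isNode)
    have hQ := MPath.tree hΦ hε hS
    have m1 : ∀ s, Measurable fun x => ‖(st Φ ε (S x) s).1 - (KU.free s (p x)).1‖ - r :=
      fun s => ((hQ.meas s).fst.sub (hP.meas s).fst).norm.sub measurable_const
    have c1 : ∀ x, Continuous fun s => ‖(st Φ ε (S x) s).1 - (KU.free s (p x)).1‖ - r :=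
      fun x => ((continuous_fst.comp (hQ.cont x)).sub
        (continuous_fst.comp (hP.cont x))).norm.sub continuous_const
    exact (SC.cond hok).and ((SC.ge hsg).and ((SC.le he).and (SC.closed m1 c1)))
  have h2 := ((SC.ge (measurable_const (a := (0 : ℝ)))).and h1).exists_le ht
  refine h2.congr ?_
  ext x
  constructor
  · rintro ⟨s, hs, h3, S, h4, ⟨⟨h5, h6⟩, h7⟩, h8, h9, h10⟩
    exact ⟨S, h5, h6, h4, s, hs, h3, h8, h9, h7, by linarith⟩
  · rintro ⟨S, h5, h6, h4, s, hs, h3, h8, h9, h7, h10⟩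
    exact ⟨s, hs, h3, S, h4, ⟨⟨h5, h6⟩, h7⟩, h8, h9, by linarith⟩

theorem measurableSet_IrrN (hΦ : IsPotential Φ) (hε : 0 < ε) (hW : RS fun x => (W x : Set Src))
    (hp : Measurable p) (ht : Measurable t) :
    MeasurableSet {x | IrM.IrrN Φ ε L (W x) (p x) (t x)} :=
  measurableSet_IrrD (r := 2 * ε) hΦ hε hW hp ht

end Vale.Agent.P119.RM

namespace Vale.Agent.P119.PB

open KU FL M CTree RB AU FB IrM

variable {Φ : E3 → ℝ} {ε b r t : ℝ} {L : ℕ} {f₀ : Ph → ℝ} {κ : ℝ}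

/-- **Colliding histories of the gas near a fixed line.** -/
theorem irrN_small (hΦ : IsPotential Φ) (hg : GoodDatum f₀ κ) {b₀ T M₀ : ℝ}
    (hb₀ : 0 < b₀) (hT : 0 < T) (hM : 0 ≤ M₀)
    (hf : ∀ z, f₀ z ≤ M₀ * Real.exp (-b₀ * ‖z.2‖ ^ 2)) (L : ℕ) {ρ : ℝ} (hρ : 0 < ρ) :
    ∀ᶠ ε in 𝓝[>] (0 : ℝ), ∀ t ≤ T, ∀ p : Ph,
      ∫⁻ c, ind (IrrN Φ ε L (wS (GC.pts c)) p t) ∂(GC.PP f₀ ε) ≤
        ENNReal.ofReal ρ * ML.pw 1 p.2 := by
  obtain ⟨A, hA⟩ := exists_cover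
  set n : ℝ := (A.card : ℝ) + 1 with hn
  have hn0 : 0 < n := by positivity
  filter_upwards [pr_small hΦ hg hb₀ hT hM hf L (div_pos hρ hn0), self_mem_nhdsWithin] with ε b2 hε
    t ht p
  have hε' : 0 < ε := hε
  have h1 : ∀ c : GC.Conf Ph, ind (IrrN Φ ε L (wS (GC.pts c)) p t) ≤
      ∑ a ∈ A, ind (IrrD Φ ε L ε (wS (GC.pts c)) (trl ε a p) t) := by
    intro c
    by_cases h : IrrN Φ ε L (wS (GC.pts c)) p t
    swap
    · rw [ind_of_not h]
      exact zero_le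
    rw [ind_of h]
    obtain ⟨a, ha, h2⟩ := h.exists_trl hε' hA
    have h3 : ind (IrrD Φ ε L ε (wS (GC.pts c)) (trl ε a p) t) ≤
        ∑ a ∈ A, ind (IrrD Φ ε L ε (wS (GC.pts c)) (trl ε a p) t) :=
      Finset.single_le_sum (f := fun a => ind (IrrD Φ ε L ε (wS (GC.pts c)) (trl ε a p) t))
        (fun _ _ => zero_le) ha
    rwa [ind_of h2] at h3
  have hm : ∀ a ∈ A, Measurable fun c : GC.Conf Ph =>
      ind (IrrD Φ ε L ε (wS (GC.pts c)) (trl ε a p) t) := fun a _ =>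
    measurable_ind (RM.measurableSet_IrrD (r := ε) hΦ hε' (RM.rs_wS measurable_id)
      measurable_const measurable_const)
  refine (lintegral_mono h1).trans ?_
  rw [lintegral_finset_sum _ hm]
  have h2 : ∀ a ∈ A, ∫⁻ c, ind (IrrD Φ ε L ε (wS (GC.pts c)) (trl ε a p) t) ∂(GC.PP f₀ ε) ≤
      ENNReal.ofReal (ρ / n) * ML.pw 1 p.2 := by
    intro a _
    refine (lintegral_mono fun c => ind_irrD_le hΦ hε' ht).trans ?_
    exact b2 t ht ((0 : ℝ), trl ε a p, 0) le_rfl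
  refine (Finset.sum_le_sum h2).trans ?_
  rw [Finset.sum_const, nsmul_eq_mul, ← mul_assoc]
  refine mul_le_mul_left ?_ _
  rw [← ENNReal.ofReal_natCast, ← ENNReal.ofReal_mul (by positivity)]
  refine ENNReal.ofReal_le_ofReal ?_
  rw [← mul_div_assoc, div_le_iff₀ hn0]
  nlinarith

end Vale.Agent.P119.PB
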