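import Vale.Agent.P119.PB.IrrLim2
import Vale.Agent.P119.IND.Prog3

/-!
# P119, block PROB: contacts of a fixed line with colliding pairs (`helper758`)

* `crude_one`, `crude_two`: the crude bounds for functions of the root lines of one or two trees;
* `Gt`: the pairs of lines which collide near the fixed line `l`; `slice_Gt`: its integral over the
  translations;
* **`lintegral_Gt_le`**: the Gaussian mass of the pairs which collide near `l` is at most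
  `C ε⁴ (1 + |v|) ρ`.
-/

open MeasureTheory Set Filter Topology Metric ProbabilityTheory
open scoped ENNReal

namespace Vale.Agent.P119.PB

open KU FL M CTree RB AU

variable {Φ : E3 → ℝ} {ε b : ℝ} {L : ℕ} {f₀ : Ph → ℝ} {κ : ℝ}

namespace IrM

/-! ### Crude bounds -/

theorem crude_one (hΦ : IsPotential Φ) (hg : GoodDatum f₀ κ) {b₀ T M₀ : ℝ}
    (hb₀ : 0 < b₀) (hT : 0 ≤ T) (hM : 0 ≤ M₀)
    (hf : ∀ z, f₀ z ≤ M₀ * Real.exp (-b₀ * ‖z.2‖ ^ 2)) (L : ℕ) : ∃ C : ℝ≥0∞, C ≠ ∞ ∧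
      ∀ ε : ℝ, 0 < ε → ∀ F : Ph → ℝ≥0∞, Measurable F →
        ∫⁻ B, {S | ok Φ ε S ∧ ext Φ ε S ≤ T}.indicator 1 B * F (ln Φ ε B)
          ∂(tree (GC.inten f₀ ε) L) ≤ muE ε * (C * ∫⁻ z : Ph, CT.g1 (b₀ / 2) z.2 * F z) := by
  obtain ⟨C, hC, h⟩ := ML.crude_tree (T₀ := T) hΦ hg hb₀ hT hM hf L
  refine ⟨C * (1 + (L : ℝ≥0∞) * ENNReal.ofReal T), ?_, fun ε hε F hF => ?_⟩
  · exact ENNReal.mul_ne_top hC (ENNReal.add_ne_top.2
      ⟨ENNReal.one_ne_top, ENNReal.mul_ne_top (ENNReal.natCast_ne_top L)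
        ENNReal.ofReal_ne_top⟩)
  have h1 := h ε hε (fun σ : Src => F σ.2.1) (hF.comp measurable_snd.fst)
  have h2 : ∫⁻ B, {S | ok Φ ε S ∧ ext Φ ε S ≤ T}.indicator 1 B * F (ln Φ ε B)
      ∂(tree (GC.inten f₀ ε) L) =
      ∫⁻ B in {S | ok Φ ε S ∧ ext Φ ε S ≤ T}, F (ln Φ ε B) ∂(tree (GC.inten f₀ ε) L) := by
    rw [← lintegral_indicator (measurableSet_okExt hΦ hε T)]
    refine lintegral_congr fun B => ?_
    by_cases hB : B ∈ {S | ok Φ ε S ∧ ext Φ ε S ≤ T}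
    · rw [indicator_of_mem hB, indicator_of_mem hB, Pi.one_apply, one_mul]
    · rw [indicator_of_notMem hB, indicator_of_notMem hB, zero_mul]
  rw [h2]
  refine h1.trans ?_
  simp only
  rw [setLIntegral_const, Real.volume_Icc, sub_zero, Finset.sum_const, Nat.card_Icc,
    add_tsub_cancel_right, nsmul_eq_mul]
  refine le_of_eq ?_
  unfold muE
  ring

theorem crude_two (hΦ : IsPotential Φ) (hg : GoodDatum f₀ κ) {b₀ T M₀ : ℝ}
    (hb₀ : 0 < b₀) (hT : 0 ≤ T) (hM : 0 ≤ M₀)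
    (hf : ∀ z, f₀ z ≤ M₀ * Real.exp (-b₀ * ‖z.2‖ ^ 2)) (L : ℕ) : ∃ C : ℝ≥0∞, C ≠ ∞ ∧
      ∀ ε : ℝ, 0 < ε → ∀ G : Ph × Ph → ℝ≥0∞, Measurable G →
        ∫⁻ A, ∫⁻ B, {S | ok Φ ε S ∧ ext Φ ε S ≤ T}.indicator 1 A *
          ({S | ok Φ ε S ∧ ext Φ ε S ≤ T}.indicator 1 B * G (ln Φ ε A, ln Φ ε B))
          ∂(tree (GC.inten f₀ ε) L) ∂(tree (GC.inten f₀ ε) L) ≤
        muE ε ^ 2 * (C * ∫⁻ z : Ph, CT.g1 (b₀ / 2) z.2 *
          ∫⁻ z' : Ph, CT.g1 (b₀ / 2) z'.2 * G (z, z')) := by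
  obtain ⟨C, hC, h⟩ := crude_one hΦ hg hb₀ hT hM hf L
  refine ⟨C * C, ENNReal.mul_ne_top hC hC, fun ε hε G hG => ?_⟩
  obtain ⟨H, hH⟩ : ∃ H : Ph → ℝ≥0∞, ∀ z, H z = ∫⁻ z' : Ph, CT.g1 (b₀ / 2) z'.2 * G (z, z') :=
    ⟨_, fun _ => rfl⟩
  have hHm : Measurable H := by
    have e : H = fun z => ∫⁻ z' : Ph, CT.g1 (b₀ / 2) z'.2 * G (z, z') := funext hH
    rw [e]
    have h0 : Measurable fun p : Ph × Ph => CT.g1 (b₀ / 2) p.2.2 * G (p.1, p.2) :=
      ((CT.measurable_g1 _).comp measurable_snd).mul hG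
    exact h0.lintegral_prod_right'
  have h1 : ∀ A : CTree, ∫⁻ B, {S | ok Φ ε S ∧ ext Φ ε S ≤ T}.indicator 1 A *
      ({S | ok Φ ε S ∧ ext Φ ε S ≤ T}.indicator 1 B * G (ln Φ ε A, ln Φ ε B))
        ∂(tree (GC.inten f₀ ε) L) ≤
      {S | ok Φ ε S ∧ ext Φ ε S ≤ T}.indicator 1 A * (muE ε * C * H (ln Φ ε A)) := by
    intro A
    by_cases hA : A ∈ {S | ok Φ ε S ∧ ext Φ ε S ≤ T}
    · rw [indicator_of_mem hA, Pi.one_apply]
      simp only [one_mul]
      refine (h ε hε (fun z => G (ln Φ ε A, z)) (hG.comp measurable_prodMk_left)).trans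
        (le_of_eq ?_)
      rw [hH, mul_assoc]
    · rw [indicator_of_notMem hA]
      simp only [zero_mul, lintegral_zero]
      exact le_rfl
  refine (lintegral_mono h1).trans ?_
  have h2 := h ε hε (fun z => muE ε * C * H z) (hHm.const_mul _)
  refine h2.trans (le_of_eq ?_)
  have hc : muE ε * C ≠ ∞ := ENNReal.mul_ne_top muE_ne_top hC
  have h3 : ∀ z : Ph, CT.g1 (b₀ / 2) z.2 * (muE ε * C * H z) =
      muE ε * C * (CT.g1 (b₀ / 2) z.2 * H z) := fun z => by ring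
  simp only [h3]
  rw [lintegral_const_mul' _ _ hc]
  simp only [hH]
  ring

/-! ### The pairs near a fixed line -/

/-- The pairs of lines which collide near the line `l`. -/
noncomputable def Gt (Φ : E3 → ℝ) (ε T s t : ℝ) (l : Ph) (q : Ph × Ph) : ℝ≥0∞ :=
  {q : Ph × Ph | (Meets ε q ∧ hitT ε q ∈ Ioc 0 T) ∧ l ∈ tubeL Φ ε s t q}.indicator 1 q

theorem measurableSet_Gt (hΦ : IsPotential Φ) (ε T s t : ℝ) (l : Ph) :
    MeasurableSet {q : Ph × Ph | (Meets ε q ∧ hitT ε q ∈ Ioc 0 T) ∧ l ∈ tubeL Φ ε s t q} := by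
  have h1 : MeasurableSet {q : Ph × Ph | Meets ε q ∧ hitT ε q ∈ Ioc 0 T} :=
    measurableSet_meets.inter (measurable_hitT measurableSet_Ioc)
  refine h1.inter ?_
  have h2 := MM.measurableSet_meet_closed (X := Ph × Ph)
    (F := fun q r => ‖l.1 + r • l.2 - ((com q).1 + r • (com q).2)‖ - 2 * ε)
    (l := fun q => max (hitT ε q) s) (u := fun q => min t (sepT Φ ε q))
    (fun r => by unfold com; fun_prop) (fun q => by fun_prop)
    (measurable_hitT.max measurable_const) (measurable_const.min (measurable_sepT hΦ))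
  refine h2.congr ?_
  ext q
  constructor
  · rintro ⟨r, h3, h4, h5⟩
    exact ⟨r, ⟨h3, h4⟩, by linarith⟩
  · rintro ⟨r, ⟨h3, h4⟩, h5⟩
    exact ⟨r, h3, h4, by linarith⟩

theorem measurable_Gt (hΦ : IsPotential Φ) (ε T s t : ℝ) (l : Ph) :
    Measurable (Gt Φ ε T s t l) :=
  measurable_one.indicator (measurableSet_Gt hΦ ε T s t l)

theorem rel_shift (ε : ℝ) (x v : E3) (z : Ph) :
    rel ε ((x, v), (x + z.1, z.2)) = rel ε ((0, v), z) := by
  unfold rel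
  simp only [zero_sub, sub_add_cancel_left]

/-- **The integral over the translations.** -/
theorem slice_Gt (hε : 0 < ε) {s t T : ℝ} (htT : t ≤ T) (hs : 0 ≤ s) (l : Ph) (v : E3) (z : Ph) :
    ∫⁻ x : E3, Gt Φ ε T s t l ((x, v), (x + z.1, z.2)) ≤
      ENNReal.ofReal (128 * ε ^ 2) * IND.ω₃ * ENNReal.ofReal (1 + ‖l.2‖) *
        Psi Φ ε T ((0, v), z) := by
  have e1 : ∀ x : E3, Meets ε ((x, v), (x + z.1, z.2)) ↔ Meets ε (((0 : E3), v), z) := by
    intro x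
    unfold Meets
    rw [rel_shift]
  have e2 : ∀ x : E3, hitT ε ((x, v), (x + z.1, z.2)) = hitT ε (((0 : E3), v), z) := by
    intro x
    unfold hitT
    rw [rel_shift]
  have e3 : ∀ x : E3, sepT Φ ε ((x, v), (x + z.1, z.2)) = sepT Φ ε (((0 : E3), v), z) := by
    intro x
    unfold sepT
    rw [rel_shift]
  set q₀ : Ph × Ph := (((0 : E3), v), z) with hq₀
  by_cases hq : Meets ε q₀ ∧ hitT ε q₀ ∈ Ioc 0 T
  swap
  · have h0 : ∀ x : E3, Gt Φ ε T s t l ((x, v), (x + z.1, z.2)) = 0 := by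
      intro x
      unfold Gt
      refine indicator_of_notMem (fun h => hq ?_) _
      have h1 := h.1
      rw [e1, e2] at h1
      exact h1
    simp only [h0, lintegral_zero]
    exact zero_le
  have hP : Psi Φ ε T q₀ = ENNReal.ofReal (2 * ε) + ENNReal.ofReal (1 + ‖v‖ + ‖z.2‖) *
      ENNReal.ofReal (min (sepT Φ ε q₀ - hitT ε q₀) T) := by
    unfold Psi
    rw [indicator_of_mem (show q₀ ∈ {q : Ph × Ph | Meets ε q ∧ hitT ε q ∈ Ioc 0 T} from hq)]
  set h₀ : ℝ := max (hitT ε q₀) s with hh₀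
  set d : ℝ := max 0 (min t (sepT Φ ε q₀) - h₀) with hd
  set u : E3 := (2 : ℝ)⁻¹ • (v + z.2) - l.2 with hu
  have h1 : ∫⁻ x : E3, Gt Φ ε T s t l ((x, v), (x + z.1, z.2)) ≤
      volume {a : E3 | ∃ r, h₀ ≤ r ∧ r ≤ h₀ + d ∧
        ‖((2 : ℝ)⁻¹ • z.1 - l.1) + r • u + a‖ ≤ 2 * ε} := by
    have h2 : ∀ x : E3, Gt Φ ε T s t l ((x, v), (x + z.1, z.2)) ≤
        ({a : E3 | ∃ r, h₀ ≤ r ∧ r ≤ h₀ + d ∧
          ‖((2 : ℝ)⁻¹ • z.1 - l.1) + r • u + a‖ ≤ 2 * ε}).indicator 1 x := by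
      intro x
      unfold Gt
      by_cases hx : ((x, v), (x + z.1, z.2)) ∈ {q : Ph × Ph |
          (Meets ε q ∧ hitT ε q ∈ Ioc 0 T) ∧ l ∈ tubeL Φ ε s t q}
      swap
      · rw [indicator_of_notMem hx]
        exact zero_le
      obtain ⟨-, r, ⟨h3, h4⟩, h5⟩ := hx
      rw [e2] at h3
      rw [e3] at h4
      rw [indicator_of_mem (show x ∈ {a : E3 | ∃ r, h₀ ≤ r ∧ r ≤ h₀ + d ∧
          ‖((2 : ℝ)⁻¹ • z.1 - l.1) + r • u + a‖ ≤ 2 * ε} from ?_)]
      · exact indicator_le_self' (fun _ _ => zero_le) _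
      refine ⟨r, h3, ?_, ?_⟩
      · have h6 : min t (sepT Φ ε q₀) - h₀ ≤ d := le_max_right _ _
        linarith
      · have h6 : ((2 : ℝ)⁻¹ • z.1 - l.1) + r • u + x =
            -(l.1 + r • l.2 - ((com ((x, v), (x + z.1, z.2))).1 +
              r • (com ((x, v), (x + z.1, z.2))).2)) := by
          unfold com
          simp only
          rw [hu]
          module
        rw [h6, norm_neg]
        exact h5
    refine (lintegral_mono h2).trans ?_
    exact lintegral_indicator_one_le _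
  refine h1.trans ((IND.vol_tube_le (show 0 < 2 * ε by positivity) _ u h₀ (le_max_left _ _)).trans ?_)
  rw [hP]
  have hun : ‖u‖ ≤ (1 + ‖l.2‖) * (1 + ‖v‖ + ‖z.2‖) := by
    have h2 : ‖(2 : ℝ)⁻¹ • (v + z.2)‖ ≤ ‖v‖ + ‖z.2‖ := by
      rw [norm_smul]
      have h3 := norm_add_le v z.2
      have h4 : ‖(2 : ℝ)⁻¹‖ = 2⁻¹ := by norm_num
      rw [h4]
      have := norm_nonneg v
      have := norm_nonneg z.2
      linarith
    have h3 := norm_sub_le ((2 : ℝ)⁻¹ • (v + z.2)) l.2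
    have h4 := norm_nonneg v
    have h5 := norm_nonneg z.2
    have h6 := norm_nonneg l.2
    rw [← hu] at h3
    nlinarith [mul_nonneg h6 h4, mul_nonneg h6 h5]
  have hdm : ENNReal.ofReal d ≤ ENNReal.ofReal (min (sepT Φ ε q₀ - hitT ε q₀) T) := by
    rw [hd]
    rcases le_total (min t (sepT Φ ε q₀) - h₀) 0 with h2 | h2
    · rw [max_eq_left h2, ENNReal.ofReal_zero]
      exact zero_le
    · rw [max_eq_right h2]
      refine ENNReal.ofReal_le_ofReal (le_min ?_ ?_)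
      · have h3 := min_le_right t (sepT Φ ε q₀)
        have h4 : hitT ε q₀ ≤ h₀ := le_max_left _ _
        linarith
      · have h3 := min_le_left t (sepT Φ ε q₀)
        have h4 : s ≤ h₀ := le_max_right _ _
        linarith
  have hd0 : 0 ≤ d := le_max_left _ _
  have h4 : ENNReal.ofReal (32 * (2 * ε) ^ 2 * (2 * ε + d * ‖u‖)) ≤
      ENNReal.ofReal (128 * ε ^ 2) * ENNReal.ofReal (1 + ‖l.2‖) *
        (ENNReal.ofReal (2 * ε) + ENNReal.ofReal (1 + ‖v‖ + ‖z.2‖) * ENNReal.ofReal d) := by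
    have h5 := norm_nonneg v
    have h6 := norm_nonneg z.2
    have h7 := norm_nonneg l.2
    rw [← ENNReal.ofReal_mul (p := 1 + ‖v‖ + ‖z.2‖) (by positivity),
      ← ENNReal.ofReal_add (by positivity) (by positivity),
      ← ENNReal.ofReal_mul (p := 128 * ε ^ 2) (by positivity), ← ENNReal.ofReal_mul (by positivity)]
    refine ENNReal.ofReal_le_ofReal ?_
    have h8 : d * ‖u‖ ≤ d * ((1 + ‖l.2‖) * (1 + ‖v‖ + ‖z.2‖)) :=
      mul_le_mul_of_nonneg_left hun hd0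
    have h9 : 2 * ε ≤ (1 + ‖l.2‖) * (2 * ε) := by nlinarith [mul_nonneg h7 hε.le]
    calc 32 * (2 * ε) ^ 2 * (2 * ε + d * ‖u‖)
        = (128 * ε ^ 2) * (2 * ε + d * ‖u‖) := by ring
      _ ≤ (128 * ε ^ 2) * ((1 + ‖l.2‖) * (2 * ε) + d * ((1 + ‖l.2‖) * (1 + ‖v‖ + ‖z.2‖))) := by
          refine mul_le_mul_of_nonneg_left (add_le_add h9 h8) (by positivity)
      _ = _ := by ring
  calc ENNReal.ofReal (32 * (2 * ε) ^ 2 * (2 * ε + d * ‖u‖)) * IND.ω₃
      ≤ (ENNReal.ofReal (128 * ε ^ 2) * ENNReal.ofReal (1 + ‖l.2‖) *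
        (ENNReal.ofReal (2 * ε) + ENNReal.ofReal (1 + ‖v‖ + ‖z.2‖) * ENNReal.ofReal d)) *
          IND.ω₃ := mul_le_mul_left h4 _
    _ ≤ (ENNReal.ofReal (128 * ε ^ 2) * ENNReal.ofReal (1 + ‖l.2‖) *
        (ENNReal.ofReal (2 * ε) + ENNReal.ofReal (1 + ‖v‖ + ‖z.2‖) *
          ENNReal.ofReal (min (sepT Φ ε q₀ - hitT ε q₀) T))) * IND.ω₃ := by
        gcongr
    _ = _ := by ring

/-- **The mass of the pairs which collide near a fixed line.** -/
theorem lintegral_Gt_le (hΦ : IsPotential Φ) (hε : 0 < ε) {β s t T : ℝ} (htT : t ≤ T) (hs : 0 ≤ s)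
    (l : Ph) :
    ∫⁻ z : Ph, gw β z.2 * ∫⁻ z' : Ph, gw β z'.2 * Gt Φ ε T s t l (z, z') ≤
      ENNReal.ofReal (128 * ε ^ 2) * IND.ω₃ * ENNReal.ofReal (1 + ‖l.2‖) *
        (ENNReal.ofReal (ε ^ 2) * ENNReal.ofReal T * ∫⁻ v : E3, gw β v * Jv Φ ε β T v) := by
  have hGm := measurable_Gt hΦ ε T s t l
  have hgw : Measurable fun z : Ph => gw β z.2 := (measurable_gw β).comp measurable_snd
  -- the translation
  have h1 : ∀ x v : E3, ∫⁻ z' : Ph, gw β z'.2 * Gt Φ ε T s t l ((x, v), z') =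
      ∫⁻ z' : Ph, gw β z'.2 * Gt Φ ε T s t l ((x, v), (x + z'.1, z'.2)) := by
    intro x v
    have hF : Measurable fun z' : Ph => gw β z'.2 * Gt Φ ε T s t l ((x, v), z') :=
      hgw.mul (hGm.comp measurable_prodMk_left)
    have hF' : Measurable fun z' : Ph =>
        gw β z'.2 * Gt Φ ε T s t l ((x, v), (x + z'.1, z'.2)) := by
      refine hgw.mul (hGm.comp ?_)
      fun_prop
    rw [Measure.volume_eq_prod, lintegral_prod_symm _ hF.aemeasurable,
      lintegral_prod_symm _ hF'.aemeasurable]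
    refine lintegral_congr fun v' => ?_
    exact (lintegral_add_left_eq_self (μ := (volume : Measure E3))
      (fun y : E3 => gw β v' * Gt Φ ε T s t l ((x, v), (y, v'))) x).symm
  have hm3 : Measurable fun p : (E3 × E3) × Ph =>
      Gt Φ ε T s t l ((p.1.1, p.1.2), (p.1.1 + p.2.1, p.2.2)) := by
    refine hGm.comp ?_
    fun_prop
  have hH : Measurable fun z : Ph => gw β z.2 *
      ∫⁻ z' : Ph, gw β z'.2 * Gt Φ ε T s t l (z, z') := by
    have h0 : Measurable fun p : Ph × Ph => gw β p.2.2 * Gt Φ ε T s t l (p.1, p.2) :=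
      (hgw.comp measurable_snd).mul hGm
    exact hgw.mul h0.lintegral_prod_right'
  have h2 : ∫⁻ z : Ph, gw β z.2 * ∫⁻ z' : Ph, gw β z'.2 * Gt Φ ε T s t l (z, z') =
      ∫⁻ v : E3, ∫⁻ x : E3, gw β v * ∫⁻ z' : Ph, gw β z'.2 *
        Gt Φ ε T s t l ((x, v), (x + z'.1, z'.2)) := by
    have h6 : ∫⁻ z : Ph, gw β z.2 * ∫⁻ z' : Ph, gw β z'.2 * Gt Φ ε T s t l (z, z') =
        ∫⁻ v : E3, ∫⁻ x : E3, gw β v * ∫⁻ z' : Ph, gw β z'.2 * Gt Φ ε T s t l ((x, v), z') := by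
      have h7 := lintegral_prod_symm (μ := (volume : Measure E3)) (ν := (volume : Measure E3))
        (fun z : Ph => gw β z.2 * ∫⁻ z' : Ph, gw β z'.2 * Gt Φ ε T s t l (z, z'))
        hH.aemeasurable
      exact h7
    rw [h6]
    refine lintegral_congr fun v => lintegral_congr fun x => ?_
    rw [h1]
  rw [h2]
  -- the exchange
  have h3 : ∀ v : E3, ∫⁻ x : E3, gw β v * ∫⁻ z' : Ph, gw β z'.2 *
        Gt Φ ε T s t l ((x, v), (x + z'.1, z'.2)) ≤
      gw β v * (ENNReal.ofReal (128 * ε ^ 2) * IND.ω₃ * ENNReal.ofReal (1 + ‖l.2‖) *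
        (ENNReal.ofReal (ε ^ 2) * (ENNReal.ofReal T * Jv Φ ε β T v))) := by
    intro v
    have hm4 : Measurable fun p : E3 × Ph =>
        gw β p.2.2 * Gt Φ ε T s t l ((p.1, v), (p.1 + p.2.1, p.2.2)) := by
      refine (hgw.comp measurable_snd).mul ?_
      exact hm3.comp ((measurable_fst.prodMk measurable_const).prodMk measurable_snd)
    rw [lintegral_const_mul' _ _ (by unfold gw; exact ENNReal.ofReal_ne_top)]
    refine mul_le_mul_right ?_ _
    rw [lintegral_lintegral_swap (f := fun (x : E3) (z' : Ph) => gw β z'.2 *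
      Gt Φ ε T s t l ((x, v), (x + z'.1, z'.2))) hm4.aemeasurable]
    have h5 := lintegral_Psi (β := β) (T := T) hΦ hε ((0 : E3), v)
    rw [← h5]
    rw [← lintegral_const_mul' _ _ (ENNReal.mul_ne_top (ENNReal.mul_ne_top
      ENNReal.ofReal_ne_top ?_) ENNReal.ofReal_ne_top)]
    swap
    · unfold IND.ω₃
      exact measure_closedBall_lt_top.ne
    refine lintegral_mono fun z' => ?_
    rw [lintegral_const_mul' _ _ (by unfold gw; exact ENNReal.ofReal_ne_top)]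
    refine (mul_le_mul_right (slice_Gt hε htT hs l v z') _).trans (le_of_eq ?_)
    ring
  refine (lintegral_mono h3).trans (le_of_eq ?_)
  rw [← lintegral_const_mul']
  swap
  · exact ENNReal.mul_ne_top ENNReal.ofReal_ne_top ENNReal.ofReal_ne_top
  rw [← lintegral_const_mul']
  swap
  · refine ENNReal.mul_ne_top (ENNReal.mul_ne_top ENNReal.ofReal_ne_top ?_) ENNReal.ofReal_ne_top
    unfold IND.ω₃
    exact measure_closedBall_lt_top.ne
  refine lintegral_congr fun v => ?_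
  ring

/-- **The mass of the pairs which collide near a fixed line is small.** -/
theorem lintegral_Gt_small (hΦ : IsPotential Φ) {β T : ℝ} (hβ : 0 < β) (hT : 0 < T) {ρ : ℝ}
    (hρ : 0 < ρ) : ∀ᶠ ε in 𝓝[>] (0 : ℝ), ∀ t ≤ T, ∀ s, 0 ≤ s → ∀ l : Ph,
      ∫⁻ z : Ph, gw β z.2 * ∫⁻ z' : Ph, gw β z'.2 * Gt Φ ε T s t l (z, z') ≤
        ENNReal.ofReal (ε ^ 4) * (ENNReal.ofReal ρ * ENNReal.ofReal (1 + ‖l.2‖)) := by
  obtain ⟨C, hC, hpw⟩ := ML.pw_mul_g1_le 2 hβ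
  have hg : ∫⁻ v : E3, gw (β / 2) v ≠ ∞ := by
    refine ne_top_of_le_ne_top (ML.I3_ne_top (half_pos hβ)) ?_
    unfold ML.I3
    refine lintegral_mono fun v => ?_
    have h1 : (1 : ℝ≥0∞) ≤ ENNReal.ofReal ((1 + ‖v‖) ^ 3) := by
      rw [← ENNReal.ofReal_one]
      refine ENNReal.ofReal_le_ofReal ?_
      have := norm_nonneg v
      nlinarith [pow_nonneg this 2, pow_nonneg this 3]
    exact le_mul_of_one_le_right' h1
  have hw : IND.ω₃ ≠ ∞ := by
    unfold IND.ω₃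
    exact measure_closedBall_lt_top.ne
  set K : ℝ≥0∞ := ENNReal.ofReal 128 * IND.ω₃ * ENNReal.ofReal T *
    (C * ∫⁻ v : E3, gw (β / 2) v) with hK
  have hKt : K ≠ ∞ := ENNReal.mul_ne_top (ENNReal.mul_ne_top (ENNReal.mul_ne_top
    ENNReal.ofReal_ne_top hw) ENNReal.ofReal_ne_top) (ENNReal.mul_ne_top hC hg)
  set k : ℝ := K.toReal + 1 with hk
  have hk0 : 0 < k := by positivity
  have hKk : K ≤ ENNReal.ofReal k := by
    rw [← ENNReal.ofReal_toReal hKt]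
    exact ENNReal.ofReal_le_ofReal (by rw [hk]; linarith)
  filter_upwards [Jv_poly hΦ hβ hT (div_pos hρ hk0), self_mem_nhdsWithin] with ε hJ hε t ht s hs l
  have hε' : 0 < ε := hε
  refine (lintegral_Gt_le hΦ hε' ht hs l).trans ?_
  have h1 : ∫⁻ v : E3, gw β v * Jv Φ ε β T v ≤
      ENNReal.ofReal (ρ / k) * (C * ∫⁻ v : E3, gw (β / 2) v) := by
    rw [← lintegral_const_mul' _ _ hC, ← lintegral_const_mul' _ _ ENNReal.ofReal_ne_top]
    refine lintegral_mono fun v => ?_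
    have h2 := hpw v
    have e1 : CT.g1 β v = gw β v := rfl
    have e2 : CT.g1 (β / 2) v = gw (β / 2) v := rfl
    rw [e1, e2] at h2
    calc gw β v * Jv Φ ε β T v ≤ gw β v * (ENNReal.ofReal (ρ / k) * ML.pw 2 v) :=
          mul_le_mul_right (hJ v) _
      _ = ENNReal.ofReal (ρ / k) * (ML.pw 2 v * gw β v) := by ring
      _ ≤ _ := mul_le_mul_right h2 _
  calc ENNReal.ofReal (128 * ε ^ 2) * IND.ω₃ * ENNReal.ofReal (1 + ‖l.2‖) *
        (ENNReal.ofReal (ε ^ 2) * ENNReal.ofReal T * ∫⁻ v : E3, gw β v * Jv Φ ε β T v)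
      ≤ ENNReal.ofReal (128 * ε ^ 2) * IND.ω₃ * ENNReal.ofReal (1 + ‖l.2‖) *
        (ENNReal.ofReal (ε ^ 2) * ENNReal.ofReal T *
          (ENNReal.ofReal (ρ / k) * (C * ∫⁻ v : E3, gw (β / 2) v))) := by gcongr
    _ = (ENNReal.ofReal (ε ^ 2) * ENNReal.ofReal (ε ^ 2)) * (K * ENNReal.ofReal (ρ / k) *
          ENNReal.ofReal (1 + ‖l.2‖)) := by
        rw [ENNReal.ofReal_mul (by norm_num : (0 : ℝ) ≤ 128), hK]
        ring
    _ ≤ (ENNReal.ofReal (ε ^ 2) * ENNReal.ofReal (ε ^ 2)) * (ENNReal.ofReal k *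
          ENNReal.ofReal (ρ / k) * ENNReal.ofReal (1 + ‖l.2‖)) := by gcongr
    _ = _ := by
        rw [← ENNReal.ofReal_mul (by positivity), ← ENNReal.ofReal_mul hk0.le]
        congr 2
        · ring
        · congr 1
          field_simp

end IrM

end Vale.Agent.P119.PB
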