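import Vale.Agent.P119.PB.OverLam

/-!
# P119, block PROB: second events, final form with the atypical part in line form (`helper178`)

* `E6`: the exceptional terms (cut to nonnegative births and depths at most `L`);
* `gT6_split`: MAIN, remainder, too deep trees, atypical part (all in line form), exceptional terms;
* `lam_gT6_le`: the same, integrated with respect to a law `lam` with `HitLam`.
-/

open MeasureTheory Filter Topology Set ProbabilityTheory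
open scoped ENNReal NNReal

noncomputable section

namespace Vale.Agent.P119.PB

open M CTree KU FB RB AU FL TL

variable {Φ : E3 → ℝ} {ε : ℝ} {L : ℕ} {hΦ : IsPotential Φ} {hε : 0 < ε} {f₀ : Ph → ℝ}
  {κ b Tm t t' η η' w u θ : ℝ} {e m : Src}

open Classical in
/-- **The exceptional terms of the second events**, for nonnegative births and depths at most
`L`. -/
def E6 (L : ℕ) (hΦ : IsPotential Φ) (hε : 0 < ε) (f₀ : Ph → ℝ) (η θ t : ℝ) (e m : Src) : ℝ≥0∞ :=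
  if 0 ≤ m.1 ∧ m.2.2 ≤ L then exc6 L hΦ hε f₀ η θ t e m else 0

theorem measurable_E6 (h₀ : GoodDatum f₀ κ) :
    Measurable fun p : Src × Src => E6 L hΦ hε f₀ η θ t p.1 p.2 := by
  have := GC.isProbability_PP (ε := ε) h₀
  unfold E6
  refine Measurable.ite ?_ RM.measurable_exc6 measurable_const
  exact (measurableSet_le measurable_const (measurable_fst.comp measurable_snd)).inter
    ((measurable_snd.comp (measurable_snd.comp measurable_snd)) (measurableSet_Iic (a := L)))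

theorem measurable_E6_right (h₀ : GoodDatum f₀ κ) :
    Measurable (E6 L hΦ hε f₀ η θ t e) :=
  (measurable_E6 h₀).comp (measurable_const.prodMk measurable_id)

theorem atyS_eq_atyL {P : Measure (GC.Conf Ph)} {ν : GC.Conf Ph → Measure Src} (m : Src) :
    atyS P ν ε t m = atyL P ν ε t m.1 m.2.1 := rfl

theorem measurable_atyL (h₀ : GoodDatum f₀ κ) (ν : Kernel (GC.Conf Ph) Src) [IsSFiniteKernel ν] :
    Measurable fun q : ℝ × Ph => atyL (GC.PP f₀ ε) (fun c => ν c) ε t q.1 q.2 :=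
  (measurable_atyS h₀ ν).comp
    (measurable_fst.prodMk (measurable_snd.prodMk measurable_const))

theorem atyL_anti {P : Measure (GC.Conf Ph)} {ν : GC.Conf Ph → Measure Src} {s s' : ℝ}
    (h : s ≤ s') (l : Ph) : atyL P ν ε t s' l ≤ atyL P ν ε t s l := by
  unfold atyL atyS
  refine mul_le_mul' le_rfl (lintegral_mono fun c => measure_mono ?_)
  rintro p ⟨h1, h2, h3⟩
  exact ⟨h1, lt_of_le_of_lt h h2, h3⟩

theorem X6_le {ν : GC.Conf Ph → Measure Src} (m : Src) : X6 L hΦ hε f₀ ν η θ t e m ≤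
    cut0 (fun m => 5 * atyL (GC.PP f₀ ε) ν ε t m.1 m.2.1) m + E6 L hΦ hε f₀ η θ t e m := by
  unfold X6 E6
  split_ifs with h
  · rw [cut0_of h.1]
    exact le_rfl
  · exact zero_le

theorem KIt_X6_le (h₀ : GoodDatum f₀ κ) (ν : Kernel (GC.Conf Ph) Src) [IsSFiniteKernel ν]
    (htt : t < t') {a : ℕ → ℝ≥0∞} (hm0 : 0 ≤ m.1) (j : ℕ) :
    KIt Φ ε b t a j (X6 L hΦ hε f₀ (fun c => ν c) η θ t e) m ≤
      5 * ((∑' n, a n) ^ j *
        Gc hΦ hε.ne' b t' j (atyL (GC.PP f₀ ε) (fun c => ν c) ε t) m.1 m.2.1) +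
      KIt Φ ε b t a j (E6 L hΦ hε f₀ η θ t e) m := by
  have hm : Measurable fun q : ℝ × Ph => 5 * atyL (GC.PP f₀ ε) (fun c => ν c) ε t q.1 q.2 :=
    (measurable_atyL h₀ ν).const_mul _
  have hc : Measurable (cut0 fun m => 5 * atyL (GC.PP f₀ ε) (fun c => ν c) ε t m.1 m.2.1) :=
    measurable_cut0 (meas_lineF (F := fun s l => 5 * atyL (GC.PP f₀ ε) (fun c => ν c) ε t s l) hm)
  refine (KIt_mono j (fun σ => X6_le σ) m).trans ?_
  rw [KIt_add hΦ hε.ne' j hc]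
  refine add_le_add ?_ le_rfl
  refine (KIt_cut_le (F := fun s l => 5 * atyL (GC.PP f₀ ε) (fun c => ν c) ε t s l) hΦ hε htt hm
    (fun s s' l _ h => mul_le_mul' le_rfl (atyL_anti h l)) hm0 j).trans (le_of_eq ?_)
  rw [Gc_const_mul hΦ hε.ne' b t' j 5 (measurable_atyL h₀ ν)]
  ring

/-- **The second events, final form.** -/
theorem gT6_split (h₀ : GoodDatum f₀ κ) (ht : 0 ≤ t) (htT : t ≤ Tm) (hη : 0 < η) (hηη : η < η')
    (hw : t ≤ w) (he0 : 0 ≤ e.1) (hed : e.2.2 ≤ L) {α : ℕ → ℝ≥0∞}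
    {ν : Kernel (GC.Conf Ph) Src} [IsSFiniteKernel ν] (hcap : CapI Φ ε L f₀ b Tm α fun c => ν c)
    {J : ℕ} (hJ : 0 < J) (htt : t < t') {A : ℝ≥0∞} (hA : 1 ≤ A) (hA' : A ≠ ∞)
    {a : ℕ → ℝ≥0∞} (ha : a = fun n => α n * ENNReal.ofReal (1 + Tm)) (hm0 : 0 ≤ m.1) :
    gT6 L hΦ hε f₀ η t e m ≤
      (∑ j ∈ Finset.range J, (∑' n, a n) ^ j *
        Gc hΦ hε.ne' b t' j (F6 L hΦ hε f₀ b a η' t w u e) m.1 m.2.1) +
      (∑' n, a n) ^ J * Gc hΦ hε.ne' b t' J (fun _ _ => tE6 L hΦ hε f₀ η' t e) m.1 m.2.1 +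
      A ^ m.2.2 * (A ^ L)⁻¹ * (∑ j ∈ Finset.range J, (A * (∑' n, a n + ∑' n, a n * A ^ n)) ^ j *
        Gc hΦ hε.ne' b t' j (FA f₀ Φ ε L t A) m.1 m.2.1) +
      5 * (∑ j ∈ Finset.range J, (∑' n, a n) ^ j *
        Gc hΦ hε.ne' b t' j (atyL (GC.PP f₀ ε) (fun c => ν c) ε t) m.1 m.2.1) +
      ∑ j ∈ Finset.range J, KIt Φ ε b t a j
        (E6 L hΦ hε f₀ η' ((η' - η) / J) t e) m := by
  refine (gT6_final (u := u) h₀ ht htT hη hηη hw he0 hed hcap hJ htt hA hA' ha hm0).trans ?_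
  calc _ ≤ (∑ j ∈ Finset.range J, (∑' n, a n) ^ j *
        Gc hΦ hε.ne' b t' j (F6 L hΦ hε f₀ b a η' t w u e) m.1 m.2.1) +
      (∑' n, a n) ^ J * Gc hΦ hε.ne' b t' J (fun _ _ => tE6 L hΦ hε f₀ η' t e) m.1 m.2.1 +
      A ^ m.2.2 * (A ^ L)⁻¹ * (∑ j ∈ Finset.range J, (A * (∑' n, a n + ∑' n, a n * A ^ n)) ^ j *
        Gc hΦ hε.ne' b t' j (FA f₀ Φ ε L t A) m.1 m.2.1) +
      ∑ j ∈ Finset.range J, (5 * ((∑' n, a n) ^ j *
        Gc hΦ hε.ne' b t' j (atyL (GC.PP f₀ ε) (fun c => ν c) ε t) m.1 m.2.1) +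
        KIt Φ ε b t a j (E6 L hΦ hε f₀ η' ((η' - η) / J) t e) m) :=
        add_le_add le_rfl (Finset.sum_le_sum fun j _ => KIt_X6_le h₀ ν htt hm0 j)
    _ = _ := by
        rw [Finset.sum_add_distrib, ← Finset.mul_sum]
        ring

end Vale.Agent.P119.PB
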