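import Vale.Agent.P119.PB.Lam6

/-!
# P119, block PROB: second events, integrated over a law of pairs `(e, m)`, II (`helper178`)

* `measurable_KOp_param`, `measurable_KIt_param`;
* **`lam_gT6_le`**: `gT6_split`, integrated over `lam` (with `HitLam`), everything which is not
  exceptional over a fixed world.
-/

open MeasureTheory Filter Topology Set ProbabilityTheory
open scoped ENNReal NNReal

noncomputable section

namespace Vale.Agent.P119.PB

open M CTree KU FB RB AU FL TL

variable {Φ : E3 → ℝ} {ε : ℝ} {L : ℕ} {hΦ : IsPotential Φ} {hε : 0 < ε} {f₀ : Ph → ℝ}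
  {κ b Tm t t' η η' w θ : ℝ} {e m : Src}

/-! ### Measurability with a parameter -/

theorem measurable_KOp_param (hΦ : IsPotential Φ) (hε : 0 < ε) {α : ℕ → ℝ≥0∞} {X : Type}
    [MeasurableSpace X] {F : X → Src → ℝ≥0∞} (hF : Measurable fun p : X × Src => F p.1 p.2) :
    Measurable fun p : X × Src => KOp Φ ε b t α (F p.1) p.2 := by
  have hS : MeasurableSet {r : (X × Src) × Ph | Meets ε (r.1.2.2.1, r.2) ∧
      r.1.2.1 < hitT ε (r.1.2.2.1, r.2)} := by
    have h1 : Measurable fun r : (X × Src) × Ph => ((r.1.2, r.2) : Src × Ph) :=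
      (measurable_snd.comp measurable_fst).prodMk measurable_snd
    exact h1 measurableSet_hit
  have hF' : Measurable fun q : ((X × Src) × Ph) × Src => F q.1.1.1 q.2 :=
    hF.comp ((measurable_fst.comp (measurable_fst.comp measurable_fst)).prodMk measurable_snd)
  have h2 : ∀ n : ℕ, Measurable fun r : (X × Src) × Ph => gw b r.2.2 *
      fresh Φ ε t (F r.1.1) r.1.2 r.2 n := fun n =>
    ((measurable_gw b).comp (measurable_snd.comp measurable_snd)).mul
      (measurable_fresh' (θ := fun r : (X × Src) × Ph => F r.1.1) hΦ hε hF'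
        (measurable_snd.comp measurable_fst) measurable_snd measurable_const)
  have h3 : ∀ n : ℕ, Measurable fun p : X × Src => ∫⁻ z' in {z' : Ph | Meets ε (p.2.2.1, z') ∧
      p.2.1 < hitT ε (p.2.2.1, z')}, gw b z'.2 * fresh Φ ε t (F p.1) p.2 z' n := by
    intro n
    have h4 := ((h2 n).indicator hS).lintegral_prod_right' (ν := (volume : Measure Ph))
    have e1 : (fun p : X × Src => ∫⁻ z' in {z' : Ph | Meets ε (p.2.2.1, z') ∧
        p.2.1 < hitT ε (p.2.2.1, z')}, gw b z'.2 * fresh Φ ε t (F p.1) p.2 z' n) =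
        fun p : X × Src => ∫⁻ z' : Ph, {r : (X × Src) × Ph | Meets ε (r.1.2.2.1, r.2) ∧
          r.1.2.1 < hitT ε (r.1.2.2.1, r.2)}.indicator (fun r => gw b r.2.2 *
            fresh Φ ε t (F r.1.1) r.1.2 r.2 n) (p, z') := by
      funext p
      rw [← lintegral_indicator (s := {z' : Ph | Meets ε (p.2.2.1, z') ∧
        p.2.1 < hitT ε (p.2.2.1, z')}) (measurable_prodMk_left (x := p) hS)]
      rfl
    rw [e1]
    exact h4
  unfold KOp
  exact Measurable.const_mul (Measurable.tsum fun n => (h3 n).const_mul _) _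

theorem measurable_KIt_param (hΦ : IsPotential Φ) (hε : 0 < ε) {α : ℕ → ℝ≥0∞} {X : Type}
    [MeasurableSpace X] {F : X → Src → ℝ≥0∞} (hF : Measurable fun p : X × Src => F p.1 p.2)
    (j : ℕ) : Measurable fun p : X × Src => KIt Φ ε b t α j (F p.1) p.2 := by
  induction j with
  | zero => exact hF
  | succ j ih =>
    exact measurable_KOp_param hΦ hε (F := fun x => KIt Φ ε b t α j (F x)) ih

theorem measurable_KIt_E6 (h₀ : GoodDatum f₀ κ) {a : ℕ → ℝ≥0∞} (j : ℕ) :
    Measurable fun p : Src × Src => KIt Φ ε b t a j (E6 L hΦ hε f₀ η θ t p.1) p.2 :=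
  measurable_KIt_param hΦ hε (F := fun e => E6 L hΦ hε f₀ η θ t e) (measurable_E6 h₀) j

theorem measurable_gT6₂ (h₀ : GoodDatum f₀ κ) :
    Measurable fun p : Src × Src => gT6 L hΦ hε f₀ η t p.1 p.2 := by
  have := GC.isProbability_PP (ε := ε) h₀
  have h2 : Measurable fun p : (Src × Src) × GC.Conf Ph =>
      GGL L hΦ hε η t (wS (GC.pts p.2)) p.1.1 p.1.2 :=
    measurable_GGL (MM.RS.comp RM.rs_conf measurable_snd) measurable_const measurable_const
      (measurable_fst.comp measurable_fst) (measurable_snd.comp measurable_fst)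
  exact h2.lintegral_prod_right'

/-! ### The terms, integrated -/

section terms

variable {lam : Measure (Src × Src)} [SFinite lam]

/-- The main part. -/
theorem lam_main_eq (h₀ : GoodDatum f₀ κ) {a : ℕ → ℝ≥0∞} {u : Src × Src → ℝ} (hu : Measurable u)
    (j : ℕ) :
    ∫⁻ p, Gc hΦ hε.ne' b t' j (F6 L hΦ hε f₀ b a η t w (u p) p.1) p.2.1 p.2.2.1 ∂lam =
      ∫⁻ c, ∫⁻ p, Gc hΦ hε.ne' b t' j (F6w L hΦ hε b a η t w (u p) (wS (GC.pts c)) p.1)
        p.2.1 p.2.2.1 ∂lam ∂(GC.PP f₀ ε) := by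
  have := GC.isProbability_PP (ε := ε) h₀
  have hF : Measurable fun q : GC.Conf Ph × (Src × Src) × ℝ × Ph =>
      F6w L hΦ hε b a η t w (u q.2.1) (wS (GC.pts q.1)) q.2.1.1 q.2.2.1 q.2.2.2 :=
    measurable_F6w (MM.RS.comp RM.rs_conf measurable_fst)
      (hu.comp (measurable_fst.comp measurable_snd))
      (measurable_fst.comp (measurable_fst.comp measurable_snd))
      (measurable_fst.comp (measurable_snd.comp measurable_snd))
      (measurable_snd.comp (measurable_snd.comp measurable_snd))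
  rw [← lam_Gc_comm' hΦ hε.ne' b t' j (P := GC.PP f₀ ε) (lam := lam)
    (s := fun p : Src × Src => p.2.1) (l := fun p : Src × Src => p.2.2.1)
    (measurable_fst.comp measurable_snd)
    (measurable_fst.comp (measurable_snd.comp measurable_snd))
    (F := fun c p => F6w L hΦ hε b a η t w (u p) (wS (GC.pts c)) p.1) hF]
  refine lintegral_congr fun p => ?_
  have e1 : F6 L hΦ hε f₀ b a η t w (u p) p.1 = fun s z => ∫⁻ c,
      F6w L hΦ hε b a η t w (u p) (wS (GC.pts c)) p.1 s z ∂(GC.PP f₀ ε) := by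
    funext s z
    exact F6_eq_F6w h₀ s z
  rw [e1]

theorem measurable_F6₂ (h₀ : GoodDatum f₀ κ) {a : ℕ → ℝ≥0∞} {u : Src × Src → ℝ}
    (hu : Measurable u) : Measurable fun q : (Src × Src) × ℝ × Ph =>
      F6 L hΦ hε f₀ b a η t w (u q.1) q.1.1 q.2.1 q.2.2 := by
  have := GC.isProbability_PP (ε := ε) h₀
  have hF : Measurable fun q : ((Src × Src) × ℝ × Ph) × GC.Conf Ph =>
      F6w L hΦ hε b a η t w (u q.1.1) (wS (GC.pts q.2)) q.1.1.1 q.1.2.1 q.1.2.2 :=
    measurable_F6w (MM.RS.comp RM.rs_conf measurable_snd)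
      (hu.comp (measurable_fst.comp measurable_fst))
      (measurable_fst.comp (measurable_fst.comp measurable_fst))
      (measurable_fst.comp (measurable_snd.comp measurable_fst))
      (measurable_snd.comp (measurable_snd.comp measurable_fst))
  have h3 : Measurable fun q : (Src × Src) × ℝ × Ph => ∫⁻ c,
      F6w L hΦ hε b a η t w (u q.1) (wS (GC.pts c)) q.1.1 q.2.1 q.2.2 ∂(GC.PP f₀ ε) :=
    hF.lintegral_prod_right' (ν := GC.PP f₀ ε)
  have e1 : (fun q : (Src × Src) × ℝ × Ph =>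
      F6 L hΦ hε f₀ b a η t w (u q.1) q.1.1 q.2.1 q.2.2) = fun q : (Src × Src) × ℝ × Ph => ∫⁻ c,
      F6w L hΦ hε b a η t w (u q.1) (wS (GC.pts c)) q.1.1 q.2.1 q.2.2 ∂(GC.PP f₀ ε) :=
    funext fun q => F6_eq_F6w h₀ _ _
  rw [e1]
  exact h3

theorem meas_lineP {F : Src × Src → ℝ → Ph → ℝ≥0∞}
    (hF : Measurable fun q : (Src × Src) × ℝ × Ph => F q.1 q.2.1 q.2.2) :
    Measurable fun p : Src × Src => F p p.2.1 p.2.2.1 :=
  hF.comp (measurable_id.prodMk ((measurable_fst.comp measurable_snd).prodMk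
    (measurable_fst.comp (measurable_snd.comp measurable_snd))))

theorem measurable_Gc_F6 (h₀ : GoodDatum f₀ κ) {a : ℕ → ℝ≥0∞} {u : Src × Src → ℝ}
    (hu : Measurable u) (j : ℕ) : Measurable fun p : Src × Src =>
      Gc hΦ hε.ne' b t' j (F6 L hΦ hε f₀ b a η t w (u p) p.1) p.2.1 p.2.2.1 :=
  meas_lineP (F := fun p => Gc hΦ hε.ne' b t' j (F6 L hΦ hε f₀ b a η t w (u p) p.1))
    (measurable_Gc_param hΦ hε.ne' b t' j (X := Src × Src)
      (F := fun p => F6 L hΦ hε f₀ b a η t w (u p) p.1) (measurable_F6₂ h₀ hu))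

theorem measurable_Gc_line (j : ℕ) {F : ℝ → Ph → ℝ≥0∞}
    (hF : Measurable fun q : ℝ × Ph => F q.1 q.2) : Measurable fun p : Src × Src =>
      Gc hΦ hε.ne' b t' j F p.2.1 p.2.2.1 :=
  (measurable_Gc hΦ hε.ne' b t' j hF).comp ((measurable_fst.comp measurable_snd).prodMk
    (measurable_fst.comp (measurable_snd.comp measurable_snd)))

end terms

end Vale.Agent.P119.PB
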