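import Vale.Agent.P119.PB.Lam6b

/-!
# P119, block PROB: second events, integrated over a law of pairs `(e, m)`, III (`helper178`)

**`lam_gT6_le`**: `gT6_split`, integrated over `lam` (with `HitLam`), everything which is not
exceptional over a fixed world.
-/

open MeasureTheory Filter Topology Set ProbabilityTheory
open scoped ENNReal NNReal

noncomputable section

namespace Vale.Agent.P119.PB

open M CTree KU FB RB AU FL TL

variable {Φ : E3 → ℝ} {ε : ℝ} {L : ℕ} {hΦ : IsPotential Φ} {hε : 0 < ε} {f₀ : Ph → ℝ}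
  {κ b Tm t t' η η' w θ : ℝ} {e m : Src} {lam : Measure (Src × Src)} [SFinite lam]

theorem Gc_const (hΦ : IsPotential Φ) (hε : ε ≠ 0) (b t' : ℝ) (j : ℕ) (c : ℝ≥0∞) (s : ℝ)
    (l : Ph) : Gc hΦ hε b t' j (fun _ _ => c) s l = c * Gc hΦ hε b t' j (fun _ _ => 1) s l := by
  have h := Gc_const_mul hΦ hε b t' j c (F := fun _ _ => 1) measurable_const s l
  simp only [mul_one] at h
  exact h

theorem lintegral_add5 {Ω : Type*} [MeasurableSpace Ω] {P : Measure Ω}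
    {f₁ f₂ f₃ f₄ f₅ : Ω → ℝ≥0∞} (h₁ : Measurable f₁) (h₂ : Measurable f₂)
    (h₃ : Measurable f₃) (h₄ : Measurable f₄) :
    ∫⁻ c, (f₁ c + f₂ c + f₃ c + f₄ c + f₅ c) ∂P =
      (∫⁻ c, f₁ c ∂P) + (∫⁻ c, f₂ c ∂P) + (∫⁻ c, f₃ c ∂P) + (∫⁻ c, f₄ c ∂P) +
        ∫⁻ c, f₅ c ∂P := by
  have a2 : Measurable fun c => f₁ c + f₂ c := h₁.add h₂
  have a3 : Measurable fun c => f₁ c + f₂ c + f₃ c := a2.add h₃
  have a4 : Measurable fun c => f₁ c + f₂ c + f₃ c + f₄ c := a3.add h₄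
  rw [lintegral_add_left a4, lintegral_add_left a3, lintegral_add_left a2,
    lintegral_add_left h₁]

/-- The remainder. -/
theorem lam_rem_eq (h₀ : GoodDatum f₀ κ) (J : ℕ) :
    ∫⁻ p, Gc hΦ hε.ne' b t' J (fun _ _ => tE6 L hΦ hε f₀ η t p.1) p.2.1 p.2.2.1 ∂lam =
      ∫⁻ c, ∫⁻ p, ind (TE L hΦ hε η t (wS (GC.pts c)) p.1) *
        Gc hΦ hε.ne' b t' J (fun _ _ => 1) p.2.1 p.2.2.1 ∂lam ∂(GC.PP f₀ ε) := by
  have := GC.isProbability_PP (ε := ε) h₀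
  have hG : Measurable fun p : Src × Src => Gc hΦ hε.ne' b t' J (fun _ _ => 1) p.2.1 p.2.2.1 :=
    measurable_Gc_line (hε := hε) J measurable_const
  have hT : Measurable fun q : (Src × Src) × GC.Conf Ph =>
      ind (TE L hΦ hε η t (wS (GC.pts q.2)) q.1.1) :=
    measurable_ind (measurableSet_TE (MM.RS.comp RM.rs_conf measurable_snd) measurable_const
      measurable_const (measurable_fst.comp measurable_fst))
  have hm : Measurable fun q : (Src × Src) × GC.Conf Ph =>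
      ind (TE L hΦ hε η t (wS (GC.pts q.2)) q.1.1) *
        Gc hΦ hε.ne' b t' J (fun _ _ => 1) q.1.2.1 q.1.2.2.1 :=
    hT.mul (hG.comp measurable_fst)
  rw [← lintegral_lintegral_swap hm.aemeasurable]
  refine lintegral_congr fun p => ?_
  rw [Gc_const]
  unfold tE6
  have hTc : Measurable fun c : GC.Conf Ph => ind (TE L hΦ hε η t (wS (GC.pts c)) p.1) :=
    measurable_ind (measurableSet_TE RM.rs_conf measurable_const measurable_const
      measurable_const)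
  rw [lintegral_mul_const _ hTc]

theorem measurable_Gc_tE6 (h₀ : GoodDatum f₀ κ) (J : ℕ) : Measurable fun p : Src × Src =>
    Gc hΦ hε.ne' b t' J (fun _ _ => tE6 L hΦ hε f₀ η t p.1) p.2.1 p.2.2.1 := by
  have := GC.isProbability_PP (ε := ε) h₀
  have hG : Measurable fun p : Src × Src => Gc hΦ hε.ne' b t' J (fun _ _ => 1) p.2.1 p.2.2.1 :=
    measurable_Gc_line (hε := hε) J measurable_const
  have hT : Measurable fun q : (Src × Src) × GC.Conf Ph =>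
      ind (TE L hΦ hε η t (wS (GC.pts q.2)) q.1.1) :=
    measurable_ind (measurableSet_TE (MM.RS.comp RM.rs_conf measurable_snd) measurable_const
      measurable_const (measurable_fst.comp measurable_fst))
  have h1 : Measurable fun p : Src × Src => tE6 L hΦ hε f₀ η t p.1 :=
    hT.lintegral_prod_right'
  have e1 : (fun p : Src × Src =>
      Gc hΦ hε.ne' b t' J (fun _ _ => tE6 L hΦ hε f₀ η t p.1) p.2.1 p.2.2.1) =
      fun p : Src × Src => tE6 L hΦ hε f₀ η t p.1 *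
        Gc hΦ hε.ne' b t' J (fun _ _ => 1) p.2.1 p.2.2.1 := by
    funext p
    rw [Gc_const]
  rw [e1]
  exact h1.mul hG

/-- The sum of the over-depth terms. -/
theorem lam_over_sum (h₀ : GoodDatum f₀ κ) {A : ℝ≥0∞} {C : ℕ → ℝ≥0∞}
    (h : HitLam hΦ hε.ne' b t t' A lam C) (hA' : A ≠ ∞) (MA : ℝ≥0∞) (J : ℕ) :
    ∫⁻ p, A ^ p.2.2.2 * (A ^ L)⁻¹ * (∑ j ∈ Finset.range J, MA ^ j *
        Gc hΦ hε.ne' b t' j (FA f₀ Φ ε L t A) p.2.1 p.2.2.1) ∂lam ≤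
      (A ^ L)⁻¹ * ((∑ j ∈ Finset.range J, MA ^ j * C j) * (ENNReal.ofReal (ε ^ 2) *
        XX Φ ε L f₀ t fun _ T => A ^ T.depth * ENNReal.ofReal (1 + ‖(ln Φ ε T).2‖))) := by
  have hd : Measurable fun p : Src × Src => A ^ p.2.2.2 :=
    measurable_powD A (measurable_snd.comp (measurable_snd.comp measurable_snd))
  have hm : ∀ j, Measurable fun p : Src × Src => A ^ p.2.2.2 *
      Gc hΦ hε.ne' b t' j (FA f₀ Φ ε L t A) p.2.1 p.2.2.1 := fun j =>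
    hd.mul (measurable_Gc_line (hε := hε) j (measurable_FA h₀ hΦ hε))
  calc _ = ∫⁻ p, (A ^ L)⁻¹ * (∑ j ∈ Finset.range J, MA ^ j * (A ^ p.2.2.2 *
        Gc hΦ hε.ne' b t' j (FA f₀ Φ ε L t A) p.2.1 p.2.2.1)) ∂lam := by
        refine lintegral_congr fun p => ?_
        rw [mul_comm (A ^ p.2.2.2), mul_assoc, Finset.mul_sum]
        congr 1
        refine Finset.sum_congr rfl fun j _ => ?_
        ring
    _ = (A ^ L)⁻¹ * ∑ j ∈ Finset.range J, MA ^ j * ∫⁻ p, A ^ p.2.2.2 *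
        Gc hΦ hε.ne' b t' j (FA f₀ Φ ε L t A) p.2.1 p.2.2.1 ∂lam := by
        rw [lintegral_const_mul _ (Finset.measurable_sum _ fun j _ => (hm j).const_mul _),
          lintegral_finsetSum _ fun j _ => (hm j).const_mul _]
        congr 1
        exact Finset.sum_congr rfl fun j _ => lintegral_const_mul _ (hm j)
    _ ≤ _ := by
        refine mul_le_mul' le_rfl ?_
        rw [Finset.sum_mul]
        refine Finset.sum_le_sum fun j _ => ?_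
        rw [mul_assoc]
        exact mul_le_mul' le_rfl (h.over_le h₀ hε hA' j)

/-- The sum of the atypical terms. -/
theorem lam_aty_sum (h₀ : GoodDatum f₀ κ) {A : ℝ≥0∞} {C : ℕ → ℝ≥0∞}
    (h : HitLam hΦ hε.ne' b t t' A lam C) (hA : 1 ≤ A) (hA' : A ≠ ∞)
    (ν : Kernel (GC.Conf Ph) Src) [IsSFiniteKernel ν] (M₁ : ℝ≥0∞) (J : ℕ) :
    ∫⁻ p, 5 * (∑ j ∈ Finset.range J, M₁ ^ j *
        Gc hΦ hε.ne' b t' j (atyL (GC.PP f₀ ε) (fun c => ν c) ε t) p.2.1 p.2.2.1) ∂lam ≤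
      5 * ((∑ j ∈ Finset.range J, M₁ ^ j * C j) * (ENNReal.ofReal (ε ^ 2) *
        (muE ε * ∫⁻ c, ∫⁻ p, ENNReal.ofReal (1 + ‖p.2.1.2‖) ∂(ν c) ∂(GC.PP f₀ ε)))) := by
  have hm : ∀ j, Measurable fun p : Src × Src =>
      Gc hΦ hε.ne' b t' j (atyL (GC.PP f₀ ε) (fun c => ν c) ε t) p.2.1 p.2.2.1 := fun j =>
    measurable_Gc_line (hε := hε) j (measurable_atyL h₀ ν)
  rw [lintegral_const_mul _ (Finset.measurable_sum _ fun j _ => (hm j).const_mul _),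
    lintegral_finsetSum _ fun j _ => (hm j).const_mul _]
  refine mul_le_mul' le_rfl ?_
  rw [Finset.sum_mul]
  refine Finset.sum_le_sum fun j _ => ?_
  rw [lintegral_const_mul _ (hm j), mul_assoc]
  exact mul_le_mul' le_rfl (h.aty_le h₀ hA hA' ν j)

/-- **The second events, integrated over the law of the pairs `(e, m)`.** -/
theorem lam_gT6_le (h₀ : GoodDatum f₀ κ) (ht : 0 ≤ t) (htT : t ≤ Tm) (hη : 0 < η) (hηη : η < η')
    (hw : t ≤ w) {α : ℕ → ℝ≥0∞} {ν : Kernel (GC.Conf Ph) Src} [IsSFiniteKernel ν]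
    (hcap : CapI Φ ε L f₀ b Tm α fun c => ν c) {J : ℕ} (hJ : 0 < J) (htt : t < t')
    {A : ℝ≥0∞} (hA : 1 ≤ A) (hA' : A ≠ ∞) {a : ℕ → ℝ≥0∞}
    (ha : a = fun n => α n * ENNReal.ofReal (1 + Tm))
    (hlam : ∀ᵐ p ∂lam, 0 ≤ p.1.1 ∧ p.1.2.2 ≤ L ∧ 0 ≤ p.2.1) {C : ℕ → ℝ≥0∞}
    (hH : HitLam hΦ hε.ne' b t t' A lam C) {u : Src × Src → ℝ} (hu : Measurable u) :
    ∫⁻ p, gT6 L hΦ hε f₀ η t p.1 p.2 ∂lam ≤
      (∑ j ∈ Finset.range J, (∑' n, a n) ^ j *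
        ∫⁻ c, ∫⁻ p, Gc hΦ hε.ne' b t' j
          (F6w L hΦ hε b a η' t w (u p) (wS (GC.pts c)) p.1) p.2.1 p.2.2.1 ∂lam ∂(GC.PP f₀ ε)) +
      (∑' n, a n) ^ J * (∫⁻ c, ∫⁻ p, ind (TE L hΦ hε η' t (wS (GC.pts c)) p.1) *
        Gc hΦ hε.ne' b t' J (fun _ _ => 1) p.2.1 p.2.2.1 ∂lam ∂(GC.PP f₀ ε)) +
      (A ^ L)⁻¹ * ((∑ j ∈ Finset.range J,
          (A * (∑' n, a n + ∑' n, a n * A ^ n)) ^ j * C j) * (ENNReal.ofReal (ε ^ 2) *
        XX Φ ε L f₀ t fun _ T => A ^ T.depth * ENNReal.ofReal (1 + ‖(ln Φ ε T).2‖))) +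
      5 * ((∑ j ∈ Finset.range J, (∑' n, a n) ^ j * C j) * (ENNReal.ofReal (ε ^ 2) *
        (muE ε * ∫⁻ c, ∫⁻ p, ENNReal.ofReal (1 + ‖p.2.1.2‖) ∂(ν c) ∂(GC.PP f₀ ε)))) +
      ∑ j ∈ Finset.range J, ∫⁻ p, KIt Φ ε b t a j
        (E6 L hΦ hε f₀ η' ((η' - η) / J) t p.1) p.2 ∂lam := by
  have m1 : Measurable fun p : Src × Src => ∑ j ∈ Finset.range J, (∑' n, a n) ^ j *
      Gc hΦ hε.ne' b t' j (F6 L hΦ hε f₀ b a η' t w (u p) p.1) p.2.1 p.2.2.1 :=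
    Finset.measurable_sum _ fun j _ => (measurable_Gc_F6 h₀ hu j).const_mul _
  have m2 : Measurable fun p : Src × Src => (∑' n, a n) ^ J *
      Gc hΦ hε.ne' b t' J (fun _ _ => tE6 L hΦ hε f₀ η' t p.1) p.2.1 p.2.2.1 :=
    (measurable_Gc_tE6 h₀ J).const_mul _
  have m3 : Measurable fun p : Src × Src => A ^ p.2.2.2 * (A ^ L)⁻¹ *
      (∑ j ∈ Finset.range J, (A * (∑' n, a n + ∑' n, a n * A ^ n)) ^ j *
        Gc hΦ hε.ne' b t' j (FA f₀ Φ ε L t A) p.2.1 p.2.2.1) :=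
    ((measurable_powD A (measurable_snd.comp (measurable_snd.comp measurable_snd))).mul_const
      _).mul (Finset.measurable_sum _ fun j _ =>
        (measurable_Gc_line (hε := hε) j (measurable_FA h₀ hΦ hε)).const_mul _)
  have m4 : Measurable fun p : Src × Src => 5 * (∑ j ∈ Finset.range J, (∑' n, a n) ^ j *
      Gc hΦ hε.ne' b t' j (atyL (GC.PP f₀ ε) (fun c => ν c) ε t) p.2.1 p.2.2.1) :=
    (Finset.measurable_sum _ fun j _ =>
      (measurable_Gc_line (hε := hε) j (measurable_atyL h₀ ν)).const_mul _).const_mul _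
  have m5 : ∀ j, Measurable fun p : Src × Src => KIt Φ ε b t a j
      (E6 L hΦ hε f₀ η' ((η' - η) / J) t p.1) p.2 := fun j => measurable_KIt_E6 h₀ j
  calc _ ≤ ∫⁻ p, ((∑ j ∈ Finset.range J, (∑' n, a n) ^ j *
        Gc hΦ hε.ne' b t' j (F6 L hΦ hε f₀ b a η' t w (u p) p.1) p.2.1 p.2.2.1) +
      (∑' n, a n) ^ J *
        Gc hΦ hε.ne' b t' J (fun _ _ => tE6 L hΦ hε f₀ η' t p.1) p.2.1 p.2.2.1 +
      A ^ p.2.2.2 * (A ^ L)⁻¹ * (∑ j ∈ Finset.range J,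
        (A * (∑' n, a n + ∑' n, a n * A ^ n)) ^ j *
        Gc hΦ hε.ne' b t' j (FA f₀ Φ ε L t A) p.2.1 p.2.2.1) +
      5 * (∑ j ∈ Finset.range J, (∑' n, a n) ^ j *
        Gc hΦ hε.ne' b t' j (atyL (GC.PP f₀ ε) (fun c => ν c) ε t) p.2.1 p.2.2.1) +
      ∑ j ∈ Finset.range J, KIt Φ ε b t a j
        (E6 L hΦ hε f₀ η' ((η' - η) / J) t p.1) p.2) ∂lam := by
        refine lintegral_mono_ae ?_
        filter_upwards [hlam] with p hp
        exact gT6_split h₀ ht htT hη hηη hw hp.1 hp.2.1 hcap hJ htt hA hA' ha hp.2.2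
    _ = (∫⁻ p, (∑ j ∈ Finset.range J, (∑' n, a n) ^ j *
        Gc hΦ hε.ne' b t' j (F6 L hΦ hε f₀ b a η' t w (u p) p.1) p.2.1 p.2.2.1) ∂lam) +
      (∫⁻ p, (∑' n, a n) ^ J *
        Gc hΦ hε.ne' b t' J (fun _ _ => tE6 L hΦ hε f₀ η' t p.1) p.2.1 p.2.2.1 ∂lam) +
      (∫⁻ p, A ^ p.2.2.2 * (A ^ L)⁻¹ * (∑ j ∈ Finset.range J,
        (A * (∑' n, a n + ∑' n, a n * A ^ n)) ^ j *
        Gc hΦ hε.ne' b t' j (FA f₀ Φ ε L t A) p.2.1 p.2.2.1) ∂lam) +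
      (∫⁻ p, 5 * (∑ j ∈ Finset.range J, (∑' n, a n) ^ j *
        Gc hΦ hε.ne' b t' j (atyL (GC.PP f₀ ε) (fun c => ν c) ε t) p.2.1 p.2.2.1) ∂lam) +
      ∫⁻ p, (∑ j ∈ Finset.range J, KIt Φ ε b t a j
        (E6 L hΦ hε f₀ η' ((η' - η) / J) t p.1) p.2) ∂lam := lintegral_add5 m1 m2 m3 m4
    _ ≤ _ := by
        refine add_le_add (add_le_add (add_le_add (add_le_add (le_of_eq ?_) (le_of_eq ?_)) ?_) ?_)
          (le_of_eq ?_)
        · rw [lintegral_finsetSum _ fun j _ => (measurable_Gc_F6 h₀ hu j).const_mul _]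
          refine Finset.sum_congr rfl fun j _ => ?_
          rw [lintegral_const_mul _ (measurable_Gc_F6 h₀ hu j), lam_main_eq h₀ hu j]
        · rw [lintegral_const_mul _ (measurable_Gc_tE6 h₀ J), lam_rem_eq h₀ J]
        · exact lam_over_sum (hε := hε) h₀ hH hA' _ J
        · exact lam_aty_sum (hε := hε) h₀ hH hA hA' ν _ J
        · exact lintegral_finsetSum _ fun j _ => m5 j

end Vale.Agent.P119.PB
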