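import Vale.Agent.P119.PB.MainL

/-!
# P119, P8: the mass of the laws dominated by a sum of laws A (`helper755`)

* `srcJ_tE6_le`: the crude bound of the sources which touch;
* `mass8_domA`: the field `mass` of `Law8`.
-/

open MeasureTheory Set Filter Topology Metric ProbabilityTheory
open scoped ENNReal

noncomputable section

namespace Vale.Agent.P119.PB

open M CTree KU FB RB AU FL TL EN

variable {Φ : E3 → ℝ} {ε : ℝ} {L : ℕ} {hΦ : IsPotential Φ} {hε : 0 < ε} {f₀ : Ph → ℝ}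
  {κ bE b t η B β T : ℝ} {n : ℕ}

/-- The crude constant of the sources which touch. -/
def cTc (B β T : ℝ) (f₀ : Ph → ℝ) : ℝ≥0∞ :=
  ENNReal.ofReal T * (Cd β * (2 * (1 + ENNReal.ofReal T) * ENNReal.ofReal (2 + 2 * B)) * m2 f₀)

theorem cTc_ne_top (hm : m2 f₀ < ∞) : cTc B β T f₀ ≠ ∞ := by
  unfold cTc
  exact ENNReal.mul_ne_top ENNReal.ofReal_ne_top (ENNReal.mul_ne_top (ENNReal.mul_ne_top
    (Cd_ne_top _) (ENNReal.mul_ne_top (ENNReal.mul_ne_top (by norm_num)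
      (ENNReal.add_ne_top.2 ⟨ENNReal.one_ne_top, ENNReal.ofReal_ne_top⟩))
      ENNReal.ofReal_ne_top)) hm.ne)

/-- **The crude bound of the sources which touch.** -/
theorem srcJ_tE6_le (h₀ : GoodDatum f₀ κ) (hB : RW.StableWith Φ B) (hε1 : ε ≤ 1) (hβ : 0 < β)
    (hη : 0 < η) (htT : t ≤ T) (hn : n ≤ L) :
    (srcJ β t fun y => tE6 L hΦ hε f₀ η t (srcN n y)) ≤ cTc B β T f₀ := by
  have := GC.isProbability_PP (ε := ε) h₀
  have hF : Measurable fun p : GC.Conf Ph × (ℝ × Ph) =>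
      ind (TE L hΦ hε η t (wS (GC.pts p.1)) (srcN n p.2)) :=
    measurable_ind (RM.measurableSet_touch (RM.rs_wS measurable_fst)
      (RM.rs_insert (RM.rs_wS measurable_fst) ((measurable_srcN n).comp measurable_snd))
      (RM.measurable_hz (RM.rs_insert (RM.rs_wS measurable_fst)
        ((measurable_srcN n).comp measurable_snd)) measurable_const measurable_const))
  have e1 : (srcJ β t fun y => tE6 L hΦ hε f₀ η t (srcN n y)) =
      ∫⁻ c, srcJ β t (fun y => ind (TE L hΦ hε η t (wS (GC.pts c)) (srcN n y)))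
        ∂(GC.PP f₀ ε) := (lintegral_srcJ (GC.PP f₀ ε) hF).symm
  rw [e1]
  have h1 : ∀ᵐ c ∂(GC.PP f₀ ε), srcJ β t (fun y => ind (TE L hΦ hε η t (wS (GC.pts c))
      (srcN n y))) ≤ ENNReal.ofReal T * crG B β T ε (wS (GC.pts c)) := by
    filter_upwards [GC.ae_excl f₀ ε] with c hc
    unfold srcJ
    calc ∫⁻ σ in Icc (0 : ℝ) t, ∫⁻ z : Ph, gw β z.2 *
          ind (TE L hΦ hε η t (wS (GC.pts c)) (srcN n (σ, z)))
        ≤ ∫⁻ _ in Icc (0 : ℝ) t, crG B β T ε (wS (GC.pts c)) :=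
          setLIntegral_mono' measurableSet_Icc fun σ hσ =>
            (le_sTE (L := L) (n := n) _ hσ hn).trans (sTE_le hΦ hB hε hc hβ hη htT)
      _ = ENNReal.ofReal (t - 0) * crG B β T ε (wS (GC.pts c)) := by
          rw [setLIntegral_const, Real.volume_Icc, mul_comm]
      _ ≤ _ := by
          rw [sub_zero]
          exact mul_le_mul_left (ENNReal.ofReal_le_ofReal htT) _
  refine (lintegral_mono_ae h1).trans ?_
  rw [lintegral_const_mul' _ _ ENNReal.ofReal_ne_top]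
  unfold cTc
  exact mul_le_mul' le_rfl (lintegral_crG_le h₀ hε hε1 hB.1)

/-- **The mass of a law which is dominated by a sum of laws A.** -/
theorem mass8_domA {a' : ℕ → ℝ} {kV : ℝ≥0∞ → ℝ≥0∞} {lam : Lam8} (hΦ : IsPotential Φ)
    (h₀ : GoodDatum f₀ κ) (hm : m2 f₀ < ∞) (hB : RW.StableWith Φ B) (hb : 0 < b) (hbE : b ≤ bE)
    (hT : 0 < T) (hkV : ∀ x, x ≠ ∞ → kV x ≠ ∞)
    (hok : ∀ᶠ L in atTop, ∀ᶠ ε in 𝓝[>] (0 : ℝ), ∀ hε : 0 < ε, ∀ t ∈ Icc 0 T,
      ∀ᵐ x ∂(lam L ε hε t), 0 ≤ x.1.1 ∧ x.1.2.2 ≤ L ∧ 0 ≤ x.2.1)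
    (hdom : ∀ᶠ L in atTop, ∀ᶠ ε in 𝓝[>] (0 : ℝ), ∀ hε : 0 < ε, ∀ t ∈ Icc 0 T,
      DomA ε bE b t (T + 1) (vA a') kV (lam L ε hε t)) :
    ∀ᶠ L in atTop, ∀ η ∈ Ioc (0 : ℝ) 1, ∃ C : ℝ≥0∞, C ≠ ∞ ∧
      ∀ᶠ ε in 𝓝[>] (0 : ℝ), ∀ hε : 0 < ε, ∀ t ∈ Icc 0 T,
        ∫⁻ x, tE6 L hΦ hε f₀ η t x.1 ∂(lam L ε hε t) ≤ C := by
  have hbE0 : 0 < bE := hb.trans_le hbE
  have hx : ENNReal.ofReal (Kc b * (T + 1)) ≠ ∞ := ENNReal.ofReal_ne_top
  set x₀ := ENNReal.ofReal (Kc b * (T + 1)) with hx₀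
  set CC : ℝ≥0∞ := K1.sig univ * I0 (b / 2) * (ENNReal.ofReal (1 + 1 / √bE) *
    cTc B (bE / 2) T f₀) with hCC
  have hCCt : CC ≠ ∞ := ENNReal.mul_ne_top (ENNReal.mul_ne_top K1.sig_univ_lt.ne
    (I0_ne_top (by positivity))) (ENNReal.mul_ne_top ENNReal.ofReal_ne_top (cTc_ne_top hm))
  filter_upwards [hok, hdom] with L hok hdom η hη
  refine ⟨kV x₀ * CC, ENNReal.mul_ne_top (hkV _ hx) hCCt, ?_⟩
  filter_upwards [hok, hdom, Ioc_mem_nhdsGT (zero_lt_one' ℝ)] with ε hok hdom hε1 hε t ht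
  obtain ⟨t₂, ht₂, K', _, c, N, S', dE, dM, β, hβm, hend, hle, hkp⟩ := hdom hε t ht
  set G : Set Src := {e | e.2.2 ≤ L} with hG
  have hGm : MeasurableSet G := measurableSet_le measurable_snd.snd measurable_const
  have hmt : Measurable fun e : Src => tE6 L hΦ hε f₀ η t e := measurable_tE6' h₀
  have hf : Measurable fun x : Src × Src => ind (x.1 ∈ G) * tE6 L hΦ hε f₀ η t x.1 :=
    (measurable_indG hGm measurable_fst).mul (hmt.comp measurable_fst)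
  have e1 : ∫⁻ x, tE6 L hΦ hε f₀ η t x.1 ∂(lam L ε hε t) =
      ∫⁻ x, ind (x.1 ∈ G) * tE6 L hΦ hε f₀ η t x.1 ∂(lam L ε hε t) := by
    refine lintegral_congr_ae ?_
    filter_upwards [hok hε t ht] with x hx
    rw [ind_of (show x.1 ∈ G from hx.2.1), one_mul]
  rw [e1]
  refine (lintegral_mono' hle le_rfl).trans ?_
  rw [lintegral_lamS hβm hf]
  calc ∑' k, c k * ∫⁻ x, ind ((phS ε (S' k) (dE k) (dM k) (β k) x).1 ∈ G) *
        tE6 L hΦ hε f₀ η t (phS ε (S' k) (dE k) (dM k) (β k) x).1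
          ∂(lawA ε bE b t t₂ (N k) (S' k))
      ≤ ∑' k, (c k * vA a' (dE k) * fS x₀ (N k)) * CC := by
        refine ENNReal.tsum_le_tsum fun k => ?_
        have h1 : ∫⁻ x, ind ((phS ε (S' k) (dE k) (dM k) (β k) x).1 ∈ G) *
            tE6 L hΦ hε f₀ η t (phS ε (S' k) (dE k) (dM k) (β k) x).1
            ∂(lawA ε bE b t t₂ (N k) (S' k)) ≤ fS x₀ (N k) * CC := by
          refine (lintegral_mono' (lawA_mono ht₂ (S' k)) le_rfl).trans ?_
          refine (lawA_tE6_le (f₀ := f₀) (L := L) (hΦ := hΦ) (hε := hε) (η := η) h₀ hb hbE0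
            (by linarith) (by linarith [ht.2]) hGm (dE k)).trans ?_
          refine mul_le_mul' le_rfl (mul_le_mul' le_rfl (mul_le_mul' le_rfl ?_))
          by_cases hd : dE k ≤ L
          · refine (srcJ_mono fun y => ?_).trans (srcJ_tE6_le (L := L) (hΦ := hΦ) (hε := hε)
              (n := dE k) h₀ hB hε1.2 (by positivity) hη.1 ht.2 hd)
            exact (mul_le_mul' (ind_le_one _) le_rfl).trans (le_of_eq (one_mul _))
          · have h0 : ∀ y : ℝ × Ph, ind ((y.1, y.2, dE k) ∈ G) *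
                tE6 L hΦ hε f₀ η t (y.1, y.2, dE k) = 0 := fun y => by
              rw [ind_of_not fun h : ((y.1, y.2, dE k) : Src) ∈ G => hd h, zero_mul]
            simp only [h0]
            unfold srcJ
            simp
        calc c k * ∫⁻ x, ind ((phS ε (S' k) (dE k) (dM k) (β k) x).1 ∈ G) *
              tE6 L hΦ hε f₀ η t (phS ε (S' k) (dE k) (dM k) (β k) x).1
              ∂(lawA ε bE b t t₂ (N k) (S' k)) ≤ c k * (fS x₀ (N k) * CC) :=
              mul_le_mul' le_rfl h1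
          _ = c k * 1 * fS x₀ (N k) * CC := by ring
          _ ≤ _ := mul_le_mul' (mul_le_mul' (mul_le_mul' le_rfl (one_le_vA a' _)) le_rfl) le_rfl
    _ = kpS (fun k => c k * vA a' (dE k)) N x₀ * CC := by
        rw [ENNReal.tsum_mul_right]
        rfl
    _ ≤ _ := mul_le_mul' (hkp x₀) le_rfl

end Vale.Agent.P119.PB
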