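import Vale.Agent.P119.PB.LamB
import Vale.Agent.P119.PB.BLB
import Vale.Agent.P119.PB.MassL
import Vale.Agent.P119.PB.AwB
import Vale.Agent.P119.PB.Hit8

/-!
# P119, second events: the law B, mass (`helper690`)

* `lawA_eH_le`, `lintegral_lamB_le`: functions of `e` under the law B;
* `sum_aw_one`: the mass of the indices;
* **`mass8_lam8B`**: the field `mass` of `Law8` for `lam8B`.
-/

open MeasureTheory Set Filter Topology Metric ProbabilityTheory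
open scoped ENNReal

noncomputable section

namespace Vale.Agent.P119.PB

open M CTree KU FL FB RB AU TL EX EN

variable {Φ : E3 → ℝ} {ε b t T : ℝ} {L n : ℕ} {hΦ : IsPotential Φ} {hε : 0 < ε} {f₀ : Ph → ℝ}
  {κ η B : ℝ}

/-! ### Functions of `e` under the law B -/

/-- **The law A with the roles exchanged, functions of `e`.** -/
theorem lawA_eH_le (hb : 0 < b) (ht : 0 ≤ t) (o : Fin (n + 1) → Bool) {g : ℝ × Ph → ℝ≥0∞}
    (hg : Measurable g) :
    ∫⁻ x, (Iic t).indicator (fun _ => g (eH Φ ε (outS hΦ hε.ne' (n + 1) o) (hdA x)))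
        (eH Φ ε (outS hΦ hε.ne' (n + 1) o) (hdA x)).1
        ∂(lawA ε b b t t (n + 1) (outS hΦ hε.ne' (n + 1) o)) ≤
      CmB b t t n 0 * srcJ (b / 8) t g := by
  set S := outS hΦ hε.ne' (n + 1) o with hS
  set F : Ph × (Fin (n + 1) → Ph) × Ph → ℝ≥0∞ := fun h =>
    (Iic t).indicator (fun _ => g (eH Φ ε S h)) (eH Φ ε S h).1 with hF
  have heH := measurable_eH (ε := ε) (n := n) hΦ S
  have hFm : Measurable F := by
    have e : F = {h : Ph × (Fin (n + 1) → Ph) × Ph | (eH Φ ε S h).1 ≤ t}.indicator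
        fun h => g (eH Φ ε S h) := by
      funext h
      by_cases hh : (eH Φ ε S h).1 ≤ t
      · rw [hF]
        simp only
        rw [indicator_of_mem (show (eH Φ ε S h).1 ∈ Iic t from hh), indicator_of_mem
          (show h ∈ {h : Ph × (Fin (n + 1) → Ph) × Ph | (eH Φ ε S h).1 ≤ t} from hh)]
      · rw [hF]
        simp only
        rw [indicator_of_notMem (show (eH Φ ε S h).1 ∉ Iic t from hh), indicator_of_notMem
          (show h ∉ {h : Ph × (Fin (n + 1) → Ph) × Ph | (eH Φ ε S h).1 ≤ t} from hh)]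
    rw [e]
    exact (hg.comp heH).indicator (measurableSet_le heH.fst measurable_const)
  have e1 : ∫⁻ x, F (hdA x) ∂(lawA ε b b t t (n + 1) S) =
      ∫⁻ x : XB n 0, F (hdB x) ∂(lawB ε b t t n 0 S S) := by
    rw [lintegral_lawA_hd S hFm]
    have h := lintegral_lawB_end (ε := ε) (b := b) (t := t) (t₂ := t) (n := n) (S := S) 0 S
      (G := fun h _ _ => F h) (hFm.comp measurable_fst)
    exact h.symm
  change ∫⁻ x, F (hdA x) ∂(lawA ε b b t t (n + 1) S) ≤ _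
  rw [e1]
  have hBL := BL_lineB (b := b) (t := t) (t₁ := t) (t₂ := t) (δ := 1) (n := n) (j := 0)
    (S := S) (S' := S) hε hb one_pos ht le_rfl le_rfl (revStep_outS hΦ hε (n + 1) o)
    (exh_outS hΦ hε (n + 1) o n)
  refine hBL.mass _ _ (hFm.comp measurable_hdB) hg fun x _ hx => ?_
  have e2 : eB (exq Φ ε (outS hΦ hε.ne' (n + 1) o n)) S x = eH Φ ε S (hdB x) := eB_exq S x
  rw [e2]
  by_cases h : (eH Φ ε S (hdB x)).1 ≤ t
  · refine ⟨h, ?_⟩
    rw [hF]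
    simp only
    rw [indicator_of_mem (show (eH Φ ε S (hdB x)).1 ∈ Iic t from h)]
  · exact absurd (indicator_of_notMem (show (eH Φ ε S (hdB x)).1 ∉ Iic t from h) _) hx

/-- **Functions of `e` under the law B.** -/
theorem lintegral_lamB_le (hb : 0 < b) (ht : 0 ≤ t) {α c : ℕ → ℝ≥0∞} (hc0 : c 0 = 0)
    {g : Src → ℝ≥0∞} (hg : Measurable g) :
    ∫⁻ p, g p.1 ∂(lamB hΦ hε.ne' b t α L c) ≤
      ∑' n, c (n + 1) * ∑' y : Ix (n + 1), aw α y * (if dM y ≤ L then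
        CmB b t t n 0 * (srcJ (b / 8) t fun z => g (srcN (dM y) z)) else 0) := by
  have hf : Measurable fun p : Src × Src => g p.1 := hg.comp measurable_fst
  have hfs : Measurable fun z : Src × Src => g z.2 := hg.comp measurable_snd
  unfold lamB
  rw [lintegral_map hf measurable_swap]
  change ∫⁻ z, g z.2 ∂(lamN hΦ hε.ne' b t t α L c) ≤ _
  rw [lintegral_lamN hΦ hε.ne' b t t α L c hfs, _root_.tsum_eq_zero_add' ENNReal.summable, hc0,
    zero_mul, zero_add]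
  refine ENNReal.tsum_le_tsum fun n => mul_le_mul' le_rfl (ENNReal.tsum_le_tsum fun y =>
    mul_le_mul' le_rfl ?_)
  by_cases hd : dM y ≤ L
  swap
  · rw [if_neg hd]
    refine le_of_eq ?_
    have h0 : ∀ x : XA (n + 1), (SS t L).indicator (fun z : Src × Src => g z.2)
        (srcP hΦ hε.ne' y x) = 0 := fun x =>
      indicator_of_notMem (fun h => hd h.2.2.2) _
    simp only [h0, lintegral_zero]
  rw [if_pos hd]
  refine le_trans (lintegral_mono fun x => ?_) (lawA_eH_le (hΦ := hΦ) (hε := hε) (n := n) hb ht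
    (fun j => (y.2.2 j).1) (g := fun z => g (srcN (dM y) z)) (hg.comp (measurable_srcN _)))
  by_cases hx : srcP hΦ hε.ne' y x ∈ SS t L
  swap
  · rw [indicator_of_notMem hx]; exact zero_le
  rw [indicator_of_mem hx]
  have h1 : srcM hΦ hε.ne' y x ∈ FL.srcS t L := hx.2
  have e1 : (srcP hΦ hε.ne' y x).2 = srcN (dM y) (eH Φ ε (ixS hΦ hε.ne' y) (hdA x)) :=
    srcM_eq hΦ hε.ne' y x
  have h2 : (eH Φ ε (ixS hΦ hε.ne' y) (hdA x)).1 ≤ t := by
    have h3 : (srcM hΦ hε.ne' y x).1 ≤ t := h1.2.1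
    rw [srcM_eq] at h3
    exact h3
  have e2 : ixS hΦ hε.ne' y = outS hΦ hε.ne' (n + 1) (fun j => (y.2.2 j).1) := rfl
  rw [e1, ← e2, indicator_of_mem (show (eH Φ ε (ixS hΦ hε.ne' y) (hdA x)).1 ∈ Iic t from h2)]

/-! ### The mass -/

/-- The mass of the indices. -/
theorem sum_aw_one (α : ℕ → ℝ≥0∞) (N : ℕ) :
    ∑' y : Ix N, aw α y = (∑' d, α d) ^ 2 * (2 * ∑' d, α d) ^ N := by
  have h := sum_aw_mul (α := α) (N := N) fun _ _ => 1
  simp only [mul_one] at h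
  rw [h]
  congr 1
  simp_rw [ENNReal.tsum_mul_left]
  rw [ENNReal.tsum_mul_right, sq]

variable {b₀ l₁ l₂ Q : ℝ} {m αP a : ℕ → ℝ}

/-- **The field `mass` of `Law8` for the law B.** -/
theorem mass8_lam8B (hP : PB.Par T b₀ m b l₁ l₂ Q αP a) (hΦ : IsPotential Φ)
    (h₀ : GoodDatum f₀ κ) (hB : RW.StableWith Φ B) (hm2 : m2 f₀ < ∞) (q : ℕ) :
    ∀ᶠ L in atTop, ∀ η ∈ Ioc (0 : ℝ) 1, ∃ C : ℝ≥0∞, C ≠ ∞ ∧
      ∀ᶠ ε in 𝓝[>] (0 : ℝ), ∀ hε : 0 < ε, ∀ t ∈ Icc 0 T,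
        ∫⁻ x, tE6 L hΦ hε f₀ η t x.1 ∂(lam8B hΦ (b₀ / 2) T m q L ε hε t) ≤ C := by
  have hb₀ := hP.b₀0
  have hT := hP.T0
  set r : ℝ := b₀ / 2 / 2 with hr
  have hr0 : 0 < r := by positivity
  set A : ℝ≥0∞ := ∑' d, aM8 m d with hA
  have hAt : A ≠ ∞ := by
    have h1 := tsum_aM8_ne_top hP.msup (A := 1) ENNReal.one_ne_top
    simpa only [one_pow, mul_one] using h1
  set K := K8 T with hK
  have hKt : K ≠ ∞ := K8_ne_top
  set c₁ : ℝ≥0∞ := cTR (b₀ / 2) T (K * A) q with hc₁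
  have hc₁t : c₁ ≠ ∞ := cTR_ne_top (ENNReal.mul_ne_top hKt hAt) hT.le q
  set x : ℝ≥0∞ := xB r T with hx
  have hxt : x ≠ ∞ := xB_ne_top r T
  set Y : ℝ≥0∞ := cTc B (r / 8) T f₀ with hY
  have hYt : Y ≠ ∞ := cTc_ne_top hm2
  set C₀ : ℝ≥0∞ := c₁ * K ^ 3 * (A ^ 2 * (2 * A)) * (KBB r 1 T * fS x 0 * Y) with hC₀
  have hC₀t : C₀ ≠ ∞ := by
    refine ENNReal.mul_ne_top (ENNReal.mul_ne_top (ENNReal.mul_ne_top hc₁t
      (ENNReal.pow_ne_top hKt)) (ENNReal.mul_ne_top (ENNReal.pow_ne_top hAt)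
        (ENNReal.mul_ne_top (by norm_num) hAt))) (ENNReal.mul_ne_top
          (ENNReal.mul_ne_top (KBB_ne_top hr0 1 T) (fS_ne_top hxt 0)) hYt)
  refine Eventually.of_forall fun L η hη => ?_
  refine ⟨C₀ * ∑' n, fS (K * (2 * A) * x) n, ENNReal.mul_ne_top hC₀t (tsum_fS_ne_top
    (ENNReal.mul_ne_top (ENNReal.mul_ne_top hKt (ENNReal.mul_ne_top (by norm_num) hAt)) hxt)), ?_⟩
  filter_upwards [Ioc_mem_nhdsGT (zero_lt_one' ℝ)] with ε hε1 hε t ht
  have hg : Measurable (tE6 L hΦ hε f₀ η t) := measurable_tE6' h₀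
  have h1 := lintegral_lamB_le (hΦ := hΦ) (hε := hε) (L := L) (b := r) (t := t) hr0 ht.1
    (α := aM8 m) (c := cAl (b₀ / 2) t K (aM8 m) q) rfl hg
  refine (show ∫⁻ x, tE6 L hΦ hε f₀ η t x.1 ∂(lam8B hΦ (b₀ / 2) T m q L ε hε t) ≤ _ from
    h1).trans ?_
  rw [← ENNReal.tsum_mul_left]
  refine ENNReal.tsum_le_tsum fun n => ?_
  have h2 : ∀ y : Ix (n + 1), aw (aM8 m) y * (if dM y ≤ L then
      CmB r t t n 0 * (srcJ (r / 8) t fun z => tE6 L hΦ hε f₀ η t (srcN (dM y) z)) else 0) ≤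
      aw (aM8 m) y * (KBB r 1 T * fS x n * fS x 0 * Y) := by
    intro y
    refine mul_le_mul' le_rfl ?_
    split_ifs with hd
    · exact mul_le_mul' (CmB_le ht.1 ht.2 ht.1 ht.2 n 0)
        (srcJ_tE6_le h₀ hB hε1.2 (by positivity) hη.1 ht.2 hd)
    · exact zero_le
  have h3 : cAl (b₀ / 2) t K (aM8 m) q (n + 1) ≤ c₁ * K ^ (n + 3) :=
    mul_le_mul' (cTR_mono ht.1 ht.2 _ q) le_rfl
  calc _ ≤ (c₁ * K ^ (n + 3)) * ∑' y : Ix (n + 1), aw (aM8 m) y *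
        (KBB r 1 T * fS x n * fS x 0 * Y) :=
        mul_le_mul' h3 (ENNReal.tsum_le_tsum h2)
    _ = (c₁ * K ^ (n + 3)) * ((A ^ 2 * (2 * A) ^ (n + 1)) *
        (KBB r 1 T * fS x n * fS x 0 * Y)) := by
        rw [ENNReal.tsum_mul_right, sum_aw_one]
    _ = C₀ * ((K * (2 * A)) ^ n * fS x n) := by
        rw [hC₀, mul_pow K (2 * A) n, pow_add K n 3, pow_succ (2 * A) n]
        ring
    _ = _ := by rw [mul_fS]

end Vale.Agent.P119.PB
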