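import Vale.Agent.P119.FL.LamC
import Vale.Agent.P119.PB.SE14

/-!
# P119, block PROB: the law of the data of a marked node (`helper298`)

* `Ix N`: the depths of the two subtrees of a marked node, the sides and the depths of the siblings;
  `aw α`: their weight; `ixS`: the steps of the spine;
* `mkD q`: the index and the lines `(e, β, p)` of a marked node: the exhaust, its sister, the
  siblings;
* `mk_raw`: the law of the lines and depths of the pieces of a marked node;
* `mkD_le`: **the law of the data of a marked node is at most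
  `μ K^(N+2) ∑_y aw y • lawA ε b b t t N (ixS y)`**, on the ok trees with exit time `≤ t`.
-/

open MeasureTheory Set Filter Topology Metric
open scoped ENNReal

noncomputable section

namespace Vale.Agent.P119.PB

open KU M M.CTree FL Cap

variable {Φ : E3 → ℝ} {ε b t : ℝ}

/-! ### Labels of a spine -/

/-- The side, the depth and the root line of a sibling. -/
def lab (Φ : E3 → ℝ) (ε : ℝ) (s : Bool × CTree) : (Bool × ℕ) × Ph :=
  ((s.1, s.2.depth), ln Φ ε s.2)

theorem measurable_lab (hΦ : IsPotential Φ) (hε : ε ≠ 0) : Measurable (lab Φ ε) :=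
  (measurable_fst.prodMk (measurable_depth.comp measurable_snd)).prodMk
    ((measurable_ln hΦ hε).comp measurable_snd)

/-- Constants and sums out of an integral. -/
theorem pull {X : Type*} [MeasurableSpace X] {ι : Type*} [Countable ι] (κ : Measure X)
    {g : X → ℝ≥0∞} (hg : Measurable g) (a : ι → ℝ≥0∞) {F : ι → X → ℝ≥0∞}
    (hF : ∀ i, Measurable (F i)) (C : ℝ≥0∞) :
    ∫⁻ x, g x * (C * ∑' i, a i * F i x) ∂κ = C * ∑' i, a i * ∫⁻ x, g x * F i x ∂κ := by
  have h1 : ∀ x, g x * (C * ∑' i, a i * F i x) = C * ∑' i, a i * (g x * F i x) := by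
    intro x
    rw [← ENNReal.tsum_mul_left, ← ENNReal.tsum_mul_left, ← ENNReal.tsum_mul_left]
    exact tsum_congr fun i => by ring
  simp only [h1]
  have h2 : ∀ i, Measurable fun x => a i * (g x * F i x) := fun i => (hg.mul (hF i)).const_mul _
  rw [lintegral_const_mul _ (Measurable.tsum fun i => h2 i), lintegral_tsum fun i =>
    (h2 i).aemeasurable]
  congr 1
  exact tsum_congr fun i => lintegral_const_mul _ (hg.mul (hF i))

theorem tsum_fcons {C : Type*} [Countable C] {m : ℕ} (f : (Fin (m + 1) → C) → ℝ≥0∞) :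
    ∑' c, f c = ∑' c₀ : C, ∑' c : Fin m → C, f (Fin.cons c₀ c) := by
  rw [← (Fin.consEquiv fun _ : Fin (m + 1) => C).tsum_eq, ENNReal.tsum_prod']
  rfl

/-- The law of the label of a sibling. -/
theorem stM_lab {K : ℝ≥0∞} {α : ℕ → ℝ≥0∞}
    {Θ : Measure CTree} [SigmaFinite Θ] (h : LDLaw Φ ε b K α Θ)
    {H : (Bool × ℕ) × Ph → ℝ≥0∞} (hH : Measurable H) :
    ∑ o : Bool, ∫⁻ S, H (lab Φ ε (o, S)) ∂Θ ≤
      K * ∑' c : Bool × ℕ, α c.2 * ∫⁻ z : Ph, muE ε * gw b z.2 * H (c, z) := by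
  have h1 : ∀ o : Bool, ∫⁻ S, H (lab Φ ε (o, S)) ∂Θ ≤
      K * ∑' d, α d * ∫⁻ z : Ph, muE ε * gw b z.2 * H ((o, d), z) := fun o =>
    h (fun x => H ((o, x.2), x.1)) (hH.comp ((measurable_const.prodMk measurable_snd).prodMk
      measurable_fst))
  refine (Finset.sum_le_sum fun o _ => h1 o).trans (le_of_eq ?_)
  rw [← Finset.mul_sum, ENNReal.tsum_prod', tsum_fintype]

/-- **The law of the labels of a spine.** -/
theorem spM_lab (hΦ : IsPotential Φ) (hε : ε ≠ 0) {K : ℝ≥0∞} {α : ℕ → ℝ≥0∞}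
    {Θ : Measure CTree} [SigmaFinite Θ] (h : LDLaw Φ ε b K α Θ) (m : ℕ) :
    ∀ {G : (Fin m → (Bool × ℕ) × Ph) → ℝ≥0∞}, Measurable G →
    ∫⁻ r, G (fun i => lab Φ ε (r i)) ∂(spM Θ m) ≤
      K ^ m * ∑' c : Fin m → Bool × ℕ, (∏ j, α (c j).2) *
        ∫⁻ p : Fin m → Ph, FL.wt b ε m p * G fun i => (c i, p i) := by
  induction m with
  | zero =>
    intro G _
    rw [lintegral_spM_zero, pow_zero, one_mul]
    have h1 : (volume : Measure (Fin 0 → Ph)) univ = 1 := by
      rw [volume_pi, Measure.pi_univ]; simp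
    have h2 : ∀ (c : Fin 0 → Bool × ℕ) (p : Fin 0 → Ph), (fun i => (c i, p i)) =
        fun i : Fin 0 => lab Φ ε ((Fin.elim0 : Fin 0 → Bool × CTree) i) :=
      fun o p => funext fun i => i.elim0
    simp only [h2, FL.wt_zero, one_mul, lintegral_const, h1, mul_one]
    rw [tsum_fintype]
    simp
  | succ m ih =>
    intro G hG
    have hl := measurable_lab (Φ := Φ) (ε := ε) hΦ hε
    have hGl : Measurable fun r : Fin (m + 1) → Bool × CTree => G fun i => lab Φ ε (r i) :=
      hG.comp (measurable_pi_iff.2 fun i => hl.comp (measurable_pi_apply i))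
    rw [lintegral_spM_succ Θ m hGl]
    have hcons : ∀ (o : Bool) (S : CTree) (r : Fin m → Bool × CTree),
        (fun i => lab Φ ε ((Fin.cons (o, S) r : Fin (m + 1) → Bool × CTree) i)) =
        (Fin.cons (lab Φ ε (o, S)) fun i => lab Φ ε (r i) :
          Fin (m + 1) → (Bool × ℕ) × Ph) := by
      intro o S r
      funext i
      induction i using Fin.cases with
      | zero => rfl
      | succ i => rfl
    simp only [hcons]
    have hGc : Measurable fun q : ((Bool × ℕ) × Ph) × (Fin m → (Bool × ℕ) × Ph) =>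
        G (Fin.cons q.1 q.2) := hG.comp measurable_fcons
    have hcp : ∀ c : Fin m → Bool × ℕ, Measurable fun q : ((Bool × ℕ) × Ph) × (Fin m → Ph) =>
        FL.wt b ε m q.2 * G (Fin.cons q.1 fun i => (c i, q.2 i)) := fun c =>
      ((FL.measurable_wt b ε m).comp measurable_snd).mul (hGc.comp
        (measurable_fst.prodMk (measurable_pi_iff.2 fun i =>
          measurable_const.prodMk ((measurable_pi_apply i).comp measurable_snd))))
    set I : (Fin m → Bool × ℕ) → (Bool × ℕ) × Ph → ℝ≥0∞ := fun c w =>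
      ∫⁻ p : Fin m → Ph, FL.wt b ε m p * G (Fin.cons w fun i => (c i, p i)) with hI
    have hIm : ∀ c, Measurable (I c) := fun c => (hcp c).lintegral_prod_right'
    set H : (Bool × ℕ) × Ph → ℝ≥0∞ := fun w => K ^ m * ∑' c : Fin m → Bool × ℕ,
      (∏ j, α (c j).2) * I c w with hH
    have hHm : Measurable H :=
      (Measurable.tsum fun c => (hIm c).const_mul _).const_mul _
    have h1 : ∀ (o : Bool) (S : CTree),
        ∫⁻ r, G (Fin.cons (lab Φ ε (o, S)) fun i => lab Φ ε (r i)) ∂(spM Θ m) ≤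
          H (lab Φ ε (o, S)) := fun o S =>
      ih (hGc.comp (measurable_const.prodMk measurable_id))
    refine (Finset.sum_le_sum fun o _ => lintegral_mono (h1 o)).trans
      ((stM_lab h hHm).trans (le_of_eq ?_))
    have h2 : ∀ c₀ : Bool × ℕ, ∫⁻ z : Ph, muE ε * gw b z.2 * H (c₀, z) =
        K ^ m * ∑' c : Fin m → Bool × ℕ, (∏ j, α (c j).2) *
          ∫⁻ z : Ph, muE ε * gw b z.2 * I c (c₀, z) := by
      intro c₀
      exact pull (volume : Measure Ph) (g := fun z : Ph => muE ε * gw b z.2)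
        (((measurable_gw b).comp measurable_snd).const_mul _) (fun c : Fin m → Bool × ℕ =>
          ∏ j, α (c j).2) (F := fun c z => I c (c₀, z))
        (fun c => (hIm c).comp measurable_prodMk_left) (K ^ m)
    simp only [h2]
    rw [tsum_fcons, pow_succ']
    have h3 : ∀ c₀ : Bool × ℕ, α c₀.2 * (K ^ m * ∑' c : Fin m → Bool × ℕ, (∏ j, α (c j).2) *
        ∫⁻ z : Ph, muE ε * gw b z.2 * I c (c₀, z)) = K ^ m * ∑' c : Fin m → Bool × ℕ,
        (∏ j, α ((Fin.cons c₀ c : Fin (m + 1) → Bool × ℕ) j).2) *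
          ∫⁻ z : Ph, muE ε * gw b z.2 * I c (c₀, z) := by
      intro c₀
      rw [← ENNReal.tsum_mul_left, ← ENNReal.tsum_mul_left, ← ENNReal.tsum_mul_left]
      refine tsum_congr fun c => ?_
      rw [Fin.prod_univ_succ]
      simp only [Fin.cons_zero, Fin.cons_succ]
      ring
    simp only [h3]
    rw [ENNReal.tsum_mul_left, ← mul_assoc]
    congr 1
    refine tsum_congr fun c₀ => tsum_congr fun c => ?_
    congr 1
    have hm4 : Measurable fun p : Fin (m + 1) → Ph => FL.wt b ε (m + 1) p *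
        G fun i => ((Fin.cons c₀ c : Fin (m + 1) → Bool × ℕ) i, p i) := by
      refine (FL.measurable_wt b ε (m + 1)).mul (hG.comp (measurable_pi_iff.2 fun i => ?_))
      exact measurable_const.prodMk (measurable_pi_apply i)
    rw [lintegral_cons hm4]
    refine lintegral_congr fun z => ?_
    have hne : muE ε * gw b z.2 ≠ ∞ := ENNReal.mul_ne_top muE_ne_top ENNReal.ofReal_ne_top
    rw [hI, ← lintegral_const_mul' _ _ hne]
    refine lintegral_congr fun p => ?_
    rw [wt_cons]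
    have e2 : (fun i => ((Fin.cons c₀ c : Fin (m + 1) → Bool × ℕ) i,
        (Fin.cons z p : Fin (m + 1) → Ph) i)) =
        (Fin.cons (c₀, z) fun i => (c i, p i) : Fin (m + 1) → (Bool × ℕ) × Ph) := by
      funext i
      induction i using Fin.cases with
      | zero => rfl
      | succ i => rfl
    rw [e2]
    unfold gw
    ring

/-! ### The pieces of a marked node -/

/-- The index of a marked node: the depths of the two subtrees, the sides and the depths of the
siblings. -/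
abbrev Ix (N : ℕ) : Type := ℕ × ℕ × (Fin N → Bool × ℕ)

/-- The weight of an index. -/
def aw (α : ℕ → ℝ≥0∞) {N : ℕ} (y : Ix N) : ℝ≥0∞ := α y.1 * (α y.2.1 * ∏ j, α (y.2.2 j).2)

/-- The index of a marked node. -/
def ix {N : ℕ} (q : Mk CTree N) : Ix N :=
  (q.1.depth, q.2.1.depth, fun j => ((q.2.2 j).1, (q.2.2 j).2.depth))

/-- The lines of the pieces of a marked node. -/
def rawL (Φ : E3 → ℝ) (ε : ℝ) {N : ℕ} (q : Mk CTree N) : XA N :=
  (ln Φ ε q.1, ln Φ ε q.2.1, fun j => ln Φ ε (q.2.2 j).2)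

theorem measurable_ix {N : ℕ} : Measurable (ix : Mk CTree N → Ix N) := by
  refine (measurable_depth.comp measurable_fst).prodMk ((measurable_depth.comp
    measurable_snd.fst).prodMk (measurable_pi_iff.2 fun j => ?_))
  have h : Measurable fun q : Mk CTree N => q.2.2 j :=
    (measurable_pi_apply j).comp measurable_snd.snd
  exact h.fst.prodMk (measurable_depth.comp h.snd)

theorem measurable_rawL (hΦ : IsPotential Φ) (hε : ε ≠ 0) {N : ℕ} :
    Measurable (rawL Φ ε : Mk CTree N → XA N) := by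
  have hl := measurable_ln (Φ := Φ) (ε := ε) hΦ hε
  refine (hl.comp measurable_fst).prodMk ((hl.comp measurable_snd.fst).prodMk
    (measurable_pi_iff.2 fun j => hl.comp ?_))
  exact ((measurable_pi_apply j).comp measurable_snd.snd).snd

/-- **The law of the pieces of a marked node.** -/
theorem mk_raw (hΦ : IsPotential Φ) (hε : ε ≠ 0) {K : ℝ≥0∞} {α : ℕ → ℝ≥0∞}
    {Θ : Measure CTree} [SigmaFinite Θ] (h : LDLaw Φ ε b K α Θ) (N : ℕ)
    {H : Ix N × XA N → ℝ≥0∞} (hH : Measurable H) :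
    ∫⁻ q, H (ix q, rawL Φ ε q) ∂(mkM Θ N) ≤
      K ^ (N + 2) * ∑' y : Ix N, aw α y * ∫⁻ z : Ph, muE ε * gw b z.2 * ∫⁻ z' : Ph,
        muE ε * gw b z'.2 * ∫⁻ p : Fin N → Ph, FL.wt b ε N p * H (y, (z, z', p)) := by
  have hl := measurable_ld (Φ := Φ) (ε := ε) hΦ hε
  rw [lintegral_mkM Θ N (F := fun q => H (ix q, rawL Φ ε q))
    (hH.comp (measurable_ix.prodMk (measurable_rawL hΦ hε)))]
  -- the integral over the spine
  have hg : Measurable fun z : Ph => muE ε * gw b z.2 :=
    ((measurable_gw b).comp measurable_snd).const_mul _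
  set I : (Fin N → Bool × ℕ) → (Ph × ℕ) × (Ph × ℕ) → ℝ≥0∞ := fun c w =>
    ∫⁻ p : Fin N → Ph, FL.wt b ε N p * H ((w.1.2, w.2.2, c), (w.1.1, w.2.1, p)) with hI
  have hIm : ∀ c, Measurable (I c) := fun c => by
    have h1 : Measurable fun y : ((Ph × ℕ) × (Ph × ℕ)) × (Fin N → Ph) =>
        FL.wt b ε N y.2 * H ((y.1.1.2, y.1.2.2, c), (y.1.1.1, y.1.2.1, y.2)) := by
      refine ((FL.measurable_wt b ε N).comp measurable_snd).mul (hH.comp ?_)
      exact (measurable_fst.fst.snd.prodMk (measurable_fst.snd.snd.prodMk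
        measurable_const)).prodMk (measurable_fst.fst.fst.prodMk (measurable_fst.snd.fst.prodMk
          measurable_snd))
    exact h1.lintegral_prod_right'
  set H1 : (Ph × ℕ) × (Ph × ℕ) → ℝ≥0∞ := fun w => K ^ N * ∑' c : Fin N → Bool × ℕ,
    (∏ j, α (c j).2) * I c w with hH1
  have hH1m : Measurable H1 := (Measurable.tsum fun c => (hIm c).const_mul _).const_mul _
  have h1 : ∀ a b' : CTree, ∫⁻ r, H (ix (a, b', r), rawL Φ ε (a, b', r)) ∂(spM Θ N) ≤
      H1 (ld Φ ε a, ld Φ ε b') := by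
    intro a b'
    exact spM_lab hΦ hε h N (G := fun ρ => H ((a.depth, b'.depth, fun j => (ρ j).1),
      (ln Φ ε a, ln Φ ε b', fun j => (ρ j).2))) (hH.comp ((measurable_const.prodMk
      (measurable_const.prodMk (measurable_pi_iff.2 fun j => (measurable_pi_apply j).fst))).prodMk
      (measurable_const.prodMk (measurable_const.prodMk
        (measurable_pi_iff.2 fun j => (measurable_pi_apply j).snd)))))
  -- the integral over the second subtree
  set J : ℕ × (Fin N → Bool × ℕ) → Ph × ℕ → ℝ≥0∞ := fun c x =>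
    ∫⁻ z' : Ph, muE ε * gw b z'.2 * I c.2 (x, (z', c.1)) with hJ
  have hJm : ∀ c, Measurable (J c) := fun c => by
    have h2 : Measurable fun y : (Ph × ℕ) × Ph => muE ε * gw b y.2.2 * I c.2 (y.1, (y.2, c.1)) :=
      (hg.comp measurable_snd).mul ((hIm c.2).comp
        (measurable_fst.prodMk (measurable_snd.prodMk measurable_const)))
    exact h2.lintegral_prod_right'
  set H2 : Ph × ℕ → ℝ≥0∞ := fun x => K ^ (N + 1) * ∑' c : ℕ × (Fin N → Bool × ℕ),
    (α c.1 * ∏ j, α (c.2 j).2) * J c x with hH2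
  have hH2m : Measurable H2 := (Measurable.tsum fun c => (hJm c).const_mul _).const_mul _
  have h2 : ∀ a : CTree, ∫⁻ b', H1 (ld Φ ε a, ld Φ ε b') ∂Θ ≤ H2 (ld Φ ε a) := by
    intro a
    refine (h (fun y => H1 (ld Φ ε a, y)) (hH1m.comp (measurable_const.prodMk
      measurable_id))).trans (le_of_eq ?_)
    have e1 : ∀ d : ℕ, ∫⁻ z : Ph, muE ε * gw b z.2 * H1 (ld Φ ε a, (z, d)) =
        K ^ N * ∑' c : Fin N → Bool × ℕ, (∏ j, α (c j).2) * J (d, c) (ld Φ ε a) := fun d =>
      pull (volume : Measure Ph) hg (fun c : Fin N → Bool × ℕ => ∏ j, α (c j).2)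
        (F := fun c z => I c (ld Φ ε a, (z, d))) (fun c => (hIm c).comp
          (measurable_const.prodMk (measurable_id.prodMk measurable_const))) (K ^ N)
    simp only [e1]
    rw [hH2]
    simp only
    rw [ENNReal.tsum_prod', pow_succ']
    have e2 : ∀ d : ℕ, α d * (K ^ N * ∑' c : Fin N → Bool × ℕ, (∏ j, α (c j).2) *
        J (d, c) (ld Φ ε a)) = K ^ N * ∑' c : Fin N → Bool × ℕ, (α d * ∏ j, α (c j).2) *
        J (d, c) (ld Φ ε a) := by
      intro d
      rw [← ENNReal.tsum_mul_left, ← ENNReal.tsum_mul_left, ← ENNReal.tsum_mul_left]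
      exact tsum_congr fun c => by ring
    simp only [e2]
    rw [ENNReal.tsum_mul_left, mul_assoc]
  refine (lintegral_mono fun a => (lintegral_mono fun b' => h1 a b').trans (h2 a)).trans
    ((h H2 hH2m).trans (le_of_eq ?_))
  have e1 : ∀ d : ℕ, ∫⁻ z : Ph, muE ε * gw b z.2 * H2 (z, d) =
      K ^ (N + 1) * ∑' c : ℕ × (Fin N → Bool × ℕ), (α c.1 * ∏ j, α (c.2 j).2) *
        ∫⁻ z : Ph, muE ε * gw b z.2 * J c (z, d) := fun d =>
    pull (volume : Measure Ph) hg (fun c : ℕ × (Fin N → Bool × ℕ) => α c.1 * ∏ j, α (c.2 j).2)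
      (F := fun c z => J c (z, d)) (fun c => (hJm c).comp
        (measurable_id.prodMk measurable_const)) (K ^ (N + 1))
  simp only [e1]
  have e2 : ∀ d : ℕ, α d * (K ^ (N + 1) * ∑' c : ℕ × (Fin N → Bool × ℕ),
      (α c.1 * ∏ j, α (c.2 j).2) * ∫⁻ z : Ph, muE ε * gw b z.2 * J c (z, d)) =
      K ^ (N + 1) * ∑' c : ℕ × (Fin N → Bool × ℕ), aw α ((d, c) : Ix N) *
        ∫⁻ z : Ph, muE ε * gw b z.2 * J c (z, d) := by
    intro d
    rw [← ENNReal.tsum_mul_left, ← ENNReal.tsum_mul_left, ← ENNReal.tsum_mul_left]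
    refine tsum_congr fun c => ?_
    unfold aw
    ring
  simp only [e2]
  rw [ENNReal.tsum_mul_left, ← mul_assoc, ← pow_succ', ENNReal.tsum_prod'
    (f := fun y : Ix N => aw α y * ∫⁻ z : Ph, muE ε * gw b z.2 * ∫⁻ z' : Ph,
        muE ε * gw b z'.2 * ∫⁻ p : Fin N → Ph, FL.wt b ε N p * H (y, (z, z', p)))]

/-! ### The data of a marked node -/

/-- The steps of an index. -/
def ixS (hΦ : IsPotential Φ) (hε : ε ≠ 0) {N : ℕ} (y : Ix N) : ℕ → Step :=
  outS hΦ hε N fun j => (y.2.2 j).1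

/-- The data of a marked node: the exhaust, its sister, the siblings. -/
def mkD (Φ : E3 → ℝ) (ε : ℝ) {N : ℕ} (q : Mk CTree N) : XA N :=
  (ln Φ ε (node q.2.1 q.1), ln Φ ε (node q.1 q.2.1), fun j => ln Φ ε (q.2.2 j).2)

/-- The outgoing lines of the first two lines. -/
def swP (Φ : E3 → ℝ) (ε : ℝ) {N : ℕ} (x : XA N) : XA N :=
  ((swO Φ ε (x.1, x.2.1)).1, (swO Φ ε (x.1, x.2.1)).2, x.2.2)

theorem measurable_swP (hΦ : IsPotential Φ) (hε : ε ≠ 0) {N : ℕ} :
    Measurable (swP Φ ε : XA N → XA N) := by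
  have h := (measurable_swO (Φ := Φ) (ε := ε) hΦ hε).comp (measurable_pairA (N := N))
  exact h.fst.prodMk (h.snd.prodMk measurable_snd.snd)

theorem mkD_eq (hΦ : IsPotential Φ) {N : ℕ} (q : Mk CTree N) :
    mkD Φ ε q = swP Φ ε (rawL Φ ε q) := by
  have h1 : ln Φ ε (node q.2.1 q.1) = (swO Φ ε (ln Φ ε q.1, ln Φ ε q.2.1)).1 :=
    ln_swap hΦ q.1 q.2.1
  have h2 : ln Φ ε (node q.1 q.2.1) = (swO Φ ε (ln Φ ε q.1, ln Φ ε q.2.1)).2 := rfl
  unfold mkD swP rawL
  rw [h1, h2]

theorem measurable_mkD (hΦ : IsPotential Φ) (hε : ε ≠ 0) {N : ℕ} :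
    Measurable (mkD Φ ε : Mk CTree N → XA N) := by
  have e : (mkD Φ ε : Mk CTree N → XA N) = fun q => swP Φ ε (rawL Φ ε q) :=
    funext fun q => mkD_eq hΦ q
  rw [e]
  exact (measurable_swP hΦ hε).comp (measurable_rawL hΦ hε)

/-- The data of a marked node of an ok tree. -/
theorem mkD_mem (hΦ : IsPotential Φ) (hε : 0 < ε) {L N : ℕ} {q : Mk CTree N}
    (h : top q ∈ okT Φ ε t L) : mkD Φ ε q ∈ evA ε t t (ixS hΦ hε.ne' (ix q)) := by
  rw [mkD_eq hΦ]
  exact mem_brS hΦ hε h

/-- One index, before the change of variables to the outgoing lines. -/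
theorem branch_law (hΦ : IsPotential Φ) (hε : ε ≠ 0) (S : ℕ → Step) (N : ℕ)
    {F : XA N → ℝ≥0∞} (hF : Measurable F) :
    ∫⁻ z : Ph, muE ε * gw b z.2 * ∫⁻ z' : Ph, muE ε * gw b z'.2 * ∫⁻ p : Fin N → Ph,
      FL.wt b ε N p * (evA ε t t S).indicator F (swP Φ ε (z, z', p)) =
    muE ε * ∫⁻ x, F x ∂(lawA ε b b t t N S) := by
  have hFm : Measurable ((evA ε t t S).indicator F) := hF.indicator (measurableSet_evA S)
  set Q : Ph × Ph → ℝ≥0∞ := fun w => ∫⁻ p : Fin N → Ph,
    FL.wt b ε N p * (evA ε t t S).indicator F (w.1, w.2, p) with hQ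
  have hQm : Measurable Q := by
    have h1 : Measurable fun y : (Ph × Ph) × (Fin N → Ph) =>
        FL.wt b ε N y.2 * (evA ε t t S).indicator F (y.1.1, y.1.2, y.2) :=
      ((FL.measurable_wt b ε N).comp measurable_snd).mul (hFm.comp
        (measurable_fst.fst.prodMk (measurable_fst.snd.prodMk measurable_snd)))
    exact h1.lintegral_prod_right'
  refine (lintegral_swO (b := b) hΦ hε hQm).trans ?_
  congr 1
  rw [lintegral_lawA S hF]
  refine lintegral_congr fun e => lintegral_congr fun β => ?_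
  rw [hQ]
  simp only
  have hne : gw b e.2 * (muE ε * gw b β.2) ≠ ∞ := ENNReal.mul_ne_top ENNReal.ofReal_ne_top
    (ENNReal.mul_ne_top muE_ne_top ENNReal.ofReal_ne_top)
  rw [← lintegral_const_mul' _ _ hne]
  refine lintegral_congr fun p => ?_
  by_cases hz : (e, β, p) ∈ evA ε t t S
  · rw [indicator_of_mem hz, wA_of hz]
    ring
  · rw [indicator_of_notMem hz, wA_of_not hz]
    ring

/-- Functions on indices and lines. -/
theorem measurable_ixf {N : ℕ} {X : Type*} [MeasurableSpace X] {f : Ix N → X → ℝ≥0∞}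
    (hf : ∀ y, Measurable (f y)) : Measurable fun p : Ix N × X => f p.1 p.2 :=
  measurable_from_prod_countable_right hf

/-- **The law of the data of a marked node.** -/
theorem mkD_le (hΦ : IsPotential Φ) (hε : 0 < ε) {K : ℝ≥0∞} {α : ℕ → ℝ≥0∞}
    {Θ : Measure CTree} [SigmaFinite Θ] (hΘ : LDLaw Φ ε b K α Θ) (L N : ℕ)
    {f : Ix N → XA N → ℝ≥0∞} (hf : ∀ y, Measurable (f y)) :
    ∫⁻ q : Mk CTree N, (okT Φ ε t L).indicator (fun _ => f (ix q) (mkD Φ ε q)) (top q)
        ∂(mkM Θ N) ≤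
      muE ε * (K ^ (N + 2) * ∑' y : Ix N, aw α y *
        ∫⁻ x, f y x ∂(lawA ε b b t t N (ixS hΦ hε.ne' y))) := by
  set H : Ix N × XA N → ℝ≥0∞ := fun w =>
    (evA ε t t (ixS hΦ hε.ne' w.1)).indicator (f w.1) (swP Φ ε w.2) with hH
  have hHm : Measurable H := measurable_ixf (f := fun y x =>
    (evA ε t t (ixS hΦ hε.ne' y)).indicator (f y) (swP Φ ε x)) fun y =>
      ((hf y).indicator (measurableSet_evA _)).comp (measurable_swP hΦ hε.ne')
  have h1 : ∀ q : Mk CTree N, (okT Φ ε t L).indicator (fun _ => f (ix q) (mkD Φ ε q)) (top q) ≤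
      H (ix q, rawL Φ ε q) := by
    intro q
    by_cases hq : top q ∈ okT Φ ε t L
    · rw [indicator_of_mem hq, hH]
      simp only
      rw [← mkD_eq hΦ, indicator_of_mem (mkD_mem hΦ hε hq)]
    · rw [indicator_of_notMem hq]; exact zero_le
  refine (lintegral_mono h1).trans ((mk_raw hΦ hε.ne' hΘ N hHm).trans (le_of_eq ?_))
  have h2 : ∀ y : Ix N, ∫⁻ z : Ph, muE ε * gw b z.2 * ∫⁻ z' : Ph,
        muE ε * gw b z'.2 * ∫⁻ p : Fin N → Ph, FL.wt b ε N p * H (y, (z, z', p)) =
      muE ε * ∫⁻ x, f y x ∂(lawA ε b b t t N (ixS hΦ hε.ne' y)) := fun y =>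
    branch_law (b := b) (t := t) hΦ hε.ne' (ixS hΦ hε.ne' y) N (hf y)
  simp only [h2]
  have h3 : ∀ (y : Ix N) (X : ℝ≥0∞), aw α y * (muE ε * X) = muE ε * (aw α y * X) :=
    fun y X => by ring
  simp only [h3]
  rw [ENNReal.tsum_mul_left]
  ring

end Vale.Agent.P119.PB
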