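import Vale.Agent.P119.PB.LamF

/-!
# P119, block PROB: an exhaust and a line created by the hit of a free line (`helper298`)

* `stepF τ`: the three lines which are created by a hit (the two outgoing lines, the undeflected root
  line); `srcF`: the pair of sources (the exhaust, the created line);
* `lamF`: **the measure on the pairs of sources** `∑_N c_N ∑_y ∑_τ aw y • lawA ε bE b t t₂ (N+1)`
  (births of the exhaust in `(0, t]`, depth at most `L`), for a free line of depth `n`; `lamFs wg`: the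
  sum over `n` with the weights `wg`;
* `sumJ_fresh`, `sumJ_freshs`: the sum over one marked node of the exhaust and of the lines created by
  the hit of a free line on the root line is at most an integral with respect to `lamF`, `lamFs`.
-/

open MeasureTheory Set Filter Topology Metric
open scoped ENNReal

noncomputable section

namespace Vale.Agent.P119.PB

open KU M M.CTree FL Cap

variable {Φ : E3 → ℝ} {ε bE b t t₂ : ℝ} {L : ℕ}

/-! ### The laws do not depend on the later steps -/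

theorem line_congr (m : ℕ) : ∀ {S S' : ℕ → Step} (l : Ph) (p : Fin m → Ph),
    (∀ k < m, S k = S' k) → line S m l p = line S' m l p := by
  induction m with
  | zero => intro S S' l p _; rfl
  | succ m ih =>
    intro S S' l p h
    change line (fun n => S (n + 1)) m ((S 0).f (l, p 0)) (fun i => p i.succ) =
      line (fun n => S' (n + 1)) m ((S' 0).f (l, p 0)) (fun i => p i.succ)
    rw [h 0 (Nat.succ_pos m)]
    exact ih _ _ fun k hk => h (k + 1) (Nat.succ_lt_succ hk)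

theorem lastPair_congr (m : ℕ) : ∀ {S S' : ℕ → Step} (l : Ph) (p : Fin (m + 1) → Ph),
    (∀ k < m, S k = S' k) → lastPair S m l p = lastPair S' m l p := by
  induction m with
  | zero => intro S S' l p _; rfl
  | succ m ih =>
    intro S S' l p h
    change lastPair (fun n => S (n + 1)) m ((S 0).f (l, p 0)) (fun i => p i.succ) =
      lastPair (fun n => S' (n + 1)) m ((S' 0).f (l, p 0)) (fun i => p i.succ)
    rw [h 0 (Nat.succ_pos m)]
    exact ih _ _ fun k hk => h (k + 1) (Nat.succ_lt_succ hk)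

theorem chain_congr' (m : ℕ) : ∀ {S S' : ℕ → Step} (s : ℝ) (l : Ph) (p : Fin (m + 1) → Ph),
    (∀ k < m, S k = S' k) → (Chain ε t S (m + 1) s l p ↔ Chain ε t S' (m + 1) s l p) := by
  induction m with
  | zero => intro S S' s l p _; exact Iff.rfl
  | succ m ih =>
    intro S S' s l p h
    have h1 := ih (S := fun n => S (n + 1)) (S' := fun n => S' (n + 1)) (hitT ε (l, p 0))
      ((S 0).f (l, p 0)) (fun i => p i.succ) fun k hk => h (k + 1) (Nat.succ_lt_succ hk)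
    change (_ ∧ _ ∧ _ ∧ Chain ε t (fun n => S (n + 1)) (m + 1) (hitT ε (l, p 0))
      ((S 0).f (l, p 0)) (fun i => p i.succ)) ↔ (_ ∧ _ ∧ _ ∧
      Chain ε t (fun n => S' (n + 1)) (m + 1) (hitT ε (l, p 0))
      ((S' 0).f (l, p 0)) (fun i => p i.succ))
    rw [h1, h 0 (Nat.succ_pos m)]

/-- The law A with `N + 1` hits depends on the first `N` steps only. -/
theorem lawA_congr {N : ℕ} {S S' : ℕ → Step} (h : ∀ k < N, S k = S' k) :
    lawA ε bE b t t₂ (N + 1) S = lawA ε bE b t t₂ (N + 1) S' := by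
  have h1 : (evA ε t t₂ S : Set (XA (N + 1))) = evA ε t t₂ S' := by
    ext x
    exact and_congr Iff.rfl (and_congr Iff.rfl (chain_congr' N _ _ _ h))
  unfold lawA wA
  rw [h1]

/-! ### The created lines -/

/-- The three lines which are created by a hit of the free line on the root line: the outgoing line
of the free line, of the root line, the undeflected root line. -/
def stepF (hΦ : IsPotential Φ) (hε : ε ≠ 0) : Fin 3 → Step :=
  ![Step.out2 hΦ hε, Step.out1 hΦ hε, Step.keep]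

/-- The steps: the free line is the last partner. -/
def ixF (hΦ : IsPotential Φ) (hε : ε ≠ 0) {N : ℕ} (y : Ix N) (τ : Fin 3) : ℕ → Step :=
  Function.update (ixS hΦ hε y) N (stepF hΦ hε τ)

theorem ixF_of_lt (hΦ : IsPotential Φ) (hε : ε ≠ 0) {N : ℕ} (y : Ix N) (τ : Fin 3) {k : ℕ}
    (hk : k < N) : ixF hΦ hε y τ k = ixS hΦ hε y k :=
  Function.update_of_ne hk.ne _ _

theorem ixF_self (hΦ : IsPotential Φ) (hε : ε ≠ 0) {N : ℕ} (y : Ix N) (τ : Fin 3) :
    ixF hΦ hε y τ N = stepF hΦ hε τ := Function.update_self _ _ _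

/-- The birth of the created line. -/
def bF (Φ : E3 → ℝ) (ε : ℝ) (τ : Fin 3) (p : Ph × Ph) : ℝ :=
  (![max (sepT Φ ε p) (hitT ε p), max (sepT Φ ε p) (hitT ε p), hitT ε p] : Fin 3 → ℝ) τ

theorem hitT_le_bF (τ : Fin 3) (p : Ph × Ph) : hitT ε p ≤ bF Φ ε τ p := by
  unfold bF
  fin_cases τ
  · exact le_max_right _ _
  · exact le_max_right _ _
  · exact le_rfl

/-- The depth of the created line. -/
def dFr (n D : ℕ) (τ : Fin 3) : ℕ := (![max n D + 1, max n D + 1, D] : Fin 3 → ℕ) τ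

/-- The source of the created line, in terms of the pair (root line, free line). -/
def mF (hΦ : IsPotential Φ) (hε : ε ≠ 0) (n D : ℕ) (τ : Fin 3) (p : Ph × Ph) : Src :=
  (bF Φ ε τ p, (stepF hΦ hε τ).f p, dFr n D τ)

theorem measurable_bF (hΦ : IsPotential Φ) (τ : Fin 3) : Measurable (bF Φ ε τ) := by
  have h := measurable_sepT (Φ := Φ) (ε := ε) hΦ
  fin_cases τ
  · exact h.max measurable_hitT
  · exact h.max measurable_hitT
  · exact measurable_hitT

theorem measurable_mF (hΦ : IsPotential Φ) (hε : ε ≠ 0) (n D : ℕ) (τ : Fin 3) :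
    Measurable (mF hΦ hε n D τ) :=
  (measurable_bF hΦ τ).prodMk ((stepF hΦ hε τ).meas.prodMk measurable_const)

/-- The pair of sources: the exhaust and the created line. -/
def srcF (hΦ : IsPotential Φ) (hε : ε ≠ 0) (n : ℕ) {N : ℕ} (y : Ix N) (τ : Fin 3)
    (x : XA (N + 1)) : Src × Src :=
  (((srcA ε x).1, (srcA ε x).2, max y.1 y.2.1 + 1),
    (bF Φ ε τ (lpA (ixF hΦ hε y τ) x), (endA ε (ixF hΦ hε y τ) x).2, dFr n (dM y) τ))

theorem measurable_srcF (hΦ : IsPotential Φ) (hε : ε ≠ 0) (n : ℕ) {N : ℕ} (y : Ix N)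
    (τ : Fin 3) : Measurable (srcF hΦ hε n y τ) :=
  (measurable_srcA.fst.prodMk (measurable_srcA.snd.prodMk measurable_const)).prodMk
    (((measurable_bF hΦ τ).comp (measurable_lpA _)).prodMk
      ((measurable_endA _).snd.prodMk measurable_const))

/-- The birth of the created line is not before the last hit. -/
theorem srcF_birth (hΦ : IsPotential Φ) (hε : ε ≠ 0) (n : ℕ) {N : ℕ} (y : Ix N) (τ : Fin 3)
    (x : XA (N + 1)) : (endA ε (ixF hΦ hε y τ) x).1 ≤ (srcF hΦ hε n y τ x).2.1 := by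
  have h1 : (endA ε (ixF hΦ hε y τ) x).1 = hitT ε (lpA (ixF hΦ hε y τ) x) :=
    time_lastPair N (ixF hΦ hε y τ) (exT ε (x.1, x.2.1)) x.2.1 x.2.2
  rw [h1]
  exact hitT_le_bF τ _

theorem srcF_eq (hΦ : IsPotential Φ) (hε : ε ≠ 0) (n : ℕ) {N : ℕ} (y : Ix N) (τ : Fin 3)
    (x : XA (N + 1)) : srcF hΦ hε n y τ x = (((srcA ε x).1, (srcA ε x).2, max y.1 y.2.1 + 1),
      mF hΦ hε n (dM y) τ (lpA (ixS hΦ hε y) x)) := by
  have h1 : lpA (ixF hΦ hε y τ) x = lpA (ixS hΦ hε y) x :=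
    lastPair_congr N _ _ fun k hk => ixF_of_lt hΦ hε y τ hk
  have h2 : (endA ε (ixF hΦ hε y τ) x).2 = (stepF hΦ hε τ).f (lpA (ixF hΦ hε y τ) x) := by
    have h3 := line_lastPair N (ixF hΦ hε y τ) x.2.1 x.2.2
    rw [ixF_self] at h3
    exact h3
  unfold srcF mF
  rw [h2, h1]

/-- **The law of an exhaust and of a line created by the hit of a free line of depth `n`.** -/
def lamF (hΦ : IsPotential Φ) (hε : ε ≠ 0) (bE b t t₂ : ℝ) (α : ℕ → ℝ≥0∞) (L : ℕ) (c : ℕ → ℝ≥0∞)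
    (n : ℕ) : Measure (Src × Src) :=
  Measure.sum fun N => c N • Measure.sum fun p : Ix N × Fin 3 => aw α p.1 •
    ((lawA ε bE b t t₂ (N + 1) (ixF hΦ hε p.1 p.2)).map (srcF hΦ hε n p.1 p.2)).restrict
      (srcS t L ×ˢ univ)

instance sfinite_lamF (hΦ : IsPotential Φ) (hε : ε ≠ 0) (bE b t t₂ : ℝ) (α : ℕ → ℝ≥0∞) (L : ℕ)
    (c : ℕ → ℝ≥0∞) (n : ℕ) : SFinite (lamF hΦ hε bE b t t₂ α L c n) := by
  unfold lamF
  infer_instance

theorem lintegral_lamF (hΦ : IsPotential Φ) (hε : ε ≠ 0) (bE b t t₂ : ℝ) (α : ℕ → ℝ≥0∞) (L : ℕ)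
    (c : ℕ → ℝ≥0∞) (n : ℕ) {f : Src × Src → ℝ≥0∞} (hf : Measurable f) :
    ∫⁻ z, f z ∂(lamF hΦ hε bE b t t₂ α L c n) = ∑' N, c N * ∑' p : Ix N × Fin 3, aw α p.1 *
      ∫⁻ x, (srcS t L ×ˢ univ).indicator f (srcF hΦ hε n p.1 p.2 x)
        ∂(lawA ε bE b t t₂ (N + 1) (ixF hΦ hε p.1 p.2)) := by
  have hs : MeasurableSet (srcS t L ×ˢ (univ : Set Src)) :=
    (measurableSet_srcS t L).prod MeasurableSet.univ
  unfold lamF
  rw [lintegral_sum_measure]
  refine tsum_congr fun N => ?_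
  rw [lintegral_smul_measure, smul_eq_mul, lintegral_sum_measure]
  congr 1
  refine tsum_congr fun y => ?_
  rw [lintegral_smul_measure, smul_eq_mul, ← lintegral_indicator hs,
    lintegral_map (hf.indicator hs) (measurable_srcF hΦ hε n y.1 y.2)]

/-- **The law, summed over the depth of the free line** with the weights `wg`. -/
def lamFs (hΦ : IsPotential Φ) (hε : ε ≠ 0) (bE b t t₂ : ℝ) (α : ℕ → ℝ≥0∞) (L : ℕ)
    (c : ℕ → ℝ≥0∞) (wg : ℕ → ℝ≥0∞) : Measure (Src × Src) :=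
  Measure.sum fun n => wg n • lamF hΦ hε bE b t t₂ α L c n

instance sfinite_lamFs (hΦ : IsPotential Φ) (hε : ε ≠ 0) (bE b t t₂ : ℝ) (α : ℕ → ℝ≥0∞) (L : ℕ)
    (c : ℕ → ℝ≥0∞) (wg : ℕ → ℝ≥0∞) : SFinite (lamFs hΦ hε bE b t t₂ α L c wg) := by
  unfold lamFs
  infer_instance

theorem lintegral_lamFs (hΦ : IsPotential Φ) (hε : ε ≠ 0) (bE b t t₂ : ℝ) (α : ℕ → ℝ≥0∞) (L : ℕ)
    (c : ℕ → ℝ≥0∞) (wg : ℕ → ℝ≥0∞) (f : Src × Src → ℝ≥0∞) :
    ∫⁻ z, f z ∂(lamFs hΦ hε bE b t t₂ α L c wg) =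
      ∑' n, wg n * ∫⁻ z, f z ∂(lamF hΦ hε bE b t t₂ α L c n) := by
  unfold lamFs
  rw [lintegral_sum_measure]
  refine tsum_congr fun n => ?_
  rw [lintegral_smul_measure, smul_eq_mul]

/-- The three created lines. -/
theorem frS_eq_mF (hΦ : IsPotential Φ) (hε : 0 < ε) (n D : ℕ) (Ψ : Src → ℝ≥0∞) {z l : Ph}
    (hM : Meets ε (z, l)) (hE : Exits Φ (rel ε (l, z))) :
    frS Φ ε Ψ (0, z, n) l D = ∑ τ : Fin 3, Ψ (mF hΦ hε.ne' n D τ (l, z)) := by
  have e1 : sepT Φ ε (z, l) = sepT Φ ε (l, z) := sepT_swap hΦ (l, z)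
  have e2 : hitT ε (z, l) = hitT ε (l, z) := hitT_swap (l, z)
  have e3 : sc2 Φ ε (z, l) = (sc2 Φ ε (l, z)).swap := sc2_swap hΦ (l, z)
  have h1 : hitT ε (l, z) < sepT Φ ε (l, z) :=
    hitT_lt_sepT hΦ hε hE ((meets_swap (z, l)).2 hM).2
  rw [Fin.sum_univ_three]
  unfold frS mF bF dFr stepF
  simp only [Matrix.cons_val_zero, Matrix.cons_val_one, Matrix.cons_val]
  rw [max_eq_left h1.le, e1, e2, e3]
  rfl

/-- The sum over the three created lines. -/
def kF (hΦ : IsPotential Φ) (hε : ε ≠ 0) (ψ : Src → Src → ℝ≥0∞) (n : ℕ) (e : Src) (p : Ph × Ph)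
    (D : ℕ) : ℝ≥0∞ := ∑ τ : Fin 3, ψ e (mF hΦ hε n D τ p.swap)

theorem measurable_kF (hΦ : IsPotential Φ) (hε : ε ≠ 0) {ψ : Src → Src → ℝ≥0∞}
    (hψ : Measurable fun z : Src × Src => ψ z.1 z.2) (n D : ℕ) :
    Measurable fun z : Src × (Ph × Ph) => kF hΦ hε ψ n z.1 z.2 D :=
  Finset.measurable_sum _ fun τ _ => hψ.comp (measurable_fst.prodMk
    ((measurable_mF hΦ hε n D τ).comp (measurable_swap.comp measurable_snd)))

/-- One index of the law. -/
theorem kp_kF_le (hΦ : IsPotential Φ) (hε : ε ≠ 0) {ψ : Src → Src → ℝ≥0∞}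
    (hψ : Measurable fun z : Src × Src => ψ z.1 z.2) (n : ℕ) {N : ℕ} (y : Ix N) :
    ∫⁻ x, kp t L (kF hΦ hε ψ n) y (srcA ε x) (lpA (ixS hΦ hε y) x).swap
        ∂(lawA ε bE b t t₂ (N + 1) (ixS hΦ hε y)) ≤
      ∑ τ : Fin 3, ∫⁻ x, (srcS t L ×ˢ univ).indicator (fun z : Src × Src => ψ z.1 z.2)
        (srcF hΦ hε n y τ x) ∂(lawA ε bE b t t₂ (N + 1) (ixF hΦ hε y τ)) := by
  classical
  have h1 : ∀ τ : Fin 3, ∫⁻ x, (srcS t L ×ˢ univ).indicator (fun z : Src × Src => ψ z.1 z.2)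
      (srcF hΦ hε n y τ x) ∂(lawA ε bE b t t₂ (N + 1) (ixF hΦ hε y τ)) =
      ∫⁻ x, (srcS t L).indicator (fun e => ψ e (mF hΦ hε n (dM y) τ
        (lpA (ixS hΦ hε y) x))) ((srcA ε x).1, (srcA ε x).2, max y.1 y.2.1 + 1)
        ∂(lawA ε bE b t t₂ (N + 1) (ixS hΦ hε y)) := by
    intro τ
    rw [lawA_congr fun k hk => ixF_of_lt hΦ hε y τ hk]
    refine lintegral_congr fun x => ?_
    rw [srcF_eq]
    by_cases h : ((srcA ε x).1, (srcA ε x).2, max y.1 y.2.1 + 1) ∈ srcS t L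
    · rw [indicator_of_mem h, indicator_of_mem (show ((((srcA ε x).1, (srcA ε x).2,
        max y.1 y.2.1 + 1) : Src), mF hΦ hε n (dM y) τ (lpA (ixS hΦ hε y) x)) ∈
        srcS t L ×ˢ univ from ⟨h, mem_univ _⟩)]
    · rw [indicator_of_notMem h, indicator_of_notMem (fun h' => h h'.1)]
  simp only [h1]
  have h2 : ∀ τ : Fin 3, Measurable fun x : XA (N + 1) => (srcS t L).indicator (fun e =>
      ψ e (mF hΦ hε n (dM y) τ (lpA (ixS hΦ hε y) x)))
        ((srcA ε x).1, (srcA ε x).2, max y.1 y.2.1 + 1) := by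
    intro τ
    have h3 : Measurable fun x : XA (N + 1) =>
        ((((srcA ε x).1, (srcA ε x).2, max y.1 y.2.1 + 1) : Src),
          mF hΦ hε n (dM y) τ (lpA (ixS hΦ hε y) x)) :=
      (measurable_srcA.fst.prodMk (measurable_srcA.snd.prodMk measurable_const)).prodMk
        ((measurable_mF hΦ hε n (dM y) τ).comp (measurable_lpA _))
    have h4 : MeasurableSet {x : XA (N + 1) |
        (((srcA ε x).1, (srcA ε x).2, max y.1 y.2.1 + 1) : Src) ∈ srcS t L} :=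
      h3.fst (measurableSet_srcS t L)
    exact (hψ.comp h3).indicator h4
  rw [← lintegral_finsetSum _ fun τ _ => h2 τ]
  refine lintegral_mono fun x => ?_
  unfold kp
  by_cases h : ((srcA ε x).1, (srcA ε x).2, max y.1 y.2.1 + 1) ∈ srcS t L
  · simp only [indicator_of_mem h]
    refine (mul_le_mul' (ind_le_one _) le_rfl).trans (le_of_eq ?_)
    rw [one_mul]
    rfl
  · rw [indicator_of_notMem h]
    exact zero_le

/-- The sum over the indices. -/
theorem fresh_le (hΦ : IsPotential Φ) (hε : ε ≠ 0) (α c : ℕ → ℝ≥0∞) {ψ : Src → Src → ℝ≥0∞}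
    (hψ : Measurable fun z : Src × Src => ψ z.1 z.2) (n : ℕ) :
    ∑' N, c N * ∑' y : Ix N, aw α y *
      ∫⁻ x, kp t L (kF hΦ hε ψ n) y (srcA ε x) (lpA (ixS hΦ hε y) x).swap
        ∂(lawA ε bE b t t₂ (N + 1) (ixS hΦ hε y)) ≤
      ∫⁻ z, ψ z.1 z.2 ∂(lamF hΦ hε bE b t t₂ α L c n) := by
  rw [lintegral_lamF hΦ hε bE b t t₂ α L _ n hψ]
  refine ENNReal.tsum_le_tsum fun N => mul_le_mul' le_rfl ?_
  rw [ENNReal.tsum_prod' (f := fun p : Ix N × Fin 3 => aw α p.1 *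
    ∫⁻ x, (srcS t L ×ˢ univ).indicator (fun z : Src × Src => ψ z.1 z.2)
      (srcF hΦ hε n p.1 p.2 x) ∂(lawA ε bE b t t₂ (N + 1) (ixF hΦ hε p.1 p.2)))]
  refine ENNReal.tsum_le_tsum fun y => ?_
  simp only
  rw [tsum_fintype, ← Finset.mul_sum]
  exact mul_le_mul' le_rfl (kp_kF_le hΦ hε hψ n y)

/-- **One marked node and the lines created by the hit of a free line of depth `n`.** -/
theorem sumJ_fresh (hΦ : IsPotential Φ) (hε : 0 < ε) (hb : 0 < b) (hbE : b ≤ bE) (ht₂ : t < t₂)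
    {K : ℝ≥0∞} {α : ℕ → ℝ≥0∞} {Θ : Measure CTree} [SigmaFinite Θ] (hΘ : LDLaw Φ ε bE K α Θ)
    (n : ℕ) {F : CTree → CTree → ℝ≥0∞} {ψ : Src → Src → ℝ≥0∞}
    (hψ : Measurable fun z : Src × Src => ψ z.1 z.2)
    (hF : ∀ T ∈ okT Φ ε t L, ∀ x, F T x ≤ ∫⁻ z : Ph, gw b z.2 *
      (ind (hitF Φ ε t z T) * frS Φ ε (ψ (rsrc Φ ε x)) (0, z, n) (ln Φ ε T) T.depth)) :
    sumJ Φ ε t L Θ F ≤
      ∫⁻ z, ψ z.1 z.2 ∂(lamF hΦ hε.ne' bE b t t₂ α L (fun N => K ^ (N + 2)) n) := by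
  classical
  refine (sumJ_free hΦ hε hb hbE ht₂ hΘ (κ := kF hΦ hε.ne' ψ n)
    (fun D => measurable_kF hΦ hε.ne' hψ n D) fun T hT x => (hF T hT x).trans ?_).trans
    (fresh_le hΦ hε.ne' α _ hψ n)
  refine lintegral_mono_ae ?_
  filter_upwards [ae_exits_left hΦ hε.ne' (ln Φ ε T)] with z hz
  by_cases h : hitF Φ ε t z T
  · rw [ind_of h, one_mul, one_mul, frS_eq_mF hΦ hε n T.depth _ h.1.1 hz]
    exact le_rfl
  · rw [ind_of_not h, zero_mul, zero_mul]

theorem measurable_kpx (hΦ : IsPotential Φ) (hε : ε ≠ 0) {κ : Src → Ph × Ph → ℕ → ℝ≥0∞}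
    (hκ : ∀ D, Measurable fun z : Src × (Ph × Ph) => κ z.1 z.2 D) {N : ℕ} (y : Ix N) :
    Measurable fun x : XA (N + 1) => kp t L κ y (srcA ε x) (lpA (ixS hΦ hε y) x).swap := by
  have h1 : Measurable fun x : XA (N + 1) => (srcA ε x, (lpA (ixS hΦ hε y) x).swap) :=
    measurable_srcA.prodMk (measurable_swap.comp (measurable_lpA _))
  exact (measurable_kp (t := t) (L := L) hκ y).comp h1

/-- Sums of functions `κ`. -/
theorem kp_tsum (κ : ℕ → Src → Ph × Ph → ℕ → ℝ≥0∞) (wg : ℕ → ℝ≥0∞) {N : ℕ} (y : Ix N)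
    (σ : ℝ × Ph) (p : Ph × Ph) :
    kp t L (fun e p D => ∑' n, wg n * κ n e p D) y σ p = ∑' n, wg n * kp t L (κ n) y σ p := by
  classical
  unfold kp
  by_cases h : ((σ.1, σ.2, max y.1 y.2.1 + 1) : Src) ∈ srcS t L
  · simp only [indicator_of_mem h]
    rw [← ENNReal.tsum_mul_left]
    exact tsum_congr fun n => by ring
  · simp only [indicator_of_notMem h, mul_zero, tsum_zero]

theorem lintegral_kp_tsum (hΦ : IsPotential Φ) (hε : ε ≠ 0)
    {κ : ℕ → Src → Ph × Ph → ℕ → ℝ≥0∞}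
    (hκ : ∀ n D, Measurable fun z : Src × (Ph × Ph) => κ n z.1 z.2 D) (wg : ℕ → ℝ≥0∞) {N : ℕ}
    (y : Ix N) (μ : Measure (XA (N + 1))) :
    ∫⁻ x, kp t L (fun e p D => ∑' n, wg n * κ n e p D) y (srcA ε x)
        (lpA (ixS hΦ hε y) x).swap ∂μ =
      ∑' n, wg n * ∫⁻ x, kp t L (κ n) y (srcA ε x) (lpA (ixS hΦ hε y) x).swap ∂μ := by
  have h3 : ∀ n, Measurable fun x : XA (N + 1) => kp t L (κ n) y (srcA ε x)
      (lpA (ixS hΦ hε y) x).swap := fun n => measurable_kpx hΦ hε (hκ n) y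
  simp only [kp_tsum]
  rw [lintegral_tsum fun n => ((h3 n).const_mul _).aemeasurable]
  exact tsum_congr fun n => lintegral_const_mul _ (h3 n)

/-- The sum over the depth of the free line is moved outside. -/
theorem tsum_swap3 (c wg : ℕ → ℝ≥0∞) (a X : (N : ℕ) → Ix N → ℝ≥0∞)
    (Y : (N : ℕ) → Ix N → ℕ → ℝ≥0∞) (hX : ∀ N y, X N y = ∑' n, wg n * Y N y n) :
    ∑' N, c N * ∑' y : Ix N, a N y * X N y =
      ∑' n, wg n * ∑' N, c N * ∑' y : Ix N, a N y * Y N y n := by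
  have e1 : ∀ N : ℕ, ∑' y : Ix N, a N y * X N y = ∑' n, wg n * ∑' y : Ix N, a N y * Y N y n := by
    intro N
    have e2 : ∀ y : Ix N, a N y * X N y = ∑' n, wg n * (a N y * Y N y n) := by
      intro y
      rw [hX, ← ENNReal.tsum_mul_left]
      exact tsum_congr fun n => by ring
    simp only [e2]
    rw [ENNReal.tsum_comm]
    exact tsum_congr fun n => ENNReal.tsum_mul_left
  simp only [e1]
  have e3 : ∀ N : ℕ, c N * ∑' n, wg n * ∑' y : Ix N, a N y * Y N y n =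
      ∑' n, wg n * (c N * ∑' y : Ix N, a N y * Y N y n) := by
    intro N
    rw [← ENNReal.tsum_mul_left]
    exact tsum_congr fun n => by ring
  simp only [e3]
  rw [ENNReal.tsum_comm]
  exact tsum_congr fun n => ENNReal.tsum_mul_left

/-- **One marked node and the lines created by the hit of a free line**, summed over the depth of the
free line. -/
theorem sumJ_freshs (hΦ : IsPotential Φ) (hε : 0 < ε) (hb : 0 < b) (hbE : b ≤ bE) (ht₂ : t < t₂)
    {K : ℝ≥0∞} {α : ℕ → ℝ≥0∞} {Θ : Measure CTree} [SigmaFinite Θ] (hΘ : LDLaw Φ ε bE K α Θ)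
    (wg : ℕ → ℝ≥0∞) {F : CTree → CTree → ℝ≥0∞} {ψ : Src → Src → ℝ≥0∞}
    (hψ : Measurable fun z : Src × Src => ψ z.1 z.2)
    (hF : ∀ T ∈ okT Φ ε t L, ∀ x, F T x ≤ ∫⁻ z : Ph, gw b z.2 * (ind (hitF Φ ε t z T) *
      ∑' n, wg n * frS Φ ε (ψ (rsrc Φ ε x)) (0, z, n) (ln Φ ε T) T.depth)) :
    sumJ Φ ε t L Θ F ≤
      ∫⁻ z, ψ z.1 z.2 ∂(lamFs hΦ hε.ne' bE b t t₂ α L (fun N => K ^ (N + 2)) wg) := by
  classical
  have hκm : ∀ D, Measurable fun z : Src × (Ph × Ph) =>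
      ∑' n, wg n * kF hΦ hε.ne' ψ n z.1 z.2 D := fun D =>
    Measurable.tsum fun n => (measurable_kF hΦ hε.ne' hψ n D).const_mul _
  refine (sumJ_free hΦ hε hb hbE ht₂ hΘ (κ := fun e p D => ∑' n, wg n * kF hΦ hε.ne' ψ n e p D)
    hκm fun T hT x => (hF T hT x).trans ?_).trans ?_
  · refine lintegral_mono_ae ?_
    filter_upwards [ae_exits_left hΦ hε.ne' (ln Φ ε T)] with z hz
    by_cases h : hitF Φ ε t z T
    · rw [ind_of h, one_mul, one_mul]
      refine mul_le_mul' le_rfl (ENNReal.tsum_le_tsum fun n => mul_le_mul' le_rfl ?_)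
      rw [frS_eq_mF hΦ hε n T.depth _ h.1.1 hz]
      exact le_rfl
    · rw [ind_of_not h, zero_mul, zero_mul]
  · rw [lintegral_lamFs]
    rw [tsum_swap3 (fun N => K ^ (N + 2)) wg (fun N y => aw α y) (fun N y =>
        ∫⁻ x, kp t L (fun e p D => ∑' n, wg n * kF hΦ hε.ne' ψ n e p D) y (srcA ε x)
          (lpA (ixS hΦ hε.ne' y) x).swap ∂(lawA ε bE b t t₂ (N + 1) (ixS hΦ hε.ne' y)))
      (fun N y n => ∫⁻ x, kp t L (kF hΦ hε.ne' ψ n) y (srcA ε x)
          (lpA (ixS hΦ hε.ne' y) x).swap ∂(lawA ε bE b t t₂ (N + 1) (ixS hΦ hε.ne' y)))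
      fun N y => lintegral_kp_tsum hΦ hε.ne' (fun n D => measurable_kF hΦ hε.ne' hψ n D) wg y _]
    exact ENNReal.tsum_le_tsum fun n => mul_le_mul' le_rfl (fresh_le hΦ hε.ne' α _ hψ n)

end Vale.Agent.P119.PB
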