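import Vale.Agent.P119.PB.LamF2
import Vale.Agent.P119.PB.LamS

/-!
# P119, block PROB: `lamN`, `lamF` as sums of laws A, and their constants (`helper298`)

* `lamN_le_lamS`, `lamF_le_lamS`: the laws of 298 are at most a `lamS` of 755;
* `kpN_le`, `kpF_le`: the constants `∑ c_k A^(dM k) fS x (N k)`; `kpN_Rt`, `kpN_Al`, `kpF_Rt`: they are
  finite, uniformly in `t ≤ T` (and for `lamF` at most `C A^n`).
-/

open MeasureTheory Set Filter Topology Metric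
open scoped ENNReal

noncomputable section

namespace Vale.Agent.P119.PB

open KU M M.CTree FL Cap

variable {Φ : E3 → ℝ} {ε bE b t t₂ : ℝ} {L : ℕ}

/-! ### `lamN` -/

/-- The indices of `lamN`. -/
abbrev KN : Type := Σ N : ℕ, Ix N

/-- The coefficients of `lamN`. -/
def cN (α c : ℕ → ℝ≥0∞) (k : KN) : ℝ≥0∞ := c k.1 * aw α k.2

/-- The depth of the exhaust. -/
def dE {N : ℕ} (y : Ix N) : ℕ := max y.1 y.2.1 + 1

/-- The birth of the root. -/
def bN (hΦ : IsPotential Φ) (hε : ε ≠ 0) (k : KN) (x : XA k.1) : ℝ := (srcM hΦ hε k.2 x).1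

theorem measurable_bN (hΦ : IsPotential Φ) (hε : ε ≠ 0) (k : KN) :
    Measurable (bN hΦ hε k) := (measurable_srcM hΦ hε k.2).fst

theorem bN_ge (hΦ : IsPotential Φ) (hε : ε ≠ 0) (k : KN) (x : XA k.1) :
    (endA ε (ixS hΦ hε k.2) x).1 ≤ bN hΦ hε k x := srcM_birth hΦ hε k.2 x

/-- **`lamN` is at most a sum of laws A.** -/
theorem lamN_le_lamS (hΦ : IsPotential Φ) (hε : ε ≠ 0) (b t t₂ : ℝ) (α : ℕ → ℝ≥0∞) (L : ℕ)
    (c : ℕ → ℝ≥0∞) : lamN hΦ hε b t t₂ α L c ≤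
      lamS ε b b t t₂ (cN α c) (fun k : KN => k.1) (fun k => ixS hΦ hε k.2) (fun k => dE k.2)
        (fun k => dM k.2) (bN hΦ hε) := by
  refine Measure.le_iff.2 fun s hs => ?_
  unfold lamN lamS
  rw [Measure.sum_apply _ hs, Measure.sum_apply _ hs, ENNReal.tsum_sigma']
  refine ENNReal.tsum_le_tsum fun N => ?_
  rw [Measure.smul_apply, Measure.sum_apply _ hs, smul_eq_mul, ← ENNReal.tsum_mul_left]
  refine ENNReal.tsum_le_tsum fun y => ?_
  rw [Measure.smul_apply, Measure.smul_apply, smul_eq_mul, smul_eq_mul, ← mul_assoc]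
  exact mul_le_mul' le_rfl (Measure.restrict_apply_le _ s)

/-! ### `lamF` -/

/-- The indices of `lamF`. -/
abbrev KF : Type := Σ N : ℕ, Ix N × Fin 3

/-- The coefficients of `lamF`. -/
def cF (α c : ℕ → ℝ≥0∞) (k : KF) : ℝ≥0∞ := c k.1 * aw α k.2.1

/-- The birth of the created line. -/
def bFk (hΦ : IsPotential Φ) (hε : ε ≠ 0) (n : ℕ) (k : KF) (x : XA (k.1 + 1)) : ℝ :=
  (srcF hΦ hε n k.2.1 k.2.2 x).2.1

theorem measurable_bFk (hΦ : IsPotential Φ) (hε : ε ≠ 0) (n : ℕ) (k : KF) :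
    Measurable (bFk hΦ hε n k) := (measurable_srcF hΦ hε n k.2.1 k.2.2).snd.fst

theorem bFk_ge (hΦ : IsPotential Φ) (hε : ε ≠ 0) (n : ℕ) (k : KF) (x : XA (k.1 + 1)) :
    (endA ε (ixF hΦ hε k.2.1 k.2.2) x).1 ≤ bFk hΦ hε n k x :=
  srcF_birth hΦ hε n k.2.1 k.2.2 x

/-- **`lamF` is at most a sum of laws A.** -/
theorem lamF_le_lamS (hΦ : IsPotential Φ) (hε : ε ≠ 0) (bE b t t₂ : ℝ) (α : ℕ → ℝ≥0∞) (L : ℕ)
    (c : ℕ → ℝ≥0∞) (n : ℕ) : lamF hΦ hε bE b t t₂ α L c n ≤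
      lamS ε bE b t t₂ (cF α c) (fun k : KF => k.1 + 1) (fun k => ixF hΦ hε k.2.1 k.2.2)
        (fun k => dE k.2.1) (fun k => dFr n (dM k.2.1) k.2.2) (bFk hΦ hε n) := by
  refine Measure.le_iff.2 fun s hs => ?_
  unfold lamF lamS
  rw [Measure.sum_apply _ hs, Measure.sum_apply _ hs, ENNReal.tsum_sigma']
  refine ENNReal.tsum_le_tsum fun N => ?_
  rw [Measure.smul_apply, Measure.sum_apply _ hs, smul_eq_mul, ← ENNReal.tsum_mul_left]
  refine ENNReal.tsum_le_tsum fun y => ?_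
  rw [Measure.smul_apply, Measure.smul_apply, smul_eq_mul, smul_eq_mul, ← mul_assoc]
  exact mul_le_mul' le_rfl (Measure.restrict_apply_le _ s)

/-- The coefficients of `lamFs`. -/
def cFs (α c wg : ℕ → ℝ≥0∞) (k : ℕ × KF) : ℝ≥0∞ := wg k.1 * cF α c k.2

/-- **`lamFs` is at most a sum of laws A.** -/
theorem lamFs_le_lamS (hΦ : IsPotential Φ) (hε : ε ≠ 0) (bE b t t₂ : ℝ) (α : ℕ → ℝ≥0∞) (L : ℕ)
    (c wg : ℕ → ℝ≥0∞) : lamFs hΦ hε bE b t t₂ α L c wg ≤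
      lamS ε bE b t t₂ (cFs α c wg) (fun k : ℕ × KF => k.2.1 + 1)
        (fun k => ixF hΦ hε k.2.2.1 k.2.2.2) (fun k => dE k.2.2.1)
        (fun k => dFr k.1 (dM k.2.2.1) k.2.2.2) (fun k => bFk hΦ hε k.1 k.2) := by
  refine Measure.le_iff.2 fun s hs => ?_
  unfold lamFs
  rw [Measure.sum_apply _ hs]
  unfold lamS
  rw [Measure.sum_apply _ hs, ENNReal.tsum_prod']
  refine ENNReal.tsum_le_tsum fun n => ?_
  rw [Measure.smul_apply, smul_eq_mul]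
  have h1 := Measure.le_iff.1 (lamF_le_lamS hΦ hε bE b t t₂ α L c n) s hs
  unfold lamS at h1
  rw [Measure.sum_apply _ hs] at h1
  refine (mul_le_mul' le_rfl h1).trans (le_of_eq ?_)
  rw [← ENNReal.tsum_mul_left]
  refine tsum_congr fun k => ?_
  rw [Measure.smul_apply, Measure.smul_apply, smul_eq_mul, smul_eq_mul, ← mul_assoc]
  rfl

/-! ### The constants -/

theorem dpt_le (k : ℕ) : ∀ (n : ℕ) (ds : Fin k → ℕ), dpt k n ds ≤ n + k + ∑ j, ds j := by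
  induction k with
  | zero => intro n ds; simp [dpt]
  | succ k ih =>
    intro n ds
    have h1 := ih (max n (ds 0) + 1) fun j => ds j.succ
    have h2 : max n (ds 0) ≤ n + ds 0 := max_le (Nat.le_add_right _ _) (Nat.le_add_left _ _)
    change dpt k (max n (ds 0) + 1) (fun j => ds j.succ) ≤ _
    rw [Fin.sum_univ_succ]
    omega

theorem dM_le {N : ℕ} (y : Ix N) :
    dM y ≤ (N + 1) + (y.1 + (y.2.1 + ∑ j, (y.2.2 j).2)) := by
  have h1 := dpt_le N (max y.1 y.2.1 + 1) fun j => (y.2.2 j).2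
  have h2 : max y.1 y.2.1 ≤ y.1 + y.2.1 := max_le (Nat.le_add_right _ _) (Nat.le_add_left _ _)
  unfold dM
  omega

theorem tsum_prod_fin {C : Type*} [Countable C] (g : C → ℝ≥0∞) (N : ℕ) :
    ∑' c : Fin N → C, ∏ j, g (c j) = (∑' x, g x) ^ N := by
  induction N with
  | zero =>
    rw [tsum_fintype]
    simp
  | succ N ih =>
    rw [tsum_fcons]
    have h1 : ∀ (c₀ : C) (c : Fin N → C), ∏ j, g ((Fin.cons c₀ c : Fin (N + 1) → C) j) =
        g c₀ * ∏ j, g (c j) := by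
      intro c₀ c
      rw [Fin.prod_univ_succ]
      simp only [Fin.cons_zero, Fin.cons_succ]
    simp only [h1]
    simp_rw [ENNReal.tsum_mul_left]
    rw [ENNReal.tsum_mul_right, ih, pow_succ']

/-- The sum of the weights. -/
theorem tsum_aw_le (α : ℕ → ℝ≥0∞) {A : ℝ≥0∞} (hA : 1 ≤ A) (N : ℕ) :
    ∑' y : Ix N, aw α y * A ^ dM y ≤
      A ^ (N + 1) * ((∑' n, α n * A ^ n) ^ 2 * (2 * ∑' n, α n * A ^ n) ^ N) := by
  set B : ℝ≥0∞ := ∑' n, α n * A ^ n with hB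
  have h1 : ∀ y : Ix N, aw α y * A ^ dM y ≤ A ^ (N + 1) * ((α y.1 * A ^ y.1) *
      ((α y.2.1 * A ^ y.2.1) * ∏ j, (α (y.2.2 j).2 * A ^ (y.2.2 j).2))) := by
    intro y
    have h2 : A ^ dM y ≤ A ^ ((N + 1) + (y.1 + (y.2.1 + ∑ j, (y.2.2 j).2))) :=
      pow_le_pow_right₀ hA (dM_le y)
    refine (mul_le_mul' le_rfl h2).trans (le_of_eq ?_)
    unfold aw
    rw [pow_add A (N + 1), pow_add A y.1, pow_add A y.2.1, ← Finset.prod_pow_eq_pow_sum,
      Finset.prod_mul_distrib]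
    ring
  refine (ENNReal.tsum_le_tsum h1).trans (le_of_eq ?_)
  rw [ENNReal.tsum_mul_left]
  congr 1
  rw [ENNReal.tsum_prod']
  simp only
  simp_rw [ENNReal.tsum_mul_left]
  rw [ENNReal.tsum_mul_right, ENNReal.tsum_prod']
  simp only
  simp_rw [ENNReal.tsum_mul_left]
  rw [ENNReal.tsum_mul_right, tsum_prod_fin (fun c : Bool × ℕ => α c.2 * A ^ c.2) N]
  have h3 : ∑' c : Bool × ℕ, α c.2 * A ^ c.2 = 2 * B := by
    rw [ENNReal.tsum_prod', tsum_fintype, Fintype.sum_bool, two_mul]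
  rw [h3]
  ring

/-- The constant of `lamN`. -/
theorem kpN_le (α c : ℕ → ℝ≥0∞) {A : ℝ≥0∞} (hA : 1 ≤ A) (x : ℝ≥0∞) :
    kpS (fun k : KN => cN α c k * A ^ dM k.2) (fun k => k.1) x ≤
      ∑' N, c N * (A ^ (N + 1) * ((∑' n, α n * A ^ n) ^ 2 *
        (2 * ∑' n, α n * A ^ n) ^ N)) * fS x N := by
  unfold kpS
  rw [ENNReal.tsum_sigma']
  refine ENNReal.tsum_le_tsum fun N => ?_
  simp only
  have h1 : ∀ y : Ix N, cN α c ⟨N, y⟩ * A ^ dM y * fS x N = (c N * fS x N) *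
      (aw α y * A ^ dM y) := fun y => by
    unfold cN
    ring
  simp only [h1]
  rw [ENNReal.tsum_mul_left]
  refine (mul_le_mul' le_rfl (tsum_aw_le α hA N)).trans (le_of_eq ?_)
  ring

/-- The constant of `lamF`. -/
theorem kpF_le (α c : ℕ → ℝ≥0∞) {A : ℝ≥0∞} (hA : 1 ≤ A) (n : ℕ) (x : ℝ≥0∞) :
    kpS (fun k : KF => cF α c k * A ^ dFr n (dM k.2.1) k.2.2) (fun k => k.1 + 1) x ≤
      (3 * A ^ (n + 1) * fS x 1) * ∑' N, c N * (A ^ (N + 1) * ((∑' n, α n * A ^ n) ^ 2 *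
        (2 * ∑' n, α n * A ^ n) ^ N)) * fS x N := by
  have hd : ∀ (D : ℕ) (τ : Fin 3), dFr n D τ ≤ (n + 1) + D := by
    intro D τ
    have h2 : max n D ≤ n + D := max_le (Nat.le_add_right _ _) (Nat.le_add_left _ _)
    unfold dFr
    fin_cases τ
    · change max n D + 1 ≤ n + 1 + D
      omega
    · change max n D + 1 ≤ n + 1 + D
      omega
    · change D ≤ n + 1 + D
      omega
  unfold kpS
  rw [ENNReal.tsum_sigma', ← ENNReal.tsum_mul_left]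
  refine ENNReal.tsum_le_tsum fun N => ?_
  simp only
  rw [ENNReal.tsum_prod' (f := fun p : Ix N × Fin 3 =>
    cF α c ⟨N, p⟩ * A ^ dFr n (dM p.1) p.2 * fS x (N + 1))]
  simp only
  have h1 : ∀ y : Ix N, ∑' τ : Fin 3, cF α c ⟨N, (y, τ)⟩ * A ^ dFr n (dM y) τ * fS x (N + 1) ≤
      (3 * A ^ (n + 1) * fS x 1) * ((c N * fS x N) * (aw α y * A ^ dM y)) := by
    intro y
    rw [tsum_fintype]
    have h2 : ∀ τ : Fin 3, cF α c ⟨N, (y, τ)⟩ * A ^ dFr n (dM y) τ * fS x (N + 1) ≤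
        (A ^ (n + 1) * fS x 1) * ((c N * fS x N) * (aw α y * A ^ dM y)) := by
      intro τ
      have h3 : A ^ dFr n (dM y) τ ≤ A ^ ((n + 1) + dM y) := pow_le_pow_right₀ hA (hd _ τ)
      have h4 : fS x (N + 1) ≤ fS x N * fS x 1 := fS_add_le x N 1
      calc cF α c ⟨N, (y, τ)⟩ * A ^ dFr n (dM y) τ * fS x (N + 1)
          ≤ cF α c ⟨N, (y, τ)⟩ * A ^ ((n + 1) + dM y) * (fS x N * fS x 1) :=
            mul_le_mul' (mul_le_mul' le_rfl h3) h4
        _ = _ := by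
            unfold cF
            rw [pow_add]
            ring
    refine (Finset.sum_le_sum fun τ _ => h2 τ).trans (le_of_eq ?_)
    rw [Finset.sum_const, Finset.card_univ, Fintype.card_fin, nsmul_eq_mul]
    push_cast
    ring
  refine (ENNReal.tsum_le_tsum h1).trans ?_
  rw [ENNReal.tsum_mul_left]
  refine mul_le_mul' le_rfl ?_
  rw [ENNReal.tsum_mul_left]
  refine (mul_le_mul' le_rfl (tsum_aw_le α hA N)).trans (le_of_eq ?_)
  ring

/-- The bound of the constants. -/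
def kC (K B A x : ℝ≥0∞) : ℝ≥0∞ := K ^ 2 * A * B ^ 2 * ∑' N, fS (2 * A * K * B * x) N

theorem kC_ne_top {K B A x : ℝ≥0∞} (hK : K ≠ ∞) (hB : B ≠ ∞) (hA : A ≠ ∞) (hx : x ≠ ∞) :
    kC K B A x ≠ ∞ := by
  unfold kC
  refine ENNReal.mul_ne_top (ENNReal.mul_ne_top (ENNReal.mul_ne_top (ENNReal.pow_ne_top hK) hA)
    (ENNReal.pow_ne_top hB)) (tsum_fS_ne_top ?_)
  exact ENNReal.mul_ne_top (ENNReal.mul_ne_top (ENNReal.mul_ne_top (ENNReal.mul_ne_top
    (by norm_num) hA) hK) hB) hx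

theorem tsum_kC (K B A x : ℝ≥0∞) :
    ∑' N, K ^ (N + 2) * (A ^ (N + 1) * (B ^ 2 * (2 * B) ^ N)) * fS x N = kC K B A x := by
  unfold kC
  rw [← ENNReal.tsum_mul_left]
  refine tsum_congr fun N => ?_
  unfold fS
  ring

/-- The constant of the exhausts with the root. -/
theorem kpN_Rt (b : ℝ) (K : ℝ≥0∞) (α : ℕ → ℝ≥0∞) {A : ℝ≥0∞} (hA : 1 ≤ A) (q : ℕ) (x : ℝ≥0∞) :
    kpS (fun k : KN => cN α (cRt b K q) k * A ^ dM k.2) (fun k => k.1) x ≤
      ENNReal.ofReal (Cgp (b / 4) q) * kC K (∑' n, α n * A ^ n) A x := by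
  refine (kpN_le α _ hA x).trans (le_of_eq ?_)
  generalize (∑' n, α n * A ^ n) = B
  rw [← tsum_kC, ← ENNReal.tsum_mul_left]
  refine tsum_congr fun N => ?_
  unfold cRt
  ring

theorem cTR_mono {T : ℝ} (ht : 0 ≤ t) (htT : t ≤ T) (K : ℝ≥0∞) (q : ℕ) :
    cTR b t K q ≤ cTR b T K q := by
  unfold cTR
  refine ENNReal.tsum_le_tsum fun k => ?_
  unfold cTr
  refine mul_le_mul' le_rfl (mul_le_mul' le_rfl (mul_le_mul' le_rfl
    (ENNReal.ofReal_le_ofReal ?_)))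
  have h := Kc_nonneg (b / 2)
  gcongr

/-- The constant of two nodes, one above the other. -/
theorem kpN_Al {T : ℝ} (ht : 0 ≤ t) (htT : t ≤ T) (K : ℝ≥0∞) (α : ℕ → ℝ≥0∞) {A : ℝ≥0∞}
    (hA : 1 ≤ A) (q : ℕ) (x : ℝ≥0∞) :
    kpS (fun k : KN => cN α (cAl b t K α q) k * A ^ dM k.2) (fun k => k.1) x ≤
      cTR b T (K * ∑' n, α n) q * kC K (∑' n, α n * A ^ n) A x := by
  refine (kpN_le α _ hA x).trans ?_
  generalize (∑' n, α n * A ^ n) = B
  rw [← tsum_kC, ← ENNReal.tsum_mul_left]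
  refine ENNReal.tsum_le_tsum fun N => ?_
  have h1 : cAl b t K α q N ≤ cTR b T (K * ∑' n, α n) q * K ^ (N + 2) := by
    cases N with
    | zero => exact zero_le
    | succ N => exact mul_le_mul' (cTR_mono ht htT _ q) le_rfl
  refine (mul_le_mul' (mul_le_mul' h1 le_rfl) le_rfl).trans (le_of_eq ?_)
  ring

/-- The constant of the lines created by a free line. -/
theorem kpF_Rt (K : ℝ≥0∞) (α : ℕ → ℝ≥0∞) {A : ℝ≥0∞} (hA : 1 ≤ A) (n : ℕ) (x : ℝ≥0∞) :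
    kpS (fun k : KF => cF α (fun N => K ^ (N + 2)) k * A ^ dFr n (dM k.2.1) k.2.2)
      (fun k => k.1 + 1) x ≤
      A ^ n * (3 * A * fS x 1 * kC K (∑' n, α n * A ^ n) A x) := by
  refine (kpF_le α _ hA n x).trans (le_of_eq ?_)
  rw [← tsum_kC, pow_succ]
  ring

/-- The constant of the lines created by a free line, summed over its depth. -/
theorem kpFs_Rt (K : ℝ≥0∞) (α wg : ℕ → ℝ≥0∞) {A : ℝ≥0∞} (hA : 1 ≤ A) (x : ℝ≥0∞) :
    kpS (fun k : ℕ × KF => cFs α (fun N => K ^ (N + 2)) wg k * A ^ dFr k.1 (dM k.2.2.1) k.2.2.2)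
      (fun k => k.2.1 + 1) x ≤
      (∑' n, wg n * A ^ n) * (3 * A * fS x 1 * kC K (∑' n, α n * A ^ n) A x) := by
  unfold kpS
  rw [ENNReal.tsum_prod', ← ENNReal.tsum_mul_right]
  refine ENNReal.tsum_le_tsum fun n => ?_
  have h1 := kpF_Rt K α hA n x
  unfold kpS at h1
  have h2 : ∀ k : KF, cFs α (fun N => K ^ (N + 2)) wg (n, k) * A ^ dFr n (dM k.2.1) k.2.2 *
      fS x (k.1 + 1) = wg n * (cF α (fun N => K ^ (N + 2)) k * A ^ dFr n (dM k.2.1) k.2.2 *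
      fS x (k.1 + 1)) := fun k => by
    unfold cFs
    ring
  simp only [h2]
  rw [ENNReal.tsum_mul_left, mul_assoc (wg n)]
  exact mul_le_mul' le_rfl h1

end Vale.Agent.P119.PB
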