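import Vale.Agent.P119.PB.MassL
import Vale.Agent.P119.PB.Hit8

/-!
# P119, P8: `Law8` for the laws of type A (`helper755`)

* `kpN_V`, `kpFs_V`: the constants with the weights of the depth of `e`;
* `domA_lamN`, `domA_lamFs`;
* `law8_lam8R`, `law8_lam8A`, `law8_lam8F`: **`Law8` for the root, for two exhausts one above the
  other (lower one second), and for the fresh lines**.
-/

open MeasureTheory Set Filter Topology Metric ProbabilityTheory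
open scoped ENNReal

noncomputable section

namespace Vale.Agent.P119.PB

open M CTree KU FB RB AU FL TL EN

variable {Φ : E3 → ℝ} {ε : ℝ} {L : ℕ} {f₀ : Ph → ℝ} {κ t t₂ t' T b b₀ B : ℝ}

/-! ### The constants -/

/-- The sum over the depths of the two subtrees. -/
def sV (α v : ℕ → ℝ≥0∞) : ℝ≥0∞ := ∑' d, ∑' d', α d * (α d' * v (max d d' + 1))

/-- The constant of `lamN` with weights of the depth of `e`. -/
def kVN (C K : ℝ≥0∞) (α v : ℕ → ℝ≥0∞) (x : ℝ≥0∞) : ℝ≥0∞ :=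
  (C * K ^ 2) * sV α v * ∑' N, fS (K * (2 * ∑' n, α n) * x) N

theorem kVN_ne_top {C K : ℝ≥0∞} {α v : ℕ → ℝ≥0∞} {x : ℝ≥0∞} (hC : C ≠ ∞) (hK : K ≠ ∞)
    (hα : ∑' n, α n ≠ ∞) (hv : sV α v ≠ ∞) (hx : x ≠ ∞) : kVN C K α v x ≠ ∞ := by
  unfold kVN
  exact ENNReal.mul_ne_top (ENNReal.mul_ne_top (ENNReal.mul_ne_top hC (ENNReal.pow_ne_top hK)) hv)
    (tsum_fS_ne_top (ENNReal.mul_ne_top (ENNReal.mul_ne_top hK (ENNReal.mul_ne_top (by norm_num)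
      hα)) hx))

theorem kpN_V {α c v : ℕ → ℝ≥0∞} {C K : ℝ≥0∞} (hc : ∀ N, c N ≤ C * K ^ (N + 2)) (x : ℝ≥0∞) :
    kpS (fun k : KN => cN α c k * v (dE k.2)) (fun k => k.1) x ≤ kVN C K α v x :=
  kpS_Ix_le (W := fun k : Σ N, Ix N => v (dE k.2)) (C := C * K ^ 2) (q := K)
    (fun N => (hc N).trans (le_of_eq (by rw [pow_add]; ring)))
    (fun N => (sum_aw_v α v N).le) x

theorem cRt_le (b : ℝ) (K : ℝ≥0∞) (q N : ℕ) :
    cRt b K q N ≤ ENNReal.ofReal (Cgp (b / 4) q) * K ^ (N + 2) := le_rfl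

theorem cAl_le {K : ℝ≥0∞} {α : ℕ → ℝ≥0∞} (ht : 0 ≤ t) (htT : t ≤ T) (q N : ℕ) :
    cAl b t K α q N ≤ cTR b T (K * ∑' n, α n) q * K ^ (N + 2) := by
  cases N with
  | zero => exact zero_le
  | succ N => exact mul_le_mul' (cTR_mono ht htT _ q) le_rfl

theorem kpFs_V {α c v wg : ℕ → ℝ≥0∞} {C K : ℝ≥0∞} (hc : ∀ N, c N ≤ C * K ^ (N + 2)) (x : ℝ≥0∞) :
    kpS (fun k : ℕ × KF => cFs α c wg k * v (dE k.2.2.1)) (fun k => k.2.1 + 1) x ≤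
      (∑' n, wg n) * (3 * fS x 1 * kVN C K α v x) := by
  have h0 := kpN_V (α := α) (v := v) hc x
  unfold kpS at h0 ⊢
  rw [ENNReal.tsum_prod', ← ENNReal.tsum_mul_right]
  refine ENNReal.tsum_le_tsum fun n => ?_
  have h1 : ∑' k : KF, cF α c k * v (dE k.2.1) * fS x (k.1 + 1) ≤
      3 * fS x 1 * kVN C K α v x := by
    refine le_trans ?_ (mul_le_mul' le_rfl h0)
    rw [ENNReal.tsum_sigma', ENNReal.tsum_sigma', ← ENNReal.tsum_mul_left]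
    refine ENNReal.tsum_le_tsum fun N => ?_
    rw [ENNReal.tsum_prod' (f := fun p : Ix N × Fin 3 =>
      cF α c ⟨N, p⟩ * v (dE p.1) * fS x (N + 1)), ← ENNReal.tsum_mul_left]
    refine ENNReal.tsum_le_tsum fun y => ?_
    rw [tsum_fintype]
    have h3 : ∀ τ : Fin 3, cF α c ⟨N, (y, τ)⟩ * v (dE y) * fS x (N + 1) ≤
        fS x 1 * (cN α c ⟨N, y⟩ * v (dE y) * fS x N) := by
      intro τ
      calc cF α c ⟨N, (y, τ)⟩ * v (dE y) * fS x (N + 1)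
          ≤ cF α c ⟨N, (y, τ)⟩ * v (dE y) * (fS x N * fS x 1) :=
            mul_le_mul' le_rfl (fS_add_le x N 1)
        _ = _ := by
            unfold cF cN
            ring
    refine (Finset.sum_le_sum fun τ _ => h3 τ).trans (le_of_eq ?_)
    rw [Finset.sum_const, Finset.card_univ, Fintype.card_fin, nsmul_eq_mul]
    push_cast
    ring
  have h2 : ∀ k : KF, cFs α c wg (n, k) * v (dE k.2.1) * fS x (k.1 + 1) =
      wg n * (cF α c k * v (dE k.2.1) * fS x (k.1 + 1)) := fun k => by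
    unfold cFs
    ring
  simp only [h2]
  rw [ENNReal.tsum_mul_left]
  exact mul_le_mul' le_rfl h1

/-! ### The laws are dominated by sums of laws A -/

theorem domA_lamN (hΦ : IsPotential Φ) (hε : 0 < ε) (htt : t₂ ≤ t') {α c v : ℕ → ℝ≥0∞}
    {C K : ℝ≥0∞} (hc : ∀ N, c N ≤ C * K ^ (N + 2)) :
    DomA ε b b t t' v (kVN C K α v) (lamN hΦ hε.ne' b t t₂ α L c) :=
  ⟨t₂, htt, KN, inferInstance, cN α c, fun k => k.1, fun k => ixS hΦ hε.ne' k.2,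
    fun k => dE k.2, fun k => dM k.2, bN hΦ hε.ne', measurable_bN hΦ hε.ne',
    fun k x _ => bN_ge hΦ hε.ne' k x, lamN_le_lamS hΦ hε.ne' b t t₂ α L c, kpN_V hc⟩

theorem domA_lamFs {bE : ℝ} (hΦ : IsPotential Φ) (hε : 0 < ε) (htt : t₂ ≤ t')
    {α c v wg : ℕ → ℝ≥0∞} {C K : ℝ≥0∞} (hc : ∀ N, c N ≤ C * K ^ (N + 2)) :
    DomA ε bE b t t' v (fun x => (∑' n, wg n) * (3 * fS x 1 * kVN C K α v x))
      (lamFs hΦ hε.ne' bE b t t₂ α L c wg) :=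
  ⟨t₂, htt, ℕ × KF, inferInstance, cFs α c wg, fun k => k.2.1 + 1,
    fun k => ixF hΦ hε.ne' k.2.2.1 k.2.2.2, fun k => dE k.2.2.1,
    fun k => dFr k.1 (dM k.2.2.1) k.2.2.2, fun k => bFk hΦ hε.ne' k.1 k.2,
    fun k => measurable_bFk hΦ hε.ne' k.1 k.2, fun k x _ => bFk_ge hΦ hε.ne' k.1 k.2 x,
    lamFs_le_lamS hΦ hε.ne' bE b t t₂ α L c wg, kpFs_V hc⟩

/-! ### `Law8` -/

variable {l₁ l₂ Q : ℝ} {m αP a' : ℕ → ℝ}

theorem sV_ne_top (hP : Par T b₀ m b l₁ l₂ Q αP a') : sV (aM8 m) (vA a') ≠ ∞ := by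
  refine sum_vA_ne_top hP.wts (fun n => ?_) ?_
  · have h := hP.succ_mul_le n
    have e : ((n : ℝ≥0∞) + 1) * aM8 m n = ENNReal.ofReal (((n : ℝ) + 1) * m n) := by
      unfold aM8
      rw [ENNReal.ofReal_mul (by positivity), ENNReal.ofReal_add (by positivity) zero_le_one,
        ENNReal.ofReal_natCast, ENNReal.ofReal_one]
    rw [e]
    exact ENNReal.ofReal_le_ofReal h
  · have h := tsum_aM8_ne_top hP.msup (A := 1) ENNReal.one_ne_top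
    simpa using h

theorem tsum_aM8 (hP : Par T b₀ m b l₁ l₂ Q αP a') : ∑' n, aM8 m n ≠ ∞ := by
  have h := tsum_aM8_ne_top hP.msup (A := 1) ENNReal.one_ne_top
  simpa using h

/-- **`Law8` for the exhausts with the root.** -/
theorem law8_lam8R (hP : Par T b₀ m b l₁ l₂ Q αP a') (hΦ : IsPotential Φ)
    (h₀ : GoodDatum f₀ κ) (hB : RW.StableWith Φ B) (hm2 : m2 f₀ < ∞) (q : ℕ)
    {a : ℕ → ℝ≥0∞} (ha : ∑' n, a n ≠ ∞) :
    Law8 hΦ f₀ T (b₀ / 2) a (dD hΦ f₀) (dTh b T l₁ l₂ a' hΦ f₀ T) (AU.dF hΦ f₀)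
      (fun L δ => dTh b T l₁ l₂ a' hΦ f₀ δ L) (lam8R hΦ (b₀ / 2) T m q) := by
  have hb₀ := hP.b₀0
  have hb := hP.b0
  have hT := hP.T0
  have hbe := hP.hb
  have hdom : ∀ᶠ L in atTop, ∀ᶠ ε in 𝓝[>] (0 : ℝ), ∀ hε : 0 < ε, ∀ t ∈ Icc 0 T,
      DomA ε (b₀ / 2 / 2) (b₀ / 2 / 2) t (T + 1) (vA a')
        (kVN (ENNReal.ofReal (Cgp (b₀ / 2 / 4) q)) (K8 T) (aM8 m) (vA a'))
        (lam8R hΦ (b₀ / 2) T m q L ε hε t) :=
    Eventually.of_forall fun L => Eventually.of_forall fun ε hε t ht =>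
      domA_lamN hΦ hε (by linarith [ht.2]) (cRt_le _ _ q)
  have hkV : ∀ x, x ≠ ∞ → kVN (ENNReal.ofReal (Cgp (b₀ / 2 / 4) q)) (K8 T) (aM8 m) (vA a') x ≠ ∞ :=
    fun x hx => kVN_ne_top ENNReal.ofReal_ne_top K8_ne_top (tsum_aM8 hP) (sV_ne_top hP) hx
  exact
  { sf := fun L ε hε t => inferInstance
    ok := sup8R q
    hit := fun A hA hA' => hit8R hP.msup (by positivity) q A hA hA'
    mass := mass8_domA hΦ h₀ hm2 hB (by positivity) le_rfl hT hkV (sup8R q) hdom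
    main := main8_domA hΦ h₀ hm2 hB (by positivity) le_rfl (by linarith) hb (by linarith) hT
      hP.l₁0 hP.l₂0 hP.wts.apos ha hkV (sup8R q) hdom }

/-- **`Law8` for two exhausts, one above the other.** -/
theorem law8_lam8A (hP : Par T b₀ m b l₁ l₂ Q αP a') (hΦ : IsPotential Φ)
    (h₀ : GoodDatum f₀ κ) (hB : RW.StableWith Φ B) (hm2 : m2 f₀ < ∞) (q : ℕ)
    {a : ℕ → ℝ≥0∞} (ha : ∑' n, a n ≠ ∞) :
    Law8 hΦ f₀ T (b₀ / 2) a (dD hΦ f₀) (dTh b T l₁ l₂ a' hΦ f₀ T) (AU.dF hΦ f₀)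
      (fun L δ => dTh b T l₁ l₂ a' hΦ f₀ δ L) (lam8A hΦ (b₀ / 2) T m q) := by
  have hb₀ := hP.b₀0
  have hb := hP.b0
  have hT := hP.T0
  have hbe := hP.hb
  have hdom : ∀ᶠ L in atTop, ∀ᶠ ε in 𝓝[>] (0 : ℝ), ∀ hε : 0 < ε, ∀ t ∈ Icc 0 T,
      DomA ε (b₀ / 2 / 2) (b₀ / 2 / 2) t (T + 1) (vA a')
        (kVN (cTR (b₀ / 2) T (K8 T * ∑' n, aM8 m n) q) (K8 T) (aM8 m) (vA a'))
        (lam8A hΦ (b₀ / 2) T m q L ε hε t) :=
    Eventually.of_forall fun L => Eventually.of_forall fun ε hε t ht =>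
      domA_lamN hΦ hε (by linarith [ht.2]) (cAl_le ht.1 ht.2 q)
  have hkV : ∀ x, x ≠ ∞ → kVN (cTR (b₀ / 2) T (K8 T * ∑' n, aM8 m n) q) (K8 T) (aM8 m)
      (vA a') x ≠ ∞ :=
    fun x hx => kVN_ne_top (cTR_ne_top (ENNReal.mul_ne_top K8_ne_top (tsum_aM8 hP)) hT.le q)
      K8_ne_top (tsum_aM8 hP) (sV_ne_top hP) hx
  exact
  { sf := fun L ε hε t => inferInstance
    ok := sup8A q
    hit := fun A hA hA' => hit8A hP.msup hT.le (by positivity) q A hA hA'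
    mass := mass8_domA hΦ h₀ hm2 hB (by positivity) le_rfl hT hkV (sup8A q) hdom
    main := main8_domA hΦ h₀ hm2 hB (by positivity) le_rfl (by linarith) hb (by linarith) hT
      hP.l₁0 hP.l₂0 hP.wts.apos ha hkV (sup8A q) hdom }

/-- **`Law8` for the fresh lines.** -/
theorem law8_lam8F (hP : Par T b₀ m b l₁ l₂ Q αP a') (hΦ : IsPotential Φ)
    (h₀ : GoodDatum f₀ κ) (hB : RW.StableWith Φ B) (hm2 : m2 f₀ < ∞) {β : ℝ} (hβ : 0 < β)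
    (hβb : β ≤ b₀ / 2) {wg : ℕ → ℝ≥0∞} (hw : ∀ A : ℝ≥0∞, A ≠ ∞ → ∑' n, wg n * A ^ n ≠ ∞)
    {a : ℕ → ℝ≥0∞} (ha : ∑' n, a n ≠ ∞) :
    Law8 hΦ f₀ T (b₀ / 2) a (dD hΦ f₀) (dTh b T l₁ l₂ a' hΦ f₀ T) (AU.dF hΦ f₀)
      (fun L δ => dTh b T l₁ l₂ a' hΦ f₀ δ L) (lam8F hΦ (b₀ / 2) β T m wg) := by
  have hb₀ := hP.b₀0
  have hb := hP.b0
  have hT := hP.T0
  have hbe := hP.hb
  have hw1 : ∑' n, wg n ≠ ∞ := by
    have h := hw 1 ENNReal.one_ne_top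
    simpa using h
  have hdom : ∀ᶠ L in atTop, ∀ᶠ ε in 𝓝[>] (0 : ℝ), ∀ hε : 0 < ε, ∀ t ∈ Icc 0 T,
      DomA ε (b₀ / 2) β t (T + 1) (vA a')
        (fun x => (∑' n, wg n) * (3 * fS x 1 * kVN 1 (K8 T) (aM8 m) (vA a') x))
        (lam8F hΦ (b₀ / 2) β T m wg L ε hε t) :=
    Eventually.of_forall fun L => Eventually.of_forall fun ε hε t ht =>
      domA_lamFs hΦ hε le_rfl (fun N => (one_mul _).ge)
  have hkV : ∀ x : ℝ≥0∞, x ≠ ∞ →
      (∑' n, wg n) * (3 * fS x 1 * kVN 1 (K8 T) (aM8 m) (vA a') x) ≠ ∞ :=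
    fun x hx => ENNReal.mul_ne_top hw1 (ENNReal.mul_ne_top (ENNReal.mul_ne_top (by norm_num)
      (fS_ne_top hx 1)) (kVN_ne_top ENNReal.one_ne_top K8_ne_top (tsum_aM8 hP) (sV_ne_top hP) hx))
  exact
  { sf := fun L ε hε t => inferInstance
    ok := sup8F
    hit := fun A hA hA' => hit8F hP.msup hβ hβb hw A hA hA'
    mass := mass8_domA hΦ h₀ hm2 hB hβ hβb hT hkV sup8F hdom
    main := main8_domA hΦ h₀ hm2 hB hβ hβb hβb hb (by linarith) hT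
      hP.l₁0 hP.l₂0 hP.wts.apos ha hkV sup8F hdom }

end Vale.Agent.P119.PB
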