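import Vale.Agent.P119.PB.AwB
import Vale.Agent.P119.PB.LamS

/-!
# P119, block PROB, P8: the final constant of the law B (`helper690`)

* **`sum_B_le`**: the sum over the number of hits and over the indices of a marked node, with the
  inverse of the weight of the depth of the root, is at most `K ^ L`.
-/

open Set Filter Topology
open scoped ENNReal

noncomputable section

namespace Vale.Agent.P119.PB

open SC

variable {α a : ℕ → ℝ} {Q : ℝ}

/-- The weights are bounded. -/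
theorem Wts.le_const (hw : Wts α a Q) : ∃ B₀ : ℝ, 0 ≤ B₀ ∧ ∀ n, a n ≤ B₀ := by
  obtain ⟨B, hB⟩ := hw.w3 0
  refine ⟨B, ?_, fun n => ?_⟩
  · have h := hB 0
    have h0 := hw.apos 0
    simp only [zero_mul, Real.exp_zero, mul_one] at h
    linarith
  · have h := hB n
    simpa only [zero_mul, Real.exp_zero, mul_one] using h

theorem fS_real {x : ℝ} (hx : 0 ≤ x) (N : ℕ) : fS (ENNReal.ofReal x) N = sx x N :=
  (fS_of_real hx N).symm

/-- **The sum over the number of hits and over the indices of a marked node.** -/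
theorem sum_B_le (hw : Wts α a Q) {α' : ℕ → ℝ} (h' : ∀ n : ℕ, α' n * √((n : ℝ) + 1) ≤ α n)
    (h0 : ∀ n, 0 ≤ α' n) {κ₁ x : ℝ≥0∞} (hκ : κ₁ ≠ ∞) (hx : x ≠ ∞) :
    ∃ K : ℝ, 1 ≤ K ∧ ∀ L : ℕ, 1 ≤ L →
      ∑' n, (κ₁ ^ (n + 3) * fS x n) * (∑' y : Ix (n + 1),
        aw (fun n => ENNReal.ofReal (α' n)) y *
          (if dM y ≤ L then 1 + (ENNReal.ofReal (a (dM y)))⁻¹ else 0)) ≤
        ENNReal.ofReal (K ^ L) := by
  obtain ⟨B₀, hB0, hB⟩ := hw.le_const
  have hQ := hw.Q0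
  set k : ℝ := κ₁.toReal with hk
  set z : ℝ := x.toReal with hz
  have hk0 : 0 ≤ k := ENNReal.toReal_nonneg
  have hz0 : 0 ≤ z := ENNReal.toReal_nonneg
  have ek : κ₁ = ENNReal.ofReal k := (ENNReal.ofReal_toReal hκ).symm
  have ez : x = ENNReal.ofReal z := (ENNReal.ofReal_toReal hx).symm
  set c : ℝ := 2 * k * z * Q with hc
  have hc0 : 0 ≤ c := by positivity
  set C₀ : ℝ := k ^ 3 * ((B₀ + 1) * Q ^ 2) * (2 * Q) with hC
  have hC0 : 0 ≤ C₀ := by positivity
  refine ⟨(2 * C₀ + 1) * 2 * Real.exp (c ^ 2), ?_, fun L hL => ?_⟩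
  · have h1 : 1 ≤ Real.exp (c ^ 2) := Real.one_le_exp (by positivity)
    nlinarith
  have hpt : ∀ (N : ℕ) (y : Ix N), (if dM y ≤ L then 1 + (ENNReal.ofReal (a (dM y)))⁻¹ else 0) ≤
      ENNReal.ofReal (B₀ + 1) * (if dM y ≤ L then (ENNReal.ofReal (a (dM y)))⁻¹ else 0) := by
    intro N y
    split_ifs
    swap
    · exact zero_le
    have ha := hw.apos (dM y)
    rw [ENNReal.ofReal_add hB0 zero_le_one, ENNReal.ofReal_one, add_mul, one_mul]
    refine add_le_add ?_ le_rfl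
    rw [← div_eq_mul_inv, ENNReal.le_div_iff_mul_le (Or.inl (ENNReal.ofReal_pos.2 ha).ne')
      (Or.inl ENNReal.ofReal_ne_top), one_mul]
    exact ENNReal.ofReal_le_ofReal (hB _)
  have hn : ∀ n : ℕ, (κ₁ ^ (n + 3) * fS x n) * (∑' y : Ix (n + 1),
        aw (fun n => ENNReal.ofReal (α' n)) y *
          (if dM y ≤ L then 1 + (ENNReal.ofReal (a (dM y)))⁻¹ else 0)) ≤
      ENNReal.ofReal (C₀ * √(L : ℝ)) * sx (c * √(L : ℝ)) n := by
    intro n
    have h1 : ∑' y : Ix (n + 1), aw (fun n => ENNReal.ofReal (α' n)) y *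
          (if dM y ≤ L then 1 + (ENNReal.ofReal (a (dM y)))⁻¹ else 0) ≤
        ENNReal.ofReal (B₀ + 1) * (ENNReal.ofReal (Q ^ 2) *
          (2 * ENNReal.ofReal (√(L : ℝ) * Q)) ^ (n + 1)) := by
      refine le_trans ?_ (mul_le_mul' le_rfl (sum_awB_le hw h' h0 (n + 1) L))
      rw [← ENNReal.tsum_mul_left]
      refine ENNReal.tsum_le_tsum fun y => ?_
      rw [mul_left_comm]
      exact mul_le_mul' le_rfl (hpt _ y)
    refine (mul_le_mul' le_rfl h1).trans (le_of_eq ?_)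
    have hs : 0 ≤ √(L : ℝ) := Real.sqrt_nonneg _
    rw [ek, ez, fS_real hz0]
    unfold sx
    have e2 : (2 : ℝ≥0∞) * ENNReal.ofReal (√(L : ℝ) * Q) = ENNReal.ofReal (2 * (√(L : ℝ) * Q)) := by
      rw [ENNReal.ofReal_mul (by norm_num : (0 : ℝ) ≤ 2)]
      norm_num
    rw [e2, ← ENNReal.ofReal_pow hk0, ← ENNReal.ofReal_pow (by positivity),
      ← ENNReal.ofReal_mul (by positivity), ← ENNReal.ofReal_mul (by positivity),
      ← ENNReal.ofReal_mul (by positivity), ← ENNReal.ofReal_mul (by positivity),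
      ← ENNReal.ofReal_mul (by positivity)]
    congr 1
    rw [hC, hc]
    have hf : √(n.factorial : ℝ) ≠ 0 := (sqrt_fact_pos n).ne'
    field_simp
    ring
  calc _ ≤ ∑' n, ENNReal.ofReal (C₀ * √(L : ℝ)) * sx (c * √(L : ℝ)) n :=
        ENNReal.tsum_le_tsum hn
    _ = ENNReal.ofReal (C₀ * √(L : ℝ)) * ∑' n, sx (c * √(L : ℝ)) n := ENNReal.tsum_mul_left
    _ ≤ ENNReal.ofReal (C₀ * √(L : ℝ)) * ENNReal.ofReal (2 * Real.exp (c ^ 2) ^ L) :=
        mul_le_mul' le_rfl (sx_sqrt_le hc0 L)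
    _ = ENNReal.ofReal (C₀ * √(L : ℝ) * (2 * Real.exp (c ^ 2) ^ L)) := by
        rw [← ENNReal.ofReal_mul (by positivity)]
    _ ≤ _ := by
        refine ENNReal.ofReal_le_ofReal ?_
        have e1 : ((2 * C₀ + 1) * 2 * Real.exp (c ^ 2)) ^ L =
            (2 * C₀ + 1) ^ L * 2 ^ L * Real.exp (c ^ 2) ^ L := by
          rw [mul_pow ((2 * C₀ + 1) * 2), mul_pow (2 * C₀ + 1)]
        rw [e1]
        have h1 : √(L : ℝ) ≤ 2 ^ L := by
          have h2 : (L : ℝ) ≤ 2 ^ L := by exact_mod_cast (Nat.lt_two_pow_self (n := L)).le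
          have h3 : (1 : ℝ) ≤ L := by exact_mod_cast hL
          calc √(L : ℝ) ≤ L := by
                rw [Real.sqrt_le_left (by linarith)]
                nlinarith
            _ ≤ _ := h2
        have h4 : 2 * C₀ ≤ (2 * C₀ + 1) ^ L := by
          calc 2 * C₀ ≤ 2 * C₀ + 1 := by linarith
            _ ≤ (2 * C₀ + 1) ^ L := le_self_pow₀ (by linarith) (by omega)
        have h5 : 0 ≤ Real.exp (c ^ 2) ^ L := by positivity
        calc C₀ * √(L : ℝ) * (2 * Real.exp (c ^ 2) ^ L)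
            = (2 * C₀) * √(L : ℝ) * Real.exp (c ^ 2) ^ L := by ring
          _ ≤ (2 * C₀ + 1) ^ L * 2 ^ L * Real.exp (c ^ 2) ^ L := by
              gcongr

end Vale.Agent.P119.PB
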