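import Vale.Agent.P119.PB.BLB4
import Vale.Agent.P119.PB.LamBm
import Vale.Agent.P119.PB.SumB
import Vale.Agent.P119.PB.Law8A

/-!
# P119, P8: `Law8` for the law B (`helper778`)

* `lam8B_eq`: the law B is `lamB`;
* `main8_lam8B`: the main terms;
* `law8_lam8B`: **`Law8` for two exhausts, one above the other, in the other order**.
-/

open MeasureTheory Set Filter Topology Metric ProbabilityTheory
open scoped ENNReal

noncomputable section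

namespace Vale.Agent.P119.PB

open M CTree KU FB RB AU FL TL EN

variable {Φ : E3 → ℝ} {hΦ : IsPotential Φ} {f₀ : Ph → ℝ} {κ T b b₀ l₁ l₂ Q B : ℝ}
  {m αP a' : ℕ → ℝ}

/-- The inner sum of the law B, with the weights of the depth of the root. -/
theorem sumB_le {L J : ℕ} {α c v : ℕ → ℝ≥0∞} {x₁ X Y : ℕ → ℝ≥0∞} {M x₀ P R S : ℝ≥0∞}
    (hS : ∑ j ∈ Finset.range J, fS (M * (3 * x₀)) j ≤ S)
    (hX : ∀ d, X d ≤ v d * P) (hY : ∀ d, Y d ≤ v d * R) :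
    ∑' n, c (n + 1) * (x₁ n * ∑' y : Ix (n + 1), aw α y * (if dM y ≤ L then
        (∑ j ∈ Finset.range J, fS (M * (3 * x₀)) j) * X (dM y) +
          fS (M * (3 * x₀)) J * Y (dM y) else 0)) ≤
      (∑' n, c (n + 1) * (x₁ n * ∑' y : Ix (n + 1), aw α y * (if dM y ≤ L then v (dM y) else 0))) *
        (S * P + fS (M * (3 * x₀)) J * R) := by
  rw [← ENNReal.tsum_mul_right]
  refine ENNReal.tsum_le_tsum fun n => ?_
  rw [mul_assoc, mul_assoc]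
  refine mul_le_mul' le_rfl (mul_le_mul' le_rfl ?_)
  rw [← ENNReal.tsum_mul_right]
  refine ENNReal.tsum_le_tsum fun y => ?_
  rw [mul_assoc]
  refine mul_le_mul' le_rfl ?_
  split_ifs with hd
  · calc (∑ j ∈ Finset.range J, fS (M * (3 * x₀)) j) * X (dM y) + fS (M * (3 * x₀)) J * Y (dM y)
        ≤ S * (v (dM y) * P) + fS (M * (3 * x₀)) J * (v (dM y) * R) :=
          add_le_add (mul_le_mul' hS (hX _)) (mul_le_mul' le_rfl (hY _))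
      _ = _ := by ring
  · exact zero_le

/-- **`Main8` for the law B.** -/
theorem main8_lam8B (hP : PB.Par T b₀ m b l₁ l₂ Q αP a') (hΦ : IsPotential Φ)
    (h₀ : GoodDatum f₀ κ) (hB : RW.StableWith Φ B) (hm2 : m2 f₀ < ∞) (q : ℕ)
    {a : ℕ → ℝ≥0∞} (ha : ∑' n, a n ≠ ∞) :
    ∃ (K : ℝ) (p : ℕ), 1 ≤ K ∧ Main8 hΦ f₀ T (b₀ / 2) a (dD hΦ f₀)
      (dTh b T l₁ l₂ a' hΦ f₀ T) (AU.dF hΦ f₀) (fun L δ => dTh b T l₁ l₂ a' hΦ f₀ δ L) K p
      (lam8B hΦ (b₀ / 2) T m q) := by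
  have hB0 := hB.1
  have hb₀ := hP.b₀0
  have hbN := hP.b0
  have hbe := hP.hb
  have hT := hP.T0
  have hl₁ := hP.l₁0
  have hl₂ := hP.l₂0
  have ha' := hP.wts.apos
  set r : ℝ := b₀ / 2 / 2 with hr
  have hr0 : 0 < r := by positivity
  have hrb : r ≤ b₀ / 2 := by rw [hr]; linarith
  have hβ : b ≤ r / 8 := by rw [hbe, hr]; linarith
  -- the sum over the indices
  obtain ⟨K₁, hK₁, hsumB⟩ := sum_B_le (x := xB r (T + 1)) (κ₁ := K8 T) hP.wts (α' := m)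
    (fun n => by
      refine le_trans ?_ (hP.succ_mul_le n)
      rw [mul_comm]
      refine mul_le_mul_of_nonneg_right ?_ (hP.m0 n)
      rw [Real.sqrt_le_left (by positivity)]
      nlinarith [Nat.cast_nonneg (α := ℝ) n]) hP.m0 K8_ne_top (xB_ne_top r (T + 1))
  set x₀ : ℝ≥0∞ := xB r (T + 1) with hx₀
  have hx₀t : x₀ ≠ ∞ := xB_ne_top r (T + 1)
  set M : ℝ≥0∞ := ∑' k, a k with hM
  set S : ℝ≥0∞ := ∑' j, fS (M * (3 * x₀)) j with hS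
  have hxt : M * (3 * x₀) ≠ ∞ := ENNReal.mul_ne_top ha (ENNReal.mul_ne_top (by norm_num) hx₀t)
  have hSt : S ≠ ∞ := tsum_fS_ne_top hxt
  set c₁ : ℝ≥0∞ := cTR (b₀ / 2) T (K8 T * ∑' n, aM8 m n) q with hc₁
  have hc₁t : c₁ ≠ ∞ := cTR_ne_top (ENNReal.mul_ne_top K8_ne_top (tsum_aM8 hP)) hT.le q
  set KK : ℝ≥0∞ := KBk hΦ r (T + 1) M with hKK
  have hKKt : KK ≠ ∞ := KBk_ne_top hr0 ha
  set CY : ℝ≥0∞ := KBB r 1 (T + 1) * (2 * ENNReal.ofReal T) with hCY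
  have hCYt : CY ≠ ∞ := ENNReal.mul_ne_top (KBB_ne_top hr0 1 (T + 1))
    (ENNReal.mul_ne_top (by norm_num) ENNReal.ofReal_ne_top)
  set C₁ : ℝ≥0∞ := c₁ * S * KK with hC₁
  have hC₁t : C₁ ≠ ∞ := ENNReal.mul_ne_top (ENNReal.mul_ne_top hc₁t hSt) hKKt
  set r₁ : ℝ := C₁.toReal with hr₁
  have hr₁0 : 0 ≤ r₁ := ENNReal.toReal_nonneg
  have hC₁r : C₁ = ENNReal.ofReal r₁ := (ENNReal.ofReal_toReal hC₁t).symm
  have hCx := Cx_nonneg hB0 hT.le (B := B) (Tm := T)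
  have hrC : 0 ≤ r₁ * Cx B T := mul_nonneg hr₁0 hCx
  set K : ℝ := K₁ * (r₁ * Cx B T + 2) with hK
  have hK1 : 1 ≤ K := by nlinarith
  refine ⟨K, 3, hK1, ?_⟩
  filter_upwards [eventually_ge_atTop 1] with L hL δ hδ η η' hη hηη hη'1 δ₁ hδ₁ hδ₁δ ρ hρ
  have hδ0 := hδ.1
  have hη' : 0 < η' := hη.trans hηη
  set kL : ℝ≥0∞ := ENNReal.ofReal (K₁ ^ L) with hkL
  have hkLt : kL ≠ ∞ := ENNReal.ofReal_ne_top
  obtain ⟨J₀, hJ₀⟩ := fS_small hxt (ENNReal.mul_ne_top (ENNReal.mul_ne_top hc₁t hkLt) hCYt)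
    (ENNReal.ofReal_pos.2 hδ0)
  refine ⟨J₀, fun J hJ => ?_⟩
  have hct : C₁ * kL * (ENNReal.ofReal (1 / δ ^ 3) * 2) ≠ ∞ :=
    ENNReal.mul_ne_top (ENNReal.mul_ne_top hC₁t hkLt)
      (ENNReal.mul_ne_top ENNReal.ofReal_ne_top (by norm_num))
  filter_upwards [card_TE_small hΦ hB h₀ hm2 (b := r / 8) (by positivity) T L hρ hct,
    Ioc_mem_nhdsGT hδ0] with ε hc hεδ hε t ht G hGm hGX
  refine ⟨fun x => x.2.1 + δ, measurable_snd.fst.add_const δ, ?_⟩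
  set D := DD L hΦ hε f₀ η' t with hD
  set F := FF L hΦ hε f₀ η' t with hF
  set Θ := Nm b T l₁ l₂ a' t (thL L hΦ hε f₀ η' t T) with hΘ
  set W := Nm b T l₁ l₂ a' t (thL L hΦ hε f₀ η' t δ) with hW
  set c3 := cT3 L hΦ hε f₀ (r / 8) η t with hc3
  set z : ℝ := η' / δ ^ 3 + δ with hz
  have hz0 : 0 < z := by positivity
  set Xb : ℝ≥0∞ := ENNReal.ofReal (Cx B T * z) * (D + Θ + F) + ENNReal.ofReal (Cx B T) * W +
    ENNReal.ofReal (1 / δ ^ 3) * (2 * c3) with hXb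
  have hXd : ∀ d, KK * EbA L hΦ hε f₀ B T (r / 8) t δ η η' T δ₁ d ≤ vA a' d * (KK * Xb) := by
    intro d
    have h3 := EbA_le (L := L) (hΦ := hΦ) (hε := hε) (f₀ := f₀) (w := T) (B := B) hB0 hbN hT hβ
      hl₁ hl₂ ha' ht.1 ht.2 hδ0 hεδ.2 hδ.2 hδ₁δ hη hηη.le d
    calc KK * EbA L hΦ hε f₀ B T (r / 8) t δ η η' T δ₁ d ≤ KK * (vA a' d * Xb) :=
          mul_le_mul' le_rfl h3
      _ = _ := by ring
  have hYd : ∀ d, KBB r 1 (T + 1) * (2 * srcJ (r / 8) t fun y =>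
      thL L hΦ hε f₀ η' t T (srcN d y)) ≤ vA a' d * (CY * Θ) := by
    intro d
    have h3 : (srcJ (r / 8) t fun y => thL L hΦ hε f₀ η' t T (srcN d y)) ≤
        ENNReal.ofReal T * (vA a' d * Θ) :=
      (srcJ_le_Nm hbN hT hβ hl₁ hl₂ (ha' d)).trans
        (mul_le_mul' (ENNReal.ofReal_le_ofReal ht.2) (mul_le_mul' le_add_self le_rfl))
    calc _ ≤ KBB r 1 (T + 1) * (2 * (ENNReal.ofReal T * (vA a' d * Θ))) :=
          mul_le_mul' le_rfl (mul_le_mul' le_rfl h3)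
      _ = _ := by
          rw [hCY]
          ring
  have hmain := main_lamB (L := L) (hΦ := hΦ) (hε := hε) (b := r) (b' := b₀ / 2) (t := t)
    (t' := T + 1) (δ := δ) (η := η) (w := T) (α := aM8 m)
    (c := cAl (b₀ / 2) t (K8 T) (aM8 m) q) (G := G) (a := a) (x₀ := x₀)
    (x₁ := fun n => fS x₀ n) (X := fun d => KK * EbA L hΦ hε f₀ B T (r / 8) t δ η η' T δ₁ d)
    (Y := fun d => KBB r 1 (T + 1) * (2 * srcJ (r / 8) t fun y =>
      thL L hΦ hε f₀ η' t T (srcN d y))) h₀ hrb rfl hGm J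
    (fun n o d hd j R => F6_B h₀ ha hB hr0 hrb hδ0 hδ.2 (by linarith [hδ.2]) hη hηη.le ht.1 ht.2
      (by linarith [ht.2]) ht.2 hδ₁ (revStep_outS hΦ hε (n + 1) o) (exh_outS hΦ hε (n + 1) o n)
      hGm hd fun e he _ => hGX e he)
    (fun n o d hd j R => tE6_B h₀ hr0 hη hηη.le ht.1 (by linarith [ht.2]) ht.2 hδ₁
      (revStep_outS hΦ hε (n + 1) o) (exh_outS hΦ hε (n + 1) o n) hGm hd
      fun y hy _ => hGX _ hy)
  refine (show ∫⁻ x, ind (x.1 ∈ G) * Mn6 L hΦ hε f₀ (b₀ / 2) a η t T (x.2.1 + δ) (T + 1) J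
    x.1 x.2 ∂(lam8B hΦ (b₀ / 2) T m q L ε hε t) ≤ _ from hmain).trans ?_
  refine (sumB_le (M := M) (v := vA a') (S := S) (sum_fS_le _ J) hXd hYd).trans ?_
  have hsum : ∑' n, cAl (b₀ / 2) t (K8 T) (aM8 m) q (n + 1) * (fS x₀ n *
      ∑' y : Ix (n + 1), aw (aM8 m) y * (if dM y ≤ L then vA a' (dM y) else 0)) ≤ c₁ * kL := by
    refine le_trans ?_ (mul_le_mul' le_rfl (hsumB L hL))
    rw [← ENNReal.tsum_mul_left]
    refine ENNReal.tsum_le_tsum fun n => ?_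
    have h3 : cAl (b₀ / 2) t (K8 T) (aM8 m) q (n + 1) ≤ c₁ * K8 T ^ (n + 3) :=
      mul_le_mul' (cTR_mono ht.1 ht.2 _ q) le_rfl
    calc _ ≤ (c₁ * K8 T ^ (n + 3)) * (fS x₀ n *
          ∑' y : Ix (n + 1), aw (aM8 m) y * (if dM y ≤ L then vA a' (dM y) else 0)) :=
          mul_le_mul' h3 le_rfl
      _ = c₁ * ((K8 T ^ (n + 3) * fS x₀ n) *
          ∑' y : Ix (n + 1), aw (aM8 m) y * (if dM y ≤ L then vA a' (dM y) else 0)) := by ring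
      _ = _ := rfl
  have hR : R8 K 3 (dD hΦ f₀) (dTh b T l₁ l₂ a' hΦ f₀ T) (AU.dF hΦ f₀)
      (fun L δ => dTh b T l₁ l₂ a' hΦ f₀ δ L) L δ η' ε t =
      ENNReal.ofReal (K ^ L * z) * (D + Θ + F) + ENNReal.ofReal (K ^ L) * W := by
    unfold R8
    beta_reduce
    rw [dD_pos hε, dF_pos hε, dTh_pos hε, dTh_pos hε]
  rw [hR]
  have hKL : K₁ ^ L * (r₁ * Cx B T + 2) ≤ K ^ L := by
    rw [hK, mul_pow]
    exact mul_le_mul_of_nonneg_left (le_self_pow₀ (by linarith) (by omega))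
      (pow_nonneg (by linarith) L)
  have hK₁L : 1 ≤ K₁ ^ L := one_le_pow₀ hK₁
  have hK₁L' : r₁ * Cx B T * K₁ ^ L + 1 ≤ K ^ L := by nlinarith
  have k1 : C₁ * kL * ENNReal.ofReal (Cx B T * z) + ENNReal.ofReal δ ≤
      ENNReal.ofReal (K ^ L * z) := by
    rw [hC₁r, hkL, ← ENNReal.ofReal_mul hr₁0, ← ENNReal.ofReal_mul (by positivity),
      ← ENNReal.ofReal_add (by positivity) hδ0.le]
    refine ENNReal.ofReal_le_ofReal ?_
    have h3 : δ ≤ z := by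
      have : 0 ≤ η' / δ ^ 3 := by positivity
      linarith
    calc r₁ * K₁ ^ L * (Cx B T * z) + δ ≤ r₁ * Cx B T * K₁ ^ L * z + 1 * z := by nlinarith
      _ = (r₁ * Cx B T * K₁ ^ L + 1) * z := by ring
      _ ≤ _ := mul_le_mul_of_nonneg_right hK₁L' hz0.le
  have k2 : C₁ * kL * ENNReal.ofReal (Cx B T) ≤ ENNReal.ofReal (K ^ L) := by
    rw [hC₁r, hkL, ← ENNReal.ofReal_mul hr₁0, ← ENNReal.ofReal_mul (by positivity)]
    refine ENNReal.ofReal_le_ofReal ?_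
    calc r₁ * K₁ ^ L * Cx B T = r₁ * Cx B T * K₁ ^ L := by ring
      _ ≤ _ := by linarith
  have k3 : C₁ * kL * (ENNReal.ofReal (1 / δ ^ 3) * 2) * c3 ≤ ENNReal.ofReal ρ :=
    (hc hε η hη t ht).2
  calc (∑' n, cAl (b₀ / 2) t (K8 T) (aM8 m) q (n + 1) * (fS x₀ n *
        ∑' y : Ix (n + 1), aw (aM8 m) y * (if dM y ≤ L then vA a' (dM y) else 0))) *
        (S * (KK * Xb) + fS (M * (3 * x₀)) J * (CY * Θ))
      ≤ (c₁ * kL) * (S * (KK * Xb) + fS (M * (3 * x₀)) J * (CY * Θ)) :=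
        mul_le_mul' hsum le_rfl
    _ = C₁ * kL * Xb + (c₁ * kL * CY * fS (M * (3 * x₀)) J) * Θ := by
        rw [hC₁]
        ring
    _ ≤ C₁ * kL * Xb + ENNReal.ofReal δ * Θ := by
        gcongr
        exact hJ₀ J hJ
    _ ≤ C₁ * kL * Xb + ENNReal.ofReal δ * (D + Θ + F) := by
        gcongr
        rw [add_assoc, add_comm]
        rw [add_assoc]
        exact le_self_add
    _ = (C₁ * kL * ENNReal.ofReal (Cx B T * z) + ENNReal.ofReal δ) * (D + Θ + F) +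
        C₁ * kL * ENNReal.ofReal (Cx B T) * W +
        C₁ * kL * (ENNReal.ofReal (1 / δ ^ 3) * 2) * c3 := by
        rw [hXb]
        ring
    _ ≤ _ := add_le_add (add_le_add (mul_le_mul' k1 le_rfl) (mul_le_mul' k2 le_rfl)) k3

/-- **`Law8` for two exhausts, one above the other, in the other order.** -/
theorem law8_lam8B (hP : PB.Par T b₀ m b l₁ l₂ Q αP a') (hΦ : IsPotential Φ)
    (h₀ : GoodDatum f₀ κ) (hB : RW.StableWith Φ B) (hm2 : m2 f₀ < ∞) (q : ℕ)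
    {a : ℕ → ℝ≥0∞} (ha : ∑' n, a n ≠ ∞) :
    Law8 hΦ f₀ T (b₀ / 2) a (dD hΦ f₀) (dTh b T l₁ l₂ a' hΦ f₀ T) (AU.dF hΦ f₀)
      (fun L δ => dTh b T l₁ l₂ a' hΦ f₀ δ L) (lam8B hΦ (b₀ / 2) T m q) :=
  { sf := fun L ε hε t => inferInstance
    ok := sup8B q
    hit := fun A hA hA' => hit8B hP.msup hP.T0.le (half_pos hP.b₀0) q A hA hA'
    mass := mass8_lam8B hP hΦ h₀ hB hm2 q
    main := main8_lam8B hP hΦ h₀ hB hm2 q ha }

end Vale.Agent.P119.PB
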