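import Vale.Agent.P119.PB.LinesLim
import Vale.Agent.P119.PB.ExcIrrs
import Vale.Agent.P119.IND.MLaw
import Vale.Agent.P119.IND.MBaseK
import Vale.Agent.P119.IND.X6b

/-!
# P119, block PROB: events which give the alternatives of the laws, over the structure laws (`helper228`)

* **`lawC_lim`**: a structure law whose base has `c₀ + 1` classes; a bad event which gives `LawC` (for
  every `J`) has expectation `o(μ^{c₀ + 1 - q})`;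
* `MLaw.hasBase`, **`mlaw_lawC_lim`**: the same for the laws of the marked
  pairs;
* **`HasBase.not_good`**: lines of the base interact over the gas.
-/

open MeasureTheory Filter Topology Set
open scoped ENNReal NNReal

set_option linter.unusedSectionVars false

noncomputable section

namespace Vale.Agent.P119.PB

open M CTree KU FB RB AU FL GC MM IND PB.CT TL RelX

variable {Φ : E3 → ℝ} {ε T t : ℝ} {L : ℕ} {f₀ : Ph → ℝ} {κ₀ b c : ℝ} {m q c₀ NB : ℕ}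

/-- **Events which give `LawC`**, over a structure law. -/
theorem lawC_lim {M₀ M₁ : ℝ} (h : GoodDatum f₀ κ₀) (hΦ : IsPotential Φ) (hb : 0 < b)
    (hc : 0 ≤ c) (hcb : c + b / 4 < b) (hM₀ : 0 ≤ M₀)
    (hf : ∀ z, f₀ z ≤ M₀ * Real.exp (-b * ‖z.2‖ ^ 2)) (hM₁ : 0 ≤ M₁)
    (hmarg : ∀ v, ∫⁻ x, ENNReal.ofReal (f₀ (x, v)) ≤
      ENNReal.ofReal (M₁ * Real.exp (-b * ‖v‖ ^ 2)))
    (m q L nK c₀ NB : ℕ) (N : ℕ → ℕ) {T₀ : ℝ} (hT₀ : 0 ≤ T₀) :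
    ∃ Dl : ℝ → ℝ≥0∞, Tendsto Dl (𝓝[>] 0) (𝓝 0) ∧ ∀ (ε : ℝ) (hε : 0 < ε), ε ≤ 1 →
      ∀ s : Fin q → ℝ, (∀ j, 0 ≤ s j) →
      ∀ (dl : Fin q → ℕ) (W : (Fin m → CTree) → (Fin q → Ph) → ℝ≥0∞),
      (Measurable fun p : (Fin m → CTree) × (Fin q → Ph) => W p.1 p.2) → ∀ CW : ℝ≥0∞, CW ≠ ∞ →
      (∀ T l, W T l ≤ CW * ENNReal.ofReal (Real.exp (c * enB T l))) →
      (∀ T l, W T l ≠ 0 → Base Φ ε T (lns s dl l)) →
      (∀ T l, W T l ≠ 0 → PrgO Φ ε T₀ (c₀ + 1) NB T (lns s dl l) ∅) →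
      ∀ K : (Fin m → CTree) → (Fin q → Ph) → Finset Src,
      (∀ T l, W T l ≠ 0 → (K T l).card ≤ nK ∧ ∀ a ∈ K T l, 0 ≤ a.1 ∧ a.1 ≤ T₀ + 1 ∧
        ‖a.2.1.2‖ ^ 2 ≤ enB T l) →
      ∀ bad : (Fin m → CTree) → (Fin q → Ph) → Conf Ph → Prop,
      (∀ J, ∀ T l, W T l ≠ 0 → ∀ᵐ w ∂(PP f₀ ε), bad T l w →
        LawC hΦ hε L T₀ J c₀ (N J) T (lns s dl l) (pts w) (K T l)) →
      muE ε ^ q * ∫⁻ T, ∫⁻ l : Fin q → Ph, (∏ j, g1 b (l j).2) * (W T l *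
        (PP f₀ ε) {w | bad T l w}) ∂volume ∂(Measure.pi fun _ : Fin m => tree (inten f₀ ε) L) ≤
      CW * (muE ε ^ (c₀ + 1) * Dl ε) := by
  classical
  have hX := XT.irrFam_irrs (c := c) hΦ h.meas hM₁ hmarg (by linarith) hT₀ (c₀ + 1)
  obtain ⟨Dl, hDl, h1⟩ := exc_lim_prog h hΦ hb hc hcb hM₀ hf hM₁ hmarg m q L nK (c₀ + 1) NB
    (Nat.succ_pos _) N hT₀ (X := fun J => irrs hΦ T₀ (N J) (c₀ + 1)) (fun J => hX.fin _)
    (fun J r hr => hX.small _ r hr)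
  refine ⟨Dl, hDl, fun ε hε hε1 s hs dl W hW CW hCW hWb hbase hprg K hK bad hbad => ?_⟩
  refine h1 ε hε hε1 T₀ (T₀ + 1) le_rfl le_rfl s hs dl W hW CW hCW hWb hbase hprg
    (fun T l => (K T l).image fun σ => (σ.1, σ.2.1)) (fun T l hne => ?_) bad
    fun J T l hne => ?_
  · refine ⟨Finset.card_image_le.trans (hK T l hne).1, fun σ hσ => ?_⟩
    obtain ⟨a, ha, rfl⟩ := Finset.mem_image.1 hσ
    exact (hK T l hne).2 a ha
  · filter_upwards [hbad J T l hne] with w hw hb'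
    rcases hw hb' with ⟨σ, hσ, h2⟩ | h2 | h2 | h2
    · left
      refine ⟨(σ.1, σ.2.1), Finset.mem_image.2 ⟨σ, Finset.mem_coe.1 hσ, rfl⟩, ?_⟩
      rw [coe_wS] at h2
      exact h2
    · exact Or.inr (Or.inl h2)
    · exact Or.inr (Or.inr (Or.inl h2))
    · exact Or.inr (Or.inr (Or.inr (hX.sbad _ ε hε _ _ _ h2)))

/-! ### Marked pairs -/

section mark

variable {s : Fin q → ℝ} {dl : Fin q → ℕ} {N : ℕ}
  {W : (Fin m → CTree) → (Fin q → Ph) → ℝ≥0∞} {e k : (Fin m → CTree) → (Fin q → Ph) → Src}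
  {CW : ℝ≥0∞} {S : Fin m → CTree} {l : Fin q → Ph}

open Classical in
/-- The two marked lines. -/
def K2 (e k : Src) : Finset Src := {e, k}

theorem mem_K2 {e k σ : Src} : σ ∈ K2 e k ↔ σ = e ∨ σ = k := by
  unfold K2
  rw [Finset.mem_insert, Finset.mem_singleton]

theorem card_K2 (e k : Src) : (K2 e k).card ≤ 2 := Finset.card_le_two

theorem rs_K2 {X : Type*} [MeasurableSpace X] {e k : X → Src} (he : Measurable e)
    (hk : Measurable k) : MM.RS fun x => (K2 (e x) (k x) : Set Src) := by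
  refine ((MM.RS.singleton he).union (MM.RS.singleton hk)).congr fun x => ?_
  ext σ
  rw [Finset.mem_coe, mem_K2]
  rfl

/-- **A marked pair of lines** has a base with one class. -/
theorem hasBase_of_mk {T₀ : Fin m → CTree} {l : Fin q → Src} {e k : Src} (hm : 0 < m)
    (hB : Base Φ ε T₀ l) (ht : t ≤ T) (h : Mk Φ ε t N T₀ l e k) (hΦ : IsPotential Φ)
    (hε : 0 < ε) (he : e.2.2 ≤ L) (hk : k.2.2 ≤ L) :
    HasBase Φ ε T L 1 N T₀ l (K2 e k) := by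
  obtain ⟨h0, h0'⟩ := h.births hΦ hε
  obtain ⟨F, G, D₀, X, τe, τk, R₀, h1, h2, h3, h4, h5, h6, h7, h8, h9, -⟩ :=
    (h.mono_T ht).kbase hm hB
  refine ⟨F, G, D₀, X, R₀, h1, h2, h3, fun σ hσ => ?_⟩
  rcases mem_K2.1 hσ with rfl | rfl
  · exact ⟨⟨h0.1, he⟩, τe, h4, h5, h6⟩
  · exact ⟨⟨h0'.1, hk⟩, τk, h7, h8, h9⟩

theorem _root_.Vale.Agent.P119.IND.MLaw.hasBase (hm : 0 < m) {T₀ : ℝ} (ht : t ≤ T₀)
    (h : MLaw Φ ε t c L N s dl W e k CW) (hΦ : IsPotential Φ) (hε : 0 < ε)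
    {T : Fin m → CTree} {l : Fin q → Ph} (hW : W T l ≠ 0) :
    HasBase Φ ε T₀ L 1 N T (lns s dl l) (K2 (e T l) (k T l)) :=
  hasBase_of_mk hm (h.base T l hW) ht (h.mrk T l hW) hΦ hε (h.dep T l hW).1 (h.dep T l hW).2

/-- The energies and the births of the marked lines. -/
theorem _root_.Vale.Agent.P119.IND.MLaw.K2_le {T₀ : ℝ} (h : MLaw Φ ε t c L N s dl W e k CW) (ht : t ≤ T₀)
    (hΦ : IsPotential Φ) (hε : 0 < ε) {T : Fin m → CTree} {l : Fin q → Ph} (hW : W T l ≠ 0) :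
    ∀ a ∈ K2 (e T l) (k T l), 0 ≤ a.1 ∧ a.1 ≤ T₀ ∧ ‖a.2.1.2‖ ^ 2 ≤ enB T l := by
  intro a ha
  obtain ⟨h1, h2⟩ := (h.mrk T l hW).births hΦ hε
  obtain ⟨h3, h4⟩ := (h.mrk T l hW).energy hΦ hε (h.base T l hW)
  rcases mem_K2.1 ha with rfl | rfl
  · exact ⟨h1.1, h1.2.trans ht, h3⟩
  · exact ⟨h2.1, h2.2.trans ht, h4⟩

end mark

/-- **Events which give `LawC`**, over the laws of the marked pairs. -/
theorem mlaw_lawC_lim {M₀ M₁ : ℝ} (h : GoodDatum f₀ κ₀) (hΦ : IsPotential Φ) (hb : 0 < b)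
    (hc : 0 ≤ c) (hcb : c + b / 4 < b) (hM₀ : 0 ≤ M₀)
    (hf : ∀ z, f₀ z ≤ M₀ * Real.exp (-b * ‖z.2‖ ^ 2)) (hM₁ : 0 ≤ M₁)
    (hmarg : ∀ v, ∫⁻ x, ENNReal.ofReal (f₀ (x, v)) ≤
      ENNReal.ofReal (M₁ * Real.exp (-b * ‖v‖ ^ 2)))
    (m q L N : ℕ) (NJ : ℕ → ℕ) (hm : 0 < m) {T₀ : ℝ} (hT₀ : 0 ≤ T₀) :
    ∃ Dl : ℝ → ℝ≥0∞, Tendsto Dl (𝓝[>] 0) (𝓝 0) ∧ ∀ (ε : ℝ) (hε : 0 < ε), ε ≤ 1 →
      ∀ t ∈ Icc 0 T₀, ∀ (s : Fin q → ℝ) (dl : Fin q → ℕ)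
        (W : (Fin m → CTree) → (Fin q → Ph) → ℝ≥0∞) (e k : (Fin m → CTree) → (Fin q → Ph) → Src)
        (CW : ℝ≥0∞), CW ≠ ∞ → MLaw Φ ε t c L N s dl W e k CW →
        ∀ bad : (Fin m → CTree) → (Fin q → Ph) → Conf Ph → Prop,
        (∀ J, ∀ T l, W T l ≠ 0 → ∀ᵐ w ∂(PP f₀ ε), bad T l w →
          LawC hΦ hε L T₀ J 0 (NJ J) T (lns s dl l) (pts w) (K2 (e T l) (k T l))) →
        muE ε ^ q * ∫⁻ T, ∫⁻ l : Fin q → Ph, (∏ j, g1 b (l j).2) * (W T l *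
          (PP f₀ ε) {w | bad T l w}) ∂volume
          ∂(Measure.pi fun _ : Fin m => tree (inten f₀ ε) L) ≤ CW * (muE ε * Dl ε) := by
  obtain ⟨Dl, hDl, h1⟩ := lawC_lim h hΦ hb hc hcb hM₀ hf hM₁ hmarg m q L 2 0 N NJ hT₀
  refine ⟨Dl, hDl, fun ε hε hε1 t ht s dl W e k CW hCW hW bad hbad => ?_⟩
  have h2 := h1 ε hε hε1 s hW.nonneg dl W hW.meas CW hCW hW.le hW.base
    (fun T l hne => hW.prgO hΦ hε hm ht.2 hne) (fun T l => K2 (e T l) (k T l))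
    (fun T l hne => ⟨card_K2 _ _, fun a ha => by
      obtain ⟨h3, h4, h5⟩ := hW.K2_le ht.2 hΦ hε hne a ha
      exact ⟨h3, h4.trans (by linarith), h5⟩⟩) bad hbad
  rwa [zero_add, pow_one] at h2

/-- **The marked lines interact over the gas** (X6a). -/
theorem HasBase.not_good (h : GoodDatum f₀ κ₀) (hΦ : IsPotential Φ) (hε : 0 < ε) {T₀ : ℝ}
    (hT₀ : 0 ≤ T₀) (ht : t ≤ T₀) {m q N : ℕ} {T : Fin m → CTree} {l : Fin q → Src}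
    {K : Finset Src} (hB : HasBase Φ ε T₀ L (c₀ + 1) N T l K) (J : ℕ) :
    ∀ᵐ w ∂(PP f₀ ε), ¬M.Good Φ ε L (wS (pts w)) PB.sgl K t →
      LawC hΦ hε L T₀ J c₀ (N + 2 * Nb0 L J + 1) T l (pts w) K := by
  classical
  obtain ⟨F₀, G₀, D₀, X, R₀, g1, g2, g3, g4⟩ := hB
  have h3 := XT.ae_forall_notMem_wS (ε := ε) h hε.le
    (A := (lab F₀ : Set Src) ∪ X '' (lab F₀ : Set Src))
    ((lab F₀).finite_toSet.union ((lab F₀).finite_toSet.image X))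
  filter_upwards [h3] with w hw hbad
  have h5 := g1.law_not_good hΦ hε hT₀ g2 (w := pts w)
    (fun σ hσ => hw σ (Or.inl (Finset.mem_coe.2 hσ)))
    (fun σ hσ _ => hw _ (Or.inr ⟨σ, Finset.mem_coe.2 hσ, rfl⟩)) g4 ht (fun _ => hbad) J
  have h6 : szB F₀ G₀ + 2 * Nb0 L J + 1 ≤ N + 2 * Nb0 L J + 1 := by omega
  exact h5.imp id (Or.imp (PrgC.mono le_rfl h6) (Or.imp (PrgO.mono le_rfl h6)
    (IrrO.mono le_rfl h6)))

end Vale.Agent.P119.PB
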