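import Vale.Agent.P119.PB.TrickB
import Vale.Agent.P119.PB.Op11

/-!
# P119, block PROB, P8: creation of too deep trees and atypical part, for all the laws (`helper178`)

* `exists_diag`: choice of the base `A` of the geometric weights as a function of `L`;
* `exists_XXpow`: the expected number of the alive trees with the weight `A ^ depth`;
* `HitOk8`, `LamOk8`: the hypotheses on a law of the pairs;
* `exists_law_off`: **the second events off the exceptional pairs, for a law of the pairs**: main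
  terms, a superexponentially small term, an error.
-/

open MeasureTheory Filter Topology Set ProbabilityTheory
open scoped ENNReal NNReal

noncomputable section

namespace Vale.Agent.P119.PB

open M CTree KU FB RB AU FL TL

/-! ### The diagonal choice -/

open Classical in
/-- **The diagonal choice.** -/
theorem exists_diag (K : ℕ → ℝ) (hK : ∀ A, 0 ≤ K A) (P : ℕ → ℕ → Prop)
    (hP : ∀ A, 1 ≤ A → ∀ᶠ L in atTop, P A L) :
    ∃ A : ℕ → ℕ, (∀ᶠ L in atTop, 1 ≤ A L ∧ P (A L) L) ∧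
      (∀ L, 0 ≤ K (A L) / (A L : ℝ) ^ L) ∧ KE.SuperExp fun L => K (A L) / (A L : ℝ) ^ L := by
  set Q : ℕ → ℕ → Prop := fun L A => P A L ∧ K A ≤ 2 ^ L with hQ
  have hQe : ∀ A, 1 ≤ A → ∀ᶠ L in atTop, Q L A := by
    intro A hA
    have h2 : ∀ᶠ L : ℕ in atTop, K A ≤ 2 ^ L :=
      (tendsto_pow_atTop_atTop_of_one_lt (by norm_num : (1 : ℝ) < 2)).eventually_ge_atTop _
    exact (hP A hA).and h2
  refine ⟨fun L => Nat.findGreatest (Q L) L, ?_, fun L => ?_, ?_⟩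
  · filter_upwards [hQe 1 le_rfl, eventually_ge_atTop 1] with L h1 h2
    have h3 : 1 ≤ Nat.findGreatest (Q L) L := Nat.le_findGreatest h2 h1
    have h4 : Q L (Nat.findGreatest (Q L) L) := Nat.findGreatest_spec (m := 1) h2 h1
    exact ⟨h3, h4.1⟩
  · exact div_nonneg (hK _) (by positivity)
  · intro B hB
    obtain ⟨n, hn⟩ := exists_nat_ge (4 * (B + 1))
    have hn1 : 1 ≤ n := by
      have : (1 : ℝ) ≤ n := by linarith
      exact_mod_cast this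
    have h0 : Tendsto (fun L : ℕ => (1 / 2 : ℝ) ^ L) atTop (𝓝 0) :=
      tendsto_pow_atTop_nhds_zero_of_lt_one (by norm_num) (by norm_num)
    refine squeeze_zero' (Eventually.of_forall fun L => ?_) ?_ h0
    · have := hK (Nat.findGreatest (Q L) L)
      positivity
    · filter_upwards [hQe n hn1, eventually_ge_atTop n] with L h1 h2
      have h3 : n ≤ Nat.findGreatest (Q L) L := Nat.le_findGreatest h2 h1
      have h4 : Q L (Nat.findGreatest (Q L) L) := Nat.findGreatest_spec (m := n) h2 h1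
      set a := Nat.findGreatest (Q L) L with ha
      have h5 : (4 * (B + 1)) ≤ (a : ℝ) := hn.trans (by exact_mod_cast h3)
      have ha0 : (0 : ℝ) < a := by linarith
      have h6 : B * 2 / a ≤ 1 / 2 := by
        rw [div_le_iff₀ ha0]
        linarith
      calc B ^ L * (K a / (a : ℝ) ^ L) ≤ B ^ L * (2 ^ L / (a : ℝ) ^ L) := by
            gcongr
            exact h4.2
        _ = (B * 2 / a) ^ L := by
            rw [div_pow, mul_pow]
            ring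
        _ ≤ (1 / 2) ^ L := by
            refine pow_le_pow_left₀ (by positivity) h6 L

theorem summable_superExp {e : ℕ → ℝ} (h : KE.SuperExp e) (h0 : ∀ n, 0 ≤ e n) {A : ℝ}
    (hA : 0 ≤ A) : Summable fun n => A ^ n * e n := by
  have h1 := h (2 * (A + 1)) (by positivity)
  obtain ⟨B, hB⟩ := h1.bddAbove_range
  have h2 : ∀ n, A ^ n * e n ≤ B * (1 / 2) ^ n := by
    intro n
    have h3 := hB (mem_range_self n)
    have h4 : A ^ n ≤ (2 * (A + 1)) ^ n * (1 / 2) ^ n := by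
      rw [← mul_pow]
      refine pow_le_pow_left₀ hA ?_ n
      linarith
    have h5 := h0 n
    calc A ^ n * e n ≤ ((2 * (A + 1)) ^ n * (1 / 2) ^ n) * e n := by gcongr
      _ = ((2 * (A + 1)) ^ n * e n) * (1 / 2) ^ n := by ring
      _ ≤ _ := by gcongr
  refine Summable.of_nonneg_of_le (fun n => ?_) h2
    ((summable_geometric_of_lt_one (by norm_num) (by norm_num)).mul_left B)
  have := h0 n
  positivity

/-! ### The alive trees, with a geometric weight in the depth -/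

variable {Φ : E3 → ℝ} {ε : ℝ} {L : ℕ} {hΦ : IsPotential Φ} {hε : 0 < ε} {f₀ : Ph → ℝ}
  {κ b b₀ T t t' η η' w u θ : ℝ} {e m : Src}

theorem XX_zero : XX Φ ε L f₀ t (fun _ _ => 0) = 0 := by
  unfold XX
  simp only [mul_zero, lintegral_zero]

theorem XX_finset_sum (h₀ : GoodDatum f₀ κ) (hΦ : IsPotential Φ) (hε : 0 < ε) {ι : Type*}
    (s : Finset ι) {H : ι → Finset Src → CTree → ℝ≥0∞}
    (hH : ∀ i, Measurable fun p : CTree × GC.Conf Ph => H i (wS (GC.pts p.2)) p.1) :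
    XX Φ ε L f₀ t (fun V S => ∑ i ∈ s, H i V S) = ∑ i ∈ s, XX Φ ε L f₀ t (H i) := by
  classical
  induction s using Finset.induction_on with
  | empty => simp only [Finset.sum_empty]; exact XX_zero
  | insert i s hi ih =>
    rw [Finset.sum_insert hi, ← ih, ← XX_add hΦ hε (hH i) h₀]
    congr 1
    funext V S
    rw [Finset.sum_insert hi]

/-- **The alive trees, with a geometric weight in the depth.** -/
theorem exists_XXpow (hΦ : IsPotential Φ) {M₀ : ℝ} (hg : GoodDatum f₀ κ) (hb : 0 < b₀)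
    (hT : 0 < T) (hM : 0 ≤ M₀) (hf : ∀ z, f₀ z ≤ M₀ * Real.exp (-b₀ * ‖z.2‖ ^ 2))
    (hx : ∀ v : E3, ∫⁻ x : E3, ENNReal.ofReal (f₀ (x, v)) ≤
      ENNReal.ofReal (M₀ * Real.exp (-b₀ * ‖v‖ ^ 2)))
    {b₁ : ℝ} (hb₁ : 0 < b₁) {α : ℕ → ℝ≥0∞} (hα : ∑' n, α n ≠ ∞) (A : ℕ) :
    ∃ CA : ℝ, 0 ≤ CA ∧ ∀ (L : ℕ) (ν : ℝ → GC.Conf Ph → Measure Src),
      CapL Φ f₀ L T b₁ α ν → Cap.InI1 Φ f₀ L T → ∀ᶠ ε in 𝓝[>] (0 : ℝ), ∀ t ≤ T,
        ENNReal.ofReal (ε ^ 2) * XX Φ ε L f₀ t (fun _ S =>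
          (A : ℝ≥0∞) ^ S.depth * ENNReal.ofReal (1 + ‖(ln Φ ε S).2‖)) ≤ ENNReal.ofReal CA := by
  obtain ⟨c, hc, dm, hdm0, hdms, Mt, hMt, hmass⟩ :=
    exists_depth_mass hΦ hg hb hT hM hf hx hb₁ hα
  have hsum := summable_superExp hdms hdm0 (A := (A : ℝ)) (Nat.cast_nonneg A)
  set S₀ := ∑' n, (A : ℝ) ^ n * dm n with hS₀
  have hS0 : 0 ≤ S₀ := tsum_nonneg fun n => by have := hdm0 n; positivity
  have hk0 := ker_nonneg c 1
  refine ⟨ker c 1 * (S₀ + 1), by positivity, fun L ν hcap hI => ?_⟩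
  set r : ℝ := 1 / ((L + 1) * ((A : ℝ) + 1) ^ L) with hr
  have hr0 : 0 < r := by positivity
  filter_upwards [hmass L ν hcap hI r hr0, self_mem_nhdsWithin] with ε hm hε t ht
  have hε : 0 < ε := hε
  obtain ⟨hm1, -⟩ := hm
  set H : ℕ → Finset Src → CTree → ℝ≥0∞ := fun d _ S =>
    (A : ℝ≥0∞) ^ d * (ENNReal.ofReal (1 + ‖(ln Φ ε S).2‖) * (dep d).indicator 1 S) with hH
  have hln : Measurable fun p : CTree × GC.Conf Ph => ENNReal.ofReal (1 + ‖(ln Φ ε p.1).2‖) :=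
    (((((measurable_ln hΦ hε.ne').comp measurable_fst).snd.norm).const_add 1)).ennreal_ofReal
  have hHm : ∀ d, Measurable fun p : CTree × GC.Conf Ph => H d (wS (GC.pts p.2)) p.1 := fun d =>
    Measurable.const_mul (hln.mul ((measurable_one.indicator (measurableSet_dep d)).comp
      measurable_fst)) _
  have hA : ∀ d : ℕ, (A : ℝ≥0∞) ^ d ≠ ∞ := fun d => ENNReal.pow_ne_top (ENNReal.natCast_ne_top A)
  have hd : ∀ d ≤ L, XX Φ ε L f₀ t (H d) ≤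
      muE ε * ENNReal.ofReal (ker c 1 * ((A : ℝ) ^ d * (dm d + r))) := by
    intro d hd
    have h1 : XX Φ ε L f₀ t (H d) = (A : ℝ≥0∞) ^ d * XX Φ ε L f₀ t (fun _ S =>
        ENNReal.ofReal (1 + ‖(ln Φ ε S).2‖) * (dep d).indicator 1 S) :=
      XX_const_mul hg hΦ hε (hA d)
    rw [h1]
    have h2 : XX Φ ε L f₀ t (fun _ S => ENNReal.ofReal (1 + ‖(ln Φ ε S).2‖) *
        (dep d).indicator 1 S) ≤ ENNReal.ofReal (ker c 1) * (muE ε * ENNReal.ofReal (dm d + r)) :=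
      (XX_le_eT (H := fun _ S => (dep d).indicator 1 S) hΦ hε hc ht (measurableSet_dep d)
        (fun V S _ => le_rfl)).trans (mul_le_mul_right (hm1 d hd) _)
    refine (mul_le_mul_right h2 _).trans (le_of_eq ?_)
    have h3 := hdm0 d
    rw [ENNReal.ofReal_mul hk0, ENNReal.ofReal_mul (by positivity : (0 : ℝ) ≤ (A : ℝ) ^ d),
      ENNReal.ofReal_pow (Nat.cast_nonneg A), ENNReal.ofReal_natCast]
    ring
  have hle : XX Φ ε L f₀ t (fun _ S => (A : ℝ≥0∞) ^ S.depth *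
      ENNReal.ofReal (1 + ‖(ln Φ ε S).2‖)) ≤
      XX Φ ε L f₀ t (fun V S => ∑ d ∈ Finset.range (L + 1), H d V S) := by
    refine XX_mono fun V S hS => ?_
    refine le_trans (le_of_eq ?_) (Finset.single_le_sum (f := fun d => H d V S)
      (fun _ _ => zero_le) (Finset.mem_range.2 (Nat.lt_succ_of_le hS.depth)))
    rw [hH]
    simp only
    rw [indicator_of_mem (show S ∈ dep S.depth from rfl), Pi.one_apply, mul_one]
  rw [XX_finset_sum hg hΦ hε _ hHm] at hle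
  calc ENNReal.ofReal (ε ^ 2) * XX Φ ε L f₀ t (fun _ S =>
          (A : ℝ≥0∞) ^ S.depth * ENNReal.ofReal (1 + ‖(ln Φ ε S).2‖))
      ≤ ENNReal.ofReal (ε ^ 2) * ∑ d ∈ Finset.range (L + 1),
        muE ε * ENNReal.ofReal (ker c 1 * ((A : ℝ) ^ d * (dm d + r))) := by
        refine mul_le_mul_right (hle.trans (Finset.sum_le_sum fun d hd' => ?_)) _
        exact hd d (Nat.lt_succ_iff.1 (Finset.mem_range.1 hd'))
    _ = (muE ε * ENNReal.ofReal (ε ^ 2)) * ∑ d ∈ Finset.range (L + 1),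
        ENNReal.ofReal (ker c 1 * ((A : ℝ) ^ d * (dm d + r))) := by
        rw [← Finset.mul_sum]
        ring
    _ = ENNReal.ofReal (∑ d ∈ Finset.range (L + 1), ker c 1 * ((A : ℝ) ^ d * (dm d + r))) := by
        rw [muE_mul hε, one_mul, ENNReal.ofReal_sum_of_nonneg]
        intro d _
        have := hdm0 d
        positivity
    _ ≤ ENNReal.ofReal (ker c 1 * (S₀ + 1)) := by
        refine ENNReal.ofReal_le_ofReal ?_
        rw [← Finset.mul_sum]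
        refine mul_le_mul_of_nonneg_left ?_ hk0
        have h1 : ∑ d ∈ Finset.range (L + 1), (A : ℝ) ^ d * dm d ≤ S₀ :=
          hsum.sum_le_tsum _ fun n _ => by have := hdm0 n; positivity
        have h2 : ∑ d ∈ Finset.range (L + 1), (A : ℝ) ^ d * r ≤ 1 := by
          have h3 : ∀ d ∈ Finset.range (L + 1), (A : ℝ) ^ d * r ≤ 1 / (L + 1) := by
            intro d hd'
            have hdL : d ≤ L := Nat.lt_succ_iff.1 (Finset.mem_range.1 hd')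
            have h4 : (A : ℝ) ^ d ≤ ((A : ℝ) + 1) ^ L := by
              calc (A : ℝ) ^ d ≤ ((A : ℝ) + 1) ^ d :=
                    pow_le_pow_left₀ (Nat.cast_nonneg A) (by linarith) d
                _ ≤ _ := pow_le_pow_right₀ (by
                    have : (0 : ℝ) ≤ A := Nat.cast_nonneg A
                    linarith) hdL
            rw [hr]
            calc (A : ℝ) ^ d * (1 / ((L + 1) * ((A : ℝ) + 1) ^ L)) ≤
                ((A : ℝ) + 1) ^ L * (1 / ((L + 1) * ((A : ℝ) + 1) ^ L)) := by gcongr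
              _ = _ := by field_simp
          calc ∑ d ∈ Finset.range (L + 1), (A : ℝ) ^ d * r
              ≤ ∑ _d ∈ Finset.range (L + 1), (1 : ℝ) / (L + 1) := Finset.sum_le_sum h3
            _ = 1 := by
                rw [Finset.sum_const, Finset.card_range, nsmul_eq_mul]
                push_cast
                field_simp
        calc ∑ d ∈ Finset.range (L + 1), (A : ℝ) ^ d * (dm d + r)
            = ∑ d ∈ Finset.range (L + 1), (A : ℝ) ^ d * dm d +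
              ∑ d ∈ Finset.range (L + 1), (A : ℝ) ^ d * r := by
              rw [← Finset.sum_add_distrib]
              exact Finset.sum_congr rfl fun d _ => by ring
          _ ≤ S₀ + 1 := add_le_add h1 h2

/-! ### The hypotheses on a law of the pairs -/

/-- **Hits of a fixed line** (for every base `A` of the geometric weights). -/
def HitOk8 (hΦ : IsPotential Φ) (T b : ℝ) (a : ℕ → ℝ≥0∞)
    (lam : ℕ → ∀ ε : ℝ, 0 < ε → ℝ → Measure (Src × Src)) : Prop :=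
  ∀ A : ℕ, 1 ≤ A → ∃ CA : ℝ≥0∞, CA ≠ ∞ ∧ ∀ᶠ L in atTop, ∀ᶠ ε in 𝓝[>] (0 : ℝ), ∀ hε : 0 < ε,
    ∀ t ∈ Icc 0 T, ∃ C : ℕ → ℝ≥0∞, HitLam hΦ hε.ne' b t (T + 1) A (lam L ε hε t) C ∧
      ∀ J, ∑ j ∈ Finset.range J, (A * (∑' n, a n + ∑' n, a n * (A : ℝ≥0∞) ^ n)) ^ j * C j ≤ CA

/-- The support of a law. -/
def LamOk8 (T : ℝ) (lam : ℕ → ∀ ε : ℝ, 0 < ε → ℝ → Measure (Src × Src)) : Prop :=
  ∀ᶠ L in atTop, ∀ᶠ ε in 𝓝[>] (0 : ℝ), ∀ hε : 0 < ε, ∀ t ∈ Icc 0 T,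
    SFinite (lam L ε hε t) ∧
    ∀ᵐ p ∂(lam L ε hε t), 0 ≤ p.1.1 ∧ p.1.2.2 ≤ L ∧ 0 ≤ p.2.1

/-- **The second events off the exceptional pairs**, for a law of the pairs; the probability that
`e` touches is kept with the indicator of `GX`. -/
theorem lam_gT6_compl_le' {Tm : ℝ} (h₀ : GoodDatum f₀ κ) (ht : 0 ≤ t) (htT : t ≤ Tm)
    (hη : 0 < η)
    (hηη : η < η') (hw : t ≤ w) {α : ℕ → ℝ≥0∞} {ν : Kernel (GC.Conf Ph) Src}
    [IsSFiniteKernel ν] (hcap : CapI Φ ε L f₀ b Tm α fun c => ν c) {J : ℕ} (hJ : 0 < J)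
    (htt : t < t') {A : ℝ≥0∞} (hA : 1 ≤ A) (hA' : A ≠ ∞) {a : ℕ → ℝ≥0∞}
    (ha : a = fun n => α n * ENNReal.ofReal (1 + Tm)) {lam : Measure (Src × Src)} [SFinite lam]
    (hlam : ∀ᵐ p ∂lam, 0 ≤ p.1.1 ∧ p.1.2.2 ≤ L ∧ 0 ≤ p.2.1) {C : ℕ → ℝ≥0∞}
    (hH : HitLam hΦ hε.ne' b t t' A lam C) {u : Src × Src → ℝ} (hu : Measurable u) {δ : ℝ≥0∞} :
    ∫⁻ p in (BX L hΦ hε f₀ b a η' ((η' - η) / J) t J δ)ᶜ, gT6 L hΦ hε f₀ η t p.1 p.2 ∂lam ≤
      (∫⁻ p, ind (p.1 ∈ GX L hΦ hε f₀ η' ((η' - η) / J) t δ) *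
        (Mn6 L hΦ hε f₀ b a η' t w (u p) t' J p.1 p.2 + δ * tE6 L hΦ hε f₀ η' t p.1) ∂lam) +
      (A ^ L)⁻¹ * ((∑ j ∈ Finset.range J,
          (A * (∑' n, a n + ∑' n, a n * A ^ n)) ^ j * C j) * (ENNReal.ofReal (ε ^ 2) *
        XX Φ ε L f₀ t fun _ T => A ^ T.depth * ENNReal.ofReal (1 + ‖(ln Φ ε T).2‖))) +
      5 * ((∑ j ∈ Finset.range J, (∑' n, a n) ^ j * C j) * (ENNReal.ofReal (ε ^ 2) *
        (muE ε * ∫⁻ c, ∫⁻ p, ENNReal.ofReal (1 + ‖p.2.1.2‖) ∂(ν c) ∂(GC.PP f₀ ε)))) := by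
  classical
  have hBm : MeasurableSet (BX L hΦ hε f₀ b a η' ((η' - η) / J) t J δ)ᶜ :=
    (measurableSet_BX h₀).compl
  have m6 : Measurable fun p : Src × Src => tE6 L hΦ hε f₀ η' t p.1 :=
    (measurable_tE6' h₀).comp measurable_fst
  have m1 : Measurable fun p : Src × Src => ind (p.1 ∈ GX L hΦ hε f₀ η' ((η' - η) / J) t δ) *
      (Mn6 L hΦ hε f₀ b a η' t w (u p) t' J p.1 p.2 + δ * tE6 L hΦ hε f₀ η' t p.1) :=
    (measurable_ind (measurable_fst (measurableSet_GX h₀))).mul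
      ((measurable_Mn6 h₀ hu).add (m6.const_mul _))
  have m3 : Measurable fun p : Src × Src => A ^ p.2.2.2 * (A ^ L)⁻¹ *
      (∑ j ∈ Finset.range J, (A * (∑' n, a n + ∑' n, a n * A ^ n)) ^ j *
        Gc hΦ hε.ne' b t' j (FA f₀ Φ ε L t A) p.2.1 p.2.2.1) :=
    ((measurable_powD A (measurable_snd.comp (measurable_snd.comp measurable_snd))).mul_const
      _).mul (Finset.measurable_sum _ fun j _ =>
        (measurable_Gc_line (hε := hε) j (measurable_FA h₀ hΦ hε)).const_mul _)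
  have hpt : ∀ᵐ p ∂lam, (BX L hΦ hε f₀ b a η' ((η' - η) / J) t J δ)ᶜ.indicator
      (fun p => gT6 L hΦ hε f₀ η t p.1 p.2) p ≤
      ind (p.1 ∈ GX L hΦ hε f₀ η' ((η' - η) / J) t δ) *
        (Mn6 L hΦ hε f₀ b a η' t w (u p) t' J p.1 p.2 + δ * tE6 L hΦ hε f₀ η' t p.1) +
      A ^ p.2.2.2 * (A ^ L)⁻¹ * (∑ j ∈ Finset.range J,
        (A * (∑' n, a n + ∑' n, a n * A ^ n)) ^ j *
        Gc hΦ hε.ne' b t' j (FA f₀ Φ ε L t A) p.2.1 p.2.2.1) +
      5 * (∑ j ∈ Finset.range J, (∑' n, a n) ^ j *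
        Gc hΦ hε.ne' b t' j (atyL (GC.PP f₀ ε) (fun c => ν c) ε t) p.2.1 p.2.2.1) := by
    refine hlam.mono fun p hp => ?_
    by_cases hB : p ∈ (BX L hΦ hε f₀ b a η' ((η' - η) / J) t J δ)ᶜ
    swap
    · rw [indicator_of_notMem hB]
      exact zero_le
    rw [indicator_of_mem hB]
    by_cases hd : p.2.2.2 ≤ L
    swap
    · rw [gT6_of_depth (not_le.1 hd)]
      exact zero_le
    have h1 := gT6_le_Psi6 (e := p.1) (m := p.2) h₀ ht htT hη hηη hw hp.1 hp.2.1 hp.2.2 hcap hJ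
      htt hA hA' ha hB (u p)
    have h2 : p.1 ∈ GX L hΦ hε f₀ η' ((η' - η) / J) t δ := mem_GX hp.2.2 hd hJ hB
    rw [ind_of h2, one_mul]
    refine h1.trans (le_of_eq ?_)
    unfold Psi6 Mn6
    ring
  rw [← lintegral_indicator hBm]
  refine (lintegral_mono_ae hpt).trans ?_
  have a3 := m1.add m3
  have e1 : ∀ f₁ f₂ f₃ : Src × Src → ℝ≥0∞, Measurable (fun p => f₁ p + f₂ p) →
      Measurable f₁ →
      ∫⁻ p, (f₁ p + f₂ p + f₃ p) ∂lam = (∫⁻ p, f₁ p ∂lam) + (∫⁻ p, f₂ p ∂lam) +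
        ∫⁻ p, f₃ p ∂lam := by
    intro f₁ f₂ f₃ h2 h1
    rw [lintegral_add_left h2, lintegral_add_left h1]
  rw [e1 _ _ _ a3 m1]
  refine add_le_add (add_le_add le_rfl ?_) ?_
  · exact lam_over_sum (hε := hε) h₀ hH hA' _ J
  · exact lam_aty_sum (hε := hε) h₀ hH hA hA' ν _ J

/-- **The second events off the exceptional pairs, for a law of the pairs**: main terms, a
superexponentially small term, an error. -/
theorem exists_law_off {b l₁ l₂ Q : ℝ} {m α a : ℕ → ℝ} (hP : Par T b₀ m b l₁ l₂ Q α a)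
    (hΦ : IsPotential Φ) {M₀ : ℝ} (hg : GoodDatum f₀ κ) (hM : 0 ≤ M₀)
    (hf : ∀ z, f₀ z ≤ M₀ * Real.exp (-b₀ * ‖z.2‖ ^ 2))
    (hx : ∀ v : E3, ∫⁻ x : E3, ENNReal.ofReal (f₀ (x, v)) ≤
      ENNReal.ofReal (M₀ * Real.exp (-b₀ * ‖v‖ ^ 2)))
    (hcap : ∀ᶠ L in atTop, CapT Φ f₀ L T (b₀ / 2) m)
    (hI1 : ∀ᶠ L in atTop, Cap.InI1 Φ f₀ L T)
    {lam : ℕ → ∀ ε : ℝ, 0 < ε → ℝ → Measure (Src × Src)}
    (hhit : HitOk8 hΦ T (b₀ / 2) (fun n => ENNReal.ofReal (m n) * ENNReal.ofReal (1 + T)) lam)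
    (hlam : LamOk8 T lam) :
    ∃ cr : ℕ → ℝ, (∀ L, 0 ≤ cr L) ∧ KE.SuperExp cr ∧ ∀ᶠ L in atTop, ∀ J : ℕ, 0 < J →
      ∀ ρ : ℝ, 0 < ρ → ∀ᶠ ε in 𝓝[>] (0 : ℝ), ∀ hε : 0 < ε, ∀ t ∈ Icc 0 T, ∀ η η₁ : ℝ,
      0 < η → η < η₁ → ∀ δ₁ : ℝ≥0∞, ∀ u : Src × Src → ℝ, Measurable u →
        ∫⁻ p in (BX L hΦ hε f₀ (b₀ / 2) (fun n => ENNReal.ofReal (m n) *
          ENNReal.ofReal (1 + T)) η₁ ((η₁ - η) / J) t J δ₁)ᶜ,
            gT6 L hΦ hε f₀ η t p.1 p.2 ∂(lam L ε hε t) ≤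
        (∫⁻ p, ind (p.1 ∈ GX L hΦ hε f₀ η₁ ((η₁ - η) / J) t δ₁) *
          (Mn6 L hΦ hε f₀ (b₀ / 2) (fun n => ENNReal.ofReal (m n) * ENNReal.ofReal (1 + T))
            η₁ t T (u p) (T + 1) J p.1 p.2 + δ₁ * tE6 L hΦ hε f₀ η₁ t p.1) ∂(lam L ε hε t)) +
        ENNReal.ofReal (cr L + ρ) := by
  have hT := hP.T0
  have hb₀ := hP.b₀0
  choose CA hCA hCA' using fun A : ℕ => exists_XXpow hΦ hg hb₀ hT hM hf hx
    (b₁ := b₀ / 2) (by positivity) hP.tsum_ne_top A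
  set a' : ℕ → ℝ≥0∞ := fun n => ENNReal.ofReal (m n) * ENNReal.ofReal (1 + T) with ha'
  -- the constants of the hits
  have hh : ∀ A : ℕ, ∃ Ch : ℝ≥0∞, Ch ≠ ∞ ∧ (1 ≤ A → ∀ᶠ L in atTop, ∀ᶠ ε in 𝓝[>] (0 : ℝ),
      ∀ hε : 0 < ε, ∀ t ∈ Icc 0 T, ∃ C : ℕ → ℝ≥0∞,
        HitLam hΦ hε.ne' (b₀ / 2) t (T + 1) A (lam L ε hε t) C ∧
      ∀ J, ∑ j ∈ Finset.range J, (A * (∑' n, a' n + ∑' n, a' n * (A : ℝ≥0∞) ^ n)) ^ j *
        C j ≤ Ch) := by
    intro A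
    by_cases hA : 1 ≤ A
    · obtain ⟨Ch, h1, h2⟩ := hhit A hA
      exact ⟨Ch, h1, fun _ => h2⟩
    · exact ⟨0, ENNReal.zero_ne_top, fun h => absurd h hA⟩
  choose Ch hCh hCh' using hh
  obtain ⟨Af, hAf, hcr0, hcrs⟩ := exists_diag (fun A => (Ch A).toReal * CA A)
    (fun A => mul_nonneg ENNReal.toReal_nonneg (hCA A))
    (fun A L => ∀ᶠ ε in 𝓝[>] (0 : ℝ), ∀ hε : 0 < ε, ∀ t ∈ Icc 0 T, ∃ C : ℕ → ℝ≥0∞,
        HitLam hΦ hε.ne' (b₀ / 2) t (T + 1) A (lam L ε hε t) C ∧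
      ∀ J, ∑ j ∈ Finset.range J, (A * (∑' n, a' n + ∑' n, a' n * (A : ℝ≥0∞) ^ n)) ^ j *
        C j ≤ Ch A) hCh'
  refine ⟨_, hcr0, hcrs, ?_⟩
  filter_upwards [hcap, hI1, hAf, hlam] with L hL hI hA hlamL J hJ ρ hρ
  obtain ⟨aty, a1, a2, a3⟩ := hL
  have hcl : CapL Φ f₀ L T (b₀ / 2) (fun d => ENNReal.ofReal (m d)) (fun ε c => aty ε c) :=
    ⟨a2, fun ε c => by have := a1 ε; infer_instance, a3⟩
  obtain ⟨hA1, hAh⟩ := hA
  have hK : (5 : ℝ≥0∞) * Ch (Af L) ≠ ∞ := ENNReal.mul_ne_top (by norm_num) (hCh _)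
  filter_upwards [hCA' (Af L) L _ hcl hI, hAh, hlamL, exists_small_lim hK (a3 1) hρ]
    with ε e1 e2 e3 e4 hε t ht η η₁ hη hηη δ₁ u hu
  have := a1 ε
  obtain ⟨C, hC1, hC2⟩ := e2 hε t ht
  obtain ⟨hsf, hae⟩ := e3 hε t ht
  have hAE : (1 : ℝ≥0∞) ≤ (Af L : ℝ≥0∞) := by exact_mod_cast hA1
  have hAt : (Af L : ℝ≥0∞) ≠ ∞ := ENNReal.natCast_ne_top _
  have hmain := lam_gT6_compl_le' (hΦ := hΦ) (hε := hε) (t' := T + 1) (w := T) (η := η)
    (η' := η₁) (δ := δ₁) hg ht.1 ht.2 hη hηη ht.2 (ν := aty ε) (a2 ε hε) hJ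
    (by linarith [ht.2]) hAE hAt (a := a') rfl hae hC1 hu
  refine hmain.trans ?_
  rw [add_assoc]
  refine add_le_add le_rfl ?_
  rw [ENNReal.ofReal_add (hcr0 L) hρ.le]
  refine add_le_add ?_ ?_
  · -- too deep trees
    have hAL : (0 : ℝ) < (Af L : ℝ) ^ L := by
      have : (0 : ℝ) < Af L := by exact_mod_cast hA1
      positivity
    calc ((Af L : ℝ≥0∞) ^ L)⁻¹ * ((∑ j ∈ Finset.range J,
          ((Af L : ℝ≥0∞) * (∑' n, a' n + ∑' n, a' n * (Af L : ℝ≥0∞) ^ n)) ^ j * C j) *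
          (ENNReal.ofReal (ε ^ 2) * XX Φ ε L f₀ t fun _ T =>
            (Af L : ℝ≥0∞) ^ T.depth * ENNReal.ofReal (1 + ‖(ln Φ ε T).2‖)))
        ≤ ((Af L : ℝ≥0∞) ^ L)⁻¹ * (Ch (Af L) * ENNReal.ofReal (CA (Af L))) :=
          mul_le_mul_right (mul_le_mul' (hC2 J) (e1 t ht.2)) _
      _ = ENNReal.ofReal ((Ch (Af L)).toReal * CA (Af L) / (Af L : ℝ) ^ L) := by
          rw [ENNReal.ofReal_div_of_pos hAL, ENNReal.ofReal_mul ENNReal.toReal_nonneg,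
            ENNReal.ofReal_toReal (hCh _), ENNReal.ofReal_pow (Nat.cast_nonneg _),
            ENNReal.ofReal_natCast, div_eq_mul_inv]
          ring
  · -- the atypical part
    have hS : ∑ j ∈ Finset.range J, (∑' n, a' n) ^ j * C j ≤ Ch (Af L) := by
      refine le_trans (Finset.sum_le_sum fun j _ => ?_) (hC2 J)
      refine mul_le_mul' (pow_le_pow_left' ?_ j) le_rfl
      calc ∑' n, a' n = 1 * ∑' n, a' n := (one_mul _).symm
        _ ≤ (Af L : ℝ≥0∞) * (∑' n, a' n + ∑' n, a' n * (Af L : ℝ≥0∞) ^ n) :=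
          mul_le_mul' hAE le_self_add
    have hp : ∀ v : E3, ENNReal.ofReal (1 + ‖v‖) = Cap.pw 1 v := by
      intro v
      unfold Cap.pw
      rw [pow_one]
    calc 5 * ((∑ j ∈ Finset.range J, (∑' n, a' n) ^ j * C j) * (ENNReal.ofReal (ε ^ 2) *
          (muE ε * ∫⁻ c, ∫⁻ p, ENNReal.ofReal (1 + ‖p.2.1.2‖) ∂(aty ε c) ∂(GC.PP f₀ ε))))
        = 5 * ((∑ j ∈ Finset.range J, (∑' n, a' n) ^ j * C j) *
          ((muE ε * ENNReal.ofReal (ε ^ 2)) *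
          ∫⁻ c, ∫⁻ p, ENNReal.ofReal (1 + ‖p.2.1.2‖) ∂(aty ε c) ∂(GC.PP f₀ ε))) := by ring
      _ ≤ 5 * (Ch (Af L) * ∫⁻ c, ∫⁻ p, Cap.pw 1 p.2.1.2 ∂(aty ε c) ∂(GC.PP f₀ ε)) := by
          rw [muE_mul hε, one_mul]
          simp only [hp]
          exact mul_le_mul_right (mul_le_mul_left hS _) _
      _ = (5 * Ch (Af L)) * ∫⁻ c, ∫⁻ p, Cap.pw 1 p.2.1.2 ∂(aty ε c) ∂(GC.PP f₀ ε) := by ring
      _ ≤ ENNReal.ofReal ρ := e4

end Vale.Agent.P119.PB
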