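import Vale.Agent.P119.PB.Top8g
import Vale.Agent.P119.PB.PairsPP

/-!
# P119, block PROB, P8: the typical pieces (`helper336`)

* `sumJ_cut`, `sumA_cut`, `sumC_cut`: restriction to the times at most `t`;
* `P2g_PP`: the pairs of outgoing lines of the alive trees, with independent typical pieces;
* `FXk_PP`: an exhaust and the hit of a free line on the root line, the same; `FXg_PP`, `FXp_PP`.
-/

open MeasureTheory Filter Topology Set
open scoped ENNReal NNReal

noncomputable section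

namespace Vale.Agent.P119.PB

open M CTree KU FB RB AU FL TL EX

variable {Φ : E3 → ℝ} {ε : ℝ} {L : ℕ} {hΦ : IsPotential Φ} {hε : 0 < ε} {η t w b T : ℝ} {σ : Src}
  {f₀ : Ph → ℝ} {κ : ℝ}

theorem wr_le (S : CTree) : wr Φ ε S ≤ Cap.pw 2 (ln Φ ε S).2 := by
  unfold wr Cap.pw
  apply ENNReal.ofReal_le_ofReal
  have := norm_nonneg (ln Φ ε S).2
  nlinarith

/-- The restriction to the times at most `t`. -/
theorem okT_cut {S : CTree} {x : ℝ≥0∞} :
    (okT Φ ε T L).indicator (fun _ => ind (ext Φ ε S ≤ t) * x) S ≤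
      (okT Φ ε t L).indicator (fun _ => x) S := by
  by_cases h : S ∈ okT Φ ε T L
  · rw [indicator_of_mem h]
    by_cases h2 : ext Φ ε S ≤ t
    · rw [ind_of h2, one_mul, indicator_of_mem (show S ∈ okT Φ ε t L from ⟨h.1, h2, h.2.2⟩)]
    · rw [ind_of_not h2, zero_mul]
      exact zero_le
  · rw [indicator_of_notMem h]
    exact zero_le

theorem sumJ_cut {Θ : Measure CTree} {F : CTree → CTree → ℝ≥0∞} :
    sumJ Φ ε T L Θ (fun S x => ind (ext Φ ε S ≤ t) * F S x) ≤ sumJ Φ ε t L Θ F :=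
  ENNReal.tsum_le_tsum fun _ => lintegral_mono fun _ => okT_cut

theorem sumA_cut {Θ : Measure CTree} {R : CTree → ℝ≥0∞} {Ψ : CTree → CTree → ℝ≥0∞} :
    sumA Φ ε T L Θ (fun S => ind (ext Φ ε S ≤ t) * R S) Ψ ≤ sumA Φ ε t L Θ R Ψ :=
  ENNReal.tsum_le_tsum fun _ => ENNReal.tsum_le_tsum fun _ => lintegral_mono fun _ =>
    lintegral_mono fun _ => lintegral_mono fun _ => by
      simp only [mul_assoc]
      exact okT_cut

theorem sumC_cut {Θ : Measure CTree} {R : CTree → ℝ≥0∞} {Ψ : CTree → CTree → ℝ≥0∞} :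
    sumC Φ ε T L Θ (fun S => ind (ext Φ ε S ≤ t) * R S) Ψ ≤ sumC Φ ε t L Θ R Ψ :=
  ENNReal.tsum_le_tsum fun _ => ENNReal.tsum_le_tsum fun _ => ENNReal.tsum_le_tsum fun _ =>
    lintegral_mono fun _ => lintegral_mono fun _ => lintegral_mono fun _ => by
      simp only [mul_assoc]
      exact okT_cut

theorem exsum_mul {S : CTree} {k : ℝ≥0∞} (φ : CTree → ℝ≥0∞) :
    k * exsum S φ = exsum S fun x => k * φ x := by
  classical
  unfold exsum
  rw [← ENNReal.tsum_mul_left]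
  refine tsum_congr fun x => ?_
  split_ifs
  · rfl
  · rw [mul_zero]

/-- The alive trees at the time `t` are alive trees at the time `T`. -/
theorem ind_alT_le (htT : t ≤ T) {V : Finset Src} {S : CTree} {x : ℝ≥0∞} :
    ind (alT Φ ε L t V S) * x ≤
      (Als Φ ε L T V).indicator (fun S => ind (ext Φ ε S ≤ t) * x) S := by
  by_cases h : alT Φ ε L t V S
  · rw [ind_of h, indicator_of_mem (show S ∈ Als Φ ε L T V from
      ⟨h.ok, h.depth, h.ext_le.trans htT, h.alive⟩), ind_of h.ext_le]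
  · rw [ind_of_not h, zero_mul]
    exact zero_le

/-- `XX` with the horizon `t ≤ T` as an integral over the alive trees at the time `T`. -/
theorem XX_le_als (hΦ : IsPotential Φ) (hε : 0 < ε) (htT : t ≤ T)
    (H : Finset Src → CTree → ℝ≥0∞) :
    XX Φ ε L f₀ t H ≤ ∫⁻ c, (∫⁻ S in Als Φ ε L T (wS (GC.pts c)),
      ind (ext Φ ε S ≤ t) * H (wS (GC.pts c)) S ∂(tree (GC.inten f₀ ε) L)) ∂(GC.PP f₀ ε) := by
  unfold XX
  refine lintegral_mono fun c => ?_
  rw [← lintegral_indicator (measurableSet_Als hΦ hε L T c)]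
  refine lintegral_mono fun S => ?_
  refine (ind_alT_le htT).trans (le_of_eq ?_)
  by_cases h : S ∈ Als Φ ε L T (wS (GC.pts c))
  · rw [indicator_of_mem h, indicator_of_mem h]
  · rw [indicator_of_notMem h, indicator_of_notMem h]

/-! ### The pairs of outgoing lines -/

theorem measurableSet_als_param (hΦ : IsPotential Φ) (hε : 0 < ε) (L : ℕ) (T : ℝ) :
    MeasurableSet {p : GC.Conf Ph × CTree | p.2 ∈ Als Φ ε L T (wS (GC.pts p.1))} :=
  measurableSet_alT hΦ hε (RM.rs_conf.comp measurable_fst) measurable_snd measurable_const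

/-- Integrals over the alive trees are measurable in the world. -/
theorem measurable_als (hΦ : IsPotential Φ) (hε : 0 < ε) (h₀ : GoodDatum f₀ κ) (L : ℕ) (T : ℝ)
    {G : GC.Conf Ph → CTree → ℝ≥0∞} (hG : Measurable fun p : GC.Conf Ph × CTree => G p.1 p.2) :
    Measurable fun c => ∫⁻ S in Als Φ ε L T (wS (GC.pts c)), G c S
      ∂(tree (GC.inten f₀ ε) L) := by
  have hfin : IsFiniteMeasure (GC.inten f₀ ε) := GC.isFiniteMeasure_inten h₀
  have h4 : Measurable fun p : GC.Conf Ph × CTree =>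
      ({p : GC.Conf Ph × CTree | p.2 ∈ Als Φ ε L T (wS (GC.pts p.1))}).indicator
        (fun p => G p.1 p.2) p := hG.indicator (measurableSet_als_param hΦ hε L T)
  have h5 := h4.lintegral_prod_right' (ν := tree (GC.inten f₀ ε) L)
  have e : (fun c => ∫⁻ S in Als Φ ε L T (wS (GC.pts c)), G c S ∂(tree (GC.inten f₀ ε) L)) =
      fun c => ∫⁻ S, ({p : GC.Conf Ph × CTree | p.2 ∈ Als Φ ε L T (wS (GC.pts p.1))}).indicator
        (fun p => G p.1 p.2) (c, S) ∂(tree (GC.inten f₀ ε) L) := by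
    funext c
    rw [← lintegral_indicator (measurableSet_Als hΦ hε L T c)]
    rfl
  rw [e]
  exact h5

open Classical in
/-- **The pairs of outgoing lines, with independent typical pieces.** -/
theorem P2g_PP (hΦ : IsPotential Φ) (h₀ : GoodDatum f₀ κ) (hb : 0 < b) {b₀ M₀ : ℝ} (hbb : b ≤ b₀)
    (hM : 0 ≤ M₀) (hf : ∀ z, f₀ z ≤ M₀ * Real.exp (-b₀ * ‖z.2‖ ^ 2)) (hT : 0 ≤ T) {m : ℕ → ℝ}
    [IsFiniteMeasure (dmeas m)] (hcap : CapH Φ f₀ L T b m) (hI1 : Cap.InI1 Φ f₀ L T)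
    {ρ : ℝ} (hρ : 0 < ρ) :
    ∀ᶠ ε in 𝓝[>] (0 : ℝ), ∃ Θ : GC.Conf Ph → Measure CTree,
      (∀ᵐ c ∂(GC.PP f₀ ε), TypLaw Φ ε b T m (Θ c)) ∧
      ∀ (ψ : Finset Src → Src → Src → ℝ≥0∞), MW ψ → (∀ V e m, ψ V e m ≤ 1) → ∀ t ≤ T,
      P2g Φ ε L f₀ t ψ ≤
        (muE ε)⁻¹ * ∫⁻ c, sumJ Φ ε t L (Θ c) (fun S x => wr Φ ε S *
          ψ (wS (GC.pts c)) (rsrc Φ ε x) (rsrc Φ ε S)) ∂(GC.PP f₀ ε) +
        (muE ε)⁻¹ * ∫⁻ c, (sumA Φ ε t L (Θ c) (wr Φ ε) (fun x y =>
            ψ (wS (GC.pts c)) (rsrc Φ ε x) (rsrc Φ ε y)) +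
          sumC Φ ε t L (Θ c) (wr Φ ε) (fun x y =>
            ψ (wS (GC.pts c)) (rsrc Φ ε x) (rsrc Φ ε y))) ∂(GC.PP f₀ ε) +
        ENNReal.ofReal ρ := by
  filter_upwards [sums_PP' hΦ h₀ hb hbb hM hf hT hcap hI1 2 (half_pos hρ), self_mem_nhdsWithin]
    with ε hS hε
  have hε : 0 < ε := hε
  obtain ⟨Θ, hΘ, -, hJ, hP⟩ := hS
  refine ⟨Θ, hΘ, fun ψ hψ hψ1 t htT => ?_⟩
  have hfin : IsFiniteMeasure (GC.inten f₀ ε) := GC.isFiniteMeasure_inten h₀
  have hext : Measurable fun S : CTree => ind (ext Φ ε S ≤ t) :=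
    measurable_ind (measurableSet_le (measurable_ext hΦ hε.ne') measurable_const)
  have hwr : Measurable (wr Φ ε) := measurable_wr hΦ hε.ne'
  have hrs : Measurable fun S : CTree => rsrc Φ ε S := RM.meas_rsrc hΦ hε measurable_id
  set F : GC.Conf Ph → CTree → CTree → ℝ≥0∞ := fun c S x => ind (ext Φ ε S ≤ t) *
    (wr Φ ε S * ψ (wS (GC.pts c)) (rsrc Φ ε x) (rsrc Φ ε S)) with hF
  set Ψ : GC.Conf Ph → CTree → CTree → ℝ≥0∞ := fun c x y =>
    ψ (wS (GC.pts c)) (rsrc Φ ε x) (rsrc Φ ε y) with hΨ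
  set R : GC.Conf Ph → CTree → ℝ≥0∞ := fun _ S => ind (ext Φ ε S ≤ t) * wr Φ ε S with hR
  have hgI : ∀ {X : Type} [MeasurableSpace X] {c : X → GC.Conf Ph} {x y : X → CTree},
      Measurable c → Measurable x → Measurable y →
      Measurable fun q => ψ (wS (GC.pts (c q))) (rsrc Φ ε (x q)) (rsrc Φ ε (y q)) := by
    intro X _ c x y h1 h2 h3
    exact hψ.comp h1 (hrs.comp h2) (hrs.comp h3)
  have hFm3 : Measurable fun q : (GC.Conf Ph × CTree) × CTree => F q.1.1 q.1.2 q.2 :=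
    (hext.comp measurable_fst.snd).mul ((hwr.comp measurable_fst.snd).mul
      (hgI measurable_fst.fst measurable_snd measurable_fst.snd))
  have hE1 : Measurable fun p : GC.Conf Ph × CTree => exsum p.2 (F p.1 p.2) :=
    RM.measurable_exsum' measurable_snd (F := fun (p : GC.Conf Ph × CTree) x => F p.1 p.2 x) hFm3
  have hwle : ∀ S, ind (ext Φ ε S ≤ t) * wr Φ ε S ≤ Cap.pw 2 (ln Φ ε S).2 := fun S =>
    (mul_le_mul' (ind_le_one _) le_rfl).trans ((one_mul _).le.trans (wr_le S))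
  have h1 := hJ F (fun c => hFm3.comp ((measurable_const.prodMk measurable_fst).prodMk
    measurable_snd)) (fun c S _ x => by
      rw [hF]
      simp only
      rw [← mul_assoc]
      exact (mul_le_mul' (hwle S) (hψ1 _ _ _)).trans (mul_one _).le)
  have h2 := hP R Ψ (fun c => hext.mul hwr) (fun c S _ => hwle S)
    (fun c => hgI measurable_const measurable_fst measurable_snd) (fun c x y => hψ1 _ _ _)
  have h3 : P2g Φ ε L f₀ t ψ ≤ (muE ε)⁻¹ * ∫⁻ c, (∫⁻ S in Als Φ ε L T (wS (GC.pts c)),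
        exsum S (F c S) ∂(tree (GC.inten f₀ ε) L)) ∂(GC.PP f₀ ε) +
      (muE ε)⁻¹ * ∫⁻ c, (∫⁻ S in Als Φ ε L T (wS (GC.pts c)), R c S *
        exsum S (fun x => exsum S fun y => if x = y then 0 else Ψ c x y)
        ∂(tree (GC.inten f₀ ε) L)) ∂(GC.PP f₀ ε) := by
    have hm1 : ∀ c, Measurable fun S : CTree => exsum S (F c S) := fun c =>
      hE1.comp (measurable_const.prodMk measurable_id)
    have hm2 : Measurable fun c => ∫⁻ S in Als Φ ε L T (wS (GC.pts c)),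
        exsum S (F c S) ∂(tree (GC.inten f₀ ε) L) :=
      measurable_als hΦ hε h₀ L T (G := fun c S => exsum S (F c S)) hE1
    rw [← mul_add, ← lintegral_add_left hm2]
    unfold P2g
    refine mul_le_mul_right ((XX_le_als hΦ hε htT _).trans ?_) _
    refine lintegral_mono fun c => ?_
    rw [← lintegral_add_left (hm1 c)]
    refine lintegral_mono fun S => ?_
    rw [hF, hR, hΨ]
    simp only
    unfold twoG
    rw [exsum_add, mul_add, mul_add, ← exsum_mul, ← exsum_mul]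
    refine add_le_add le_rfl (le_of_eq ?_)
    rw [mul_assoc]
  refine h3.trans ((add_le_add h1 h2).trans ?_)
  calc _ = ((muE ε)⁻¹ * ∫⁻ c, sumJ Φ ε T L (Θ c) (F c) ∂(GC.PP f₀ ε) +
        (muE ε)⁻¹ * ∫⁻ c, (sumA Φ ε T L (Θ c) (R c) (Ψ c) +
          sumC Φ ε T L (Θ c) (R c) (Ψ c)) ∂(GC.PP f₀ ε)) +
        (ENNReal.ofReal (ρ / 2) + ENNReal.ofReal (ρ / 2)) := by ring
    _ ≤ _ := by
        rw [← ENNReal.ofReal_add (half_pos hρ).le (half_pos hρ).le, add_halves]
        refine add_le_add (add_le_add (mul_le_mul_right (lintegral_mono fun c => sumJ_cut) _)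
          (mul_le_mul_right (lintegral_mono fun c => add_le_add sumA_cut sumC_cut) _)) le_rfl

/-! ### The free line -/

theorem sumJ_const_mul {Θ : Measure CTree} {k : ℝ≥0∞} (hk : k ≠ ∞) {F : CTree → CTree → ℝ≥0∞} :
    sumJ Φ ε t L Θ (fun S x => k * F S x) = k * sumJ Φ ε t L Θ F := by
  unfold sumJ
  rw [← ENNReal.tsum_mul_left]
  refine tsum_congr fun i => ?_
  rw [← lintegral_const_mul' _ _ hk]
  refine lintegral_congr fun q => ?_
  by_cases h : top q ∈ okT Φ ε t L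
  · rw [indicator_of_mem h, indicator_of_mem h]
  · rw [indicator_of_notMem h, indicator_of_notMem h, mul_zero]

/-- Tonelli for the sums over a marked node. -/
theorem sumJ_lintegral (hΦ : IsPotential Φ) (hε : 0 < ε) {X : Type} [MeasurableSpace X]
    {ν : Measure X} [SFinite ν] {Θ : Measure CTree} [SigmaFinite Θ]
    {F : X → CTree → CTree → ℝ≥0∞}
    (hF : Measurable fun p : X × (CTree × CTree) => F p.1 p.2.1 p.2.2) :
    sumJ Φ ε t L Θ (fun S x => ∫⁻ z, F z S x ∂ν) = ∫⁻ z, sumJ Φ ε t L Θ (F z) ∂ν := by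
  have hH : ∀ i, Measurable fun p : X × Mk CTree i =>
      (okT Φ ε t L).indicator (fun _ => F p.1 (top p.2) (exh p.2)) (top p.2) := by
    intro i
    have h1 : Measurable fun p : X × Mk CTree i => F p.1 (top p.2) (exh p.2) :=
      hF.comp (measurable_fst.prodMk (((measurable_top i).comp measurable_snd).prodMk
        ((measurable_exh i).comp measurable_snd)))
    have h2 : MeasurableSet {p : X × Mk CTree i | top p.2 ∈ okT Φ ε t L} :=
      ((measurable_top i).comp measurable_snd) (measurableSet_okT hΦ hε.ne' L)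
    have h3 := h1.indicator h2
    refine h3
  unfold sumJ
  rw [lintegral_tsum fun i => ((hH i).lintegral_prod_right' (ν := mkM Θ i)).aemeasurable]
  refine tsum_congr fun i => ?_
  rw [lintegral_lintegral_swap (f := fun z q => (okT Φ ε t L).indicator
    (fun _ => F z (top q) (exh q)) (top q)) (hH i).aemeasurable]
  refine lintegral_congr fun q => ?_
  by_cases h : top q ∈ okT Φ ε t L
  · simp only [indicator_of_mem h]
  · simp only [indicator_of_notMem h, lintegral_zero]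

/-- The integrand of `FXk`. -/
def fxkI (Φ : E3 → ℝ) (ε t : ℝ) (k : Finset Src → Src → Ph × Ph → ℕ → ℝ≥0∞) (z : Ph)
    (V : Finset Src) (S : CTree) : ℝ≥0∞ :=
  ind (hitF Φ ε t z S) * exsum S fun x => k V (rsrc Φ ε x) (z, ln Φ ε S) S.depth

/-- An exhaust and the hit of a free line on the root line. -/
def FXk (Φ : E3 → ℝ) (ε : ℝ) (L : ℕ) (f₀ : Ph → ℝ) (b t : ℝ)
    (k : Finset Src → Src → Ph × Ph → ℕ → ℝ≥0∞) : ℝ≥0∞ :=
  ∫⁻ z : Ph, gw b z.2 * XX Φ ε L f₀ t (fxkI Φ ε t k z)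

theorem FXg_eq (b t : ℝ) (ψ : Finset Src → Src → Src → ℝ≥0∞) (n : ℕ) :
    FXg Φ ε L f₀ b t ψ n =
      FXk Φ ε L f₀ b t fun V e p D => frS Φ ε (ψ V e) (0, p.1, n) p.2 D := rfl

theorem FXp_eq (b t : ℝ) (φ : Finset Src → Src → Src → Ph → ℝ≥0∞) :
    FXp Φ ε L f₀ b t φ = FXk Φ ε L f₀ b t fun V e p _ => φ V e (0, p.1, 0) p.2 := rfl

/-- Measurability of an integrand. -/
def MWk (k : Finset Src → Src → Ph × Ph → ℕ → ℝ≥0∞) : Prop :=
  Measurable fun q : GC.Conf Ph × Src × (Ph × Ph) × ℕ =>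
    k (wS (GC.pts q.1)) q.2.1 q.2.2.1 q.2.2.2

theorem MWk.comp {k : Finset Src → Src → Ph × Ph → ℕ → ℝ≥0∞} (h : MWk k) {X : Type}
    [MeasurableSpace X] {c : X → GC.Conf Ph} {e : X → Src} {p : X → Ph × Ph} {D : X → ℕ}
    (hc : Measurable c) (he : Measurable e) (hp : Measurable p) (hD : Measurable D) :
    Measurable fun x => k (wS (GC.pts (c x))) (e x) (p x) (D x) := by
  have h1 : Measurable fun x => ((c x, e x, p x, D x) : GC.Conf Ph × Src × (Ph × Ph) × ℕ) :=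
    hc.prodMk (he.prodMk (hp.prodMk hD))
  exact Measurable.comp (g := fun q : GC.Conf Ph × Src × (Ph × Ph) × ℕ =>
    k (wS (GC.pts q.1)) q.2.1 q.2.2.1 q.2.2.2) h h1

theorem MW.k {ψ : Finset Src → Src → Src → ℝ≥0∞} (h : MW ψ) (hΦ : IsPotential Φ) (hε : 0 < ε)
    (n : ℕ) : MWk fun V e p D => PB.frS Φ ε (ψ V e) (0, p.1, n) p.2 D :=
  h.frS hΦ hε measurable_fst measurable_snd.fst
    (measurable_const.prodMk (measurable_snd.snd.fst.fst.prodMk measurable_const))
    measurable_snd.snd.fst.snd measurable_snd.snd.snd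

theorem MWp.k {φ : Finset Src → Src → Src → Ph → ℝ≥0∞} (h : MWp φ) :
    MWk fun V e p _ => φ V e (0, p.1, 0) p.2 :=
  h.comp measurable_fst measurable_snd.fst
    (measurable_const.prodMk (measurable_snd.snd.fst.fst.prodMk measurable_const))
    measurable_snd.snd.fst.snd

/-- The integral over the free line. -/
def fxK (Φ : E3 → ℝ) (ε b t : ℝ) (k : Finset Src → Src → Ph × Ph → ℕ → ℝ≥0∞)
    (V : Finset Src) (S x : CTree) : ℝ≥0∞ :=
  ∫⁻ z : Ph, gw b z.2 * (ind (hitF Φ ε t z S) * k V (rsrc Φ ε x) (z, ln Φ ε S) S.depth)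

theorem MWk.int {k : Finset Src → Src → Ph × Ph → ℕ → ℝ≥0∞} (h : MWk k) (hΦ : IsPotential Φ)
    (hε : 0 < ε) {X : Type} [MeasurableSpace X] {c : X → GC.Conf Ph} {z : X → Ph}
    {S x : X → CTree} (hc : Measurable c) (hz : Measurable z) (hS : Measurable S)
    (hx : Measurable x) : Measurable fun q => gw b (z q).2 * (ind (hitF Φ ε t (z q) (S q)) *
      k (wS (GC.pts (c q))) (rsrc Φ ε (x q)) (z q, ln Φ ε (S q)) (S q).depth) := by
  have hln : Measurable fun q => ln Φ ε (S q) := (M.measurable_ln hΦ hε.ne').comp hS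
  have hd : Measurable fun q => (S q).depth := M.measurable_depth.comp hS
  have hH : Measurable fun q => ind (hitF Φ ε t (z q) (S q)) :=
    measurable_ind ((hz.prodMk hS) (measurableSet_hitF hΦ hε.ne' t))
  exact ((measurable_gw b).comp hz.snd).mul (hH.mul
    (h.comp hc (RM.meas_rsrc hΦ hε hx) (hz.prodMk hln) hd))

theorem MWk.fxK {k : Finset Src → Src → Ph × Ph → ℕ → ℝ≥0∞} (h : MWk k) (hΦ : IsPotential Φ)
    (hε : 0 < ε) {X : Type} [MeasurableSpace X] {c : X → GC.Conf Ph}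
    {S x : X → CTree} (hc : Measurable c) (hS : Measurable S) (hx : Measurable x) :
    Measurable fun q => fxK Φ ε b t k (wS (GC.pts (c q))) (S q) (x q) := by
  have h1 := h.int (b := b) (t := t) hΦ hε (X := X × Ph) (c := fun q => c q.1)
    (z := fun q => q.2) (S := fun q => S q.1) (x := fun q => x q.1) (hc.comp measurable_fst)
    measurable_snd (hS.comp measurable_fst) (hx.comp measurable_fst)
  exact h1.lintegral_prod_right' (ν := (volume : Measure Ph))

theorem MWk.fxkI {k : Finset Src → Src → Ph × Ph → ℕ → ℝ≥0∞} (h : MWk k) (hΦ : IsPotential Φ)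
    (hε : 0 < ε) : Measurable fun q : Ph × (GC.Conf Ph × CTree) =>
      fxkI Φ ε t k q.1 (wS (GC.pts q.2.1)) q.2.2 := by
  have hln : Measurable fun T : CTree => ln Φ ε T := M.measurable_ln hΦ hε.ne'
  unfold PB.fxkI
  refine (measurable_ind ((measurable_fst.prodMk measurable_snd.snd :
    Measurable fun q : Ph × (GC.Conf Ph × CTree) => ((q.1, q.2.2) : Ph × CTree))
      (measurableSet_hitF hΦ hε.ne' t))).mul ?_
  refine RM.measurable_exsum' measurable_snd.snd (F := fun (q : Ph × (GC.Conf Ph × CTree)) x =>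
    k (wS (GC.pts q.2.1)) (rsrc Φ ε x) (q.1, ln Φ ε q.2.2) q.2.2.depth) ?_
  exact h.comp measurable_fst.snd.fst (RM.meas_rsrc hΦ hε measurable_snd)
    (measurable_fst.fst.prodMk (hln.comp measurable_fst.snd.snd))
    (M.measurable_depth.comp measurable_fst.snd.snd)

/-- `μ fxK` is at most `C (1 + |v|)`. -/
theorem fxK_le (hε : 0 < ε) (hb : 0 < b) (ht : 0 ≤ t) {C : ℝ≥0∞} (hC : C ≠ ∞)
    {k : Finset Src → Src → Ph × Ph → ℕ → ℝ≥0∞} (hk : ∀ V e p D, k V e p D ≤ C)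
    (V : Finset Src) (S x : CTree) : muE ε * fxK Φ ε b t k V S x ≤
      C * (ENNReal.ofReal Real.pi * I0 b * ENNReal.ofReal t) *
        ENNReal.ofReal (1 + ‖(ln Φ ε S).2‖) := by
  have h1 : fxK Φ ε b t k V S x ≤
      ∫⁻ z : Ph, C * (gw b z.2 * ind (hitI ε t (0, z, 0) (ln Φ ε S))) := by
    refine lintegral_mono fun z => ?_
    calc gw b z.2 * (ind (hitF Φ ε t z S) * k V (rsrc Φ ε x) (z, ln Φ ε S) S.depth)
        ≤ gw b z.2 * (ind (hitI ε t (0, z, 0) (ln Φ ε S)) * C) := by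
          gcongr
          · exact ind_mono fun h => h.1
          · exact hk _ _ _ _
      _ = _ := by ring
  rw [lintegral_const_mul' _ _ hC] at h1
  calc muE ε * fxK Φ ε b t k V S x
      ≤ muE ε * (C * ((muE ε)⁻¹ * (ENNReal.ofReal Real.pi * I0 b * ENNReal.ofReal t) *
        ENNReal.ofReal (1 + ‖(ln Φ ε S).2‖))) :=
        mul_le_mul_right (h1.trans (mul_le_mul_right (flux_hitI hε hb ht 0 _) _)) _
    _ = (muE ε * (muE ε)⁻¹) * (C * (ENNReal.ofReal Real.pi * I0 b * ENNReal.ofReal t) *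
        ENNReal.ofReal (1 + ‖(ln Φ ε S).2‖)) := by ring
    _ = _ := by rw [ENNReal.mul_inv_cancel (muE_ne_zero8 hε) muE_ne_top, one_mul]

/-- The free line is integrated out first. -/
theorem FXk_eq (h₀ : GoodDatum f₀ κ) (hΦ : IsPotential Φ) (hε : 0 < ε)
    {k : Finset Src → Src → Ph × Ph → ℕ → ℝ≥0∞} (hk : MWk k) : FXk Φ ε L f₀ b t k =
      XX Φ ε L f₀ t fun V S => exsum S fun x => fxK Φ ε b t k V S x := by
  have hm1 : Measurable fun p : Ph × (GC.Conf Ph × CTree) =>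
      gw b p.1.2 * fxkI Φ ε t k p.1 (wS (GC.pts p.2.1)) p.2.2 :=
    ((measurable_gw b).comp measurable_fst.snd).mul (hk.fxkI hΦ hε)
  unfold FXk
  have h1 : ∀ z : Ph, gw b z.2 * XX Φ ε L f₀ t (fxkI Φ ε t k z) =
      XX Φ ε L f₀ t fun V S => gw b z.2 * fxkI Φ ε t k z V S := fun z =>
    (XX_const_mul h₀ hΦ hε ENNReal.ofReal_ne_top).symm
  simp only [h1]
  rw [lintegral_XX h₀ hΦ hε (H := fun z V S => gw b z.2 * fxkI Φ ε t k z V S) hm1]
  unfold XX
  refine lintegral_congr fun c => lintegral_congr fun S => ?_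
  congr 1
  have e := lintegral_exsum' (ν := (volume : Measure Ph)) S (F := fun z x => gw b z.2 *
      (ind (hitF Φ ε t z S) * k (wS (GC.pts c)) (rsrc Φ ε x) (z, ln Φ ε S) S.depth))
      fun x => hk.int hΦ hε measurable_const measurable_id measurable_const measurable_const
  refine Eq.trans ?_ e
  refine lintegral_congr fun z => ?_
  unfold fxkI
  rw [exsum_mul, exsum_mul]

/-- **An exhaust and the hit of a free line, with independent typical pieces.** -/
theorem FXk_PP (hΦ : IsPotential Φ) (h₀ : GoodDatum f₀ κ) (hb : 0 < b) {b₀ M₀ b' : ℝ}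
    (hbb : b ≤ b₀) (hM : 0 ≤ M₀) (hf : ∀ z, f₀ z ≤ M₀ * Real.exp (-b₀ * ‖z.2‖ ^ 2))
    (hT : 0 ≤ T) {m : ℕ → ℝ} [IsFiniteMeasure (dmeas m)] (hcap : CapH Φ f₀ L T b m)
    (hI1 : Cap.InI1 Φ f₀ L T) (hb' : 0 < b') {C₀ : ℝ≥0∞} (hC₀ : C₀ ≠ ∞) {ρ : ℝ} (hρ : 0 < ρ) :
    ∀ᶠ ε in 𝓝[>] (0 : ℝ), ∃ Θ : GC.Conf Ph → Measure CTree,
      (∀ᵐ c ∂(GC.PP f₀ ε), TypLaw Φ ε b T m (Θ c)) ∧
      ∀ (k : Finset Src → Src → Ph × Ph → ℕ → ℝ≥0∞), MWk k → (∀ V e p D, k V e p D ≤ C₀) →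
      ∀ t : ℝ, 0 ≤ t → t ≤ T →
      FXk Φ ε L f₀ b' t k ≤
        ∫⁻ c, (∫⁻ z : Ph, gw b' z.2 * sumJ Φ ε t L (Θ c) (fun S x => ind (hitF Φ ε t z S) *
          k (wS (GC.pts c)) (rsrc Φ ε x) (z, ln Φ ε S) S.depth)) ∂(GC.PP f₀ ε) +
            ENNReal.ofReal ρ := by
  set C : ℝ≥0∞ := C₀ * (ENNReal.ofReal Real.pi * I0 b' * ENNReal.ofReal T) + 1 with hC
  have hCt : C ≠ ∞ := by
    refine ENNReal.add_ne_top.2 ⟨ENNReal.mul_ne_top hC₀ (ENNReal.mul_ne_top
      (ENNReal.mul_ne_top ENNReal.ofReal_ne_top (I0_ne_top hb')) ENNReal.ofReal_ne_top),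
      ENNReal.one_ne_top⟩
  have hC0 : C ≠ 0 := by
    rw [hC]
    exact (lt_of_lt_of_le one_pos le_add_self).ne'
  have hCr : 0 < C.toReal := ENNReal.toReal_pos hC0 hCt
  have hρ' : 0 < ρ / C.toReal := div_pos hρ hCr
  filter_upwards [sums_PP' hΦ h₀ hb hbb hM hf hT hcap hI1 1 hρ', self_mem_nhdsWithin]
    with ε hS hε
  have hε : 0 < ε := hε
  obtain ⟨Θ, hΘ, -, hJ, -⟩ := hS
  refine ⟨Θ, hΘ, fun k hk hk1 t ht htT => ?_⟩
  have hext : Measurable fun S : CTree => ind (ext Φ ε S ≤ t) :=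
    measurable_ind (measurableSet_le (measurable_ext hΦ hε.ne') measurable_const)
  set G : GC.Conf Ph → CTree → CTree → ℝ≥0∞ := fun c S x => muE ε *
    fxK Φ ε b' t k (wS (GC.pts c)) S x with hG
  set F : GC.Conf Ph → CTree → CTree → ℝ≥0∞ := fun c S x => ind (ext Φ ε S ≤ t) *
    (C⁻¹ * G c S x) with hF
  have hGm : ∀ c, Measurable fun p : CTree × CTree => G c p.1 p.2 := by
    intro c
    refine Measurable.const_mul ?_ _
    exact hk.fxK hΦ hε (measurable_const (a := c)) measurable_fst measurable_snd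
  have hGle : ∀ c S x, G c S x ≤ C * Cap.pw 1 (ln Φ ε S).2 := by
    intro c S x
    refine (fxK_le hε hb' ht hC₀ hk1 _ _ _).trans ?_
    have e : Cap.pw 1 (ln Φ ε S).2 = ENNReal.ofReal (1 + ‖(ln Φ ε S).2‖) := by
      unfold Cap.pw
      rw [pow_one]
    rw [e, hC]
    refine mul_le_mul' (le_trans ?_ le_self_add) le_rfl
    gcongr
  have h1 := hJ F (fun c => (hext.comp measurable_fst).mul ((hGm c).const_mul _))
    (fun c S _ x => by
      rw [hF]
      simp only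
      calc ind (ext Φ ε S ≤ t) * (C⁻¹ * G c S x) ≤ 1 * (C⁻¹ * (C * Cap.pw 1 (ln Φ ε S).2)) :=
            mul_le_mul' (ind_le_one _) (mul_le_mul_right (hGle c S x) _)
        _ = (C⁻¹ * C) * Cap.pw 1 (ln Φ ε S).2 := by ring
        _ = _ := by rw [ENNReal.inv_mul_cancel hC0 hCt, one_mul])
  have hmi : (muE ε)⁻¹ * muE ε = 1 := ENNReal.inv_mul_cancel (muE_ne_zero8 hε) muE_ne_top
  have hCi : C * C⁻¹ = 1 := ENNReal.mul_inv_cancel hC0 hCt
  have hCit : C⁻¹ ≠ ∞ := ENNReal.inv_ne_top.2 hC0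
  have hmut : (muE ε)⁻¹ ≠ ∞ := ENNReal.inv_ne_top.2 (muE_ne_zero8 hε)
  have h2 : FXk Φ ε L f₀ b' t k ≤ C * ((muE ε)⁻¹ * ∫⁻ c,
      (∫⁻ S in Als Φ ε L T (wS (GC.pts c)), exsum S (F c S) ∂(tree (GC.inten f₀ ε) L))
        ∂(GC.PP f₀ ε)) := by
    rw [FXk_eq h₀ hΦ hε hk]
    refine (XX_le_als hΦ hε htT _).trans (le_of_eq ?_)
    have e1 : C * (muE ε)⁻¹ ≠ ∞ := ENNReal.mul_ne_top hCt hmut
    rw [← mul_assoc, ← lintegral_const_mul' _ _ e1]
    refine lintegral_congr fun c => ?_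
    rw [← lintegral_const_mul' _ _ e1]
    refine lintegral_congr fun S => ?_
    rw [exsum_mul, exsum_mul]
    congr 1
    funext x
    rw [hF, hG]
    simp only
    calc _ = (C * C⁻¹) * ((muE ε)⁻¹ * muE ε) * (ind (ext Φ ε S ≤ t) *
          fxK Φ ε b' t k (wS (GC.pts c)) S x) := by
          rw [hCi, hmi, one_mul, one_mul]
      _ = _ := by ring
  refine h2.trans ((mul_le_mul_right h1 _).trans ?_)
  have e3 : C * ENNReal.ofReal (ρ / C.toReal) = ENNReal.ofReal ρ := by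
    calc C * ENNReal.ofReal (ρ / C.toReal)
        = ENNReal.ofReal C.toReal * ENNReal.ofReal (ρ / C.toReal) := by
          rw [ENNReal.ofReal_toReal hCt]
      _ = ENNReal.ofReal ρ := by
          rw [← ENNReal.ofReal_mul hCr.le]
          congr 1
          field_simp
  calc _ = (muE ε)⁻¹ * (C * ∫⁻ c, sumJ Φ ε T L (Θ c) (F c) ∂(GC.PP f₀ ε)) +
        C * ENNReal.ofReal (ρ / C.toReal) := by ring
    _ ≤ _ := by
        rw [e3]
        refine add_le_add ?_ le_rfl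
        rw [← lintegral_const_mul' _ _ hCt, ← lintegral_const_mul' _ _ hmut]
        refine lintegral_mono_ae ?_
        filter_upwards [hΘ] with c hc
        have := hc.fin
        have hFz : Measurable fun p : Ph × (CTree × CTree) => gw b' p.1.2 *
            (ind (hitF Φ ε t p.1 p.2.1) * k (wS (GC.pts c)) (rsrc Φ ε p.2.2)
              (p.1, ln Φ ε p.2.1) p.2.1.depth) :=
          hk.int hΦ hε (measurable_const (a := c)) measurable_fst measurable_snd.fst
            measurable_snd.snd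
        calc (muE ε)⁻¹ * (C * sumJ Φ ε T L (Θ c) (F c))
            ≤ (muE ε)⁻¹ * (C * sumJ Φ ε t L (Θ c) (fun S x => C⁻¹ * G c S x)) :=
              mul_le_mul_right (mul_le_mul_right sumJ_cut _) _
          _ = (C * C⁻¹) * (((muE ε)⁻¹ * muE ε) * sumJ Φ ε t L (Θ c)
                (fun S x => fxK Φ ε b' t k (wS (GC.pts c)) S x)) := by
              rw [sumJ_const_mul hCit, hG, sumJ_const_mul muE_ne_top]
              ring
          _ = sumJ Φ ε t L (Θ c) (fun S x => fxK Φ ε b' t k (wS (GC.pts c)) S x) := by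
              rw [hCi, hmi, one_mul, one_mul]
          _ = _ := by
              have e4 := sumJ_lintegral (L := L) (t := t) hΦ hε (Θ := Θ c)
                (ν := (volume : Measure Ph)) (F := fun z S x => gw b' z.2 *
                (ind (hitF Φ ε t z S) * k (wS (GC.pts c)) (rsrc Φ ε x)
                  (z, ln Φ ε S) S.depth)) hFz
              refine e4.trans (lintegral_congr fun z => ?_)
              exact sumJ_const_mul ENNReal.ofReal_ne_top

end Vale.Agent.P119.PB
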