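import Vale.Agent.P119.PB.PairsX
import Vale.Agent.P119.PB.PairsPP

/-!
# P119, block PROB: sums over the exhausts of two alive trees, in the gas (`helper298`)

`prod_PP`: the sums over the exhausts of two alive trees whose lines hit each other are at most the
sums with independent typical pieces, up to an error which vanishes with `ε`.
-/

open MeasureTheory Filter Topology Set
open scoped ENNReal NNReal

noncomputable section

namespace Vale.Agent.P119.PB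

open M CTree KU FB RB AU EX

variable {Φ : E3 → ℝ} {ε b b₀ T M₀ κ : ℝ} {L : ℕ} {f₀ : Ph → ℝ} {m : ℕ → ℝ}

/-- The constant of the errors. -/
def errX (b T : ℝ) (K : ℝ≥0∞) (q L : ℕ) : ℝ≥0∞ :=
  (L + 1 : ℕ) * (2 * (2 ^ L * 2 ^ L * (K * M.CH (b / 2) T q) * M.errC (b / 2) T K (q + 1) L))

theorem CH_ne_top (hb : 0 < b) (q : ℕ) : M.CH b T q ≠ ∞ :=
  ENNReal.mul_ne_top ENNReal.ofReal_ne_top (ENNReal.mul_ne_top ENNReal.ofReal_ne_top
    (FL.I0_ne_top (half_pos hb)))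

theorem errX_ne_top (hb : 0 < b) {K : ℝ≥0∞} (hK : K ≠ ∞) (q L : ℕ) : errX b T K q L ≠ ∞ := by
  have h2 : (2 : ℝ≥0∞) ≠ ∞ := by norm_num
  have h3 : ∀ n : ℕ, (2 : ℝ≥0∞) ^ n ≠ ∞ := fun n => ENNReal.pow_ne_top h2
  exact ENNReal.mul_ne_top (ENNReal.natCast_ne_top _) (ENNReal.mul_ne_top h2
    (ENNReal.mul_ne_top (ENNReal.mul_ne_top (ENNReal.mul_ne_top (h3 L) (h3 L))
      (ENNReal.mul_ne_top hK (CH_ne_top (half_pos hb) q))) (M.errC_ne_top (half_pos hb) hK _ L)))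

/-- **Sums over the exhausts of two trees, in a world.** -/
theorem prod_pt (hΦ : IsPotential Φ) (hε : 0 < ε) (h₀ : GoodDatum f₀ κ) (hb : 0 < b)
    [IsFiniteMeasure (dmeas m)] {K : ℝ≥0∞}
    (hK : LineLaw Φ ε (b / 2) K ((tree (GC.inten f₀ ε) L).restrict (okT Φ ε T L)))
    (c : GC.Conf Ph) {aty : Measure Src} [IsFiniteMeasure aty]
    (h : ∀ F : Src → ℝ≥0∞, Measurable F →
      ∫⁻ S in Als Φ ε L T (wS (GC.pts c)), F (rsrc Φ ε S) ∂(tree (GC.inten f₀ ε) L) ≤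
        FL.muE ε * (∫⁻ σ, F σ ∂(refM b T (dmeas m)) + ∫⁻ σ, F σ ∂aty)) (q : ℕ) :
    ∃ Θ : Measure CTree, TypLaw Φ ε b T m Θ ∧
      ∀ F : CTree → CTree → CTree → CTree → ℝ≥0∞,
        (Measurable fun p : (CTree × CTree) × CTree × CTree => F p.1.1 p.1.2 p.2.1 p.2.2) →
        (∀ x ∈ Als Φ ε L T (wS (GC.pts c)), ∀ y ∈ Als Φ ε L T (wS (GC.pts c)), ∀ e m,
          F x y e m ≤ M.hI ε T (ln Φ ε x, ln Φ ε y) *
            (Cap.pw q (ln Φ ε x).2 * Cap.pw q (ln Φ ε y).2)) →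
        ∫⁻ x in Als Φ ε L T (wS (GC.pts c)), ∫⁻ y in Als Φ ε L T (wS (GC.pts c)),
            exsum x (fun e => exsum y fun m => F x y e m)
            ∂(tree (GC.inten f₀ ε) L) ∂(tree (GC.inten f₀ ε) L) ≤
          sumX Φ ε T L Θ F + errX b T K q L * errW Φ f₀ ε T L (q + 1 + L) aty c := by
  have hfin : IsFiniteMeasure (GC.inten f₀ ε) := GC.isFiniteMeasure_inten h₀
  obtain ⟨g, hs, hty, hat⟩ := exists_typ_als (b := b) hΦ hε h₀ c h
  set α : Measure Ph := (FL.muE ε • aty).map fun σ : Src => σ.2.1 with hα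
  have hmp : Measurable fun σ : Src => σ.2.1 := measurable_fst.comp measurable_snd
  have hαF : ∀ F : Ph → ℝ≥0∞, Measurable F →
      ∫⁻ z, F z ∂α = FL.muE ε * ∫⁻ σ, F σ.2.1 ∂aty := fun F hF => by
    rw [hα, lintegral_map hF hmp, lintegral_smul_measure, smul_eq_mul]
  have hα1 : ∀ F : Ph → ℝ≥0∞, Measurable F →
      ∫⁻ S in Als Φ ε L T (wS (GC.pts c)), (1 - g S) * F (ln Φ ε S)
        ∂(tree (GC.inten f₀ ε) L) ≤ ∫⁻ z, F z ∂α := fun F hF => by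
    rw [hαF F hF]
    exact hat (fun σ => F σ.2.1) (hF.comp hmp)
  have hE : (∫⁻ S in bad1 (Als Φ ε L T (wS (GC.pts c))), Cap.pw (q + 1 + L) (ln Φ ε S).2
      ∂(tree (GC.inten f₀ ε) L) + ∫⁻ z, Cap.pw (q + 1 + L) z.2 ∂α) ≤
      errW Φ f₀ ε T L (q + 1 + L) aty c := by
    have hpm : Measurable fun z : Ph => Cap.pw (q + 1 + L) z.2 :=
      (M.measurable_pw' (q + 1 + L)).comp measurable_snd
    rw [hαF _ hpm]
    exact add_le_add (lintegral_mono_set (bad1_subset_I1 hΦ hε c)) le_rfl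
  refine ⟨typT (Als Φ ε L T (wS (GC.pts c))) g (tree (GC.inten f₀ ε) L), hty,
    fun F hFm hF => ?_⟩
  refine (M.prod_le hs (half_pos hb) hK hFm hF hα1).trans (add_le_add le_rfl ?_)
  calc ((L + 1 : ℕ) : ℝ≥0∞) * (2 * (2 ^ L * 2 ^ L * (K * M.CH (b / 2) T q) *
        (M.errC (b / 2) T K (q + 1) L *
        (∫⁻ S in bad1 (Als Φ ε L T (wS (GC.pts c))), Cap.pw (q + 1 + L) (ln Φ ε S).2
          ∂(tree (GC.inten f₀ ε) L) + ∫⁻ z, Cap.pw (q + 1 + L) z.2 ∂α))))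
      ≤ ((L + 1 : ℕ) : ℝ≥0∞) * (2 * (2 ^ L * 2 ^ L * (K * M.CH (b / 2) T q) *
        (M.errC (b / 2) T K (q + 1) L * errW Φ f₀ ε T L (q + 1 + L) aty c))) := by gcongr
    _ = errX b T K q L * errW Φ f₀ ε T L (q + 1 + L) aty c := by unfold errX; ring

/-- **Sums over the exhausts of two alive trees, in the gas.** -/
theorem prod_PP (hΦ : IsPotential Φ) (h₀ : GoodDatum f₀ κ) (hb : 0 < b) (hbb : b ≤ b₀)
    (hM : 0 ≤ M₀) (hf : ∀ z, f₀ z ≤ M₀ * Real.exp (-b₀ * ‖z.2‖ ^ 2)) (hT : 0 ≤ T)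
    [IsFiniteMeasure (dmeas m)] (hcap : CapH Φ f₀ L T b m) (hI1 : Cap.InI1 Φ f₀ L T) (q : ℕ)
    {ρ : ℝ} (hρ : 0 < ρ) :
    ∀ᶠ ε in 𝓝[>] (0 : ℝ), ∃ Θ : GC.Conf Ph → Measure CTree,
      (∀ᵐ c ∂(GC.PP f₀ ε), TypLaw Φ ε b T m (Θ c)) ∧
      ∀ F : GC.Conf Ph → CTree → CTree → CTree → CTree → ℝ≥0∞,
        (∀ c, Measurable fun p : (CTree × CTree) × CTree × CTree =>
          F c p.1.1 p.1.2 p.2.1 p.2.2) →
        (∀ c, ∀ x ∈ Als Φ ε L T (wS (GC.pts c)), ∀ y ∈ Als Φ ε L T (wS (GC.pts c)), ∀ e m,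
          F c x y e m ≤ M.hI ε T (ln Φ ε x, ln Φ ε y) *
            (Cap.pw q (ln Φ ε x).2 * Cap.pw q (ln Φ ε y).2)) →
        (FL.muE ε)⁻¹ * ∫⁻ c, (∫⁻ x in Als Φ ε L T (wS (GC.pts c)),
            ∫⁻ y in Als Φ ε L T (wS (GC.pts c)), exsum x (fun e => exsum y fun m => F c x y e m)
            ∂(tree (GC.inten f₀ ε) L) ∂(tree (GC.inten f₀ ε) L)) ∂(GC.PP f₀ ε) ≤
          (FL.muE ε)⁻¹ * ∫⁻ c, sumX Φ ε T L (Θ c) (F c) ∂(GC.PP f₀ ε) + ENNReal.ofReal ρ := by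
  obtain ⟨K, hK, hcr⟩ := lineLaw_crude (L := L) hΦ h₀ (hb.trans_le hbb) hbb hT hM hf
  obtain ⟨aty, ha1, ha2, ha3, ha4⟩ := hcap
  have hA : errX b T K q L ≠ ∞ := errX_ne_top hb hK q L
  have hρ2 : 0 < ρ / 2 := half_pos hρ
  filter_upwards [eventually_const_mul_le (ha4 (q + 1 + L)) hA hρ2,
    eventually_const_mul_le (hI1 (q + 1 + L)) hA hρ2,
    eventually_const_mul_le (ha4 0) ENNReal.one_ne_top one_pos,
    self_mem_nhdsWithin] with ε e1 e2 e3 hε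
  have hε : 0 < ε := hε
  have hfin : IsFiniteMeasure (GC.inten f₀ ε) := GC.isFiniteMeasure_inten h₀
  have hmu : FL.muE ε ≠ ∞ := FL.muE_ne_top
  have hmi : (FL.muE ε)⁻¹ * FL.muE ε = 1 :=
    ENNReal.inv_mul_cancel (ML.muE_ne_zero hε) hmu
  have hae : ∀ᵐ c ∂(GC.PP f₀ ε), ∫⁻ σ, vp 0 σ ∂(aty ε c) < ∞ := by
    refine ae_lt_top (ha2 ε hε 0) (ne_top_of_le_ne_top (ENNReal.ofReal_ne_top (r := 1)) ?_)
    rw [one_mul] at e3
    exact e3
  set P : GC.Conf Ph → Measure CTree → Prop := fun c Θ => TypLaw Φ ε b T m Θ ∧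
      ∀ F : CTree → CTree → CTree → CTree → ℝ≥0∞,
        (Measurable fun p : (CTree × CTree) × CTree × CTree => F p.1.1 p.1.2 p.2.1 p.2.2) →
        (∀ x ∈ Als Φ ε L T (wS (GC.pts c)), ∀ y ∈ Als Φ ε L T (wS (GC.pts c)), ∀ e m,
          F x y e m ≤ M.hI ε T (ln Φ ε x, ln Φ ε y) *
            (Cap.pw q (ln Φ ε x).2 * Cap.pw q (ln Φ ε y).2)) →
        ∫⁻ x in Als Φ ε L T (wS (GC.pts c)), ∫⁻ y in Als Φ ε L T (wS (GC.pts c)),
            exsum x (fun e => exsum y fun m => F x y e m)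
            ∂(tree (GC.inten f₀ ε) L) ∂(tree (GC.inten f₀ ε) L) ≤
          sumX Φ ε T L Θ F + errX b T K q L * errW Φ f₀ ε T L (q + 1 + L) (aty ε c) c with hP
  have hpt : ∀ᵐ c ∂(GC.PP f₀ ε), ∃ Θ : Measure CTree, P c Θ := by
    filter_upwards [ha3 ε hε, hae] with c hc hcf
    have : IsFiniteMeasure (aty ε c) := by
      refine ⟨lt_of_le_of_lt (le_of_eq ?_) hcf⟩
      rw [← lintegral_one]
      refine lintegral_congr fun σ => ?_
      unfold vp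
      rw [pow_zero, ENNReal.ofReal_one]
    exact prod_pt hΦ hε h₀ hb (hcr ε hε) c hc q
  have hEm : Measurable fun c => errX b T K q L * errW Φ f₀ ε T L (q + 1 + L) (aty ε c) c :=
    (measurable_errW hΦ hε h₀ (q + 1 + L) (ha2 ε hε (q + 1 + L))).const_mul _
  have hE : (FL.muE ε)⁻¹ * ∫⁻ c, errX b T K q L * errW Φ f₀ ε T L (q + 1 + L) (aty ε c) c
      ∂(GC.PP f₀ ε) ≤ ENNReal.ofReal ρ := by
    have hm1 : Measurable fun c => FL.muE ε * ∫⁻ σ, vp (q + 1 + L) σ ∂(aty ε c) :=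
      (ha2 ε hε (q + 1 + L)).const_mul _
    rw [lintegral_const_mul' _ _ hA]
    unfold errW
    rw [lintegral_add_right _ hm1, lintegral_const_mul' _ _ hmu]
    calc (FL.muE ε)⁻¹ * (errX b T K q L * (∫⁻ c, ∫⁻ S in Cap.I1 Φ ε L T (GC.pts c : Set Ph),
          Cap.pw (q + 1 + L) (ln Φ ε S).2 ∂(tree (GC.inten f₀ ε) L) ∂(GC.PP f₀ ε) +
          FL.muE ε * ∫⁻ c, ∫⁻ σ, vp (q + 1 + L) σ ∂(aty ε c) ∂(GC.PP f₀ ε)))
        = errX b T K q L * ((FL.muE ε)⁻¹ * ∫⁻ c, ∫⁻ S in Cap.I1 Φ ε L T (GC.pts c : Set Ph),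
          Cap.pw (q + 1 + L) (ln Φ ε S).2 ∂(tree (GC.inten f₀ ε) L) ∂(GC.PP f₀ ε)) +
          errX b T K q L * (((FL.muE ε)⁻¹ * FL.muE ε) *
            ∫⁻ c, ∫⁻ σ, vp (q + 1 + L) σ ∂(aty ε c) ∂(GC.PP f₀ ε)) := by ring
      _ ≤ ENNReal.ofReal (ρ / 2) + ENNReal.ofReal (ρ / 2) := by
          rw [hmi, one_mul]
          exact add_le_add e2 e1
      _ = ENNReal.ofReal ρ := by rw [← ENNReal.ofReal_add hρ2.le hρ2.le, add_halves]
  classical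
  set Θ : GC.Conf Ph → Measure CTree := fun c =>
    if h : ∃ Θ : Measure CTree, P c Θ then h.choose else 0 with hΘ
  have hΘs : ∀ᵐ c ∂(GC.PP f₀ ε), P c (Θ c) := by
    filter_upwards [hpt] with c hc
    rw [hΘ]
    simp only [dif_pos hc]
    exact hc.choose_spec
  refine ⟨Θ, hΘs.mono fun c hc => hc.1, fun F hFm hF => ?_⟩
  refine le_trans (mul_le_mul_right (lintegral_mono_ae (g := fun c =>
    sumX Φ ε T L (Θ c) (F c) + errX b T K q L *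
      errW Φ f₀ ε T L (q + 1 + L) (aty ε c) c) ?_) _) ?_
  · filter_upwards [hΘs] with c hc
    exact hc.2 (F c) (hFm c) (hF c)
  · rw [lintegral_add_right _ hEm, mul_add]
    exact add_le_add le_rfl hE

end Vale.Agent.P119.PB
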