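import Vale.Agent.P119.PB.PairsY
import Vale.Agent.P119.PB.PairsXPP

/-!
# P119, block PROB: sums over the exhausts of one of two alive trees, in the gas (`helper298`)

* `typ_out`: the typical trees `y` whose line hits a line;
* `out_PP`: the sums over the exhausts, and over the pairs of exhausts, of `x`, for two alive trees
  `x`, `y` whose lines hit each other, with `y` integrated out.
-/

open MeasureTheory Filter Topology Set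
open scoped ENNReal NNReal

noncomputable section

namespace Vale.Agent.P119.PB

open M CTree KU FB RB AU EX

variable {Φ : E3 → ℝ} {ε b b₀ T M₀ κ : ℝ} {L : ℕ} {f₀ : Ph → ℝ} {m : ℕ → ℝ}

/-- **The typical trees whose line hits a line.** -/
theorem typ_out (hε : 0 < ε) (hb : 0 < b) (hT : 0 ≤ T) [IsFiniteMeasure (dmeas m)]
    {Θ : Measure CTree} (h : TypLaw Φ ε b T m Θ) (t : ℝ) (q : ℕ) (z : Ph) {W : CTree → ℝ≥0∞}
    (hW : ∀ y, W y ≤ M.hI ε t (z, ln Φ ε y) * Cap.pw q (ln Φ ε y).2) :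
    ∫⁻ y, W y ∂Θ ≤ ENNReal.ofReal (1 + T) * dmeas m univ * (M.CH b t q * Cap.pw 1 z.2) := by
  have hm : Measurable fun a : Ph => M.hI ε t (z, a) * Cap.pw q a.2 :=
    (M.measurable_hI.comp measurable_prodMk_left).mul ((M.measurable_pw' q).comp measurable_snd)
  have hF : Measurable fun σ : Src => M.hI ε t (z, σ.2.1) * Cap.pw q σ.2.1.2 :=
    hm.comp (measurable_fst.comp measurable_snd)
  have h1 := h.le _ hF
  refine (lintegral_mono hW).trans (h1.trans ?_)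
  refine (mul_le_mul_right (lintegral_refM_le hT (dmeas m) hF
    (G := fun a => M.hI ε t (z, a) * Cap.pw q a.2) fun s _ a n => le_rfl) _).trans ?_
  have hm2 : Measurable fun a : Ph => gw b a.2 * (M.hI ε t (z, a) * Cap.pw q a.2) :=
    ((measurable_gw b).comp measurable_snd).mul hm
  calc FL.muE ε * (ENNReal.ofReal (1 + T) * dmeas m univ *
        ∫⁻ a : Ph, gw b a.2 * (M.hI ε t (z, a) * Cap.pw q a.2))
      = ENNReal.ofReal (1 + T) * dmeas m univ *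
        (FL.muE ε * ∫⁻ a : Ph, gw b a.2 * (M.hI ε t (z, a) * Cap.pw q a.2)) := by ring
    _ = ENNReal.ofReal (1 + T) * dmeas m univ *
        ∫⁻ a : Ph, FL.muE ε * gw b a.2 * (M.hI ε t (z, a) * Cap.pw q a.2) := by
        rw [← lintegral_const_mul _ hm2]
        simp only [mul_assoc]
    _ ≤ _ := mul_le_mul_right (M.hit_mass_line hε hb q z) _

/-- The weight of the typical trees `y` is at most a power of the velocity of `x`. -/
theorem typ_out_pw (hε : 0 < ε) (hb : 0 < b) (hT : 0 ≤ T) [IsFiniteMeasure (dmeas m)]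
    {Θ : Measure CTree} (h : TypLaw Φ ε b T m Θ) (t : ℝ) (q : ℕ) {x : CTree}
    {W : CTree → ℝ≥0∞} (hW : ∀ y, W y ≤
      M.hI ε t (ln Φ ε x, ln Φ ε y) * (Cap.pw q (ln Φ ε x).2 * Cap.pw q (ln Φ ε y).2))
    (hlm : Measurable (ln Φ ε)) :
    ∫⁻ y, W y ∂Θ ≤ ENNReal.ofReal (1 + T) * dmeas m univ * M.CH b t q *
      Cap.pw (q + 1) (ln Φ ε x).2 := by
  have hm : Measurable fun y : CTree => M.hI ε t (ln Φ ε x, ln Φ ε y) * Cap.pw q (ln Φ ε y).2 :=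
    (M.measurable_hI.comp (measurable_const.prodMk hlm)).mul
      ((M.measurable_pw' q).comp (measurable_snd.comp hlm))
  calc ∫⁻ y, W y ∂Θ ≤ ∫⁻ y, Cap.pw q (ln Φ ε x).2 *
        (M.hI ε t (ln Φ ε x, ln Φ ε y) * Cap.pw q (ln Φ ε y).2) ∂Θ :=
        lintegral_mono fun y => (hW y).trans (le_of_eq (by ring))
    _ = Cap.pw q (ln Φ ε x).2 *
        ∫⁻ y, M.hI ε t (ln Φ ε x, ln Φ ε y) * Cap.pw q (ln Φ ε y).2 ∂Θ :=
        lintegral_const_mul _ hm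
    _ ≤ Cap.pw q (ln Φ ε x).2 * (ENNReal.ofReal (1 + T) * dmeas m univ *
        (M.CH b t q * Cap.pw 1 (ln Φ ε x).2)) :=
        mul_le_mul_right (typ_out hε hb hT h t q (ln Φ ε x) fun y => le_rfl) _
    _ = _ := by rw [M.pw_add]; ring

/-- The constant of the errors. -/
def errY (b T : ℝ) (K : ℝ≥0∞) (q L : ℕ) : ℝ≥0∞ :=
  (3 * L + 2 : ℕ) * (2 * 2 ^ L * 2 ^ L * 2 ^ L * (2 * 1 * (K * M.CH (b / 2) T q)) *
    M.errC (b / 2) T K (q + 1) L) + 2 ^ L * 2 ^ L * (1 * (K * M.CH (b / 2) T q))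

theorem errY_ne_top (hb : 0 < b) {K : ℝ≥0∞} (hK : K ≠ ∞) (q L : ℕ) : errY b T K q L ≠ ∞ := by
  have h2 : (2 : ℝ≥0∞) ≠ ∞ := by norm_num
  have h3 : ∀ n : ℕ, (2 : ℝ≥0∞) ^ n ≠ ∞ := fun n => ENNReal.pow_ne_top h2
  have h4 : K * M.CH (b / 2) T q ≠ ∞ := ENNReal.mul_ne_top hK (CH_ne_top (half_pos hb) q)
  exact ENNReal.add_ne_top.2 ⟨ENNReal.mul_ne_top (ENNReal.natCast_ne_top _)
    (ENNReal.mul_ne_top (ENNReal.mul_ne_top (ENNReal.mul_ne_top (ENNReal.mul_ne_top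
      (ENNReal.mul_ne_top h2 (h3 L)) (h3 L)) (h3 L)) (ENNReal.mul_ne_top (ENNReal.mul_ne_top h2
      ENNReal.one_ne_top) h4)) (M.errC_ne_top (half_pos hb) hK _ L)),
    ENNReal.mul_ne_top (ENNReal.mul_ne_top (h3 L) (h3 L))
      (ENNReal.mul_ne_top ENNReal.one_ne_top h4)⟩

/-- Sums over the exhausts of `x`, for `x`, `y` in `Al` whose lines hit each other, are at most the
sums with independent pieces of law `Θ`, up to the error `E`. -/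
structure OutLe (Φ : E3 → ℝ) (f₀ : Ph → ℝ) (ε T : ℝ) (L q : ℕ) (Al : Set CTree)
    (Θ : Measure CTree) (E : ℝ≥0∞) : Prop where
  joint : ∀ G : CTree → CTree → CTree → ℝ≥0∞,
    (Measurable fun p : (CTree × CTree) × CTree => G p.1.1 p.1.2 p.2) →
    (∀ x ∈ Al, ∀ y ∈ Al, ∀ e, G x y e ≤ M.hI ε T (ln Φ ε x, ln Φ ε y) *
      (Cap.pw q (ln Φ ε x).2 * Cap.pw q (ln Φ ε y).2)) →
    ∫⁻ x in Al, ∫⁻ y in Al, exsum x (fun e => G x y e)
        ∂(tree (GC.inten f₀ ε) L) ∂(tree (GC.inten f₀ ε) L) ≤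
      sumJ Φ ε T L Θ (fun x e => ∫⁻ y, G x y e ∂Θ) + E
  pairs : ∀ W Ψ : CTree → CTree → ℝ≥0∞, (Measurable fun p : CTree × CTree => W p.1 p.2) →
    (∀ x ∈ Al, ∀ y ∈ Al, W x y ≤ M.hI ε T (ln Φ ε x, ln Φ ε y) *
      (Cap.pw q (ln Φ ε x).2 * Cap.pw q (ln Φ ε y).2)) →
    (Measurable fun p : CTree × CTree => Ψ p.1 p.2) → (∀ e m, Ψ e m ≤ 1) →
    ∫⁻ x in Al, ∫⁻ y in Al, W x y *
        exsum x (fun e => exsum x fun m => open Classical in if e = m then 0 else Ψ e m)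
        ∂(tree (GC.inten f₀ ε) L) ∂(tree (GC.inten f₀ ε) L) ≤
      sumA Φ ε T L Θ (fun x => ∫⁻ y, W x y ∂Θ) Ψ +
        sumC Φ ε T L Θ (fun x => ∫⁻ y, W x y ∂Θ) Ψ + E

/-- **Sums over the exhausts of one of two trees, in a world.** -/
theorem out_pt (hΦ : IsPotential Φ) (hε : 0 < ε) (h₀ : GoodDatum f₀ κ) (hb : 0 < b)
    [IsFiniteMeasure (dmeas m)] {K : ℝ≥0∞}
    (hK : LineLaw Φ ε (b / 2) K ((tree (GC.inten f₀ ε) L).restrict (okT Φ ε T L)))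
    (c : GC.Conf Ph) {aty : Measure Src} [IsFiniteMeasure aty]
    (h : ∀ F : Src → ℝ≥0∞, Measurable F →
      ∫⁻ S in Als Φ ε L T (wS (GC.pts c)), F (rsrc Φ ε S) ∂(tree (GC.inten f₀ ε) L) ≤
        FL.muE ε * (∫⁻ σ, F σ ∂(refM b T (dmeas m)) + ∫⁻ σ, F σ ∂aty)) (q : ℕ) :
    ∃ Θ : Measure CTree, TypLaw Φ ε b T m Θ ∧
      OutLe Φ f₀ ε T L q (Als Φ ε L T (wS (GC.pts c))) Θ
        (errY b T K q L * errW Φ f₀ ε T L (q + 1 + L) aty c) := by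
  have hfin : IsFiniteMeasure (GC.inten f₀ ε) := GC.isFiniteMeasure_inten h₀
  obtain ⟨g, hs, hty, hat⟩ := exists_typ_als (b := b) hΦ hε h₀ c h
  set α : Measure Ph := (FL.muE ε • aty).map fun σ : Src => σ.2.1 with hα
  have hmp : Measurable fun σ : Src => σ.2.1 := measurable_fst.comp measurable_snd
  have hαF : ∀ F : Ph → ℝ≥0∞, Measurable F →
      ∫⁻ z, F z ∂α = FL.muE ε * ∫⁻ σ, F σ.2.1 ∂aty := fun F hF => by
    rw [hα, lintegral_map hF hmp, lintegral_smul_measure, smul_eq_mul]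
  have hα1 : ∀ F : Ph → ℝ≥0∞, Measurable F →
      ∫⁻ S in Als Φ ε L T (wS (GC.pts c)), (1 - g S) * F (ln Φ ε S)
        ∂(tree (GC.inten f₀ ε) L) ≤ ∫⁻ z, F z ∂α := fun F hF => by
    rw [hαF F hF]
    exact hat (fun σ => F σ.2.1) (hF.comp hmp)
  have hpm : Measurable fun z : Ph => Cap.pw (q + 1 + L) z.2 :=
    (M.measurable_pw' (q + 1 + L)).comp measurable_snd
  have hE : (∫⁻ S in bad1 (Als Φ ε L T (wS (GC.pts c))), Cap.pw (q + 1 + L) (ln Φ ε S).2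
      ∂(tree (GC.inten f₀ ε) L) + ∫⁻ z, Cap.pw (q + 1 + L) z.2 ∂α) ≤
      errW Φ f₀ ε T L (q + 1 + L) aty c := by
    rw [hαF _ hpm]
    exact add_le_add (lintegral_mono_set (bad1_subset_I1 hΦ hε c)) le_rfl
  have hE' : ∫⁻ z, Cap.pw (q + 1) z.2 ∂α ≤ errW Φ f₀ ε T L (q + 1 + L) aty c := by
    refine le_trans ?_ (le_add_self.trans hE)
    exact lintegral_mono fun z => M.pw_mono (Nat.le_add_right _ _) _
  set EW := errW Φ f₀ ε T L (q + 1 + L) aty c with hEW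
  have h1 : ∀ n : ℕ, (1 : ℝ≥0∞) ≤ 2 ^ n := fun n => one_le_pow₀ (by norm_num)
  refine ⟨typT (Als Φ ε L T (wS (GC.pts c))) g (tree (GC.inten f₀ ε) L), hty,
    ⟨fun G hGm hG => ?_, fun W Ψ hWm hW hΨm hΨ => ?_⟩⟩
  · refine (M.joint2_le hs (half_pos hb) hK hGm hG hα1).trans (add_le_add le_rfl ?_)
    set KC : ℝ≥0∞ := K * M.CH (b / 2) T q with hKC
    set EC : ℝ≥0∞ := M.errC (b / 2) T K (q + 1) L with hEC
    calc ((L + 1 : ℕ) : ℝ≥0∞) * (2 ^ L * KC * (EC *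
          (∫⁻ S in bad1 (Als Φ ε L T (wS (GC.pts c))), Cap.pw (q + 1 + L) (ln Φ ε S).2
            ∂(tree (GC.inten f₀ ε) L) + ∫⁻ z, Cap.pw (q + 1 + L) z.2 ∂α))) +
          2 ^ L * KC * ∫⁻ z, Cap.pw (q + 1) z.2 ∂α
        ≤ ((3 * L + 2 : ℕ) : ℝ≥0∞) * (2 ^ L * KC * (EC * EW)) + 2 ^ L * KC * EW :=
          add_le_add (mul_le_mul' (Nat.cast_le.2 (by omega)) (by gcongr)) (by gcongr)
      _ = (((3 * L + 2 : ℕ) : ℝ≥0∞) * (1 * 2 ^ L * 1 * 1 * (1 * 1 * KC) * EC) +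
          2 ^ L * 1 * (1 * KC)) * EW := by ring
      _ ≤ errY b T K q L * EW := by
          unfold errY
          rw [← hKC, ← hEC]
          have h2 : (1 : ℝ≥0∞) ≤ 2 := one_le_two
          gcongr
          all_goals exact h1 L
  · refine (M.pairs2_le hs (half_pos hb) hK hWm hW hΨm hΨ hα1).trans (add_le_add le_rfl ?_)
    set KC : ℝ≥0∞ := K * M.CH (b / 2) T q with hKC
    set EC : ℝ≥0∞ := M.errC (b / 2) T K (q + 1) L with hEC
    calc ((3 * L + 2 : ℕ) : ℝ≥0∞) * (2 * 2 ^ L * 2 ^ L * 2 ^ L * (2 * 1 * KC) * (EC *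
          (∫⁻ S in bad1 (Als Φ ε L T (wS (GC.pts c))), Cap.pw (q + 1 + L) (ln Φ ε S).2
            ∂(tree (GC.inten f₀ ε) L) + ∫⁻ z, Cap.pw (q + 1 + L) z.2 ∂α))) +
          2 ^ L * 2 ^ L * (1 * KC * ∫⁻ z, Cap.pw (q + 1) z.2 ∂α)
        ≤ ((3 * L + 2 : ℕ) : ℝ≥0∞) * (2 * 2 ^ L * 2 ^ L * 2 ^ L * (2 * 1 * KC) * (EC * EW)) +
          2 ^ L * 2 ^ L * (1 * KC * EW) := by gcongr
      _ = errY b T K q L * EW := by
          unfold errY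
          rw [← hKC, ← hEC]
          ring

/-- **Sums over the exhausts of one of two alive trees, in the gas.** -/
theorem out_PP (hΦ : IsPotential Φ) (h₀ : GoodDatum f₀ κ) (hb : 0 < b) (hbb : b ≤ b₀)
    (hM : 0 ≤ M₀) (hf : ∀ z, f₀ z ≤ M₀ * Real.exp (-b₀ * ‖z.2‖ ^ 2)) (hT : 0 ≤ T)
    [IsFiniteMeasure (dmeas m)] (hcap : CapH Φ f₀ L T b m) (hI1 : Cap.InI1 Φ f₀ L T) (q : ℕ)
    {ρ : ℝ} (hρ : 0 < ρ) :
    ∀ᶠ ε in 𝓝[>] (0 : ℝ), ∃ Θ : GC.Conf Ph → Measure CTree,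
      (∀ᵐ c ∂(GC.PP f₀ ε), TypLaw Φ ε b T m (Θ c)) ∧
      (∀ G : GC.Conf Ph → CTree → CTree → CTree → ℝ≥0∞,
        (∀ c, Measurable fun p : (CTree × CTree) × CTree => G c p.1.1 p.1.2 p.2) →
        (∀ c, ∀ x ∈ Als Φ ε L T (wS (GC.pts c)), ∀ y ∈ Als Φ ε L T (wS (GC.pts c)), ∀ e,
          G c x y e ≤ M.hI ε T (ln Φ ε x, ln Φ ε y) *
            (Cap.pw q (ln Φ ε x).2 * Cap.pw q (ln Φ ε y).2)) →
        (FL.muE ε)⁻¹ * ∫⁻ c, (∫⁻ x in Als Φ ε L T (wS (GC.pts c)),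
            ∫⁻ y in Als Φ ε L T (wS (GC.pts c)), exsum x (fun e => G c x y e)
            ∂(tree (GC.inten f₀ ε) L) ∂(tree (GC.inten f₀ ε) L)) ∂(GC.PP f₀ ε) ≤
          (FL.muE ε)⁻¹ * ∫⁻ c, sumJ Φ ε T L (Θ c) (fun x e => ∫⁻ y, G c x y e ∂(Θ c))
            ∂(GC.PP f₀ ε) + ENNReal.ofReal ρ) ∧
      ∀ W Ψ : GC.Conf Ph → CTree → CTree → ℝ≥0∞,
        (∀ c, Measurable fun p : CTree × CTree => W c p.1 p.2) →
        (∀ c, ∀ x ∈ Als Φ ε L T (wS (GC.pts c)), ∀ y ∈ Als Φ ε L T (wS (GC.pts c)),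
          W c x y ≤ M.hI ε T (ln Φ ε x, ln Φ ε y) *
            (Cap.pw q (ln Φ ε x).2 * Cap.pw q (ln Φ ε y).2)) →
        (∀ c, Measurable fun p : CTree × CTree => Ψ c p.1 p.2) → (∀ c e m, Ψ c e m ≤ 1) →
        (FL.muE ε)⁻¹ * ∫⁻ c, (∫⁻ x in Als Φ ε L T (wS (GC.pts c)),
            ∫⁻ y in Als Φ ε L T (wS (GC.pts c)), W c x y *
            exsum x (fun e => exsum x fun m => open Classical in if e = m then 0 else Ψ c e m)
            ∂(tree (GC.inten f₀ ε) L) ∂(tree (GC.inten f₀ ε) L)) ∂(GC.PP f₀ ε) ≤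
          (FL.muE ε)⁻¹ * ∫⁻ c, (sumA Φ ε T L (Θ c) (fun x => ∫⁻ y, W c x y ∂(Θ c)) (Ψ c) +
            sumC Φ ε T L (Θ c) (fun x => ∫⁻ y, W c x y ∂(Θ c)) (Ψ c)) ∂(GC.PP f₀ ε) +
            ENNReal.ofReal ρ := by
  obtain ⟨K, hK, hcr⟩ := lineLaw_crude (L := L) hΦ h₀ (hb.trans_le hbb) hbb hT hM hf
  obtain ⟨aty, ha1, ha2, ha3, ha4⟩ := hcap
  have hA : errY b T K q L ≠ ∞ := errY_ne_top hb hK q L
  have hρ2 : 0 < ρ / 2 := half_pos hρ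
  filter_upwards [eventually_const_mul_le (ha4 (q + 1 + L)) hA hρ2,
    eventually_const_mul_le (hI1 (q + 1 + L)) hA hρ2,
    eventually_const_mul_le (ha4 0) ENNReal.one_ne_top one_pos,
    self_mem_nhdsWithin] with ε e1 e2 e3 hε
  have hε : 0 < ε := hε
  have hfin : IsFiniteMeasure (GC.inten f₀ ε) := GC.isFiniteMeasure_inten h₀
  have hmu : FL.muE ε ≠ ∞ := FL.muE_ne_top
  have hmi : (FL.muE ε)⁻¹ * FL.muE ε = 1 :=
    ENNReal.inv_mul_cancel (ML.muE_ne_zero hε) hmu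
  have hae : ∀ᵐ c ∂(GC.PP f₀ ε), ∫⁻ σ, vp 0 σ ∂(aty ε c) < ∞ := by
    refine ae_lt_top (ha2 ε hε 0) (ne_top_of_le_ne_top (ENNReal.ofReal_ne_top (r := 1)) ?_)
    rw [one_mul] at e3
    exact e3
  have hpt : ∀ᵐ c ∂(GC.PP f₀ ε), ∃ Θ : Measure CTree, TypLaw Φ ε b T m Θ ∧
      OutLe Φ f₀ ε T L q (Als Φ ε L T (wS (GC.pts c))) Θ
        (errY b T K q L * errW Φ f₀ ε T L (q + 1 + L) (aty ε c) c) := by
    filter_upwards [ha3 ε hε, hae] with c hc hcf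
    have : IsFiniteMeasure (aty ε c) := by
      refine ⟨lt_of_le_of_lt (le_of_eq ?_) hcf⟩
      rw [← lintegral_one]
      refine lintegral_congr fun σ => ?_
      unfold vp
      rw [pow_zero, ENNReal.ofReal_one]
    exact out_pt hΦ hε h₀ hb (hcr ε hε) c hc q
  have hEm : Measurable fun c => errY b T K q L * errW Φ f₀ ε T L (q + 1 + L) (aty ε c) c :=
    (measurable_errW hΦ hε h₀ (q + 1 + L) (ha2 ε hε (q + 1 + L))).const_mul _
  have hE : (FL.muE ε)⁻¹ * ∫⁻ c, errY b T K q L * errW Φ f₀ ε T L (q + 1 + L) (aty ε c) c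
      ∂(GC.PP f₀ ε) ≤ ENNReal.ofReal ρ := by
    have hm1 : Measurable fun c => FL.muE ε * ∫⁻ σ, vp (q + 1 + L) σ ∂(aty ε c) :=
      (ha2 ε hε (q + 1 + L)).const_mul _
    rw [lintegral_const_mul' _ _ hA]
    unfold errW
    rw [lintegral_add_right _ hm1, lintegral_const_mul' _ _ hmu]
    calc (FL.muE ε)⁻¹ * (errY b T K q L * (∫⁻ c, ∫⁻ S in Cap.I1 Φ ε L T (GC.pts c : Set Ph),
          Cap.pw (q + 1 + L) (ln Φ ε S).2 ∂(tree (GC.inten f₀ ε) L) ∂(GC.PP f₀ ε) +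
          FL.muE ε * ∫⁻ c, ∫⁻ σ, vp (q + 1 + L) σ ∂(aty ε c) ∂(GC.PP f₀ ε)))
        = errY b T K q L * ((FL.muE ε)⁻¹ * ∫⁻ c, ∫⁻ S in Cap.I1 Φ ε L T (GC.pts c : Set Ph),
          Cap.pw (q + 1 + L) (ln Φ ε S).2 ∂(tree (GC.inten f₀ ε) L) ∂(GC.PP f₀ ε)) +
          errY b T K q L * (((FL.muE ε)⁻¹ * FL.muE ε) *
            ∫⁻ c, ∫⁻ σ, vp (q + 1 + L) σ ∂(aty ε c) ∂(GC.PP f₀ ε)) := by ring
      _ ≤ ENNReal.ofReal (ρ / 2) + ENNReal.ofReal (ρ / 2) := by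
          rw [hmi, one_mul]
          exact add_le_add e2 e1
      _ = ENNReal.ofReal ρ := by rw [← ENNReal.ofReal_add hρ2.le hρ2.le, add_halves]
  classical
  set Θ : GC.Conf Ph → Measure CTree := fun c => if h : ∃ Θ : Measure CTree,
      TypLaw Φ ε b T m Θ ∧ OutLe Φ f₀ ε T L q (Als Φ ε L T (wS (GC.pts c))) Θ
        (errY b T K q L * errW Φ f₀ ε T L (q + 1 + L) (aty ε c) c) then h.choose else 0 with hΘ
  have hΘs : ∀ᵐ c ∂(GC.PP f₀ ε), TypLaw Φ ε b T m (Θ c) ∧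
      OutLe Φ f₀ ε T L q (Als Φ ε L T (wS (GC.pts c))) (Θ c)
        (errY b T K q L * errW Φ f₀ ε T L (q + 1 + L) (aty ε c) c) := by
    filter_upwards [hpt] with c hc
    rw [hΘ]
    simp only [dif_pos hc]
    exact hc.choose_spec
  have fin : ∀ X Y : GC.Conf Ph → ℝ≥0∞, (∀ᵐ c ∂(GC.PP f₀ ε), X c ≤ Y c +
      errY b T K q L * errW Φ f₀ ε T L (q + 1 + L) (aty ε c) c) →
      (FL.muE ε)⁻¹ * ∫⁻ c, X c ∂(GC.PP f₀ ε) ≤
        (FL.muE ε)⁻¹ * ∫⁻ c, Y c ∂(GC.PP f₀ ε) + ENNReal.ofReal ρ := by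
    intro X Y h
    refine le_trans (mul_le_mul_right (lintegral_mono_ae h) _) ?_
    rw [lintegral_add_right _ hEm, mul_add]
    exact add_le_add le_rfl hE
  refine ⟨Θ, hΘs.mono fun c hc => hc.1, fun G hGm hG => fin _ _ ?_,
    fun W Ψ hWm hW hΨm hΨ => fin _ _ ?_⟩
  · filter_upwards [hΘs] with c hc
    exact hc.2.joint (G c) (hGm c) (hG c)
  · filter_upwards [hΘs] with c hc
    exact hc.2.pairs (W c) (Ψ c) (hWm c) (hW c) (hΨm c) (hΨ c)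

end Vale.Agent.P119.PB
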