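import Vale.Agent.P119.PB.TopP
import Vale.Agent.P119.PB.P8a
import Vale.Agent.P119.PB.PairsYPP

/-!
# P119, block PROB, P8: the colliding pairs, the typical pieces (`helper776`)

* `P9a_PP`, `P9b_PP`, `P9c_PP`: the functionals `P9a`, `P9b`, `P9c` are bounded by sums with
  independent typical pieces, up to `ρ`, uniformly in `t ≤ T` and in the function `ψ ≤ 1`.
-/

open MeasureTheory Filter Topology Set
open scoped ENNReal NNReal

noncomputable section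

namespace Vale.Agent.P119.PB

open M CTree KU FB RB AU FL TL EX

variable {Φ : E3 → ℝ} {ε : ℝ} {L : ℕ} {t b T : ℝ} {f₀ : Ph → ℝ} {κ : ℝ} {x y : CTree}

/-! ### Monotonicity of the sums -/

theorem sumA_mono {Θ : Measure CTree} {R R' : CTree → ℝ≥0∞} {Ψ : CTree → CTree → ℝ≥0∞}
    (h : ∀ x, R x ≤ R' x) : sumA Φ ε t L Θ R Ψ ≤ sumA Φ ε t L Θ R' Ψ :=
  ENNReal.tsum_le_tsum fun _ => ENNReal.tsum_le_tsum fun _ => lintegral_mono fun _ =>
    lintegral_mono fun _ => lintegral_mono fun _ =>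
      indicator_le_indicator (mul_le_mul_left (h _) _)

theorem sumC_mono {Θ : Measure CTree} {R R' : CTree → ℝ≥0∞} {Ψ : CTree → CTree → ℝ≥0∞}
    (h : ∀ x, R x ≤ R' x) : sumC Φ ε t L Θ R Ψ ≤ sumC Φ ε t L Θ R' Ψ :=
  ENNReal.tsum_le_tsum fun _ => ENNReal.tsum_le_tsum fun _ => ENNReal.tsum_le_tsum fun _ =>
    lintegral_mono fun _ => lintegral_mono fun _ => lintegral_mono fun _ =>
      indicator_le_indicator (mul_le_mul_left (h _) _)

theorem okT_const {k : ℝ≥0∞} {S : CTree} {x : ℝ≥0∞} :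
    (okT Φ ε t L).indicator (fun _ => k * x) S = k * (okT Φ ε t L).indicator (fun _ => x) S := by
  by_cases h : S ∈ okT Φ ε t L
  · rw [indicator_of_mem h, indicator_of_mem h]
  · rw [indicator_of_notMem h, indicator_of_notMem h, mul_zero]

theorem sumA_const_mul {Θ : Measure CTree} {k : ℝ≥0∞} (hk : k ≠ ∞) {R : CTree → ℝ≥0∞}
    {Ψ : CTree → CTree → ℝ≥0∞} :
    sumA Φ ε t L Θ (fun S => k * R S) Ψ = k * sumA Φ ε t L Θ R Ψ := by
  unfold sumA
  rw [← ENNReal.tsum_mul_left]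
  refine tsum_congr fun _ => ?_
  rw [← ENNReal.tsum_mul_left]
  refine tsum_congr fun _ => ?_
  rw [← lintegral_const_mul' _ _ hk]
  refine lintegral_congr fun _ => ?_
  rw [← lintegral_const_mul' _ _ hk]
  refine lintegral_congr fun _ => ?_
  rw [← lintegral_const_mul' _ _ hk]
  refine lintegral_congr fun _ => ?_
  rw [← okT_const]
  simp only [mul_assoc]

theorem sumC_const_mul {Θ : Measure CTree} {k : ℝ≥0∞} (hk : k ≠ ∞) {R : CTree → ℝ≥0∞}
    {Ψ : CTree → CTree → ℝ≥0∞} :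
    sumC Φ ε t L Θ (fun S => k * R S) Ψ = k * sumC Φ ε t L Θ R Ψ := by
  unfold sumC
  rw [← ENNReal.tsum_mul_left]
  refine tsum_congr fun _ => ?_
  rw [← ENNReal.tsum_mul_left]
  refine tsum_congr fun _ => ?_
  rw [← ENNReal.tsum_mul_left]
  refine tsum_congr fun _ => ?_
  rw [← lintegral_const_mul' _ _ hk]
  refine lintegral_congr fun _ => ?_
  rw [← lintegral_const_mul' _ _ hk]
  refine lintegral_congr fun _ => ?_
  rw [← lintegral_const_mul' _ _ hk]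
  refine lintegral_congr fun _ => ?_
  rw [← okT_const]
  simp only [mul_assoc]

theorem exsum_comm {x y : CTree} {f : CTree → CTree → ℝ≥0∞} :
    (exsum x fun e => exsum y fun m => f e m) = exsum y fun m => exsum x fun e => f e m := by
  classical
  have h : ∀ (x y : CTree) (f : CTree → CTree → ℝ≥0∞), (exsum x fun e => exsum y fun m => f e m) =
      ∑' e, ∑' m, if e ∈ TL.exs x ∧ m ∈ TL.exs y then f e m else 0 := by
    intro x y f
    unfold exsum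
    refine tsum_congr fun e => ?_
    by_cases he : e ∈ TL.exs x
    · rw [if_pos he]
      refine tsum_congr fun m => ?_
      by_cases hm : m ∈ TL.exs y
      · rw [if_pos hm, if_pos ⟨he, hm⟩]
      · rw [if_neg hm, if_neg fun h => hm h.2]
    · rw [if_neg he]
      refine (ENNReal.tsum_eq_zero.2 fun m => ?_).symm
      rw [if_neg fun h => he h.1]
  rw [h, h, ENNReal.tsum_comm]
  refine tsum_congr fun m => tsum_congr fun e => ?_
  by_cases he : e ∈ TL.exs x ∧ m ∈ TL.exs y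
  · rw [if_pos he, if_pos he.symm]
  · rw [if_neg he, if_neg fun h => he h.symm]

/-- Restriction of `sumX` to the times at most `t`. -/
theorem sumX_cut {Θ : Measure CTree} {F : CTree → CTree → CTree → CTree → ℝ≥0∞}
    (hF : ∀ x y e m, F x y e m ≠ 0 → ext Φ ε x ≤ t ∧ ext Φ ε y ≤ t) :
    M.sumX Φ ε T L Θ F ≤ M.sumX Φ ε t L Θ F := by
  refine ENNReal.tsum_le_tsum fun i => ENNReal.tsum_le_tsum fun i' => lintegral_mono fun q =>
    lintegral_mono fun q' => ?_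
  by_cases h0 : F (top q) (top q') (exh q) (exh q') = 0
  · have e : ∀ t : ℝ, (okT Φ ε t L).indicator (fun _ => (okT Φ ε t L).indicator
        (fun _ => F (top q) (top q') (exh q) (exh q')) (top q')) (top q) = 0 := by
      intro t
      by_cases h1 : top q ∈ okT Φ ε t L
      · by_cases h2 : top q' ∈ okT Φ ε t L
        · rw [indicator_of_mem h1, indicator_of_mem h2, h0]
        · rw [indicator_of_mem h1, indicator_of_notMem h2]
      · rw [indicator_of_notMem h1]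
    simp only [e]
    exact le_rfl
  · obtain ⟨g1, g2⟩ := hF _ _ _ _ h0
    by_cases h1 : top q ∈ okT Φ ε T L
    · by_cases h2 : top q' ∈ okT Φ ε T L
      · simp only
        rw [indicator_of_mem h1, indicator_of_mem h2,
          indicator_of_mem (show top q ∈ okT Φ ε t L from ⟨h1.1, g1, h1.2.2⟩),
          indicator_of_mem (show top q' ∈ okT Φ ε t L from ⟨h2.1, g2, h2.2.2⟩)]
      · simp only
        rw [indicator_of_mem h1, indicator_of_notMem h2]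
        exact zero_le
    · simp only
      rw [indicator_of_notMem h1]
      exact zero_le

theorem wC_ne {x y : CTree} (h : wC Φ ε L t x y ≠ 0) :
    ok Φ ε (node x y) ∧ (node x y).depth ≤ L ∧ sig Φ ε (node x y) ≤ t := by
  by_contra hcon
  exact h (by unfold wC; rw [ind_of_not hcon, mul_zero])

theorem wC_ext {x y : CTree} (h : wC Φ ε L t x y ≠ 0) : ext Φ ε x ≤ t ∧ ext Φ ε y ≤ t := by
  obtain ⟨⟨-, -, -, -, -, h6, h7⟩, -, h8⟩ := wC_ne h
  have h9 : hitT ε (ln Φ ε x, ln Φ ε y) ≤ t := h8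
  exact ⟨(h6.trans_le h9).le, (h7.trans_le h9).le⟩

theorem wC_cut : wC Φ ε L t x y = ind (ext Φ ε x ≤ t) * wC Φ ε L t x y := by
  by_cases h : wC Φ ε L t x y = 0
  · rw [h, mul_zero]
  · rw [ind_of (wC_ext h).1, one_mul]

theorem wC_le_T (hΦ : IsPotential Φ) (hε : 0 < ε) (htT : t ≤ T) : wC Φ ε L t x y ≤
    M.hI ε T (ln Φ ε x, ln Φ ε y) * (Cap.pw 2 (ln Φ ε x).2 * Cap.pw 2 (ln Φ ε y).2) :=
  (wC_mono htT).trans (wC_le hΦ hε)

/-! ### Horizon `T` -/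

theorem Als_mono {U : Finset Src} (htT : t ≤ T) : Als Φ ε L t U ⊆ Als Φ ε L T U :=
  fun _ h => alT_mono_t htT h

/-- `X2` with the horizon `t ≤ T` as an integral over the alive trees at the time `T`. -/
theorem X2_le_als (htT : t ≤ T) (H : Finset Src → CTree → CTree → ℝ≥0∞) :
    X2 Φ ε L f₀ t H ≤ ∫⁻ c, (∫⁻ x in Als Φ ε L T (wS (GC.pts c)),
      ∫⁻ y in Als Φ ε L T (wS (GC.pts c)), wC Φ ε L t x y * H (wS (GC.pts c)) x y
        ∂(tree (GC.inten f₀ ε) L) ∂(tree (GC.inten f₀ ε) L)) ∂(GC.PP f₀ ε) := by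
  unfold X2
  refine lintegral_mono fun c => (lintegral_mono_set (Als_mono htT)).trans ?_
  exact lintegral_mono fun x => lintegral_mono_set (Als_mono htT)

section main

variable {m : ℕ → ℝ}

/-- The constant. -/
def C9 (b T : ℝ) (m : ℕ → ℝ) : ℝ≥0∞ := ENNReal.ofReal (1 + T) * dmeas m univ * M.CH b T 2

theorem C9_ne_top (hb : 0 < b) [IsFiniteMeasure (dmeas m)] : C9 b T m ≠ ∞ :=
  ENNReal.mul_ne_top (ENNReal.mul_ne_top ENNReal.ofReal_ne_top (measure_ne_top _ _))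
    (CH_ne_top hb 2)

/-- The weight, integrated over the typical trees `y`. -/
theorem int_wC_le (hΦ : IsPotential Φ) (hε : 0 < ε) (hb : 0 < b) (hT : 0 ≤ T)
    [IsFiniteMeasure (dmeas m)] {Θ : Measure CTree} (h : TypLaw Φ ε b T m Θ) (htT : t ≤ T) :
    ∫⁻ y, wC Φ ε L t x y ∂Θ ≤ ind (ext Φ ε x ≤ t) * (C9 b T m * Cap.pw 3 (ln Φ ε x).2) := by
  have h1 : ∫⁻ y, wC Φ ε L t x y ∂Θ ≤ C9 b T m * Cap.pw 3 (ln Φ ε x).2 :=
    typ_out_pw hε hb hT h T 2 (fun y => wC_le_T hΦ hε htT) (M.measurable_ln hΦ hε.ne')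
  have h2 : ∫⁻ y, wC Φ ε L t x y ∂Θ = ind (ext Φ ε x ≤ t) * ∫⁻ y, wC Φ ε L t x y ∂Θ := by
    rw [← lintegral_const_mul' _ _ ((ind_le_one _).trans_lt ENNReal.one_lt_top).ne]
    exact lintegral_congr fun y => wC_cut
  rw [h2]
  exact mul_le_mul_right h1 _

open Classical in
/-- **(i) with independent typical pieces.** -/
theorem P9a_PP (hΦ : IsPotential Φ) (h₀ : GoodDatum f₀ κ) (hb : 0 < b) {b₀ M₀ : ℝ} (hbb : b ≤ b₀)
    (hM : 0 ≤ M₀) (hf : ∀ z, f₀ z ≤ M₀ * Real.exp (-b₀ * ‖z.2‖ ^ 2)) (hT : 0 ≤ T)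
    [IsFiniteMeasure (dmeas m)] (hcap : CapH Φ f₀ L T b m) (hI1 : Cap.InI1 Φ f₀ L T)
    {ρ : ℝ} (hρ : 0 < ρ) :
    ∀ᶠ ε in 𝓝[>] (0 : ℝ), ∃ Θ : GC.Conf Ph → Measure CTree,
      (∀ᵐ c ∂(GC.PP f₀ ε), TypLaw Φ ε b T m (Θ c)) ∧
      ∀ (ψ : Finset Src → Src → Src → ℝ≥0∞), MW ψ → (∀ V e m, ψ V e m ≤ 1) → ∀ t ≤ T,
      P9a Φ ε L f₀ t ψ ≤ C9 b T m * ((muE ε)⁻¹ * ∫⁻ c,
        (sumA Φ ε t L (Θ c) (fun x => Cap.pw 3 (ln Φ ε x).2) (fun x y =>
            ψ (wS (GC.pts c)) (rsrc Φ ε x) (rsrc Φ ε y)) +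
          sumC Φ ε t L (Θ c) (fun x => Cap.pw 3 (ln Φ ε x).2) (fun x y =>
            ψ (wS (GC.pts c)) (rsrc Φ ε x) (rsrc Φ ε y))) ∂(GC.PP f₀ ε)) +
        ENNReal.ofReal ρ := by
  filter_upwards [out_PP hΦ h₀ hb hbb hM hf hT hcap hI1 2 hρ, self_mem_nhdsWithin]
    with ε hS hε
  have hε : 0 < ε := hε
  obtain ⟨Θ, hΘ, -, hP⟩ := hS
  refine ⟨Θ, hΘ, fun ψ hψ hψ1 t htT => ?_⟩
  have hrs : Measurable fun S : CTree => rsrc Φ ε S := RM.meas_rsrc hΦ hε measurable_id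
  set Ψ : GC.Conf Ph → CTree → CTree → ℝ≥0∞ := fun c x y =>
    ψ (wS (GC.pts c)) (rsrc Φ ε x) (rsrc Φ ε y) with hΨ
  have h1 := hP (fun _ x y => wC Φ ε L t x y) Ψ
    (fun _ => measurable_wC hΦ hε measurable_fst measurable_snd)
    (fun c x _ y _ => wC_le_T hΦ hε htT)
    (fun c => hψ.comp measurable_const (hrs.comp measurable_fst) (hrs.comp measurable_snd))
    (fun c x y => hψ1 _ _ _)
  have h2 : P9a Φ ε L f₀ t ψ ≤ (muE ε)⁻¹ * ∫⁻ c, (∫⁻ x in Als Φ ε L T (wS (GC.pts c)),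
      ∫⁻ y in Als Φ ε L T (wS (GC.pts c)), wC Φ ε L t x y *
        exsum x (fun e => exsum x fun m => if e = m then 0 else Ψ c e m)
        ∂(tree (GC.inten f₀ ε) L) ∂(tree (GC.inten f₀ ε) L)) ∂(GC.PP f₀ ε) := by
    unfold P9a
    refine mul_le_mul_right ((X2_le_als htT _).trans (le_of_eq ?_)) _
    rfl
  refine h2.trans (h1.trans (add_le_add ?_ le_rfl))
  have hC := C9_ne_top (T := T) (m := m) hb
  rw [mul_left_comm, ← lintegral_const_mul' _ _ hC]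
  refine mul_le_mul_right (lintegral_mono_ae ?_) _
  filter_upwards [hΘ] with c hc
  rw [mul_add, ← sumA_const_mul hC, ← sumC_const_mul hC]
  refine add_le_add ?_ ?_
  · refine le_trans (sumA_mono (R' := fun x => ind (ext Φ ε x ≤ t) *
      (C9 b T m * Cap.pw 3 (ln Φ ε x).2)) fun x => int_wC_le hΦ hε hb hT hc htT) ?_
    exact sumA_cut
  · refine le_trans (sumC_mono (R' := fun x => ind (ext Φ ε x ≤ t) *
      (C9 b T m * Cap.pw 3 (ln Φ ε x).2)) fun x => int_wC_le hΦ hε hb hT hc htT) ?_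
    exact sumC_cut

/-- **(iii) with independent typical pieces.** -/
theorem P9c_PP (hΦ : IsPotential Φ) (h₀ : GoodDatum f₀ κ) (hb : 0 < b) {b₀ M₀ : ℝ} (hbb : b ≤ b₀)
    (hM : 0 ≤ M₀) (hf : ∀ z, f₀ z ≤ M₀ * Real.exp (-b₀ * ‖z.2‖ ^ 2)) (hT : 0 ≤ T)
    [IsFiniteMeasure (dmeas m)] (hcap : CapH Φ f₀ L T b m) (hI1 : Cap.InI1 Φ f₀ L T)
    {ρ : ℝ} (hρ : 0 < ρ) :
    ∀ᶠ ε in 𝓝[>] (0 : ℝ), ∃ Θ : GC.Conf Ph → Measure CTree,
      (∀ᵐ c ∂(GC.PP f₀ ε), TypLaw Φ ε b T m (Θ c)) ∧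
      ∀ (φ : Finset Src → Src → Src → Ph → ℝ≥0∞), MWp φ → (∀ V e m z, φ V e m z ≤ 1) → ∀ t ≤ T,
      P9c Φ ε L f₀ t φ ≤ (muE ε)⁻¹ * ∫⁻ c, sumJ Φ ε t L (Θ c) (fun x e =>
        ∫⁻ y, wC Φ ε L t x y * φ (wS (GC.pts c)) (rsrc Φ ε e) (rsrc Φ ε x) (ln Φ ε y) ∂(Θ c))
          ∂(GC.PP f₀ ε) + ENNReal.ofReal ρ := by
  filter_upwards [out_PP hΦ h₀ hb hbb hM hf hT hcap hI1 2 hρ, self_mem_nhdsWithin]
    with ε hS hε
  have hε : 0 < ε := hε
  obtain ⟨Θ, hΘ, hJ, -⟩ := hS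
  refine ⟨Θ, hΘ, fun φ hφ hφ1 t htT => ?_⟩
  have hrs : Measurable fun S : CTree => rsrc Φ ε S := RM.meas_rsrc hΦ hε measurable_id
  have hln : Measurable fun S : CTree => ln Φ ε S := M.measurable_ln hΦ hε.ne'
  set G : GC.Conf Ph → CTree → CTree → CTree → ℝ≥0∞ := fun c x y e =>
    wC Φ ε L t x y * φ (wS (GC.pts c)) (rsrc Φ ε e) (rsrc Φ ε x) (ln Φ ε y) with hG
  have hGm : ∀ c, Measurable fun p : (CTree × CTree) × CTree => G c p.1.1 p.1.2 p.2 := by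
    intro c
    exact (measurable_wC hΦ hε measurable_fst.fst measurable_fst.snd).mul
      (hφ.comp measurable_const (hrs.comp measurable_snd) (hrs.comp measurable_fst.fst)
        (hln.comp measurable_fst.snd))
  have h1 := hJ G hGm (fun c x _ y _ e => by
    refine le_trans ?_ (wC_le_T (L := L) hΦ hε htT)
    exact (mul_le_mul_right (hφ1 _ _ _ _) _).trans (mul_one _).le)
  have h2 : P9c Φ ε L f₀ t φ ≤ (muE ε)⁻¹ * ∫⁻ c, (∫⁻ x in Als Φ ε L T (wS (GC.pts c)),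
      ∫⁻ y in Als Φ ε L T (wS (GC.pts c)), exsum x (fun e => G c x y e)
        ∂(tree (GC.inten f₀ ε) L) ∂(tree (GC.inten f₀ ε) L)) ∂(GC.PP f₀ ε) := by
    unfold P9c
    refine mul_le_mul_right ((X2_le_als htT _).trans (lintegral_mono fun c =>
      lintegral_mono fun x => lintegral_mono fun y => le_of_eq ?_)) _
    unfold cE
    rw [exsum_mul]
  refine h2.trans (h1.trans (add_le_add (mul_le_mul_right (lintegral_mono fun c => ?_) _) le_rfl))
  refine le_trans (le_of_eq ?_) (sumJ_cut (t := t) (T := T) (F := fun x e =>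
    ∫⁻ y, wC Φ ε L t x y * φ (wS (GC.pts c)) (rsrc Φ ε e) (rsrc Φ ε x) (ln Φ ε y) ∂(Θ c)))
  congr 1
  funext x e
  rw [← lintegral_const_mul' _ _ ((ind_le_one _).trans_lt ENNReal.one_lt_top).ne]
  refine lintegral_congr fun y => ?_
  simp only [hG]
  rw [← mul_assoc, ← wC_cut]

/-- **(ii) with independent typical pieces.** -/
theorem P9b_PP (hΦ : IsPotential Φ) (h₀ : GoodDatum f₀ κ) (hb : 0 < b) {b₀ M₀ : ℝ} (hbb : b ≤ b₀)
    (hM : 0 ≤ M₀) (hf : ∀ z, f₀ z ≤ M₀ * Real.exp (-b₀ * ‖z.2‖ ^ 2)) (hT : 0 ≤ T)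
    [IsFiniteMeasure (dmeas m)] (hcap : CapH Φ f₀ L T b m) (hI1 : Cap.InI1 Φ f₀ L T)
    {ρ : ℝ} (hρ : 0 < ρ) :
    ∀ᶠ ε in 𝓝[>] (0 : ℝ), ∃ Θ : GC.Conf Ph → Measure CTree,
      (∀ᵐ c ∂(GC.PP f₀ ε), TypLaw Φ ε b T m (Θ c)) ∧
      ∀ (ψ : Finset Src → Src → Src → ℝ≥0∞), MW ψ → (∀ V e m, ψ V e m ≤ 1) → ∀ t ≤ T,
      P9b Φ ε L f₀ t ψ ≤ 2 * ((muE ε)⁻¹ * ∫⁻ c, M.sumX Φ ε t L (Θ c) (fun x y e m =>
        wC Φ ε L t x y * ψ (wS (GC.pts c)) (rsrc Φ ε e) (rsrc Φ ε m)) ∂(GC.PP f₀ ε)) +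
        ENNReal.ofReal ρ := by
  filter_upwards [prod_PP hΦ h₀ hb hbb hM hf hT hcap hI1 2 (half_pos hρ), self_mem_nhdsWithin]
    with ε hS hε
  have hε : 0 < ε := hε
  obtain ⟨Θ, hΘ, hP⟩ := hS
  refine ⟨Θ, hΘ, fun ψ hψ hψ1 t htT => ?_⟩
  have hrs : Measurable fun S : CTree => rsrc Φ ε S := RM.meas_rsrc hΦ hε measurable_id
  set F : GC.Conf Ph → CTree → CTree → CTree → CTree → ℝ≥0∞ := fun c x y e m =>
    wC Φ ε L t x y * ψ (wS (GC.pts c)) (rsrc Φ ε e) (rsrc Φ ε m) with hF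
  have hFm : ∀ c, Measurable fun p : (CTree × CTree) × CTree × CTree =>
      F c p.1.1 p.1.2 p.2.1 p.2.2 := by
    intro c
    exact (measurable_wC hΦ hε measurable_fst.fst measurable_fst.snd).mul
      (hψ.comp measurable_const (hrs.comp measurable_snd.fst) (hrs.comp measurable_snd.snd))
  have h1 := hP F hFm (fun c x _ y _ e m => by
    refine le_trans ?_ (wC_le_T (L := L) hΦ hε htT)
    exact (mul_le_mul_right (hψ1 _ _ _) _).trans (mul_one _).le)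
  -- one order
  set B1 : Finset Src → CTree → CTree → ℝ≥0∞ := fun U x y =>
    exsum x fun e => exsum y fun m => ψ U (rsrc Φ ε e) (rsrc Φ ε m) with hB1
  have mB1 : Measurable fun p : GC.Conf Ph × CTree × CTree =>
      B1 (wS (GC.pts p.1)) p.2.1 p.2.2 := by
    refine RM.measurable_exsum' (X := GC.Conf Ph × CTree × CTree)
      (measurable_fst.comp measurable_snd) (F := fun p e =>
      exsum p.2.2 fun m => ψ (wS (GC.pts p.1)) (rsrc Φ ε e) (rsrc Φ ε m)) ?_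
    refine RM.measurable_exsum' (X := (GC.Conf Ph × CTree × CTree) × CTree)
      (measurable_fst.snd.snd) (F := fun p m =>
      ψ (wS (GC.pts p.1.1)) (rsrc Φ ε p.2) (rsrc Φ ε m)) ?_
    exact hψ.comp measurable_fst.fst.fst (hrs.comp measurable_fst.snd)
      (hrs.comp measurable_snd)
  have e1 : X2 Φ ε L f₀ t (fun U x y => bE Φ ε (ψ U) x y) = 2 * X2 Φ ε L f₀ t B1 := by
    have e2 : (fun (U : Finset Src) x y => bE Φ ε (ψ U) x y) =
        fun U x y => B1 U x y + B1 U y x := by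
      funext U x y
      unfold bE
      simp only [hB1]
      rw [exsum_comm (x := y) (y := x) (f := fun e m => ψ U (rsrc Φ ε e) (rsrc Φ ε m)),
        ← exsum_add]
      congr 1
      funext e
      rw [← exsum_add]
    rw [e2, X2_add hΦ hε h₀ mB1, X2_swap (H := B1) hΦ hε h₀ mB1, two_mul]
  have h2 : (muE ε)⁻¹ * X2 Φ ε L f₀ t B1 ≤ (muE ε)⁻¹ * ∫⁻ c,
      (∫⁻ x in Als Φ ε L T (wS (GC.pts c)), ∫⁻ y in Als Φ ε L T (wS (GC.pts c)),
        exsum x (fun e => exsum y fun m => F c x y e m)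
        ∂(tree (GC.inten f₀ ε) L) ∂(tree (GC.inten f₀ ε) L)) ∂(GC.PP f₀ ε) := by
    refine mul_le_mul_right ((X2_le_als htT _).trans (lintegral_mono fun c =>
      lintegral_mono fun x => lintegral_mono fun y => le_of_eq ?_)) _
    simp only [hB1, hF]
    rw [exsum_mul]
    congr 1
    funext e
    rw [exsum_mul]
  have h3 : (muE ε)⁻¹ * X2 Φ ε L f₀ t B1 ≤ (muE ε)⁻¹ * ∫⁻ c, M.sumX Φ ε t L (Θ c) (F c)
      ∂(GC.PP f₀ ε) + ENNReal.ofReal (ρ / 2) := by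
    refine h2.trans (h1.trans (add_le_add (mul_le_mul_right (lintegral_mono fun c => ?_) _)
      le_rfl))
    refine sumX_cut fun x y e m h => wC_ext (L := L) fun h0 => h ?_
    simp only [hF]
    rw [h0, zero_mul]
  unfold P9b
  rw [e1]
  calc (muE ε)⁻¹ * (2 * X2 Φ ε L f₀ t B1) = 2 * ((muE ε)⁻¹ * X2 Φ ε L f₀ t B1) := by ring
    _ ≤ 2 * ((muE ε)⁻¹ * ∫⁻ c, M.sumX Φ ε t L (Θ c) (F c) ∂(GC.PP f₀ ε) +
        ENNReal.ofReal (ρ / 2)) := mul_le_mul_right h3 _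
    _ = _ := by
        have h4 : 2 * ENNReal.ofReal (ρ / 2) = ENNReal.ofReal ρ := by
          rw [two_mul, ← ENNReal.ofReal_add (half_pos hρ).le (half_pos hρ).le, add_halves]
        rw [mul_add, h4]

end main

end Vale.Agent.P119.PB
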