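import Vale.Agent.P119.PB.LamF
import Vale.Agent.P119.PB.TopP2

/-!
# P119, block PROB: an exhaust of a tree and its collision with another tree (`helper298`)

* `wC_hitO`: the weight of a colliding pair, on lines;
* `sumJ_pairG`: the sum over one marked node of a function of the exhaust and of the pair (root line,
  line of a second tree which collides with the root), with the second tree integrated, is at most
  `μ C ∑_N K^(N+2) ∑_y aw y ∫ κ(e, last pair) dlawA (N+1)`;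
* `sumJ_pair`: the same for the contact of the pair (`pI`), as in `P9c`.
-/

open MeasureTheory Set Filter Topology Metric
open scoped ENNReal

noncomputable section

namespace Vale.Agent.P119.PB

open KU M M.CTree FL Cap

variable {Φ : E3 → ℝ} {ε b t t₂ : ℝ} {L : ℕ}

/-- The weight of a colliding pair, on lines. -/
theorem wC_hitO (hΦ : IsPotential Φ) (hε : 0 < ε) (ht₂ : t < t₂) {x y : CTree} {s : ℝ}
    (hs : s ≤ ext Φ ε x) : wC Φ ε L t x y ≤ (hitO ε t₂ s (ln Φ ε x)).indicator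
      (fun z => Cap.pw 2 (ln Φ ε x).2 * Cap.pw 2 z.2) (ln Φ ε y) := by
  by_cases h : ok Φ ε (node x y) ∧ (node x y).depth ≤ L ∧ sig Φ ε (node x y) ≤ t
  swap
  · unfold wC
    rw [ind_of_not h, mul_zero]
    exact zero_le
  obtain ⟨h1, h2, h3⟩ := id h
  have h4 : ln Φ ε y ∈ hitO ε t₂ s (ln Φ ε x) :=
    ⟨h1.2.2.2.1, hs.trans_lt h1.2.2.2.2.2.1, lt_of_le_of_lt h3 ht₂⟩
  rw [indicator_of_mem h4]
  refine (wC_le hΦ hε).trans ?_
  have h5 : M.hI ε t (ln Φ ε x, ln Φ ε y) ≤ 1 := by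
    unfold M.hI
    exact indicator_le_self' (fun _ _ => zero_le) _
  calc _ ≤ 1 * (Cap.pw 2 (ln Φ ε x).2 * Cap.pw 2 (ln Φ ε y).2) := mul_le_mul' h5 le_rfl
    _ = _ := one_mul _

/-- The integral over the second tree. -/
theorem wC_int (hΦ : IsPotential Φ) (hε : 0 < ε) (hb : 0 < b) (ht₂ : t < t₂) {K : ℝ≥0∞}
    {Θ : Measure CTree} (hK : LineLaw Φ ε b K Θ) {κ : Ph × Ph → ℝ≥0∞} (hκ : Measurable κ)
    {x : CTree} {s : ℝ} (hs : s ≤ ext Φ ε x) :
    ∫⁻ y, wC Φ ε L t x y * κ (ln Φ ε x, ln Φ ε y) ∂Θ ≤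
      K * ENNReal.ofReal (Cgp b 2) * (Cap.pw 2 (ln Φ ε x).2 *
        opP ε (b / 2) t₂ κ s (ln Φ ε x)) := by
  set l := ln Φ ε x with hl
  have hlx : Measurable fun z : Ph => κ (l, z) := hκ.comp measurable_prodMk_left
  have hm : Measurable fun z : Ph => (hitO ε t₂ s l).indicator
      (fun z => Cap.pw 2 l.2 * Cap.pw 2 z.2) z * κ (l, z) :=
    (((measurable_pw' 2).comp measurable_snd).const_mul _ |>.indicator
      (measurableSet_hitO t₂ s l)).mul hlx
  have h1 : ∀ y, wC Φ ε L t x y * κ (l, ln Φ ε y) ≤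
      (fun z : Ph => (hitO ε t₂ s l).indicator
        (fun z => Cap.pw 2 l.2 * Cap.pw 2 z.2) z * κ (l, z)) (ln Φ ε y) := fun y =>
    mul_le_mul' (wC_hitO hΦ hε ht₂ hs) le_rfl
  refine (lintegral_mono h1).trans ((hK _ hm).trans ?_)
  rw [mul_assoc K]
  refine mul_le_mul' le_rfl ?_
  unfold opP
  have hp : Cap.pw 2 l.2 ≠ ∞ := ENNReal.ofReal_ne_top
  rw [← lintegral_indicator (measurableSet_hitO t₂ s l), ← lintegral_const_mul' _ _ hp,
    ← lintegral_const_mul' _ _ ENNReal.ofReal_ne_top]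
  refine lintegral_mono fun z => ?_
  by_cases hz : z ∈ hitO ε t₂ s l
  · rw [indicator_of_mem hz, indicator_of_mem hz]
    calc muE ε * gw b z.2 * (Cap.pw 2 l.2 * Cap.pw 2 z.2 * κ (l, z))
        = muE ε * (gw b z.2 * Cap.pw 2 z.2) * (Cap.pw 2 l.2 * κ (l, z)) := by ring
      _ ≤ muE ε * (ENNReal.ofReal (Cgp b 2) * gw (b / 2) z.2) * (Cap.pw 2 l.2 * κ (l, z)) :=
          mul_le_mul' (mul_le_mul' le_rfl (gw_mul_pw hb 2 z.2)) le_rfl
      _ = _ := by ring
  · rw [indicator_of_notMem hz, indicator_of_notMem hz]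
    simp

/-- The constant of `sumJ_pairG`. -/
def cPair (b : ℝ) (K : ℝ≥0∞) (α : ℕ → ℝ≥0∞) : ℝ≥0∞ :=
  (K * ∑' n, α n) * ENNReal.ofReal (Cgp b 2) * ENNReal.ofReal (Cgp (b / 4) 2)

theorem cPair_ne_top {K : ℝ≥0∞} {α : ℕ → ℝ≥0∞} (hK : K ≠ ∞) (hα : ∑' n, α n ≠ ∞) :
    cPair b K α ≠ ∞ :=
  ENNReal.mul_ne_top (ENNReal.mul_ne_top (ENNReal.mul_ne_top hK hα) ENNReal.ofReal_ne_top)
    ENNReal.ofReal_ne_top

/-- **One marked node and a second tree which collides with the root.** -/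
theorem sumJ_pairG (hΦ : IsPotential Φ) (hε : 0 < ε) (hb : 0 < b) (ht₂ : t < t₂) {K : ℝ≥0∞}
    {α : ℕ → ℝ≥0∞} {Θ : Measure CTree} [SigmaFinite Θ] (hΘ : LDLaw Φ ε b K α Θ)
    {F : CTree → CTree → ℝ≥0∞} {κ : Src → Ph × Ph → ℕ → ℝ≥0∞}
    (hκ : ∀ D, Measurable fun z : Src × (Ph × Ph) => κ z.1 z.2 D)
    (hF : ∀ x ∈ okT Φ ε t L, ∀ e, F x e ≤ ∫⁻ y, wC Φ ε L t x y *
      κ (rsrc Φ ε e) (ln Φ ε x, ln Φ ε y) x.depth ∂Θ) :
    sumJ Φ ε t L Θ F ≤ muE ε * (cPair b K α * ∑' N, K ^ (N + 2) * ∑' y : Ix N, aw α y *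
      ∫⁻ x, kp t L κ y (srcA ε x) (lpA (ixS hΦ hε.ne' y) x)
        ∂(lawA ε (b / 2) (b / 2) t t₂ (N + 1) (ixS hΦ hε.ne' y))) := by
  set K' : ℝ≥0∞ := K * ∑' n, α n with hK'
  unfold sumJ
  rw [← ENNReal.tsum_mul_left, ← ENNReal.tsum_mul_left]
  refine ENNReal.tsum_le_tsum fun N => ?_
  set g : Ix N → XA N → ℝ≥0∞ := fun y x =>
    opP ε (b / 2) t₂ (kp t L κ y (srcA ε x)) (endA ε (ixS hΦ hε.ne' y) x).1
      (endA ε (ixS hΦ hε.ne' y) x).2 with hg
  have hgm : ∀ y : Ix N, Measurable (g y) := fun y =>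
    (measurable_opP_param (ε := ε) (b := b / 2) (t₂ := t₂) (P := ℝ × Ph)
      (K := fun σ => kp t L κ y σ) (measurable_kp hκ y)).comp
      (measurable_srcA.prodMk (measurable_endA _))
  have h1 : ∀ q : Mk CTree N, (okT Φ ε t L).indicator (fun _ => F (top q) (exh q)) (top q) ≤
      (okT Φ ε t L).indicator (fun _ => eX b (mkD Φ ε q) *
        (cPair b K α * g (ix q) (mkD Φ ε q))) (top q) := by
    intro q
    by_cases hq : top q ∈ okT Φ ε t L
    · rw [indicator_of_mem hq, indicator_of_mem hq]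
      have e1 : ln Φ ε (top q) = (endA ε (ixS hΦ hε.ne' (ix q)) (mkD Φ ε q)).2 :=
        ln_top hΦ hε.ne' q
      have e2 : (top q).depth = dM (ix q) := depth_plug_eq N (node q.1 q.2.1) q.2.2
      have e3 := rsrc_exh hΦ hε.ne' q
      have g5 := srcP_mem hΦ hε hq
      have g6 : ((srcA ε (mkD Φ ε q)).1, (srcA ε (mkD Φ ε q)).2,
          max (ix q).1 (ix q).2.1 + 1) ∈ srcS t L := g5.1
      have g7 : dM (ix q) ≤ L := by rw [← e2]; exact hq.2.2
      have g8 := endA_le_ext hΦ hε hq.1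
      have h2 : ∀ p : Ph × Ph, κ (rsrc Φ ε (exh q)) p (top q).depth =
          kp t L κ (ix q) (srcA ε (mkD Φ ε q)) p := by
        intro p
        rw [e3, e2]
        unfold kp
        rw [indicator_of_mem g6, ind_of g7, one_mul]
        rfl
      have hκ1 : Measurable (kp t L κ (ix q) (srcA ε (mkD Φ ε q))) :=
        (measurable_kp hκ (ix q)).comp measurable_prodMk_left
      have h3 := wC_int (L := L) hΦ hε hb ht₂ hΘ.lineLaw hκ1 g8
      have h4 : Cap.pw 2 (ln Φ ε (top q)).2 ≤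
          ENNReal.ofReal (Cgp (b / 4) 2) * eX b (mkD Φ ε q) := by
        refine (pw_le_eL hb 2 _).trans (mul_le_mul' le_rfl ?_)
        rw [ln_top hΦ hε.ne']
        exact eL_line_le hb _ _
      calc F (top q) (exh q) ≤ ∫⁻ y, wC Φ ε L t (top q) y *
            kp t L κ (ix q) (srcA ε (mkD Φ ε q)) (ln Φ ε (top q), ln Φ ε y) ∂Θ := by
            refine (hF _ hq _).trans (le_of_eq (lintegral_congr fun y => ?_))
            rw [h2]
        _ ≤ K' * ENNReal.ofReal (Cgp b 2) * (Cap.pw 2 (ln Φ ε (top q)).2 *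
            opP ε (b / 2) t₂ (kp t L κ (ix q) (srcA ε (mkD Φ ε q)))
              (endA ε (ixS hΦ hε.ne' (ix q)) (mkD Φ ε q)).1 (ln Φ ε (top q))) := h3
        _ ≤ K' * ENNReal.ofReal (Cgp b 2) * ((ENNReal.ofReal (Cgp (b / 4) 2) *
            eX b (mkD Φ ε q)) * g (ix q) (mkD Φ ε q)) := by
            refine mul_le_mul' le_rfl (mul_le_mul' h4 (le_of_eq ?_))
            rw [hg]
            simp only
            rw [e1]
        _ = _ := by
            unfold cPair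
            rw [← hK']
            ring
    · rw [indicator_of_notMem hq]; exact zero_le
  have hcm : ∀ y : Ix N, Measurable fun x : XA N => cPair b K α * g y x := fun y =>
    (hgm y).const_mul _
  refine (lintegral_mono h1).trans ((mkD_le (t := t) hΦ hε hΘ L N
    (f := fun y x => eX b x * (cPair b K α * g y x))
    fun y => (measurable_eX b).mul (hcm y)).trans ?_)
  refine mul_le_mul' le_rfl ?_
  have h5 : ∀ y : Ix N, ∫⁻ x, eX b x * (cPair b K α * g y x)
      ∂(lawA ε b b t t N (ixS hΦ hε.ne' y)) ≤ cPair b K α *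
      ∫⁻ x, kp t L κ y (srcA ε x) (lpA (ixS hΦ hε.ne' y) x)
        ∂(lawA ε (b / 2) (b / 2) t t₂ (N + 1) (ixS hΦ hε.ne' y)) := by
    intro y
    have h6 := lawA_opP (ε := ε) (bE := b / 2) (b := b / 2) (t := t) (t₂ := t₂) (N := N)
      (ixS hΦ hε.ne' y) (K := fun σ q => kp t L κ y σ q) (measurable_kp hκ y)
    refine (lawA_eX hb _ (hcm y)).trans ?_
    rw [lintegral_const_mul _ (hgm y), ← h6]
    exact mul_le_mul' le_rfl (lintegral_mono' (lawA_mono ht₂.le _) le_rfl)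
  calc K ^ (N + 2) * ∑' y : Ix N, aw α y * ∫⁻ x, eX b x * (cPair b K α * g y x)
        ∂(lawA ε b b t t N (ixS hΦ hε.ne' y))
      ≤ K ^ (N + 2) * ∑' y : Ix N, aw α y * (cPair b K α *
        ∫⁻ x, kp t L κ y (srcA ε x) (lpA (ixS hΦ hε.ne' y) x)
          ∂(lawA ε (b / 2) (b / 2) t t₂ (N + 1) (ixS hΦ hε.ne' y))) :=
        mul_le_mul' le_rfl (ENNReal.tsum_le_tsum fun y => mul_le_mul' le_rfl (h5 y))
    _ = _ := by
        have e : ∀ (y : Ix N) (X : ℝ≥0∞), aw α y * (cPair b K α * X) =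
            cPair b K α * (aw α y * X) := fun y X => by ring
        simp only [e]
        rw [ENNReal.tsum_mul_left]
        ring

/-- **An exhaust which touches, and the contact of the pair**: the sum of `P9c`. -/
theorem sumJ_pair (hΦ : IsPotential Φ) (hε : 0 < ε) (hb : 0 < b) (ht₂ : t < t₂) {η w : ℝ}
    (hη : 0 < η) (ht : 0 ≤ t) (hw : t ≤ w) {K : ℝ≥0∞} {α : ℕ → ℝ≥0∞} {Θ : Measure CTree}
    [SigmaFinite Θ] (hΘ : LDLaw Φ ε b K α Θ) {V : Finset Src}
    (hV : MM.RS fun _ : Src × (Ph × Ph) => (V : Set Src)) {G : Set Src} (hG : MeasurableSet G) :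
    sumJ Φ ε t L Θ (fun x e => ∫⁻ y, wC Φ ε L t x y * (pI L hΦ hε η t w V (rsrc Φ ε e)
      (rsrc Φ ε x) (ln Φ ε y) * ind (rsrc Φ ε e ∈ G)) ∂Θ) ≤
      muE ε * (cPair b K α * ∑' N, K ^ (N + 2) * ∑' y : Ix N, aw α y *
      ∫⁻ x, kp t L (fun e p _ => ind (e ∈ G) * pI L hΦ hε η t w V e (0, p.1, 0) p.2) y
        (srcA ε x) (lpA (ixS hΦ hε.ne' y) x)
        ∂(lawA ε (b / 2) (b / 2) t t₂ (N + 1) (ixS hΦ hε.ne' y))) := by
  classical
  refine sumJ_pairG hΦ hε hb ht₂ hΘ (fun D => ?_) fun x hx e => lintegral_mono fun y => ?_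
  · refine (measurable_ind (measurable_fst hG)).mul ?_
    exact measurable_pI (X := Src × (Ph × Ph)) (η := fun _ => η) (t := fun _ => t)
      (w := fun _ => w) (V := fun _ => V) hV measurable_const measurable_const measurable_const
      measurable_fst (measurable_const.prodMk (measurable_snd.fst.prodMk measurable_const))
      measurable_snd.snd
  · have h0 : 0 ≤ ext Φ ε x := M.ext_nonneg hΦ hε hx.1
    have h1 : pI L hΦ hε η t w V (rsrc Φ ε e) (rsrc Φ ε x) (ln Φ ε y) ≤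
        pI L hΦ hε η t w V (rsrc Φ ε e) (0, ln Φ ε x, 0) (ln Φ ε y) :=
      pI_birth (z := ln Φ ε x) (n := x.depth) hη ht h0 (by rw [zero_add]; exact hw)
    refine mul_le_mul' le_rfl ?_
    rw [mul_comm]
    exact mul_le_mul' le_rfl h1

end Vale.Agent.P119.PB
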