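import Vale.Agent.P119.PB.BLP
import Vale.Agent.P119.PB.EbLe
import Vale.Agent.P119.PB.P9cJ
import Vale.Agent.P119.PB.For8
import Vale.Agent.P119.PB.In8d

/-!
# P119, block PROB, P8: an exhaust and a colliding pair (`helper860`)

* `gPr`: the last pair of a chain is in contact with an exposed label, for an index;
* `sum_gPr_le`: the sum over the indices, in the mean;
* `mainP8_fXp`, `mainP8_f9c`: **the main terms of the functionals `FXp` and `P9c`**.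
-/

open MeasureTheory Set Filter Topology Metric ProbabilityTheory
open scoped ENNReal NNReal

noncomputable section

namespace Vale.Agent.P119.PB

open KU M M.CTree FL FB RB EN AU EX

variable {Φ : E3 → ℝ} {ε : ℝ} {L : ℕ} {hΦ : IsPotential Φ} {hε : 0 < ε} {f₀ : Ph → ℝ} {κ : ℝ}
  {T b₀ b l₁ l₂ Q bE η η' t t' w δ : ℝ} {m a α₀ : ℕ → ℝ} {α : ℕ → ℝ≥0∞} {G : Set Src}

/-! ### The sum over the indices -/

variable (L hΦ hε) in
/-- The last pair of a chain is in contact with an exposed label, for an index. -/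
def gPr (bE b η t t' w : ℝ) (G : Set Src) {N : ℕ} (y : Ix N) (c : GC.Conf Ph) : ℝ≥0∞ :=
  if max y.1 y.2.1 + 1 ≤ L then
    ∫⁻ x, ind (srcA ε x ∈ gP (slc G (max y.1 y.2.1 + 1)) ∧
      PairG L hΦ hε η t w (wS (GC.pts c)) (srcN (max y.1 y.2.1 + 1) (srcA ε x))
        (0, (lpA (ixS hΦ hε.ne' y) x).1, 0) (lpA (ixS hΦ hε.ne' y) x).2)
        ∂(lawA ε bE b t t' (N + 1) (ixS hΦ hε.ne' y))
  else 0

theorem measurable_gPr (hG : MeasurableSet G) {N : ℕ} (y : Ix N) :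
    Measurable (gPr L hΦ hε bE b η t t' w G y) := by
  unfold gPr
  by_cases h : max y.1 y.2.1 + 1 ≤ L
  swap
  · simp only [if_neg h]
    exact measurable_const
  simp only [if_pos h]
  have h1 := measurable_ind (measurableSet_pairA (L := L) (hΦ := hΦ) (hε := hε) (η := η) (t := t)
    (w := w) (N := N) (S := ixS hΦ hε.ne' y) (n := max y.1 y.2.1 + 1)
    (measurableSet_slc hG (max y.1 y.2.1 + 1)))
  exact h1.lintegral_prod_right'

/-- The functions of the pairs of a chain. -/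
theorem kp_le_pair {κ₀ : Src → Ph × Ph → ℕ → ℝ≥0∞} {V : Finset Src} {N : ℕ} (y : Ix N)
    (σ : ℝ × Ph) (p q : Ph × Ph)
    (h : ∀ e D, κ₀ e p D ≤ ind (e ∈ G) * pI L hΦ hε η t w V e (0, q.1, 0) q.2) :
    kp t L κ₀ y σ p ≤ if max y.1 y.2.1 + 1 ≤ L then
      ind (σ ∈ gP (slc G (max y.1 y.2.1 + 1)) ∧
        PairG L hΦ hε η t w V (srcN (max y.1 y.2.1 + 1) σ) (0, q.1, 0) q.2) else 0 := by
  unfold kp
  by_cases hs : ((σ.1, σ.2, max y.1 y.2.1 + 1) : Src) ∈ FL.srcS t L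
  swap
  · rw [indicator_of_notMem hs]
    exact zero_le
  rw [indicator_of_mem hs, if_pos (show max y.1 y.2.1 + 1 ≤ L from hs.2.2)]
  calc ind (dM y ≤ L) * κ₀ (σ.1, σ.2, max y.1 y.2.1 + 1) p (dM y)
      ≤ 1 * (ind (((σ.1, σ.2, max y.1 y.2.1 + 1) : Src) ∈ G) *
        pI L hΦ hε η t w V (σ.1, σ.2, max y.1 y.2.1 + 1) (0, q.1, 0) q.2) :=
        mul_le_mul' (ind_le_one _) (h _ _)
    _ ≤ _ := by
        rw [one_mul]
        unfold pI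
        rw [← ind_and]
        exact ind_mono fun h => ⟨⟨h.1, hs.1⟩, h.2⟩

/-- The constant of the sum over the indices. -/
def kPr (hΦ : IsPotential Φ) (bE b t' : ℝ) (K : ℝ≥0∞) (α : ℕ → ℝ≥0∞) (a : ℕ → ℝ) : ℝ≥0∞ :=
  KA hΦ bE b t' 1 * (K ^ 2 * (∑' d, ∑' d', α d * (α d' * vA a (max d d' + 1))) *
    ∑' N, fS (K * (2 * ∑' n, α n) * xA b t') N)

theorem kPr_ne_top (hb : 0 < b) {K : ℝ≥0∞} (hK : K ≠ ∞)
    (hα : ∑' d, ∑' d', α d * (α d' * vA a (max d d' + 1)) ≠ ∞) (hs : ∑' n, α n ≠ ∞) :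
    kPr hΦ bE b t' K α a ≠ ∞ := by
  unfold kPr
  exact ENNReal.mul_ne_top (KA_ne_top hb ENNReal.one_ne_top) (ENNReal.mul_ne_top
    (ENNReal.mul_ne_top (ENNReal.pow_ne_top hK) hα) (tsum_fS_ne_top (ENNReal.mul_ne_top
      (ENNReal.mul_ne_top hK (ENNReal.mul_ne_top (by norm_num) hs)) (xA_ne_top b t'))))

/-- **The sum over the indices in the mean.** -/
theorem sum_gPr_le (h₀ : GoodDatum f₀ κ) {B Tm : ℝ} {δ₁ : ℝ≥0∞} {K X : ℝ≥0∞}
    (hB : RW.StableWith Φ B) (hb : 0 < b) (hbE : b ≤ bE)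
    (hδ : 0 < δ) (hd1 : δ ≤ 1) (hη : 0 < η) (hηη : η ≤ η') (ht : 0 ≤ t) (htm : t ≤ Tm)
    (htt : t < t') (hw : t ≤ w) (hδ₁ : δ₁ ≤ 2⁻¹) (hG : MeasurableSet G)
    (hGr : ∀ e ∈ G, rE6 L hΦ hε f₀ η (η' - η) t e ≤ δ₁ * tE6 L hΦ hε f₀ η t e)
    (hX : ∀ n, EbA L hΦ hε f₀ B Tm (bE / 2) t δ η η' w δ₁ n ≤ vA a n * X) :
    ∫⁻ c, (∑' N, K ^ (N + 2) * ∑' y : Ix N, aw α y * gPr L hΦ hε bE b η t t' w G y c)
      ∂(GC.PP f₀ ε) ≤ kPr hΦ bE b t' K α a * X := by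
  classical
  have hm : ∀ (N : ℕ) (y : Ix N), Measurable (gPr L hΦ hε bE b η t t' w G y) :=
    fun N y => measurable_gPr hG y
  have hm1 : ∀ N : ℕ, Measurable fun c => ∑' y : Ix N, aw α y *
      gPr L hΦ hε bE b η t t' w G y c := fun N =>
    Measurable.tsum fun y => (hm N y).const_mul _
  rw [lintegral_tsum fun N => ((hm1 N).const_mul _).aemeasurable]
  have h1 : ∀ (N : ℕ) (y : Ix N), ∫⁻ c, gPr L hΦ hε bE b η t t' w G y c ∂(GC.PP f₀ ε) ≤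
      fS (xA b t') N * (KA hΦ bE b t' 1 * (vA a (max y.1 y.2.1 + 1) * X)) := by
    intro N y
    unfold gPr
    by_cases h : max y.1 y.2.1 + 1 ≤ L
    swap
    · simp only [if_neg h, lintegral_zero]
      exact zero_le
    simp only [if_pos h]
    refine (pair_AE (δ := δ) (B := B) (Tm := Tm) h₀ hB hb hbE hδ hd1 hη hηη ht htm htt hw hδ₁ hG h
      fun e he _ => hGr e he).trans ?_
    exact mul_le_mul' le_rfl (mul_le_mul' le_rfl (hX _))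
  calc ∑' N, ∫⁻ c, K ^ (N + 2) * ∑' y : Ix N, aw α y * gPr L hΦ hε bE b η t t' w G y c
        ∂(GC.PP f₀ ε)
      = ∑' N, K ^ (N + 2) * ∑' y : Ix N, aw α y *
          ∫⁻ c, gPr L hΦ hε bE b η t t' w G y c ∂(GC.PP f₀ ε) := by
        refine tsum_congr fun N => ?_
        rw [lintegral_const_mul _ (hm1 N),
          lintegral_tsum fun y => ((hm N y).const_mul _).aemeasurable]
        congr 1
        exact tsum_congr fun y => lintegral_const_mul _ (hm N y)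
    _ ≤ ∑' N, K ^ (N + 2) * ∑' y : Ix N, aw α y *
          (fS (xA b t') N * (KA hΦ bE b t' 1 * (vA a (max y.1 y.2.1 + 1) * X))) := by
        refine ENNReal.tsum_le_tsum fun N => mul_le_mul' le_rfl (ENNReal.tsum_le_tsum fun y =>
          mul_le_mul' le_rfl (h1 N y))
    _ = ∑' N, (KA hΦ bE b t' 1 * (K ^ 2 * (∑' d, ∑' d', α d *
          (α d' * vA a (max d d' + 1)))) * X) * fS (K * (2 * ∑' n, α n) * xA b t') N := by
        refine tsum_congr fun N => ?_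
        have e1 : ∀ y : Ix N, aw α y * (fS (xA b t') N * (KA hΦ bE b t' 1 *
            (vA a (max y.1 y.2.1 + 1) * X))) = (fS (xA b t') N * (KA hΦ bE b t' 1 * X)) *
            (aw α y * vA a (max y.1 y.2.1 + 1)) := fun y => by ring
        simp only [e1]
        rw [ENNReal.tsum_mul_left, sum_aw_v, ← mul_fS (K * (2 * ∑' n, α n)), mul_pow, pow_add]
        ring
    _ = _ := by
        rw [ENNReal.tsum_mul_left]
        unfold kPr
        ring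

/-! ### The functionals -/

/-- The function of the functionals. -/
theorem MWp_pI_ind (hG : MeasurableSet G) :
    MWp fun V e σ z' => pI L hΦ hε η t w V e σ z' * ind (e ∈ G) :=
  Measurable.mul (MWp_pI (L := L) (hΦ := hΦ) (hε := hε) (η := η) (t := t) (w := w))
    (measurable_ind ((measurable_snd.fst : Measurable fun q : GC.Conf Ph × Src × Src × Ph =>
      q.2.1) hG))

theorem pI_ind_le_one (V : Finset Src) (e σ : Src) (z' : Ph) :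
    pI L hΦ hε η t w V e σ z' * ind (e ∈ G) ≤ 1 := by
  calc pI L hΦ hε η t w V e σ z' * ind (e ∈ G) ≤ 1 * 1 := by
        refine mul_le_mul' ?_ (ind_le_one _)
        unfold pI
        exact ind_le_one _
    _ = 1 := one_mul 1

/-- **An exhaust and the pair of the free line and the root line.** -/
theorem FXp_le_gPr (hΦ : IsPotential Φ) (h₀ : GoodDatum f₀ κ) (hb : 0 < b) {M₀ : ℝ}
    (hbb : b ≤ b₀) (hM : 0 ≤ M₀) (hf : ∀ z, f₀ z ≤ M₀ * Real.exp (-b₀ * ‖z.2‖ ^ 2)) (hT : 0 ≤ T)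
    [IsFiniteMeasure (dmeas m)] (hcap : CapH Φ f₀ L T b m) (hI1 : Cap.InI1 Φ f₀ L T)
    {b' β : ℝ} (hb' : 0 < b') (hβ : 0 < β) (hβb : β ≤ b) (hβb' : β ≤ b') {ρ : ℝ} (hρ : 0 < ρ) :
    ∀ᶠ ε in 𝓝[>] (0 : ℝ), ∀ hε : 0 < ε, ∀ t : ℝ, 0 ≤ t → t ≤ T → ∀ t' > t, ∀ η w : ℝ,
      ∀ G : Set Src, MeasurableSet G →
      FXp Φ ε L f₀ b' t (fun V e σ z' => pI L hΦ hε η t w V e σ z' * ind (e ∈ G)) ≤
        ∫⁻ c, (∑' N, K8 T ^ (N + 2) * ∑' y : Ix N, aw (aM8 m) y *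
          gPr L hΦ hε b β η t t' w G y c) ∂(GC.PP f₀ ε) + ENNReal.ofReal ρ := by
  filter_upwards [FXk_PP hΦ h₀ hb hbb hM hf hT hcap hI1 hb' (C₀ := 1) (by norm_num) hρ]
    with ε hS hε t ht htT t' htt η w G hG
  obtain ⟨Θ, hΘ, hP⟩ := hS
  have hφ := MWp_pI_ind (L := L) (hΦ := hΦ) (hε := hε) (η := η) (t := t) (w := w) hG
  set φ : Finset Src → Src → Src → Ph → ℝ≥0∞ := fun V e σ z' =>
    pI L hΦ hε η t w V e σ z' * ind (e ∈ G) with hφd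
  set k : Finset Src → Src → Ph × Ph → ℕ → ℝ≥0∞ := fun V e p _ =>
    φ V e (0, p.1, 0) p.2 with hk
  have hkm : MWk k := hφ.k
  rw [FXp_eq]
  refine (hP k hkm (fun V e p D => pI_ind_le_one _ _ _ _) t ht htT).trans
    (add_le_add (lintegral_mono_ae ?_) le_rfl)
  filter_upwards [hΘ] with c hc
  have := hc.fin
  have hFz : Measurable fun p : Ph × (CTree × CTree) => gw b' p.1.2 *
      (ind (hitF Φ ε t p.1 p.2.1) * k (wS (GC.pts c)) (rsrc Φ ε p.2.2)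
        (p.1, ln Φ ε p.2.1) p.2.1.depth) :=
    hkm.int hΦ hε (measurable_const (a := c)) measurable_fst measurable_snd.fst
      measurable_snd.snd
  have e4 := sumJ_lintegral (L := L) (t := t) hΦ hε (Θ := Θ c)
    (ν := (volume : Measure Ph)) (F := fun z S x => gw b' z.2 *
    (ind (hitF Φ ε t z S) * k (wS (GC.pts c)) (rsrc Φ ε x) (z, ln Φ ε S) S.depth)) hFz
  have e5 : (∫⁻ z : Ph, gw b' z.2 * sumJ Φ ε t L (Θ c) (fun S x =>
      ind (hitF Φ ε t z S) * k (wS (GC.pts c)) (rsrc Φ ε x) (z, ln Φ ε S) S.depth)) =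
      sumJ Φ ε t L (Θ c) (fun S x => ∫⁻ z : Ph, gw b' z.2 * (ind (hitF Φ ε t z S) *
        k (wS (GC.pts c)) (rsrc Φ ε x) (z, ln Φ ε S) S.depth)) := by
    rw [e4]
    exact lintegral_congr fun z => (sumJ_const_mul ENNReal.ofReal_ne_top).symm
  rw [e5]
  have hkD : ∀ D, Measurable fun z : Src × (Ph × Ph) => k (wS (GC.pts c)) z.1 z.2 D := fun D =>
    hkm.comp (X := Src × (Ph × Ph)) (c := fun _ => c) (e := fun z => z.1) (p := fun z => z.2)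
      (D := fun _ => D) measurable_const measurable_fst measurable_snd measurable_const
  refine (sumJ_free hΦ hε hβ hβb htt (hc.ldLaw8 hT) (κ := k (wS (GC.pts c))) hkD
    fun S _ x => lintegral_mono fun z => mul_le_mul' (gw_anti hβb' _) le_rfl).trans ?_
  refine ENNReal.tsum_le_tsum fun N => mul_le_mul' le_rfl (ENNReal.tsum_le_tsum fun y =>
    mul_le_mul' le_rfl ?_)
  refine (lintegral_mono fun x => kp_le_pair (G := G) (hΦ := hΦ) (hε := hε) (η := η) (w := w)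
    (V := wS (GC.pts c)) y (srcA ε x) _ (lpA (ixS hΦ hε.ne' y) x) fun e D => ?_).trans ?_
  · rw [mul_comm]
    exact mul_le_mul' pI_swap le_rfl
  · unfold gPr
    by_cases h : max y.1 y.2.1 + 1 ≤ L
    · simp only [if_pos h]
      exact le_rfl
    · simp only [if_neg h, lintegral_zero]
      exact le_rfl

/-- **An exhaust and the colliding pair.** -/
theorem P9c_le_gPr (hΦ : IsPotential Φ) (h₀ : GoodDatum f₀ κ) (hb : 0 < b) {M₀ : ℝ}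
    (hbb : b ≤ b₀) (hM : 0 ≤ M₀) (hf : ∀ z, f₀ z ≤ M₀ * Real.exp (-b₀ * ‖z.2‖ ^ 2)) (hT : 0 ≤ T)
    [IsFiniteMeasure (dmeas m)] (hcap : CapH Φ f₀ L T b m) (hI1 : Cap.InI1 Φ f₀ L T)
    {ρ : ℝ} (hρ : 0 < ρ) :
    ∀ᶠ ε in 𝓝[>] (0 : ℝ), ∀ hε : 0 < ε, ∀ t : ℝ, 0 ≤ t → t ≤ T → ∀ t' > t, ∀ η w : ℝ, 0 < η →
      t ≤ w → ∀ G : Set Src, MeasurableSet G →
      P9c Φ ε L f₀ t (fun V e σ z' => pI L hΦ hε η t w V e σ z' * ind (e ∈ G)) ≤
        cPair b (K8 T) (aM8 m) * ∫⁻ c, (∑' N, K8 T ^ (N + 2) * ∑' y : Ix N, aw (aM8 m) y *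
          gPr L hΦ hε (b / 2) (b / 2) η t t' w G y c) ∂(GC.PP f₀ ε) + ENNReal.ofReal ρ := by
  filter_upwards [P9c_PP hΦ h₀ hb hbb hM hf hT hcap hI1 hρ]
    with ε hS hε t ht htT t' htt η w hη hw G hG
  obtain ⟨Θ, hΘ, hP⟩ := hS
  have hφ := MWp_pI_ind (L := L) (hΦ := hΦ) (hε := hε) (η := η) (t := t) (w := w) hG
  refine (hP _ hφ (fun V e σ z' => pI_ind_le_one _ _ _ _) t htT).trans (add_le_add ?_ le_rfl)
  have hα : ∑' d, aM8 m d ≠ ∞ := by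
    have h := measure_ne_top (dmeas m) univ
    rw [← lintegral_one, lintegral_dmeas] at h
    simpa using h
  have hc0 : cPair b (K8 T) (aM8 m) ≠ ∞ := cPair_ne_top ENNReal.ofReal_ne_top hα
  have key : ∀ᵐ c ∂(GC.PP f₀ ε), sumJ Φ ε t L (Θ c) (fun x e =>
      ∫⁻ y, wC Φ ε L t x y * (pI L hΦ hε η t w (wS (GC.pts c)) (rsrc Φ ε e) (rsrc Φ ε x)
        (ln Φ ε y) * ind (rsrc Φ ε e ∈ G)) ∂(Θ c)) ≤ muE ε * (cPair b (K8 T) (aM8 m) *
      (∑' N, K8 T ^ (N + 2) * ∑' y : Ix N, aw (aM8 m) y *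
          gPr L hΦ hε (b / 2) (b / 2) η t t' w G y c)) := by
    filter_upwards [hΘ] with c hc
    have := hc.fin
    refine (sumJ_pair hΦ hε hb htt hη ht hw (hc.ldLaw8 hT) (rs_const c) hG).trans ?_
    refine mul_le_mul' le_rfl (mul_le_mul' le_rfl (ENNReal.tsum_le_tsum fun N =>
      mul_le_mul' le_rfl (ENNReal.tsum_le_tsum fun y => mul_le_mul' le_rfl ?_)))
    refine (lintegral_mono fun x => kp_le_pair (G := G) (hΦ := hΦ) (hε := hε) (η := η) (w := w)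
      (V := wS (GC.pts c)) y (srcA ε x) _ (lpA (ixS hΦ hε.ne' y) x) fun e D => le_rfl).trans ?_
    unfold gPr
    by_cases h : max y.1 y.2.1 + 1 ≤ L
    · simp only [if_pos h]
      exact le_rfl
    · simp only [if_neg h, lintegral_zero]
      exact le_rfl
  refine (mul_le_mul_right (lintegral_mono_ae key) _).trans (le_of_eq ?_)
  rw [lintegral_const_mul' _ _ muE_ne_top, muE_inv_mul8 hε, lintegral_const_mul' _ _ hc0]

/-! ### The main terms -/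

/-- A finite multiple of the bound is at most the right side of P8. -/
theorem mul_R8_le {k : ℝ≥0∞} (hk : k ≠ ∞) {C : ℝ} (hC : 1 ≤ C)
    (D Θ F : ℕ → ℝ → ℝ → ℝ → ℝ≥0∞) (W : ℕ → ℝ → ℝ → ℝ → ℝ → ℝ≥0∞) :
    ∃ K : ℝ, 1 ≤ K ∧ ∀ L : ℕ, 1 ≤ L → ∀ δ ∈ Ioc (0 : ℝ) 1, ∀ η' : ℝ, 0 < η' → ∀ ε t : ℝ,
      k * (ENNReal.ofReal (C * (η' / δ ^ 3 + δ)) * (D L η' ε t + Θ L η' ε t + F L η' ε t) +
        ENNReal.ofReal C * W L δ η' ε t) ≤ R8 K 3 D Θ F W L δ η' ε t := by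
  have hk0 : 0 ≤ k.toReal := ENNReal.toReal_nonneg
  have hK1 : 1 ≤ 1 + k.toReal * C := by
    have : 0 ≤ k.toReal * C := mul_nonneg hk0 (zero_le_one.trans hC)
    linarith
  refine ⟨1 + k.toReal * C, hK1, fun L hL δ hδ η' hη' ε t => ?_⟩
  have hδ0 := hδ.1
  have h1 : k.toReal * C ≤ (1 + k.toReal * C) ^ L := by
    calc k.toReal * C ≤ (1 + k.toReal * C) ^ 1 := by
          rw [pow_one]
          linarith
      _ ≤ _ := pow_le_pow_right₀ hK1 hL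
  have e : k = ENNReal.ofReal k.toReal := (ENNReal.ofReal_toReal hk).symm
  have hq : 0 ≤ η' / δ ^ 3 + δ := by positivity
  unfold R8
  rw [mul_add, ← mul_assoc, ← mul_assoc]
  refine add_le_add (mul_le_mul' ?_ le_rfl) (mul_le_mul' ?_ le_rfl)
  · rw [e, ← ENNReal.ofReal_mul hk0, ENNReal.toReal_ofReal hk0]
    refine ENNReal.ofReal_le_ofReal ?_
    rw [← mul_assoc]
    exact mul_le_mul_of_nonneg_right h1 hq
  · rw [e, ← ENNReal.ofReal_mul hk0, ENNReal.toReal_ofReal hk0]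
    exact ENNReal.ofReal_le_ofReal h1

/-- A small multiple. -/
theorem exists_mul_le {k : ℝ≥0∞} (hk : k ≠ ∞) {ρ : ℝ} (hρ : 0 < ρ) :
    ∃ r : ℝ, 0 < r ∧ k * ENNReal.ofReal r ≤ ENNReal.ofReal ρ := by
  have h0 : 0 ≤ k.toReal := ENNReal.toReal_nonneg
  have h1 : 0 < k.toReal + 1 := by linarith
  refine ⟨ρ / (k.toReal + 1), div_pos hρ h1, ?_⟩
  calc k * ENNReal.ofReal (ρ / (k.toReal + 1))
      = ENNReal.ofReal (k.toReal * (ρ / (k.toReal + 1))) := by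
        rw [ENNReal.ofReal_mul h0, ENNReal.ofReal_toReal hk]
    _ ≤ ENNReal.ofReal ρ := by
        refine ENNReal.ofReal_le_ofReal ?_
        rw [← mul_div_assoc, div_le_iff₀ h1]
        nlinarith

/-- The weights of the depths. -/
theorem Par.aM8_le (hP : Par T b₀ m b l₁ l₂ Q α₀ a) (n : ℕ) :
    ((n : ℝ≥0∞) + 1) * aM8 m n ≤ ENNReal.ofReal (α₀ n) := by
  have h1 : ((n : ℝ≥0∞) + 1) = ENNReal.ofReal ((n : ℝ) + 1) := by
    rw [ENNReal.ofReal_add (Nat.cast_nonneg n) zero_le_one, ENNReal.ofReal_natCast,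
      ENNReal.ofReal_one]
  rw [h1, ← ENNReal.ofReal_mul (by positivity)]
  exact ENNReal.ofReal_le_ofReal (hP.succ_mul_le n)

theorem Par.kPr_ne_top (hP : Par T b₀ m b l₁ l₂ Q α₀ a) {β t' : ℝ} (hβ : 0 < β) :
    kPr hΦ bE β t' (K8 T) (aM8 m) a ≠ ∞ :=
  PB.kPr_ne_top hβ ENNReal.ofReal_ne_top
    (sum_vA_ne_top hP.wts hP.aM8_le hP.tsum_ne_top) hP.tsum_ne_top

/-- **The main terms of `FXp`.** -/
theorem mainP8_fXp (hP : Par T b₀ m b l₁ l₂ Q α₀ a) (hΦ : IsPotential Φ) (hg : GoodDatum f₀ κ)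
    {B M₀ : ℝ} (hB : RW.StableWith Φ B) (hm2 : m2 f₀ < ∞) (hM : 0 ≤ M₀)
    (hf : ∀ z, f₀ z ≤ M₀ * Real.exp (-b₀ * ‖z.2‖ ^ 2))
    (hcap : ∀ᶠ L in atTop, CapT Φ f₀ L T (b₀ / 2) m)
    (hI1 : ∀ᶠ L in atTop, Cap.InI1 Φ f₀ L T) :
    ∃ K : ℝ, 1 ≤ K ∧ MainP8 hΦ f₀ T (dD hΦ f₀) (dTh b T l₁ l₂ a hΦ f₀ T) (AU.dF hΦ f₀)
      (fun L δ => dTh b T l₁ l₂ a hΦ f₀ δ L) K 3 (fXp Φ f₀ b) := by
  have hb₀ := hP.b₀0
  have hT := hP.T0
  have hb := hP.b0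
  have hfin : IsFiniteMeasure (dmeas m) :=
    ⟨lt_top_iff_ne_top.2 (dmeas_univ_ne_top hP.wts hP.m0 hP.succ_mul_le)⟩
  obtain ⟨C, hC1, hE⟩ := EbA_le8 hP hΦ hB hg hm2 (β := b₀ / 2 / 2) (by rw [hP.hb]; linarith)
  set k := kPr hΦ (b₀ / 2) (b / 2) (T + 1) (K8 T) (aM8 m) a with hk
  have hkt : k ≠ ∞ := hP.kPr_ne_top (by positivity)
  obtain ⟨K, hK1, hR⟩ := mul_R8_le hkt hC1 (dD hΦ f₀) (dTh b T l₁ l₂ a hΦ f₀ T) (AU.dF hΦ f₀)
    (fun L δ => dTh b T l₁ l₂ a hΦ f₀ δ L)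
  refine ⟨K, hK1, ?_⟩
  filter_upwards [hcap, hI1, eventually_ge_atTop 1] with L hL hI hL1 δ hδ η η' hη hηη hη1 δ₁ hδ₁
    hδ₁' ρ hρ
  obtain ⟨r, hr0, hr⟩ := exists_mul_le hkt (half_pos hρ)
  filter_upwards [FXp_le_gPr (b := b₀ / 2) (b' := b / 2) (β := b / 2) (b₀ := b₀) hΦ hg
    (by positivity) (by linarith) hM hf hT.le hL.capH hI (by positivity) (by positivity)
    (by rw [hP.hb]; linarith) le_rfl (half_pos hρ),
    hE L δ hδ η η' hη hηη hη1 δ₁ hδ₁' r hr0] with ε e1 e2 hε t ht G hG hGr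
  have htt : t < T + 1 := by linarith [ht.2]
  have h1 := e1 hε t ht.1 ht.2 (T + 1) htt η T G hG
  have h2 := sum_gPr_le (K := K8 T) (α := aM8 m) (a := a) (t' := T + 1) (w := T) (Tm := T)
    (b := b / 2) (bE := b₀ / 2) hg hB (by positivity) (by rw [hP.hb]; linarith) hδ.1 hδ.2 hη
    hηη.le ht.1 ht.2 htt ht.2 hδ₁ hG hGr (e2 hε t ht)
  calc fXp Φ f₀ b L ε hε t (fun V e σ z' => pI L hΦ hε η t T V e σ z' * ind (e ∈ G))
      ≤ k * (ENNReal.ofReal (C * (η' / δ ^ 3 + δ)) * (dD hΦ f₀ L η' ε t +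
          dTh b T l₁ l₂ a hΦ f₀ T L η' ε t + AU.dF hΦ f₀ L η' ε t) +
          ENNReal.ofReal C * dTh b T l₁ l₂ a hΦ f₀ δ L η' ε t + ENNReal.ofReal r) +
          ENNReal.ofReal (ρ / 2) := h1.trans (add_le_add h2 le_rfl)
    _ = k * (ENNReal.ofReal (C * (η' / δ ^ 3 + δ)) * (dD hΦ f₀ L η' ε t +
          dTh b T l₁ l₂ a hΦ f₀ T L η' ε t + AU.dF hΦ f₀ L η' ε t) +
          ENNReal.ofReal C * dTh b T l₁ l₂ a hΦ f₀ δ L η' ε t) + (k * ENNReal.ofReal r +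
          ENNReal.ofReal (ρ / 2)) := by ring
    _ ≤ _ := by
        refine add_le_add (hR L hL1 δ hδ η' (hη.trans hηη) ε t) ?_
        refine (add_le_add hr le_rfl).trans (le_of_eq ?_)
        rw [← ENNReal.ofReal_add (half_pos hρ).le (half_pos hρ).le, add_halves]

/-- **The main terms of `P9c`.** -/
theorem mainP8_f9c (hP : Par T b₀ m b l₁ l₂ Q α₀ a) (hΦ : IsPotential Φ) (hg : GoodDatum f₀ κ)
    {B M₀ : ℝ} (hB : RW.StableWith Φ B) (hm2 : m2 f₀ < ∞) (hM : 0 ≤ M₀)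
    (hf : ∀ z, f₀ z ≤ M₀ * Real.exp (-b₀ * ‖z.2‖ ^ 2))
    (hcap : ∀ᶠ L in atTop, CapT Φ f₀ L T (b₀ / 2) m)
    (hI1 : ∀ᶠ L in atTop, Cap.InI1 Φ f₀ L T) :
    ∃ K : ℝ, 1 ≤ K ∧ MainP8 hΦ f₀ T (dD hΦ f₀) (dTh b T l₁ l₂ a hΦ f₀ T) (AU.dF hΦ f₀)
      (fun L δ => dTh b T l₁ l₂ a hΦ f₀ δ L) K 3 (f9c Φ f₀) := by
  have hb₀ := hP.b₀0
  have hT := hP.T0
  have hb := hP.b0
  have hfin : IsFiniteMeasure (dmeas m) :=
    ⟨lt_top_iff_ne_top.2 (dmeas_univ_ne_top hP.wts hP.m0 hP.succ_mul_le)⟩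
  obtain ⟨C, hC1, hE⟩ := EbA_le8 hP hΦ hB hg hm2 (β := b₀ / 2 / 2 / 2) (by rw [hP.hb]; linarith)
  set k₀ := kPr hΦ (b₀ / 2 / 2) (b₀ / 2 / 2) (T + 1) (K8 T) (aM8 m) a with hk₀
  set c₀ := cPair (b₀ / 2) (K8 T) (aM8 m) with hc₀
  have hkt : c₀ * k₀ ≠ ∞ := ENNReal.mul_ne_top
    (cPair_ne_top ENNReal.ofReal_ne_top hP.tsum_ne_top) (hP.kPr_ne_top (by positivity))
  obtain ⟨K, hK1, hR⟩ := mul_R8_le hkt hC1 (dD hΦ f₀) (dTh b T l₁ l₂ a hΦ f₀ T) (AU.dF hΦ f₀)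
    (fun L δ => dTh b T l₁ l₂ a hΦ f₀ δ L)
  refine ⟨K, hK1, ?_⟩
  filter_upwards [hcap, hI1, eventually_ge_atTop 1] with L hL hI hL1 δ hδ η η' hη hηη hη1 δ₁ hδ₁
    hδ₁' ρ hρ
  obtain ⟨r, hr0, hr⟩ := exists_mul_le hkt (half_pos hρ)
  filter_upwards [P9c_le_gPr (b := b₀ / 2) (b₀ := b₀) hΦ hg
    (by positivity) (by linarith) hM hf hT.le hL.capH hI (half_pos hρ),
    hE L δ hδ η η' hη hηη hη1 δ₁ hδ₁' r hr0] with ε e1 e2 hε t ht G hG hGr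
  have htt : t < T + 1 := by linarith [ht.2]
  have h1 := e1 hε t ht.1 ht.2 (T + 1) htt η T hη ht.2 G hG
  have h2 := sum_gPr_le (K := K8 T) (α := aM8 m) (a := a) (t' := T + 1) (w := T) (Tm := T)
    (b := b₀ / 2 / 2) (bE := b₀ / 2 / 2) hg hB (by positivity) le_rfl hδ.1 hδ.2 hη
    hηη.le ht.1 ht.2 htt ht.2 hδ₁ hG hGr (e2 hε t ht)
  calc f9c Φ f₀ L ε hε t (fun V e σ z' => pI L hΦ hε η t T V e σ z' * ind (e ∈ G))
      ≤ c₀ * (k₀ * (ENNReal.ofReal (C * (η' / δ ^ 3 + δ)) * (dD hΦ f₀ L η' ε t +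
          dTh b T l₁ l₂ a hΦ f₀ T L η' ε t + AU.dF hΦ f₀ L η' ε t) +
          ENNReal.ofReal C * dTh b T l₁ l₂ a hΦ f₀ δ L η' ε t + ENNReal.ofReal r)) +
          ENNReal.ofReal (ρ / 2) := h1.trans (add_le_add (mul_le_mul' le_rfl h2) le_rfl)
    _ = (c₀ * k₀) * (ENNReal.ofReal (C * (η' / δ ^ 3 + δ)) * (dD hΦ f₀ L η' ε t +
          dTh b T l₁ l₂ a hΦ f₀ T L η' ε t + AU.dF hΦ f₀ L η' ε t) +
          ENNReal.ofReal C * dTh b T l₁ l₂ a hΦ f₀ δ L η' ε t) + ((c₀ * k₀) * ENNReal.ofReal r +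
          ENNReal.ofReal (ρ / 2)) := by ring
    _ ≤ _ := by
        refine add_le_add (hR L hL1 δ hδ η' (hη.trans hηη) ε t) ?_
        refine (add_le_add hr le_rfl).trans (le_of_eq ?_)
        rw [← ENNReal.ofReal_add (half_pos hρ).le (half_pos hρ).le, add_halves]

end Vale.Agent.P119.PB
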