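import Vale.Agent.P119.PB.In8f
import Vale.Agent.P119.PB.Law8A
import Vale.Agent.P119.PB.MainP

/-!
# P119, P8: the laws of one branch, composition (`helper755`)

* `laws8_of`: `Laws8` from the laws of type A (755), C (690, 776), the functionals of the colliding
  pairs (860), the law B and the crude laws.
-/

open MeasureTheory Filter Topology Set ProbabilityTheory
open scoped ENNReal NNReal

noncomputable section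

namespace Vale.Agent.P119.PB

open M CTree KU FB RB AU FL TL EX

variable {Φ : E3 → ℝ} {f₀ : Ph → ℝ} {κ T b b₀ l₁ l₂ Q M₀ B : ℝ} {m α a : ℕ → ℝ}

theorem laws8_of (hP : Par T b₀ m b l₁ l₂ Q α a) (hΦ : IsPotential Φ) (hg : GoodDatum f₀ κ)
    (hB : RW.StableWith Φ B) (hM : 0 ≤ M₀)
    (hf : ∀ z, f₀ z ≤ M₀ * Real.exp (-b₀ * ‖z.2‖ ^ 2))
    (hx : ∀ v : E3, ∫⁻ x : E3, ENNReal.ofReal (f₀ (x, v)) ≤
      ENNReal.ofReal (M₀ * Real.exp (-b₀ * ‖v‖ ^ 2)))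
    (hcap : ∀ᶠ L in atTop, CapT Φ f₀ L T (b₀ / 2) m) (hI1 : ∀ᶠ L in atTop, Cap.InI1 Φ f₀ L T)
    (hb : ∀ q, Law8 hΦ f₀ T (b₀ / 2) (a8 T m) (dD hΦ f₀) (dTh b T l₁ l₂ a hΦ f₀ T)
      (AU.dF hΦ f₀) (fun L δ => dTh b T l₁ l₂ a hΦ f₀ δ L) (lam8B hΦ (b₀ / 2) T m q))
    (hcr : Cr8 hΦ f₀ T (b₀ / 2) (b / 2) (a8 T m)) :
    Laws8 hΦ f₀ T b₀ b l₁ l₂ m a (dD hΦ f₀) (dTh b T l₁ l₂ a hΦ f₀ T) (AU.dF hΦ f₀)
      (fun L δ => dTh b T l₁ l₂ a hΦ f₀ δ L) := by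
  have hb₀ := hP.b₀0
  have hb0 := hP.b0
  have hm2 : m2 f₀ < ∞ := m2_lt_top hg hM hb₀ hx
  have ha : ∑' n, a8 T m n ≠ ∞ := by
    have h := tsum_a8_ne_top (T := T) hP.msup (A := 1) ENNReal.one_ne_top
    simpa using h
  have hbβ : b / 2 ≤ b₀ / 2 := by
    rw [hP.hb]
    linarith
  obtain ⟨K₁, hK₁, h₁⟩ := mainP8_fXp hP hΦ hg hB hm2 hM hf hcap hI1
  obtain ⟨K₂, hK₂, h₂⟩ := mainP8_f9c hP hΦ hg hB hm2 hM hf hcap hI1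
  exact
  { r2 := law8_lam8R hP hΦ hg hB hm2 2 ha
    a2 := law8_lam8A hP hΦ hg hB hm2 2 ha
    b2 := hb 2
    a3 := law8_lam8A hP hΦ hg hB hm2 3 ha
    b3 := hb 3
    c2 := law8_C hP hΦ hg hB hm2 2 ha
    c3 := law8_C hP hΦ hg hB hm2 3 ha
    d2 := law8_D hP hΦ hg hB hm2 2 ha
    d3 := law8_D hP hΦ hg hB hm2 3 ha
    f := law8_lam8F hP hΦ hg hB hm2 (half_pos hb0) hbβ
      (fun A hA => tsum_wgt_pow_ne_top hP.wts l₁ l₂ T hA) ha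
    xp := ⟨K₁, 3, hK₁, h₁⟩
    p9c := ⟨K₂, 3, hK₂, h₂⟩
    cr := hcr }

end Vale.Agent.P119.PB
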