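import Vale.Agent.P119.PB.MainV
import Vale.Agent.P119.PB.BLA3
import Vale.Agent.P119.PB.LamT

/-!
# P119, P8: the main terms and the mass, for the laws dominated by a sum of laws A (`helper755`)

* `DomA`: a law is dominated by a sum of laws A, with the weights `v` of the depth of `e`;
* `EbA_le`: the bound of 860 in terms of the quantities of P8;
* `main8_domA`: `Main8`;
* `mass8_domA`: the mass.
-/

open MeasureTheory Set Filter Topology Metric ProbabilityTheory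
open scoped ENNReal

noncomputable section

namespace Vale.Agent.P119.PB

open M CTree KU FB RB AU FL TL EN

/-- **A law which is dominated by a sum of laws A.** -/
def DomA (ε bE b t t' : ℝ) (v : ℕ → ℝ≥0∞) (kV : ℝ≥0∞ → ℝ≥0∞) (lam : Measure (Src × Src)) : Prop :=
  ∃ t₂ ≤ t', ∃ (K : Type) (_ : Countable K) (c : K → ℝ≥0∞) (N : K → ℕ) (S : K → ℕ → Step)
    (dE dM : K → ℕ) (β : ∀ k, XA (N k) → ℝ), (∀ k, Measurable (β k)) ∧
    (∀ k, ∀ x ∈ evA ε t t₂ (S k), (endA ε (S k) x).1 ≤ β k x) ∧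
    lam ≤ lamS ε bE b t t₂ c N S dE dM β ∧ ∀ x, kpS (fun k => c k * v (dE k)) N x ≤ kV x

variable {Φ : E3 → ℝ} {ε : ℝ} {L : ℕ} {hΦ : IsPotential Φ} {hε : 0 < ε} {f₀ : Ph → ℝ}
  {κ bE b b' t t' η η' w δ B Tm β : ℝ}

/-! ### The bound in the mean -/

/-- The constant of the bound in the mean. -/
def Cx (B T : ℝ) : ℝ := 7 * T + 2 * cY B T + 2 * (2 * |cDD B 1| * T + 2 * (1 + T)) * T

theorem Cx_nonneg (hB : 0 ≤ B) (hT : 0 ≤ Tm) : 0 ≤ Cx B Tm := by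
  have h := cY_nonneg hB hT
  have h1 := abs_nonneg (cDD B 1)
  unfold Cx
  positivity

/-- **The bound in the mean, in terms of the quantities of P8.** -/
theorem EbA_le {bN T' l₁ l₂ : ℝ} {a' : ℕ → ℝ} {δ₁ : ℝ≥0∞} (hB : 0 ≤ B) (hbN : 0 < bN) (hT' : 0 < T')
    (hβ : bN ≤ β) (hl₁ : 0 ≤ l₁) (hl₂ : 0 ≤ l₂) (ha' : ∀ n, 0 < a' n) (ht : 0 ≤ t) (htm : t ≤ Tm)
    (hδ : 0 < δ) (hεδ : ε ≤ δ) (hδ1 : δ ≤ 1) (hδ₁ : δ₁ ≤ ENNReal.ofReal δ) (hη : 0 < η)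
    (hηη : η ≤ η') (n : ℕ) :
    EbA L hΦ hε f₀ B Tm β t δ η η' w δ₁ n ≤ vA a' n *
      (ENNReal.ofReal (Cx B Tm * (η' / δ ^ 3 + δ)) * (DD L hΦ hε f₀ η' t +
          Nm bN T' l₁ l₂ a' t (thL L hΦ hε f₀ η' t w) + FF L hΦ hε f₀ η' t) +
        ENNReal.ofReal (Cx B Tm) * Nm bN T' l₁ l₂ a' t (thL L hΦ hε f₀ η' t δ) +
        ENNReal.ofReal (1 / δ ^ 3) * (2 * cT3 L hΦ hε f₀ β η t)) := by
  have hTm : 0 ≤ Tm := ht.trans htm
  have hη' : 0 < η' := hη.trans_le hηη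
  have hcY := cY_nonneg hB hTm
  have habs := abs_nonneg (cDD B 1)
  set i : ℝ≥0∞ := (ENNReal.ofReal (a' n))⁻¹ with hi
  set v : ℝ≥0∞ := vA a' n with hv
  have hiv : i ≤ v := le_add_self
  have h1v : 1 ≤ v := one_le_vA a' n
  set Θ := Nm bN T' l₁ l₂ a' t (thL L hΦ hε f₀ η' t w) with hΘ
  set W := Nm bN T' l₁ l₂ a' t (thL L hΦ hε f₀ η' t δ) with hW
  set D := DD L hΦ hε f₀ η' t with hD
  set F := FF L hΦ hε f₀ η' t with hF
  set S := cT3 L hΦ hε f₀ β η t with hS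
  have htT : ENNReal.ofReal t ≤ ENNReal.ofReal Tm := ENNReal.ofReal_le_ofReal htm
  have e1 : (srcJ β t fun y => thL L hΦ hε f₀ η' t δ (srcN n y)) ≤ ENNReal.ofReal Tm * (v * W) :=
    (srcJ_le_Nm hbN hT' hβ hl₁ hl₂ (ha' n)).trans
      (mul_le_mul' htT (mul_le_mul' hiv le_rfl))
  have e2 : (srcJ β t fun y => thL L hΦ hε f₀ η' t w (srcN n y)) ≤ ENNReal.ofReal Tm * (v * Θ) :=
    (srcJ_le_Nm hbN hT' hβ hl₁ hl₂ (ha' n)).trans
      (mul_le_mul' htT (mul_le_mul' hiv le_rfl))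
  have e3 : 4 * δ₁ + 2 * ENNReal.ofReal δ ≤ ENNReal.ofReal (6 * δ) := by
    calc 4 * δ₁ + 2 * ENNReal.ofReal δ ≤ 4 * ENNReal.ofReal δ + 2 * ENNReal.ofReal δ := by gcongr
      _ = 6 * ENNReal.ofReal δ := by ring
      _ = _ := by rw [ENNReal.ofReal_mul (by norm_num)]; norm_num
  have e4 : FF L hΦ hε f₀ η t ≤ F := FF_mono_time hη hηη ht le_rfl
  have e5 : ENNReal.ofReal (cY B Tm * (ε + δ)) ≤ ENNReal.ofReal (2 * cY B Tm * δ) := by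
    refine ENNReal.ofReal_le_ofReal ?_
    nlinarith
  have e6 : ENNReal.ofReal (2 * cDD B 1 * t + 2 * (ε + t)) * ENNReal.ofReal η ≤
      ENNReal.ofReal ((2 * |cDD B 1| * Tm + 2 * (1 + Tm)) * η') := by
    rw [ENNReal.ofReal_mul (by positivity)]
    refine mul_le_mul' (ENNReal.ofReal_le_ofReal ?_) (ENNReal.ofReal_le_ofReal hηη)
    have h3 : cDD B 1 * t ≤ |cDD B 1| * Tm :=
      (mul_le_mul_of_nonneg_right (le_abs_self _) ht).trans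
        (mul_le_mul_of_nonneg_left htm habs)
    have h4 : ε ≤ 1 := hεδ.trans hδ1
    linarith
  have hC := Cx_nonneg hB hTm (B := B) (Tm := Tm)
  set Cc := 2 * |cDD B 1| * Tm + 2 * (1 + Tm) with hCc
  have hCc0 : 0 ≤ Cc := by positivity
  have hd3 : 0 < δ ^ 3 := by positivity
  have hq : 0 < η' / δ ^ 3 := by positivity
  -- the coefficients
  have c1 : ENNReal.ofReal Tm ≤ ENNReal.ofReal (Cx B Tm) := by
    refine ENNReal.ofReal_le_ofReal ?_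
    unfold Cx
    nlinarith [mul_nonneg hCc0 hTm]
  have c2 : ENNReal.ofReal (6 * δ) * ENNReal.ofReal Tm + ENNReal.ofReal (1 / δ ^ 3) *
      (ENNReal.ofReal (Cc * η') * (2 * ENNReal.ofReal Tm)) ≤
      ENNReal.ofReal (Cx B Tm * (η' / δ ^ 3 + δ)) := by
    rw [show (2 : ℝ≥0∞) = ENNReal.ofReal 2 by norm_num, ← ENNReal.ofReal_mul (by positivity),
      ← ENNReal.ofReal_mul (by norm_num), ← ENNReal.ofReal_mul (by positivity),
      ← ENNReal.ofReal_mul (by positivity), ← ENNReal.ofReal_add (by positivity) (by positivity)]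
    refine ENNReal.ofReal_le_ofReal ?_
    have h1 : 1 / δ ^ 3 * (Cc * η' * (2 * Tm)) = (2 * Cc * Tm) * (η' / δ ^ 3) := by ring
    rw [h1]
    have h2 : 6 * Tm ≤ Cx B Tm := by
      unfold Cx
      nlinarith [mul_nonneg hCc0 hTm]
    have h3 : 2 * Cc * Tm ≤ Cx B Tm := by
      unfold Cx
      rw [← hCc]
      nlinarith
    calc 6 * δ * Tm + 2 * Cc * Tm * (η' / δ ^ 3) = (6 * Tm) * δ + (2 * Cc * Tm) * (η' / δ ^ 3) := by
          ring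
      _ ≤ Cx B Tm * δ + Cx B Tm * (η' / δ ^ 3) :=
          add_le_add (mul_le_mul_of_nonneg_right h2 hδ.le) (mul_le_mul_of_nonneg_right h3 hq.le)
      _ = _ := by ring
  have c3 : ENNReal.ofReal (2 * cY B Tm * δ) ≤ ENNReal.ofReal (Cx B Tm * (η' / δ ^ 3 + δ)) := by
    refine ENNReal.ofReal_le_ofReal ?_
    have h2 : 2 * cY B Tm ≤ Cx B Tm := by
      unfold Cx
      nlinarith [mul_nonneg hCc0 hTm]
    calc 2 * cY B Tm * δ ≤ Cx B Tm * δ := mul_le_mul_of_nonneg_right h2 hδ.le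
      _ ≤ Cx B Tm * (η' / δ ^ 3 + δ) := mul_le_mul_of_nonneg_left (by linarith) hC
  unfold EbA
  calc _ ≤ (ENNReal.ofReal Tm * (v * W) + ENNReal.ofReal (6 * δ) * (ENNReal.ofReal Tm * (v * Θ)) +
        ENNReal.ofReal (2 * cY B Tm * δ) * (D + F)) +
        ENNReal.ofReal (1 / δ ^ 3) * (2 * S + ENNReal.ofReal (Cc * η') *
          (2 * (ENNReal.ofReal Tm * (v * Θ)))) := by
        gcongr
    _ = v * (ENNReal.ofReal Tm * W) +
        v * ((ENNReal.ofReal (6 * δ) * ENNReal.ofReal Tm + ENNReal.ofReal (1 / δ ^ 3) *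
          (ENNReal.ofReal (Cc * η') * (2 * ENNReal.ofReal Tm))) * Θ) +
        1 * (ENNReal.ofReal (2 * cY B Tm * δ) * (D + F)) +
        1 * (ENNReal.ofReal (1 / δ ^ 3) * (2 * S)) := by ring
    _ ≤ v * (ENNReal.ofReal (Cx B Tm) * W) +
        v * (ENNReal.ofReal (Cx B Tm * (η' / δ ^ 3 + δ)) * Θ) +
        v * (ENNReal.ofReal (Cx B Tm * (η' / δ ^ 3 + δ)) * (D + F)) +
        v * (ENNReal.ofReal (1 / δ ^ 3) * (2 * S)) := by
        gcongr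
    _ = _ := by ring

/-! ### The mass -/

theorem mass_Y {bN T' l₁ l₂ : ℝ} {a' : ℕ → ℝ} {δ₁ : ℝ≥0∞} (h₀ : GoodDatum f₀ κ) (hbN : 0 < bN)
    (hT' : 0 < T') (hβ : bN ≤ β) (hl₁ : 0 ≤ l₁) (hl₂ : 0 ≤ l₂) (ha' : ∀ n, 0 < a' n) (ht : 0 ≤ t)
    (htm : t ≤ Tm) (htw : t ≤ w) (hη : 0 < η) (hηη : η ≤ η') (hδ₁ : δ₁ ≤ 2⁻¹) {H : Set Src}
    (hH : ∀ e ∈ H, 0 ≤ e.1 ∧ e.2.2 ≤ L)
    (hG : ∀ e ∈ H, rE6 L hΦ hε f₀ η (η' - η) t e ≤ δ₁ * tE6 L hΦ hε f₀ η t e) (n : ℕ) :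
    (srcJ β t fun y => ind ((y.1, y.2, n) ∈ H) * tE6 L hΦ hε f₀ η t (y.1, y.2, n)) ≤
      vA a' n * (2 * ENNReal.ofReal Tm * Nm bN T' l₁ l₂ a' t (thL L hΦ hε f₀ η' t w)) := by
  have h1 : (srcJ β t fun y => ind ((y.1, y.2, n) ∈ H) * tE6 L hΦ hε f₀ η t (y.1, y.2, n)) ≤
      srcJ β t fun y => 2 * thL L hΦ hε f₀ η' t w (srcN n y) := by
    refine srcJ_mono fun y => ?_
    by_cases hy : (y.1, y.2, n) ∈ H
    swap
    · rw [ind_of_not hy, zero_mul]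
      exact zero_le
    rw [ind_of hy, one_mul]
    obtain ⟨h2, h3⟩ := hH _ hy
    have h4 := tE6_le_two_theta (L := L) (hΦ := hΦ) (hε := hε) (w := w) h₀ h2 hη
      (sub_nonneg.2 hηη) ht htw hδ₁ (hG _ hy)
    rw [add_sub_cancel] at h4
    have h5 : thL L hΦ hε f₀ η' t w (srcN n y) = theta L hΦ hε f₀ η' t w (srcN n y) := if_pos h3
    rw [h5]
    exact h4
  refine h1.trans ?_
  rw [srcJ_const_mul (by norm_num)]
  calc 2 * (srcJ β t fun y => thL L hΦ hε f₀ η' t w (srcN n y))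
      ≤ 2 * (ENNReal.ofReal Tm * (vA a' n * Nm bN T' l₁ l₂ a' t (thL L hΦ hε f₀ η' t w))) :=
        mul_le_mul' le_rfl ((srcJ_le_Nm hbN hT' hβ hl₁ hl₂ (ha' n)).trans
          (mul_le_mul' (ENNReal.ofReal_le_ofReal htm) (mul_le_mul' le_add_self le_rfl)))
    _ = _ := by ring

/-! ### The main terms -/

/-- **`Main8` for the laws which are dominated by a sum of laws A.** -/
theorem main8_domA {bN T l₁ l₂ : ℝ} {a' : ℕ → ℝ} {a : ℕ → ℝ≥0∞} {kV : ℝ≥0∞ → ℝ≥0∞}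
    {lam : Lam8} (hΦ : IsPotential Φ) (h₀ : GoodDatum f₀ κ) (hm : m2 f₀ < ∞)
    (hB : RW.StableWith Φ B) (hb : 0 < b) (hbE : b ≤ bE) (hbb : b ≤ b') (hbN : 0 < bN)
    (hβ : bN ≤ bE / 2) (hT : 0 < T) (hl₁ : 0 ≤ l₁) (hl₂ : 0 ≤ l₂) (ha' : ∀ n, 0 < a' n)
    (ha : ∑' k, a k ≠ ∞) (hkV : ∀ x, x ≠ ∞ → kV x ≠ ∞)
    (hok : ∀ᶠ L in atTop, ∀ᶠ ε in 𝓝[>] (0 : ℝ), ∀ hε : 0 < ε, ∀ t ∈ Icc 0 T,
      ∀ᵐ x ∂(lam L ε hε t), 0 ≤ x.1.1 ∧ x.1.2.2 ≤ L ∧ 0 ≤ x.2.1)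
    (hdom : ∀ᶠ L in atTop, ∀ᶠ ε in 𝓝[>] (0 : ℝ), ∀ hε : 0 < ε, ∀ t ∈ Icc 0 T,
      DomA ε bE b t (T + 1) (vA a') kV (lam L ε hε t)) :
    ∃ (K : ℝ) (p : ℕ), 1 ≤ K ∧ Main8 hΦ f₀ T b' a (dD hΦ f₀) (dTh bN T l₁ l₂ a' hΦ f₀ T)
      (AU.dF hΦ f₀) (fun L δ => dTh bN T l₁ l₂ a' hΦ f₀ δ L) K p lam := by
  have hB0 := hB.1
  have hbE0 : 0 < bE := hb.trans_le hbE
  set x₀ : ℝ≥0∞ := xA b (T + 1) with hx₀
  have hx₀t : x₀ ≠ ∞ := xA_ne_top b (T + 1)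
  set M : ℝ≥0∞ := ∑' k, a k with hM
  set S : ℝ≥0∞ := ∑' j, fS (M * (3 * x₀)) j with hS
  have hxt : M * (3 * x₀) ≠ ∞ := ENNReal.mul_ne_top ha (ENNReal.mul_ne_top (by norm_num) hx₀t)
  have hSt : S ≠ ∞ := tsum_fS_ne_top hxt
  set kv : ℝ≥0∞ := kV x₀ with hkv
  have hkvt : kv ≠ ∞ := hkV _ hx₀t
  set KK : ℝ≥0∞ := KA hΦ bE b (T + 1) M with hKK
  have hKKt : KK ≠ ∞ := KA_ne_top hb ha
  set CY : ℝ≥0∞ := K1.sig univ * I0 (b / 2) * (ENNReal.ofReal (1 + 1 / √bE) *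
    (2 * ENNReal.ofReal T)) with hCY
  have hCYt : CY ≠ ∞ := ENNReal.mul_ne_top (ENNReal.mul_ne_top K1.sig_univ_lt.ne
    (I0_ne_top (by positivity))) (ENNReal.mul_ne_top ENNReal.ofReal_ne_top
      (ENNReal.mul_ne_top (by norm_num) ENNReal.ofReal_ne_top))
  set C₁ : ℝ≥0∞ := kv * S * KK with hC₁
  have hC₁t : C₁ ≠ ∞ := ENNReal.mul_ne_top (ENNReal.mul_ne_top hkvt hSt) hKKt
  set r₁ : ℝ := C₁.toReal with hr₁
  have hr₁0 : 0 ≤ r₁ := ENNReal.toReal_nonneg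
  have hC₁r : C₁ = ENNReal.ofReal r₁ := (ENNReal.ofReal_toReal hC₁t).symm
  have hCx := Cx_nonneg hB0 hT.le (B := B) (Tm := T)
  set K : ℝ := r₁ * Cx B T + 2 with hK
  have hrC : 0 ≤ r₁ * Cx B T := mul_nonneg hr₁0 hCx
  have hK1 : 1 ≤ K := by linarith
  refine ⟨K, 3, hK1, ?_⟩
  filter_upwards [hok, hdom, eventually_ge_atTop 1] with L hok hdom hL δ hδ η η' hη hηη hη'1 δ₁
    hδ₁ hδ₁δ ρ hρ
  have hδ0 := hδ.1
  have hη' : 0 < η' := hη.trans hηη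
  obtain ⟨J₀, hJ₀⟩ := fS_small hxt (ENNReal.mul_ne_top hkvt hCYt) (ENNReal.ofReal_pos.2 hδ0)
  refine ⟨J₀, fun J hJ => ?_⟩
  have hct : C₁ * (ENNReal.ofReal (1 / δ ^ 3) * 2) ≠ ∞ := ENNReal.mul_ne_top hC₁t
    (ENNReal.mul_ne_top ENNReal.ofReal_ne_top (by norm_num))
  filter_upwards [hok, hdom, card_TE_small hΦ hB h₀ hm (b := bE / 2) (by positivity) T L hρ hct,
    Ioc_mem_nhdsGT hδ0] with ε hok hdom hc hεδ hε t ht G hGm hGX
  refine ⟨fun x => x.1.1 + δ, measurable_fst.fst.add_const δ, ?_⟩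
  obtain ⟨t₂, ht₂, K', _, c, N, S', dE, dM, β, hβm, hend, hle, hkp⟩ := hdom hε t ht
  -- the set of the sources
  set H : Set Src := G ∩ {e | 0 ≤ e.1 ∧ e.2.2 ≤ L} with hH
  have hHm : MeasurableSet H := hGm.inter ((measurableSet_le measurable_const measurable_fst).inter
    (measurableSet_le measurable_snd.snd measurable_const))
  have e1 : ∫⁻ x, ind (x.1 ∈ G) * Mn6 L hΦ hε f₀ b' a η t T (x.1.1 + δ) (T + 1) J x.1 x.2
      ∂(lam L ε hε t) = ∫⁻ x, ind (x.1 ∈ H) * Mn6 L hΦ hε f₀ b' a η t T (x.1.1 + δ) (T + 1) J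
        x.1 x.2 ∂(lam L ε hε t) := by
    refine lintegral_congr_ae ?_
    filter_upwards [hok hε t ht] with x hx
    by_cases h : x.1 ∈ G
    · rw [ind_of h, ind_of (show x.1 ∈ H from ⟨h, hx.1, hx.2.1⟩)]
    · rw [ind_of_not h, ind_of_not fun h' : x.1 ∈ H => h h'.1]
  rw [e1]
  set D := DD L hΦ hε f₀ η' t with hD
  set F := FF L hΦ hε f₀ η' t with hF
  set Θ := Nm bN T l₁ l₂ a' t (thL L hΦ hε f₀ η' t T) with hΘ
  set W := Nm bN T l₁ l₂ a' t (thL L hΦ hε f₀ η' t δ) with hW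
  set c3 := cT3 L hΦ hε f₀ (bE / 2) η t with hc3
  set q : ℝ := η' / δ ^ 3 + δ with hq
  have hq0 : 0 < q := by positivity
  set Xb : ℝ≥0∞ := ENNReal.ofReal (Cx B T * q) * (D + Θ + F) + ENNReal.ofReal (Cx B T) * W +
    ENNReal.ofReal (1 / δ ^ 3) * (2 * c3) with hXb
  have hE : ∀ (n : ℕ) (R : ℕ → Step) (d : ℕ), ∫⁻ x, ind (((srcA ε x).1, (srcA ε x).2, d) ∈ H) *
      F6 L hΦ hε f₀ b' a η t T ((srcA ε x).1 + δ) (((srcA ε x).1, (srcA ε x).2, d)) (endA ε R x).1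
        (endA ε R x).2 ∂(lawA ε bE b t (T + 1) n R) ≤ fS x₀ n * (vA a' d * (KK * Xb)) := by
    intro n R d
    refine (F6_A h₀ ha hB hb hbE hbb hδ0 hδ.2 (by linarith [hδ.2]) hη hηη.le ht.1 ht.2
      (by linarith [ht.2]) ht.2 hδ₁ hHm (fun e he => he.2.2) (fun e he _ => hGX e he.1)).trans ?_
    refine mul_le_mul' le_rfl ?_
    have h3 := EbA_le (L := L) (hΦ := hΦ) (hε := hε) (f₀ := f₀) (w := T) (B := B) hB0 hbN hT hβ
      hl₁ hl₂ ha' ht.1 ht.2 hδ0 hεδ.2 hδ.2 hδ₁δ hη hηη.le d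
    calc KK * EbA L hΦ hε f₀ B T (bE / 2) t δ η η' T δ₁ d ≤ KK * (vA a' d * Xb) :=
          mul_le_mul' le_rfl h3
      _ = _ := by ring
  have hY : ∀ (n : ℕ) (R : ℕ → Step) (d : ℕ), ∫⁻ x, ind (((srcA ε x).1, (srcA ε x).2, d) ∈ H) *
      tE6 L hΦ hε f₀ η t (((srcA ε x).1, (srcA ε x).2, d)) ∂(lawA ε bE b t (T + 1) n R) ≤
        fS x₀ n * (vA a' d * (CY * Θ)) := by
    intro n R d
    refine (lawA_tE6_le h₀ hb hbE0 (by linarith) (by linarith [ht.2]) hHm d).trans ?_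
    refine mul_le_mul' (fS_mono (X1_le b (T + 1)) n) ?_
    have h3 := mass_Y (L := L) (hΦ := hΦ) (hε := hε) (w := T) (T' := T) h₀ hbN hT hβ hl₁ hl₂ ha'
      ht.1 ht.2 ht.2 hη hηη.le hδ₁ (H := H) (fun e he => he.2) (fun e he => hGX e he.1) d
    calc _ ≤ K1.sig univ * I0 (b / 2) * (ENNReal.ofReal (1 + 1 / √bE) *
          (vA a' d * (2 * ENNReal.ofReal T * Θ))) :=
          mul_le_mul' le_rfl (mul_le_mul' le_rfl h3)
      _ = _ := by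
          rw [hCY]
          ring
  have hmain := main_lamSV (L := L) (hΦ := hΦ) (hε := hε) (vA a') h₀ hbb ht₂ hη ht.1 ht.2 hHm
    (a := a) hβm hend hle J hE hY
  refine hmain.trans ?_
  have hsum : ∑ j ∈ Finset.range J, fS (M * (3 * x₀)) j ≤ S := sum_fS_le _ J
  have hR : R8 K 3 (dD hΦ f₀) (dTh bN T l₁ l₂ a' hΦ f₀ T) (AU.dF hΦ f₀)
      (fun L δ => dTh bN T l₁ l₂ a' hΦ f₀ δ L) L δ η' ε t =
      ENNReal.ofReal (K ^ L * q) * (D + Θ + F) + ENNReal.ofReal (K ^ L) * W := by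
    unfold R8
    beta_reduce
    rw [dD_pos hε, dF_pos hε, dTh_pos hε, dTh_pos hε]
  rw [hR]
  have hKL : K ≤ K ^ L := le_self_pow₀ hK1 (by omega)
  have k1 : C₁ * ENNReal.ofReal (Cx B T * q) + ENNReal.ofReal δ ≤ ENNReal.ofReal (K ^ L * q) := by
    rw [hC₁r, ← ENNReal.ofReal_mul hr₁0, ← ENNReal.ofReal_add (by positivity) hδ0.le]
    refine ENNReal.ofReal_le_ofReal ?_
    have h3 : δ ≤ q := by
      have : 0 ≤ η' / δ ^ 3 := by positivity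
      linarith
    calc r₁ * (Cx B T * q) + δ ≤ r₁ * Cx B T * q + 1 * q := by linarith
      _ ≤ K * q := by
          rw [← add_mul]
          exact mul_le_mul_of_nonneg_right (by linarith) hq0.le
      _ ≤ _ := mul_le_mul_of_nonneg_right hKL hq0.le
  have k2 : C₁ * ENNReal.ofReal (Cx B T) ≤ ENNReal.ofReal (K ^ L) := by
    rw [hC₁r, ← ENNReal.ofReal_mul hr₁0]
    exact ENNReal.ofReal_le_ofReal (by linarith)
  have k3 : C₁ * (ENNReal.ofReal (1 / δ ^ 3) * 2) * c3 ≤ ENNReal.ofReal ρ :=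
    (hc hε η hη t ht).2
  calc kpS (fun k => c k * vA a' (dE k)) N x₀ *
        ((∑ j ∈ Finset.range J, fS (M * (3 * x₀)) j) * (KK * Xb) +
          fS (M * (3 * x₀)) J * (CY * Θ))
      ≤ kv * (S * (KK * Xb) + fS (M * (3 * x₀)) J * (CY * Θ)) :=
        mul_le_mul' (hkp x₀) (add_le_add (mul_le_mul' hsum le_rfl) le_rfl)
    _ = C₁ * Xb + (kv * CY * fS (M * (3 * x₀)) J) * Θ := by
        rw [hC₁]
        ring
    _ ≤ C₁ * Xb + ENNReal.ofReal δ * Θ := by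
        gcongr
        exact hJ₀ J hJ
    _ ≤ C₁ * Xb + ENNReal.ofReal δ * (D + Θ + F) := by
        gcongr
        rw [add_assoc, add_comm]
        rw [add_assoc]
        exact le_self_add
    _ = (C₁ * ENNReal.ofReal (Cx B T * q) + ENNReal.ofReal δ) * (D + Θ + F) +
        C₁ * ENNReal.ofReal (Cx B T) * W + C₁ * (ENNReal.ofReal (1 / δ ^ 3) * 2) * c3 := by
        rw [hXb]
        ring
    _ ≤ _ := add_le_add (add_le_add (mul_le_mul' k1 le_rfl) (mul_le_mul' k2 le_rfl)) k3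

end Vale.Agent.P119.PB
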