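import Vale.Agent.P119.PB.MainE
import Vale.Agent.P119.PB.LamK
import Vale.Agent.P119.PB.BLE
import Vale.Agent.P119.PB.In8b

/-!
# P119, second events: the main terms for sums of laws A, with a weight of the depth (`helper755`)

* `gc_lamS_leV`, `main_lamSV`: the main terms of the iterated second events for `lam ≤ lamS`, from
  the bound for every law A, where the bound depends on the depth of `e`.
-/

open MeasureTheory Set Filter Topology Metric ProbabilityTheory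
open scoped ENNReal

namespace Vale.Agent.P119.PB

open M CTree KU FB RB AU FL TL

variable {Φ : E3 → ℝ} {ε : ℝ} {L : ℕ} {hΦ : IsPotential Φ} {hε : 0 < ε} {f₀ : Ph → ℝ}
  {κ bE b b' t t₂ t' η w δ : ℝ} {K : Type} [Countable K]

/-- **The iterates, for a sum of laws A**, with a weight of the depth of `e`. -/
theorem gc_lamS_leV (v : ℕ → ℝ≥0∞) (hΦ : IsPotential Φ) (hε : 0 < ε) (hb' : b ≤ b') (htt : t₂ ≤ t')
    {c : K → ℝ≥0∞} {N : K → ℕ} {S : K → ℕ → Step} {dE dM : K → ℕ} {β : ∀ k, XA (N k) → ℝ}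
    (hβ : ∀ k, Measurable (β k)) (hend : ∀ k, ∀ x ∈ evA ε t t₂ (S k), (endA ε (S k) x).1 ≤ β k x)
    {lam : Measure (Src × Src)} (hlam : lam ≤ lamS ε bE b t t₂ c N S dE dM β) (j : ℕ)
    {F : Src → ℝ → Ph → ℝ≥0∞} (hF : Measurable fun q : Src × ℝ × Ph => F q.1 q.2.1 q.2.2)
    (hanti : ∀ e s s' l, 0 ≤ s → s ≤ s' → F e s' l ≤ F e s l) {x₀ X : ℝ≥0∞}
    (hE : ∀ (n : ℕ) (R : ℕ → Step) (d : ℕ), ∫⁻ x, F ((srcA ε x).1, (srcA ε x).2, d)
      (endA ε R x).1 (endA ε R x).2 ∂(lawA ε bE b t t' n R) ≤ fS x₀ n * (v d * X)) :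
    ∫⁻ p, Gc hΦ hε.ne' b' t' j (F p.1) p.2.1 p.2.2.1 ∂lam ≤
      kpS (fun k => c k * v (dE k)) N x₀ * (fS (3 * x₀) j * X) := by
  have hG : Measurable fun q : Src × ℝ × Ph => Gc hΦ hε.ne' b' t' j (F q.1) q.2.1 q.2.2 :=
    measurable_Gc_param hΦ hε.ne' b' t' j (X := Src) (F := F) hF
  have hf : Measurable fun p : Src × Src => Gc hΦ hε.ne' b' t' j (F p.1) p.2.1 p.2.2.1 :=
    hG.comp (measurable_fst.prodMk (measurable_snd.fst.prodMk measurable_snd.snd.fst))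
  have hd : ∀ d : ℕ, Measurable fun q : (ℝ × Ph) × ℝ × Ph =>
      F (q.1.1, q.1.2, d) q.2.1 q.2.2 := fun d =>
    hF.comp ((measurable_fst.fst.prodMk (measurable_fst.snd.prodMk measurable_const)).prodMk
      measurable_snd)
  calc ∫⁻ p, Gc hΦ hε.ne' b' t' j (F p.1) p.2.1 p.2.2.1 ∂lam
      ≤ ∫⁻ p, Gc hΦ hε.ne' b' t' j (F p.1) p.2.1 p.2.2.1
          ∂(lamS ε bE b t t₂ c N S dE dM β) := lintegral_mono' hlam le_rfl
    _ = ∑' k, c k * ∫⁻ x, Gc hΦ hε.ne' b' t' j (F ((srcA ε x).1, (srcA ε x).2, dE k)) (β k x)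
          (endA ε (S k) x).2 ∂(lawA ε bE b t t₂ (N k) (S k)) := lintegral_lamS hβ hf
    _ ≤ ∑' k, c k * (fS x₀ (N k) * (fS (3 * x₀) j * (v (dE k) * X))) := by
        refine ENNReal.tsum_le_tsum fun k => mul_le_mul' le_rfl ?_
        refine (lintegral_lawA_mono fun x hx => Gc_anti_nonneg hΦ hε.ne' b' t' j
          (fun s s' l h0 h => hanti _ s s' l h0 h) _ (evA_end_nonneg hx) (hend k x hx)).trans ?_
        exact gc_lawA_le hΦ hε hb' htt (S k) j
          (F := fun y => F (y.1, y.2, dE k)) (hd (dE k)) (fun n R => hE n R (dE k))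
    _ = ∑' k, (c k * v (dE k) * fS x₀ (N k)) * (fS (3 * x₀) j * X) :=
        tsum_congr fun k => by ring
    _ = _ := by
        rw [ENNReal.tsum_mul_right]
        rfl

/-- **The main terms for a sum of laws A**, with a weight of the depth of `e`. -/
theorem main_lamSV (v : ℕ → ℝ≥0∞) (h₀ : GoodDatum f₀ κ) (hb' : b ≤ b') (htt : t₂ ≤ t') (hη : 0 < η) (ht : 0 ≤ t)
    (hw : t ≤ w) {G : Set Src} (hG : MeasurableSet G) {a : ℕ → ℝ≥0∞}
    {c : K → ℝ≥0∞} {N : K → ℕ} {S : K → ℕ → Step} {dE dM : K → ℕ} {β : ∀ k, XA (N k) → ℝ}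
    (hβ : ∀ k, Measurable (β k)) (hend : ∀ k, ∀ x ∈ evA ε t t₂ (S k), (endA ε (S k) x).1 ≤ β k x)
    {lam : Measure (Src × Src)} (hlam : lam ≤ lamS ε bE b t t₂ c N S dE dM β) (J : ℕ)
    {x₀ X Y : ℝ≥0∞}
    (hE : ∀ (n : ℕ) (R : ℕ → Step) (d : ℕ), ∫⁻ x, ind (((srcA ε x).1, (srcA ε x).2, d) ∈ G) *
      F6 L hΦ hε f₀ b' a η t w ((srcA ε x).1 + δ) (((srcA ε x).1, (srcA ε x).2, d)) (endA ε R x).1
        (endA ε R x).2 ∂(lawA ε bE b t t' n R) ≤ fS x₀ n * (v d * X))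
    (hY : ∀ (n : ℕ) (R : ℕ → Step) (d : ℕ), ∫⁻ x, ind (((srcA ε x).1, (srcA ε x).2, d) ∈ G) *
      tE6 L hΦ hε f₀ η t (((srcA ε x).1, (srcA ε x).2, d)) ∂(lawA ε bE b t t' n R) ≤ fS x₀ n * (v d * Y)) :
    ∫⁻ p, ind (p.1 ∈ G) * ((∑ j ∈ Finset.range J, (∑' n, a n) ^ j *
        Gc hΦ hε.ne' b' t' j (F6 L hΦ hε f₀ b' a η t w (p.1.1 + δ) p.1) p.2.1 p.2.2.1) +
      (∑' n, a n) ^ J * Gc hΦ hε.ne' b' t' J (fun _ _ => tE6 L hΦ hε f₀ η t p.1)
        p.2.1 p.2.2.1) ∂lam ≤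
      kpS (fun k => c k * v (dE k)) N x₀ * ((∑ j ∈ Finset.range J, fS ((∑' n, a n) * (3 * x₀)) j) * X +
        fS ((∑' n, a n) * (3 * x₀)) J * Y) := by
  set M : ℝ≥0∞ := ∑' n, a n with hM
  have hpG : Measurable fun p : Src × Src => ind (p.1 ∈ G) := measurable_indG hG measurable_fst
  have hu : Measurable fun p : Src × Src => p.1.1 + δ := measurable_fst.fst.add_const δ
  -- the functions
  set F : Src → ℝ → Ph → ℝ≥0∞ := fun e s l => ind (e ∈ G) *
    F6 L hΦ hε f₀ b' a η t w (e.1 + δ) e s l with hF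
  set H : Src → ℝ → Ph → ℝ≥0∞ := fun e _ _ => ind (e ∈ G) * tE6 L hΦ hε f₀ η t e with hH
  have hF6 : Measurable fun q : Src × ℝ × Ph =>
      F6 L hΦ hε f₀ b' a η t w (q.1.1 + δ) q.1 q.2.1 q.2.2 := by
    have h1 := measurable_F6₂ (L := L) (hΦ := hΦ) (hε := hε) (b := b') (η := η) (t := t) (w := w)
      h₀ (a := a) hu
    exact h1.comp (g := fun q : (Src × Src) × ℝ × Ph =>
      F6 L hΦ hε f₀ b' a η t w (q.1.1.1 + δ) q.1.1 q.2.1 q.2.2)
      (f := fun q : Src × ℝ × Ph => (((q.1, q.1) : Src × Src), q.2))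
      ((measurable_fst.prodMk measurable_fst).prodMk measurable_snd)
  have hFm : Measurable fun q : Src × ℝ × Ph => F q.1 q.2.1 q.2.2 :=
    (measurable_indG hG measurable_fst).mul hF6
  have hHm : Measurable fun q : Src × ℝ × Ph => H q.1 q.2.1 q.2.2 :=
    (measurable_indG hG measurable_fst).mul ((measurable_tE6' h₀).comp measurable_fst)
  have hF6q : ∀ e : Src, Measurable fun q : ℝ × Ph =>
      F6 L hΦ hε f₀ b' a η t w (e.1 + δ) e q.1 q.2 := fun e => measurable_F6 h₀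
  have eF : ∀ j (p : Src × Src), ind (p.1 ∈ G) * (M ^ j *
      Gc hΦ hε.ne' b' t' j (F6 L hΦ hε f₀ b' a η t w (p.1.1 + δ) p.1) p.2.1 p.2.2.1) =
      M ^ j * Gc hΦ hε.ne' b' t' j (F p.1) p.2.1 p.2.2.1 := by
    intro j p
    rw [hF]
    simp only
    rw [Gc_const_mul hΦ hε.ne' b' t' j _ (hF6q p.1)]
    ring
  have eH : ∀ (p : Src × Src), ind (p.1 ∈ G) * (M ^ J *
      Gc hΦ hε.ne' b' t' J (fun _ _ => tE6 L hΦ hε f₀ η t p.1) p.2.1 p.2.2.1) =
      M ^ J * Gc hΦ hε.ne' b' t' J (H p.1) p.2.1 p.2.2.1 := by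
    intro p
    rw [hH]
    simp only
    rw [Gc_const_mul hΦ hε.ne' b' t' J (ind (p.1 ∈ G)) (F := fun _ _ => tE6 L hΦ hε f₀ η t p.1)
      measurable_const]
    ring
  have hGF : ∀ j, Measurable fun p : Src × Src =>
      Gc hΦ hε.ne' b' t' j (F p.1) p.2.1 p.2.2.1 := fun j =>
    (measurable_Gc_param hΦ hε.ne' b' t' j (X := Src) (F := F) hFm).comp
      (measurable_fst.prodMk (measurable_snd.fst.prodMk measurable_snd.snd.fst))
  have bF : ∀ j, ∫⁻ p, Gc hΦ hε.ne' b' t' j (F p.1) p.2.1 p.2.2.1 ∂lam ≤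
      kpS (fun k => c k * v (dE k)) N x₀ * (fS (3 * x₀) j * X) := fun j =>
    gc_lamS_leV v hΦ hε hb' htt hβ hend hlam j hFm (fun e s s' l hs hss => mul_le_mul' le_rfl
      (F6_anti hη ht hw hs hss l)) hE
  have bH : ∫⁻ p, Gc hΦ hε.ne' b' t' J (H p.1) p.2.1 p.2.2.1 ∂lam ≤
      kpS (fun k => c k * v (dE k)) N x₀ * (fS (3 * x₀) J * Y) :=
    gc_lamS_leV v hΦ hε hb' htt hβ hend hlam J hHm (fun e s s' l _ _ => le_rfl) hY
  calc _ = ∫⁻ p, ((∑ j ∈ Finset.range J, M ^ j * Gc hΦ hε.ne' b' t' j (F p.1) p.2.1 p.2.2.1) +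
        M ^ J * Gc hΦ hε.ne' b' t' J (H p.1) p.2.1 p.2.2.1) ∂lam := by
        refine lintegral_congr fun p => ?_
        rw [mul_add, Finset.mul_sum, eH]
        congr 1
        exact Finset.sum_congr rfl fun j _ => eF j p
    _ = (∑ j ∈ Finset.range J, M ^ j * ∫⁻ p, Gc hΦ hε.ne' b' t' j (F p.1) p.2.1 p.2.2.1 ∂lam) +
        ∫⁻ p, M ^ J * Gc hΦ hε.ne' b' t' J (H p.1) p.2.1 p.2.2.1 ∂lam := by
        rw [lintegral_add_left (Finset.measurable_sum _ fun j _ => (hGF j).const_mul _),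
          lintegral_finsetSum _ fun j _ => (hGF j).const_mul _]
        congr 1
        exact Finset.sum_congr rfl fun j _ => lintegral_const_mul _ (hGF j)
    _ ≤ (∑ j ∈ Finset.range J, M ^ j * (kpS (fun k => c k * v (dE k)) N x₀ * (fS (3 * x₀) j * X))) +
        M ^ J * (kpS (fun k => c k * v (dE k)) N x₀ * (fS (3 * x₀) J * Y)) := by
        refine add_le_add (Finset.sum_le_sum fun j _ => mul_le_mul' le_rfl (bF j)) ?_
        have hGH : Measurable fun p : Src × Src =>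
            Gc hΦ hε.ne' b' t' J (H p.1) p.2.1 p.2.2.1 :=
          (measurable_Gc_param hΦ hε.ne' b' t' J (X := Src) (F := H) hHm).comp
            (measurable_fst.prodMk (measurable_snd.fst.prodMk measurable_snd.snd.fst))
        rw [lintegral_const_mul _ hGH]
        exact mul_le_mul' le_rfl bH
    _ = _ := by
        rw [mul_add, Finset.sum_mul, Finset.mul_sum]
        congr 1
        · refine Finset.sum_congr rfl fun j _ => ?_
          rw [← mul_fS M (3 * x₀)]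
          ring
        · rw [← mul_fS M (3 * x₀)]
          ring

end Vale.Agent.P119.PB
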