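import Vale.Agent.P119.PB.TreeMeas
import Vale.Agent.P119.TL.Comb

/-!
# P119, block PROB: marked collision trees and spines (`helper298`)

A node of a tree `T` is given by its two subtrees `a`, `b` and by the spine `r` from the node to the
root: `T = plug m (node a b) r`, where `r i = (o, S)` means that the line collides with the root line
of `S` and that the followed particle is (`o = true`) or is not (`o = false`) the old one.

* `marks T F`: the sum over the nodes of `T` of `F m a b r`; `tsum_exs_le`: it bounds sums over the
  exhausts `TL.exs T`;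
* `SpI Θ m G`: the integral over the spines of length `m`, all the siblings with the measure `Θ`;
* `lintegral_marks_le`: `∫ marks T F d(tree ν L) ≤ ∑_m ∫∫ SpI (tree ν L) m (F m A B) dA dB`.
-/

open MeasureTheory Filter Topology Set
open scoped ENNReal NNReal

noncomputable section

namespace Vale.Agent.P119.M

open KU CTree

/-! ### Spines -/

/-- One more collision of the followed particle. -/
def stepT (X : CTree) (q : Bool × CTree) : CTree := bif q.1 then node X q.2 else node q.2 X

theorem stepT_true (X S : CTree) : stepT X (true, S) = node X S := rfl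

theorem stepT_false (X S : CTree) : stepT X (false, S) = node S X := rfl

/-- The tree with a given spine over the subtree `X`. -/
def plug : (m : ℕ) → CTree → (Fin m → Bool × CTree) → CTree
  | 0, X, _ => X
  | m + 1, X, r => plug m (stepT X (r 0)) fun i => r i.succ

/-- Appending the last vertex of a spine. -/
def snoc {β : Type*} {m : ℕ} (r : Fin m → β) (q : β) : Fin (m + 1) → β :=
  Fin.snoc (α := fun _ => β) r q

theorem snoc_zero {β : Type*} {m : ℕ} (r : Fin (m + 1) → β) (q : β) : snoc r q 0 = r 0 := by
  have : (0 : Fin (m + 2)) = Fin.castSucc 0 := rfl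
  unfold snoc
  rw [this, Fin.snoc_castSucc]

theorem snoc_succ {β : Type*} {m : ℕ} (r : Fin (m + 1) → β) (q : β) :
    (fun i : Fin (m + 1) => snoc r q i.succ) = snoc (fun i => r i.succ) q := by
  funext i
  unfold snoc
  induction i using Fin.lastCases with
  | last =>
    rw [Fin.snoc_last, Fin.succ_last, Fin.snoc_last]
  | cast i =>
    rw [Fin.snoc_castSucc, Fin.succ_castSucc, Fin.snoc_castSucc]

theorem snoc_cons {β : Type*} {m : ℕ} (a : β) (r : Fin m → β) (q : β) :
    snoc (Fin.cons a r : Fin (m + 1) → β) q = Fin.cons a (snoc r q) := by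
  unfold snoc
  exact (Fin.cons_snoc_eq_snoc_cons (β := β) a r q).symm

theorem measurable_snoc {β : Type*} [MeasurableSpace β] {m : ℕ} :
    Measurable fun p : (Fin m → β) × β => snoc p.1 p.2 := by
  refine measurable_pi_iff.2 fun i => ?_
  unfold snoc
  induction i using Fin.lastCases with
  | last => simp only [Fin.snoc_last]; exact measurable_snd
  | cast i =>
    simp only [Fin.snoc_castSucc]
    exact (measurable_pi_apply i).comp measurable_fst

theorem measurable_fcons {β : Type*} [MeasurableSpace β] {m : ℕ} :
    Measurable fun p : β × (Fin m → β) => (Fin.cons p.1 p.2 : Fin (m + 1) → β) := by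
  refine measurable_pi_iff.2 fun i => ?_
  induction i using Fin.cases with
  | zero => simp only [Fin.cons_zero]; exact measurable_fst
  | succ i => simp only [Fin.cons_succ]; exact (measurable_pi_apply i).comp measurable_snd

theorem plug_snoc (m : ℕ) : ∀ (X : CTree) (r : Fin m → Bool × CTree) (q : Bool × CTree),
    plug (m + 1) X (snoc r q) = stepT (plug m X r) q := by
  induction m with
  | zero =>
    intro X r q
    change stepT X (snoc r q 0) = stepT X q
    congr 1
  | succ m ih =>
    intro X r q
    have h1 : plug (m + 2) X (snoc r q) =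
        plug (m + 1) (stepT X (snoc r q 0)) (fun i => snoc r q i.succ) := rfl
    rw [h1, snoc_zero, snoc_succ, ih]
    rfl

/-! ### Sums over the nodes of a tree -/

/-- The sum over the nodes of `T` of `F m a b r`, where `a`, `b` are the subtrees of the node and `r` is the
spine from the node to the root. -/
def marks : CTree → ((m : ℕ) → CTree → CTree → (Fin m → Bool × CTree) → ℝ≥0∞) → ℝ≥0∞
  | leaf _, _ => 0
  | node a b, F => F 0 a b Fin.elim0 + (marks a (fun m x y r => F (m + 1) x y (snoc r (true, b))) +
      marks b (fun m x y r => F (m + 1) x y (snoc r (false, a))))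

theorem marks_mono {T : CTree} : ∀ {F G : (m : ℕ) → CTree → CTree → (Fin m → Bool × CTree) → ℝ≥0∞},
    (∀ m a b r, plug m (node a b) r = T → F m a b r ≤ G m a b r) → marks T F ≤ marks T G := by
  induction T with
  | leaf σ => intro F G _; exact le_rfl
  | node a b iha ihb =>
    intro F G h
    refine add_le_add (h 0 a b _ rfl) (add_le_add (iha fun m x y r hr => ?_)
      (ihb fun m x y r hr => ?_))
    · exact h _ _ _ _ (by rw [plug_snoc, hr]; rfl)
    · exact h _ _ _ _ (by rw [plug_snoc, hr]; rfl)

theorem marks_congr {T : CTree} {F G : (m : ℕ) → CTree → CTree → (Fin m → Bool × CTree) → ℝ≥0∞}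
    (h : ∀ m a b r, plug m (node a b) r = T → F m a b r = G m a b r) : marks T F = marks T G :=
  le_antisymm (marks_mono fun m a b r hr => (h m a b r hr).le)
    (marks_mono fun m a b r hr => (h m a b r hr).ge)

theorem marks_add {T : CTree} :
    ∀ F G : (m : ℕ) → CTree → CTree → (Fin m → Bool × CTree) → ℝ≥0∞,
    marks T (fun m a b r => F m a b r + G m a b r) = marks T F + marks T G := by
  induction T with
  | leaf σ => intro F G; exact (add_zero 0).symm
  | node a b iha ihb =>
    intro F G
    simp only [marks]
    rw [iha, ihb]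
    ring

theorem marks_mul {T : CTree} (c : ℝ≥0∞) :
    ∀ F : (m : ℕ) → CTree → CTree → (Fin m → Bool × CTree) → ℝ≥0∞,
    marks T (fun m a b r => c * F m a b r) = c * marks T F := by
  induction T with
  | leaf σ => intro F; exact (mul_zero c).symm
  | node a b iha ihb =>
    intro F
    simp only [marks]
    rw [iha, ihb]
    ring

open Classical in
/-- Sums over the exhausts are bounded by sums over the nodes. -/
theorem tsum_exs_le {T : CTree} (φ : CTree → ℝ≥0∞) :
    (∑' x : CTree, if x ∈ TL.exs T then φ x else 0) ≤ marks T fun _ a b _ => φ (node b a) := by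
  induction T with
  | leaf σ =>
    refine (ENNReal.tsum_eq_zero.2 fun x => ?_).le
    exact if_neg (notMem_empty x)
  | node a b iha ihb =>
    have h1 : ∀ x : CTree, (if x ∈ TL.exs (node a b) then φ x else 0) ≤
        (if x = node b a then φ x else 0) +
          ((if x ∈ TL.exs a then φ x else 0) + (if x ∈ TL.exs b then φ x else 0)) := by
      intro x
      by_cases h : x ∈ TL.exs (node a b)
      · rw [if_pos h]
        rcases TL.mem_exs_node.1 h with h' | h' | h'
        · rw [if_pos h']
          exact le_add_left le_self_add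
        · rw [if_pos h']
          exact le_add_left le_add_self
        · rw [if_pos h']
          exact le_self_add
      · rw [if_neg h]; exact zero_le
    refine (ENNReal.tsum_le_tsum h1).trans ?_
    rw [ENNReal.tsum_add, ENNReal.tsum_add]
    refine add_le_add (le_of_eq ?_) (add_le_add iha ihb)
    rw [tsum_eq_single (node b a)]
    · exact if_pos rfl
    · intro x hx
      exact if_neg hx

/-- Joint measurability of sums over nodes. -/
theorem measurable_marks {X : Type} [MeasurableSpace X]
    {F : (m : ℕ) → CTree → CTree → (Fin m → Bool × CTree) → X → ℝ≥0∞}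
    (hF : ∀ m, Measurable fun p : (CTree × CTree × (Fin m → Bool × CTree)) × X =>
      F m p.1.1 p.1.2.1 p.1.2.2 p.2) :
    Measurable fun p : CTree × X => marks p.1 fun m a b r => F m a b r p.2 := by
  rw [measurable_ctree_prod]
  intro τ
  induction τ generalizing X with
  | leaf => exact measurable_const
  | node a b iha ihb =>
    have ma : Measurable fun p : (Fin (Shape.node a b).card → Src) × X =>
        fun i : Fin a.card => p.1 (Fin.castAdd b.card i) :=
      measurable_pi_iff.2 fun i => (measurable_pi_apply _).comp measurable_fst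
    have mb : Measurable fun p : (Fin (Shape.node a b).card → Src) × X =>
        fun i : Fin b.card => p.1 (Fin.natAdd a.card i) :=
      measurable_pi_iff.2 fun i => (measurable_pi_apply _).comp measurable_fst
    have ta := (measurable_smk a).comp ma
    have tb := (measurable_smk b).comp mb
    have e : (fun p : (Fin (Shape.node a b).card → Src) × X =>
        marks (Shape.mk (Shape.node a b) p.1) fun m x y r => F m x y r p.2) =
        fun p => F 0 (Shape.mk a fun i => p.1 (Fin.castAdd b.card i))
          (Shape.mk b fun i => p.1 (Fin.natAdd a.card i)) Fin.elim0 p.2 +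
        (marks (Shape.mk a fun i => p.1 (Fin.castAdd b.card i)) (fun m x y r =>
          F (m + 1) x y (snoc r (true, Shape.mk b fun i => p.1 (Fin.natAdd a.card i))) p.2) +
        marks (Shape.mk b fun i => p.1 (Fin.natAdd a.card i)) (fun m x y r =>
          F (m + 1) x y (snoc r (false, Shape.mk a fun i => p.1 (Fin.castAdd b.card i))) p.2)) := rfl
    rw [e]
    refine Measurable.add ?_ (Measurable.add ?_ ?_)
    · exact (hF 0).comp ((ta.prodMk (tb.prodMk measurable_const)).prodMk measurable_snd)
    · have h := iha (X := CTree × X)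
        (F := fun m x y r q => F (m + 1) x y (snoc r (true, q.1)) q.2) (fun m => by
          refine (hF (m + 1)).comp (Measurable.prodMk (Measurable.prodMk ?_
            (Measurable.prodMk ?_ ?_)) ?_)
          · exact measurable_fst.comp measurable_fst
          · exact measurable_fst.comp (measurable_snd.comp measurable_fst)
          · exact measurable_snoc.comp ((measurable_snd.comp (measurable_snd.comp
              measurable_fst)).prodMk (measurable_const.prodMk (measurable_fst.comp
              measurable_snd)))
          · exact measurable_snd.comp measurable_snd)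
      exact h.comp (ma.prodMk (tb.prodMk measurable_snd))
    · have h := ihb (X := CTree × X)
        (F := fun m x y r q => F (m + 1) x y (snoc r (false, q.1)) q.2) (fun m => by
          refine (hF (m + 1)).comp (Measurable.prodMk (Measurable.prodMk ?_
            (Measurable.prodMk ?_ ?_)) ?_)
          · exact measurable_fst.comp measurable_fst
          · exact measurable_fst.comp (measurable_snd.comp measurable_fst)
          · exact measurable_snoc.comp ((measurable_snd.comp (measurable_snd.comp
              measurable_fst)).prodMk (measurable_const.prodMk (measurable_fst.comp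
              measurable_snd)))
          · exact measurable_snd.comp measurable_snd)
      exact h.comp (mb.prodMk (ta.prodMk measurable_snd))

/-! ### Integrals over spines -/

section SpI

variable {β : Type} [MeasurableSpace β]

/-- The integral over the spines of length `m`: the siblings are independent with the measure `Θ`, and
the two choices of the followed particle are summed. -/
def SpI (Θ : Measure β) : (m : ℕ) → ((Fin m → Bool × β) → ℝ≥0∞) → ℝ≥0∞
  | 0, G => G Fin.elim0
  | m + 1, G => ∑ o : Bool, ∫⁻ S, SpI Θ m (fun r => G (Fin.cons (o, S) r)) ∂Θ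

theorem SpI_mono (Θ : Measure β) (m : ℕ) : ∀ {G G' : (Fin m → Bool × β) → ℝ≥0∞},
    (∀ r, G r ≤ G' r) → SpI Θ m G ≤ SpI Θ m G' := by
  induction m with
  | zero => intro G G' h; exact h _
  | succ m ih =>
    intro G G' h
    exact Finset.sum_le_sum fun o _ => lintegral_mono fun S => ih fun r => h _

theorem SpI_mono_measure {Θ Θ' : Measure β} (hΘ : Θ ≤ Θ') (m : ℕ) :
    ∀ (G : (Fin m → Bool × β) → ℝ≥0∞), SpI Θ m G ≤ SpI Θ' m G := by
  induction m with
  | zero => intro G; exact le_rfl
  | succ m ih =>
    intro G
    exact Finset.sum_le_sum fun o _ => lintegral_mono' hΘ fun S => ih _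

variable {Θ : Measure β} [SFinite Θ]

/-- Measurability with respect to a parameter. -/
theorem measurable_SpI (m : ℕ) : ∀ {X : Type} [MeasurableSpace X]
    {G : (Fin m → Bool × β) → X → ℝ≥0∞},
    (Measurable fun p : (Fin m → Bool × β) × X => G p.1 p.2) →
    Measurable fun x => SpI Θ m fun r => G r x := by
  induction m with
  | zero =>
    intro X _ G hG
    exact hG.comp (measurable_const.prodMk measurable_id)
  | succ m ih =>
    intro X _ G hG
    change Measurable fun x => ∑ o : Bool, ∫⁻ S, SpI Θ m (fun r => G (Fin.cons (o, S) r) x) ∂Θ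
    refine Finset.measurable_sum _ fun o _ => ?_
    have h1 : Measurable fun p : X × β => SpI Θ m fun r => G (Fin.cons (o, p.2) r) p.1 := by
      refine ih (X := X × β) (G := fun r p => G (Fin.cons (o, p.2) r) p.1) ?_
      refine hG.comp (Measurable.prodMk ?_ (measurable_fst.comp measurable_snd))
      exact measurable_fcons.comp ((measurable_const.prodMk
        (measurable_snd.comp measurable_snd)).prodMk measurable_fst)
    exact h1.lintegral_prod_right'

theorem SpI_add (m : ℕ) : ∀ {G G' : (Fin m → Bool × β) → ℝ≥0∞}, Measurable G →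
    SpI Θ m (fun r => G r + G' r) = SpI Θ m G + SpI Θ m G' := by
  induction m with
  | zero => intro G G' _; rfl
  | succ m ih =>
    intro G G' hG
    change ∑ o : Bool, _ = (∑ o : Bool, _) + ∑ o : Bool, _
    rw [← Finset.sum_add_distrib]
    refine Finset.sum_congr rfl fun o _ => ?_
    have h1 : Measurable fun S => SpI Θ m (fun r => G (Fin.cons (o, S) r)) :=
      measurable_SpI m (G := fun r S => G (Fin.cons (o, S) r)) (hG.comp (measurable_fcons.comp
        ((measurable_const.prodMk measurable_snd).prodMk measurable_fst)))
    rw [← lintegral_add_left h1]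
    refine lintegral_congr fun S => ?_
    exact ih (hG.comp (measurable_fcons.comp (measurable_const.prodMk measurable_id)))

theorem SpI_mul (m : ℕ) (c : ℝ≥0∞) : ∀ {G : (Fin m → Bool × β) → ℝ≥0∞}, Measurable G →
    SpI Θ m (fun r => c * G r) = c * SpI Θ m G := by
  induction m with
  | zero => intro G _; rfl
  | succ m ih =>
    intro G hG
    change ∑ o : Bool, _ = c * ∑ o : Bool, _
    rw [Finset.mul_sum]
    refine Finset.sum_congr rfl fun o _ => ?_
    have h1 : Measurable fun S => SpI Θ m (fun r => G (Fin.cons (o, S) r)) :=
      measurable_SpI m (G := fun r S => G (Fin.cons (o, S) r)) (hG.comp (measurable_fcons.comp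
        ((measurable_const.prodMk measurable_snd).prodMk measurable_fst)))
    rw [← lintegral_const_mul _ h1]
    refine lintegral_congr fun S => ?_
    exact ih (hG.comp (measurable_fcons.comp (measurable_const.prodMk measurable_id)))

/-- The spine integral commutes with integrals. -/
theorem lintegral_SpI (m : ℕ) : ∀ {X : Type} [MeasurableSpace X] {κ : Measure X} [SFinite κ]
    {G : (Fin m → Bool × β) → X → ℝ≥0∞},
    (Measurable fun p : (Fin m → Bool × β) × X => G p.1 p.2) →
    ∫⁻ x, SpI Θ m (fun r => G r x) ∂κ = SpI Θ m (fun r => ∫⁻ x, G r x ∂κ) := by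
  induction m with
  | zero => intro X _ κ _ G _; rfl
  | succ m ih =>
    intro X _ κ _ G hG
    change ∫⁻ x, ∑ o : Bool, ∫⁻ S, SpI Θ m (fun r => G (Fin.cons (o, S) r) x) ∂Θ ∂κ =
      ∑ o : Bool, ∫⁻ S, SpI Θ m (fun r => ∫⁻ x, G (Fin.cons (o, S) r) x ∂κ) ∂Θ
    have h1 : ∀ o : Bool, Measurable fun p : X × β => SpI Θ m fun r => G (Fin.cons (o, p.2) r) p.1 :=
      fun o => by
      refine measurable_SpI (X := X × β) m (G := fun r p => G (Fin.cons (o, p.2) r) p.1) ?_
      refine hG.comp (Measurable.prodMk ?_ (measurable_fst.comp measurable_snd))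
      exact measurable_fcons.comp ((measurable_const.prodMk
        (measurable_snd.comp measurable_snd)).prodMk measurable_fst)
    rw [lintegral_finsetSum _ fun o _ => (h1 o).lintegral_prod_right']
    refine Finset.sum_congr rfl fun o _ => ?_
    rw [lintegral_lintegral_swap (h1 o).aemeasurable]
    refine lintegral_congr fun S => ?_
    refine ih (G := fun r x => G (Fin.cons (o, S) r) x) ?_
    exact hG.comp ((measurable_fcons.comp (measurable_const.prodMk measurable_fst)).prodMk
      measurable_snd)

/-- The last vertex of the spine first. -/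
theorem SpI_snoc (m : ℕ) : ∀ {G : (Fin (m + 1) → Bool × β) → ℝ≥0∞}, Measurable G →
    SpI Θ (m + 1) G = ∑ o : Bool, ∫⁻ S, SpI Θ m (fun r => G (snoc r (o, S))) ∂Θ := by
  induction m with
  | zero =>
    intro G _
    change ∑ o : Bool, ∫⁻ S, G (Fin.cons (o, S) Fin.elim0) ∂Θ =
      ∑ o : Bool, ∫⁻ S, G (snoc Fin.elim0 (o, S)) ∂Θ
    refine Finset.sum_congr rfl fun o _ => lintegral_congr fun S => ?_
    congr 1
    funext i
    have : i = (0 : Fin 1) := Subsingleton.elim (α := Fin 1) _ _
    subst this
    rfl
  | succ m ih =>
    intro G hG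
    have h1 : ∀ o : Bool, ∀ S : β, SpI Θ (m + 1) (fun r => G (Fin.cons (o, S) r)) =
        ∑ o' : Bool, ∫⁻ S', SpI Θ m (fun r => G (Fin.cons (o, S) (snoc r (o', S')))) ∂Θ :=
      fun o S => ih (hG.comp (measurable_fcons.comp (measurable_const.prodMk measurable_id)))
    have hm : ∀ o o' : Bool, Measurable fun p : β × β =>
        SpI Θ m (fun r => G (Fin.cons (o, p.1) (snoc r (o', p.2)))) := fun o o' => by
      refine measurable_SpI (X := β × β) m (G := fun r p =>
        G (Fin.cons (o, p.1) (snoc r (o', p.2)))) (hG.comp (measurable_fcons.comp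
          (Measurable.prodMk (measurable_const.prodMk (measurable_fst.comp measurable_snd)) ?_)))
      exact measurable_snoc.comp (measurable_fst.prodMk (measurable_const.prodMk
        (measurable_snd.comp measurable_snd)))
    change ∑ o : Bool, ∫⁻ S, SpI Θ (m + 1) (fun r => G (Fin.cons (o, S) r)) ∂Θ = _
    simp only [h1]
    have h2 : ∀ o : Bool, ∫⁻ S, ∑ o' : Bool, ∫⁻ S',
        SpI Θ m (fun r => G (Fin.cons (o, S) (snoc r (o', S')))) ∂Θ ∂Θ =
        ∑ o' : Bool, ∫⁻ S', ∫⁻ S, SpI Θ m (fun r => G (Fin.cons (o, S) (snoc r (o', S')))) ∂Θ ∂Θ :=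
      fun o => by
      rw [lintegral_finsetSum _ fun o' _ => (hm o o').lintegral_prod_right']
      exact Finset.sum_congr rfl fun o' _ => lintegral_lintegral_swap (hm o o').aemeasurable
    simp only [h2]
    rw [Finset.sum_comm]
    refine Finset.sum_congr rfl fun o' _ => ?_
    have hq : ∀ o : Bool, Measurable fun S' =>
        ∫⁻ S, SpI Θ m (fun r => G (Fin.cons (o, S) (snoc r (o', S')))) ∂Θ := fun o =>
      ((hm o o').comp measurable_swap).lintegral_prod_right'
    rw [← lintegral_finsetSum _ fun o _ => hq o]
    refine lintegral_congr fun S' => ?_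
    change _ = ∑ o : Bool, ∫⁻ S, SpI Θ m (fun r => G (snoc (Fin.cons (o, S) r) (o', S'))) ∂Θ
    simp only [snoc_cons]

end SpI

/-! ### The main estimate -/

variable {ν : Measure Ph}

/-- **The marked-node formula** (upper bound). -/
theorem lintegral_marks_le [IsFiniteMeasure ν] (L : ℕ) :
    ∀ {F : (m : ℕ) → CTree → CTree → (Fin m → Bool × CTree) → ℝ≥0∞},
    (∀ m, Measurable fun p : CTree × CTree × (Fin m → Bool × CTree) => F m p.1 p.2.1 p.2.2) →
    ∫⁻ T, marks T F ∂(tree ν L) ≤
      ∑' m, ∫⁻ A, ∫⁻ B, SpI (tree ν L) m (F m A B) ∂(tree ν L) ∂(tree ν L) := by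
  induction L with
  | zero =>
    intro F hF
    have hm : Measurable fun T => marks T F := by
      have h := measurable_marks (X := Unit) (F := fun m a b r _ => F m a b r)
        (fun m => (hF m).comp measurable_fst)
      exact h.comp (measurable_id.prodMk (measurable_const (a := ())))
    rw [lintegral_tree_zero hm]
    have : (fun z : Ph => marks (leaf (src z)) F) = fun _ => 0 := rfl
    rw [this, lintegral_zero]
    exact zero_le
  | succ L ih =>
    intro F hF
    have hm : Measurable fun T => marks T F := by
      have h := measurable_marks (X := Unit) (F := fun m a b r _ => F m a b r)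
        (fun m => (hF m).comp measurable_fst)
      exact h.comp (measurable_id.prodMk (measurable_const (a := ())))
    set Θ := tree ν L with hΘ
    rw [lintegral_tree_succ L hm]
    have h0 : (fun z : Ph => marks (leaf (src z)) F) = fun _ => 0 := rfl
    rw [h0, lintegral_zero, zero_add]
    -- the three parts
    have m0 : Measurable fun p : CTree × CTree => F 0 p.1 p.2 Fin.elim0 :=
      (hF 0).comp (measurable_fst.prodMk (measurable_snd.prodMk measurable_const))
    have mo : ∀ (o : Bool) (m : ℕ), Measurable
        fun p : (CTree × CTree × (Fin m → Bool × CTree)) × CTree =>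
        F (m + 1) p.1.1 p.1.2.1 (snoc p.1.2.2 (o, p.2)) := fun o m =>
      (hF (m + 1)).comp (Measurable.prodMk (measurable_fst.comp measurable_fst)
        (Measurable.prodMk (measurable_fst.comp (measurable_snd.comp measurable_fst))
        (measurable_snoc.comp ((measurable_snd.comp (measurable_snd.comp
        measurable_fst)).prodMk (measurable_const.prodMk measurable_snd)))))
    have mk : ∀ o : Bool, Measurable fun p : CTree × CTree =>
        marks p.1 (fun m x y r => F (m + 1) x y (snoc r (o, p.2))) := fun o =>
      measurable_marks (F := fun m x y r S => F (m + 1) x y (snoc r (o, S))) (mo o)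
    have key : ∀ o : Bool, ∫⁻ S, ∫⁻ A, marks A (fun m x y r => F (m + 1) x y (snoc r (o, S))) ∂Θ ∂Θ ≤
        ∑' m, ∫⁻ A, ∫⁻ B, ∫⁻ S, SpI Θ m (fun r => F (m + 1) A B (snoc r (o, S))) ∂Θ ∂Θ ∂Θ := by
      intro o
      have hS : ∀ m, Measurable fun p : CTree × CTree × CTree =>
          SpI Θ m (fun r => F (m + 1) p.1 p.2.1 (snoc r (o, p.2.2))) := fun m => by
        refine measurable_SpI (X := CTree × CTree × CTree) m
          (G := fun r p => F (m + 1) p.1 p.2.1 (snoc r (o, p.2.2))) ?_
        exact (mo o m).comp (Measurable.prodMk (Measurable.prodMk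
          (measurable_fst.comp measurable_snd) (Measurable.prodMk
          (measurable_fst.comp (measurable_snd.comp measurable_snd)) measurable_fst))
          (measurable_snd.comp (measurable_snd.comp measurable_snd)))
      have h1 : ∀ S, ∫⁻ A, marks A (fun m x y r => F (m + 1) x y (snoc r (o, S))) ∂Θ ≤
          ∑' m, ∫⁻ A, ∫⁻ B, SpI Θ m (fun r => F (m + 1) A B (snoc r (o, S))) ∂Θ ∂Θ := fun S =>
        ih (F := fun m x y r => F (m + 1) x y (snoc r (o, S)))
          (fun m => (mo o m).comp (measurable_id.prodMk measurable_const))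
      refine (lintegral_mono h1).trans (le_of_eq ?_)
      have hA : ∀ m, Measurable fun p : CTree × CTree × CTree =>
          SpI Θ m (fun r => F (m + 1) p.2.1 p.2.2 (snoc r (o, p.1))) := fun m =>
        (hS m).comp ((measurable_fst.comp measurable_snd).prodMk
          ((measurable_snd.comp measurable_snd).prodMk measurable_fst))
      have hB : ∀ m, Measurable fun p : CTree × CTree =>
          ∫⁻ B, SpI Θ m (fun r => F (m + 1) p.2 B (snoc r (o, p.1))) ∂Θ := fun m => by
        have := (hA m).comp (f := fun q : (CTree × CTree) × CTree => (q.1.1, q.1.2, q.2))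
          ((measurable_fst.comp measurable_fst).prodMk
            ((measurable_snd.comp measurable_fst).prodMk measurable_snd))
        exact this.lintegral_prod_right'
      rw [lintegral_tsum fun m => ((hB m).lintegral_prod_right').aemeasurable]
      refine tsum_congr fun m => ?_
      rw [lintegral_lintegral_swap (hB m).aemeasurable]
      refine lintegral_congr fun A => ?_
      have hC : Measurable fun p : CTree × CTree =>
          SpI Θ m (fun r => F (m + 1) A p.2 (snoc r (o, p.1))) :=
        (hA m).comp (measurable_fst.prodMk (measurable_const.prodMk measurable_snd))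
      rw [lintegral_lintegral_swap hC.aemeasurable]
    have e1 : ∀ A B : CTree, marks (node A B) F = F 0 A B Fin.elim0 +
        (marks A (fun m x y r => F (m + 1) x y (snoc r (true, B))) +
          marks B (fun m x y r => F (m + 1) x y (snoc r (false, A)))) := fun _ _ => rfl
    simp only [e1]
    have h2 : ∫⁻ A, ∫⁻ B, F 0 A B Fin.elim0 +
        (marks A (fun m x y r => F (m + 1) x y (snoc r (true, B))) +
          marks B (fun m x y r => F (m + 1) x y (snoc r (false, A)))) ∂Θ ∂Θ =
        ∫⁻ A, ∫⁻ B, F 0 A B Fin.elim0 ∂Θ ∂Θ +
        (∫⁻ A, ∫⁻ B, marks A (fun m x y r => F (m + 1) x y (snoc r (true, B))) ∂Θ ∂Θ +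
         ∫⁻ A, ∫⁻ B, marks B (fun m x y r => F (m + 1) x y (snoc r (false, A))) ∂Θ ∂Θ) := by
      have ha : ∀ A, Measurable fun B => F 0 A B Fin.elim0 := fun A =>
        m0.comp (measurable_const.prodMk measurable_id)
      have hb : ∀ A, Measurable fun B => marks A (fun m x y r => F (m + 1) x y (snoc r (true, B))) :=
        fun A => (mk true).comp (measurable_const.prodMk measurable_id)
      have hc : ∀ A, ∫⁻ B, F 0 A B Fin.elim0 +
          (marks A (fun m x y r => F (m + 1) x y (snoc r (true, B))) +
            marks B (fun m x y r => F (m + 1) x y (snoc r (false, A)))) ∂Θ =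
          ∫⁻ B, F 0 A B Fin.elim0 ∂Θ +
          (∫⁻ B, marks A (fun m x y r => F (m + 1) x y (snoc r (true, B))) ∂Θ +
            ∫⁻ B, marks B (fun m x y r => F (m + 1) x y (snoc r (false, A))) ∂Θ) := fun A => by
        rw [lintegral_add_left (ha A), lintegral_add_left (hb A)]
      simp only [hc]
      rw [lintegral_add_left (m0.lintegral_prod_right'),
        lintegral_add_left ((mk true).lintegral_prod_right')]
    rw [h2]
    have h3 : ∫⁻ A, ∫⁻ B, marks A (fun m x y r => F (m + 1) x y (snoc r (true, B))) ∂Θ ∂Θ ≤
        ∑' m, ∫⁻ A, ∫⁻ B, ∫⁻ S, SpI Θ m (fun r => F (m + 1) A B (snoc r (true, S))) ∂Θ ∂Θ ∂Θ := by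
      rw [lintegral_lintegral_swap (mk true).aemeasurable]
      exact key true
    have h4 : ∫⁻ A, ∫⁻ B, marks B (fun m x y r => F (m + 1) x y (snoc r (false, A))) ∂Θ ∂Θ ≤
        ∑' m, ∫⁻ A, ∫⁻ B, ∫⁻ S, SpI Θ m (fun r => F (m + 1) A B (snoc r (false, S))) ∂Θ ∂Θ ∂Θ :=
      key false
    refine (add_le_add le_rfl (add_le_add h3 h4)).trans ?_
    -- assemble
    have hΘ' : Θ ≤ tree ν (L + 1) := tree_mono (Nat.le_succ L)
    have h5 : ∑' m, ∫⁻ A, ∫⁻ B, SpI Θ m (F m A B) ∂Θ ∂Θ ≤
        ∑' m, ∫⁻ A, ∫⁻ B, SpI (tree ν (L + 1)) m (F m A B) ∂(tree ν (L + 1)) ∂(tree ν (L + 1)) :=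
      ENNReal.tsum_le_tsum fun m => lintegral_mono' hΘ' fun A =>
        lintegral_mono' hΘ' fun B => SpI_mono_measure hΘ' m _
    refine le_trans (le_of_eq ?_) h5
    rw [tsum_eq_zero_add' (f := fun m => ∫⁻ A, ∫⁻ B, SpI Θ m (F m A B) ∂Θ ∂Θ) ENNReal.summable]
    congr 1
    rw [← ENNReal.tsum_add]
    refine tsum_congr fun m => ?_
    have hS : ∀ o : Bool, Measurable fun p : CTree × CTree × CTree =>
        SpI Θ m (fun r => F (m + 1) p.1 p.2.1 (snoc r (o, p.2.2))) := fun o => by
      refine measurable_SpI (X := CTree × CTree × CTree) m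
        (G := fun r p => F (m + 1) p.1 p.2.1 (snoc r (o, p.2.2))) ?_
      exact (mo o m).comp (Measurable.prodMk (Measurable.prodMk
        (measurable_fst.comp measurable_snd) (Measurable.prodMk
        (measurable_fst.comp (measurable_snd.comp measurable_snd)) measurable_fst))
        (measurable_snd.comp (measurable_snd.comp measurable_snd)))
    have hB : ∀ o : Bool, Measurable fun p : CTree × CTree =>
        ∫⁻ S, SpI Θ m (fun r => F (m + 1) p.1 p.2 (snoc r (o, S))) ∂Θ := fun o => by
      have := (hS o).comp (f := fun q : (CTree × CTree) × CTree => (q.1.1, q.1.2, q.2))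
        ((measurable_fst.comp measurable_fst).prodMk
          ((measurable_snd.comp measurable_fst).prodMk measurable_snd))
      exact this.lintegral_prod_right'
    rw [← lintegral_add_left ((hB true).lintegral_prod_right')]
    refine lintegral_congr fun A => ?_
    have hB' : Measurable fun B =>
        ∫⁻ S, SpI Θ m (fun r => F (m + 1) A B (snoc r (true, S))) ∂Θ :=
      (hB true).comp (measurable_const.prodMk measurable_id)
    rw [← lintegral_add_left hB']
    refine lintegral_congr fun B => ?_
    have hG : Measurable (F (m + 1) A B) :=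
      (hF (m + 1)).comp (measurable_const.prodMk (measurable_const.prodMk measurable_id))
    rw [SpI_snoc m hG, Fintype.sum_bool]

end Vale.Agent.P119.M
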