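import Vale.Agent.P119.PB.RelLim
import Vale.Agent.P119.PB.ExcOne
import Vale.Agent.P119.IND.MLaw
import Vale.Agent.P119.RM.Ex6

/-!
# P119, block PROB, P8: one more tree in the laws of the marked pairs (`helper723`)

The sums over the trees which are hit by the line `k` of a marked pair, integrated over the world,
as integrals over one more tree.

* `Ht`: the line `k` hits the line of the tree `R`, after the exit of `R`;
* `W6`, `Str6`, `str6`: the structure with one more tree;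
* `sumHit_le`: the expectation of a sum over the trees which are hit by a fixed line;
* `mecke6`: **the law with one more tree**;
* `law_relB6`: the terms `relHit` and `B6` of the second events.
-/

open MeasureTheory Filter Topology Set
open scoped ENNReal NNReal

noncomputable section

namespace Vale.Agent.P119.PB

open M CTree KU FB RB AU FL GC MM IND PB.CT

namespace M6

variable {Φ : E3 → ℝ} {ε : ℝ} {L : ℕ} {f₀ : Ph → ℝ} {κ₀ b c t θ M₀ : ℝ} {m q : ℕ}

/-! ### The hit -/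

/-- The line `k` hits the line of the tree `R`, after the exit of `R`. -/
structure Ht (Φ : E3 → ℝ) (ε : ℝ) (L : ℕ) (t : ℝ) (k : Src) (R : CTree) : Prop where
  ok : CTree.ok Φ ε R
  depth : R.depth ≤ L
  meets : Meets ε (k.2.1, ln Φ ε R)
  lt : k.1 < hitT ε (k.2.1, ln Φ ε R)
  ext_lt : ext Φ ε R < hitT ε (k.2.1, ln Φ ε R)
  le : hitT ε (k.2.1, ln Φ ε R) ≤ t
  exits : Exits Φ (rel ε (k.2.1, ln Φ ε R))
  notMem : k ∉ R.leaves

theorem Ht.exits' {k : Src} {R : CTree} (h : Ht Φ ε L t k R) (hΦ : IsPotential Φ) :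
    Exits Φ (rel ε (ln Φ ε R, k.2.1)) :=
  (exits_swap hΦ (k.2.1, ln Φ ε R)).2 h.exits

theorem measurableSet_Ht {X : Type} [MeasurableSpace X] (hΦ : IsPotential Φ) (hε : 0 < ε)
    {k : X → Src} {R : X → CTree} (hk : Measurable k) (hR : Measurable R) :
    MeasurableSet {x | Ht Φ ε L t (k x) (R x)} := by
  have hl : Measurable fun x => ln Φ ε (R x) := (M.measurable_ln hΦ hε.ne').comp hR
  have hk2 : Measurable fun x => (k x).2.1 := measurable_fst.comp (measurable_snd.comp hk)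
  have hq : Measurable fun x => ((k x).2.1, ln Φ ε (R x)) := hk2.prodMk hl
  have hh : Measurable fun x => hitT ε ((k x).2.1, ln Φ ε (R x)) := measurable_hitT.comp hq
  have h1 : MeasurableSet {x | CTree.ok Φ ε (R x)} := hR (measurableSet_ok hΦ hε.ne')
  have h2 : MeasurableSet {x | (R x).depth ≤ L} :=
    (M.measurable_depth.comp hR) (measurableSet_Iic (a := L))
  have h3 : MeasurableSet {x | Meets ε ((k x).2.1, ln Φ ε (R x))} := measurableSet_meets.preimage hq
  have h4 : MeasurableSet {x | (k x).1 < hitT ε ((k x).2.1, ln Φ ε (R x))} :=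
    measurableSet_lt hk.fst hh
  have h5 : MeasurableSet {x | ext Φ ε (R x) < hitT ε ((k x).2.1, ln Φ ε (R x))} :=
    measurableSet_lt ((M.measurable_ext hΦ hε.ne').comp hR) hh
  have h6 : MeasurableSet {x | hitT ε ((k x).2.1, ln Φ ε (R x)) ≤ t} :=
    measurableSet_le hh measurable_const
  have h7 : MeasurableSet {x | Exits Φ (rel ε ((k x).2.1, ln Φ ε (R x)))} :=
    RM.measurableSet_exits_pair hΦ hk2 hl
  have h8 : MeasurableSet {x | k x ∉ (R x).leaves} := (measurableSet_tree_mem_leaves hk hR).compl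
  convert h1.inter (h2.inter (h3.inter (h4.inter (h5.inter (h6.inter (h7.inter h8)))))) using 1
  ext x
  simp only [mem_ofPred_eq, mem_inter_iff]
  exact ⟨fun h => ⟨h.ok, h.depth, h.meets, h.lt, h.ext_lt, h.le, h.exits, h.notMem⟩,
    fun ⟨g1, g2, g3, g4, g5, g6, g7, g8⟩ => ⟨g1, g2, g3, g4, g5, g6, g7, g8⟩⟩

/-- **Almost all the trees separate from a fixed line.** -/
theorem ae_exits_tree (h : GoodDatum f₀ κ₀) (hΦ : IsPotential Φ) (hε : 0 < ε) (hb : 0 < b)
    (hM₀ : 0 ≤ M₀) (hf : ∀ z, f₀ z ≤ M₀ * Real.exp (-b * ‖z.2‖ ^ 2)) (L : ℕ) (t : ℝ) (k : Ph) :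
    ∀ᵐ R ∂(tree (inten f₀ ε) L), CTree.ok Φ ε R → ext Φ ε R ≤ t →
      Exits Φ (rel ε (k, ln Φ ε R)) := by
  obtain ⟨C, hC, hl⟩ := line_le hΦ h hb (le_max_left 0 t) hM₀ hf L
  have hS : MeasurableSet {z : Ph | ¬Exits Φ (rel ε (k, z))} :=
    (RM.measurableSet_exits_pair hΦ measurable_const measurable_id).compl
  have h1 := hl ε hε (fun z => ind (¬Exits Φ (rel ε (k, z)))) (measurable_ind hS)
  have h2 : ∫⁻ l : Ph, (muE ε * g1 (b / 2) l.2) * ind (¬Exits Φ (rel ε (k, l))) = 0 := by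
    refine (lintegral_congr_ae (g := fun _ => 0) ?_).trans lintegral_zero
    filter_upwards [ae_exits_left hΦ hε.ne' k] with z hz
    rw [ind_of_not (not_not.2 hz), mul_zero]
  rw [h2, mul_zero] at h1
  have hok : MeasurableSet (IND.okT Φ ε (max 0 t)) := IND.measurableSet_okT hΦ hε.ne' _
  have hln : Measurable fun R : CTree => ln Φ ε R := M.measurable_ln hΦ hε.ne'
  have hm : Measurable fun R : CTree => ind (¬Exits Φ (rel ε (k, ln Φ ε R))) :=
    measurable_ind (hln hS)
  have h3 := (lintegral_eq_zero_iff hm).1 (le_antisymm h1 zero_le)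
  rw [Filter.EventuallyEq, ae_restrict_iff' hok] at h3
  filter_upwards [h3] with R hR h4 h5
  by_contra hcon
  have h6 := hR ⟨h4, h5.trans (le_max_right 0 t)⟩
  rw [ind_of hcon] at h6
  exact one_ne_zero h6

/-! ### A fixed structure -/

/-- **The expectation of a sum over the trees which are hit by a fixed line.** -/
theorem sumHit_le (h : GoodDatum f₀ κ₀) (hΦ : IsPotential Φ) (hε : 0 < ε) (hb : 0 < b)
    (hM₀ : 0 ≤ M₀) (hf : ∀ z, f₀ z ≤ M₀ * Real.exp (-b * ‖z.2‖ ^ 2)) {A : Set Src}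
    (hA : A.Finite) {k : Src} {G : Finset Src → CTree → ℝ≥0∞}
    (hG : Measurable fun p : CTree × Conf Ph => G (wS (pts p.2)) p.1)
    (hGe : ∀ V R, G V R ≠ 0 → ext Φ ε R < hitT ε (k.2.1, ln Φ ε R)) :
    ∫⁻ w, sumHit Φ ε L t k G (wS (pts w)) ∂(PP f₀ ε) ≤
      ∫⁻ R, ind (Disjoint A R.leaves ∧ Ht Φ ε L t k R) * ∫⁻ w, G (wS (pts w)) R ∂(PP f₀ ε)
        ∂(tree (inten f₀ ε) L) := by
  classical
  have hfin := isFiniteMeasure_inten (ε := ε) h
  have hprob := isProbability_PP (ε := ε) h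
  have hA' : (insert k A).Finite := hA.insert k
  -- the facts without the separation
  let P : CTree → Prop := fun R => CTree.ok Φ ε R ∧ R.depth ≤ L ∧ Meets ε (k.2.1, ln Φ ε R) ∧
    k.1 < hitT ε (k.2.1, ln Φ ε R) ∧ ext Φ ε R < hitT ε (k.2.1, ln Φ ε R) ∧
    hitT ε (k.2.1, ln Φ ε R) ≤ t ∧ Disjoint (insert k A) R.leaves
  have hln : Measurable fun R : CTree => ln Φ ε R := M.measurable_ln hΦ hε.ne'
  have hq : Measurable fun R : CTree => (k.2.1, ln Φ ε R) := measurable_const.prodMk hln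
  have hh : Measurable fun R : CTree => hitT ε (k.2.1, ln Φ ε R) := measurable_hitT.comp hq
  have hAm : MeasurableSet {R : CTree | Disjoint (insert k A) R.leaves} := by
    have e : {R : CTree | Disjoint (insert k A) R.leaves} =
        ⋂ a ∈ insert k A, {R : CTree | a ∈ R.leaves}ᶜ := by
      ext R
      simp only [mem_ofPred_eq, mem_iInter, mem_compl_iff]
      exact Set.disjoint_left
    rw [e]
    exact MeasurableSet.biInter hA'.countable fun a _ =>
      (measurableSet_tree_mem_leaves measurable_const measurable_id).compl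
  have hP : MeasurableSet {R | P R} :=
    (measurableSet_ok hΦ hε.ne').inter ((M.measurable_depth (measurableSet_Iic (a := L))).inter
      ((measurableSet_meets.preimage hq).inter ((measurableSet_lt measurable_const hh).inter
        ((measurableSet_lt (M.measurable_ext hΦ hε.ne') hh).inter
          ((measurableSet_le hh measurable_const).inter hAm)))))
  have hF : Measurable fun p : CTree × Conf Ph => ind (P p.1) * G (wS (pts p.2)) p.1 :=
    (measurable_ind (measurable_fst hP)).mul hG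
  have h1 := extract_le (Φ := Φ) (ε := ε) (L := L) (ν := inten f₀ ε) (C := Cx ε)
    (measurableSet_Cx ε) (Cx_symm ε) (Cx_irrefl hε.le)
    (F := fun R w => ind (P R) * G (wS w) R) (fun R w hne => by
      by_cases hR : P R
      · exact ⟨hR.1, hR.2.1⟩
      · rw [ind_of_not hR, zero_mul] at hne
        exact absurd rfl hne) hF
  have h2 : ∫⁻ w, sumHit Φ ε L t k G (wS (pts w)) ∂(PP f₀ ε) ≤
      ∫⁻ w, ∑' R : CTree, (if R.leaves ⊆ world (pts w : Set Ph) then
        ind (P R) * G (wS (rem (pts w) R)) R else 0) ∂(PP f₀ ε) := by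
    refine lintegral_mono_ae ?_
    filter_upwards [XT.ae_forall_notMem_wS h hε.le hA'] with w hw
    unfold sumHit
    refine le_trans (Finset.sum_le_sum fun R hR => ?_)
      (ENNReal.sum_le_tsum (trs L (wS (pts w))))
    obtain ⟨h3, h4⟩ := mem_trs.1 hR
    rw [if_pos (by rw [← coe_wS]; exact h3), wS_rem]
    by_cases h5 : HitC Φ ε L t (wS (pts w)) k R
    swap
    · rw [ind_of_not h5, zero_mul]
      exact zero_le
    by_cases h6 : G (rm (wS (pts w)) R) R = 0
    · rw [h6, mul_zero]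
      exact zero_le
    have h7 : P R := by
      refine ⟨(alive_pre h5.2.2.2.2).ok, h4, h5.1, h5.2.1, hGe _ _ h6, h5.2.2.1, ?_⟩
      exact Set.disjoint_left.2 fun a ha ha' => hw a ha (Finset.mem_coe.1 (h3 ha'))
    rw [ind_of h5, ind_of h7]
  refine h2.trans (h1.trans ?_)
  refine lintegral_mono_ae ?_
  filter_upwards [ae_exits_tree h hΦ hε hb hM₀ hf L t k.2.1] with R hR
  have hGR : Measurable fun w : Conf Ph => G (wS (pts w)) R :=
    hG.comp (measurable_const.prodMk measurable_id)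
  change ∫⁻ w, ind (P R) * G (wS (pts w)) R ∂(PP f₀ ε) ≤ _
  rw [lintegral_const_mul _ hGR]
  refine mul_le_mul_left (ind_mono fun hp => ?_) _
  obtain ⟨g1, g2, g3, g4, g5, g6, g7⟩ := hp
  exact ⟨g7.mono_left (subset_insert k A), g1, g2, g3, g4, g5, g6, hR g1 (g5.le.trans g6),
    Set.disjoint_left.1 g7 (mem_insert k A)⟩

/-! ### The structure with one more tree -/

section law

variable {s : Fin q → ℝ} {dl : Fin q → ℕ} {W : (Fin m → CTree) → (Fin q → Ph) → ℝ≥0∞}
  {e k : (Fin m → CTree) → (Fin q → Ph) → Src} {CW : ℝ≥0∞} {N : ℕ}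

/-- The weight of the structure with one more tree, which is hit by the line `k`. -/
def W6 (Φ : E3 → ℝ) (ε : ℝ) (L : ℕ) (t : ℝ) (s : Fin q → ℝ) (dl : Fin q → ℕ)
    (W : (Fin m → CTree) → (Fin q → Ph) → ℝ≥0∞) (k : (Fin m → CTree) → (Fin q → Ph) → Src)
    (T : Fin (m + 1) → CTree) (l : Fin q → Ph) : ℝ≥0∞ :=
  W (Fin.init T) l * ind (Base Φ ε T (lns s dl l) ∧
    Ht Φ ε L t (k (Fin.init T) l) (T (Fin.last m)))

theorem W6_snoc (T : Fin m → CTree) (R : CTree) (l : Fin q → Ph) :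
    W6 Φ ε L t s dl W k (Fin.snoc T R) l =
      W T l * ind (Base Φ ε (Fin.snoc T R : Fin (m + 1) → CTree) (lns s dl l) ∧
        Ht Φ ε L t (k T l) R) := by
  unfold W6
  rw [Fin.init_snoc, Fin.snoc_last]

theorem measurable_init2 : Measurable fun p : (Fin (m + 1) → CTree) × (Fin q → Ph) =>
    ((Fin.init p.1 : Fin m → CTree), p.2) := by
  refine Measurable.prodMk ?_ measurable_snd
  exact measurable_pi_lambda _ fun j => (measurable_pi_apply _).comp measurable_fst

theorem measurable_last2 : Measurable fun p : (Fin (m + 1) → CTree) × (Fin q → Ph) =>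
    p.1 (Fin.last m) := (measurable_pi_apply _).comp measurable_fst

theorem measurable_W6 (hΦ : IsPotential Φ) (hε : 0 < ε)
    (hW : Measurable fun p : (Fin m → CTree) × (Fin q → Ph) => W p.1 p.2)
    (hk : Measurable fun p : (Fin m → CTree) × (Fin q → Ph) => k p.1 p.2) :
    Measurable fun p : (Fin (m + 1) → CTree) × (Fin q → Ph) =>
      W6 Φ ε L t s dl W k p.1 p.2 := by
  refine (hW.comp measurable_init2).mul (measurable_ind ?_)
  exact (RelX.measurableSet_Base hΦ hε measurable_fst measurable_snd).inter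
    (measurableSet_Ht hΦ hε (hk.comp measurable_init2) measurable_last2)

theorem W6_ne_zero {T : Fin (m + 1) → CTree} {l : Fin q → Ph}
    (h : W6 Φ ε L t s dl W k T l ≠ 0) : W (Fin.init T) l ≠ 0 ∧ Base Φ ε T (lns s dl l) ∧
      Ht Φ ε L t (k (Fin.init T) l) (T (Fin.last m)) := by
  unfold W6 at h
  refine ⟨fun h0 => h (by rw [h0, zero_mul]), ?_⟩
  by_contra hcon
  exact h (by rw [ind_of_not hcon, mul_zero])

theorem W6_le (hc : 0 ≤ c) (hW : ∀ T l, W T l ≤ CW * ENNReal.ofReal (Real.exp (c * enB T l)))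
    (T : Fin (m + 1) → CTree) (l : Fin q → Ph) :
    W6 Φ ε L t s dl W k T l ≤ CW * ENNReal.ofReal (Real.exp (c * enB T l)) := by
  have e1 : enB T l = enB (Fin.init T : Fin m → CTree) l + enT (T (Fin.last m)) := by
    conv_lhs => rw [RelX.eq_snoc T]
    exact RelX.enB_snoc _ _ _
  have h1 : W6 Φ ε L t s dl W k T l ≤ W (Fin.init T) l := by
    unfold W6
    calc _ ≤ W (Fin.init T) l * 1 := mul_le_mul_right (ind_le_one _) _
      _ = _ := mul_one _
  refine h1.trans ((hW _ _).trans (mul_le_mul_right (ENNReal.ofReal_le_ofReal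
    (Real.exp_le_exp.2 ?_)) _))
  rw [e1]
  exact mul_le_mul_of_nonneg_left (le_add_of_nonneg_right (enT_nonneg _)) hc

/-- **The structure with one more tree, over a law of marked pairs.** -/
structure Str6 (Φ : E3 → ℝ) (ε t : ℝ) (L N : ℕ) (s : Fin q → ℝ) (dl : Fin q → ℕ)
    (e k : (Fin m → CTree) → (Fin q → Ph) → Src) (T : Fin (m + 1) → CTree) (l : Fin q → Ph) :
    Prop where
  base : Base Φ ε T (lns s dl l)
  base' : Base Φ ε (Fin.init T : Fin m → CTree) (lns s dl l)
  mrk : Mk Φ ε t N (Fin.init T : Fin m → CTree) (lns s dl l) (e (Fin.init T) l)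
    (k (Fin.init T) l)
  dep_e : (e (Fin.init T) l).2.2 ≤ L
  dep_k : (k (Fin.init T) l).2.2 ≤ L
  hit : Ht Φ ε L t (k (Fin.init T) l) (T (Fin.last m))

theorem str6 (hM : MLaw Φ ε t c L N s dl W e k CW) {T : Fin (m + 1) → CTree} {l : Fin q → Ph}
    (h : W6 Φ ε L t s dl W k T l ≠ 0) : Str6 Φ ε t L N s dl e k T l := by
  obtain ⟨h1, h2, h3⟩ := W6_ne_zero h
  exact ⟨h2, hM.base _ _ h1, hM.mrk _ _ h1, (hM.dep _ _ h1).1, (hM.dep _ _ h1).2, h3⟩

/-- **The law with one more tree.** -/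
theorem mecke6 (h : GoodDatum f₀ κ₀) (hΦ : IsPotential Φ) (hε : 0 < ε) (hb : 0 < b)
    (hM₀ : 0 ≤ M₀) (hf : ∀ z, f₀ z ≤ M₀ * Real.exp (-b * ‖z.2‖ ^ 2))
    (hW : Measurable fun p : (Fin m → CTree) × (Fin q → Ph) => W p.1 p.2)
    (hk : Measurable fun p : (Fin m → CTree) × (Fin q → Ph) => k p.1 p.2)
    (hWt : ∀ T l, W T l ≠ ∞) (hbase : ∀ T l, W T l ≠ 0 → Base Φ ε T (lns s dl l))
    {G : (Fin m → CTree) → (Fin q → Ph) → Finset Src → CTree → ℝ≥0∞}
    (hG : Measurable fun p : (((Fin m → CTree) × (Fin q → Ph)) × CTree) × Conf Ph =>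
      G p.1.1.1 p.1.1.2 (wS (pts p.2)) p.1.2)
    (hGe : ∀ T l V R, G T l V R ≠ 0 → ext Φ ε R < hitT ε ((k T l).2.1, ln Φ ε R)) :
    ∫⁻ T, ∫⁻ l : Fin q → Ph, (∏ j, g1 b (l j).2) * (W T l *
      ∫⁻ w, sumHit Φ ε L t (k T l) (G T l) (wS (pts w)) ∂(PP f₀ ε)) ∂volume
        ∂(Measure.pi fun _ : Fin m => tree (inten f₀ ε) L) ≤
    ∫⁻ T, ∫⁻ l : Fin q → Ph, (∏ j, g1 b (l j).2) * (W6 Φ ε L t s dl W k T l *
      ∫⁻ w, G (Fin.init T) l (wS (pts w)) (T (Fin.last m)) ∂(PP f₀ ε)) ∂volume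
        ∂(Measure.pi fun _ : Fin (m + 1) => tree (inten f₀ ε) L) := by
  have hfin := isFiniteMeasure_inten (ε := ε) h
  have hprob := isProbability_PP (ε := ε) h
  have hg1 : Measurable fun l : Fin q → Ph => ∏ j, g1 b (l j).2 :=
    Finset.measurable_prod _ fun j _ => (measurable_g1 b).comp (measurable_pi_apply j)
  have hGi : Measurable fun p : (Fin (m + 1) → CTree) × (Fin q → Ph) =>
      ∫⁻ w, G (Fin.init p.1) p.2 (wS (pts w)) (p.1 (Fin.last m)) ∂(PP f₀ ε) := by
    have e1 : Measurable fun p : ((Fin (m + 1) → CTree) × (Fin q → Ph)) × Conf Ph =>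
        ((((Fin.init p.1.1 : Fin m → CTree), p.1.2), p.1.1 (Fin.last m)), p.2) :=
      ((measurable_init2.comp measurable_fst).prodMk (measurable_last2.comp measurable_fst)).prodMk
        measurable_snd
    exact (hG.comp e1).lintegral_prod_right'
  have hmF : Measurable fun p : (Fin (m + 1) → CTree) × (Fin q → Ph) =>
      (∏ j, g1 b (p.2 j).2) * (W6 Φ ε L t s dl W k p.1 p.2 *
        ∫⁻ w, G (Fin.init p.1) p.2 (wS (pts w)) (p.1 (Fin.last m)) ∂(PP f₀ ε)) :=
    (hg1.comp measurable_snd).mul ((measurable_W6 hΦ hε hW hk).mul hGi)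
  rw [RelX.lintegral_snoc2 _ hmF]
  refine lintegral_mono fun T => lintegral_mono fun l => ?_
  have hg1t : (∏ j, g1 b (l j).2) ≠ ∞ := ENNReal.prod_ne_top fun j _ => g1_ne_top
  refine le_trans (mul_le_mul_right ?_ _) (le_of_eq (lintegral_const_mul' (∏ j, g1 b (l j).2)
    (fun R => W6 Φ ε L t s dl W k (Fin.snoc T R) l * ∫⁻ w, G (Fin.init (Fin.snoc T R :
      Fin (m + 1) → CTree)) l (wS (pts w)) ((Fin.snoc T R : Fin (m + 1) → CTree) (Fin.last m))
        ∂(PP f₀ ε)) hg1t).symm)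
  by_cases hWT : W T l = 0
  · rw [hWT, zero_mul]
    exact zero_le
  have hB := hbase T l hWT
  -- the labels of the structure
  set A : Set Src := (⋃ j, (T j).leaves) ∪ range (lns s dl l) with hAdef
  have hAf : A.Finite :=
    (Set.finite_iUnion fun j => (T j).leaves_finite).union (Set.finite_range _)
  have hGT : Measurable fun p : CTree × Conf Ph => G T l (wS (pts p.2)) p.1 := by
    have e1 : Measurable fun p : CTree × Conf Ph => (((T, l), p.1), p.2) :=
      (measurable_const.prodMk measurable_fst).prodMk measurable_snd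
    exact hG.comp e1
  refine (mul_le_mul_right (sumHit_le h hΦ hε hb hM₀ hf hAf hGT (hGe T l)) _).trans ?_
  rw [← lintegral_const_mul' _ _ (hWt T l)]
  refine lintegral_mono fun R => ?_
  change W T l * (_ * _) ≤ _
  rw [W6_snoc, Fin.init_snoc, Fin.snoc_last, ← mul_assoc]
  refine mul_le_mul_left (mul_le_mul_right (ind_mono fun hp => ?_) _) _
  refine ⟨RelX.base_snoc hB hp.2.ok (fun j => ?_) fun j hj => ?_, hp.2⟩
  · exact hp.1.mono_left fun a ha => Or.inl (mem_iUnion.2 ⟨j, ha⟩)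
  · exact Set.disjoint_left.1 hp.1 (Or.inr ⟨j, rfl⟩) hj

/-! ### The terms of the second events -/

open Classical in
/-- (X6d) The square of `e` and the tree `R` is broken. -/
def Bd (L : ℕ) (hΦ : IsPotential Φ) (hε : 0 < ε) (t : ℝ) (e k : Src) (V : Finset Src)
    (R : CTree) : Prop :=
  Hit6 L hΦ hε t V e k R ∧ NoExc Φ ε L t k (insert e V) R ∧
    ¬FB.Sys.Square (RB.Y Φ ε L hΦ hε) V (insert e V) (addT V R) (addT (insert e V) R) t

open Classical in
/-- (X6e) The hit of `R` by `k` is exceptional. -/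
def Be (L : ℕ) (hΦ : IsPotential Φ) (hε : 0 < ε) (t : ℝ) (e k : Src) (V : Finset Src)
    (R : CTree) : Prop :=
  Hit6 L hΦ hε t V e k R ∧ ¬NoExc Φ ε L t k (insert e V) R

open Classical in
/-- (X6f) The weight of the trees related to `R`. -/
def Nf (L : ℕ) (hΦ : IsPotential Φ) (hε : 0 < ε) (t : ℝ) (e k : Src) (V : Finset Src)
    (R : CTree) : ℝ≥0∞ :=
  ind (Hit6 L hΦ hε t V e k R ∧ NoExc Φ ε L t k (insert e V) R) *
    relW L hΦ hε (addT (insert e V) R) (insert e V) t

section meas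

variable {X : Type} [MeasurableSpace X] {V : X → Finset Src} {e' k' : X → Src} {R : X → CTree}
  {hΦ : IsPotential Φ} {hε : 0 < ε}

open Classical in
theorem measurableSet_NoExc' (hΦ : IsPotential Φ) (hε : 0 < ε) (hV : MM.RS fun x => (V x : Set Src)) (he : Measurable e')
    (hk : Measurable k') (hR : Measurable R) :
    MeasurableSet {x | NoExc Φ ε L t (k' x) (insert (e' x) (V x)) (R x)} :=
  RM.measurableSet_NoExc (L := L) hΦ hε (RM.rs_ins hV he) hR hk (measurable_const (a := t))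

open Classical in
theorem measurableSet_Bd (hV : MM.RS fun x => (V x : Set Src)) (he : Measurable e')
    (hk : Measurable k') (hR : Measurable R) :
    MeasurableSet {x | Bd L hΦ hε t (e' x) (k' x) (V x) (R x)} := by
  have hi := RM.rs_ins hV he
  exact (RM.measurableSet_Hit6 hV he hk hR).inter
    ((measurableSet_NoExc' hΦ hε hV he hk hR).inter
      (RM.measurableSet_square hV hi (PB.rs_addT hV hR) (PB.rs_addT hi hR)
        measurable_const).compl)

theorem measurableSet_Be (hV : MM.RS fun x => (V x : Set Src)) (he : Measurable e')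
    (hk : Measurable k') (hR : Measurable R) :
    MeasurableSet {x | Be L hΦ hε t (e' x) (k' x) (V x) (R x)} :=
  (RM.measurableSet_Hit6 hV he hk hR).inter
    (measurableSet_NoExc' hΦ hε hV he hk hR).compl

open Classical in
theorem measurable_Nf (hV : MM.RS fun x => (V x : Set Src)) (he : Measurable e')
    (hk : Measurable k') (hR : Measurable R) :
    Measurable fun x => Nf L hΦ hε t (e' x) (k' x) (V x) (R x) :=
  (measurable_ind ((RM.measurableSet_Hit6 hV he hk hR).inter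
    (measurableSet_NoExc' hΦ hε hV he hk hR))).mul
    (RM.measurable_relW (PB.rs_addT (RM.rs_ins hV he) hR) (RM.rs_ins hV he) measurable_const)

end meas

/-- The sum of the exceptional terms with a partner. -/
def GB (L : ℕ) (hΦ : IsPotential Φ) (hε : 0 < ε) (θ t : ℝ) (e k : Src) (V : Finset Src)
    (R : CTree) : ℝ≥0∞ :=
  ind (Bd L hΦ hε t e k V R) + (ind (Be L hΦ hε t e k V R) +
    (ENNReal.ofReal (θ * mu ε))⁻¹ * Nf L hΦ hε t e k V R)

theorem sumHit_add {σ : Src} {G H : Finset Src → CTree → ℝ≥0∞} {U : Finset Src} :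
    sumHit Φ ε L t σ G U + sumHit Φ ε L t σ H U =
      sumHit Φ ε L t σ (fun V T => G V T + H V T) U := by
  unfold sumHit
  rw [← Finset.sum_add_distrib]
  exact Finset.sum_congr rfl fun T _ => (mul_add _ _ _).symm

theorem sumHit_mono {σ : Src} {G H : Finset Src → CTree → ℝ≥0∞} {U : Finset Src}
    (h : ∀ V T, G V T ≤ H V T) : sumHit Φ ε L t σ G U ≤ sumHit Φ ε L t σ H U :=
  Finset.sum_le_sum fun _ _ => mul_le_mul_right (h _ _) _

theorem lintegral_indP {P : Conf Ph → Prop} (hP : MeasurableSet {w | P w}) :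
    ∫⁻ w, ind (P w) ∂(PP f₀ ε) = (PP f₀ ε) {w | P w} := by
  rw [← lintegral_indicator_one hP]
  refine lintegral_congr fun w => ?_
  by_cases hw : P w
  · rw [ind_of hw, indicator_of_mem (show w ∈ {w | P w} from hw)]
    rfl
  · rw [ind_of_not hw, indicator_of_notMem (show w ∉ {w | P w} from hw)]

theorem lintegral2_add3 {α β : Type*} [MeasurableSpace α] [MeasurableSpace β] {μ : Measure α}
    {ν : Measure β} [SFinite ν] {F G H : α → β → ℝ≥0∞} {a : ℝ≥0∞}
    (hF : Measurable fun p : α × β => F p.1 p.2) (hG : Measurable fun p : α × β => G p.1 p.2)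
    (ha : a ≠ ∞) :
    ∫⁻ x, ∫⁻ y, (F x y + (G x y + a * H x y)) ∂ν ∂μ =
      (∫⁻ x, ∫⁻ y, F x y ∂ν ∂μ) + (∫⁻ x, ∫⁻ y, G x y ∂ν ∂μ) + a * ∫⁻ x, ∫⁻ y, H x y ∂ν ∂μ := by
  have h1 : ∀ x, ∫⁻ y, (F x y + (G x y + a * H x y)) ∂ν =
      (∫⁻ y, F x y ∂ν) + ((∫⁻ y, G x y ∂ν) + a * ∫⁻ y, H x y ∂ν) := by
    intro x
    have hx : Measurable fun y => F x y := hF.comp measurable_prodMk_left
    have hx' : Measurable fun y => G x y := hG.comp measurable_prodMk_left
    rw [lintegral_add_left hx, lintegral_add_left hx', lintegral_const_mul' _ _ ha]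
  have hF' : Measurable fun x => ∫⁻ y, F x y ∂ν := hF.lintegral_prod_right'
  have hG' : Measurable fun x => ∫⁻ y, G x y ∂ν := hG.lintegral_prod_right'
  rw [lintegral_congr h1, lintegral_add_left hF', lintegral_add_left hG',
    lintegral_const_mul' _ _ ha, add_assoc]

/-- `relHit` and `B6` are bounded by the three terms. -/
theorem relB6_le (hΦ : IsPotential Φ) (hε : 0 < ε) (hθ : 0 < θ) (e k : Src) (U : Finset Src) :
    relHit L hΦ hε t (fun V T => ¬NoExc Φ ε L t k V T) U e k +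
      sumHit Φ ε L t k (B6 L hΦ hε θ t (fun V T => ¬NoExc Φ ε L t k V T) e k) U ≤
    sumHit Φ ε L t k (GB L hΦ hε θ t e k) U := by
  classical
  have ha : 0 < θ * mu ε := mul_pos hθ (GC.mu_pos hε)
  have ha0 : ENNReal.ofReal (θ * mu ε) ≠ 0 := (ENNReal.ofReal_pos.2 ha).ne'
  unfold relHit
  rw [sumHit_add]
  refine sumHit_mono fun V T => ?_
  unfold GB B6
  refine add_le_add (ind_mono fun h => ⟨h.1, not_not.1 h.2.1, h.2.2⟩)
    (add_le_add le_rfl ?_)
  by_cases h : Hit6 L hΦ hε t V e k T ∧ ¬¬NoExc Φ ε L t k (insert e V) T ∧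
      ENNReal.ofReal (θ * mu ε) < relW L hΦ hε (addT (insert e V) T) (insert e V) t
  · rw [ind_of h]
    unfold Nf
    rw [ind_of ⟨h.1, not_not.1 h.2.1⟩, one_mul]
    calc (1 : ℝ≥0∞) = (ENNReal.ofReal (θ * mu ε))⁻¹ * ENNReal.ofReal (θ * mu ε) :=
          (ENNReal.inv_mul_cancel ha0 ENNReal.ofReal_ne_top).symm
      _ ≤ _ := mul_le_mul_right h.2.2.le _
  · rw [ind_of_not h]
    exact zero_le

theorem GB_ne_zero {hΦ : IsPotential Φ} {hε : 0 < ε} {e k : Src} {V : Finset Src} {R : CTree}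
    (h : GB L hΦ hε θ t e k V R ≠ 0) : Hit6 L hΦ hε t V e k R := by
  classical
  by_contra hcon
  refine h ?_
  unfold GB Nf
  rw [ind_of_not fun h1 => hcon h1.1, ind_of_not fun h1 => hcon h1.1,
    ind_of_not fun h1 => hcon h1.1, zero_mul, mul_zero, add_zero, add_zero]

theorem relHit_le (hΦ : IsPotential Φ) (hε : 0 < ε) (e k : Src) (U : Finset Src) :
    relHit L hΦ hε t (fun V T => ¬NoExc Φ ε L t k V T) U e k ≤
      sumHit Φ ε L t k (fun V R => ind (Bd L hΦ hε t e k V R)) U :=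
  sumHit_mono fun _ _ => ind_mono fun h => ⟨h.1, not_not.1 h.2.1, h.2.2⟩

theorem sumHit_B6_le (hΦ : IsPotential Φ) (hε : 0 < ε) (hθ : 0 < θ) (e k : Src)
    (U : Finset Src) :
    sumHit Φ ε L t k (B6 L hΦ hε θ t (fun V T => ¬NoExc Φ ε L t k V T) e k) U ≤
      sumHit Φ ε L t k (fun V R => ind (Be L hΦ hε t e k V R)) U +
        (ENNReal.ofReal (θ * mu ε))⁻¹ * sumHit Φ ε L t k (Nf L hΦ hε t e k) U := by
  classical
  have ha : 0 < θ * mu ε := mul_pos hθ (GC.mu_pos hε)
  have ha0 : ENNReal.ofReal (θ * mu ε) ≠ 0 := (ENNReal.ofReal_pos.2 ha).ne'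
  have e1 : (ENNReal.ofReal (θ * mu ε))⁻¹ * sumHit Φ ε L t k (Nf L hΦ hε t e k) U =
      sumHit Φ ε L t k (fun V R => (ENNReal.ofReal (θ * mu ε))⁻¹ * Nf L hΦ hε t e k V R) U := by
    unfold sumHit
    rw [Finset.mul_sum]
    exact Finset.sum_congr rfl fun T _ => by ring
  rw [e1, sumHit_add]
  refine sumHit_mono fun V T => ?_
  unfold B6
  refine add_le_add le_rfl ?_
  by_cases h : Hit6 L hΦ hε t V e k T ∧ ¬¬NoExc Φ ε L t k (insert e V) T ∧
      ENNReal.ofReal (θ * mu ε) < relW L hΦ hε (addT (insert e V) T) (insert e V) t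
  · rw [ind_of h]
    unfold Nf
    rw [ind_of ⟨h.1, not_not.1 h.2.1⟩, one_mul]
    calc (1 : ℝ≥0∞) = (ENNReal.ofReal (θ * mu ε))⁻¹ * ENNReal.ofReal (θ * mu ε) :=
          (ENNReal.inv_mul_cancel ha0 ENNReal.ofReal_ne_top).symm
      _ ≤ _ := mul_le_mul_right h.2.2.le _
  · rw [ind_of_not h]
    exact zero_le

section parts

variable (h : GoodDatum f₀ κ₀) (hΦ : IsPotential Φ) (hε : 0 < ε) (hb : 0 < b)
  (hM₀ : 0 ≤ M₀) (hf : ∀ z, f₀ z ≤ M₀ * Real.exp (-b * ‖z.2‖ ^ 2))
  (hM : MLaw Φ ε t c L N s dl W e k CW) (hCW : CW ≠ ∞)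
include h hb hM₀ hf hM hCW

/-- The terms with one more tree, for a function of the world, the pair and the tree. -/
theorem mecke_of {G : Src → Src → Finset Src → CTree → ℝ≥0∞}
    (hG : Measurable fun p : (((Fin m → CTree) × (Fin q → Ph)) × CTree) × Conf Ph =>
      G (e p.1.1.1 p.1.1.2) (k p.1.1.1 p.1.1.2) (wS (pts p.2)) p.1.2)
    (hG6 : ∀ e k V R, G e k V R ≠ 0 → Hit6 L hΦ hε t V e k R) :
    ∫⁻ T, ∫⁻ l : Fin q → Ph, (∏ j, g1 b (l j).2) * (W T l * ∫⁻ w,
        sumHit Φ ε L t (k T l) (G (e T l) (k T l)) (wS (pts w)) ∂(PP f₀ ε)) ∂volume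
        ∂(Measure.pi fun _ : Fin m => tree (inten f₀ ε) L) ≤
    ∫⁻ T, ∫⁻ l : Fin q → Ph, (∏ j, g1 b (l j).2) * (W6 Φ ε L t s dl W k T l *
      ∫⁻ w, G (e (Fin.init T) l) (k (Fin.init T) l) (wS (pts w)) (T (Fin.last m)) ∂(PP f₀ ε))
        ∂volume ∂(Measure.pi fun _ : Fin (m + 1) => tree (inten f₀ ε) L) := by
  have hWt : ∀ T l, W T l ≠ ∞ := fun T l =>
    ((hM.le T l).trans_lt (ENNReal.mul_lt_top hCW.lt_top ENNReal.ofReal_lt_top)).ne
  exact mecke6 (L := L) (t := t) (s := s) (dl := dl) (k := k) h hΦ hε hb hM₀ hf hM.meas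
    hM.meas_k hWt hM.base (G := fun T l => G (e T l) (k T l)) hG
    (fun _ _ _ _ hne => (hG6 _ _ _ _ hne).hit.lt)

open Classical in
/-- **(X6d)** The trees which are hit by `k` and not independent of `e`. -/
theorem mecke_Bd :
    ∫⁻ T, ∫⁻ l : Fin q → Ph, (∏ j, g1 b (l j).2) * (W T l * ∫⁻ w,
        relHit L hΦ hε t (fun V T' => ¬NoExc Φ ε L t (k T l) V T') (wS (pts w)) (e T l) (k T l)
          ∂(PP f₀ ε)) ∂volume
        ∂(Measure.pi fun _ : Fin m => tree (inten f₀ ε) L) ≤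
    ∫⁻ T, ∫⁻ l : Fin q → Ph, (∏ j, g1 b (l j).2) * (W6 Φ ε L t s dl W k T l *
      (PP f₀ ε) {w | Bd L hΦ hε t (e (Fin.init T) l) (k (Fin.init T) l) (wS (pts w))
        (T (Fin.last m))}) ∂volume ∂(Measure.pi fun _ : Fin (m + 1) => tree (inten f₀ ε) L) := by
  have hG : Measurable fun p : (((Fin m → CTree) × (Fin q → Ph)) × CTree) × Conf Ph =>
      ind (Bd L hΦ hε t (e p.1.1.1 p.1.1.2) (k p.1.1.1 p.1.1.2) (wS (pts p.2)) p.1.2) :=
    measurable_ind (measurableSet_Bd (RM.rs_wS measurable_snd)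
      (hM.meas_e.comp (measurable_fst.comp measurable_fst))
      (hM.meas_k.comp (measurable_fst.comp measurable_fst)) (measurable_snd.comp measurable_fst))
  refine (lintegral_mono fun T => lintegral_mono fun l => mul_le_mul_right (mul_le_mul_right
    (lintegral_mono fun w => relHit_le hΦ hε (e T l) (k T l) (wS (pts w))) _) _).trans ?_
  refine (mecke_of (G := fun e k V R => ind (Bd L hΦ hε t e k V R)) h hΦ hε hb hM₀ hf hM hCW hG
    fun e k V R hne => ?_).trans (le_of_eq ?_)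
  · by_contra hcon
    exact hne (ind_of_not fun h1 => hcon h1.1)
  · refine lintegral_congr fun T => lintegral_congr fun l => ?_
    rw [lintegral_indP (measurableSet_Bd RM.rs_conf measurable_const measurable_const
      measurable_const)]

open Classical in
/-- **(X6e)** The exceptional hits. -/
theorem mecke_Be :
    ∫⁻ T, ∫⁻ l : Fin q → Ph, (∏ j, g1 b (l j).2) * (W T l * ∫⁻ w,
        sumHit Φ ε L t (k T l) (fun V R => ind (Be L hΦ hε t (e T l) (k T l) V R)) (wS (pts w))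
          ∂(PP f₀ ε)) ∂volume
        ∂(Measure.pi fun _ : Fin m => tree (inten f₀ ε) L) ≤
    ∫⁻ T, ∫⁻ l : Fin q → Ph, (∏ j, g1 b (l j).2) * (W6 Φ ε L t s dl W k T l *
      (PP f₀ ε) {w | Be L hΦ hε t (e (Fin.init T) l) (k (Fin.init T) l) (wS (pts w))
        (T (Fin.last m))}) ∂volume ∂(Measure.pi fun _ : Fin (m + 1) => tree (inten f₀ ε) L) := by
  have hG : Measurable fun p : (((Fin m → CTree) × (Fin q → Ph)) × CTree) × Conf Ph =>
      ind (Be L hΦ hε t (e p.1.1.1 p.1.1.2) (k p.1.1.1 p.1.1.2) (wS (pts p.2)) p.1.2) :=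
    measurable_ind (measurableSet_Be (RM.rs_wS measurable_snd)
      (hM.meas_e.comp (measurable_fst.comp measurable_fst))
      (hM.meas_k.comp (measurable_fst.comp measurable_fst)) (measurable_snd.comp measurable_fst))
  refine (mecke_of (G := fun e k V R => ind (Be L hΦ hε t e k V R)) h hΦ hε hb hM₀ hf hM hCW hG
    fun e k V R hne => ?_).trans (le_of_eq ?_)
  · by_contra hcon
    exact hne (ind_of_not fun h1 => hcon h1.1)
  · refine lintegral_congr fun T => lintegral_congr fun l => ?_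
    rw [lintegral_indP (measurableSet_Be RM.rs_conf measurable_const measurable_const
      measurable_const)]

open Classical in
/-- **(X6f)** The weight of the trees related to the tree which is hit. -/
theorem mecke_Nf :
    ∫⁻ T, ∫⁻ l : Fin q → Ph, (∏ j, g1 b (l j).2) * (W T l * ∫⁻ w,
        sumHit Φ ε L t (k T l) (Nf L hΦ hε t (e T l) (k T l)) (wS (pts w))
          ∂(PP f₀ ε)) ∂volume
        ∂(Measure.pi fun _ : Fin m => tree (inten f₀ ε) L) ≤
    ∫⁻ T, ∫⁻ l : Fin q → Ph, (∏ j, g1 b (l j).2) * (W6 Φ ε L t s dl W k T l *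
      ∫⁻ w, Nf L hΦ hε t (e (Fin.init T) l) (k (Fin.init T) l) (wS (pts w))
        (T (Fin.last m)) ∂(PP f₀ ε)) ∂volume
          ∂(Measure.pi fun _ : Fin (m + 1) => tree (inten f₀ ε) L) := by
  have hG : Measurable fun p : (((Fin m → CTree) × (Fin q → Ph)) × CTree) × Conf Ph =>
      Nf L hΦ hε t (e p.1.1.1 p.1.1.2) (k p.1.1.1 p.1.1.2) (wS (pts p.2)) p.1.2 :=
    measurable_Nf (RM.rs_wS measurable_snd)
      (hM.meas_e.comp (measurable_fst.comp measurable_fst))
      (hM.meas_k.comp (measurable_fst.comp measurable_fst)) (measurable_snd.comp measurable_fst)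
  refine mecke_of (G := fun e k V R => Nf L hΦ hε t e k V R) h hΦ hε hb hM₀ hf hM hCW hG
    fun e k V R hne => ?_
  by_contra hcon
  refine hne ?_
  unfold Nf
  rw [ind_of_not fun h1 => hcon h1.1, zero_mul]

end parts

open Classical in
/-- **The exceptional terms of the second events**: the parts. -/
theorem exc6_le_parts (h : GoodDatum f₀ κ₀) (hΦ : IsPotential Φ) (hε : 0 < ε) {η : ℝ}
    (hθ : 0 < θ) (e k : Src) : exc6 L hΦ hε f₀ η θ t e k ≤
      (∫⁻ w, ind (TE L hΦ hε η t (wS (pts w)) e ∧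
        I6 L hΦ hε θ t (IrrU Φ ε L (wS (pts w)) k t) (wS (pts w)) e k) ∂(PP f₀ ε)) +
      (∫⁻ w, relHit L hΦ hε t (fun V T => ¬NoExc Φ ε L t k V T) (wS (pts w)) e k ∂(PP f₀ ε)) +
      ((∫⁻ w, sumHit Φ ε L t k (fun V R => ind (Be L hΦ hε t e k V R)) (wS (pts w))
        ∂(PP f₀ ε)) +
      (ENNReal.ofReal (θ * mu ε))⁻¹ * ∫⁻ w, sumHit Φ ε L t k (Nf L hΦ hε t e k) (wS (pts w))
        ∂(PP f₀ ε)) := by
  have hprob := isProbability_PP (ε := ε) h
  have ha : 0 < θ * mu ε := mul_pos hθ (GC.mu_pos hε)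
  have ha0 : (ENNReal.ofReal (θ * mu ε))⁻¹ ≠ ∞ :=
    ENNReal.inv_ne_top.2 (ENNReal.ofReal_pos.2 ha).ne'
  have hV : MM.RS fun w : Conf Ph => (wS (pts w) : Set Src) := RM.rs_conf
  have hrm : MM.RS fun p : Conf Ph × CTree => (rm (wS (pts p.1)) p.2 : Set Src) :=
    RM.rs_rm (hV.comp measurable_fst) measurable_snd
  have m1 : Measurable fun w : Conf Ph => sumHit Φ ε L t k
      (fun V R => ind (Be L hΦ hε t e k V R)) (wS (pts w)) :=
    RM.measurable_sumHit' hΦ hε hV measurable_const (G := fun _ V R =>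
      ind (Be L hΦ hε t e k V R)) (measurable_ind (measurableSet_Be hrm measurable_const
        measurable_const measurable_snd))
  have m3 : Measurable fun w : Conf Ph => sumHit Φ ε L t k (Nf L hΦ hε t e k) (wS (pts w)) :=
    RM.measurable_sumHit' hΦ hε hV measurable_const (G := fun _ V R => Nf L hΦ hε t e k V R)
      (measurable_Nf hrm measurable_const measurable_const measurable_snd)
  have m2 : Measurable fun w : Conf Ph => relHit L hΦ hε t
      (fun V T => ¬NoExc Φ ε L t k V T) (wS (pts w)) e k :=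
    RM.measurable_relHit hV measurable_const measurable_const
      (E := fun _ V T => ¬NoExc Φ ε L t k V T)
      (measurableSet_NoExc' (t := t) (L := L) (V := fun p : Conf Ph × CTree =>
        rm (wS (pts p.1)) p.2) hΦ hε hrm measurable_const measurable_const measurable_snd).compl
  unfold exc6
  calc ∫⁻ w, ex6 L hΦ hε η θ t (wS (pts w)) e k ∂(PP f₀ ε)
      ≤ ∫⁻ w, (ind (TE L hΦ hε η t (wS (pts w)) e ∧
          I6 L hΦ hε θ t (IrrU Φ ε L (wS (pts w)) k t) (wS (pts w)) e k) +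
        (relHit L hΦ hε t (fun V T => ¬NoExc Φ ε L t k V T) (wS (pts w)) e k +
        (sumHit Φ ε L t k (fun V R => ind (Be L hΦ hε t e k V R)) (wS (pts w)) +
        (ENNReal.ofReal (θ * mu ε))⁻¹ * sumHit Φ ε L t k (Nf L hΦ hε t e k) (wS (pts w)))))
          ∂(PP f₀ ε) := by
        refine lintegral_mono fun w => ?_
        unfold ex6
        rw [add_assoc]
        exact add_le_add le_rfl (add_le_add le_rfl (sumHit_B6_le hΦ hε hθ e k _))
    _ = _ := by
        have m13 : Measurable fun w : Conf Ph =>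
            sumHit Φ ε L t k (fun V R => ind (Be L hΦ hε t e k V R)) (wS (pts w)) +
            (ENNReal.ofReal (θ * mu ε))⁻¹ * sumHit Φ ε L t k (Nf L hΦ hε t e k) (wS (pts w)) :=
          m1.add (m3.const_mul _)
        have m123 : Measurable fun w : Conf Ph =>
            relHit L hΦ hε t (fun V T => ¬NoExc Φ ε L t k V T) (wS (pts w)) e k +
            (sumHit Φ ε L t k (fun V R => ind (Be L hΦ hε t e k V R)) (wS (pts w)) +
            (ENNReal.ofReal (θ * mu ε))⁻¹ * sumHit Φ ε L t k (Nf L hΦ hε t e k) (wS (pts w))) :=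
          m2.add m13
        rw [lintegral_add_right _ m123, lintegral_add_left m2,
          lintegral_add_left m1, lintegral_const_mul' _ _ ha0, add_assoc]

open Classical in
/-- **The terms `relHit` and `B6` of the second events over a law of marked pairs**: three
structure laws with one more tree. -/
theorem law_relB6 (h : GoodDatum f₀ κ₀) (hΦ : IsPotential Φ) (hε : 0 < ε) (hb : 0 < b)
    (hM₀ : 0 ≤ M₀) (hf : ∀ z, f₀ z ≤ M₀ * Real.exp (-b * ‖z.2‖ ^ 2)) (hθ : 0 < θ)
    (hM : MLaw Φ ε t c L N s dl W e k CW) (hCW : CW ≠ ∞) :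
    ∫⁻ T, ∫⁻ l : Fin q → Ph, (∏ j, g1 b (l j).2) * (W T l * ∫⁻ w,
        (relHit L hΦ hε t (fun V T' => ¬NoExc Φ ε L t (k T l) V T') (wS (pts w)) (e T l) (k T l) +
          sumHit Φ ε L t (k T l) (B6 L hΦ hε θ t (fun V T' => ¬NoExc Φ ε L t (k T l) V T')
            (e T l) (k T l)) (wS (pts w))) ∂(PP f₀ ε)) ∂volume
        ∂(Measure.pi fun _ : Fin m => tree (inten f₀ ε) L) ≤
    (∫⁻ T, ∫⁻ l : Fin q → Ph, (∏ j, g1 b (l j).2) * (W6 Φ ε L t s dl W k T l *
      (PP f₀ ε) {w | Bd L hΦ hε t (e (Fin.init T) l) (k (Fin.init T) l) (wS (pts w))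
        (T (Fin.last m))}) ∂volume ∂(Measure.pi fun _ : Fin (m + 1) => tree (inten f₀ ε) L)) +
    (∫⁻ T, ∫⁻ l : Fin q → Ph, (∏ j, g1 b (l j).2) * (W6 Φ ε L t s dl W k T l *
      (PP f₀ ε) {w | Be L hΦ hε t (e (Fin.init T) l) (k (Fin.init T) l) (wS (pts w))
        (T (Fin.last m))}) ∂volume ∂(Measure.pi fun _ : Fin (m + 1) => tree (inten f₀ ε) L)) +
    (ENNReal.ofReal (θ * mu ε))⁻¹ *
      (∫⁻ T, ∫⁻ l : Fin q → Ph, (∏ j, g1 b (l j).2) * (W6 Φ ε L t s dl W k T l *
        ∫⁻ w, Nf L hΦ hε t (e (Fin.init T) l) (k (Fin.init T) l) (wS (pts w))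
          (T (Fin.last m)) ∂(PP f₀ ε)) ∂volume
        ∂(Measure.pi fun _ : Fin (m + 1) => tree (inten f₀ ε) L)) := by
  have hfin := isFiniteMeasure_inten (ε := ε) h
  have hprob := isProbability_PP (ε := ε) h
  have ha : 0 < θ * mu ε := mul_pos hθ (GC.mu_pos hε)
  have ha0 : (ENNReal.ofReal (θ * mu ε))⁻¹ ≠ ∞ :=
    ENNReal.inv_ne_top.2 (ENNReal.ofReal_pos.2 ha).ne'
  have hWt : ∀ T l, W T l ≠ ∞ := fun T l =>
    ((hM.le T l).trans_lt (ENNReal.mul_lt_top hCW.lt_top ENNReal.ofReal_lt_top)).ne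
  -- measurability in the structure, the tree and the world
  have hV4 : MM.RS fun p : (((Fin m → CTree) × (Fin q → Ph)) × CTree) × Conf Ph =>
      (wS (pts p.2) : Set Src) := RM.rs_wS measurable_snd
  have he4 : Measurable fun p : (((Fin m → CTree) × (Fin q → Ph)) × CTree) × Conf Ph =>
      e p.1.1.1 p.1.1.2 := hM.meas_e.comp (measurable_fst.comp measurable_fst)
  have hk4 : Measurable fun p : (((Fin m → CTree) × (Fin q → Ph)) × CTree) × Conf Ph =>
      k p.1.1.1 p.1.1.2 := hM.meas_k.comp (measurable_fst.comp measurable_fst)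
  have hR4 : Measurable fun p : (((Fin m → CTree) × (Fin q → Ph)) × CTree) × Conf Ph =>
      p.1.2 := measurable_snd.comp measurable_fst
  have hG4 : Measurable fun p : (((Fin m → CTree) × (Fin q → Ph)) × CTree) × Conf Ph =>
      GB L hΦ hε θ t (e p.1.1.1 p.1.1.2) (k p.1.1.1 p.1.1.2) (wS (pts p.2)) p.1.2 :=
    (measurable_ind (measurableSet_Bd hV4 he4 hk4 hR4)).add
      ((measurable_ind (measurableSet_Be hV4 he4 hk4 hR4)).add
        ((measurable_Nf hV4 he4 hk4 hR4).const_mul _))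
  have h1 := mecke6 (L := L) (t := t) (s := s) (dl := dl) (k := k) h hΦ hε hb hM₀ hf hM.meas hM.meas_k hWt
    hM.base (G := fun T l => GB L hΦ hε θ t (e T l) (k T l)) hG4
    (fun _ _ _ _ hne => (GB_ne_zero hne).hit.lt)
  refine (lintegral_mono fun T => lintegral_mono fun l => mul_le_mul_right (mul_le_mul_right
    (lintegral_mono fun w => relB6_le hΦ hε hθ (e T l) (k T l) (wS (pts w))) _) _).trans
      (h1.trans (le_of_eq ?_))
  -- measurability in the structure with one more tree and the world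
  have hVp : MM.RS fun p : ((Fin (m + 1) → CTree) × (Fin q → Ph)) × Conf Ph =>
      (wS (pts p.2) : Set Src) := RM.rs_wS measurable_snd
  have hep : Measurable fun p : ((Fin (m + 1) → CTree) × (Fin q → Ph)) × Conf Ph =>
      e (Fin.init p.1.1) p.1.2 := (hM.meas_e.comp measurable_init2).comp measurable_fst
  have hkp : Measurable fun p : ((Fin (m + 1) → CTree) × (Fin q → Ph)) × Conf Ph =>
      k (Fin.init p.1.1) p.1.2 := (hM.meas_k.comp measurable_init2).comp measurable_fst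
  have hRp : Measurable fun p : ((Fin (m + 1) → CTree) × (Fin q → Ph)) × Conf Ph =>
      p.1.1 (Fin.last m) := measurable_last2.comp measurable_fst
  have hSd := measurableSet_Bd (L := L) (t := t) (hΦ := hΦ) (hε := hε) hVp hep hkp hRp
  have hSe := measurableSet_Be (L := L) (t := t) (hΦ := hΦ) (hε := hε) hVp hep hkp hRp
  have hNf := measurable_Nf (L := L) (t := t) (hΦ := hΦ) (hε := hε) hVp hep hkp hRp
  have hg1 : Measurable fun p : (Fin (m + 1) → CTree) × (Fin q → Ph) => ∏ j, g1 b (p.2 j).2 :=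
    (Finset.measurable_prod _ fun j _ =>
      (measurable_g1 b).comp (measurable_pi_apply j)).comp measurable_snd
  have hW6 := measurable_W6 (L := L) (t := t) (s := s) (dl := dl) hΦ hε hM.meas hM.meas_k
  have md : Measurable fun p : (Fin (m + 1) → CTree) × (Fin q → Ph) =>
      (∏ j, g1 b (p.2 j).2) * (W6 Φ ε L t s dl W k p.1 p.2 *
        (PP f₀ ε) {w | Bd L hΦ hε t (e (Fin.init p.1) p.2) (k (Fin.init p.1) p.2)
          (wS (pts w)) (p.1 (Fin.last m))}) :=
    hg1.mul (hW6.mul (measurable_measure_prodMk_left hSd))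
  have me : Measurable fun p : (Fin (m + 1) → CTree) × (Fin q → Ph) =>
      (∏ j, g1 b (p.2 j).2) * (W6 Φ ε L t s dl W k p.1 p.2 *
        (PP f₀ ε) {w | Be L hΦ hε t (e (Fin.init p.1) p.2) (k (Fin.init p.1) p.2)
          (wS (pts w)) (p.1 (Fin.last m))}) :=
    hg1.mul (hW6.mul (measurable_measure_prodMk_left hSe))
  have mf : Measurable fun p : (Fin (m + 1) → CTree) × (Fin q → Ph) =>
      (∏ j, g1 b (p.2 j).2) * (W6 Φ ε L t s dl W k p.1 p.2 *
        ∫⁻ w, Nf L hΦ hε t (e (Fin.init p.1) p.2) (k (Fin.init p.1) p.2) (wS (pts w))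
          (p.1 (Fin.last m)) ∂(PP f₀ ε)) :=
    hg1.mul (hW6.mul hNf.lintegral_prod_right')
  -- the world
  have h2 : ∀ (T : Fin (m + 1) → CTree) (l : Fin q → Ph),
      (∏ j, g1 b (l j).2) * (W6 Φ ε L t s dl W k T l * ∫⁻ w,
        GB L hΦ hε θ t (e (Fin.init T) l) (k (Fin.init T) l) (wS (pts w)) (T (Fin.last m))
          ∂(PP f₀ ε)) =
      (∏ j, g1 b (l j).2) * (W6 Φ ε L t s dl W k T l *
        (PP f₀ ε) {w | Bd L hΦ hε t (e (Fin.init T) l) (k (Fin.init T) l) (wS (pts w))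
          (T (Fin.last m))}) +
      ((∏ j, g1 b (l j).2) * (W6 Φ ε L t s dl W k T l *
        (PP f₀ ε) {w | Be L hΦ hε t (e (Fin.init T) l) (k (Fin.init T) l) (wS (pts w))
          (T (Fin.last m))}) +
      (ENNReal.ofReal (θ * mu ε))⁻¹ * ((∏ j, g1 b (l j).2) * (W6 Φ ε L t s dl W k T l *
        ∫⁻ w, Nf L hΦ hε t (e (Fin.init T) l) (k (Fin.init T) l) (wS (pts w))
          (T (Fin.last m)) ∂(PP f₀ ε)))) := by
    intro T l
    have e1 : Measurable fun w : Conf Ph => (((T, l), w) :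
        ((Fin (m + 1) → CTree) × (Fin q → Ph)) × Conf Ph) :=
      measurable_const.prodMk measurable_id
    have s1 : MeasurableSet {w : Conf Ph | Bd L hΦ hε t (e (Fin.init T) l) (k (Fin.init T) l)
        (wS (pts w)) (T (Fin.last m))} := e1 hSd
    have s2 : MeasurableSet {w : Conf Ph | Be L hΦ hε t (e (Fin.init T) l) (k (Fin.init T) l)
        (wS (pts w)) (T (Fin.last m))} := e1 hSe
    unfold GB
    rw [lintegral_add_left (measurable_ind s1), lintegral_add_left (measurable_ind s2),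
      lintegral_const_mul' _ _ ha0, lintegral_indP s1, lintegral_indP s2]
    ring
  refine (lintegral_congr fun T => lintegral_congr fun l => h2 T l).trans ?_
  exact lintegral2_add3 (F := fun T l => (∏ j, g1 b (l j).2) * (W6 Φ ε L t s dl W k T l *
        (PP f₀ ε) {w | Bd L hΦ hε t (e (Fin.init T) l) (k (Fin.init T) l) (wS (pts w))
          (T (Fin.last m))})) md me ha0

end law

end M6

end Vale.Agent.P119.PB
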