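import Vale.Agent.P119.PB.Op6
import Vale.Agent.P119.PB.Src
import Vale.Agent.P119.FL.Family

/-!
# P119, block PROB: flux of a Gaussian line and of a Gaussian pair into the exposed labels of a fixed
world (`helper347`)
-/

open MeasureTheory Set Filter Topology Metric ProbabilityTheory
open scoped ENNReal

namespace Vale.Agent.P119.PB

open M CTree KU FB RB AU FL EN

variable {Φ : E3 → ℝ} {ε : ℝ} {L : ℕ}

/-! ### Windowed size of a family of targets -/

theorem sum_cut_w_le {ι : Type*} {t ε s : ℝ} (I : Finset ι) (T : ι → Target t) (B : ℝ → Finset ι)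
    (hB : ∀ i ∈ I, ∀ r, (T i).a ≤ r → s ≤ r → r ≤ t → i ∈ B r) :
    ∑ i ∈ I, ((T i).cut s t le_rfl).w ε ≤ I.card * ENNReal.ofReal ε +
      ∫⁻ r in Icc s t, ∑ i ∈ B r, (1 + (T i).y' r) := by
  have h1 : ∀ i ∈ I, ∫⁻ τ in Icc (max (T i).a s) t, (1 + (T i).y' τ) =
      ∫⁻ τ in Icc s t, (Icc (max (T i).a s) t).indicator (fun τ => 1 + (T i).y' τ) τ := by
    intro i hi
    have hsub : Icc (max (T i).a s) t ⊆ Icc s t := Icc_subset_Icc_left (le_max_right _ _)
    rw [lintegral_indicator measurableSet_Icc, Measure.restrict_restrict measurableSet_Icc,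
      inter_eq_left.2 hsub]
  have h2 : ∀ i ∈ I, AEMeasurable ((Icc (max (T i).a s) t).indicator fun τ => 1 + (T i).y' τ)
      (volume.restrict (Icc s t)) := by
    intro i hi
    rw [aemeasurable_indicator_iff measurableSet_Icc, Measure.restrict_restrict measurableSet_Icc,
      inter_eq_left.2 (Icc_subset_Icc_left (le_max_right _ _))]
    exact aemeasurable_const.add ((T i).meas.mono_set (Icc_subset_Icc_left (le_max_left _ _)))
  calc ∑ i ∈ I, ((T i).cut s t le_rfl).w ε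
      = ∑ _i ∈ I, ENNReal.ofReal ε + ∑ i ∈ I, ∫⁻ τ in Icc (max (T i).a s) t, (1 + (T i).y' τ) := by
        rw [← Finset.sum_add_distrib]; rfl
    _ = I.card * ENNReal.ofReal ε + ∫⁻ r in Icc s t, ∑ i ∈ I,
          (Icc (max (T i).a s) t).indicator (fun τ => 1 + (T i).y' τ) r := by
        rw [Finset.sum_const, nsmul_eq_mul, Finset.sum_congr rfl h1, lintegral_finsetSum' _ h2]
    _ ≤ _ := by
        refine add_le_add le_rfl (setLIntegral_mono' measurableSet_Icc fun r hr => ?_)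
        classical
        calc ∑ i ∈ I, (Icc (max (T i).a s) t).indicator (fun τ => 1 + (T i).y' τ) r
            = ∑ i ∈ I.filter (fun i => r ∈ Icc (max (T i).a s) t), (1 + (T i).y' r) := by
              rw [Finset.sum_filter]
              refine Finset.sum_congr rfl fun i _ => ?_
              rw [indicator_apply]
          _ ≤ _ := by
              refine Finset.sum_le_sum_of_subset fun i hi => ?_
              obtain ⟨h3, h4⟩ := Finset.mem_filter.1 hi
              exact hB i h3 r ((le_max_left _ _).trans h4.1) hr.1 h4.2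

/-! ### The exposed labels of a world -/

section world

variable {hΦ : IsPotential Φ} {hε : 0 < ε} {W : Finset Src}

theorem sum_real_speed (hΦ : IsPotential Φ) {B : ℝ} (hB : RW.StableWith Φ B) (hε : 0 < ε)
    {W : Finset Src} (hW : ∀ a ∈ W, 0 ≤ a.1) (hexcl : ∀ a ∈ W, ∀ a' ∈ W, a ≠ a' → a.1 = 0 →
      a'.1 = 0 → ε ≤ ‖a.2.1.1 - a'.2.1.1‖) {k : ℕ} (hk : (W.filter fun a => a.1 ≠ 0).card ≤ k)
    (h s : ℝ) :
    ∑ c ∈ AX Φ ε L hΦ hε W s, (1 + (realT Φ ε L hΦ hε W h c).y' s) ≤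
      ENNReal.ofReal (cDD B k) * ENNReal.ofReal (EN.DD Φ ε L hΦ hε W s) := by
  have hX := (expo2 (L := L) hΦ hε hW).expo hΦ hε
  have h1 := sum_real_le (L := L) hΦ hB hε hW hexcl (le_refl s)
  have h2 : (3 + 2 * B * (1 + 2 * ((W.filter fun a => a.1 ≠ 0).card : ℝ))) ≤ cDD B k := by
    unfold cDD
    have : ((W.filter fun a => a.1 ≠ 0).card : ℝ) ≤ k := by exact_mod_cast hk
    have := hB.1
    gcongr
  calc ∑ c ∈ AX Φ ε L hΦ hε W s, (1 + (realT Φ ε L hΦ hε W h c).y' s)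
      = ∑ c ∈ AX Φ ε L hΦ hε W s, ENNReal.ofReal (1 + ‖(XR Φ ε W s c).2‖) := by
        refine Finset.sum_congr rfl fun c hc => ?_
        rw [realT_y' (hX.sub s hc), ENNReal.ofReal_add zero_le_one (norm_nonneg _),
          ENNReal.ofReal_one, ofReal_norm]
    _ = ENNReal.ofReal (∑ c ∈ AX Φ ε L hΦ hε W s, (1 + ‖(XR Φ ε W s c).2‖)) := by
        rw [ENNReal.ofReal_sum_of_nonneg]
        intro c _
        positivity
    _ ≤ ENNReal.ofReal (cDD B k * EN.DD Φ ε L hΦ hε W s) :=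
        ENNReal.ofReal_le_ofReal (h1.trans
          (mul_le_mul_of_nonneg_right h2 (DD_nonneg hΦ hε W s)))
    _ = _ := ENNReal.ofReal_mul (cDD_nonneg hB.1 k)

theorem sum_ghost_speed (hΦ : IsPotential Φ) {B : ℝ} (hB : RW.StableWith Φ B) (hε : 0 < ε)
    {W : Finset Src} (hW : ∀ a ∈ W, 0 ≤ a.1) (k : ℕ) (h s : ℝ) :
    ∑ c ∈ AX Φ ε L hΦ hε W s, (1 + (ghostT Φ ε L hΦ hε W h c).y' s) ≤
      ENNReal.ofReal (cDD B k) * ENNReal.ofReal (EN.DD Φ ε L hΦ hε W s) := by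
  have hX := (expo2 (L := L) hΦ hε hW).expo hΦ hε
  have h1 := hX.ghost_vel hΦ hB hε s
  have h2 := sum_bound (L := L) hΦ hε W (le_refl s) (K := 2 * B) (by linarith [hB.1])
  have h3 := card_le_DD (L := L) hΦ hε W s
  have h0 : ∀ c, 0 ≤ vs Φ ε L W c s := by
    intro c
    unfold vs
    split <;> positivity
  calc ∑ c ∈ AX Φ ε L hΦ hε W s, (1 + (ghostT Φ ε L hΦ hε W h c).y' s)
      ≤ ∑ c ∈ AX Φ ε L hΦ hε W s, ENNReal.ofReal (2 + vs Φ ε L W c s) := by
        refine Finset.sum_le_sum fun c hc => ?_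
        have h4 := ghostT_y' (L := L) (hΦ := hΦ) (hε := hε) (W := W) (h := h) (hX.born s c hc)
        calc 1 + (ghostT Φ ε L hΦ hε W h c).y' s
            ≤ ENNReal.ofReal 1 + ENNReal.ofReal (√(vs Φ ε L W c s)) := by
              rw [ENNReal.ofReal_one]
              exact add_le_add le_rfl h4
          _ = ENNReal.ofReal (1 + √(vs Φ ε L W c s)) :=
              (ENNReal.ofReal_add zero_le_one (Real.sqrt_nonneg _)).symm
          _ ≤ _ := by
              apply ENNReal.ofReal_le_ofReal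
              have h5 := Real.sq_sqrt (h0 c)
              nlinarith [sq_nonneg (√(vs Φ ε L W c s) - 1), Real.sqrt_nonneg (vs Φ ε L W c s)]
    _ = ENNReal.ofReal (∑ c ∈ AX Φ ε L hΦ hε W s, (2 + vs Φ ε L W c s)) := by
        rw [ENNReal.ofReal_sum_of_nonneg]
        intro c _
        have := h0 c
        positivity
    _ ≤ ENNReal.ofReal (cDD B k * EN.DD Φ ε L hΦ hε W s) := by
        apply ENNReal.ofReal_le_ofReal
        rw [Finset.sum_add_distrib, Finset.sum_const, nsmul_eq_mul]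
        have h6 : 3 + 2 * B ≤ cDD B k := by
          unfold cDD
          have := hB.1
          have hk : (0:ℝ) ≤ k := Nat.cast_nonneg k
          nlinarith [mul_nonneg this hk]
        have h7 := DD_nonneg (L := L) hΦ hε W s
        nlinarith [mul_le_mul_of_nonneg_right h6 h7]
    _ = _ := ENNReal.ofReal_mul (cDD_nonneg hB.1 k)

/-- The total speed of the targets at the time `s`. -/
theorem sum_exp_speed (hΦ : IsPotential Φ) {B : ℝ} (hB : RW.StableWith Φ B) (hε : 0 < ε)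
    {W : Finset Src} (hW : ∀ a ∈ W, 0 ≤ a.1) (hexcl : ∀ a ∈ W, ∀ a' ∈ W, a ≠ a' → a.1 = 0 →
      a'.1 = 0 → ε ≤ ‖a.2.1.1 - a'.2.1.1‖) {k : ℕ} (hk : (W.filter fun a => a.1 ≠ 0).card ≤ k)
    (h s : ℝ) :
    ∑ i ∈ expI Φ ε L hΦ hε W s, (1 + (expT Φ ε L hΦ hε W h i).y' s) ≤
      2 * ENNReal.ofReal (cDD B k) * eW L hΦ hε W s := by
  unfold expI
  rw [Finset.sum_product, Fintype.sum_bool, eW_eq, mul_assoc, two_mul]
  exact add_le_add (sum_real_speed hΦ hB hε hW hexcl hk h s) (sum_ghost_speed hΦ hB hε hW k h s)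

/-- The total size of the targets in a window. -/
theorem sum_exp_cut (hΦ : IsPotential Φ) {B : ℝ} (hB : RW.StableWith Φ B) (hε : 0 < ε)
    {W : Finset Src} (hW : ∀ a ∈ W, 0 ≤ a.1) (hexcl : ∀ a ∈ W, ∀ a' ∈ W, a ≠ a' → a.1 = 0 →
      a'.1 = 0 → ε ≤ ‖a.2.1.1 - a'.2.1.1‖) {k : ℕ} (hk : (W.filter fun a => a.1 ≠ 0).card ≤ k)
    (s h : ℝ) :
    ∑ i ∈ expI Φ ε L hΦ hε W h, ((expT Φ ε L hΦ hε W h i).cut s h le_rfl).w ε ≤
      2 * ENNReal.ofReal (cDD B k) * (ENNReal.ofReal ε * eW L hΦ hε W h +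
        ∫⁻ r in Icc s h, eW L hΦ hε W r) := by
  have hX := (expo2 (L := L) hΦ hε hW).expo hΦ hε
  refine (sum_cut_w_le (ε := ε) _ _ (fun r => expI Φ ε L hΦ hε W r) ?_).trans ?_
  · rintro ⟨β, c⟩ hi r h1 _ _
    obtain ⟨-, h2⟩ := Finset.mem_product.1 hi
    refine Finset.mem_product.2 ⟨Finset.mem_univ _, mem_of_tau_le hX h2 ?_⟩
    have h3 : (expT Φ ε L hΦ hε W h (β, c)).a = tauX Φ ε L hΦ hε W c := by
      cases β
      · exact ghostT_a
      · exact realT_a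
    rw [h3] at h1
    exact h1
  · have hc : (1 : ℝ≥0∞) ≤ ENNReal.ofReal (cDD B k) := by
      rw [ENNReal.one_le_ofReal]
      unfold cDD
      have := hB.1
      have hk : (0:ℝ) ≤ k := Nat.cast_nonneg k
      nlinarith [mul_nonneg this hk]
    have h1 : ((expI Φ ε L hΦ hε W h).card : ℝ≥0∞) ≤ 2 * eW L hΦ hε W h := by
      unfold expI
      rw [Finset.card_product, Finset.card_univ, Fintype.card_bool, eW_eq, Nat.cast_mul]
      refine mul_le_mul' (by norm_num) ?_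
      rw [← ENNReal.ofReal_natCast]
      exact ENNReal.ofReal_le_ofReal (card_le_DD hΦ hε W h)
    rw [mul_add]
    refine add_le_add ?_ ?_
    · calc ((expI Φ ε L hΦ hε W h).card : ℝ≥0∞) * ENNReal.ofReal ε
          ≤ 2 * eW L hΦ hε W h * ENNReal.ofReal ε := by gcongr
        _ = 2 * 1 * (ENNReal.ofReal ε * eW L hΦ hε W h) := by ring
        _ ≤ _ := by gcongr
    · rw [← lintegral_const_mul' _ _ (ENNReal.mul_ne_top (by norm_num) ENNReal.ofReal_ne_top)]
      exact lintegral_mono fun r => sum_exp_speed hΦ hB hε hW hexcl hk h r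

/-- Contact of a position with an exposed label is contact with a target. -/
theorem CC.target (hW : ∀ a ∈ W, 0 ≤ a.1) {h r : ℝ} (hr : r ≤ h) {x : E3}
    (hx : CC L hΦ hε W r x) : ∃ i ∈ expI Φ ε L hΦ hε W h, (expT Φ ε L hΦ hε W h i).a ≤ r ∧
      ‖x - (expT Φ ε L hΦ hε W h i).Y r‖ ≤ ε := by
  obtain ⟨a, ha, h1⟩ := hx
  rw [ex_eq_AX] at ha
  rcases h1 with h1 | ⟨T, h2, h3, h4⟩
  · obtain ⟨i, hi, h5, h6⟩ := exists_target hW hr ha (Or.inl rfl)
    exact ⟨i, hi, h5, by rw [h6]; exact h1⟩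
  · obtain ⟨i, hi, h5, h6⟩ := exists_target hW hr ha (Or.inr ⟨T, h2, h3, rfl⟩)
    exact ⟨i, hi, h5, by rw [h6]; exact h4⟩

/-- **Flux of a Gaussian line into the exposed labels of a fixed world.** -/
theorem cc_flux (hΦ : IsPotential Φ) {B : ℝ} (hB : RW.StableWith Φ B) (hε : 0 < ε)
    {W : Finset Src} (hW : ∀ a ∈ W, 0 ≤ a.1) (hexcl : ∀ a ∈ W, ∀ a' ∈ W, a ≠ a' → a.1 = 0 →
      a'.1 = 0 → ε ≤ ‖a.2.1.1 - a'.2.1.1‖) {k : ℕ} (hk : (W.filter fun a => a.1 ≠ 0).card ≤ k)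
    {b : ℝ} (hb : 0 < b) (s h : ℝ) :
    ∫⁻ z : Ph, gw b z.2 * ind (∃ r, s ≤ r ∧ r ≤ h ∧ CC L hΦ hε W r (z.1 + r • z.2)) ≤
      ENNReal.ofReal (ε ^ 2) * (Cd b * (2 * ENNReal.ofReal (cDD B k))) *
        (ENNReal.ofReal ε * eW L hΦ hε W h + ∫⁻ r in Icc s h, eW L hΦ hε W r) := by
  have h1 := lctc_family (s := s) hε hb (expI Φ ε L hΦ hε W h) (expT Φ ε L hΦ hε W h)
  have h2 := sum_exp_cut (L := L) hΦ hB hε hW hexcl hk s h
  calc ∫⁻ z : Ph, gw b z.2 * ind (∃ r, s ≤ r ∧ r ≤ h ∧ CC L hΦ hε W r (z.1 + r • z.2))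
      ≤ ∫⁻ z : Ph, gw b z.2 * ({z : Ph | ∃ i ∈ expI Φ ε L hΦ hε W h,
          z ∈ lctc ε s h (expT Φ ε L hΦ hε W h i).a (expT Φ ε L hΦ hε W h i).Y}).indicator 1 z := by
        refine lintegral_mono fun z => mul_le_mul_right ?_ _
        unfold ind
        split_ifs with hz
        · obtain ⟨r, h3, h4, h5⟩ := hz
          obtain ⟨i, hi, h6, h7⟩ := h5.target hW h4
          rw [indicator_of_mem]
          · exact le_rfl
          · exact ⟨i, hi, r, ⟨max_le h6 h3, h4⟩, h7⟩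
        · exact zero_le
    _ ≤ _ := h1
    _ ≤ ENNReal.ofReal (ε ^ 2) * Cd b * (2 * ENNReal.ofReal (cDD B k) *
          (ENNReal.ofReal ε * eW L hΦ hε W h + ∫⁻ r in Icc s h, eW L hΦ hε W r)) := by gcongr
    _ = _ := by ring

end world

end Vale.Agent.P119.PB
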