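import Vale.Agent.P119.PB.P3c
import Vale.Agent.P119.PB.Raw
import Vale.Agent.P119.ML.Cap0I

/-!
# P119, block PROB, P3: final form (`helper423`)

* `exists_capH`: CAP0 (`helper667`) in the form of P3;
* `in3_of`: **P3 in the form of `PB.In3`** (`helper185`).
-/

open MeasureTheory Filter Topology Set ProbabilityTheory
open scoped ENNReal NNReal

noncomputable section

namespace Vale.Agent.P119.PB

open M CTree KU FB RB AU EX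

variable {Φ : E3 → ℝ} {κ T : ℝ} {f₀ : Ph → ℝ}

/-- **CAP0 in the form of P3.** -/
theorem exists_capH (hΦ : IsPotential Φ) {b₀ M₀ : ℝ} (hg : GoodDatum f₀ κ) (hb : 0 < b₀)
    (hT : 0 ≤ T) (hM : 0 ≤ M₀) (hf : ∀ z, f₀ z ≤ M₀ * Real.exp (-b₀ * ‖z.2‖ ^ 2))
    {n r : ℕ → ℝ} (hn0 : ∀ d, 0 ≤ n d) (hr0 : ∀ j, 0 ≤ r j) (hn : KE.SuperExp n)
    (hr : KE.SuperExp r) :
    ∃ m : ℕ → ℝ, (∀ d, 0 ≤ m d) ∧ KE.SuperExp m ∧ ∀ L, Cap.InI1 Φ f₀ L T →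
      Cap.InNd Φ f₀ L T n b₀ → Cap.InR Φ f₀ L T r → CapH Φ f₀ L T (b₀ / 2) m := by
  obtain ⟨m, hm0, hm, h⟩ := Cap.cap0_typI hΦ hg hb hT hM hf hn0 hr0 hn hr (Tm := T)
  refine ⟨m, hm0, hm, fun L hI hN hR => ?_⟩
  obtain ⟨aty, h1, h2, h3⟩ := h L hI hN hR
  refine CapH.of_typI (aty := fun ε c => aty ε c) (fun ε _ c => ?_) (fun ε _ q => ?_)
    (fun ε hε => Eventually.of_forall fun c F hF => h2 ε hε c F hF) h3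
  · have := h1 ε
    infer_instance
  · have := h1 ε
    exact Measurable.lintegral_kernel (measurable_vp q)

/-- **P3 in the form of `In3`.** -/
theorem in3_of (hΦ : IsPotential Φ) (h₀ : GoodDatum f₀ κ) {b b₀ b' M₀ l₁ l₂ Q : ℝ}
    {α a m : ℕ → ℝ} (hb : 0 < b) (hbb : b ≤ b₀) (hM : 0 ≤ M₀)
    (hf : ∀ z, f₀ z ≤ M₀ * Real.exp (-b₀ * ‖z.2‖ ^ 2)) (hT : 0 < T) (hl₁ : 0 ≤ l₁)
    (hl₂ : 0 ≤ l₂) (hw : Wts α a Q) (hm0 : ∀ n, 0 ≤ m n) (hm : ∀ n, (n + 1) * m n ≤ α n)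
    (hb' : 0 < b') (hbb' : b' ≤ b / 2)
    (hcap : ∀ᶠ L in atTop, CapH Φ f₀ L T b m) (hI1 : ∀ᶠ L in atTop, Cap.InI1 Φ f₀ L T)
    (hE1 : ∀ᶠ L in atTop, ExcE1 Φ f₀ L T) (hE2 : ∀ᶠ L in atTop, ExcE2 hΦ f₀ L T)
    (SE : ℕ → ℝ → ℝ → ℝ → ℝ≥0∞) :
    ∃ C K cr, Cst C K cr ∧ In3 T C K cr (dTh b' T l₁ l₂ a hΦ f₀ T) (dF hΦ f₀) SE := by
  obtain ⟨C, hC, h⟩ := dF_le_dTh hΦ h₀ hb hbb hM hf hT hl₁ hl₂ hw hm0 hm hb' hbb' hcap hI1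
    hE1 hE2
  refine ⟨C, 1, fun _ => 0, ⟨hC, le_rfl, fun _ => le_rfl, ?_⟩, ?_⟩
  · intro A _
    simp only [mul_zero]
    exact tendsto_const_nhds
  · filter_upwards [h] with L h η η' h1 h2 h3 ρ hρ
    filter_upwards [h η η' h1 h2 h3 ρ hρ] with ε h t ht
    refine (h t ht).trans ?_
    rw [mul_zero, zero_add]
    exact le_self_add

end Vale.Agent.P119.PB
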