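import Vale.Agent.P119.PB.P8Fill
import Vale.Agent.P119.PB.Law8B

/-!
# P119, block PROB, P8: the inequality P8 (`helper336`)

* `p8In_of_cr`: **P8**, in the form of `AU.P8In`, from the crude laws.
-/

open MeasureTheory Filter Topology Set ProbabilityTheory
open scoped ENNReal NNReal

noncomputable section

namespace Vale.Agent.P119.PB

open M CTree KU FB RB AU FL TL EX

variable {Φ : E3 → ℝ} {hΦ : IsPotential Φ} {f₀ : Ph → ℝ} {κ T b₀ M₀ : ℝ}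

/-- **P8**, from the crude laws. -/
theorem p8In_of_cr (hst : IsStable Φ) (hg : GoodDatum f₀ κ) (hb₀ : 0 < b₀) (hM : 0 ≤ M₀)
    (hf : ∀ z, f₀ z ≤ M₀ * Real.exp (-b₀ * ‖z.2‖ ^ 2))
    (hx : ∀ v : E3, ∫⁻ x : E3, ENNReal.ofReal (f₀ (x, v)) ≤
      ENNReal.ofReal (M₀ * Real.exp (-b₀ * ‖v‖ ^ 2)))
    (hI1 : ∀ᶠ L in atTop, Cap.InI1 Φ f₀ L T) (hbad : BadS Φ f₀ T)
    (H : ∀ (m : ℕ → ℝ) (b l₁ l₂ Q : ℝ) (α a : ℕ → ℝ), PB.Par T b₀ m b l₁ l₂ Q α a →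
      Cr8 hΦ f₀ T (b₀ / 2) (b / 2) (a8 T m)) :
    AU.P8In hΦ f₀ T b₀ := by
  obtain ⟨B, hB0, hB⟩ := id hst
  have hBs : RW.StableWith Φ B := ⟨hB0, hB⟩
  exact p8In_of hst hg hM hf hx hI1 hbad fun m b l₁ l₂ Q α a hP => ⟨fun q =>
    law8_lam8B hP hΦ hg hBs (m2_lt_top hg hM hb₀ hx) q (tsum_a8_ne_top' hP.msup),
    H m b l₁ l₂ Q α a hP⟩

end Vale.Agent.P119.PB
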