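import Vale.Agent.P119.PB.TopP2
import Vale.Agent.P119.PB.LamA
import Vale.Agent.P119.FL.SumXC
import Vale.Agent.P119.PB.P3c

/-!
# P119, block PROB, P8: the functionals of the second events and the laws (`helper776`)

* `TypLaw.ldLaw8`: the depths and the lines of the typical trees;
* `P2g_lam`, `P9a_lam`, `P9b_lam`: the functionals `P2g`, `P9a`, `P9b` are bounded by integrals of the
  expectation `gE ψ` with respect to the laws `lamN` (one branch, `helper298`) and `lamC` (two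
  branches, `helper690`), up to `ρ`.
-/

open MeasureTheory Filter Topology Set
open scoped ENNReal NNReal

noncomputable section

namespace Vale.Agent.P119.PB

open M CTree KU FB RB AU FL TL EX

variable {Φ : E3 → ℝ} {ε : ℝ} {L : ℕ} {t t₂ b T : ℝ} {f₀ : Ph → ℝ} {κ : ℝ} {m : ℕ → ℝ}

/-! ### Depths and lines of the typical trees -/

/-- **The depths and the lines of the typical trees.** -/
theorem TypLaw.ldLaw8 {Θ : Measure CTree} [IsFiniteMeasure (dmeas m)] (hT : 0 ≤ T)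
    (h : TypLaw Φ ε b T m Θ) :
    LDLaw Φ ε b (ENNReal.ofReal (1 + T)) (fun d => ENNReal.ofReal (m d)) Θ := by
  intro F hF
  have h1 := h.le (fun σ => F σ.2) (hF.comp measurable_snd)
  have e0 : ∫⁻ S, F (rsrc Φ ε S).2 ∂Θ = ∫⁻ S, F (ld Φ ε S) ∂Θ := rfl
  rw [← e0]
  refine h1.trans (le_of_eq ?_)
  rw [lintegral_refM_snd hT (dmeas m) hF]
  have hFd : ∀ d, Measurable fun z : Ph => F (z, d) := fun d =>
    hF.comp (measurable_id.prodMk measurable_const)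
  have e1 : ∫⁻ z, ∫⁻ n, F (z, n) ∂(dmeas m) ∂(gm b) =
      ∑' d, ENNReal.ofReal (m d) * ∫⁻ z : Ph, gw b z.2 * F (z, d) := by
    simp_rw [lintegral_dmeas]
    rw [lintegral_tsum fun d => ((hFd d).const_mul _).aemeasurable]
    refine tsum_congr fun d => ?_
    rw [lintegral_const_mul _ (hFd d), lintegral_gm b (hFd d)]
  rw [e1]
  have e2 : ∀ d, ∫⁻ z : Ph, muE ε * gw b z.2 * F (z, d) =
      muE ε * ∫⁻ z : Ph, gw b z.2 * F (z, d) := by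
    intro d
    rw [← lintegral_const_mul' _ _ muE_ne_top]
    refine lintegral_congr fun z => ?_
    ring
  simp_rw [e2]
  rw [← mul_assoc, mul_comm (muE ε), mul_assoc, ← ENNReal.tsum_mul_left]
  congr 1
  refine tsum_congr fun d => ?_
  ring

/-! ### The expectation -/

/-- The expectation of `ψ`. -/
def gE (f₀ : Ph → ℝ) (ε : ℝ) (ψ : Finset Src → Src → Src → ℝ≥0∞) (e m : Src) : ℝ≥0∞ :=
  ∫⁻ c, ψ (wS (GC.pts c)) e m ∂(GC.PP f₀ ε)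

theorem measurable_gE (h₀ : GoodDatum f₀ κ) {ψ : Finset Src → Src → Src → ℝ≥0∞} (hψ : MW ψ) :
    Measurable fun z : Src × Src => gE f₀ ε ψ z.1 z.2 := by
  have hP := GC.isProbability_PP (ε := ε) h₀
  have h1 : Measurable fun q : (Src × Src) × GC.Conf Ph => ψ (wS (GC.pts q.2)) q.1.1 q.1.2 :=
    hψ.comp measurable_snd measurable_fst.fst measurable_fst.snd
  exact h1.lintegral_prod_right'

theorem lintegral_gE (h₀ : GoodDatum f₀ κ) {ψ : Finset Src → Src → Src → ℝ≥0∞} (hψ : MW ψ)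
    (lam : Measure (Src × Src)) [SFinite lam] :
    ∫⁻ c, (∫⁻ z, ψ (wS (GC.pts c)) z.1 z.2 ∂lam) ∂(GC.PP f₀ ε) =
      ∫⁻ z, gE f₀ ε ψ z.1 z.2 ∂lam := by
  have hP := GC.isProbability_PP (ε := ε) h₀
  have h1 : Measurable fun q : GC.Conf Ph × (Src × Src) => ψ (wS (GC.pts q.1)) q.2.1 q.2.2 :=
    hψ.comp measurable_fst measurable_snd.fst measurable_snd.snd
  exact lintegral_lintegral_swap h1.aemeasurable

/-- The symmetrized function. -/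
def symF (ψ : Finset Src → Src → Src → ℝ≥0∞) (V : Finset Src) (e m : Src) : ℝ≥0∞ :=
  ψ V e m + ψ V m e

theorem MW.sym {ψ : Finset Src → Src → Src → ℝ≥0∞} (h : MW ψ) : MW (symF ψ) :=
  (h.comp measurable_fst measurable_snd.fst measurable_snd.snd).add
    (h.comp measurable_fst measurable_snd.snd measurable_snd.fst)

theorem gE_sym (h₀ : GoodDatum f₀ κ) {ψ : Finset Src → Src → Src → ℝ≥0∞} (hψ : MW ψ)
    (e m : Src) : gE f₀ ε (symF ψ) e m = gE f₀ ε ψ e m + gE f₀ ε ψ m e := by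
  have hP := GC.isProbability_PP (ε := ε) h₀
  unfold gE symF
  exact lintegral_add_left (hψ.comp measurable_id measurable_const measurable_const) _

theorem muE_inv_mul8 (hε : 0 < ε) (x : ℝ≥0∞) : (muE ε)⁻¹ * (muE ε * x) = x := by
  rw [← mul_assoc, ENNReal.inv_mul_cancel (muE_ne_zero8 hε) muE_ne_top, one_mul]

/-- A bound in almost every world, integrated. -/
theorem le_lam (h₀ : GoodDatum f₀ κ) (hε : 0 < ε) {ψ : Finset Src → Src → Src → ℝ≥0∞}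
    (hψ : MW ψ) (lam : Measure (Src × Src)) [SFinite lam] {X : GC.Conf Ph → ℝ≥0∞}
    (h : ∀ᵐ c ∂(GC.PP f₀ ε), X c ≤ muE ε * ∫⁻ z, ψ (wS (GC.pts c)) z.1 z.2 ∂lam) :
    (muE ε)⁻¹ * ∫⁻ c, X c ∂(GC.PP f₀ ε) ≤ ∫⁻ z, gE f₀ ε ψ z.1 z.2 ∂lam := by
  refine (mul_le_mul_right (lintegral_mono_ae h) _).trans (le_of_eq ?_)
  rw [lintegral_const_mul' _ _ muE_ne_top, muE_inv_mul8 hε, lintegral_gE h₀ hψ]

/-! ### The laws -/

/-- The constant `K` of the typical trees. -/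
abbrev K8 (T : ℝ) : ℝ≥0∞ := ENNReal.ofReal (1 + T)

/-- The weights of the depths of the typical trees. -/
abbrev aM8 (m : ℕ → ℝ) (d : ℕ) : ℝ≥0∞ := ENNReal.ofReal (m d)

/-- The law of an exhaust and the root line. -/
abbrev lamRt (hΦ : IsPotential Φ) (hε : ε ≠ 0) (b T t t₂ : ℝ) (m : ℕ → ℝ) (L q : ℕ) :
    Measure (Src × Src) := lamN hΦ hε (b / 2) t t₂ (aM8 m) L (cRt b (K8 T) q)

/-- The law of two exhausts, one above the other. -/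
abbrev lamAl (hΦ : IsPotential Φ) (hε : ε ≠ 0) (b T t t₂ : ℝ) (m : ℕ → ℝ) (L q : ℕ) :
    Measure (Src × Src) := lamN hΦ hε (b / 2) t t₂ (aM8 m) L (cAl b t (K8 T) (aM8 m) q)

/-- The law of two exhausts in different branches. -/
abbrev lamCl (hΦ : IsPotential Φ) (hε : ε ≠ 0) (b T t : ℝ) (m : ℕ → ℝ) (L q : ℕ) :
    Measure (Src × Src) := lamC hΦ hε b t (K8 T) (aM8 m) L q

theorem pw_meas (hΦ : IsPotential Φ) (hε : ε ≠ 0) (q : ℕ) :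
    Measurable fun x : CTree => Cap.pw q (ln Φ ε x).2 :=
  (M.measurable_pw' q).comp (M.measurable_ln hΦ hε).snd

/-- **The pairs of outgoing lines and the laws.** -/
theorem P2g_lam (hΦ : IsPotential Φ) (h₀ : GoodDatum f₀ κ) (hb : 0 < b) {b₀ M₀ : ℝ} (hbb : b ≤ b₀)
    (hM : 0 ≤ M₀) (hf : ∀ z, f₀ z ≤ M₀ * Real.exp (-b₀ * ‖z.2‖ ^ 2)) (hT : 0 ≤ T)
    [IsFiniteMeasure (dmeas m)] (hcap : CapH Φ f₀ L T b m) (hI1 : Cap.InI1 Φ f₀ L T)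
    {ρ : ℝ} (hρ : 0 < ρ) :
    ∀ᶠ ε in 𝓝[>] (0 : ℝ), ∀ hε : 0 < ε, ∀ (ψ : Finset Src → Src → Src → ℝ≥0∞), MW ψ →
      (∀ V e m, ψ V e m ≤ 1) → ∀ t ≤ T, ∀ t₂ ≥ t,
      P2g Φ ε L f₀ t ψ ≤
        ∫⁻ z, gE f₀ ε ψ z.1 z.2 ∂(lamRt hΦ hε.ne' b T t t₂ m L 2) +
        (∫⁻ z, (gE f₀ ε ψ z.1 z.2 + gE f₀ ε ψ z.2 z.1) ∂(lamAl hΦ hε.ne' b T t t₂ m L 2) +
        ∫⁻ z, (gE f₀ ε ψ z.1 z.2 + gE f₀ ε ψ z.2 z.1) ∂(lamCl hΦ hε.ne' b T t m L 2)) +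
        ENNReal.ofReal ρ := by
  filter_upwards [P2g_PP hΦ h₀ hb hbb hM hf hT hcap hI1 hρ] with ε hS hε ψ hψ hψ1 t htT t₂ ht₂
  obtain ⟨Θ, hΘ, hP⟩ := hS
  have hP' := GC.isProbability_PP (ε := ε) h₀
  refine (hP ψ hψ hψ1 t htT).trans (add_le_add (add_le_add ?_ ?_) le_rfl)
  · refine le_lam h₀ hε hψ _ ?_
    filter_upwards [hΘ] with c hc
    have := hc.fin
    have hψc : Measurable fun z : Src × Src => ψ (wS (GC.pts c)) z.1 z.2 :=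
      hψ.comp measurable_const measurable_fst measurable_snd
    exact sumJ_lam hΦ hε hb ht₂ (hc.ldLaw8 hT) 2 hψc fun S _ x => mul_le_mul' (wr_le S) le_rfl
  · have key : ∀ᵐ c ∂(GC.PP f₀ ε), sumA Φ ε t L (Θ c) (wr Φ ε) (fun x y =>
        ψ (wS (GC.pts c)) (rsrc Φ ε x) (rsrc Φ ε y)) + sumC Φ ε t L (Θ c) (wr Φ ε) (fun x y =>
        ψ (wS (GC.pts c)) (rsrc Φ ε x) (rsrc Φ ε y)) ≤
        muE ε * ∫⁻ z, symF ψ (wS (GC.pts c)) z.1 z.2 ∂(lamAl hΦ hε.ne' b T t t₂ m L 2) +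
        muE ε * ∫⁻ z, symF ψ (wS (GC.pts c)) z.1 z.2 ∂(lamCl hΦ hε.ne' b T t m L 2) := by
      filter_upwards [hΘ] with c hc
      have := hc.fin
      have hψc : Measurable fun z : Src × Src => ψ (wS (GC.pts c)) z.1 z.2 :=
        hψ.comp measurable_const measurable_fst measurable_snd
      exact add_le_add (sumA_lam hΦ hε hb ht₂ (hc.ldLaw8 hT) 2 (fun S _ => wr_le S) hψc
        fun x y => le_rfl) (sumC_le hΦ hε hb (hc.ldLaw8 hT) L 2 (fun S _ => wr_le S) hψc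
        fun x y => le_rfl)
    have e : ∀ lam : Measure (Src × Src), ∫⁻ z, gE f₀ ε (symF ψ) z.1 z.2 ∂lam =
        ∫⁻ z, (gE f₀ ε ψ z.1 z.2 + gE f₀ ε ψ z.2 z.1) ∂lam := fun lam =>
      lintegral_congr fun z => gE_sym h₀ hψ _ _
    have hs : Measurable fun q : GC.Conf Ph × (Src × Src) =>
        symF ψ (wS (GC.pts q.1)) q.2.1 q.2.2 :=
      hψ.sym.comp measurable_fst measurable_snd.fst measurable_snd.snd
    have hm : Measurable fun c : GC.Conf Ph => muE ε *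
        ∫⁻ z, symF ψ (wS (GC.pts c)) z.1 z.2 ∂(lamAl hΦ hε.ne' b T t t₂ m L 2) :=
      hs.lintegral_prod_right'.const_mul _
    refine (mul_le_mul_right (lintegral_mono_ae key) _).trans (le_of_eq ?_)
    rw [lintegral_add_left hm, lintegral_const_mul' _ _ muE_ne_top,
      lintegral_const_mul' _ _ muE_ne_top, mul_add, muE_inv_mul8 hε, muE_inv_mul8 hε,
      lintegral_gE h₀ hψ.sym, lintegral_gE h₀ hψ.sym, e, e]

/-- **(i) and the laws.** -/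
theorem P9a_lam (hΦ : IsPotential Φ) (h₀ : GoodDatum f₀ κ) (hb : 0 < b) {b₀ M₀ : ℝ} (hbb : b ≤ b₀)
    (hM : 0 ≤ M₀) (hf : ∀ z, f₀ z ≤ M₀ * Real.exp (-b₀ * ‖z.2‖ ^ 2)) (hT : 0 ≤ T)
    [IsFiniteMeasure (dmeas m)] (hcap : CapH Φ f₀ L T b m) (hI1 : Cap.InI1 Φ f₀ L T)
    {ρ : ℝ} (hρ : 0 < ρ) :
    ∀ᶠ ε in 𝓝[>] (0 : ℝ), ∀ hε : 0 < ε, ∀ (ψ : Finset Src → Src → Src → ℝ≥0∞), MW ψ →
      (∀ V e m, ψ V e m ≤ 1) → ∀ t ≤ T, ∀ t₂ ≥ t,
      P9a Φ ε L f₀ t ψ ≤ C9 b T m *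
        (∫⁻ z, (gE f₀ ε ψ z.1 z.2 + gE f₀ ε ψ z.2 z.1) ∂(lamAl hΦ hε.ne' b T t t₂ m L 3) +
        ∫⁻ z, (gE f₀ ε ψ z.1 z.2 + gE f₀ ε ψ z.2 z.1) ∂(lamCl hΦ hε.ne' b T t m L 3)) +
        ENNReal.ofReal ρ := by
  filter_upwards [P9a_PP hΦ h₀ hb hbb hM hf hT hcap hI1 hρ] with ε hS hε ψ hψ hψ1 t htT t₂ ht₂
  obtain ⟨Θ, hΘ, hP⟩ := hS
  have hP' := GC.isProbability_PP (ε := ε) h₀
  refine (hP ψ hψ hψ1 t htT).trans (add_le_add (mul_le_mul_right ?_ _) le_rfl)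
  have key : ∀ᵐ c ∂(GC.PP f₀ ε), sumA Φ ε t L (Θ c) (fun x => Cap.pw 3 (ln Φ ε x).2)
      (fun x y => ψ (wS (GC.pts c)) (rsrc Φ ε x) (rsrc Φ ε y)) +
      sumC Φ ε t L (Θ c) (fun x => Cap.pw 3 (ln Φ ε x).2) (fun x y =>
        ψ (wS (GC.pts c)) (rsrc Φ ε x) (rsrc Φ ε y)) ≤
      muE ε * ∫⁻ z, symF ψ (wS (GC.pts c)) z.1 z.2 ∂(lamAl hΦ hε.ne' b T t t₂ m L 3) +
      muE ε * ∫⁻ z, symF ψ (wS (GC.pts c)) z.1 z.2 ∂(lamCl hΦ hε.ne' b T t m L 3) := by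
    filter_upwards [hΘ] with c hc
    have := hc.fin
    have hψc : Measurable fun z : Src × Src => ψ (wS (GC.pts c)) z.1 z.2 :=
      hψ.comp measurable_const measurable_fst measurable_snd
    exact add_le_add (sumA_lam hΦ hε hb ht₂ (hc.ldLaw8 hT) 3 (fun S _ => le_rfl) hψc
      fun x y => le_rfl) (sumC_le hΦ hε hb (hc.ldLaw8 hT) L 3 (fun S _ => le_rfl) hψc
      fun x y => le_rfl)
  have e : ∀ lam : Measure (Src × Src), ∫⁻ z, gE f₀ ε (symF ψ) z.1 z.2 ∂lam =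
      ∫⁻ z, (gE f₀ ε ψ z.1 z.2 + gE f₀ ε ψ z.2 z.1) ∂lam := fun lam =>
    lintegral_congr fun z => gE_sym h₀ hψ _ _
  have hs : Measurable fun q : GC.Conf Ph × (Src × Src) =>
      symF ψ (wS (GC.pts q.1)) q.2.1 q.2.2 :=
    hψ.sym.comp measurable_fst measurable_snd.fst measurable_snd.snd
  have hm : Measurable fun c : GC.Conf Ph => muE ε *
      ∫⁻ z, symF ψ (wS (GC.pts c)) z.1 z.2 ∂(lamAl hΦ hε.ne' b T t t₂ m L 3) :=
    hs.lintegral_prod_right'.const_mul _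
  refine (mul_le_mul_right (lintegral_mono_ae key) _).trans (le_of_eq ?_)
  rw [lintegral_add_left hm, lintegral_const_mul' _ _ muE_ne_top,
    lintegral_const_mul' _ _ muE_ne_top, mul_add, muE_inv_mul8 hε, muE_inv_mul8 hε,
    lintegral_gE h₀ hψ.sym, lintegral_gE h₀ hψ.sym, e, e]

/-- The constant of `P9b_lam`. -/
def C9b (b : ℝ) : ℝ≥0∞ := 2 * ENNReal.ofReal (Cgp (b / 4) 2)

theorem C9b_ne_top : C9b b ≠ ∞ := ENNReal.mul_ne_top (by norm_num) ENNReal.ofReal_ne_top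

/-- **(ii) and the laws.** -/
theorem P9b_lam (hΦ : IsPotential Φ) (h₀ : GoodDatum f₀ κ) (hb : 0 < b) {b₀ M₀ : ℝ} (hbb : b ≤ b₀)
    (hM : 0 ≤ M₀) (hf : ∀ z, f₀ z ≤ M₀ * Real.exp (-b₀ * ‖z.2‖ ^ 2)) (hT : 0 ≤ T)
    [IsFiniteMeasure (dmeas m)] (hcap : CapH Φ f₀ L T b m) (hI1 : Cap.InI1 Φ f₀ L T)
    {ρ : ℝ} (hρ : 0 < ρ) :
    ∀ᶠ ε in 𝓝[>] (0 : ℝ), ∀ hε : 0 < ε, ∀ (ψ : Finset Src → Src → Src → ℝ≥0∞), MW ψ →
      (∀ V e m, ψ V e m ≤ 1) → ∀ t ≤ T,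
      P9b Φ ε L f₀ t ψ ≤ C9b b *
        ∫⁻ z, gE f₀ ε ψ z.1 z.2 ∂(lamCl hΦ hε.ne' b T t m L 2) + ENNReal.ofReal ρ := by
  filter_upwards [P9b_PP hΦ h₀ hb hbb hM hf hT hcap hI1 hρ] with ε hS hε ψ hψ hψ1 t htT
  obtain ⟨Θ, hΘ, hP⟩ := hS
  have hP' := GC.isProbability_PP (ε := ε) h₀
  refine (hP ψ hψ hψ1 t htT).trans (add_le_add ?_ le_rfl)
  set C : ℝ≥0∞ := ENNReal.ofReal (Cgp (b / 4) 2) with hC
  have hCt : C ≠ ∞ := ENNReal.ofReal_ne_top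
  have key : ∀ᵐ c ∂(GC.PP f₀ ε), M.sumX Φ ε t L (Θ c) (fun x y e m =>
      wC Φ ε L t x y * ψ (wS (GC.pts c)) (rsrc Φ ε e) (rsrc Φ ε m)) ≤
      C * (muE ε * ∫⁻ z, ψ (wS (GC.pts c)) z.1 z.2 ∂(lamCl hΦ hε.ne' b T t m L 2)) := by
    filter_upwards [hΘ] with c hc
    have := hc.fin
    have hψc : Measurable fun z : Src × Src => ψ (wS (GC.pts c)) z.1 z.2 :=
      hψ.comp measurable_const measurable_fst measurable_snd
    refine sumX_le hΦ hε hb (hc.ldLaw8 hT) L 2 hψc (fun x y e m' h => ?_) fun x y e m' => ?_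
    · have h1 : wC Φ ε L t x y ≠ 0 := fun h0 => h (by rw [h0, zero_mul])
      obtain ⟨⟨-, -, -, g4, -, g6, g7⟩, -, g8⟩ := wC_ne h1
      exact ⟨g4, g6.le, g7.le, g8⟩
    · refine mul_le_mul' ((wC_le hΦ hε).trans ?_) le_rfl
      have h2 : M.hI ε t (ln Φ ε x, ln Φ ε y) ≤ 1 := by
        unfold M.hI
        exact indicator_le (fun _ _ => le_rfl) _
      exact (mul_le_mul_left h2 _).trans (one_mul _).le
  calc 2 * ((muE ε)⁻¹ * ∫⁻ c, M.sumX Φ ε t L (Θ c) (fun x y e m =>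
        wC Φ ε L t x y * ψ (wS (GC.pts c)) (rsrc Φ ε e) (rsrc Φ ε m)) ∂(GC.PP f₀ ε))
      ≤ 2 * ((muE ε)⁻¹ * ∫⁻ c, C * (muE ε *
        ∫⁻ z, ψ (wS (GC.pts c)) z.1 z.2 ∂(lamCl hΦ hε.ne' b T t m L 2)) ∂(GC.PP f₀ ε)) :=
        mul_le_mul_right (mul_le_mul_right (lintegral_mono_ae key) _) _
    _ = _ := by
        rw [lintegral_const_mul' _ _ hCt, lintegral_const_mul' _ _ muE_ne_top,
          lintegral_gE h₀ hψ]
        unfold C9b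
        rw [← hC]
        calc _ = 2 * C * ((muE ε)⁻¹ * (muE ε *
              ∫⁻ z, gE f₀ ε ψ z.1 z.2 ∂(lamCl hΦ hε.ne' b T t m L 2))) := by ring
          _ = _ := by rw [muE_inv_mul8 hε]

end Vale.Agent.P119.PB
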