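import Vale.Agent.P119.PB.P8L
import Vale.Agent.P119.PB.LamF2

/-!
# P119, block PROB, P8: the lines created by the hit of a free line, and their law (`helper776`)

* `LDLaw.mono_b`: a smaller exponent;
* `FXg_lam`: the functional `FXg` is bounded by an integral of the expectation `gE ψ` with respect to
  the law `lamF` (`helper298`), up to `ρ`, uniformly in `n`.
-/

open MeasureTheory Filter Topology Set
open scoped ENNReal NNReal

noncomputable section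

namespace Vale.Agent.P119.FL

open KU M PB

theorem LDLaw.mono_b {Φ : E3 → ℝ} {ε b β : ℝ} {K : ℝ≥0∞} {α : ℕ → ℝ≥0∞} {Θ : Measure CTree}
    (h : LDLaw Φ ε b K α Θ) (hb : β ≤ b) : LDLaw Φ ε β K α Θ := by
  intro F hF
  refine (h F hF).trans (mul_le_mul' le_rfl (ENNReal.tsum_le_tsum fun d => mul_le_mul' le_rfl
    (lintegral_mono fun z => mul_le_mul' (mul_le_mul' le_rfl ?_) le_rfl)))
  exact gw_anti hb _

end Vale.Agent.P119.FL

namespace Vale.Agent.P119.PB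

open M CTree KU FB RB AU FL TL EX

variable {Φ : E3 → ℝ} {ε : ℝ} {L : ℕ} {t t₂ b b' β T : ℝ} {f₀ : Ph → ℝ} {κ : ℝ} {m : ℕ → ℝ}

/-- The law of an exhaust and a line created by the hit of a free line of depth `n`. -/
abbrev lamFr (hΦ : IsPotential Φ) (hε : ε ≠ 0) (bE β T t t₂ : ℝ) (m : ℕ → ℝ) (L n : ℕ) :
    Measure (Src × Src) := lamF hΦ hε bE β t t₂ (aM8 m) L (fun N => K8 T ^ (N + 2)) n

theorem frS_le_three {ψ : Src → ℝ≥0∞} (h : ∀ m, ψ m ≤ 1) (σ : Src) (z : Ph) (D : ℕ) :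
    frS Φ ε ψ σ z D ≤ 3 := by
  unfold frS
  refine (add_le_add (add_le_add (h _) (h _)) (h _)).trans (le_of_eq ?_)
  norm_num

/-- **The lines created by the hit of a free line, and their law.** -/
theorem FXg_lam (hΦ : IsPotential Φ) (h₀ : GoodDatum f₀ κ) (hb : 0 < b) {b₀ M₀ : ℝ} (hbb : b ≤ b₀)
    (hM : 0 ≤ M₀) (hf : ∀ z, f₀ z ≤ M₀ * Real.exp (-b₀ * ‖z.2‖ ^ 2)) (hT : 0 ≤ T)
    [IsFiniteMeasure (dmeas m)] (hcap : CapH Φ f₀ L T b m) (hI1 : Cap.InI1 Φ f₀ L T)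
    (hb' : 0 < b') (hβ : 0 < β) (hβb : β ≤ b) (hβb' : β ≤ b') {ρ : ℝ} (hρ : 0 < ρ) :
    ∀ᶠ ε in 𝓝[>] (0 : ℝ), ∀ hε : 0 < ε, ∀ (ψ : Finset Src → Src → Src → ℝ≥0∞), MW ψ →
      (∀ V e m, ψ V e m ≤ 1) → ∀ t : ℝ, 0 ≤ t → t ≤ T → ∀ t₂ > t, ∀ n : ℕ,
      FXg Φ ε L f₀ b' t ψ n ≤
        ∫⁻ z, gE f₀ ε ψ z.1 z.2 ∂(lamFr hΦ hε.ne' b β T t t₂ m L n) + ENNReal.ofReal ρ := by
  filter_upwards [FXk_PP hΦ h₀ hb hbb hM hf hT hcap hI1 hb' (C₀ := 3) (by norm_num) hρ]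
    with ε hS hε ψ hψ hψ1 t ht htT t₂ ht₂ n
  obtain ⟨Θ, hΘ, hP⟩ := hS
  have hP' := GC.isProbability_PP (ε := ε) h₀
  set k : Finset Src → Src → Ph × Ph → ℕ → ℝ≥0∞ := fun V e p D =>
    frS Φ ε (ψ V e) (0, p.1, n) p.2 D with hk
  have hkm : MWk k := hψ.k hΦ hε n
  rw [FXg_eq]
  refine (hP k hkm (fun V e p D => frS_le_three (hψ1 V e) _ _ _) t ht htT).trans
    (add_le_add ?_ le_rfl)
  have key : ∀ᵐ c ∂(GC.PP f₀ ε), (∫⁻ z : Ph, gw b' z.2 * sumJ Φ ε t L (Θ c) (fun S x =>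
      ind (hitF Φ ε t z S) * k (wS (GC.pts c)) (rsrc Φ ε x) (z, ln Φ ε S) S.depth)) ≤
      ∫⁻ z, ψ (wS (GC.pts c)) z.1 z.2 ∂(lamFr hΦ hε.ne' b β T t t₂ m L n) := by
    filter_upwards [hΘ] with c hc
    have := hc.fin
    have hψc : Measurable fun z : Src × Src => ψ (wS (GC.pts c)) z.1 z.2 :=
      hψ.comp measurable_const measurable_fst measurable_snd
    have hFz : Measurable fun p : Ph × (CTree × CTree) => gw b' p.1.2 *
        (ind (hitF Φ ε t p.1 p.2.1) * k (wS (GC.pts c)) (rsrc Φ ε p.2.2)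
          (p.1, ln Φ ε p.2.1) p.2.1.depth) :=
      hkm.int hΦ hε (measurable_const (a := c)) measurable_fst measurable_snd.fst
        measurable_snd.snd
    have e4 := sumJ_lintegral (L := L) (t := t) hΦ hε (Θ := Θ c)
      (ν := (volume : Measure Ph)) (F := fun z S x => gw b' z.2 *
      (ind (hitF Φ ε t z S) * k (wS (GC.pts c)) (rsrc Φ ε x) (z, ln Φ ε S) S.depth)) hFz
    have e5 : (∫⁻ z : Ph, gw b' z.2 * sumJ Φ ε t L (Θ c) (fun S x =>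
        ind (hitF Φ ε t z S) * k (wS (GC.pts c)) (rsrc Φ ε x) (z, ln Φ ε S) S.depth)) =
        sumJ Φ ε t L (Θ c) (fun S x => ∫⁻ z : Ph, gw b' z.2 * (ind (hitF Φ ε t z S) *
          k (wS (GC.pts c)) (rsrc Φ ε x) (z, ln Φ ε S) S.depth)) := by
      rw [e4]
      exact lintegral_congr fun z => (sumJ_const_mul ENNReal.ofReal_ne_top).symm
    rw [e5]
    refine sumJ_fresh hΦ hε hβ hβb ht₂ (hc.ldLaw8 hT) n hψc fun S _ x => ?_
    exact lintegral_mono fun z => mul_le_mul' (gw_anti hβb' _) le_rfl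
  refine (lintegral_mono_ae key).trans (le_of_eq ?_)
  exact lintegral_gE h₀ hψ _

end Vale.Agent.P119.PB
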