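import Vale.Agent.P119.PB.ContDef
import Vale.Agent.P119.PB.Int5
import Vale.Agent.P119.PB.Op9

/-!
# P119, block PROB, P9 (contamination): the direct term of one tree (`helper185`)

* `sq_gw_le`: the weight `1 + |v|²` is absorbed by the Gaussian;
* `DirF.dirC`: a direct contact is a contact of the line, before the stopping time;
* `inner_dirF_le`: the direct term for one configuration, from the law of the alive trees (CAP0);
* **`XX_dirF_le`**: the integrated direct term.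
-/

open MeasureTheory Filter Topology Set
open scoped ENNReal NNReal

noncomputable section

namespace Vale.Agent.P119.PB

open M CTree KU FB RB AU FL

variable {Φ : E3 → ℝ} {ε : ℝ} {L : ℕ} {hΦ : IsPotential Φ} {hε : 0 < ε} {f₀ : Ph → ℝ} {κ : ℝ}
  {U : Finset Src} {T : CTree} {η t b : ℝ}

/-- The weight of the velocity. -/
def qv (v : E3) : ℝ≥0∞ := ENNReal.ofReal (1 + ‖v‖ ^ 2)

theorem measurable_qv : Measurable qv := by
  unfold qv
  fun_prop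

/-- The weight is absorbed by the Gaussian. -/
theorem qv_gw_le (hb : 0 < b) (v : E3) :
    qv v * gw b v ≤ ENNReal.ofReal (1 + 2 / b) * gw (b / 2) v := by
  unfold qv gw
  rw [← ENNReal.ofReal_mul (by positivity), ← ENNReal.ofReal_mul (by positivity)]
  apply ENNReal.ofReal_le_ofReal
  have e : Real.exp (-b * ‖v‖ ^ 2) =
      Real.exp (-(b / 2) * ‖v‖ ^ 2) * Real.exp (-(b / 2) * ‖v‖ ^ 2) := by
    rw [← Real.exp_add]
    congr 1
    ring
  have hE : 0 < Real.exp (-(b / 2) * ‖v‖ ^ 2) := Real.exp_pos _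
  have h1 : Real.exp (-(b / 2) * ‖v‖ ^ 2) ≤ 1 := by
    apply Real.exp_le_one_iff.2
    have : 0 ≤ b / 2 * ‖v‖ ^ 2 := by positivity
    linarith
  have h2 : b / 2 * ‖v‖ ^ 2 * Real.exp (-(b / 2) * ‖v‖ ^ 2) ≤ 1 := by
    have h3 : b / 2 * ‖v‖ ^ 2 ≤ Real.exp (b / 2 * ‖v‖ ^ 2) := by
      have := Real.add_one_le_exp (b / 2 * ‖v‖ ^ 2)
      linarith
    calc b / 2 * ‖v‖ ^ 2 * Real.exp (-(b / 2) * ‖v‖ ^ 2)
        ≤ Real.exp (b / 2 * ‖v‖ ^ 2) * Real.exp (-(b / 2) * ‖v‖ ^ 2) := by gcongr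
      _ = 1 := by rw [← Real.exp_add]; simp
  have h4 : (1 + ‖v‖ ^ 2) * Real.exp (-(b / 2) * ‖v‖ ^ 2) ≤ 1 + 2 / b := by
    have h5 : ‖v‖ ^ 2 * Real.exp (-(b / 2) * ‖v‖ ^ 2) ≤ 2 / b := by
      rw [le_div_iff₀ hb]
      calc ‖v‖ ^ 2 * Real.exp (-(b / 2) * ‖v‖ ^ 2) * b
          = 2 * (b / 2 * ‖v‖ ^ 2 * Real.exp (-(b / 2) * ‖v‖ ^ 2)) := by ring
        _ ≤ 2 * 1 := by gcongr
        _ = 2 := by ring
    calc (1 + ‖v‖ ^ 2) * Real.exp (-(b / 2) * ‖v‖ ^ 2)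
        = Real.exp (-(b / 2) * ‖v‖ ^ 2) + ‖v‖ ^ 2 * Real.exp (-(b / 2) * ‖v‖ ^ 2) := by ring
      _ ≤ 1 + 2 / b := add_le_add h1 h5
  calc (1 + ‖v‖ ^ 2) * Real.exp (-b * ‖v‖ ^ 2)
      = (1 + ‖v‖ ^ 2) * Real.exp (-(b / 2) * ‖v‖ ^ 2) * Real.exp (-(b / 2) * ‖v‖ ^ 2) := by
        rw [e]; ring
    _ ≤ (1 + 2 / b) * Real.exp (-(b / 2) * ‖v‖ ^ 2) := by gcongr

/-- A hit of an exposed label is a contact with an exposed label. -/
theorem cc_of_hits {r : ℝ} {p : Ph} {a : Src} (ha : (RB.Y Φ ε L hΦ hε).Exp U a r)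
    (h : Hits Φ ε L U a r p) : CC L hΦ hε U r p.1 := by
  refine ⟨a, mem_ex.2 ha, ?_⟩
  rcases h with h | ⟨S, h1, h2, h3⟩
  · exact Or.inl h.2.le
  · exact Or.inr ⟨S, h1, h2, h3.le⟩

/-- The source of a tree. -/
theorem rsrc_fst (T : CTree) : (rsrc Φ ε T).1 = ext Φ ε T := rfl

/-- The direct contact of a tree is the contact of its source. -/
theorem DirF.dirC (ht : 0 ≤ t) (hη : 0 < η) (h0 : 0 ≤ ext Φ ε T)
    (h : DirF L hΦ hε U (hz L hΦ hε η t U) T) : DirC L hΦ hε η t t U (rsrc Φ ε T) := by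
  obtain ⟨r, h1, h2, a, h3, h4⟩ := h
  refine ⟨r, h2, le_min h1 ?_, ?_⟩
  · exact (h1.trans (hz_le hη ht)).trans (le_add_of_nonneg_left h0)
  · have h5 : CC L hΦ hε U r (KU.free r (ln Φ ε T)).1 := cc_of_hits h3 h4
    have h6 : (KU.free r (ln Φ ε T)).1 = (rsrc Φ ε T).2.1.1 + r • (rsrc Φ ε T).2.1.2 := rfl
    rw [← h6]
    exact h5

/-- The direct term for one configuration, from the law of the alive trees. -/
theorem inner_dirF_le {Tm : ℝ} (htT : t ≤ Tm) (hTm : 0 ≤ Tm) (ht : 0 ≤ t) (hη : 0 < η) {B : ℝ}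
    (hB : RW.StableWith Φ B) (hb : 0 < b) {α : ℕ → ℝ≥0∞} {c : GC.Conf Ph}
    (hc : c.2 ∈ excl ε c.1) {ν : Measure Src}
    (hcap : ∀ F : Src → ℝ≥0∞, Measurable F →
      ∫⁻ T in Cap.AL Φ ε L Tm (GC.pts c : Set Ph), F (rsrc Φ ε T) ∂(tree (GC.inten f₀ ε) L) ≤
        muE ε * (typI b Tm α F + ∫⁻ p, F p ∂ν)) :
    ∫⁻ T, ind (alT Φ ε L t (wS (GC.pts c)) T) * (qv (ln Φ ε T).2 *
        ind (DirF L hΦ hε (wS (GC.pts c)) (hz L hΦ hε η t (wS (GC.pts c))) T))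
        ∂(tree (GC.inten f₀ ε) L) ≤
      muE ε * ((∑' d, α d * ENNReal.ofReal (1 + Tm)) * (ENNReal.ofReal (1 + 2 / b) *
        (ENNReal.ofReal (ε ^ 2) * (Cd (b / 2) * (2 * ENNReal.ofReal (cDD B 0))) *
          (ENNReal.ofReal ε * eW L hΦ hε (wS (GC.pts c)) (hz L hΦ hε η t (wS (GC.pts c))) +
            ∫⁻ r in Icc 0 t, eW L hΦ hε (wS (GC.pts c)) (hz L hΦ hε η r (wS (GC.pts c)))))) +
        ∫⁻ p, qv p.2.1.2 ∂ν) := by
  set W : Finset Src := wS (GC.pts c) with hW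
  set F : Src → ℝ≥0∞ := fun p => qv p.2.1.2 * ind (DirC L hΦ hε η t t W p) with hF
  set G : Ph → ℝ≥0∞ := fun z => qv z.2 *
    ind (∃ r, 0 ≤ r ∧ r ≤ hz L hΦ hε η t W ∧ CC L hΦ hε W r (z.1 + r • z.2)) with hG
  have hp1 : Measurable fun p : Src => p.2.1.2 :=
    measurable_snd.comp (measurable_fst.comp measurable_snd)
  have hD : Measurable fun p : Src => ind (DirC L hΦ hε η t t W p) :=
    (RM.measurable_DirC (L := L) (hΦ := hΦ) (hε := hε) η t t).comp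
      (measurable_id.prodMk (measurable_const (a := c)))
  have hFm : Measurable F := (measurable_qv.comp hp1).mul hD
  have hAL : MeasurableSet (Cap.AL Φ ε L Tm (GC.pts c : Set Ph)) := by
    have h1 := (measurableSet_alT' (L := L) hΦ hε Tm).preimage
      (measurable_id.prodMk (measurable_const (a := c)))
    have h2 : (fun T : CTree => (T, c)) ⁻¹'
        {p : CTree × GC.Conf Ph | alT Φ ε L Tm (wS (GC.pts p.2)) p.1} =
        Cap.AL Φ ε L Tm (GC.pts c : Set Ph) := by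
      ext T
      exact alT_iff
    rw [← h2]
    exact h1
  have hFG : ∀ (s : ℝ) (z : Ph) (d : ℕ), F (s, z, d) ≤ (fun z _ => G z) z d := by
    intro s z d
    refine mul_le_mul_right (ind_mono ?_) _
    rintro ⟨r, h1, h2, h3⟩
    refine ⟨r, ?_, h2.trans (min_le_left _ _), h3⟩
    obtain ⟨a, ha, -⟩ := h3
    exact (mem_ex.1 ha).nonneg
  have hGi : ∫⁻ z : Ph, gw b z.2 * G z ≤ ENNReal.ofReal (1 + 2 / b) *
        (ENNReal.ofReal (ε ^ 2) * (Cd (b / 2) * (2 * ENNReal.ofReal (cDD B 0))) *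
          (ENNReal.ofReal ε * eW L hΦ hε W (hz L hΦ hε η t W) +
            ∫⁻ r in Icc 0 t, eW L hΦ hε W (hz L hΦ hε η r W))) := by
    have hb2 : 0 < b / 2 := by positivity
    have h1 := cc_flux (L := L) hΦ hB hε (fun _ ha => (wS_birth0 ha).ge) (wS_excl hc) (wS_filter _) hb2 0
      (hz L hΦ hε η t W)
    have h2 : ∫⁻ r in Icc 0 (hz L hΦ hε η t W), eW L hΦ hε W r ≤
        ∫⁻ r in Icc 0 t, eW L hΦ hε W (hz L hΦ hε η r W) := by
      have h3 := setLIntegral_hz_le (L := L) (hΦ := hΦ) (hε := hε) (W := W) (s := 0) (w := t) hη ht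
        le_rfl fun W r => eW L hΦ hε W r
      rwa [zero_add, min_eq_left (hz_le hη ht), min_self] at h3
    calc ∫⁻ z : Ph, gw b z.2 * G z
        ≤ ∫⁻ z : Ph, ENNReal.ofReal (1 + 2 / b) * (gw (b / 2) z.2 *
          ind (∃ r, 0 ≤ r ∧ r ≤ hz L hΦ hε η t W ∧ CC L hΦ hε W r (z.1 + r • z.2))) := by
          refine lintegral_mono fun z => ?_
          rw [hG]
          simp only
          rw [← mul_assoc, mul_comm (gw b z.2), ← mul_assoc (ENNReal.ofReal (1 + 2 / b))]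
          exact mul_le_mul_left (qv_gw_le hb z.2) _
      _ = ENNReal.ofReal (1 + 2 / b) * ∫⁻ z : Ph, gw (b / 2) z.2 *
          ind (∃ r, 0 ≤ r ∧ r ≤ hz L hΦ hε η t W ∧ CC L hΦ hε W r (z.1 + r • z.2)) :=
          lintegral_const_mul' _ _ ENNReal.ofReal_ne_top
      _ ≤ _ := by
          refine mul_le_mul_right (h1.trans (mul_le_mul_right (add_le_add le_rfl h2) _)) _
  calc _ ≤ ∫⁻ T in Cap.AL Φ ε L Tm (GC.pts c : Set Ph), F (rsrc Φ ε T)
          ∂(tree (GC.inten f₀ ε) L) := by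
        rw [← lintegral_indicator hAL]
        refine lintegral_mono fun T => ?_
        by_cases h : alT Φ ε L t W T
        · have h1 := alT_iff.1 h
          have h' : T ∈ Cap.AL Φ ε L Tm (GC.pts c : Set Ph) := ⟨h1.1, h1.2.trans htT⟩
          rw [indicator_of_mem h', ind_of h, one_mul, hF]
          exact mul_le_mul_right (ind_mono fun hd => hd.dirC ht hη (M.ext_nonneg hΦ hε h.ok)) _
        · rw [ind_of_not h, zero_mul]
          exact zero_le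
    _ ≤ _ := hcap F hFm
    _ ≤ _ := by
        refine mul_le_mul_right (add_le_add ((typI_le hTm hFG).trans ?_) ?_) _
        · rw [ENNReal.tsum_mul_right]
          exact mul_le_mul_right hGi _
        · refine lintegral_mono fun p => ?_
          calc F p ≤ qv p.2.1.2 * 1 := mul_le_mul_right (ind_le_one _) _
            _ = _ := mul_one _

/-- The constant of the direct term. -/
def Kdir (b B Tm : ℝ) (α : ℕ → ℝ≥0∞) : ℝ≥0∞ :=
  (∑' d, α d * ENNReal.ofReal (1 + Tm)) *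
    (ENNReal.ofReal (1 + 2 / b) * (Cd (b / 2) * (2 * ENNReal.ofReal (cDD B 0))))

theorem Kdir_ne_top {B Tm : ℝ} {α : ℕ → ℝ≥0∞} (hα : ∑' d, α d ≠ ∞) : Kdir b B Tm α ≠ ∞ := by
  unfold Kdir
  rw [ENNReal.tsum_mul_right]
  exact ENNReal.mul_ne_top (ENNReal.mul_ne_top hα ENNReal.ofReal_ne_top)
    (ENNReal.mul_ne_top ENNReal.ofReal_ne_top (ENNReal.mul_ne_top (Cd_ne_top _)
      (ENNReal.mul_ne_top (by norm_num) ENNReal.ofReal_ne_top)))

theorem dir_muE_ne (hε : 0 < ε) : muE ε ≠ 0 := by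
  intro h
  have := muE_mul hε
  rw [h, zero_mul] at this
  exact zero_ne_one this

theorem dir_alg (hε : 0 < ε) (A K q X N : ℝ≥0∞) :
    (muE ε)⁻¹ * (muE ε * (A * (q * (ENNReal.ofReal (ε ^ 2) * K * (muE ε * X))) + N)) =
      A * (q * K) * X + N := by
  rw [← mul_assoc, ENNReal.inv_mul_cancel (dir_muE_ne hε) muE_ne_top, one_mul]
  congr 1
  calc A * (q * (ENNReal.ofReal (ε ^ 2) * K * (muE ε * X)))
      = A * (q * K) * (ENNReal.ofReal (ε ^ 2) * (muE ε * X)) := by ring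
    _ = _ := by rw [ofReal_sq_mul_muE hε]

/-- The exposed energy of one configuration in the direct terms. -/
def Edir (L : ℕ) (hΦ : IsPotential Φ) (hε : 0 < ε) (η t : ℝ) (c : GC.Conf Ph) : ℝ≥0∞ :=
  ENNReal.ofReal ε * eW L hΦ hε (wS (GC.pts c)) (hz L hΦ hε η t (wS (GC.pts c))) +
    ∫⁻ r in Icc 0 t, eW L hΦ hε (wS (GC.pts c)) (hz L hΦ hε η r (wS (GC.pts c)))

theorem measurable_Edir : Measurable (Edir L hΦ hε η t) := by
  have hmw : Measurable fun c : GC.Conf Ph => ∫⁻ r in Icc 0 t,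
      eW L hΦ hε (wS (GC.pts c)) (hz L hΦ hε η r (wS (GC.pts c))) :=
    (RM.measurable_eW_conf (L := L) (hΦ := hΦ) (hε := hε) η).lintegral_prod_right'
  have hme : Measurable fun c : GC.Conf Ph =>
      eW L hΦ hε (wS (GC.pts c)) (hz L hΦ hε η t (wS (GC.pts c))) :=
    RM.measurable_eW_hz RM.rs_conf measurable_const measurable_const
  unfold Edir
  exact (hme.const_mul _).add hmw

theorem lintegral_Edir (h₀ : GoodDatum f₀ κ) : ∫⁻ c, Edir L hΦ hε η t c ∂(GC.PP f₀ ε) =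
    muE ε * (ENNReal.ofReal ε * DD L hΦ hε f₀ η t + ∫⁻ r in Icc 0 t, DD L hΦ hε f₀ η r) := by
  have hmw : Measurable fun c : GC.Conf Ph => ∫⁻ r in Icc 0 t,
      eW L hΦ hε (wS (GC.pts c)) (hz L hΦ hε η r (wS (GC.pts c))) :=
    (RM.measurable_eW_conf (L := L) (hΦ := hΦ) (hε := hε) η).lintegral_prod_right'
  unfold Edir
  rw [lintegral_add_right _ hmw, lintegral_const_mul' _ _ ENNReal.ofReal_ne_top,
    lintegral_eW_eq, lintegral_win_eW h₀]
  ring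

/-- **The direct term of one tree, integrated**, from the law of the alive trees. -/
theorem XX_dirF_le (h₀ : GoodDatum f₀ κ) {Tm : ℝ} (htT : t ≤ Tm) (hTm : 0 ≤ Tm) (ht : 0 ≤ t)
    (hη : 0 < η) {B : ℝ} (hB : RW.StableWith Φ B) (hb : 0 < b) {α : ℕ → ℝ≥0∞}
    {ν : GC.Conf Ph → Measure Src}
    (hcap : ∀ c, ∀ F : Src → ℝ≥0∞, Measurable F →
      ∫⁻ T in Cap.AL Φ ε L Tm (GC.pts c : Set Ph), F (rsrc Φ ε T) ∂(tree (GC.inten f₀ ε) L) ≤
        muE ε * (typI b Tm α F + ∫⁻ p, F p ∂(ν c))) :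
    (muE ε)⁻¹ * XX Φ ε L f₀ t (fun U T => qv (ln Φ ε T).2 *
        ind (DirF L hΦ hε U (hz L hΦ hε η t U) T)) ≤
      Kdir b B Tm α * (ENNReal.ofReal ε * DD L hΦ hε f₀ η t +
        ∫⁻ r in Icc 0 t, DD L hΦ hε f₀ η r) +
      ∫⁻ c, ∫⁻ p, qv p.2.1.2 ∂(ν c) ∂(GC.PP f₀ ε) := by
  have hm := measurable_Edir (L := L) (hΦ := hΦ) (hε := hε) (η := η) (t := t)
  have hi := lintegral_Edir (L := L) (hΦ := hΦ) (hε := hε) (η := η) (t := t) h₀
  obtain ⟨A, hA⟩ : ∃ A : ℝ≥0∞, A = ∑' d, α d * ENNReal.ofReal (1 + Tm) := ⟨_, rfl⟩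
  obtain ⟨K, hK⟩ : ∃ K : ℝ≥0∞, K = Cd (b / 2) * (2 * ENNReal.ofReal (cDD B 0)) := ⟨_, rfl⟩
  obtain ⟨q, hq⟩ : ∃ q : ℝ≥0∞, q = ENNReal.ofReal (1 + 2 / b) := ⟨_, rfl⟩
  have h1 : XX Φ ε L f₀ t (fun U T => qv (ln Φ ε T).2 *
        ind (DirF L hΦ hε U (hz L hΦ hε η t U) T)) ≤
      ∫⁻ c, muE ε * (A * (q * (ENNReal.ofReal (ε ^ 2) * K * Edir L hΦ hε η t c)) +
        ∫⁻ p, qv p.2.1.2 ∂(ν c)) ∂(GC.PP f₀ ε) := by
    unfold XX
    refine lintegral_mono_ae ?_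
    filter_upwards [GC.ae_excl f₀ ε] with c hc
    rw [hA, hK, hq]
    exact inner_dirF_le htT hTm ht hη hB hb hc (hcap c)
  refine (mul_le_mul_right h1 _).trans ?_
  have hm1 : Measurable fun c : GC.Conf Ph =>
      A * (q * (ENNReal.ofReal (ε ^ 2) * K * Edir L hΦ hε η t c)) :=
    ((hm.const_mul _).const_mul _).const_mul _
  have h2 : ∫⁻ c, A * (q * (ENNReal.ofReal (ε ^ 2) * K * Edir L hΦ hε η t c)) ∂(GC.PP f₀ ε) =
      A * (q * (ENNReal.ofReal (ε ^ 2) * K * (muE ε * (ENNReal.ofReal ε *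
        DD L hΦ hε f₀ η t + ∫⁻ r in Icc 0 t, DD L hΦ hε f₀ η r)))) := by
    rw [lintegral_const_mul _ ((hm.const_mul _).const_mul _),
      lintegral_const_mul _ (hm.const_mul _), lintegral_const_mul _ hm, hi]
  rw [lintegral_const_mul' _ _ muE_ne_top, lintegral_add_left hm1, h2, dir_alg hε]
  unfold Kdir
  rw [← hA, ← hK, ← hq]

end Vale.Agent.P119.PB
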