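import Vale.Agent.P119.PB.PairLaw
import Vale.Agent.P119.PB.PairGood
import Vale.Agent.P119.PB.RelLim2

/-!
# P119, block PROB: related trees over the law of one colliding pair (`helper456`)

* **`XP_rel_le`**, **`tendsto_XPrel`**: the expected weighted number of the related trees of a colliding pair is
  `o(μ²)` (`rel_lim` of `helper423`), for any world `W₂ ⊆ U ∪ (lines of the pair)` and any predicate
  `P` of the related trees.
-/

open MeasureTheory Filter Topology Set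
open scoped ENNReal NNReal

noncomputable section

namespace Vale.Agent.P119.PB.PL

open M CTree KU FL FB RB AU TL GC IND PB.XT RelX

variable {Φ : E3 → ℝ} {ε T : ℝ} {L : ℕ}

/-- The structure of a pair with one more tree. -/
abbrev sn (S R : CTree) : Fin 2 → CTree := Fin.snoc (fun _ : Fin 1 => S) R

theorem sn_zero (S R : CTree) : sn S R 0 = S := by
  have e : (0 : Fin 2) = (0 : Fin 1).castSucc := rfl
  unfold sn
  rw [e, Fin.snoc_castSucc]

theorem sn_one (S R : CTree) : sn S R 1 = R := by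
  have e : (1 : Fin 2) = Fin.last 1 := rfl
  unfold sn
  rw [e, Fin.snoc_last]

theorem snoc_eq_sn (T : Fin 1 → CTree) (R : CTree) :
    (Fin.snoc T R : Fin (1 + 1) → CTree) = sn (T 0) R := by
  unfold sn
  congr 1
  funext i
  rw [Fin.fin_one_eq_zero i]

theorem enB_two (S R : CTree) (l : Fin 0 → Ph) : enB (sn S R) l = enT S + enT R := by
  unfold enB
  rw [Fin.sum_univ_two, sn_zero, sn_one]
  simp

/-- The function of a tree which vanishes on the leaves. -/
def onNF {α : Type*} (F : CTree → CTree → Finset α) : CTree → Finset α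
  | leaf _ => ∅
  | node x y => F x y

/-- The property of a tree which is false on the leaves. -/
def onNP (F : CTree → CTree → Prop) : CTree → Prop
  | leaf _ => False
  | node x y => F x y

theorem measurableSet_onNP {X : Type*} [MeasurableSpace X] {F : X → CTree → CTree → Prop}
    (hF : MeasurableSet {p : X × CTree × CTree | F p.1 p.2.1 p.2.2}) {T : X → CTree}
    (hT : Measurable T) : MeasurableSet {q | onNP (F q) (T q)} := by
  have e : {q | onNP (F q) (T q)} = {q | T q ∈ {T : CTree | ∃ a b, T = node a b}} ∩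
      {q | F q (RM.lft (T q)) (RM.rgt (T q))} := by
    ext q
    cases h : T q with
    | leaf a =>
      constructor
      · intro h'
        rw [mem_setOf_eq, h] at h'
        exact h'.elim
      · rintro ⟨h', -⟩
        rw [mem_setOf_eq, h] at h'
        obtain ⟨a', b', h'⟩ := h'
        exact absurd h' (by simp)
    | node x y =>
      constructor
      · intro h'
        rw [mem_setOf_eq, h] at h'
        refine ⟨?_, ?_⟩
        · rw [mem_setOf_eq, h]
          exact ⟨x, y, rfl⟩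
        · rw [mem_setOf_eq, h]
          exact h'
      · rintro ⟨-, h'⟩
        rw [mem_setOf_eq, h] at h'
        rw [mem_setOf_eq, h]
        exact h'
  rw [e]
  refine (hT RM.measurableSet_isNode).inter ?_
  exact (measurable_id.prodMk ((RM.measurable_lft.comp hT).prodMk
    (RM.measurable_rgt.comp hT))) hF

section Lim

variable {f₀ : Ph → ℝ} {κ₀ b c M₀ M₁ : ℝ}

open Classical in
/-- **The related trees over the law of one colliding pair**, uniformly in everything. -/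
theorem XP_rel_le (h : GoodDatum f₀ κ₀) (hΦ : IsPotential Φ) (hb : 0 < b) (hc : 0 ≤ c)
    (hcb : c ≤ b / 2) (hM₀ : 0 ≤ M₀) (hf : ∀ z, f₀ z ≤ M₀ * Real.exp (-b * ‖z.2‖ ^ 2))
    (hM₁ : 0 ≤ M₁)
    (hmarg : ∀ v, ∫⁻ x, ENNReal.ofReal (f₀ (x, v)) ≤
      ENNReal.ofReal (M₁ * Real.exp (-b * ‖v‖ ^ 2)))
    (L : ℕ) (N : ℕ → ℕ) (hT : 0 ≤ T) {X : ℕ → Set Rln} (hX : ∀ J, (X J).Finite)
    (hXs : ∀ J, ∀ r ∈ X J, r.Small f₀ b (c + b / 8) 2) :
    ∃ Dl : ℝ → ℝ≥0∞, Tendsto Dl (𝓝[>] 0) (𝓝 0) ∧ ∀ (ε : ℝ) (hε : 0 < ε), ε ≤ 1 →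
      -- the weight
      ∀ (CW : ℝ≥0∞), CW ≠ ∞ → ∀ g : CTree → CTree → ℝ≥0∞,
      (Measurable fun p : CTree × CTree => g p.1 p.2) →
      (∀ x y, CTree.ok Φ ε (node x y) →
        g x y ≤ CW * ENNReal.ofReal (Real.exp (c * enT (node x y)))) → (∀ x y, g x y ≠ ∞) →
      -- the number of the related trees
      ∀ (P : Finset Src → CTree → CTree → CTree → Prop) (Q : Finset Src → CTree → CTree → ℝ≥0∞),
      (Measurable fun p : (CTree × CTree) × Conf Ph => Q (wS (pts p.2)) p.1.1 p.1.2) →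
      (∀ U x y, coT Φ ε L T U x y → Disjoint (U : Set Src) (node x y).leaves →
        Q U x y ≤ ∑' R : CTree, if P U x y R then wln Φ ε R else 0) →
      -- the world of the related trees
      ∀ W₂ : Finset Src → CTree → CTree → Finset Src,
      (∀ U x y, coT Φ ε L T U x y → ∀ R, P U x y R →
        alive Φ ε L (W₂ U x y : Set Src) R (ext Φ ε R) ∧ ext Φ ε R ≤ T) →
      (∀ U x y, OKP Φ ε T L x y → ∀ a ∈ W₂ U x y,
        a ∈ U ∨ ∃ z ∈ outs x ∪ outs y, rsrc Φ ε z = a) →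
      -- the bad event
      ∀ Bad : CTree → CTree → Finset Src → CTree → Prop,
      (MeasurableSet {p : ((CTree × CTree) × CTree) × Conf Ph |
        Bad p.1.1.1 p.1.1.2 (wS (pts p.2)) p.1.2}) →
      ∀ Alt : CTree → CTree → Finset Src → Src → Prop,
      (∀ U x y, coT Φ ε L T U x y → Disjoint (U : Set Src) (node x y).leaves →
        ∀ R, P U x y R → R.leaves ⊆ (U : Set Src) →
        (∃ a ∈ R.leaves, Alt x y U a) ∨ Bad x y (rm U R) R) →
      (∀ (U : Finset Src) x y, OKP Φ ε T L x y → ∀ a ∈ U, Alt x y U a →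
        Bad x y (rm U (leaf a)) (leaf a)) →
      (∀ J, ∀ x y R, OKP Φ ε T L x y →
        OKt Φ ε L T R → ∀ l : Fin 0 → Src, Base Φ ε (sn (node x y) R) l → ∀ᵐ w ∂(PP f₀ ε),
        Bad x y (wS (pts w)) R →
        (∃ z ∈ outs x ∪ outs y ∪ outs R,
          HasClean hΦ hε.ne' L T (T + 1) J (wS (pts w)) (ext Φ ε z) (ln Φ ε z)) ∨
          PrgC Φ ε T 2 (N J) (sn (node x y) R) l (pts w) ∨
          PrgO Φ ε T 1 (N J) (sn (node x y) R) l (pts w) ∨
          SBad (X J) ε (sn (node x y) R) l (pts w)) →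
      (muE ε)⁻¹ * ((muE ε)⁻¹ * XP Φ ε L f₀ T (fun U x y => g x y * Q U x y)) ≤ CW * Dl ε := by
  obtain ⟨Dl, hDl, hlim⟩ := rel_lim (Φ := Φ) (f₀ := f₀) h hΦ hb hc hcb hM₀ hf hM₁ hmarg 1 0 L
    (2 * 2 ^ (L + 2) + 2 ^ (L + 2)) (2 * 2 ^ (L + 2)) 1 (2 ^ (L + 2)) N hT hX hXs
  refine ⟨Dl, hDl, ?_⟩
  intro ε hε hε1 CW hCW g hg hgb hgt P Q hQ hQP W₂ hP hW₂ Bad hBm Alt h1 h2 hbad
  have hfin : IsFiniteMeasure (inten f₀ ε) := isFiniteMeasure_inten h
  have hprob := isProbability_PP (ε := ε) h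
  -- the predicate of the related trees
  obtain ⟨P', hP'⟩ : ∃ P' : CTree → Conf Ph → CTree → Prop, ∀ S w R, P' S w R ↔
      onNP (fun x y => coT Φ ε L T (wS (pts w)) x y ∧
        Disjoint (wS (pts w) : Set Src) (node x y).leaves ∧ P (wS (pts w)) x y R) S :=
    ⟨_, fun _ _ _ => Iff.rfl⟩
  have hP'n : ∀ x y w R, P' (node x y) w R ↔ (coT Φ ε L T (wS (pts w)) x y ∧
      Disjoint (wS (pts w) : Set Src) (node x y).leaves ∧ P (wS (pts w)) x y R) :=
    fun x y w R => hP' _ _ _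
  have e1 := XP_le (L := L) (T := T) h hΦ hε hg hgt hQ
    (F := fun x y w => ∑' R : CTree, if P' (node x y) w R then wln Φ ε R else 0)
    (fun x y w hc' hd => by
      refine (hQP _ x y hc' hd).trans (ENNReal.tsum_le_tsum fun R => ?_)
      by_cases hR : P (wS (pts w)) x y R
      · rw [if_pos hR, if_pos ((hP'n x y w R).2 ⟨hc', hd, hR⟩)]
      · rw [if_neg hR]
        exact zero_le)
  have e2 := hlim ε hε hε1 T T (T + 1) hT le_rfl le_rfl le_rfl (default : Fin 0 → ℝ)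
    (fun j => j.elim0) (default : Fin 0 → ℕ) (fun S _ => WtP Φ ε T L g (S 0))
    ((measurable_WtP hΦ hε hg).comp ((measurable_pi_apply 0).comp measurable_fst)) CW hCW
    (fun S l => by
      rw [enB_one]
      by_cases hS : WtP Φ ε T L g (S 0) = 0
      · rw [hS]; exact zero_le
      · obtain ⟨x, y, hxy, hok⟩ := WtP_ne_zero hS
        rw [hxy]
        exact WtP_node_le.trans (hgb x y hok.1))
    (fun S l hS => by
      obtain ⟨x, y, hxy, hok⟩ := WtP_ne_zero hS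
      exact base_one (by rw [hxy]; exact hok.1) _)
    (fun S l hS => by
      obtain ⟨x, y, hxy, hok⟩ := WtP_ne_zero hS
      exact prgO_pair hΦ hε hxy hok _)
    (fun S _ => SrcN Φ ε (S 0))
    (fun S l hS => by
      obtain ⟨x, y, hxy, hok⟩ := WtP_ne_zero hS
      rw [enB_one, hxy]
      refine ⟨card_SrcN_le hok.2.1, ?_⟩
      exact EW_SrcN_le hΦ hε hok.2.1)
    (fun S _ w => onNF (fun x y => W₂ (wS (pts w)) x y) (S 0))
    (fun S _ w R => P' (S 0) w R)
    (fun S l hS w R hR => by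
      obtain ⟨x, y, hxy, hok⟩ := WtP_ne_zero hS
      rw [hxy] at hR ⊢
      obtain ⟨g1, g2, g3⟩ := (hP'n x y w R).1 hR
      exact hP _ x y g1 R g3)
    (fun S l hS w a ha => by
      obtain ⟨x, y, hxy, hok⟩ := WtP_ne_zero hS
      rw [hxy] at ha ⊢
      rw [mem_SrcN]
      exact hW₂ _ x y hok a ha)
    (fun S l hS w R hR => by
      obtain ⟨x, y, hxy, hok⟩ := WtP_ne_zero hS
      refine ⟨fun j => ?_, fun j => j.elim0⟩
      rw [Fin.fin_one_eq_zero j]
      rw [hxy] at hR ⊢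
      exact ((hP'n x y w R).1 hR).2.1.symm)
    (fun S _ V R => onNP (fun x y => Bad x y V R) (S 0))
    (by
      have m1 : MeasurableSet {p : ((((Fin 1 → CTree) × (Fin 0 → Ph)) × CTree) × Conf Ph) ×
          CTree × CTree | Bad p.2.1 p.2.2 (wS (pts p.1.2)) p.1.1.2} := by
        have m2 : Measurable fun p : ((((Fin 1 → CTree) × (Fin 0 → Ph)) × CTree) × Conf Ph) ×
            CTree × CTree => ((p.2, p.1.1.2), p.1.2) := by fun_prop
        exact m2 (hBm)
      have m3 : Measurable fun p : (((Fin 1 → CTree) × (Fin 0 → Ph)) × CTree) × Conf Ph =>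
          p.1.1.1 0 := by fun_prop
      exact measurableSet_onNP
        (F := fun (p : (((Fin 1 → CTree) × (Fin 0 → Ph)) × CTree) × Conf Ph) x y =>
          Bad x y (wS (pts p.2)) p.1.2) m1 m3)
    (fun S _ w a => onNP (fun x y => Alt x y (wS (pts w)) a) (S 0))
    (fun S l hS w R hR hRU => by
      obtain ⟨x, y, hxy, hok⟩ := WtP_ne_zero hS
      rw [hxy] at hR ⊢
      obtain ⟨g1, g2, g3⟩ := (hP'n x y w R).1 hR
      exact h1 _ x y g1 g2 R g3 hRU)
    (fun S l hS w a ha hA => by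
      obtain ⟨x, y, hxy, hok⟩ := WtP_ne_zero hS
      rw [hxy] at hA ⊢
      exact h2 _ x y hok a ha hA)
    (fun S _ => AlnN Φ ε (S 0) ∪ Aln Φ ε (S 1))
    (fun S l R hS hR hB => by
      obtain ⟨x, y, hxy, hok⟩ := WtP_ne_zero hS
      rw [snoc_eq_sn, hxy]
      refine ⟨?_, fun σ hσ => ?_⟩
      · beta_reduce
        rw [sn_zero, sn_one]
        have a1 := card_AlnN_le (Φ := Φ) (ε := ε) hok.2.1
        have a2 := card_Aln_le (Φ := Φ) (ε := ε) hR.2.1
        exact (Finset.card_union_le _ _).trans (add_le_add a1 a2)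
      · beta_reduce at hσ
        rw [sn_zero, sn_one, Finset.mem_union] at hσ
        rw [enB_two]
        rcases hσ with hσ | hσ
        · obtain ⟨z, hz, rfl⟩ := mem_AlnN.1 hσ
          have a1 := ext_outs_pair_lt hΦ hε hok.1 hz
          have a2 := ln_sq_le_enT_pair hΦ hε hz
          have a3 := enT_nonneg R
          have a4 := hok.2.2
          have a5 : CTree.ok Φ ε z := by
            rcases hz with hz | hz
            · exact outs_ok hΦ hok.1.1 hz
            · exact outs_ok hΦ hok.1.2.1 hz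
          exact ⟨ext_nonneg_of_ok hΦ hε a5, by linarith, by linarith⟩
        · obtain ⟨z, hz, rfl⟩ := mem_Aln.1 hσ
          have a1 := (ext_outs_le hΦ hε hR.1 hz).trans hR.2.2
          have a2 := ln_sq_le_enT_outs hΦ hε.ne' hz
          have a3 := enT_nonneg (node x y)
          exact ⟨ext_nonneg_of_ok hΦ hε (outs_ok hΦ hR.1 hz), by linarith, by linarith⟩)
    (fun J S l R hS hR hB => by
      obtain ⟨x, y, hxy, hok⟩ := WtP_ne_zero hS
      rw [snoc_eq_sn, hxy] at hB ⊢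
      filter_upwards [hbad J x y R hok hR _ hB] with w hw hb'
      rcases hw hb' with ⟨z, hz, h12⟩ | h12 | h12 | h12
      · refine Or.inl ⟨(ext Φ ε z, ln Φ ε z), ?_, ?_⟩
        · beta_reduce
          rw [sn_zero, sn_one, Finset.mem_union]
          rcases hz with hz | hz
          · exact Or.inl (mem_AlnN.2 ⟨z, hz, rfl⟩)
          · exact Or.inr (mem_Aln.2 ⟨z, hz, rfl⟩)
        · rw [coe_wS] at h12
          exact h12
      · exact Or.inr (Or.inl h12)
      · exact Or.inr (Or.inr (Or.inl h12))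
      · exact Or.inr (Or.inr (Or.inr h12)))
  rw [XT.lintegral_pi_one] at e2
  simp only [lintegral_fin_zero, pow_zero, one_mul, Finset.univ_eq_empty, Finset.prod_empty]
    at e2
  have e3 : ∫⁻ S, WtP Φ ε T L g S * (∫⁻ w, onN (fun x y =>
      ∑' R : CTree, if P' (node x y) w R then wln Φ ε R else 0) S ∂(PP f₀ ε))
        ∂(tree (inten f₀ ε) L) ≤ ∫⁻ S, WtP Φ ε T L g S *
      (∫⁻ w, (∑' R : CTree, if P' S w R then wln Φ ε R else 0) ∂(PP f₀ ε))
        ∂(tree (inten f₀ ε) L) := by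
    refine lintegral_mono fun S => mul_le_mul_right (lintegral_mono fun w => ?_) _
    cases S with
    | leaf a => exact zero_le
    | node x y => exact le_rfl
  have e4 := e1.trans (e3.trans e2)
  refine (mul_le_mul_right (mul_le_mul_right e4 _) _).trans (le_of_eq ?_)
  have hμ0 : muE ε ≠ 0 := (ENNReal.ofReal_pos.2 (GC.mu_pos hε)).ne'
  have hμ : (muE ε)⁻¹ * muE ε = 1 := ENNReal.inv_mul_cancel hμ0 muE_ne_top
  calc (muE ε)⁻¹ * ((muE ε)⁻¹ * (CW * (muE ε ^ (1 + 1) * Dl ε)))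
      = ((muE ε)⁻¹ * muE ε) * ((muE ε)⁻¹ * muE ε) * (CW * Dl ε) := by ring
    _ = _ := by rw [hμ, one_mul, one_mul]

open Classical in
/-- **The related trees over the law of one colliding pair.** -/
theorem tendsto_XPrel (h : GoodDatum f₀ κ₀) (hΦ : IsPotential Φ) (hb : 0 < b) (hc : 0 ≤ c)
    (hcb : c ≤ b / 2) (hM₀ : 0 ≤ M₀) (hf : ∀ z, f₀ z ≤ M₀ * Real.exp (-b * ‖z.2‖ ^ 2))
    (hM₁ : 0 ≤ M₁)
    (hmarg : ∀ v, ∫⁻ x, ENNReal.ofReal (f₀ (x, v)) ≤
      ENNReal.ofReal (M₁ * Real.exp (-b * ‖v‖ ^ 2)))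
    (hT : 0 ≤ T) {N : ℕ → ℕ} {X : ℕ → Set Rln} (hX : ∀ J, (X J).Finite)
    (hXs : ∀ J, ∀ r ∈ X J, r.Small f₀ b (c + b / 8) 2)
    -- the weight
    {CW : ℝ≥0∞} (hCW : CW ≠ ∞) {g : ℝ → CTree → CTree → ℝ≥0∞}
    (hg : ∀ ε, 0 < ε → Measurable fun p : CTree × CTree => g ε p.1 p.2)
    (hgb : ∀ ε, 0 < ε → ∀ x y, CTree.ok Φ ε (node x y) →
      g ε x y ≤ CW * ENNReal.ofReal (Real.exp (c * enT (node x y))))
    (hgt : ∀ ε, 0 < ε → ∀ x y, g ε x y ≠ ∞)
    -- the number of the related trees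
    {P : ℝ → Finset Src → CTree → CTree → CTree → Prop}
    {Q : ℝ → Finset Src → CTree → CTree → ℝ≥0∞}
    (hQ : ∀ ε, 0 < ε → Measurable fun p : (CTree × CTree) × Conf Ph =>
      Q ε (wS (pts p.2)) p.1.1 p.1.2)
    (hQP : ∀ ε, 0 < ε → ∀ U x y, coT Φ ε L T U x y → Disjoint (U : Set Src) (node x y).leaves →
      Q ε U x y ≤ ∑' R : CTree, if P ε U x y R then wln Φ ε R else 0)
    -- the world of the related trees
    {W₂ : ℝ → Finset Src → CTree → CTree → Finset Src}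
    (hP : ∀ ε, 0 < ε → ∀ U x y, coT Φ ε L T U x y → ∀ R, P ε U x y R →
      alive Φ ε L (W₂ ε U x y : Set Src) R (ext Φ ε R) ∧ ext Φ ε R ≤ T)
    (hW₂ : ∀ ε, 0 < ε → ∀ U x y, OKP Φ ε T L x y → ∀ a ∈ W₂ ε U x y,
      a ∈ U ∨ ∃ z ∈ outs x ∪ outs y, rsrc Φ ε z = a)
    -- the bad event
    {Bad : ℝ → CTree → CTree → Finset Src → CTree → Prop}
    (hBm : ∀ ε, 0 < ε → MeasurableSet {p : ((CTree × CTree) × CTree) × Conf Ph |
      Bad ε p.1.1.1 p.1.1.2 (wS (pts p.2)) p.1.2})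
    {Alt : ℝ → CTree → CTree → Finset Src → Src → Prop}
    (h1 : ∀ ε, 0 < ε → ∀ U x y, coT Φ ε L T U x y → Disjoint (U : Set Src) (node x y).leaves →
      ∀ R, P ε U x y R → R.leaves ⊆ (U : Set Src) →
      (∃ a ∈ R.leaves, Alt ε x y U a) ∨ Bad ε x y (rm U R) R)
    (h2 : ∀ ε, 0 < ε → ∀ (U : Finset Src) x y, OKP Φ ε T L x y → ∀ a ∈ U, Alt ε x y U a →
      Bad ε x y (rm U (leaf a)) (leaf a))
    (hbad : ∀ J, ∀ (ε : ℝ) (hε : 0 < ε), ε ≤ 1 → ∀ x y R, OKP Φ ε T L x y →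
      OKt Φ ε L T R → ∀ l : Fin 0 → Src, Base Φ ε (sn (node x y) R) l → ∀ᵐ w ∂(PP f₀ ε),
      Bad ε x y (wS (pts w)) R →
      (∃ z ∈ outs x ∪ outs y ∪ outs R,
        HasClean hΦ hε.ne' L T (T + 1) J (wS (pts w)) (ext Φ ε z) (ln Φ ε z)) ∨
        PrgC Φ ε T 2 (N J) (sn (node x y) R) l (pts w) ∨
        PrgO Φ ε T 1 (N J) (sn (node x y) R) l (pts w) ∨
        SBad (X J) ε (sn (node x y) R) l (pts w)) :
    Tendsto (fun ε => (muE ε)⁻¹ * ((muE ε)⁻¹ *
      XP Φ ε L f₀ T (fun U x y => g ε x y * Q ε U x y))) (𝓝[>] 0) (𝓝 0) := by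
  obtain ⟨Dl, hDl, hlim⟩ := XP_rel_le (Φ := Φ) h hΦ hb hc hcb hM₀ hf hM₁ hmarg L N hT hX hXs
  have h3 : Tendsto (fun ε => CW * Dl ε) (𝓝[>] 0) (𝓝 0) := by
    have h3 := ENNReal.Tendsto.const_mul (a := CW) hDl (Or.inr hCW)
    rwa [mul_zero] at h3
  have hev : ∀ᶠ ε : ℝ in 𝓝[>] 0, ε ≤ 1 :=
    (eventually_nhdsWithin_of_eventually_nhds (eventually_le_nhds one_pos))
  refine tendsto_of_tendsto_of_tendsto_of_le_of_le' tendsto_const_nhds h3
    (Eventually.of_forall fun _ => zero_le) ?_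
  filter_upwards [self_mem_nhdsWithin, hev] with ε hε hε1
  rw [mem_Ioi] at hε
  exact hlim ε hε hε1 CW hCW (g ε) (hg ε hε) (hgb ε hε) (hgt ε hε) (P ε) (Q ε) (hQ ε hε)
    (hQP ε hε) (W₂ ε) (hP ε hε) (hW₂ ε hε) (Bad ε) (hBm ε hε) (Alt ε) (h1 ε hε) (h2 ε hε)
    fun J => hbad J ε hε hε1

end Lim

end Vale.Agent.P119.PB.PL
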