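import Vale.Agent.P119.PB.PairsX

/-!
# P119, block PROB: sums over the exhausts of one of two alive trees (`helper298`)

For two trees `x`, `y` of `Al` whose lines hit each other, the tree `y` is integrated out:

* `joint2_le`: sums over the exhausts `e` of `x` of functions of `x`, `y`, `e`;
* `pairs2_le`: sums over the pairs of exhausts of `x`.
-/

open MeasureTheory Filter Topology Set
open scoped ENNReal NNReal

noncomputable section

namespace Vale.Agent.P119.M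

open KU CTree FL PB Cap

variable {Φ : E3 → ℝ} {ε b t : ℝ} {ν : Measure Ph} {L : ℕ} {Al : Set CTree} {g : CTree → ℝ≥0∞}

/-- The typical part and the atypical part of an integral over `Al`. -/
theorem lintegral_Al_split (h : SplitData Φ ε t L Al g) (Θ : Measure CTree) {F : CTree → ℝ≥0∞}
    (hF : Measurable F) : ∫⁻ y in Al, F y ∂Θ =
      ∫⁻ y, F y ∂(typT Al g Θ) + ∫⁻ y in Al, (1 - g y) * F y ∂Θ := by
  have hm : Measurable fun y => g y * F y := h.gm.mul hF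
  rw [lintegral_typT h.meas h.gm hF, ← lintegral_add_left hm]
  refine lintegral_congr fun y => ?_
  rw [← add_mul, add_tsub_cancel_of_le (h.g1 y), one_mul]

/-- The crude bound of the typical trees whose line hits the line of `x`. -/
theorem typ_crude (h : SplitData Φ ε t L Al g) (hb : 0 < b) {K : ℝ≥0∞} {Θ : Measure CTree}
    (hK : LineLaw Φ ε b K (Θ.restrict (okT Φ ε t L))) {q₀ : ℕ} {x : CTree}
    {W : CTree → ℝ≥0∞} (hWm : Measurable W)
    (hW : ∀ y ∈ Al, W y ≤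
      hI ε t (ln Φ ε x, ln Φ ε y) * (pw q₀ (ln Φ ε x).2 * pw q₀ (ln Φ ε y).2)) :
    ∫⁻ y, W y ∂(typT Al g Θ) ≤ K * CH b t q₀ * pw (q₀ + 1) (ln Φ ε x).2 := by
  have hlm := measurable_ln h.pot h.eps.ne'
  have hpm : ∀ q, Measurable fun T : CTree => pw q (ln Φ ε T).2 := fun q =>
    (measurable_pw' q).comp (measurable_snd.comp hlm)
  have hm : Measurable fun y : CTree => hI ε t (ln Φ ε x, ln Φ ε y) * pw q₀ (ln Φ ε y).2 :=
    (measurable_hI.comp (measurable_const.prodMk hlm)).mul (hpm q₀)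
  rw [lintegral_typT h.meas h.gm hWm]
  calc ∫⁻ y in Al, g y * W y ∂Θ
      ≤ ∫⁻ y in Al, pw q₀ (ln Φ ε x).2 *
        (hI ε t (ln Φ ε x, ln Φ ε y) * pw q₀ (ln Φ ε y).2) ∂Θ := by
        refine setLIntegral_mono' h.meas fun y hy => ?_
        calc g y * W y ≤ 1 * _ := mul_le_mul' (h.g1 y) (hW y hy)
          _ = _ := by ring
    _ = pw q₀ (ln Φ ε x).2 *
        ∫⁻ y in Al, hI ε t (ln Φ ε x, ln Φ ε y) * pw q₀ (ln Φ ε y).2 ∂Θ :=
        lintegral_const_mul _ hm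
    _ ≤ pw q₀ (ln Φ ε x).2 * (K * CH b t q₀ * pw 1 (ln Φ ε x).2) :=
        mul_le_mul_right ((lintegral_mono_set h.sub).trans (hit_mass h.eps hb hK q₀ _)) _
    _ = _ := by rw [pw_add]; ring

/-- The error of the atypical trees `y`. -/
theorem aty_err [IsFiniteMeasure ν] (h : SplitData Φ ε t L Al g) (hb : 0 < b) {K : ℝ≥0∞}
    {L' : ℕ} (hK : LineLaw Φ ε b K ((tree ν L').restrict (okT Φ ε t L))) {q₀ : ℕ} {c : ℝ≥0∞}
    {M : CTree → CTree → ℝ≥0∞} (hMm : Measurable fun p : CTree × CTree => M p.1 p.2)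
    (hM : ∀ x ∈ Al, ∀ y ∈ Al, M x y ≤
      c * (hI ε t (ln Φ ε x, ln Φ ε y) * (pw q₀ (ln Φ ε x).2 * pw q₀ (ln Φ ε y).2)))
    {α : Measure Ph} (hα : ∀ F : Ph → ℝ≥0∞, Measurable F →
      ∫⁻ T in Al, (1 - g T) * F (ln Φ ε T) ∂(tree ν L') ≤ ∫⁻ z, F z ∂α) :
    ∫⁻ x in Al, ∫⁻ y in Al, (1 - g y) * M x y ∂(tree ν L') ∂(tree ν L') ≤
      c * (K * CH b t q₀) * ∫⁻ z, pw (q₀ + 1) z.2 ∂α := by
  set Θ := tree ν L' with hΘ
  have hlm := measurable_ln h.pot h.eps.ne'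
  have hpm : ∀ q, Measurable fun T : CTree => pw q (ln Φ ε T).2 := fun q =>
    (measurable_pw' q).comp (measurable_snd.comp hlm)
  have hg' : Measurable fun y => 1 - g y := measurable_const.sub h.gm
  have hm : Measurable fun p : CTree × CTree => (1 - g p.2) * M p.1 p.2 :=
    (hg'.comp measurable_snd).mul hMm
  have e := lintegral_lintegral_swap (μ := Θ.restrict Al) (ν := Θ.restrict Al)
    (f := fun x y => (1 - g y) * M x y) hm.aemeasurable
  rw [e]
  have h1 : ∀ y ∈ Al, ∫⁻ x in Al, (1 - g y) * M x y ∂Θ ≤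
      c * (K * CH b t q₀) * ((1 - g y) * pw (q₀ + 1) (ln Φ ε y).2) := by
    intro y hy
    have hm : Measurable fun x : CTree => hI ε t (ln Φ ε y, ln Φ ε x) * pw q₀ (ln Φ ε x).2 :=
      (measurable_hI.comp (measurable_const.prodMk hlm)).mul (hpm q₀)
    calc ∫⁻ x in Al, (1 - g y) * M x y ∂Θ
        ≤ ∫⁻ x in Al, (1 - g y) * (c * pw q₀ (ln Φ ε y).2) *
          (hI ε t (ln Φ ε y, ln Φ ε x) * pw q₀ (ln Φ ε x).2) ∂Θ := by
          refine setLIntegral_mono' h.meas fun x hx => ?_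
          calc (1 - g y) * M x y ≤ (1 - g y) * _ := mul_le_mul_right (hM x hx y hy) _
            _ = _ := by
                rw [← hI_swap (ln Φ ε x, ln Φ ε y)]
                change _ * (_ * (hI ε t (ln Φ ε y, ln Φ ε x) * _)) = _
                ring
      _ = (1 - g y) * (c * pw q₀ (ln Φ ε y).2) *
          ∫⁻ x in Al, hI ε t (ln Φ ε y, ln Φ ε x) * pw q₀ (ln Φ ε x).2 ∂Θ :=
          lintegral_const_mul _ hm
      _ ≤ (1 - g y) * (c * pw q₀ (ln Φ ε y).2) * (K * CH b t q₀ * pw 1 (ln Φ ε y).2) :=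
          mul_le_mul_right ((lintegral_mono_set h.sub).trans
            (hit_mass h.eps hb hK q₀ (ln Φ ε y))) _
      _ = _ := by rw [pw_add]; ring
  refine (setLIntegral_mono' h.meas h1).trans ?_
  have hm2 : Measurable fun y => (1 - g y) * pw (q₀ + 1) (ln Φ ε y).2 := hg'.mul (hpm _)
  rw [lintegral_const_mul _ hm2]
  exact mul_le_mul_right (hα (fun z => pw (q₀ + 1) z.2)
    ((measurable_pw' (q₀ + 1)).comp measurable_snd)) _

/-- **Sums over the exhausts of `x`, the tree `y` is integrated out.** -/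
theorem joint2_le [IsFiniteMeasure ν] (h : SplitData Φ ε t L Al g) (hb : 0 < b) {K : ℝ≥0∞}
    {L' : ℕ} (hK : LineLaw Φ ε b K ((tree ν L').restrict (okT Φ ε t L))) {q₀ : ℕ}
    {G : CTree → CTree → CTree → ℝ≥0∞}
    (hGm : Measurable fun p : (CTree × CTree) × CTree => G p.1.1 p.1.2 p.2)
    (hG : ∀ x ∈ Al, ∀ y ∈ Al, ∀ e, G x y e ≤
      hI ε t (ln Φ ε x, ln Φ ε y) * (pw q₀ (ln Φ ε x).2 * pw q₀ (ln Φ ε y).2))
    {α : Measure Ph} (hα : ∀ F : Ph → ℝ≥0∞, Measurable F →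
      ∫⁻ T in Al, (1 - g T) * F (ln Φ ε T) ∂(tree ν L') ≤ ∫⁻ z, F z ∂α) :
    ∫⁻ x in Al, ∫⁻ y in Al, exsum x (fun e => G x y e) ∂(tree ν L') ∂(tree ν L') ≤
      sumJ Φ ε t L (typT Al g (tree ν L')) (fun x e => ∫⁻ y, G x y e ∂(typT Al g (tree ν L'))) +
      ((L + 1 : ℕ) * (2 ^ L * (K * CH b t q₀) * (errC b t K (q₀ + 1) L *
        (∫⁻ T in bad1 Al, pw (q₀ + 1 + L) (ln Φ ε T).2 ∂(tree ν L') +
          ∫⁻ z, pw (q₀ + 1 + L) z.2 ∂α))) +
        2 ^ L * (K * CH b t q₀) * ∫⁻ z, pw (q₀ + 1) z.2 ∂α) := by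
  set Θ := tree ν L' with hΘ
  have hfin := h.isFiniteMeasure Θ
  set Θt := typT Al g Θ with hΘt
  set H : (i : ℕ) → Mk CTree i → CTree → ℝ≥0∞ := fun i q y => G (top q) y (exh q) with hH
  have hHm : ∀ i, Measurable fun p : Mk CTree i × CTree => H i p.1 p.2 := fun i =>
    hGm.comp ((((measurable_top i).comp measurable_fst).prodMk measurable_snd).prodMk
      ((measurable_exh i).comp measurable_fst))
  set N : CTree → CTree → ℝ≥0∞ := fun x y => marks x fun i a b r => H i (a, b, r) y with hN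
  have hNm : Measurable fun p : CTree × CTree => N p.1 p.2 :=
    measurable_marks (X := CTree) (F := fun i a b r y => H i (a, b, r) y) hHm
  have hNle : ∀ x ∈ Al, ∀ y ∈ Al, N x y ≤ 2 ^ L *
      (hI ε t (ln Φ ε x, ln Φ ε y) * (pw q₀ (ln Φ ε x).2 * pw q₀ (ln Φ ε y).2)) := by
    intro x hx y hy
    refine (marks_le_const (c := hI ε t (ln Φ ε x, ln Φ ε y) *
      (pw q₀ (ln Φ ε x).2 * pw q₀ (ln Φ ε y).2)) fun i a b r hr => ?_).trans
      (mul_le_mul_left (pow_le_pow_right₀ (by norm_num) (h.sub hx).2.2) _)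
    change G (plug i (node a b) r) y (node b a) ≤ _
    rw [hr]
    exact hG x hx y hy _
  set F : (i : ℕ) → Mk CTree i → ℝ≥0∞ := fun i q => ∫⁻ y, H i q y ∂Θt with hF
  have hFm : ∀ i, Measurable (F i) := fun i => (hHm i).lintegral_prod_right'
  have hsum : ∀ x, ∫⁻ y, N x y ∂Θt = marks x fun i a b r => F i (a, b, r) := fun x =>
    lintegral_marks_comm (κ := Θt) x (F := fun i a b r y => H i (a, b, r) y) hHm
  have hFle : ∀ x ∈ Al, marks x (fun i a b r => F i (a, b, r)) ≤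
      2 ^ L * (K * CH b t q₀) * pw (q₀ + 1) (ln Φ ε x).2 := by
    intro x hx
    rw [mul_assoc]
    refine (marks_le_const (c := K * CH b t q₀ * pw (q₀ + 1) (ln Φ ε x).2)
      fun i a b r hr => ?_).trans
      (mul_le_mul_left (pow_le_pow_right₀ (by norm_num) (h.sub hx).2.2) _)
    change ∫⁻ y, G (plug i (node a b) r) y (node b a) ∂Θt ≤ _
    rw [hr]
    exact typ_crude h hb hK (hGm.comp ((measurable_const.prodMk measurable_id).prodMk
      measurable_const)) fun y hy => hG x hx y hy _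
  have hNx : ∀ x, Measurable fun y => N x y := fun x => hNm.comp measurable_prodMk_left
  have m1 : Measurable fun x => ∫⁻ y, N x y ∂Θt := hNm.lintegral_prod_right'
  calc ∫⁻ x in Al, ∫⁻ y in Al, exsum x (fun e => G x y e) ∂Θ ∂Θ
      ≤ ∫⁻ x in Al, (∫⁻ y, N x y ∂Θt + ∫⁻ y in Al, (1 - g y) * N x y ∂Θ) ∂Θ := by
        refine lintegral_mono fun x => ?_
        rw [← lintegral_Al_split h Θ (hNx x)]
        refine lintegral_mono fun y => ?_
        refine (exsum_le _).trans (marks_mono fun i a b r hr => le_of_eq ?_)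
        change G x y (node b a) = G (plug i (node a b) r) y (node b a)
        rw [hr]
    _ = ∫⁻ x in Al, marks x (fun i a b r => F i (a, b, r)) ∂Θ +
        ∫⁻ x in Al, ∫⁻ y in Al, (1 - g y) * N x y ∂Θ ∂Θ := by
        rw [lintegral_add_left m1]
        simp only [hsum]
    _ ≤ (sumJ Φ ε t L Θt (fun x e => ∫⁻ y, G x y e ∂Θt) +
        (L + 1 : ℕ) * (2 ^ L * (K * CH b t q₀) * (errC b t K (q₀ + 1) L *
        (∫⁻ T in bad1 Al, pw (q₀ + 1 + L) (ln Φ ε T).2 ∂Θ +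
          ∫⁻ z, pw (q₀ + 1 + L) z.2 ∂α)))) +
        2 ^ L * (K * CH b t q₀) * ∫⁻ z, pw (q₀ + 1) z.2 ∂α := by
        refine add_le_add ((splitM_le h L' hFm).trans (add_le_add le_rfl ?_))
          (aty_err h hb hK hNm hNle hα)
        exact mul_le_mul_right (error_le h hb hK (q₀ + 1) hFle hα) _
    _ = _ := add_assoc _ _ _

theorem exsum_exsum_le {x : CTree} (hx : x.depth ≤ L) {Ψ : CTree → CTree → ℝ≥0∞}
    (hΨ : ∀ e m, Ψ e m ≤ 1) :
    exsum x (fun e => exsum x fun m => open Classical in if e = m then 0 else Ψ e m) ≤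
      2 ^ L * 2 ^ L := by
  have h2 : (2 : ℝ≥0∞) ^ x.depth ≤ 2 ^ L := pow_le_pow_right₀ (by norm_num) hx
  have h1 : ∀ e : CTree,
      exsum x (fun m => open Classical in if e = m then 0 else Ψ e m) ≤ 2 ^ L := fun e => by
    refine (exsum_le _).trans ((marks_le_const (c := 1) fun i a b r _ => ?_).trans ?_)
    · split_ifs
      · exact zero_le
      · exact hΨ _ _
    · rw [mul_one]; exact h2
  refine (exsum_le _).trans ((marks_le_const (c := 2 ^ L) fun i a b r _ => h1 _).trans ?_)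
  exact mul_le_mul_left h2 _

/-- **Sums over the pairs of exhausts of `x`, the tree `y` is integrated out.** -/
theorem pairs2_le [IsFiniteMeasure ν] (h : SplitData Φ ε t L Al g) (hb : 0 < b) {K : ℝ≥0∞}
    {L' : ℕ} (hK : LineLaw Φ ε b K ((tree ν L').restrict (okT Φ ε t L))) {q₀ : ℕ}
    {W : CTree → CTree → ℝ≥0∞} (hWm : Measurable fun p : CTree × CTree => W p.1 p.2)
    (hW : ∀ x ∈ Al, ∀ y ∈ Al, W x y ≤
      hI ε t (ln Φ ε x, ln Φ ε y) * (pw q₀ (ln Φ ε x).2 * pw q₀ (ln Φ ε y).2))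
    {Ψ : CTree → CTree → ℝ≥0∞} (hΨm : Measurable fun p : CTree × CTree => Ψ p.1 p.2)
    (hΨ : ∀ e m, Ψ e m ≤ 1) {α : Measure Ph} (hα : ∀ F : Ph → ℝ≥0∞, Measurable F →
      ∫⁻ T in Al, (1 - g T) * F (ln Φ ε T) ∂(tree ν L') ≤ ∫⁻ z, F z ∂α) :
    ∫⁻ x in Al, ∫⁻ y in Al, W x y *
        exsum x (fun e => exsum x fun m => open Classical in if e = m then 0 else Ψ e m)
        ∂(tree ν L') ∂(tree ν L') ≤
      (sumA Φ ε t L (typT Al g (tree ν L')) (fun x => ∫⁻ y, W x y ∂(typT Al g (tree ν L'))) Ψ +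
        sumC Φ ε t L (typT Al g (tree ν L')) (fun x => ∫⁻ y, W x y ∂(typT Al g (tree ν L'))) Ψ) +
      ((3 * L + 2 : ℕ) * (2 * 2 ^ L * 2 ^ L * 2 ^ L * (2 * 1 * (K * CH b t q₀)) *
        (errC b t K (q₀ + 1) L *
        (∫⁻ T in bad1 Al, pw (q₀ + 1 + L) (ln Φ ε T).2 ∂(tree ν L') +
          ∫⁻ z, pw (q₀ + 1 + L) z.2 ∂α))) +
        2 ^ L * 2 ^ L * (1 * (K * CH b t q₀) * ∫⁻ z, pw (q₀ + 1) z.2 ∂α)) := by
  set Θ := tree ν L' with hΘ
  have hfin := h.isFiniteMeasure Θ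
  set Θt := typT Al g Θ with hΘt
  set EE : CTree → ℝ≥0∞ := fun x =>
    exsum x (fun e => exsum x fun m => open Classical in if e = m then 0 else Ψ e m) with hEE
  have hWx : ∀ x, Measurable fun y => W x y := fun x => hWm.comp measurable_prodMk_left
  have hRm : Measurable fun x => ∫⁻ y, W x y ∂Θt := hWm.lintegral_prod_right'
  have hg' : Measurable fun y => 1 - g y := measurable_const.sub h.gm
  have hSm' : Measurable fun p : CTree × CTree => (1 - g p.2) * W p.1 p.2 :=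
    (hg'.comp measurable_snd).mul hWm
  have hSm : Measurable fun x => ∫⁻ y in Al, (1 - g y) * W x y ∂Θ :=
    hSm'.lintegral_prod_right'
  have hR : ∀ x ∈ Al, ∫⁻ y, W x y ∂Θt ≤ K * CH b t q₀ * pw (q₀ + 1) (ln Φ ε x).2 :=
    fun x hx => typ_crude h hb hK (hWx x) fun y hy => hW x hx y hy
  have hm2 : Measurable fun x => 2 ^ L * 2 ^ L * ∫⁻ y in Al, (1 - g y) * W x y ∂Θ :=
    hSm.const_mul _
  have hb2 : (2 : ℝ≥0∞) ^ L * 2 ^ L ≠ ∞ :=
    ENNReal.mul_ne_top (ENNReal.pow_ne_top (by norm_num)) (ENNReal.pow_ne_top (by norm_num))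
  calc ∫⁻ x in Al, ∫⁻ y in Al, W x y * EE x ∂Θ ∂Θ
      ≤ ∫⁻ x in Al, ((∫⁻ y, W x y ∂Θt) * EE x +
          2 ^ L * 2 ^ L * ∫⁻ y in Al, (1 - g y) * W x y ∂Θ) ∂Θ := by
        refine setLIntegral_mono' h.meas fun x hx => ?_
        rw [lintegral_mul_const _ (hWx x), lintegral_Al_split h Θ (hWx x), add_mul]
        refine add_le_add le_rfl ?_
        rw [mul_comm]
        exact mul_le_mul_left (exsum_exsum_le (h.sub hx).2.2 hΨ) _
    _ = ∫⁻ x in Al, (∫⁻ y, W x y ∂Θt) * EE x ∂Θ +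
        2 ^ L * 2 ^ L * ∫⁻ x in Al, ∫⁻ y in Al, (1 - g y) * W x y ∂Θ ∂Θ := by
        rw [lintegral_add_right _ hm2, lintegral_const_mul' _ _ hb2]
    _ ≤ _ := by
        refine (add_le_add (pairs_le' h hb hK hRm hR hΨm hΨ hα)
          (mul_le_mul_right (aty_err h hb hK (c := 1) hWm (fun x hx y hy => by
            rw [one_mul]; exact hW x hx y hy) hα) _)).trans (le_of_eq ?_)
        rw [add_assoc]

end Vale.Agent.P119.M
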