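import Vale.Agent.P119.PB.Sub

/-!
# P119, block PROB: product law of the pieces of a marked tree (`helper298`)

`Al` is a measurable set of trees (in the applications, the alive trees), `bad1 Al` the set of the
trees `node A B ∈ Al` with `A ∉ Al` or `B ∉ Al`.  The law of the root lines of the trees of `Al` is
`≤ τ + α` (`τ` typical, `α` small); `g` is the typical part (`exists_split`).

* `pieces_le`: for every finite family of subtrees of `T ∈ Al`,
  `1 ≤ ∏ G(S_i) + n ∑_{X ⊂ T} χ(X)`, `G = 1_Al g`, `χ = 1_bad1 + 1_Al (1 - g)`;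
* `splitA_le`, `splitC_le`: sums over pairs of nodes of the trees of `Al` are bounded by the
  integral against the product of the typical laws, plus an error.
-/

open MeasureTheory Filter Topology Set
open scoped ENNReal NNReal

noncomputable section

namespace Vale.Agent.P119.M

open KU CTree FL PB Cap

/-! ### Splitting of a law -/

section Split

variable {X : Type*} [MeasurableSpace X]

/-- A measure which is bounded by a sum is the sum of two bounded parts. -/
theorem exists_split {Λ τ α : Measure X} [SigmaFinite τ] [SigmaFinite α] (h : Λ ≤ τ + α) :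
    ∃ g : X → ℝ≥0∞, Measurable g ∧ (∀ x, g x ≤ 1) ∧
      (∀ F : X → ℝ≥0∞, Measurable F → ∫⁻ x, g x * F x ∂Λ ≤ ∫⁻ x, F x ∂τ) ∧
      ∀ F : X → ℝ≥0∞, Measurable F → ∫⁻ x, (1 - g x) * F x ∂Λ ≤ ∫⁻ x, F x ∂α := by
  set ρ : Measure X := τ + α with hρ
  have hτ : τ ≪ ρ := Measure.absolutelyContinuous_of_le (Measure.le_add_right le_rfl)
  have hα : α ≪ ρ := Measure.absolutelyContinuous_of_le (Measure.le_add_left le_rfl)
  have h1 : τ.rnDeriv ρ + α.rnDeriv ρ =ᵐ[ρ] fun _ => 1 := by
    have h2 := Measure.rnDeriv_add' τ α ρ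
    have h3 := Measure.rnDeriv_self ρ
    filter_upwards [h2, h3] with x hx hx'
    rw [← hx, ← hρ, hx']
  have hm : Measurable (τ.rnDeriv ρ) := Measure.measurable_rnDeriv _ _
  have hm' : Measurable (α.rnDeriv ρ) := Measure.measurable_rnDeriv _ _
  refine ⟨fun x => min 1 (τ.rnDeriv ρ x), measurable_const.min hm, fun x => min_le_left _ _,
    fun F hF => ?_, fun F hF => ?_⟩
  · calc ∫⁻ x, min 1 (τ.rnDeriv ρ x) * F x ∂Λ ≤ ∫⁻ x, min 1 (τ.rnDeriv ρ x) * F x ∂ρ :=
          lintegral_mono' h fun _ => le_rfl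
      _ ≤ ∫⁻ x, τ.rnDeriv ρ x * F x ∂ρ := lintegral_mono fun x => mul_le_mul_left (min_le_right _ _) _
      _ = ∫⁻ x, F x ∂τ := by
          conv_rhs => rw [← Measure.withDensity_rnDeriv_eq τ ρ hτ]
          rw [lintegral_withDensity_eq_lintegral_mul _ hm hF]
          rfl
  · calc ∫⁻ x, (1 - min 1 (τ.rnDeriv ρ x)) * F x ∂Λ
        ≤ ∫⁻ x, (1 - min 1 (τ.rnDeriv ρ x)) * F x ∂ρ := lintegral_mono' h fun _ => le_rfl
      _ ≤ ∫⁻ x, α.rnDeriv ρ x * F x ∂ρ := by
          refine lintegral_mono_ae ?_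
          filter_upwards [h1] with x hx
          refine mul_le_mul_left ?_ _
          have hx' : τ.rnDeriv ρ x + α.rnDeriv ρ x = 1 := hx
          have h4 : τ.rnDeriv ρ x ≤ 1 := by rw [← hx']; exact le_self_add
          rw [min_eq_right h4, ← hx']
          exact tsub_le_iff_left.2 le_rfl
      _ = ∫⁻ x, F x ∂α := by
          conv_rhs => rw [← Measure.withDensity_rnDeriv_eq α ρ hα]
          rw [lintegral_withDensity_eq_lintegral_mul _ hm' hF]
          rfl

end Split

theorem one_le_prod_add_sum {ι : Type*} (s : Finset ι) {g : ι → ℝ≥0∞} (hg : ∀ i, g i ≤ 1) :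
    1 ≤ ∏ i ∈ s, g i + ∑ i ∈ s, (1 - g i) := by
  classical
  induction s using Finset.induction_on with
  | empty => simp
  | insert j s hj ih =>
    rw [Finset.prod_insert hj, Finset.sum_insert hj]
    calc (1 : ℝ≥0∞) = g j * 1 + (1 - g j) := by rw [mul_one, add_tsub_cancel_of_le (hg j)]
      _ ≤ g j * (∏ i ∈ s, g i + ∑ i ∈ s, (1 - g i)) + (1 - g j) := by gcongr
      _ = g j * ∏ i ∈ s, g i + ((1 - g j) + g j * ∑ i ∈ s, (1 - g i)) := by ring
      _ ≤ _ := by
          gcongr
          exact mul_le_of_le_one_left zero_le (hg j)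

/-! ### The pieces -/

/-- The trees of `Al` such that a child is not in `Al`. -/
def bad1 (Al : Set CTree) : Set CTree := {T | T ∈ Al ∧ ∃ A B, T = node A B ∧ ¬(A ∈ Al ∧ B ∈ Al)}

theorem exists_bad1 {Al : Set CTree} {X T : CTree} (h : TL.Sub X T) : T ∈ Al → X ∉ Al →
    ∃ S, TL.Sub S T ∧ S ∈ bad1 Al := by
  induction h with
  | refl => intro h1 h2; exact absurd h1 h2
  | @left a b _ ih =>
    intro h1 h2
    by_cases ha : a ∈ Al
    · obtain ⟨S, h3, h4⟩ := ih ha h2
      exact ⟨S, TL.Sub.left b h3, h4⟩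
    · exact ⟨node a b, TL.Sub.refl _, h1, a, b, rfl, fun h => ha h.1⟩
  | @right b a _ ih =>
    intro h1 h2
    by_cases hb : b ∈ Al
    · obtain ⟨S, h3, h4⟩ := ih hb h2
      exact ⟨S, TL.Sub.right a h3, h4⟩
    · exact ⟨node a b, TL.Sub.refl _, h1, a, b, rfl, fun h => hb h.2⟩

variable {Φ : E3 → ℝ} {ε b t : ℝ}

/-- The typical weight of a piece. -/
def Gp (Al : Set CTree) (g : CTree → ℝ≥0∞) : CTree → ℝ≥0∞ :=
  Al.indicator fun S => g S

/-- The atypical weight. -/
def chi (Al : Set CTree) (g : CTree → ℝ≥0∞) (S : CTree) : ℝ≥0∞ :=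
  (bad1 Al).indicator (fun _ => 1) S + Al.indicator (fun S => 1 - g S) S

theorem pieces_le {Al : Set CTree} {g : CTree → ℝ≥0∞} (hg : ∀ z, g z ≤ 1) {T : CTree} (hT : T ∈ Al)
    {ι : Type*} (s : Finset ι) {P : ι → CTree} (hP : ∀ i ∈ s, TL.Sub (P i) T) :
    1 ≤ ∏ i ∈ s, Gp Al g (P i) + s.card * msub T fun _ X _ => chi Al g X := by
  classical
  by_cases h : ∀ i ∈ s, P i ∈ Al
  · have h1 := one_le_prod_add_sum s (g := fun i => g (P i)) fun i => hg _
    refine h1.trans (add_le_add (le_of_eq ?_) ?_)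
    · refine Finset.prod_congr rfl fun i hi => ?_
      unfold Gp
      rw [indicator_of_mem (h i hi)]
    · rw [← nsmul_eq_mul]
      refine Finset.sum_le_card_nsmul s _ _ fun i hi => ?_
      refine le_msub (hP i hi) fun m r _ => ?_
      refine le_trans (le_of_eq ?_) le_add_self
      rw [indicator_of_mem (h i hi)]
  · push Not at h
    obtain ⟨i, hi, hiA⟩ := h
    obtain ⟨S, hS, hS'⟩ := exists_bad1 (hP i hi) hT hiA
    refine le_trans ?_ le_add_self
    have h1 : (1 : ℝ≥0∞) ≤ msub T fun _ X _ => chi Al g X := by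
      refine le_msub hS fun m r _ => ?_
      refine le_trans (le_of_eq ?_) le_self_add
      rw [indicator_of_mem hS']
    have h2 : (1 : ℝ≥0∞) ≤ s.card := by
      exact_mod_cast Finset.card_pos.2 ⟨i, hi⟩
    calc (1 : ℝ≥0∞) = 1 * 1 := (one_mul 1).symm
      _ ≤ _ := mul_le_mul' h2 h1

/-! ### Densities -/

section Density

variable {β : Type} [MeasurableSpace β]

theorem lintegral_stM_withDensity (Θ : Measure β) [IsFiniteMeasure Θ] {G : β → ℝ≥0∞}
    (hG : Measurable G) (hG1 : ∀ x, G x ≤ 1) {F : Bool × β → ℝ≥0∞} (hF : Measurable F) :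
    ∫⁻ q, F q ∂(stM (Θ.withDensity G)) = ∫⁻ q, G q.2 * F q ∂(stM Θ) := by
  have : IsFiniteMeasure (Θ.withDensity G) := isFiniteMeasure_withDensity
    ((lintegral_mono hG1).trans_lt (by rw [lintegral_one]; exact measure_lt_top _ _)).ne
  have hGF : Measurable fun q : Bool × β => G q.2 * F q := (hG.comp measurable_snd).mul hF
  rw [lintegral_stM _ hF, lintegral_stM _ hGF]
  refine Finset.sum_congr rfl fun o _ => ?_
  have hFo : Measurable fun S => F (o, S) := hF.comp measurable_prodMk_left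
  rw [lintegral_withDensity_eq_lintegral_mul _ hG hFo]
  rfl

theorem lintegral_spM_withDensity (Θ : Measure β) [IsFiniteMeasure Θ] {G : β → ℝ≥0∞}
    (hG : Measurable G) (hG1 : ∀ x, G x ≤ 1) (m : ℕ) : ∀ {F : (Fin m → Bool × β) → ℝ≥0∞},
    Measurable F → ∫⁻ r, F r ∂(spM (Θ.withDensity G) m) =
      ∫⁻ r, (∏ i, G (r i).2) * F r ∂(spM Θ m) := by
  have : IsFiniteMeasure (Θ.withDensity G) := isFiniteMeasure_withDensity
    ((lintegral_mono hG1).trans_lt (by rw [lintegral_one]; exact measure_lt_top _ _)).ne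
  induction m with
  | zero =>
    intro F _
    rw [lintegral_spM_zero, lintegral_spM_zero]
    simp
  | succ m ih =>
    intro F hF
    have hPr : ∀ n : ℕ, Measurable fun r : Fin n → Bool × β => ∏ i, G (r i).2 := fun n =>
      Finset.measurable_fun_prod _ fun i _ => hG.comp (measurable_pi_apply i).snd
    have hPF : Measurable fun r : Fin (m + 1) → Bool × β => (∏ i, G (r i).2) * F r :=
      (hPr (m + 1)).mul hF
    rw [lintegral_spM_succ _ _ hF, lintegral_spM_succ _ _ hPF]
    refine Finset.sum_congr rfl fun o _ => ?_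
    have hFc : ∀ S, Measurable fun r : Fin m → Bool × β => F (Fin.cons (o, S) r) := fun S =>
      hF.comp (measurable_fcons.comp measurable_prodMk_left)
    have h1 : ∀ S, ∫⁻ r, F (Fin.cons (o, S) r) ∂(spM (Θ.withDensity G) m) =
        ∫⁻ r, (∏ i, G (r i).2) * F (Fin.cons (o, S) r) ∂(spM Θ m) := fun S => ih (hFc S)
    simp only [h1]
    have hFj : Measurable fun p : β × (Fin m → Bool × β) =>
        (∏ i, G (p.2 i).2) * F (Fin.cons (o, p.1) p.2) :=
      ((hPr m).comp measurable_snd).mul (hF.comp (measurable_fcons.comp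
        ((measurable_const.prodMk measurable_fst).prodMk measurable_snd)))
    have hFj2 : Measurable fun S => ∫⁻ r, (∏ i, G (r i).2) * F (Fin.cons (o, S) r) ∂(spM Θ m) :=
      hFj.lintegral_prod_right'
    rw [lintegral_withDensity_eq_lintegral_mul _ hG hFj2]
    refine lintegral_congr fun S => ?_
    have hFS : Measurable fun r : Fin m → Bool × β => (∏ i, G (r i).2) * F (Fin.cons (o, S) r) :=
      hFj.comp measurable_prodMk_left
    rw [Pi.mul_apply, ← lintegral_const_mul _ hFS]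
    refine lintegral_congr fun r => ?_
    rw [Fin.prod_univ_succ]
    simp only [Fin.cons_zero, Fin.cons_succ]
    ring

theorem lintegral_mkM_withDensity (Θ : Measure β) [IsFiniteMeasure Θ] {G : β → ℝ≥0∞}
    (hG : Measurable G) (hG1 : ∀ x, G x ≤ 1) (m : ℕ) {F : Mk β m → ℝ≥0∞}
    (hF : Measurable F) : ∫⁻ q, F q ∂(mkM (Θ.withDensity G) m) =
      ∫⁻ q : Mk β m, (G q.1 * (G q.2.1 * ∏ i, G (q.2.2 i).2)) * F q ∂(mkM Θ m) := by
  have : IsFiniteMeasure (Θ.withDensity G) := isFiniteMeasure_withDensity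
    ((lintegral_mono hG1).trans_lt (by rw [lintegral_one]; exact measure_lt_top _ _)).ne
  have hPr : Measurable fun r : Fin m → Bool × β => ∏ i, G (r i).2 :=
    Finset.measurable_fun_prod _ fun i _ => hG.comp (measurable_pi_apply i).snd
  have hw : Measurable fun q : Mk β m => (G q.1 * (G q.2.1 * ∏ i, G (q.2.2 i).2)) * F q :=
    ((hG.comp measurable_fst).mul ((hG.comp (measurable_fst.comp measurable_snd)).mul
      (hPr.comp (measurable_snd.comp measurable_snd)))).mul hF
  rw [lintegral_mkM _ _ hF, lintegral_mkM _ _ hw]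
  have h0 : ∀ a b, ∫⁻ r, F (a, b, r) ∂(spM (Θ.withDensity G) m) =
      ∫⁻ r, (∏ i, G (r i).2) * F (a, b, r) ∂(spM Θ m) := fun a b =>
    lintegral_spM_withDensity Θ hG hG1 m
      (hF.comp (measurable_prodMk_left.comp measurable_prodMk_left))
  simp only [h0]
  have hF3 : Measurable fun p : (β × β) × (Fin m → Bool × β) =>
      (∏ i, G (p.2 i).2) * F (p.1.1, p.1.2, p.2) :=
    (hPr.comp measurable_snd).mul (hF.comp ((measurable_fst.comp measurable_fst).prodMk
      ((measurable_snd.comp measurable_fst).prodMk measurable_snd)))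
  have hF2 : Measurable fun p : β × β => ∫⁻ r, (∏ i, G (r i).2) * F (p.1, p.2, r) ∂(spM Θ m) :=
    hF3.lintegral_prod_right'
  have h1 : ∀ a, ∫⁻ b, ∫⁻ r, (∏ i, G (r i).2) * F (a, b, r) ∂(spM Θ m) ∂(Θ.withDensity G) =
      ∫⁻ b, G b * ∫⁻ r, (∏ i, G (r i).2) * F (a, b, r) ∂(spM Θ m) ∂Θ := fun a => by
    have hF2a : Measurable fun b => ∫⁻ r, (∏ i, G (r i).2) * F (a, b, r) ∂(spM Θ m) :=
      hF2.comp measurable_prodMk_left
    rw [lintegral_withDensity_eq_lintegral_mul _ hG hF2a]
    rfl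
  simp only [h1]
  have hF1 : Measurable fun a => ∫⁻ b, G b * ∫⁻ r, (∏ i, G (r i).2) * F (a, b, r) ∂(spM Θ m) ∂Θ := by
    have h : Measurable fun p : β × β =>
        G p.2 * ∫⁻ r, (∏ i, G (r i).2) * F (p.1, p.2, r) ∂(spM Θ m) :=
      (hG.comp measurable_snd).mul hF2
    exact h.lintegral_prod_right'
  rw [lintegral_withDensity_eq_lintegral_mul _ hG hF1]
  refine lintegral_congr fun a => ?_
  have hF2a : Measurable fun b => G b * ∫⁻ r, (∏ i, G (r i).2) * F (a, b, r) ∂(spM Θ m) :=
    hG.mul (hF2.comp measurable_prodMk_left)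
  rw [Pi.mul_apply, ← lintegral_const_mul _ hF2a]
  refine lintegral_congr fun b => ?_
  have hF3a : Measurable fun r : Fin m → Bool × β => (∏ i, G (r i).2) * F (a, b, r) :=
    hF3.comp (f := fun r => ((a, b), r)) measurable_prodMk_left
  rw [← mul_assoc, ← lintegral_const_mul _ hF3a]
  refine lintegral_congr fun r => ?_
  ring

end Density

end Vale.Agent.P119.M
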