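import Vale.Agent.P119.PB.RE6
import Vale.Agent.P119.PB.In8b

/-!
# P119, block PROB, P8: the crude bounds of the functionals of the colliding pairs (`helper185`)

`crudeP8_FXp`, `crudeP8_P9c`: the hypotheses `CrudeP8` of `helper336` for `FXp` and `P9c`.
-/

open MeasureTheory Filter Topology Set
open scoped ENNReal NNReal

noncomputable section

namespace Vale.Agent.P119.PB.RE

open M CTree KU FL FB RB AU TL GC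

variable {Φ : E3 → ℝ} {T b b₀ : ℝ} {hΦ : IsPotential Φ} {f₀ : Ph → ℝ} {κ₀ M₀ M₁ : ℝ}

theorem exists_rho {δ : ℝ≥0∞} (hδ : δ ≠ 0) (hδ' : δ ≠ ∞) {ρ : ℝ} (hρ : 0 < ρ) :
    ∃ r : ℝ, 0 < r ∧ δ⁻¹ * ENNReal.ofReal r = ENNReal.ofReal ρ := by
  refine ⟨δ.toReal * ρ, mul_pos (ENNReal.toReal_pos hδ hδ') hρ, ?_⟩
  rw [ENNReal.ofReal_mul ENNReal.toReal_nonneg, ENNReal.ofReal_toReal hδ', ← mul_assoc,
    ENNReal.inv_mul_cancel hδ hδ', one_mul]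

theorem crudeP8_FXp (h : GoodDatum f₀ κ₀) (hΦ : IsPotential Φ) (hb₀ : 0 < b₀) (hb : 0 < b)
    (hM₀ : 0 ≤ M₀) (hf : ∀ z, f₀ z ≤ M₀ * Real.exp (-b₀ * ‖z.2‖ ^ 2)) (hM₁ : 0 ≤ M₁)
    (hmarg : ∀ v, ∫⁻ x, ENNReal.ofReal (f₀ (x, v)) ≤
      ENNReal.ofReal (M₁ * Real.exp (-b₀ * ‖v‖ ^ 2))) (hT : 0 ≤ T) :
    CrudeP8 hΦ f₀ T fun L ε _ t φ => FXp Φ ε L f₀ b t φ := by
  refine Eventually.of_forall fun L η η' θ hη hηη _ hθ δ hδ hδ' ρ hρ => ?_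
  obtain ⟨r, hr, hr'⟩ := exists_rho hδ hδ' hρ
  filter_upwards [cr2p_lim (b := b) h hΦ hb₀ hb hM₀ hf hM₁ hmarg hT L hθ hr] with ε h1 hε t ht
  refine (FXp_le_cr h hΦ hε (MWp_pIB h) (ENNReal.inv_ne_top.2 hδ)
    fun e σ z' => lintegral_pIB_le ht.1 hη hηη.le hδ hδ' e σ z').trans ?_
  rw [← hr']
  exact mul_le_mul_right (h1 hε t ht η') _

theorem crudeP8_P9c (h : GoodDatum f₀ κ₀) (hΦ : IsPotential Φ) (hb₀ : 0 < b₀)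
    (hM₀ : 0 ≤ M₀) (hf : ∀ z, f₀ z ≤ M₀ * Real.exp (-b₀ * ‖z.2‖ ^ 2)) (hM₁ : 0 ≤ M₁)
    (hmarg : ∀ v, ∫⁻ x, ENNReal.ofReal (f₀ (x, v)) ≤
      ENNReal.ofReal (M₁ * Real.exp (-b₀ * ‖v‖ ^ 2))) (hT : 0 ≤ T) :
    CrudeP8 hΦ f₀ T fun L ε _ t φ => P9c Φ ε L f₀ t φ := by
  refine Eventually.of_forall fun L η η' θ hη hηη _ hθ δ hδ hδ' ρ hρ => ?_
  obtain ⟨r, hr, hr'⟩ := exists_rho hδ hδ' hρ
  filter_upwards [cr3c_lim h hΦ hb₀ hM₀ hf hM₁ hmarg hT L hθ hr] with ε h1 hε t ht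
  refine (P9c_le_cr h hΦ hε (MWp_pIB h) (ENNReal.inv_ne_top.2 hδ)
    fun e σ z' => lintegral_pIB_le ht.1 hη hηη.le hδ hδ' e σ z').trans ?_
  rw [← hr']
  exact mul_le_mul_right (h1 hε t ht η') _

end Vale.Agent.P119.PB.RE
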