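import Vale.Agent.P119.PB.RelTreeB
import Vale.Agent.P119.PB.ExcOne
import Vale.Agent.P119.IND.Irrs

/-!
# P119, block PROB: the law of the trees related to the lines of one tree (`helper347`)

* `measurableSet_GoodK`;
* **`treeLim`**: `TreeLim`, unconditional.
-/

open MeasureTheory Filter Topology Set
open scoped ENNReal NNReal

noncomputable section

namespace Vale.Agent.P119.PB

open M CTree KU FB RB AU TL IND GC MM

namespace RLn

variable {Φ : E3 → ℝ} {ε : ℝ} {L : ℕ} {hΦ : IsPotential Φ} {hε : 0 < ε} {f₀ : Ph → ℝ} {κ₀ : ℝ}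
  {S : CTree} {T : ℝ}

theorem measurableSet_GoodK (hΦ : IsPotential Φ) (hε : 0 < ε) {X : Type*} [MeasurableSpace X]
    {V K : X → Finset Src} {R : X → CTree} {t : X → ℝ} (hV : RS fun x => (V x : Set Src))
    (hR : Measurable R) (hK : RS fun x => (K x : Set Src)) (ht : Measurable t) :
    MeasurableSet {x | GoodK Φ ε L (V x) (R x) (K x) (t x)} := by
  have h1 := RM.measurableSet_inj_rsrc hΦ hε hR
  have hs := RM.rs_srcs hΦ hε hR
  have h2 := hs.measurableSet_disjoint hK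
  have hZ : RS fun p : X × Src => ((PB.sgl p.2 : Finset Src) : Set Src) := by
    refine (RS.singleton (measurable_snd (α := X) (β := Src))).congr fun p => ?_
    unfold PB.sgl
    exact Finset.coe_singleton _
  have hu : RS fun x => ((srcs Φ ε (R x) ∪ K x : Finset Src) : Set Src) :=
    (hs.union hK).congr fun x => Finset.coe_union _ _
  have h3 := RM.measurableSet_MGood_rs (L := L) hΦ hε (V := V) (Z := fun _ => PB.sgl) hV hZ hu ht
  have e : {x | GoodK Φ ε L (V x) (R x) (K x) (t x)} = {x | InjOn (rsrc Φ ε) (outs (R x))} ∩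
      ({x | Disjoint (srcs Φ ε (R x) : Set Src) (K x : Set Src)} ∩
        {x | M.Good Φ ε L (V x) PB.sgl (srcs Φ ε (R x) ∪ K x) (t x)}) := by
    ext x
    exact ⟨fun h => ⟨h.inj, Finset.disjoint_coe.2 h.disj, h.good⟩,
      fun h => ⟨h.1, Finset.disjoint_coe.1 h.2.1, h.2.2⟩⟩
  rw [e]
  exact h1.inter (h2.inter h3)

theorem EW_srcs_le (hΦ : IsPotential Φ) (hε : 0 < ε) (hd : S.depth ≤ L) :
    EW (srcs Φ ε S) ≤ (2 ^ (L + 2) : ℕ) * (1 + enT S) := by
  have h0 : 0 ≤ enT S := enT_nonneg S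
  unfold EW
  calc ∑ c ∈ srcs Φ ε S, (1 + ‖c.2.1.2‖ ^ 2) ≤ ∑ _c ∈ srcs Φ ε S, (1 + enT S) := by
        refine Finset.sum_le_sum fun a ha => ?_
        obtain ⟨x, hx, rfl⟩ := mem_srcs.1 ha
        have h1 := ln_sq_le_enT_outs hΦ hε.ne' hx
        have h2 : ‖(rsrc Φ ε x).2.1.2‖ ^ 2 ≤ enT S := h1
        linarith
    _ = (srcs Φ ε S).card * (1 + enT S) := by rw [Finset.sum_const, nsmul_eq_mul]
    _ ≤ _ := by
        have h3 : ((srcs Φ ε S).card : ℝ) ≤ ((2 ^ (L + 2) : ℕ) : ℝ) :=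
          Nat.cast_le.2 (card_srcs_le hd)
        exact mul_le_mul_of_nonneg_right h3 (by linarith)

/-- The lines of two trees. -/
def A2 (Φ : E3 → ℝ) (ε : ℝ) (S : Fin 2 → CTree) : Finset (ℝ × Ph) := by
  classical
  exact XT.Aln Φ ε (S 0) ∪ XT.Aln Φ ε (S 1)

/-- The number of labels. -/
def NtR (L J : ℕ) : ℕ := 2 ^ (L + 3) + 2 ^ (L + 3) + 2 * Nb0 L J + 1

theorem snoc_zero (S : Fin 1 → CTree) (R : CTree) :
    (Fin.snoc S R : Fin 2 → CTree) 0 = S 0 := by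
  have h : (Fin.snoc S R : Fin 2 → CTree) (Fin.castSucc 0) = S 0 := Fin.snoc_castSucc _ _ _
  exact h

theorem snoc_one (S : Fin 1 → CTree) (R : CTree) :
    (Fin.snoc S R : Fin 2 → CTree) 1 = R := by
  have h : (Fin.snoc S R : Fin 2 → CTree) (Fin.last 1) = R := Fin.snoc_last _ _
  exact h

open Classical in
/-- **The law of the trees related to the lines of one tree.** -/
theorem treeLim {b M₀ M₁ : ℝ} (h : GoodDatum f₀ κ₀) (hΦ : IsPotential Φ) (hb : 0 < b)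
    (hM₀ : 0 ≤ M₀) (hf : ∀ z, f₀ z ≤ M₀ * Real.exp (-b * ‖z.2‖ ^ 2)) (hM₁ : 0 ≤ M₁)
    (hmarg : ∀ v, ∫⁻ x, ENNReal.ofReal (f₀ (x, v)) ≤
      ENNReal.ofReal (M₁ * Real.exp (-b * ‖v‖ ^ 2)))
    (hT : 0 ≤ T) (L : ℕ) : TreeLim hΦ f₀ b L T := by
  obtain ⟨Dl, hDl, hlim⟩ := RelX.rel_lim (c := b / 8) h hΦ hb (by positivity) (by linarith)
    hM₀ hf hM₁ hmarg 1 0 L (2 ^ (L + 3)) (2 ^ (L + 2)) 1 (2 ^ (L + 2)) (fun J => NtR L J) hT
    (X := fun J => irrs hΦ T (NtR L J) 2) (fun J => irrs_finite hΦ T _ 2)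
    (fun J r hr => irrs_small hΦ h.meas hM₁ hmarg (by linarith) hT hr)
  refine ⟨Dl, hDl, ?_⟩
  intro ε hε hε1 g hg CW hCW hgb I J hI hJ
  have hl0 : ∀ l : Fin 0 → Ph, ∀ j : Fin 0, lns (default : Fin 0 → ℝ) default l j ∉
      (∅ : Finset Src) := fun l j => j.elim0
  have h8 := hlim ε hε hε1 T T (T + 1) hT le_rfl le_rfl le_rfl (default : Fin 0 → ℝ)
    (fun j => j.elim0) (default : Fin 0 → ℕ) (fun S _ => XT.Wt Φ ε T L g (S 0))
    ((XT.measurable_Wt hΦ hε hg).comp ((measurable_pi_apply 0).comp measurable_fst)) CW hCW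
    (fun S l => by
      rw [XT.enB_one]
      refine le_trans ?_ (hgb (S 0))
      unfold XT.Wt
      calc _ ≤ 1 * g (S 0) := mul_le_mul_left (ind_le_one _) _
        _ = _ := one_mul _)
    (fun S l hS => XT.base_one (XT.Wt_ne_zero hS).1 _)
    (fun S l hS => XT.prgO_tree hΦ hε (XT.Wt_ne_zero hS).1 (XT.Wt_ne_zero hS).2.1
      (XT.Wt_ne_zero hS).2.2 _)
    (fun S _ => srcs Φ ε (S 0))
    (fun S l hS => by
      rw [XT.enB_one]
      exact ⟨card_srcs_le (XT.Wt_ne_zero hS).2.1, EW_srcs_le hΦ hε (XT.Wt_ne_zero hS).2.1⟩)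
    (fun S _ w => wF (wS (pts w)) sgl (J w (S 0)))
    (fun S _ w R => ((∀ σ ∈ (S 0).leaves, σ ∉ wS (pts w)) ∧
      ∀ σ ∈ srcs Φ ε (S 0), σ ∉ wS (pts w)) ∧
      Rel L hΦ hε (wF (wS (pts w)) sgl (I w (S 0))) (wF (wS (pts w)) sgl (J w (S 0))) T R)
    (fun S l hS w R hP => ⟨hP.2.alive, hP.2.ext_le⟩)
    (fun S l hS w a ha => (mem_wF_sgl.1 ha).imp id fun h' => hJ _ _ h')
    (fun S l hS w R hP => ⟨fun j => by
      rw [Fin.fin_one_eq_zero j]
      exact Set.disjoint_left.2 fun σ h1 h2 => hP.1.1 σ h1 (Finset.mem_coe.1 h2),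
      fun j => j.elim0⟩)
    (fun S _ V R => BadK Φ ε L (srcs Φ ε (S 0)) T V R)
    (by
      unfold BadK
      refine (measurableSet_GoodK (X := (((Fin 1 → CTree) × (Fin 0 → Ph)) × CTree) × Conf Ph)
        (V := fun p => wS (pts p.2)) (R := fun p => p.1.2) (K := fun p => srcs Φ ε (p.1.1.1 0))
        (t := fun _ => T) hΦ hε (RM.rs_wS measurable_snd) measurable_fst.snd ?_
        measurable_const).compl
      exact RM.rs_srcs hΦ hε ((measurable_pi_apply 0).comp measurable_fst.fst.fst))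
    (fun S _ w a => a ∈ (RB.Y Φ ε L hΦ hε).D (wF (wS (pts w)) sgl (I w (S 0)))
      (wF (wS (pts w)) sgl (J w (S 0))) T)
    (fun S l hS w R hP hR => rel_old (hI _ _) (hJ _ _) hP.1.2 hP.2 hR)
    (fun S l hS w a ha hA => alt_bad (hI _ _) (hJ _ _) ha hA)
    (fun S _ => A2 Φ ε S)
    (fun S l R hS hR hB => ?_) (fun k S l R hS hR hB => ?_)
  · rw [XT.lintegral_pi_one] at h8
    simp only [XT.lintegral_fin_zero, pow_zero, one_mul, Finset.univ_eq_empty, Finset.prod_empty]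
      at h8
    refine le_trans (le_of_eq ?_) h8
    refine lintegral_congr fun S => ?_
    congr 1
    refine lintegral_congr_ae ?_
    filter_upwards [XT.ae_forall_notMem_wS h hε.le S.leaves_finite,
      XT.ae_forall_notMem_wS h hε.le (srcs Φ ε S).finite_toSet] with w hw1 hw2
    unfold relW
    refine tsum_congr fun R => ?_
    have h9 : (((∀ σ ∈ S.leaves, σ ∉ wS (pts w)) ∧ ∀ σ ∈ srcs Φ ε S, σ ∉ wS (pts w)) ∧
      Rel L hΦ hε (wF (wS (pts w)) sgl (I w S)) (wF (wS (pts w)) sgl (J w S)) T R) ↔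
      Rel L hΦ hε (wF (wS (pts w)) sgl (I w S)) (wF (wS (pts w)) sgl (J w S)) T R :=
      ⟨fun h' => h'.2, fun h' => ⟨⟨hw1, fun σ hσ => hw2 σ (Finset.mem_coe.2 hσ)⟩, h'⟩⟩
    by_cases h10 : Rel L hΦ hε (wF (wS (pts w)) sgl (I w S)) (wF (wS (pts w)) sgl (J w S)) T R
    · rw [if_pos h10, if_pos (h9.2 h10)]
      rfl
    · rw [if_neg h10, if_neg fun h' => h10 (h9.1 h')]
  · obtain ⟨h9, h10, h11⟩ := XT.Wt_ne_zero hS
    have e0 := snoc_zero S R
    have e1 := snoc_one S R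
    unfold A2
    rw [e0, e1]
    refine ⟨?_, fun σ hσ => ?_⟩
    · have h12 := XT.card_Aln_le (Φ := Φ) (ε := ε) h10
      have h13 := XT.card_Aln_le (Φ := Φ) (ε := ε) hR.2.1
      have h14 : 2 ^ (L + 3) = 2 ^ (L + 2) + 2 ^ (L + 2) := by rw [pow_succ]; ring
      exact (Finset.card_union_le _ _).trans (by omega)
    · rw [RelX.enB_snoc, XT.enB_one]
      have hS0 := enT_nonneg (S 0)
      have hR0 := enT_nonneg R
      rcases Finset.mem_union.1 hσ with h12 | h12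
      · obtain ⟨x, hx, rfl⟩ := XT.mem_Aln.1 h12
        refine ⟨XT.ext_nonneg_of_ok hΦ hε (outs_ok hΦ h9 hx),
          ((XT.ext_outs_le hΦ hε h9 hx).trans h11).trans (by linarith), ?_⟩
        have h13 := ln_sq_le_enT_outs hΦ hε.ne' hx
        change ‖(ln Φ ε x).2‖ ^ 2 ≤ _
        linarith
      · obtain ⟨x, hx, rfl⟩ := XT.mem_Aln.1 h12
        refine ⟨XT.ext_nonneg_of_ok hΦ hε (outs_ok hΦ hR.1 hx),
          ((XT.ext_outs_le hΦ hε hR.1 hx).trans hR.2.2).trans (by linarith), ?_⟩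
        have h13 := ln_sq_le_enT_outs hΦ hε.ne' hx
        change ‖(ln Φ ε x).2‖ ^ 2 ≤ _
        linarith
  · obtain ⟨h9, h10, h11⟩ := XT.Wt_ne_zero hS
    have hd : ∀ σ ∈ lab (partsF (S 0)), σ ∉ R.leaves := by
      intro σ hσ hσR
      rw [← Finset.mem_coe, lab_partsF] at hσ
      have h12 := hB.disj (i := 0) (j := 1) (by decide)
      rw [snoc_zero S R, snoc_one S R] at h12
      exact Set.disjoint_left.1 h12 hσ hσR
    filter_upwards [XT.ae_forall_notMem_wS h hε.le (S 0).leaves_finite,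
      XT.ae_forall_notMem_wS h hε.le (srcs Φ ε (S 0)).finite_toSet,
      XT.ae_forall_notMem_wS h hε.le R.leaves_finite,
      XT.ae_forall_notMem_wS h hε.le (srcs Φ ε R).finite_toSet] with w hw1 hw2 hw3 hw4 hbad
    have h12 := (pbase_tree hΦ hε h9 h11).law_not_goodK hΦ hε hT
      (slab_tree hΦ hε h9 (lns default default l)) hR.1 hR.2.1 hR.2.2 hd (w := pts w)
      (fun σ hσ => hw1 σ (by rwa [← Finset.mem_coe, lab_partsF] at hσ))
      (Set.disjoint_left.2 fun σ h1 h2 => hw3 σ h1 (Finset.mem_coe.1 h2))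
      (fun σ hσ _ => hw2 _ (Finset.mem_coe.2 ((mem_srcs_XS h9).2 ⟨σ, hσ, rfl⟩)))
      (Finset.disjoint_left.2 fun σ h1 h2 => hw4 σ (Finset.mem_coe.2 h1) h2)
      (K := srcs Φ ε (S 0)) (fun σ hσ => by
        obtain ⟨τ, hτ, rfl⟩ := (mem_srcs_XS h9).1 hσ
        have hτ' := hτ
        rw [← Finset.mem_coe, lab_partsF] at hτ'
        obtain ⟨x, hx, rfl⟩ := exists_out hτ'
        refine ⟨?_, x.root, hτ, notMem_empty _, rfl⟩
        rw [XS_root h9 hx]
        exact ⟨XT.ext_nonneg_of_ok hΦ hε (outs_ok hΦ h9 hx), (outs_depth hx).trans h10⟩)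
      le_rfl hbad k
    have h13 := szB_tree_le (S := S 0) h10
    have h14 : szB (partsF (S 0)) [] + 2 ^ (L + 3) + 2 * Nb0 L k + 1 ≤ NtR L k := by
      unfold NtR
      omega
    rcases h12 with ⟨σ, hσ, h15⟩ | h15 | h15 | h15
    · refine Or.inl ⟨(σ.1, σ.2.1), ?_, ?_⟩
      · unfold A2
        rw [snoc_zero S R, snoc_one S R]
        rcases Finset.mem_union.1 hσ with h16 | h16
        · obtain ⟨x, hx, rfl⟩ := mem_srcs.1 h16
          exact Finset.mem_union_right _ (XT.mem_Aln.2 ⟨x, hx, rfl⟩)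
        · obtain ⟨x, hx, rfl⟩ := mem_srcs.1 h16
          exact Finset.mem_union_left _ (XT.mem_Aln.2 ⟨x, hx, rfl⟩)
      · rw [coe_wS] at h15
        exact h15
    · exact Or.inr (Or.inl (h15.mono le_rfl h14))
    · exact Or.inr (Or.inr (Or.inl (h15.mono le_rfl h14)))
    · exact Or.inr (Or.inr (Or.inr (IrrO.sbad hΦ hε (h15.mono le_rfl h14))))

section Final

variable {b M₀ M₁ : ℝ} (h : GoodDatum f₀ κ₀) (hΦ : IsPotential Φ) (hb : 0 < b) (hM₀ : 0 ≤ M₀)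
  (hf : ∀ z, f₀ z ≤ M₀ * Real.exp (-b * ‖z.2‖ ^ 2)) (hM₁ : 0 ≤ M₁)
  (hmarg : ∀ v, ∫⁻ x, ENNReal.ofReal (f₀ (x, v)) ≤
      ENNReal.ofReal (M₁ * Real.exp (-b * ‖v‖ ^ 2)))
  (hT : 0 ≤ T) (L : ℕ)

include h hb hM₀ hf hM₁ hmarg hT

/-- **`ExcE3`**, unconditional. -/
theorem excE3 : EX.ExcE3 hΦ f₀ L T :=
  excE3_of h hb (treeLim h hΦ hb hM₀ hf hM₁ hmarg hT L)

end Final

end RLn

end Vale.Agent.P119.PB
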