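import Vale.Agent.P119.PB.TrickC
import Vale.Agent.P119.PB.TreeLimP
import Vale.Agent.P119.PB.PairsXPP

/-!
# P119, block PROB, P8: the relevant trees on the exceptional sources (`helper723`)

The parts `cr2p`, `cr3c` (`helper178`) of [A2], [A3]: the law of the trees related to the lines of
one tree (`RLn.TreeLim`, `helper347`) and Markov's inequality.

* `rE6_le`: Markov's inequality;
* `okT_rE6_le`: a sum over the exhausts of one tree;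
* `cr2p_rE6_small`, `cr3c_rE6_small`.
-/

open MeasureTheory Filter Topology Set
open scoped ENNReal NNReal

noncomputable section

namespace Vale.Agent.P119.PB

open M CTree KU FB RB AU FL TL

namespace RE8

variable {Φ : E3 → ℝ} {ε : ℝ} {L : ℕ} {hΦ : IsPotential Φ} {hε : 0 < ε} {f₀ : Ph → ℝ}
  {κ b b' t T η θ : ℝ} {e : Src}

open Classical in
/-- The mean weight of the trees related to one source. -/
def mR (L : ℕ) (hΦ : IsPotential Φ) (hε : 0 < ε) (f₀ : Ph → ℝ) (T : ℝ) (e : Src) : ℝ≥0∞ :=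
  ∫⁻ c, relW L hΦ hε (insert e (wS (GC.pts c))) (wS (GC.pts c)) T ∂(GC.PP f₀ ε)

/-- **Markov's inequality.** -/
theorem rE6_le (hθ : 0 < θ) (htT : t ≤ T) (e : Src) : rE6 L hΦ hε f₀ η θ t e ≤
    (ENNReal.ofReal (θ * mu ε))⁻¹ * mR L hΦ hε f₀ T e := by
  classical
  have ha : 0 < θ * mu ε := mul_pos hθ (GC.mu_pos hε)
  have ha0 : ENNReal.ofReal (θ * mu ε) ≠ 0 := (ENNReal.ofReal_pos.2 ha).ne'
  have hat : ENNReal.ofReal (θ * mu ε) ≠ ∞ := ENNReal.ofReal_ne_top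
  unfold rE6 mR
  rw [← lintegral_const_mul' _ _ (ENNReal.inv_ne_top.2 ha0)]
  refine lintegral_mono fun c => ?_
  by_cases h : TE L hΦ hε η t (wS (GC.pts c)) e ∧ ENNReal.ofReal (θ * mu ε) <
    relW L hΦ hε (insert e (wS (GC.pts c))) (wS (GC.pts c)) t
  · rw [ind_of h]
    calc (1 : ℝ≥0∞) = (ENNReal.ofReal (θ * mu ε))⁻¹ * ENNReal.ofReal (θ * mu ε) :=
          (ENNReal.inv_mul_cancel ha0 hat).symm
      _ ≤ _ := mul_le_mul_right (h.2.le.trans (relW_mono htT)) _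
  · rw [ind_of_not h]
    exact zero_le

/-- **A sum over the exhausts of one tree.** -/
theorem okT_rE6_le (hΦ : IsPotential Φ) (hε : 0 < ε) (hθ : 0 < θ) (htT : t ≤ T)
    {g : CTree → ℝ≥0∞} {B : ℝ≥0∞}
    (hB : ∀ I J : GC.Conf Ph → CTree → Finset Src, (∀ c S, I c S ⊆ srcs Φ ε S) →
      (∀ c S, J c S ⊆ srcs Φ ε S) →
      ∫⁻ S, XT.Wt Φ ε T L g S * ∫⁻ c, relW L hΦ hε (wF (wS (GC.pts c)) sgl (I c S))
        (wF (wS (GC.pts c)) sgl (J c S)) T ∂(GC.PP f₀ ε) ∂(tree (GC.inten f₀ ε) L) ≤ B) :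
    ∫⁻ S in okT Φ ε t L, g S * exsum S (fun x => rE6 L hΦ hε f₀ η θ t (rsrc Φ ε x))
      ∂(tree (GC.inten f₀ ε) L) ≤ (ENNReal.ofReal (θ * mu ε))⁻¹ * (2 ^ L * B) := by
  classical
  have ha : 0 < θ * mu ε := mul_pos hθ (GC.mu_pos hε)
  have ha0 : ENNReal.ofReal (θ * mu ε) ≠ 0 := (ENNReal.ofReal_pos.2 ha).ne'
  -- the maximizer
  have hx : ∀ S : CTree, ∃ I : Finset Src, I ⊆ srcs Φ ε S ∧ (S.depth ≤ L →
      exsum S (fun x => mR L hΦ hε f₀ T (rsrc Φ ε x)) ≤ 2 ^ L *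
        ∫⁻ c, relW L hΦ hε (wF (wS (GC.pts c)) sgl I) (wF (wS (GC.pts c)) sgl ∅) T
          ∂(GC.PP f₀ ε)) := by
    intro S
    by_cases hd : S.depth ≤ L
    · rcases RLn.exsum_le_max hd (fun x => mR L hΦ hε f₀ T (rsrc Φ ε x)) with h0 | ⟨x, hx, hle⟩
      · refine ⟨∅, Finset.empty_subset _, fun _ => ?_⟩
        rw [h0]
        exact zero_le
      · refine ⟨{rsrc Φ ε x}, ?_, fun _ => hle.trans (le_of_eq ?_)⟩
        · rw [Finset.singleton_subset_iff, mem_srcs]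
          exact ⟨x, Or.inr hx, rfl⟩
        · unfold mR
          congr 1
          refine lintegral_congr fun c => ?_
          rw [RLn.wF_empty', ← RLn.insert_rsrc_eq]
    · exact ⟨∅, Finset.empty_subset _, fun h => absurd h hd⟩
  choose I hI hmax using hx
  have h1 := hB (fun _ S => I S) (fun _ _ => ∅) (fun _ S => hI S)
    (fun _ _ => Finset.empty_subset _)
  have hok : MeasurableSet (okT Φ ε t L) := measurableSet_okT hΦ hε.ne' L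
  rw [← lintegral_indicator hok]
  have h2 : ∀ S : CTree, (okT Φ ε t L).indicator (fun S => g S * exsum S (fun x =>
      rE6 L hΦ hε f₀ η θ t (rsrc Φ ε x))) S ≤
      ((ENNReal.ofReal (θ * mu ε))⁻¹ * 2 ^ L) * (XT.Wt Φ ε T L g S *
        ∫⁻ c, relW L hΦ hε (wF (wS (GC.pts c)) sgl (I S)) (wF (wS (GC.pts c)) sgl ∅) T
          ∂(GC.PP f₀ ε)) := by
    intro S
    by_cases hS : S ∈ okT Φ ε t L
    · rw [indicator_of_mem hS]
      have e1 : XT.Wt Φ ε T L g S = g S := by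
        unfold XT.Wt
        rw [ind_of ⟨hS.1, hS.2.2, hS.2.1.trans htT⟩, one_mul]
      rw [e1]
      have h3 : exsum S (fun x => rE6 L hΦ hε f₀ η θ t (rsrc Φ ε x)) ≤
          (ENNReal.ofReal (θ * mu ε))⁻¹ * (2 ^ L *
            ∫⁻ c, relW L hΦ hε (wF (wS (GC.pts c)) sgl (I S)) (wF (wS (GC.pts c)) sgl ∅) T
              ∂(GC.PP f₀ ε)) := by
        refine (exsum_mono (ψ := fun x => (ENNReal.ofReal (θ * mu ε))⁻¹ *
          mR L hΦ hε f₀ T (rsrc Φ ε x)) fun x _ => rE6_le hθ htT _).trans ?_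
        rw [exsum_const_mul]
        exact mul_le_mul_right (hmax S hS.2.2) _
      calc g S * exsum S (fun x => rE6 L hΦ hε f₀ η θ t (rsrc Φ ε x))
          ≤ g S * ((ENNReal.ofReal (θ * mu ε))⁻¹ * (2 ^ L *
            ∫⁻ c, relW L hΦ hε (wF (wS (GC.pts c)) sgl (I S)) (wF (wS (GC.pts c)) sgl ∅) T
              ∂(GC.PP f₀ ε))) := mul_le_mul_right h3 _
        _ = _ := by ring
    · rw [indicator_of_notMem hS]
      exact zero_le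
  refine (lintegral_mono h2).trans ?_
  rw [lintegral_const_mul' _ _ (ENNReal.mul_ne_top (ENNReal.inv_ne_top.2 ha0)
    (ENNReal.pow_ne_top ENNReal.ofNat_ne_top)), mul_assoc]
  exact mul_le_mul_right (mul_le_mul_right h1 _) _

/-- The powers of the velocity of the line of a tree. -/
theorem pw_exp_le (hΦ : IsPotential Φ) (hε : 0 < ε) (hb : 0 < b) (q : ℕ) (S : CTree) :
    Cap.pw q (ln Φ ε S).2 ≤ ENNReal.ofReal (M.Cgp (b / 4) q) *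
      ENNReal.ofReal (Real.exp (b / 8 * IND.enT S)) := by
  have hb4 : 0 < b / 4 := by positivity
  have hC : 0 ≤ M.Cgp (b / 4) q := by unfold M.Cgp; positivity
  have h1 := M.gw_mul_pw hb4 q (ln Φ ε S).2
  have h2 := IND.ln_sq_le_enT hΦ hε.ne' S
  unfold gw Cap.pw at *
  rw [← ENNReal.ofReal_mul (by positivity), ← ENNReal.ofReal_mul hC] at h1
  rw [← ENNReal.ofReal_mul hC]
  have h3 := (ENNReal.ofReal_le_ofReal_iff (by positivity)).1 h1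
  refine ENNReal.ofReal_le_ofReal ?_
  set r := ‖(ln Φ ε S).2‖ with hr
  have e1 : Real.exp (-(b / 4) * r ^ 2) * Real.exp (b / 4 * r ^ 2) = 1 := by
    rw [← Real.exp_add, ← Real.exp_zero]
    congr 1; ring
  have e2 : Real.exp (-(b / 4 / 2) * r ^ 2) * Real.exp (b / 4 * r ^ 2) =
      Real.exp (b / 8 * r ^ 2) := by
    rw [← Real.exp_add]
    congr 1; ring
  calc (1 + r) ^ q = (Real.exp (-(b / 4) * r ^ 2) * (1 + r) ^ q) *
        Real.exp (b / 4 * r ^ 2) := by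
        rw [mul_right_comm, e1, one_mul]
    _ ≤ (M.Cgp (b / 4) q * Real.exp (-(b / 4 / 2) * r ^ 2)) * Real.exp (b / 4 * r ^ 2) :=
        mul_le_mul_of_nonneg_right h3 (Real.exp_pos _).le
    _ = M.Cgp (b / 4) q * Real.exp (b / 8 * r ^ 2) := by rw [mul_assoc, e2]
    _ ≤ _ := mul_le_mul_of_nonneg_left (Real.exp_le_exp.2
        (mul_le_mul_of_nonneg_left h2 (by positivity))) hC

theorem measurable_E (h₀ : GoodDatum f₀ κ) (hΦ : IsPotential Φ) (hε : 0 < ε) :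
    Measurable fun S : CTree => exsum S (fun x => rE6 L hΦ hε f₀ η θ t (rsrc Φ ε x)) :=
  RM.measurable_exsum' (X := CTree) (T := fun S => S) measurable_id
    (F := fun _ x => rE6 L hΦ hε f₀ η θ t (rsrc Φ ε x))
    ((measurable_rE6 h₀).comp (RM.meas_rsrc hΦ hε measurable_snd))

theorem ind_hitF_le {z : Ph} {S : CTree} (htT : t ≤ T) :
    ind (hitF Φ ε t z S) ≤ M.hI ε T (ln Φ ε S, z) := by
  by_cases h : hitF Φ ε t z S
  · have h0 : Meets ε (z, ln Φ ε S) ∧ 0 < hitT ε (z, ln Φ ε S) ∧ hitT ε (z, ln Φ ε S) ≤ t := h.1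
    have h1 : (z, ln Φ ε S) ∈ M.hit2 ε T := ⟨h0.1, h0.2.1.le, h0.2.2.trans htT⟩
    have h2 : (ln Φ ε S, z) ∈ M.hit2 ε T := M.hit2_swap.1 h1
    unfold M.hI
    rw [ind_of h, indicator_of_mem h2]
  · rw [ind_of_not h]
    exact zero_le

/-- **[A2], the relevant trees**, for one `ε`. -/
theorem cr2p_rE6_le (h₀ : GoodDatum f₀ κ) (hΦ : IsPotential Φ) (hε : 0 < ε) (hb' : 0 < b')
    (hθ : 0 < θ) (htT : t ≤ T) {B : ℝ≥0∞}
    (hB : ∀ I J : GC.Conf Ph → CTree → Finset Src, (∀ c S, I c S ⊆ srcs Φ ε S) →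
      (∀ c S, J c S ⊆ srcs Φ ε S) →
      ∫⁻ S, XT.Wt Φ ε T L (fun S => Cap.pw 1 (ln Φ ε S).2) S *
        ∫⁻ c, relW L hΦ hε (wF (wS (GC.pts c)) sgl (I c S))
        (wF (wS (GC.pts c)) sgl (J c S)) T ∂(GC.PP f₀ ε) ∂(tree (GC.inten f₀ ε) L) ≤ B) :
    cr2p Φ ε L f₀ b' t (rE6 L hΦ hε f₀ η θ t) ≤
      (muE ε)⁻¹ * (M.CH b' T 0 * ((ENNReal.ofReal (θ * mu ε))⁻¹ * (2 ^ L * B))) := by
  have hfin := GC.isFiniteMeasure_inten (ε := ε) h₀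
  have hμ : muE ε ≠ 0 := (ENNReal.ofReal_pos.2 (GC.mu_pos hε)).ne'
  have hμ' : muE ε ≠ ∞ := FL.muE_ne_top
  set E : CTree → ℝ≥0∞ := fun S => exsum S (fun x => rE6 L hΦ hε f₀ η θ t (rsrc Φ ε x)) with hE
  have hEm : Measurable E := measurable_E h₀ hΦ hε
  have hln : Measurable fun S : CTree => ln Φ ε S := M.measurable_ln hΦ hε.ne'
  have hm : Measurable fun p : Ph × CTree => gw b' p.1.2 * (M.hI ε T (ln Φ ε p.2, p.1) *
      E p.2) :=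
    ((measurable_gw b').comp measurable_fst.snd).mul
      ((M.measurable_hI.comp ((hln.comp measurable_snd).prodMk measurable_fst)).mul
        (hEm.comp measurable_snd))
  have h1 : cr2p Φ ε L f₀ b' t (rE6 L hΦ hε f₀ η θ t) ≤ ∫⁻ z : Ph, ∫⁻ S in okT Φ ε t L,
      gw b' z.2 * (M.hI ε T (ln Φ ε S, z) * E S) ∂(tree (GC.inten f₀ ε) L) := by
    unfold cr2p
    refine lintegral_mono fun z => ?_
    have hz : gw b' z.2 ≠ ∞ := ENNReal.ofReal_ne_top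
    change gw b' z.2 * _ ≤ _
    rw [← lintegral_const_mul' _ _ hz]
    exact lintegral_mono fun S => mul_le_mul_right (mul_le_mul_left (ind_hitF_le htT) _) _
  refine h1.trans ?_
  rw [lintegral_lintegral_swap hm.aemeasurable]
  have h2 : ∀ S : CTree, ∫⁻ z : Ph, gw b' z.2 * (M.hI ε T (ln Φ ε S, z) * E S) ≤
      (muE ε)⁻¹ * (M.CH b' T 0 * (Cap.pw 1 (ln Φ ε S).2 * E S)) := by
    intro S
    have h3 := M.hit_mass_line (t := T) hε hb' 0 (ln Φ ε S)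
    have hm2 : Measurable fun z : Ph => muE ε * gw b' z.2 *
        (M.hI ε T (ln Φ ε S, z) * Cap.pw 0 z.2) :=
      (((measurable_gw b').comp measurable_snd).const_mul _).mul
        ((M.measurable_hI.comp measurable_prodMk_left).mul
          ((M.measurable_pw' 0).comp measurable_snd))
    calc ∫⁻ z : Ph, gw b' z.2 * (M.hI ε T (ln Φ ε S, z) * E S)
        = ∫⁻ z : Ph, (muE ε)⁻¹ * ((muE ε * gw b' z.2 *
            (M.hI ε T (ln Φ ε S, z) * Cap.pw 0 z.2)) * E S) := by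
          refine lintegral_congr fun z => ?_
          rw [M.pw_zero, mul_one]
          calc gw b' z.2 * (M.hI ε T (ln Φ ε S, z) * E S)
              = ((muE ε)⁻¹ * muE ε) * (gw b' z.2 * (M.hI ε T (ln Φ ε S, z) * E S)) := by
                rw [ENNReal.inv_mul_cancel hμ hμ', one_mul]
            _ = _ := by ring
      _ = (muE ε)⁻¹ * ((∫⁻ z : Ph, muE ε * gw b' z.2 *
            (M.hI ε T (ln Φ ε S, z) * Cap.pw 0 z.2)) * E S) := by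
          rw [lintegral_const_mul' _ _ (ENNReal.inv_ne_top.2 hμ), lintegral_mul_const _ hm2]
      _ ≤ (muE ε)⁻¹ * ((M.CH b' T 0 * Cap.pw 1 (ln Φ ε S).2) * E S) :=
          mul_le_mul_right (mul_le_mul_left h3 _) _
      _ = _ := by ring
  refine (lintegral_mono h2).trans ?_
  rw [lintegral_const_mul' _ _ (ENNReal.inv_ne_top.2 hμ),
    lintegral_const_mul' _ _ (CH_ne_top hb' 0)]
  exact mul_le_mul_right (mul_le_mul_right (okT_rE6_le hΦ hε hθ htT hB) _) _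

/-- **[A3], one exhaust and the pair, the relevant trees**, for one `ε`. -/
theorem cr3c_rE6_le (h₀ : GoodDatum f₀ κ) (hΦ : IsPotential Φ) (hε : 0 < ε) (hb' : 0 < b')
    (hθ : 0 < θ) (htT : t ≤ T) {K : ℝ≥0∞} (hK : K ≠ ∞)
    (hl : M.LineLaw Φ ε b' K ((tree (GC.inten f₀ ε) L).restrict (okT Φ ε T L))) {B : ℝ≥0∞}
    (hB : ∀ I J : GC.Conf Ph → CTree → Finset Src, (∀ c S, I c S ⊆ srcs Φ ε S) →
      (∀ c S, J c S ⊆ srcs Φ ε S) →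
      ∫⁻ S, XT.Wt Φ ε T L (fun S => Cap.pw 3 (ln Φ ε S).2) S *
        ∫⁻ c, relW L hΦ hε (wF (wS (GC.pts c)) sgl (I c S))
        (wF (wS (GC.pts c)) sgl (J c S)) T ∂(GC.PP f₀ ε) ∂(tree (GC.inten f₀ ε) L) ≤ B) :
    cr3c Φ ε L f₀ t (rE6 L hΦ hε f₀ η θ t) ≤
      (muE ε)⁻¹ * (K * M.CH b' T 2 * ((ENNReal.ofReal (θ * mu ε))⁻¹ * (2 ^ L * B))) := by
  have hfin := GC.isFiniteMeasure_inten (ε := ε) h₀
  set E : CTree → ℝ≥0∞ := fun S => exsum S (fun x => rE6 L hΦ hε f₀ η θ t (rsrc Φ ε x)) with hE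
  have hsub : okT Φ ε t L ⊆ okT Φ ε T L := fun S hS => ⟨hS.1, hS.2.1.trans htT, hS.2.2⟩
  have hln : Measurable fun S : CTree => ln Φ ε S := M.measurable_ln hΦ hε.ne'
  unfold cr3c cr3
  refine mul_le_mul_right ?_ _
  have h1 : ∀ x : CTree, ∫⁻ y in okT Φ ε t L, wC Φ ε L t x y * E x
      ∂(tree (GC.inten f₀ ε) L) ≤ K * M.CH b' T 2 * (Cap.pw 3 (ln Φ ε x).2 * E x) := by
    intro x
    have hwm : Measurable fun y : CTree => wC Φ ε L t x y :=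
      measurable_wC hΦ hε measurable_const measurable_id
    rw [lintegral_mul_const _ hwm]
    have h2 : ∫⁻ y in okT Φ ε t L, wC Φ ε L t x y ∂(tree (GC.inten f₀ ε) L) ≤
        Cap.pw 2 (ln Φ ε x).2 * (K * M.CH b' T 2 * Cap.pw 1 (ln Φ ε x).2) := by
      calc ∫⁻ y in okT Φ ε t L, wC Φ ε L t x y ∂(tree (GC.inten f₀ ε) L)
          ≤ ∫⁻ y in okT Φ ε T L, Cap.pw 2 (ln Φ ε x).2 * (M.hI ε T (ln Φ ε x, ln Φ ε y) *
              Cap.pw 2 (ln Φ ε y).2) ∂(tree (GC.inten f₀ ε) L) := by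
            refine (lintegral_mono_set hsub).trans (lintegral_mono fun y => ?_)
            refine ((wC_mono htT).trans (wC_le hΦ hε)).trans (le_of_eq ?_)
            ring
        _ = Cap.pw 2 (ln Φ ε x).2 * ∫⁻ y in okT Φ ε T L, M.hI ε T (ln Φ ε x, ln Φ ε y) *
              Cap.pw 2 (ln Φ ε y).2 ∂(tree (GC.inten f₀ ε) L) :=
            lintegral_const_mul' _ _ ENNReal.ofReal_ne_top
        _ ≤ _ := mul_le_mul_right (M.hit_mass hε hb' hl 2 (ln Φ ε x)) _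
    refine (mul_le_mul_left h2 _).trans (le_of_eq ?_)
    rw [show (3 : ℕ) = 2 + 1 from rfl, M.pw_add]
    ring
  refine (lintegral_mono h1).trans ?_
  rw [lintegral_const_mul' _ _ (ENNReal.mul_ne_top hK (CH_ne_top hb' 2))]
  exact mul_le_mul_right (okT_rE6_le hΦ hε hθ htT hB) _

/-- The constant. -/
theorem const_eq (hε : 0 < ε) (hθ : 0 < θ) {C D κ' : ℝ≥0∞} :
    (muE ε)⁻¹ * (C * ((ENNReal.ofReal (θ * mu ε))⁻¹ * (2 ^ L * (D * (muE ε ^ 2 * κ'))))) =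
      (C * (ENNReal.ofReal θ)⁻¹ * 2 ^ L * D) * κ' := by
  have hμ : muE ε ≠ 0 := (ENNReal.ofReal_pos.2 (GC.mu_pos hε)).ne'
  have hμ' : muE ε ≠ ∞ := FL.muE_ne_top
  have e1 : (ENNReal.ofReal (θ * mu ε))⁻¹ = (ENNReal.ofReal θ)⁻¹ * (muE ε)⁻¹ := by
    rw [ENNReal.ofReal_mul hθ.le]
    exact ENNReal.mul_inv (Or.inl (ENNReal.ofReal_pos.2 hθ).ne') (Or.inl ENNReal.ofReal_ne_top)
  rw [e1]
  calc (muE ε)⁻¹ * (C * ((ENNReal.ofReal θ)⁻¹ * (muE ε)⁻¹ * (2 ^ L * (D * (muE ε ^ 2 * κ')))))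
      = ((muE ε)⁻¹ * muE ε) * ((muE ε)⁻¹ * muE ε) *
        ((C * (ENNReal.ofReal θ)⁻¹ * 2 ^ L * D) * κ') := by ring
    _ = _ := by rw [ENNReal.inv_mul_cancel hμ hμ', one_mul, one_mul]

/-- The eventual form. -/
theorem small_of {F : ℝ → ℝ≥0∞} {C : ℝ≥0∞} (hC : C ≠ ∞)
    (hF : Tendsto F (𝓝[>] 0) (𝓝 0)) {ρ : ℝ} (hρ : 0 < ρ) :
    ∀ᶠ ε in 𝓝[>] (0 : ℝ), ε ≤ 1 ∧ C * F ε ≤ ENNReal.ofReal ρ := by
  have h1 : Tendsto (fun ε => C * F ε) (𝓝[>] 0) (𝓝 0) := by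
    have h2 := ENNReal.Tendsto.const_mul (a := C) hF (Or.inr hC)
    rwa [mul_zero] at h2
  have hev : ∀ᶠ ε : ℝ in 𝓝[>] 0, ε ≤ 1 :=
    (eventually_nhdsWithin_of_eventually_nhds (eventually_le_nhds one_pos))
  filter_upwards [hev, (ENNReal.tendsto_nhds_zero.1 h1) (ENNReal.ofReal ρ)
    (ENNReal.ofReal_pos.2 hρ)] with ε h1 h2
  exact ⟨h1, h2⟩

/-- **[A2], the relevant trees.** -/
theorem cr2p_rE6_small (h₀ : GoodDatum f₀ κ) (hb : 0 < b) (hb' : 0 < b') (hθ : 0 < θ)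
    (hlim : RLn.TreeLim hΦ f₀ b L T) : ∀ ρ : ℝ, 0 < ρ → ∀ᶠ ε in 𝓝[>] (0 : ℝ),
      ∀ hε : 0 < ε, ∀ η : ℝ, ∀ t ≤ T,
      cr2p Φ ε L f₀ b' t (rE6 L hΦ hε f₀ η θ t) ≤ ENNReal.ofReal ρ := by
  obtain ⟨Dl, hDl, hlim⟩ := hlim
  intro ρ hρ
  have hC : M.CH b' T 0 * (ENNReal.ofReal θ)⁻¹ * 2 ^ L *
      ENNReal.ofReal (M.Cgp (b / 4) 1) ≠ ∞ :=
    ENNReal.mul_ne_top (ENNReal.mul_ne_top (ENNReal.mul_ne_top (CH_ne_top hb' 0)
      (ENNReal.inv_ne_top.2 (ENNReal.ofReal_pos.2 hθ).ne'))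
      (ENNReal.pow_ne_top ENNReal.ofNat_ne_top)) ENNReal.ofReal_ne_top
  filter_upwards [small_of hC hDl hρ] with ε ⟨hε1, hsm⟩ hε η t ht
  refine (cr2p_rE6_le h₀ hΦ hε hb' hθ ht (B := ENNReal.ofReal (M.Cgp (b / 4) 1) *
    (FL.muE ε ^ 2 * Dl ε)) fun I J hI hJ => hlim ε hε hε1 _ ?_ _ ENNReal.ofReal_ne_top
      (fun S => pw_exp_le hΦ hε hb 1 S) I J hI hJ).trans ?_
  · exact (M.measurable_pw' 1).comp (measurable_snd.comp (M.measurable_ln hΦ hε.ne'))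
  · rw [const_eq hε hθ]
    exact hsm

/-- **[A3], one exhaust and the pair, the relevant trees.** -/
theorem cr3c_rE6_small {b₀ M₀ : ℝ} (h₀ : GoodDatum f₀ κ) (hb : 0 < b) (hb₀ : 0 < b₀)
    (hT : 0 ≤ T) (hM : 0 ≤ M₀) (hf : ∀ z, f₀ z ≤ M₀ * Real.exp (-b₀ * ‖z.2‖ ^ 2)) (hθ : 0 < θ)
    (hlim : RLn.TreeLim hΦ f₀ b L T) : ∀ ρ : ℝ, 0 < ρ → ∀ᶠ ε in 𝓝[>] (0 : ℝ),
      ∀ hε : 0 < ε, ∀ η : ℝ, ∀ t ≤ T,
      cr3c Φ ε L f₀ t (rE6 L hΦ hε f₀ η θ t) ≤ ENNReal.ofReal ρ := by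
  obtain ⟨Dl, hDl, hlim⟩ := hlim
  obtain ⟨K, hK, hl⟩ := lineLaw_crude (b := b₀) hΦ h₀ hb₀ le_rfl hT hM hf L
  intro ρ hρ
  have hb2 : 0 < b₀ / 2 := by positivity
  have hC : K * M.CH (b₀ / 2) T 2 * (ENNReal.ofReal θ)⁻¹ * 2 ^ L *
      ENNReal.ofReal (M.Cgp (b / 4) 3) ≠ ∞ :=
    ENNReal.mul_ne_top (ENNReal.mul_ne_top (ENNReal.mul_ne_top (ENNReal.mul_ne_top hK
      (CH_ne_top hb2 2)) (ENNReal.inv_ne_top.2 (ENNReal.ofReal_pos.2 hθ).ne'))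
      (ENNReal.pow_ne_top ENNReal.ofNat_ne_top)) ENNReal.ofReal_ne_top
  filter_upwards [small_of hC hDl hρ] with ε ⟨hε1, hsm⟩ hε η t ht
  refine (cr3c_rE6_le h₀ hΦ hε hb2 hθ ht hK (hl ε hε) (B := ENNReal.ofReal (M.Cgp (b / 4) 3) *
    (FL.muE ε ^ 2 * Dl ε)) fun I J hI hJ => hlim ε hε hε1 _ ?_ _ ENNReal.ofReal_ne_top
      (fun S => pw_exp_le hΦ hε hb 3 S) I J hI hJ).trans ?_
  · exact (M.measurable_pw' 3).comp (measurable_snd.comp (M.measurable_ln hΦ hε.ne'))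
  · rw [const_eq hε hθ]
    exact hsm

/-- **[A2], the relevant trees**, unconditional. -/
theorem cr2p_rE6 {M₀ M₁ : ℝ} (h₀ : GoodDatum f₀ κ) (hΦ : IsPotential Φ) (hb : 0 < b)
    (hM₀ : 0 ≤ M₀) (hf : ∀ z, f₀ z ≤ M₀ * Real.exp (-b * ‖z.2‖ ^ 2)) (hM₁ : 0 ≤ M₁)
    (hmarg : ∀ v, ∫⁻ x, ENNReal.ofReal (f₀ (x, v)) ≤
      ENNReal.ofReal (M₁ * Real.exp (-b * ‖v‖ ^ 2)))
    (hT : 0 ≤ T) (L : ℕ) (hb' : 0 < b') (hθ : 0 < θ) : ∀ ρ : ℝ, 0 < ρ →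
      ∀ᶠ ε in 𝓝[>] (0 : ℝ), ∀ hε : 0 < ε, ∀ η : ℝ, ∀ t ≤ T,
      cr2p Φ ε L f₀ b' t (rE6 L hΦ hε f₀ η θ t) ≤ ENNReal.ofReal ρ :=
  cr2p_rE6_small h₀ hb hb' hθ (RLn.treeLim h₀ hΦ hb hM₀ hf hM₁ hmarg hT L)

/-- **[A3], one exhaust and the pair, the relevant trees**, unconditional. -/
theorem cr3c_rE6 {M₀ M₁ : ℝ} (h₀ : GoodDatum f₀ κ) (hΦ : IsPotential Φ) (hb : 0 < b)
    (hM₀ : 0 ≤ M₀) (hf : ∀ z, f₀ z ≤ M₀ * Real.exp (-b * ‖z.2‖ ^ 2)) (hM₁ : 0 ≤ M₁)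
    (hmarg : ∀ v, ∫⁻ x, ENNReal.ofReal (f₀ (x, v)) ≤
      ENNReal.ofReal (M₁ * Real.exp (-b * ‖v‖ ^ 2)))
    (hT : 0 ≤ T) (L : ℕ) (hθ : 0 < θ) : ∀ ρ : ℝ, 0 < ρ →
      ∀ᶠ ε in 𝓝[>] (0 : ℝ), ∀ hε : 0 < ε, ∀ η : ℝ, ∀ t ≤ T,
      cr3c Φ ε L f₀ t (rE6 L hΦ hε f₀ η θ t) ≤ ENNReal.ofReal ρ :=
  cr3c_rE6_small h₀ hb hb hT hM₀ hf hθ (RLn.treeLim h₀ hΦ hb hM₀ hf hM₁ hmarg hT L)

end RE8

end Vale.Agent.P119.PB
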