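import Vale.Agent.P119.PB.P3
import Vale.Agent.P119.PB.CrudeTheta
import Vale.Agent.P119.RM.Src

/-!
# P119, block PROB: number and energy of the alive trees of a world (`helper723`)

For a finite world `W`, `alt W` is the finite set of the trees (of depth `≤ L`) which are alive at
their ends.

* `card_root_le`: at most `L + 1` of them have a given root; `card_root_mem_le`;
* `card_leaf_le`: at most `2 ^ (L + 1) - 1` of them have a given leaf; `card_leaf_mem_le`;
* `sum_sq_le`: the sum of `|v_T|²` over all of them is at most `(L + 1) ∑_{a ∈ W} |v_a|²`;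
* `sum_wln_le`, `tsum_wln_le`, `lintegral_wln_le`: the weight `1 + |v_T|`, by truncation.
-/

open MeasureTheory Filter Topology Set
open scoped ENNReal NNReal

noncomputable section

namespace Vale.Agent.P119.PB

open M CTree KU FB RB AU

variable {Φ : E3 → ℝ} {ε : ℝ} {L : ℕ} {W : Finset Src} {a b c : Src} {S T : CTree}

open Classical in
/-- The trees of `W` which are alive at their ends. -/
def alt (Φ : E3 → ℝ) (ε : ℝ) (L : ℕ) (W : Finset Src) : Finset CTree :=
  (trs L W).filter fun T => alive Φ ε L (W : Set Src) T (ext Φ ε T)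

theorem mem_alt : T ∈ alt Φ ε L W ↔ alive Φ ε L (W : Set Src) T (ext Φ ε T) := by
  classical
  unfold alt
  rw [Finset.mem_filter, mem_trs]
  exact ⟨fun h => h.2, fun h => ⟨⟨(alive_pre h).sub, (alive_pre h).depth⟩, h⟩⟩

theorem mem_alt_of_alive {t : ℝ} (h : alive Φ ε L (W : Set Src) T t) : T ∈ alt Φ ε L W :=
  mem_alt.2 (alive_anti h (alive_pre h).ext_le le_rfl)

theorem Spine.depth_le {S T : CTree} (h : Spine S T) : S.depth ≤ T.depth := by
  induction h with
  | refl => exact le_rfl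
  | left b _ ih =>
    refine ih.trans ?_
    simp only [CTree.depth]
    omega

theorem Spine.depth_lt {S T : CTree} (h : Spine S T) (hne : S ≠ T) : S.depth < T.depth := by
  cases h with
  | refl => exact absurd rfl hne
  | left b h =>
    have := Spine.depth_le h
    simp only [CTree.depth]
    omega

theorem root_mem_of_alt (h : T ∈ alt Φ ε L W) : T.root ∈ W :=
  Finset.mem_coe.1 ((alive_pre (mem_alt.1 h)).sub T.root_mem_leaves)

/-- Two alive trees with the same root and the same depth are equal. -/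
theorem eq_of_depth (hΦ : IsPotential Φ) (hε : 0 < ε) (hS : S ∈ alt Φ ε L W)
    (hT : T ∈ alt Φ ε L W) (hr : S.root = T.root) (hd : S.depth = T.depth) : S = T := by
  by_contra hne
  rcases alive_comparable hΦ hε W.finite_toSet (mem_alt.1 hS) (mem_alt.1 hT) hr with h | h
  · exact absurd (Spine.depth_lt h hne) (by omega)
  · exact absurd (Spine.depth_lt h (Ne.symm hne)) (by omega)

theorem alt_left (hΦ : IsPotential Φ) (hε : 0 < ε) {x y : CTree} (h : node x y ∈ alt Φ ε L W) :
    x ∈ alt Φ ε L W := mem_alt_of_alive (alive_left hΦ hε W.finite_toSet (mem_alt.1 h))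

theorem alt_right (hΦ : IsPotential Φ) (hε : 0 < ε) {x y : CTree} (h : node x y ∈ alt Φ ε L W) :
    y ∈ alt Φ ε L W := mem_alt_of_alive (alive_right hΦ hε W.finite_toSet (mem_alt.1 h))

theorem alt_swap (hΦ : IsPotential Φ) (hε : 0 < ε) {x y : CTree} (h : node x y ∈ alt Φ ε L W) :
    node y x ∈ alt Φ ε L W := by
  have h1 := (alive_iff_live hΦ hε W.finite_toSet).1 (mem_alt.1 h)
  have h2 : ext Φ ε (node y x) = ext Φ ε (node x y) := ext_swap hΦ x y
  refine mem_alt.2 ((alive_iff_live hΦ hε W.finite_toSet).2 ⟨?_, le_rfl⟩)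
  rw [h2]
  exact live_swap hΦ h1.1 le_rfl

theorem alt_node_unique (hΦ : IsPotential Φ) (hε : 0 < ε) {x y z : CTree}
    (h : node x y ∈ alt Φ ε L W) (h' : node x z ∈ alt Φ ε L W) : y = z :=
  node_unique hΦ hε W.finite_toSet (mem_alt.1 h) (mem_alt.1 h')

/-! ### The number of the trees with a given root -/

open Classical in
/-- **At most `L + 1` alive trees have a given root.** -/
theorem card_root_le (hΦ : IsPotential Φ) (hε : 0 < ε) (L : ℕ) (W : Finset Src) (c : Src) :
    ((alt Φ ε L W).filter fun T => T.root = c).card ≤ L + 1 := by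
  have h1 : ((alt Φ ε L W).filter fun T => T.root = c).card ≤ (Finset.range (L + 1)).card := by
    refine Finset.card_le_card_of_injOn CTree.depth (fun T hT => ?_) fun S hS T hT hd => ?_
    · rw [Finset.mem_coe, Finset.mem_filter] at hT
      have := (alive_pre (mem_alt.1 hT.1)).depth
      rw [Finset.mem_coe, Finset.mem_range]
      omega
    · rw [Finset.mem_coe, Finset.mem_filter] at hS hT
      exact eq_of_depth hΦ hε hS.1 hT.1 (hS.2.trans hT.2.symm) hd
  rwa [Finset.card_range] at h1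

open Classical in
/-- The number of alive trees whose root belongs to `D`. -/
theorem card_root_mem_le (hΦ : IsPotential Φ) (hε : 0 < ε) (L : ℕ) (W : Finset Src) (D : Set Src) :
    ((alt Φ ε L W).filter fun T => T.root ∈ D).card ≤ (L + 1) * (W.filter fun a => a ∈ D).card := by
  refine Finset.card_le_mul_card_image_of_maps_to (f := CTree.root) (fun T hT => ?_) (L + 1)
    fun c _ => ?_
  · rw [Finset.mem_filter] at hT ⊢
    exact ⟨root_mem_of_alt hT.1, hT.2⟩
  · refine le_trans (Finset.card_le_card fun T hT => ?_) (card_root_le hΦ hε L W c)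
    rw [Finset.mem_filter, Finset.mem_filter] at hT
    exact Finset.mem_filter.2 ⟨hT.1.1, hT.2⟩

/-- The number of all the alive trees. -/
theorem card_alt_le (hΦ : IsPotential Φ) (hε : 0 < ε) (L : ℕ) (W : Finset Src) :
    (alt Φ ε L W).card ≤ (L + 1) * W.card := by
  classical
  have h := card_root_mem_le hΦ hε L W univ
  simpa using h

/-! ### The number of the trees with a given leaf -/

open Classical in
theorem card_leaf_depth_le (hΦ : IsPotential Φ) (hε : 0 < ε) (L : ℕ) (W : Finset Src) (b : Src) :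
    ∀ l : ℕ, ((alt Φ ε L W).filter fun T => b ∈ T.leaves ∧ T.depth ≤ l).card + 1 ≤ 2 ^ (l + 1) := by
  intro l
  induction l with
  | zero =>
    have h1 : ((alt Φ ε L W).filter fun T => b ∈ T.leaves ∧ T.depth ≤ 0) ⊆ {CTree.leaf b} := by
      intro T hT
      rw [Finset.mem_filter] at hT
      cases T with
      | leaf z =>
        have : b = z := hT.2.1
        rw [this]
        exact Finset.mem_singleton_self _
      | node x y => exact absurd hT.2.2 (Nat.not_succ_le_zero _)
    have h2 := Finset.card_le_card h1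
    rw [Finset.card_singleton] at h2
    have h3 : 2 ^ (0 + 1) = 2 := rfl
    rw [h3]
    omega
  | succ l ih =>
    set A := (alt Φ ε L W).filter fun T => b ∈ T.leaves ∧ T.depth ≤ l with hA
    -- the node with the given left part
    set f : CTree → CTree := fun x =>
      if h : ∃ y, node x y ∈ alt Φ ε L W then node x h.choose else x with hf
    have hf1 : ∀ {x y : CTree}, node x y ∈ alt Φ ε L W → f x = node x y := by
      intro x y hxy
      have h : ∃ y, node x y ∈ alt Φ ε L W := ⟨y, hxy⟩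
      simp only [hf]
      rw [dif_pos h, alt_node_unique hΦ hε h.choose_spec hxy]
    set g : CTree → CTree := fun x => match f x with
      | CTree.leaf z => CTree.leaf z
      | CTree.node u v => CTree.node v u with hg
    have hg1 : ∀ {x y : CTree}, node x y ∈ alt Φ ε L W → g y = node x y := by
      intro x y hxy
      simp only [hg]
      rw [hf1 (alt_swap hΦ hε hxy)]
    have h1 : ((alt Φ ε L W).filter fun T => b ∈ T.leaves ∧ T.depth ≤ l + 1) ⊆
        {CTree.leaf b} ∪ (A.image f ∪ A.image g) := by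
      intro T hT
      rw [Finset.mem_filter] at hT
      obtain ⟨hT, hb, hd⟩ := hT
      cases T with
      | leaf z =>
        have : b = z := hb
        rw [this]
        exact Finset.mem_union_left _ (Finset.mem_singleton_self _)
      | node x y =>
        simp only [CTree.depth, Nat.add_le_add_iff_right, max_le_iff] at hd
        refine Finset.mem_union_right _ ?_
        rcases hb with hb | hb
        · refine Finset.mem_union_left _ (Finset.mem_image.2 ⟨x, ?_, hf1 hT⟩)
          exact Finset.mem_filter.2 ⟨alt_left hΦ hε hT, hb, hd.1⟩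
        · refine Finset.mem_union_right _ (Finset.mem_image.2 ⟨y, ?_, hg1 hT⟩)
          exact Finset.mem_filter.2 ⟨alt_right hΦ hε hT, hb, hd.2⟩
    have h2 := (Finset.card_le_card h1).trans ((Finset.card_union_le _ _).trans
      (Nat.add_le_add_left ((Finset.card_union_le _ _).trans
        (Nat.add_le_add Finset.card_image_le Finset.card_image_le)) _))
    rw [Finset.card_singleton] at h2
    rw [pow_succ]
    omega

open Classical in
/-- **At most `2 ^ (L + 1) - 1` alive trees have a given leaf.** -/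
theorem card_leaf_le (hΦ : IsPotential Φ) (hε : 0 < ε) (L : ℕ) (W : Finset Src) (b : Src) :
    ((alt Φ ε L W).filter fun T => b ∈ T.leaves).card + 1 ≤ 2 ^ (L + 1) := by
  refine le_trans (Nat.add_le_add_right (Finset.card_le_card fun T hT => ?_) 1)
    (card_leaf_depth_le hΦ hε L W b L)
  rw [Finset.mem_filter] at hT ⊢
  exact ⟨hT.1, hT.2, (alive_pre (mem_alt.1 hT.1)).depth⟩

open Classical in
/-- The number of the alive trees which have a leaf in `B`. -/
theorem card_leaf_mem_le (hΦ : IsPotential Φ) (hε : 0 < ε) (L : ℕ) (W B : Finset Src) :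
    ((alt Φ ε L W).filter fun T => ∃ b ∈ B, b ∈ T.leaves).card ≤ 2 ^ (L + 1) * B.card := by
  have h1 : ((alt Φ ε L W).filter fun T => ∃ b ∈ B, b ∈ T.leaves) ⊆
      B.biUnion fun b => (alt Φ ε L W).filter fun T => b ∈ T.leaves := by
    intro T hT
    rw [Finset.mem_filter] at hT
    obtain ⟨hT, b, hb, hbT⟩ := hT
    exact Finset.mem_biUnion.2 ⟨b, hb, Finset.mem_filter.2 ⟨hT, hbT⟩⟩
  refine (Finset.card_le_card h1).trans (Finset.card_biUnion_le.trans ?_)
  refine (Finset.sum_le_card_nsmul B _ (2 ^ (L + 1)) fun b _ => ?_).trans (le_of_eq ?_)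
  · have := card_leaf_le hΦ hε L W b
    omega
  · rw [smul_eq_mul, mul_comm]

/-! ### The energy -/

open Classical in
/-- The square of the velocity of the last history of the label `a` of depth at most `l`. -/
def vl (Φ : E3 → ℝ) (ε : ℝ) (L : ℕ) (W : Finset Src) : ℕ → Src → ℝ
  | 0, a => ‖a.2.1.2‖ ^ 2
  | l + 1, a => if h : ∃ T ∈ alt Φ ε L W, T.root = a ∧ T.depth = l + 1 then
      ‖(ln Φ ε h.choose).2‖ ^ 2 else vl Φ ε L W l a

theorem vl_nonneg (l : ℕ) (a : Src) : 0 ≤ vl Φ ε L W l a := by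
  induction l with
  | zero => exact sq_nonneg _
  | succ l ih =>
    unfold vl
    split_ifs
    · exact sq_nonneg _
    · exact ih

theorem vl_succ_of (hΦ : IsPotential Φ) (hε : 0 < ε) {l : ℕ} (hT : T ∈ alt Φ ε L W)
    (hd : T.depth = l + 1) : vl Φ ε L W (l + 1) T.root = ‖(ln Φ ε T).2‖ ^ 2 := by
  have h : ∃ S ∈ alt Φ ε L W, S.root = T.root ∧ S.depth = l + 1 := ⟨T, hT, rfl, hd⟩
  unfold vl
  rw [dif_pos h]
  have h1 := h.choose_spec
  rw [eq_of_depth hΦ hε h1.1 hT h1.2.1 (h1.2.2.trans hd.symm)]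

theorem vl_succ_of_not {l : ℕ} (h : ¬∃ S ∈ alt Φ ε L W, S.root = a ∧ S.depth = l + 1) :
    vl Φ ε L W (l + 1) a = vl Φ ε L W l a := by
  conv_lhs => unfold vl
  rw [dif_neg h]

/-- `vl` of a last history. -/
theorem vl_eq (hΦ : IsPotential Φ) (hε : 0 < ε) {l : ℕ} (hT : T ∈ alt Φ ε L W)
    (hd : T.depth ≤ l) (hl : ∀ S ∈ alt Φ ε L W, S.root = T.root → S.depth ≤ l →
      S.depth ≤ T.depth) : vl Φ ε L W l T.root = ‖(ln Φ ε T).2‖ ^ 2 := by
  induction l with
  | zero =>
    cases T with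
    | leaf z => rfl
    | node x y => exact absurd hd (Nat.not_succ_le_zero _)
  | succ l ih =>
    rcases hd.eq_or_lt with h1 | h1
    · exact vl_succ_of hΦ hε hT h1
    · rw [vl_succ_of_not, ih (by omega) fun S h2 h3 h4 => hl S h2 h3 (by omega)]
      rintro ⟨S, h2, h3, h4⟩
      have := hl S h2 h3 h4.le
      omega

/-- `vl` of a label without history. -/
theorem vl_none {l : ℕ} (hl : ∀ S ∈ alt Φ ε L W, S.root = a → l < S.depth) :
    vl Φ ε L W l a = ‖a.2.1.2‖ ^ 2 := by
  induction l with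
  | zero => rfl
  | succ l ih =>
    rw [vl_succ_of_not, ih fun S h2 h3 => (Nat.lt_succ_self l).trans (hl S h2 h3)]
    rintro ⟨S, h2, h3, h4⟩
    have := hl S h2 h3
    omega

theorem root_depth_le (T : CTree) : T.root.2.2 ≤ T.depth := Spine.depth_le (Spine.leaf T)

/-- The last history before a node. -/
theorem vl_left (hΦ : IsPotential Φ) (hε : 0 < ε) {l : ℕ} {x y : CTree}
    (h : node x y ∈ alt Φ ε L W) (hd : (node x y).depth = l + 1) :
    vl Φ ε L W l x.root = ‖(ln Φ ε x).2‖ ^ 2 := by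
  have h0 : x.depth ≤ l := by
    have : max x.depth y.depth + 1 = l + 1 := hd
    omega
  refine vl_eq hΦ hε (alt_left hΦ hε h) h0 fun S hS hr hSl => ?_
  have hr' : S.root = (node x y).root := hr
  rcases alive_comparable hΦ hε W.finite_toSet (mem_alt.1 hS) (mem_alt.1 h) hr' with h1 | h1
  · cases h1 with
    | refl => omega
    | left b h1 => exact Spine.depth_le h1
  · have := Spine.depth_le h1
    omega

open Classical in
theorem sum_vl_succ (hΦ : IsPotential Φ) (hε : 0 < ε) (l : ℕ) :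
    ∑ a ∈ W, vl Φ ε L W (l + 1) a = ∑ a ∈ W, vl Φ ε L W l a := by
  rw [← sub_eq_zero, ← Finset.sum_sub_distrib]
  -- the labels with a node of depth `l + 1`
  have key : ∀ a ∈ W, (¬∃ x y, node x y ∈ alt Φ ε L W ∧ x.root = a ∧
      (node x y).depth = l + 1) → vl Φ ε L W (l + 1) a - vl Φ ε L W l a = 0 := by
    intro a _ hn
    by_cases h : ∃ S ∈ alt Φ ε L W, S.root = a ∧ S.depth = l + 1
    · obtain ⟨S, h1, rfl, h3⟩ := h
      cases S with
      | leaf z =>
        rw [vl_succ_of hΦ hε h1 h3, vl_none, sub_eq_zero]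
        · rfl
        · intro S hS hr
          have h4 := root_depth_le S
          rw [hr] at h4
          have h5 : z.2.2 = l + 1 := h3
          have h6 : z.2.2 ≤ S.depth := h4
          omega
      | node x y => exact absurd ⟨x, y, h1, rfl, h3⟩ hn
    · rw [vl_succ_of_not h, sub_self]
  set P : Src → Prop := fun a => ∃ x y, node x y ∈ alt Φ ε L W ∧ x.root = a ∧
      (node x y).depth = l + 1 with hP
  rw [← Finset.sum_filter_add_sum_filter_not W P]
  have e2 : ∑ a ∈ W.filter fun a => ¬P a, (vl Φ ε L W (l + 1) a - vl Φ ε L W l a) = 0 :=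
    Finset.sum_eq_zero fun a ha => by
      rw [Finset.mem_filter] at ha
      exact key a ha.1 ha.2
  rw [e2, add_zero]
  -- the partner
  have hu : ∀ {x y x' y' : CTree}, node x y ∈ alt Φ ε L W → node x' y' ∈ alt Φ ε L W →
      x.root = x'.root → (node x y).depth = l + 1 → (node x' y').depth = l + 1 →
      node x y = node x' y' := fun h1 h2 h3 h4 h5 =>
    eq_of_depth hΦ hε h1 h2 h3 (h4.trans h5.symm)
  have hch : ∀ a, P a → ∃ b, ∃ x y, node x y ∈ alt Φ ε L W ∧ x.root = a ∧ y.root = b ∧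
      (node x y).depth = l + 1 := fun a ⟨x, y, h1, h2, h3⟩ => ⟨y.root, x, y, h1, h2, rfl, h3⟩
  have hdep : ∀ x y : CTree, (node y x).depth = (node x y).depth := fun x y => by
    simp only [CTree.depth, max_comm]
  refine Finset.sum_involution (fun a ha => (hch a (Finset.mem_filter.1 ha).2).choose) ?_ ?_ ?_ ?_
  · intro a ha
    obtain ⟨x, y, h1, h2, h3, h4⟩ := (hch a (Finset.mem_filter.1 ha).2).choose_spec
    set b := (hch a (Finset.mem_filter.1 ha).2).choose with hb
    have h1' := alt_swap hΦ hε h1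
    have h4' : (node y x).depth = l + 1 := (hdep x y).trans h4
    have e1 : vl Φ ε L W (l + 1) a = ‖(ln Φ ε (node x y)).2‖ ^ 2 := by
      rw [← h2]; exact vl_succ_of hΦ hε h1 h4
    have e2 : vl Φ ε L W (l + 1) b = ‖(ln Φ ε (node y x)).2‖ ^ 2 := by
      rw [← h3]; exact vl_succ_of hΦ hε h1' h4'
    have e3 : vl Φ ε L W l a = ‖(ln Φ ε x).2‖ ^ 2 := by
      rw [← h2]; exact vl_left hΦ hε h1 h4
    have e4 : vl Φ ε L W l b = ‖(ln Φ ε y).2‖ ^ 2 := by
      rw [← h3]; exact vl_left hΦ hε h1' h4'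
    have e5 := energy_sc2 (Φ := Φ) hΦ hε.ne' (ln Φ ε x, ln Φ ε y)
    rw [e1, e2, e3, e4, ln_swap hΦ x y]
    change ‖(sc2 Φ ε (ln Φ ε x, ln Φ ε y)).1.2‖ ^ 2 - _ + (_ - _) = 0
    simp only at e5
    linarith
  · intro a ha _
    obtain ⟨x, y, h1, h2, h3, h4⟩ := (hch a (Finset.mem_filter.1 ha).2).choose_spec
    rw [← h3, ← h2]
    intro he
    have h5 := (alive_pre (mem_alt.1 h1)).ok.2.2.1
    refine Set.disjoint_left.1 h5 x.root_mem_leaves ?_
    rw [← he]
    exact y.root_mem_leaves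
  · intro a ha
    obtain ⟨x, y, h1, h2, h3, h4⟩ := (hch a (Finset.mem_filter.1 ha).2).choose_spec
    have h1' := alt_swap hΦ hε h1
    rw [← h3]
    have h5 : (node y x).root ∈ W := root_mem_of_alt h1'
    exact Finset.mem_filter.2 ⟨h5, y, x, h1', rfl, (hdep x y).trans h4⟩
  · intro a ha
    obtain ⟨x, y, h1, h2, h3, h4⟩ := (hch a (Finset.mem_filter.1 ha).2).choose_spec
    set b := (hch a (Finset.mem_filter.1 ha).2).choose with hb
    have hbP : P b := by
      rw [← h3]
      exact ⟨y, x, alt_swap hΦ hε h1, rfl, (hdep x y).trans h4⟩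
    obtain ⟨x', y', h1', h2', h3', h4'⟩ := (hch b hbP).choose_spec
    have h5 := hu (alt_swap hΦ hε h1) h1' (h3.trans h2'.symm) ((hdep x y).trans h4) h4'
    injection h5 with h6 h7
    rw [← h3', ← h7, h2]

theorem sum_vl (hΦ : IsPotential Φ) (hε : 0 < ε) (l : ℕ) :
    ∑ a ∈ W, vl Φ ε L W l a = ∑ a ∈ W, ‖a.2.1.2‖ ^ 2 := by
  induction l with
  | zero => rfl
  | succ l ih => rw [sum_vl_succ hΦ hε, ih]

/-- **The energy of all the alive trees.** -/
theorem sum_sq_le (hΦ : IsPotential Φ) (hε : 0 < ε) (L : ℕ) (W : Finset Src) :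
    ∑ T ∈ alt Φ ε L W, ‖(ln Φ ε T).2‖ ^ 2 ≤ (L + 1) * ∑ a ∈ W, ‖a.2.1.2‖ ^ 2 := by
  classical
  have h1 : ∑ T ∈ alt Φ ε L W, ‖(ln Φ ε T).2‖ ^ 2 =
      ∑ l ∈ Finset.range (L + 1), ∑ T ∈ (alt Φ ε L W).filter fun T => T.depth = l,
        ‖(ln Φ ε T).2‖ ^ 2 := by
    rw [Finset.sum_fiberwise_of_maps_to]
    intro T hT
    have := (alive_pre (mem_alt.1 hT)).depth
    rw [Finset.mem_range]
    omega
  rw [h1]
  have h2 : ∀ l ∈ Finset.range (L + 1), ∑ T ∈ (alt Φ ε L W).filter fun T => T.depth = l,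
        ‖(ln Φ ε T).2‖ ^ 2 ≤ ∑ a ∈ W, ‖a.2.1.2‖ ^ 2 := by
    intro l _
    rw [← sum_vl hΦ hε (L := L) l]
    have h3 : ∑ T ∈ (alt Φ ε L W).filter fun T => T.depth = l, ‖(ln Φ ε T).2‖ ^ 2 =
        ∑ T ∈ (alt Φ ε L W).filter fun T => T.depth = l, vl Φ ε L W l T.root := by
      refine Finset.sum_congr rfl fun T hT => ?_
      rw [Finset.mem_filter] at hT
      rw [vl_eq hΦ hε hT.1 hT.2.le fun S _ _ hS => hS.trans hT.2.ge]
    rw [h3]
    have h4 : Set.InjOn CTree.root ((alt Φ ε L W).filter fun T => T.depth = l : Finset CTree) := by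
      intro S hS T hT hr
      rw [Finset.mem_coe, Finset.mem_filter] at hS hT
      exact eq_of_depth hΦ hε hS.1 hT.1 hr (hS.2.trans hT.2.symm)
    rw [← Finset.sum_image (f := fun a => vl Φ ε L W l a) h4]
    refine Finset.sum_le_sum_of_subset_of_nonneg (fun a ha => ?_) fun a _ _ => vl_nonneg l a
    obtain ⟨T, hT, rfl⟩ := Finset.mem_image.1 ha
    exact root_mem_of_alt (Finset.mem_filter.1 hT).1
  refine (Finset.sum_le_sum h2).trans (le_of_eq ?_)
  rw [Finset.sum_const, Finset.card_range, nsmul_eq_mul]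
  push_cast
  ring

/-! ### The weights -/

theorem one_add_le {K x : ℝ} (hK : 1 ≤ K) (hx : 0 ≤ x) : 1 + x ≤ (1 + K) + 2 / K * x ^ 2 := by
  have hK0 : 0 < K := by linarith
  rcases le_total x K with h | h
  · have : 0 ≤ 2 / K * x ^ 2 := by positivity
    linarith
  · have h1 : x ≤ x ^ 2 / K := by
      rw [le_div_iff₀ hK0]
      nlinarith
    have h2 : 2 / K * x ^ 2 = 2 * (x ^ 2 / K) := by ring
    rw [h2]
    linarith

open Classical in
/-- **The weight `1 + |v_T|`, truncated.** -/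
theorem sum_wln_le (hΦ : IsPotential Φ) (hε : 0 < ε) (L : ℕ) (W : Finset Src) {K : ℝ} (hK : 1 ≤ K)
    (P : CTree → Prop) : ∑ T ∈ (alt Φ ε L W).filter P, wln Φ ε T ≤
      ENNReal.ofReal (1 + K) * ((alt Φ ε L W).filter P).card +
        ENNReal.ofReal (2 * (L + 1) / K) * ENNReal.ofReal (EW W) := by
  have hK0 : 0 < K := by linarith
  have h1 : ∑ T ∈ (alt Φ ε L W).filter P, wln Φ ε T ≤
      ∑ T ∈ (alt Φ ε L W).filter P, (ENNReal.ofReal (1 + K) +
        ENNReal.ofReal (2 / K * ‖(ln Φ ε T).2‖ ^ 2)) := by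
    refine Finset.sum_le_sum fun T _ => ?_
    unfold wln
    rw [← ENNReal.ofReal_add (by positivity) (by positivity)]
    exact ENNReal.ofReal_le_ofReal (one_add_le hK (norm_nonneg _))
  refine h1.trans ?_
  rw [Finset.sum_add_distrib, Finset.sum_const, nsmul_eq_mul, mul_comm (ENNReal.ofReal (1 + K))]
  refine add_le_add le_rfl ?_
  rw [← ENNReal.ofReal_sum_of_nonneg fun T _ => by positivity,
    ← ENNReal.ofReal_mul (by positivity)]
  refine ENNReal.ofReal_le_ofReal ?_
  rw [← Finset.mul_sum]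
  have h2 : ∑ T ∈ (alt Φ ε L W).filter P, ‖(ln Φ ε T).2‖ ^ 2 ≤ (L + 1) * EW W := by
    refine (Finset.sum_le_sum_of_subset_of_nonneg (Finset.filter_subset _ _)
      fun T _ _ => sq_nonneg _).trans ((sum_sq_le hΦ hε L W).trans ?_)
    refine mul_le_mul_of_nonneg_left (Finset.sum_le_sum fun a _ => ?_) (by positivity)
    linarith
  calc 2 / K * ∑ T ∈ (alt Φ ε L W).filter P, ‖(ln Φ ε T).2‖ ^ 2
      ≤ 2 / K * ((L + 1) * EW W) := mul_le_mul_of_nonneg_left h2 (by positivity)
    _ = 2 * (L + 1) / K * EW W := by ring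

open Classical in
/-- The same for the sums over all the trees, as in `relW`. -/
theorem tsum_wln_le (hΦ : IsPotential Φ) (hε : 0 < ε) (L : ℕ) (W : Finset Src) {K : ℝ}
    (hK : 1 ≤ K) {P : CTree → Prop} (hP : ∀ T, P T → T ∈ alt Φ ε L W) :
    (∑' T : CTree, if P T then wln Φ ε T else 0) ≤
      ENNReal.ofReal (1 + K) * ((alt Φ ε L W).filter P).card +
        ENNReal.ofReal (2 * (L + 1) / K) * ENNReal.ofReal (EW W) := by
  refine le_trans (le_of_eq ?_) (sum_wln_le hΦ hε L W hK P)
  rw [Finset.sum_filter, tsum_eq_sum]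
  intro T hT
  rw [if_neg]
  exact fun h => hT (hP T h)

open Classical in
/-- Trees whose root belongs to `D`. -/
theorem tsum_wln_root_le (hΦ : IsPotential Φ) (hε : 0 < ε) (L : ℕ) (W : Finset Src) {K : ℝ}
    (hK : 1 ≤ K) (D : Set Src) {P : CTree → Prop} (hP : ∀ T, P T → T ∈ alt Φ ε L W)
    (hD : ∀ T, P T → T.root ∈ D) : (∑' T : CTree, if P T then wln Φ ε T else 0) ≤
      ENNReal.ofReal ((1 + K) * (L + 1)) * (W.filter fun a => a ∈ D).card +
        ENNReal.ofReal (2 * (L + 1) / K) * ENNReal.ofReal (EW W) := by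
  refine (tsum_wln_le hΦ hε L W hK hP).trans (add_le_add ?_ le_rfl)
  have h1 : ((alt Φ ε L W).filter P).card ≤ (L + 1) * (W.filter fun a => a ∈ D).card := by
    refine (Finset.card_le_card fun T hT => ?_).trans (card_root_mem_le hΦ hε L W D)
    rw [Finset.mem_filter] at hT ⊢
    exact ⟨hT.1, hD T hT.2⟩
  have h2 : (((alt Φ ε L W).filter P).card : ℝ≥0∞) ≤
      ENNReal.ofReal (L + 1) * (W.filter fun a => a ∈ D).card := by
    have h3 : ENNReal.ofReal ((L : ℝ) + 1) = ((L + 1 : ℕ) : ℝ≥0∞) := by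
      rw [← ENNReal.ofReal_natCast]
      push_cast
      rfl
    rw [h3, ← Nat.cast_mul]
    exact_mod_cast h1
  refine (mul_le_mul_right h2 _).trans (le_of_eq ?_)
  rw [ENNReal.ofReal_mul (by linarith), mul_assoc]

open Classical in
/-- Trees with a leaf in `B`. -/
theorem tsum_wln_leaf_le (hΦ : IsPotential Φ) (hε : 0 < ε) (L : ℕ) (W : Finset Src) {K : ℝ}
    (hK : 1 ≤ K) (B : Finset Src) {P : CTree → Prop} (hP : ∀ T, P T → T ∈ alt Φ ε L W)
    (hB : ∀ T, P T → ∃ b ∈ B, b ∈ T.leaves) : (∑' T : CTree, if P T then wln Φ ε T else 0) ≤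
      ENNReal.ofReal ((1 + K) * 2 ^ (L + 1)) * B.card +
        ENNReal.ofReal (2 * (L + 1) / K) * ENNReal.ofReal (EW W) := by
  refine (tsum_wln_le hΦ hε L W hK hP).trans (add_le_add ?_ le_rfl)
  have h1 : ((alt Φ ε L W).filter P).card ≤ 2 ^ (L + 1) * B.card := by
    refine (Finset.card_le_card fun T hT => ?_).trans (card_leaf_mem_le hΦ hε L W B)
    rw [Finset.mem_filter] at hT ⊢
    exact ⟨hT.1, hB T hT.2⟩
  have h2 : (((alt Φ ε L W).filter P).card : ℝ≥0∞) ≤
      ENNReal.ofReal (2 ^ (L + 1)) * B.card := by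
    have h3 : ENNReal.ofReal ((2 : ℝ) ^ (L + 1)) = ((2 ^ (L + 1) : ℕ) : ℝ≥0∞) := by
      rw [← ENNReal.ofReal_natCast]
      push_cast
      rfl
    rw [h3, ← Nat.cast_mul]
    exact_mod_cast h1
  refine (mul_le_mul_right h2 _).trans (le_of_eq ?_)
  rw [ENNReal.ofReal_mul (by linarith), mul_assoc]

theorem EW_union_le [DecidableEq Src] (U B : Finset Src) : EW (U ∪ B) ≤ EW U + EW B := by
  unfold EW
  have h := Finset.sum_union_inter (s₁ := U) (s₂ := B) (f := fun c : Src => 1 + ‖c.2.1.2‖ ^ 2)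
  have h1 : 0 ≤ ∑ c ∈ U ∩ B, (1 + ‖c.2.1.2‖ ^ 2) := Finset.sum_nonneg fun c _ => by positivity
  linarith

theorem EW_mono {U V : Finset Src} (h : U ⊆ V) : EW U ≤ EW V :=
  Finset.sum_le_sum_of_subset_of_nonneg h fun c _ _ => by positivity

/-! ### Expectations -/

variable {X : Type} [MeasurableSpace X]

theorem measurable_EW {V : X → Finset Src} (hV : MM.RS fun x => (V x : Set Src)) :
    Measurable fun x => ENNReal.ofReal (EW (V x)) := by
  have h1 : Measurable fun p : X × Src => ENNReal.ofReal (1 + ‖p.2.2.1.2‖ ^ 2) := by fun_prop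
  have h2 := RM.measurable_sum_rs hV h1
  have h3 : ∀ x, ENNReal.ofReal (EW (V x)) = ∑ b ∈ V x, ENNReal.ofReal (1 + ‖b.2.1.2‖ ^ 2) :=
    fun x => ENNReal.ofReal_sum_of_nonneg fun c _ => by positivity
  simp only [h3]
  exact h2

open Classical in
/-- The expectation of the weighted number of the trees whose root belongs to `D`. -/
theorem lintegral_wln_root_le (hΦ : IsPotential Φ) (hε : 0 < ε) (L : ℕ) (μ : Measure X)
    {V : X → Finset Src} (hV : MM.RS fun x => (V x : Set Src)) {K : ℝ} (hK : 1 ≤ K)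
    {D : X → Set Src} {w : X → ℝ≥0∞} (hw : Measurable w) {P : X → CTree → Prop}
    (hP : ∀ x T, P x T → T ∈ alt Φ ε L (V x)) (hD : ∀ x T, P x T → T.root ∈ D x) :
    ∫⁻ x, w x * (∑' T : CTree, if P x T then wln Φ ε T else 0) ∂μ ≤
      ENNReal.ofReal ((1 + K) * (L + 1)) *
        ∫⁻ x, w x * ((V x).filter fun a => a ∈ D x).card ∂μ +
      ENNReal.ofReal (2 * (L + 1) / K) * ∫⁻ x, w x * ENNReal.ofReal (EW (V x)) ∂μ := by
  have hm : Measurable fun x => ENNReal.ofReal (2 * (L + 1) / K) *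
      (w x * ENNReal.ofReal (EW (V x))) := (hw.mul (measurable_EW hV)).const_mul _
  calc ∫⁻ x, w x * (∑' T : CTree, if P x T then wln Φ ε T else 0) ∂μ
      ≤ ∫⁻ x, (ENNReal.ofReal ((1 + K) * (L + 1)) * (w x * ((V x).filter fun a => a ∈ D x).card) +
          ENNReal.ofReal (2 * (L + 1) / K) * (w x * ENNReal.ofReal (EW (V x)))) ∂μ := by
        refine lintegral_mono fun x => ?_
        refine (mul_le_mul_right (tsum_wln_root_le hΦ hε L (V x) hK (D x) (hP x) (hD x))
          (w x)).trans (le_of_eq ?_)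
        ring
    _ = _ := by
        rw [lintegral_add_right _ hm, lintegral_const_mul' _ _
          ENNReal.ofReal_ne_top, lintegral_const_mul' _ _ ENNReal.ofReal_ne_top]

open Classical in
/-- The expectation of the weighted number of the trees with a leaf in `B`. -/
theorem lintegral_wln_leaf_le (hΦ : IsPotential Φ) (hε : 0 < ε) (L : ℕ) (μ : Measure X)
    {V : X → Finset Src} (hV : MM.RS fun x => (V x : Set Src)) {K : ℝ} (hK : 1 ≤ K)
    {B : X → Finset Src} {w : X → ℝ≥0∞} (hw : Measurable w) {P : X → CTree → Prop}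
    (hP : ∀ x T, P x T → T ∈ alt Φ ε L (V x)) (hB : ∀ x T, P x T → ∃ b ∈ B x, b ∈ T.leaves) :
    ∫⁻ x, w x * (∑' T : CTree, if P x T then wln Φ ε T else 0) ∂μ ≤
      ENNReal.ofReal ((1 + K) * 2 ^ (L + 1)) * ∫⁻ x, w x * (B x).card ∂μ +
      ENNReal.ofReal (2 * (L + 1) / K) * ∫⁻ x, w x * ENNReal.ofReal (EW (V x)) ∂μ := by
  have hm : Measurable fun x => ENNReal.ofReal (2 * (L + 1) / K) *
      (w x * ENNReal.ofReal (EW (V x))) := (hw.mul (measurable_EW hV)).const_mul _
  calc ∫⁻ x, w x * (∑' T : CTree, if P x T then wln Φ ε T else 0) ∂μ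
      ≤ ∫⁻ x, (ENNReal.ofReal ((1 + K) * 2 ^ (L + 1)) * (w x * (B x).card) +
          ENNReal.ofReal (2 * (L + 1) / K) * (w x * ENNReal.ofReal (EW (V x)))) ∂μ := by
        refine lintegral_mono fun x => ?_
        refine (mul_le_mul_right (tsum_wln_leaf_le hΦ hε L (V x) hK (B x) (hP x) (hB x))
          (w x)).trans (le_of_eq ?_)
        ring
    _ = _ := by
        rw [lintegral_add_right _ hm, lintegral_const_mul' _ _
          ENNReal.ofReal_ne_top, lintegral_const_mul' _ _ ENNReal.ofReal_ne_top]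

/-- The expected energy of a world with inserted labels. -/
theorem lintegral_EW_union_le [DecidableEq Src] {f₀ : Ph → ℝ} {κ : ℝ} (hg : GoodDatum f₀ κ)
    (hε : 0 ≤ ε) (B : Finset Src) :
    ∫⁻ c, ENNReal.ofReal (EW (wS (GC.pts c) ∪ B)) ∂(GC.PP f₀ ε) ≤
      FL.muE ε * m2 f₀ + ENNReal.ofReal (EW B) := by
  have := GC.isProbability_PP (ε := ε) hg
  calc ∫⁻ c, ENNReal.ofReal (EW (wS (GC.pts c) ∪ B)) ∂(GC.PP f₀ ε)
      ≤ ∫⁻ c, (ENNReal.ofReal (EW (wS (GC.pts c))) + ENNReal.ofReal (EW B)) ∂(GC.PP f₀ ε) := by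
        refine lintegral_mono fun c => ?_
        rw [← ENNReal.ofReal_add (EW_nonneg _) (EW_nonneg _)]
        exact ENNReal.ofReal_le_ofReal (EW_union_le _ _)
    _ = ∫⁻ c, ENNReal.ofReal (EW (wS (GC.pts c))) ∂(GC.PP f₀ ε) + ENNReal.ofReal (EW B) := by
        rw [lintegral_add_right _ measurable_const, lintegral_const, measure_univ, mul_one]
    _ ≤ _ := add_le_add (lintegral_EW_le hg hε) le_rfl

end Vale.Agent.P119.PB
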