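import Vale.Agent.P119.PB.RelLim2
import Vale.Agent.P119.PB.ExcTree

/-!
# P119, block REL: trees related to one real tree (`helper423`)

`rel_tree_le`: `rel_lim` over one real tree `S`, as an integral over the gas and an inserted tree.
-/

open MeasureTheory Filter Topology Set
open scoped ENNReal NNReal

set_option linter.unusedSectionVars false

noncomputable section

namespace Vale.Agent.P119.PB

open M CTree KU FB RB AU FL GC MM IND TL PB.CT

namespace RelX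

variable {Φ : E3 → ℝ} {f₀ : Ph → ℝ} {κ₀ b c M₀ M₁ T : ℝ} {L nB : ℕ} {N : ℕ → ℕ}
  {X : ℕ → Set Rln} {g : ℝ → CTree → ℝ≥0∞} {CW : ℝ≥0∞}

theorem eq_const_one (S : Fin 1 → CTree) : S = fun _ => S 0 := by
  funext j
  rw [Fin.fin_one_eq_zero j]

open Classical in
/-- **The trees related to one real tree** `S`, over the gas `U`.  `P ε U S R`: the tree `R` is related
to the difference made by `S`; it is alive in the world `W₂ ⊆ U ∪ B S`. -/
theorem rel_tree_le (h : GoodDatum f₀ κ₀) (hΦ : IsPotential Φ) (hb : 0 < b) (hc : 0 ≤ c)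
    (hcb : c ≤ b / 2) (hM₀ : 0 ≤ M₀) (hf : ∀ z, f₀ z ≤ M₀ * Real.exp (-b * ‖z.2‖ ^ 2))
    (hM₁ : 0 ≤ M₁)
    (hmarg : ∀ v, ∫⁻ x, ENNReal.ofReal (f₀ (x, v)) ≤
      ENNReal.ofReal (M₁ * Real.exp (-b * ‖v‖ ^ 2)))
    (hT : 0 ≤ T) (hX : ∀ J, (X J).Finite)
    (hXs : ∀ J, ∀ r ∈ X J, r.Small f₀ b (c + b / 8) 2)
    (hCW : CW ≠ ∞) (hg : ∀ ε, 0 < ε → Measurable (g ε))
    (hgb : ∀ ε, 0 < ε → ∀ S, CTree.ok Φ ε S → g ε S ≤ CW * ENNReal.ofReal (Real.exp (c * enT S)))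
    -- the related trees
    {P : ℝ → Finset Src → CTree → CTree → Prop} {W₂ : ℝ → Finset Src → CTree → Finset Src}
    {B : ℝ → CTree → Finset Src}
    (hPm : ∀ ε, 0 < ε → Measurable fun p : CTree × Conf Ph =>
      ∑' R : CTree, if P ε (wS (pts p.2)) p.1 R then wln Φ ε R else 0)
    (hP : ∀ ε, 0 < ε → ∀ U S R, OKt Φ ε L T S → P ε U S R →
      alive Φ ε L (W₂ ε U S : Set Src) R (ext Φ ε R) ∧ ext Φ ε R ≤ T)
    (hW₂ : ∀ ε, 0 < ε → ∀ U S, ∀ a ∈ W₂ ε U S, a ∈ U ∨ a ∈ B ε S)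
    (hB : ∀ ε, 0 < ε → ∀ S, OKt Φ ε L T S → (B ε S).card ≤ nB ∧ EW (B ε S) ≤ nB * (1 + enT S))
    (hdisj : ∀ ε, 0 < ε → ∀ U S R, P ε U S R → Disjoint S.leaves (U : Set Src))
    -- the bad event
    {Bad : ℝ → CTree → Finset Src → CTree → Prop}
    (hBm : ∀ ε, 0 < ε → MeasurableSet {p : (CTree × CTree) × Conf Ph |
      Bad ε p.1.1 (wS (pts p.2)) p.1.2})
    {Alt : ℝ → Finset Src → CTree → Src → Prop}
    (h1 : ∀ ε, 0 < ε → ∀ w : Conf Ph, ∀ S R, OKt Φ ε L T S → g ε S ≠ 0 → P ε (wS (pts w)) S R →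
      R.leaves ⊆ (wS (pts w) : Set Src) →
      (∃ a ∈ R.leaves, Alt ε (wS (pts w)) S a) ∨ Bad ε S (rm (wS (pts w)) R) R)
    (h2 : ∀ ε, 0 < ε → ∀ w : Conf Ph, ∀ S, OKt Φ ε L T S → g ε S ≠ 0 → ∀ a ∈ wS (pts w),
      Alt ε (wS (pts w)) S a → Bad ε S (rm (wS (pts w)) (leaf a)) (leaf a))
    (hbad : ∀ J, ∀ (ε : ℝ) (hε : 0 < ε), ε ≤ 1 → ∀ (S : Fin 1 → CTree) (R : CTree)
      (l : Fin 0 → Src), OKt Φ ε L T (S 0) → g ε (S 0) ≠ 0 → OKt Φ ε L T R →
      Base Φ ε (Fin.snoc S R : Fin (1 + 1) → CTree) l → ∀ᵐ w ∂(PP f₀ ε),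
      Bad ε (S 0) (wS (pts w)) R →
      (∃ x, (x ∈ outs (S 0) ∨ x ∈ outs R) ∧
        HasClean hΦ hε.ne' L T (T + 1) J (wS (pts w)) (ext Φ ε x) (ln Φ ε x)) ∨
        PrgC Φ ε T 2 (N J) (Fin.snoc S R : Fin (1 + 1) → CTree) l (pts w) ∨
        PrgO Φ ε T 1 (N J) (Fin.snoc S R : Fin (1 + 1) → CTree) l (pts w) ∨
        SBad (X J) ε (Fin.snoc S R : Fin (1 + 1) → CTree) l (pts w)) :
    ∃ Dl : ℝ → ℝ≥0∞, Tendsto Dl (𝓝[>] 0) (𝓝 0) ∧ ∀ (ε : ℝ), 0 < ε → ε ≤ 1 →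
      (muE ε)⁻¹ * ((muE ε)⁻¹ * XX Φ ε L f₀ T (fun U S => g ε S *
        ∑' R : CTree, if P ε U S R then wln Φ ε R else 0)) ≤ Dl ε := by
  obtain ⟨Dl, hDl, h3⟩ := rel_lim h hΦ hb hc hcb hM₀ hf hM₁ hmarg 1 0 L (2 * 2 ^ (L + 2)) nB 1
    (2 ^ (L + 2)) N hT hX hXs
  refine ⟨fun ε => CW * Dl ε, ?_, fun ε hε hε1 => ?_⟩
  · have h4 := ENNReal.Tendsto.const_mul (a := CW) hDl (Or.inr hCW)
    rwa [mul_zero] at h4
  have hfin : IsFiniteMeasure (inten f₀ ε) := isFiniteMeasure_inten h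
  have hprob := isProbability_PP (ε := ε) h
  have hal : MeasurableSet {p : CTree × Conf Ph | alT Φ ε L T (wS (pts p.2)) p.1} :=
    measurableSet_alT' hΦ hε T
  have hm : Measurable fun p : CTree × Conf Ph => ind (alT Φ ε L T (wS (pts p.2)) p.1) *
      (g ε p.1 * ∑' R : CTree, if P ε (wS (pts p.2)) p.1 R then wln Φ ε R else 0) :=
    (measurable_ind hal).mul (((hg ε hε).comp measurable_fst).mul (hPm ε hε))
  -- the exchange of the integrals
  have h4 : XX Φ ε L f₀ T (fun U S => g ε S *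
      ∑' R : CTree, if P ε U S R then wln Φ ε R else 0) ≤
      ∫⁻ S, XT.Wt Φ ε T L (g ε) S * (∫⁻ w, (∑' R : CTree,
        if P ε (wS (pts w)) S R then wln Φ ε R else 0) ∂(PP f₀ ε)) ∂(tree (inten f₀ ε) L) := by
    unfold XX
    rw [← lintegral_lintegral_swap hm.aemeasurable]
    refine lintegral_mono fun S => ?_
    have h5 : Measurable fun w : Conf Ph => ∑' R : CTree,
        if P ε (wS (pts w)) S R then wln Φ ε R else 0 :=
      (hPm ε hε).comp measurable_prodMk_left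
    rw [← lintegral_const_mul _ h5]
    refine lintegral_mono fun w => ?_
    beta_reduce
    rw [← mul_assoc]
    refine mul_le_mul_left ?_ _
    unfold XT.Wt
    exact mul_le_mul_left (ind_mono fun h' => ⟨h'.ok, h'.depth, h'.ext_le⟩) _
  have hBm' : MeasurableSet {p : (((Fin 1 → CTree) × (Fin 0 → Ph)) × CTree) × Conf Ph |
      Bad ε (p.1.1.1 0) (wS (pts p.2)) p.1.2} := by
    have h5 : Measurable fun p : (((Fin 1 → CTree) × (Fin 0 → Ph)) × CTree) × Conf Ph =>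
        (((p.1.1.1 0, p.1.2), p.2) : (CTree × CTree) × Conf Ph) :=
      (((measurable_pi_apply 0).comp (measurable_fst.comp (measurable_fst.comp
        measurable_fst))).prodMk (measurable_snd.comp measurable_fst)).prodMk measurable_snd
    exact h5 (hBm ε hε)
  have h8 := h3 ε hε hε1 T T (T + 1) hT le_rfl le_rfl le_rfl (default : Fin 0 → ℝ)
    (fun j => j.elim0) (default : Fin 0 → ℕ) (fun S _ => XT.Wt Φ ε T L (g ε) (S 0))
    ((XT.measurable_Wt hΦ hε (hg ε hε)).comp ((measurable_pi_apply 0).comp measurable_fst)) CW hCW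
    (fun S l => by
      rw [XT.enB_one]
      by_cases hS : XT.Wt Φ ε T L (g ε) (S 0) = 0
      · rw [hS]; exact zero_le
      · refine le_trans ?_ (hgb ε hε (S 0) (XT.Wt_ne_zero hS).1)
        unfold XT.Wt
        calc _ ≤ 1 * g ε (S 0) := mul_le_mul_left (ind_le_one _) _
          _ = _ := one_mul _)
    (fun S l hS => XT.base_one (XT.Wt_ne_zero hS).1 _)
    (fun S l hS => XT.prgO_tree hΦ hε (XT.Wt_ne_zero hS).1 (XT.Wt_ne_zero hS).2.1
      (XT.Wt_ne_zero hS).2.2 _)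
    (fun S _ => B ε (S 0))
    (fun S l hS => by
      rw [XT.enB_one]
      exact hB ε hε (S 0) (XT.Wt_ne_zero hS))
    (fun S _ w => W₂ ε (wS (pts w)) (S 0)) (fun S _ w R => P ε (wS (pts w)) (S 0) R)
    (fun S l hS w R hR => hP ε hε _ _ R (XT.Wt_ne_zero hS) hR)
    (fun S l _ w a ha => hW₂ ε hε _ _ a ha)
    (fun S l _ w R hR => ⟨fun j => by
      rw [Fin.fin_one_eq_zero j]
      exact hdisj ε hε _ _ R hR, fun j => j.elim0⟩)
    (fun S _ V R => Bad ε (S 0) V R)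
    hBm'
    (fun S _ w a => Alt ε (wS (pts w)) (S 0) a)
    (fun S l hS w R hR hsub => h1 ε hε w (S 0) R (XT.Wt_ne_zero hS) (fun h0 => hS (by
      unfold XT.Wt
      rw [h0, mul_zero])) hR hsub)
    (fun S l hS w a ha hA => h2 ε hε w (S 0) (XT.Wt_ne_zero hS) (fun h0 => hS (by
      unfold XT.Wt
      rw [h0, mul_zero])) a ha hA)
    (fun S _ => XT.Aln Φ ε (S 0) ∪ XT.Aln Φ ε (S 1))
    (fun S l R hS hR hBs => by
      obtain ⟨h9, h10, h11⟩ := XT.Wt_ne_zero hS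
      have e0 : (Fin.snoc S R : Fin (1 + 1) → CTree) 0 = S 0 := by
        exact Fin.snoc_castSucc (α := fun _ => CTree) R S 0
      have e1 : (Fin.snoc S R : Fin (1 + 1) → CTree) 1 = R :=
        Fin.snoc_last (α := fun _ => CTree) R S
      rw [e0, e1, enB_snoc, XT.enB_one]
      have h12 : ∀ x, (x ∈ outs (S 0) ∨ x ∈ outs R) → 0 ≤ ext Φ ε x ∧ ext Φ ε x ≤ T + 1 ∧
          ‖(ln Φ ε x).2‖ ^ 2 ≤ enT (S 0) + enT R := by
        rintro x (hx | hx)
        · refine ⟨XT.ext_nonneg_of_ok hΦ hε (outs_ok hΦ h9 hx),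
            ((XT.ext_outs_le hΦ hε h9 hx).trans h11).trans (by linarith), ?_⟩
          exact (ln_sq_le_enT_outs hΦ hε.ne' hx).trans (le_add_of_nonneg_right (enT_nonneg _))
        · refine ⟨XT.ext_nonneg_of_ok hΦ hε (outs_ok hΦ hR.1 hx),
            ((XT.ext_outs_le hΦ hε hR.1 hx).trans hR.2.2).trans (by linarith), ?_⟩
          exact (ln_sq_le_enT_outs hΦ hε.ne' hx).trans (le_add_of_nonneg_left (enT_nonneg _))
      refine ⟨?_, fun σ hσ => ?_⟩
      · refine (Finset.card_union_le _ _).trans ?_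
        have h13 := XT.card_Aln_le (Φ := Φ) (ε := ε) h10
        have h14 := XT.card_Aln_le (Φ := Φ) (ε := ε) hR.2.1
        omega
      · rcases Finset.mem_union.1 hσ with hσ | hσ
        · obtain ⟨x, hx, rfl⟩ := XT.mem_Aln.1 hσ
          exact h12 x (Or.inl hx)
        · obtain ⟨x, hx, rfl⟩ := XT.mem_Aln.1 hσ
          exact h12 x (Or.inr hx))
    (fun J S l R hS hR hBs => by
      have e0 : (Fin.snoc S R : Fin (1 + 1) → CTree) 0 = S 0 := by
        exact Fin.snoc_castSucc (α := fun _ => CTree) R S 0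
      have e1 : (Fin.snoc S R : Fin (1 + 1) → CTree) 1 = R :=
        Fin.snoc_last (α := fun _ => CTree) R S
      filter_upwards [hbad J ε hε hε1 S R _ (XT.Wt_ne_zero hS) (fun h0 => hS (by
        unfold XT.Wt
        rw [h0, mul_zero])) hR hBs] with w hw hb'
      rcases hw hb' with ⟨x, hx, h12⟩ | h12
      · refine Or.inl ⟨(ext Φ ε x, ln Φ ε x), ?_, ?_⟩
        · rw [e0, e1]
          rcases hx with hx | hx
          · exact Finset.mem_union_left _ (XT.mem_Aln.2 ⟨x, hx, rfl⟩)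
          · exact Finset.mem_union_right _ (XT.mem_Aln.2 ⟨x, hx, rfl⟩)
        · rw [coe_wS] at h12
          exact h12
      · exact Or.inr h12)
  rw [XT.lintegral_pi_one] at h8
  simp only [XT.lintegral_fin_zero, pow_zero, one_mul, Finset.univ_eq_empty, Finset.prod_empty]
    at h8
  have hμ0 : muE ε ≠ 0 := (ENNReal.ofReal_pos.2 (GC.mu_pos hε)).ne'
  have hμt : muE ε ≠ ∞ := muE_ne_top
  calc (muE ε)⁻¹ * ((muE ε)⁻¹ * XX Φ ε L f₀ T (fun U S => g ε S *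
        ∑' R : CTree, if P ε U S R then wln Φ ε R else 0))
      ≤ (muE ε)⁻¹ * ((muE ε)⁻¹ * (CW * (muE ε ^ (1 + 1) * Dl ε))) := by
        refine mul_le_mul_right (mul_le_mul_right (h4.trans h8) _) _
    _ = ((muE ε)⁻¹ * muE ε) * ((muE ε)⁻¹ * muE ε) * (CW * Dl ε) := by ring
    _ = CW * Dl ε := by rw [ENNReal.inv_mul_cancel hμ0 hμt, one_mul, one_mul]

end RelX

end Vale.Agent.P119.PB
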