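import Vale.Agent.P119.PB.SE9

/-!
# P119: second events, line level: short lags (`helper778`)
-/

open MeasureTheory Set Filter Topology Metric ProbabilityTheory
open scoped ENNReal

namespace Vale.Agent.P119.PB

open KU FL

variable {Φ : E3 → ℝ} {ε b t t₂ t₃ h t₁ δ c₁ : ℝ} {k : ℕ}

/-- The duration of the starting times with a contact in the window of length `δ`. -/
noncomputable def yI {S : ℕ → Step} {n : ℕ} (F : PathFam ε S n c₁) (t t₂ δ : ℝ) {ι : Type*}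
    (I : Finset ι) (T : ι → Target h) (l : Ph) (p : Fin n → Ph) : ℝ≥0∞ :=
  ∫⁻ σ in Icc (0 : ℝ) t, {σ | Yg F t₂ δ I T σ l p}.indicator (fun _ => (1 : ℝ≥0∞)) σ

theorem lintegral_fin0 (c : ℝ≥0∞) : ∫⁻ _ : Fin 0 → Ph, c = c := by
  rw [lintegral_const, volume_pi, Measure.pi_univ]
  simp

theorem Cd_eq (b t : ℝ) : Cd b = cF1 b 1 t 0 := by
  unfold Cd cF1
  simp

/-- The size of the targets in short windows. -/
noncomputable def yW (ε t δ : ℝ) {ι : Type*} (I : Finset ι) (T : ι → Target h) : ℝ≥0∞ :=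
  ∑ i ∈ I, (ENNReal.ofReal (t + δ) * ENNReal.ofReal ε + 3 * (ENNReal.ofReal δ * (T i).w ε))

theorem le_yW {ι : Type*} (I : Finset ι) (T : ι → Target h) :
    ENNReal.ofReal δ * ∑ i ∈ I, (T i).w ε ≤ yW ε t δ I T := by
  unfold yW
  rw [Finset.mul_sum]
  refine Finset.sum_le_sum fun i _ => ?_
  calc ENNReal.ofReal δ * (T i).w ε = 1 * (ENNReal.ofReal δ * (T i).w ε) := (one_mul _).symm
    _ ≤ 3 * (ENNReal.ofReal δ * (T i).w ε) := by gcongr; norm_num
    _ ≤ _ := le_add_self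

/-- **Short lag of a pair.** -/
theorem young_pair (hε : 0 < ε) (hb : 0 < b) (hc₁ : 0 ≤ c₁) (ht₁ : h < t₁) {S : ℕ → Step} {n : ℕ}
    (F : PathFam ε S (n + 1) c₁) {ι : Type*} (I : Finset ι) (T : ι → Target h) :
    ∫⁻ l : Ph, ∫⁻ p, (gw b l.2 * FL.wt b ε (n + 1) p) * yI F t t₂ δ I T l p ≤
      ENNReal.ofReal (ε ^ 2) * cF1 b c₁ t₁ (n + 1) * yW ε t δ I T := by
  refine (young_pos (t := t) (t₂ := t₂) (δ := δ) hε hb hc₁ ht₁ F I T).trans ?_
  exact mul_le_mul' le_rfl (le_yW I T)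

/-- **Short lag of a line.** -/
theorem young_line (hε : 0 < ε) (hb : 0 < b) (hδ : 0 < δ) (ht : 0 ≤ t) (ht₁ : h < t₁)
    (S : ℕ → Step) (n : ℕ) {ι : Type*} (I : Finset ι) (T : ι → Target h) :
    ∫⁻ l : Ph, ∫⁻ p, (gw b l.2 * FL.wt b ε n p) * yI (lineFam ε S n) t t₂ δ I T l p ≤
      ENNReal.ofReal (ε ^ 2) * cF1 b 1 t₁ n * yW ε t δ I T := by
  cases n with
  | succ n => exact young_pair hε hb zero_le_one ht₁ _ I T
  | zero =>
    have h1 := young_zero hε hb hδ ht I T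
    have h2 : ∀ (l : Ph) (p : Fin 0 → Ph), (gw b l.2 * FL.wt b ε 0 p) *
        yI (lineFam ε S 0) t t₂ δ I T l p = gw b l.2 *
      ∫⁻ σ in Icc (0 : ℝ) t, {σ | Y0 δ ε I T σ l}.indicator (fun _ => (1 : ℝ≥0∞)) σ := by
      intro l p
      have h3 : FL.wt b ε 0 p = 1 := by unfold FL.wt; simp
      rw [h3, mul_one]
      unfold yI
      congr 1
      refine lintegral_congr fun σ => ?_
      have h4 : Yg (lineFam ε S 0) t₂ δ I T σ l p ↔ Y0 δ ε I T σ l := by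
        unfold Yg Y0
        constructor
        · rintro ⟨-, h5⟩; exact h5
        · exact fun h5 => ⟨trivial, h5⟩
      by_cases h6 : Y0 δ ε I T σ l
      · rw [indicator_of_mem (show σ ∈ {σ | Y0 δ ε I T σ l} from h6),
          indicator_of_mem (show σ ∈ {σ | Yg (lineFam ε S 0) t₂ δ I T σ l p} from h4.2 h6)]
      · rw [indicator_of_notMem (show σ ∉ {σ | Y0 δ ε I T σ l} from h6),
          indicator_of_notMem
            (show σ ∉ {σ | Yg (lineFam ε S 0) t₂ δ I T σ l p} from fun h7 => h6 (h4.1 h7))]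
    simp only [h2, lintegral_fin0]
    rw [← Cd_eq b t₁]
    exact h1

theorem gw_wt_one_add (hb : 0 < b) {n : ℕ} (l : Ph) (p : Fin n → Ph) :
    ENNReal.ofReal (1 + ‖l.2‖) * (gw b l.2 * FL.wt b ε n p) ≤
      ENNReal.ofReal (1 + 1 / √b) * (gw (b / 2) l.2 * FL.wt (b / 2) ε n p) := by
  calc ENNReal.ofReal (1 + ‖l.2‖) * (gw b l.2 * FL.wt b ε n p)
      = (gw b l.2 * ENNReal.ofReal (1 + ‖l.2‖)) * FL.wt b ε n p := by ring
    _ ≤ (ENNReal.ofReal (1 + 1 / √b) * gw (b / 2) l.2) * FL.wt (b / 2) ε n p := by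
        refine mul_le_mul' (gw_one_add hb l.2) (FL.wt_mono (by linarith) _ _)
    _ = _ := by ring

/-- **Short lag, general form**: the line `l` with its chain `q` is in contact with a fixed family of
targets in the window of length `δ` after its birth `σ`; `β` is the sister of `l`, with a chain `p`. -/
theorem short_lag (hε : 0 < ε) (hb : 0 < b) (ht₃ : t ≤ t₃) {n j : ℕ} {S S' : ℕ → Step}
    (F : PathFam ε S' j c₁) {ι : Type*} (I : Finset ι) (T : ι → Target h)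
    {Ψ : Ph → (Fin j → Ph) → Ph → (Fin n → Ph) → ℝ≥0∞}
    (hΨ : ∀ l q β p, Ψ l q β p ≠ 0 → Meets ε (l, β) ∧ exT ε (l, β) ∈ Icc 0 t ∧
      Chain ε t₃ S n (exT ε (l, β)) β p ∧ Yg F t₂ δ I T (exT ε (l, β)) l q ∧
      Ψ l q β p ≤ (gw b l.2 * FL.wt b ε j q) * (muE ε * gw b β.2 * FL.wt b ε n p)) :
    ∫⁻ l, ∫⁻ q, ∫⁻ β, ∫⁻ p, Ψ l q β p ≤ (K1.sig univ * cM b t₃ n * ENNReal.ofReal (1 + 1 / √b)) *
      ∫⁻ l : Ph, ∫⁻ q, (gw (b / 2) l.2 * FL.wt (b / 2) ε j q) * yI F t t₂ δ I T l q := by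
  have h1 : ∀ l q, ∫⁻ β, ∫⁻ p, Ψ l q β p ≤ (K1.sig univ * cM b t₃ n * ENNReal.ofReal (1 + 1 / √b)) *
      ((gw (b / 2) l.2 * FL.wt (b / 2) ε j q) * yI F t t₂ δ I T l q) := by
    intro l q
    have h2 : ∫⁻ β, ∫⁻ p, Ψ l q β p ≤ K1.sig univ * ∫⁻ σ in Icc (0 : ℝ) t,
        {σ | Yg F t₂ δ I T σ l q}.indicator (fun _ => (1 : ℝ≥0∞)) σ *
          ((gw b l.2 * FL.wt b ε j q) * (ENNReal.ofReal (1 + ‖l.2‖) * cM b t₃ n)) := by
      refine (sister_param_le (t := t) hε l fun β hne => ?_).trans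
        (param_le fun σ hσ ξ hξ => ?_)
      · obtain ⟨p, hp⟩ : ∃ p, Ψ l q β p ≠ 0 := by
          by_contra hcon
          push Not at hcon
          exact hne (by simp [hcon])
        exact ⟨(hΨ l q β p hp).1, (hΨ l q β p hp).2.1⟩
      · have h3 := sis_mass (b := b) (t := t₃) hε hb l ⟨hσ.1, hσ.2.trans ht₃⟩ hξ
          (g := {σ | Yg F t₂ δ I T σ l q}.indicator (fun _ => (1 : ℝ≥0∞)) σ *
            (gw b l.2 * FL.wt b ε j q)) (Ψ := fun β p => Ψ l q β p) (by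
            intro β p hβ hne
            have h4 := hΨ l q β p hne
            rw [hβ] at h4
            refine ⟨h4.2.2.1, ?_⟩
            rw [indicator_of_mem (show σ ∈ {σ | Yg F t₂ δ I T σ l q} from h4.2.2.2.1), one_mul]
            exact h4.2.2.2.2)
        refine le_trans (le_of_eq ?_) (h3.trans (le_of_eq (by ring)))
        refine lintegral_congr fun u => ?_
        rw [lintegral_const_mul' _ _ (ENNReal.mul_ne_top ENNReal.ofReal_ne_top enorm_ne_top)]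
    have hwt : (gw b l.2 * FL.wt b ε j q) * (ENNReal.ofReal (1 + ‖l.2‖) * cM b t₃ n) ≠ ∞ := by
      refine ENNReal.mul_ne_top (ENNReal.mul_ne_top ENNReal.ofReal_ne_top ?_)
        (ENNReal.mul_ne_top ENNReal.ofReal_ne_top (cM_ne_top hb n))
      unfold FL.wt
      exact ENNReal.prod_ne_top fun i _ => ENNReal.mul_ne_top muE_ne_top ENNReal.ofReal_ne_top
    rw [lintegral_mul_const' _ _ hwt] at h2
    refine h2.trans ?_
    calc K1.sig univ * ((∫⁻ σ in Icc (0 : ℝ) t,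
          {σ | Yg F t₂ δ I T σ l q}.indicator (fun _ => (1 : ℝ≥0∞)) σ) *
          ((gw b l.2 * FL.wt b ε j q) * (ENNReal.ofReal (1 + ‖l.2‖) * cM b t₃ n)))
        = (K1.sig univ * cM b t₃ n) * (yI F t t₂ δ I T l q *
          (ENNReal.ofReal (1 + ‖l.2‖) * (gw b l.2 * FL.wt b ε j q))) := by unfold yI; ring
      _ ≤ (K1.sig univ * cM b t₃ n) * (yI F t t₂ δ I T l q *
          (ENNReal.ofReal (1 + 1 / √b) * (gw (b / 2) l.2 * FL.wt (b / 2) ε j q))) := by
          exact mul_le_mul' le_rfl (mul_le_mul' le_rfl (gw_wt_one_add hb l q))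
      _ = _ := by ring
  have hC : K1.sig univ * cM b t₃ n * ENNReal.ofReal (1 + 1 / √b) ≠ ∞ :=
    ENNReal.mul_ne_top (ENNReal.mul_ne_top (measure_ne_top K1.sig univ) (cM_ne_top hb n))
      ENNReal.ofReal_ne_top
  rw [← lintegral_const_mul' _ _ hC]
  refine lintegral_mono fun l => ?_
  rw [← lintegral_const_mul' _ _ hC]
  exact lintegral_mono fun q => h1 l q

end Vale.Agent.P119.PB
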