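import Vale.Agent.P119.PB.SE10
import Vale.Agent.P119.PB.Iter

/-!
# P119: second events, the chain operators (`helper778`)

`opn n S F s l`: the chain of `n` hits of types `S`, started by the line `l` at the time `s`, followed
by the function `F` of the time of the last hit and of the last line.
-/

open MeasureTheory Set Filter Topology Metric ProbabilityTheory
open scoped ENNReal

namespace Vale.Agent.P119.PB

open KU FL

variable {Φ : E3 → ℝ} {ε b b' t t' h t₁ δ c₁ : ℝ} {k : ℕ}

/-- The chain operator. -/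
noncomputable def opn (ε b t' : ℝ) : (n : ℕ) → (ℕ → Step) → (ℝ → Ph → ℝ≥0∞) → ℝ → Ph → ℝ≥0∞
  | 0, _, F => F
  | n + 1, S, F => fun s l => ∫⁻ z' in hitO ε t' s l, muE ε * gw b z'.2 *
      opn ε b t' n (fun k => S (k + 1)) F (hitT ε (l, z')) ((S 0).f (l, z'))

theorem opn_succ (n : ℕ) (S : ℕ → Step) (F : ℝ → Ph → ℝ≥0∞) (s : ℝ) (l : Ph) :
    opn ε b t' (n + 1) S F s l = ∫⁻ z' in hitO ε t' s l, muE ε * gw b z'.2 *
      opn ε b t' n (fun k => S (k + 1)) F (hitT ε (l, z')) ((S 0).f (l, z')) := rfl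

theorem measurable_opn (n : ℕ) : ∀ (S : ℕ → Step) {F : ℝ → Ph → ℝ≥0∞},
    (Measurable fun q : ℝ × Ph => F q.1 q.2) →
    Measurable fun q : ℝ × Ph => opn ε b t' n S F q.1 q.2 := by
  induction n with
  | zero => intro S F hF; exact hF
  | succ n ih =>
    intro S F hF
    have e : (fun q : ℝ × Ph => opn ε b t' (n + 1) S F q.1 q.2) = fun q : ℝ × Ph =>
        ∫⁻ z' : Ph, ({r : (ℝ × Ph) × Ph | r.2 ∈ hitO ε t' r.1.1 r.1.2}).indicator
          (fun r => muE ε * gw b r.2.2 * opn ε b t' n (fun k => S (k + 1)) F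
            (hitT ε (r.1.2, r.2)) ((S 0).f (r.1.2, r.2))) (q, z') := by
      funext q
      rw [opn_succ, ← lintegral_indicator (measurableSet_hitO t' q.1 q.2)]
      rfl
    rw [e]
    refine Measurable.lintegral_prod_right' ?_
    have hq : Measurable fun r : (ℝ × Ph) × Ph => ((r.1.2, r.2) : Ph × Ph) := by fun_prop
    refine Measurable.indicator ?_ (measurableSet_hitO3 t')
    exact (((measurable_gw b).comp measurable_snd.snd).const_mul _).mul
      ((ih (fun k => S (k + 1)) hF).comp ((measurable_hitT.comp hq).prodMk ((S 0).meas.comp hq)))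

theorem opn_mono (n : ℕ) : ∀ (S : ℕ → Step) {F G : ℝ → Ph → ℝ≥0∞} (s : ℝ) (l : Ph),
    (∀ s l, F s l ≤ G s l) → opn ε b t' n S F s l ≤ opn ε b t' n S G s l := by
  induction n with
  | zero => intro S F G s l h; exact h s l
  | succ n ih =>
    intro S F G s l h
    exact lintegral_mono fun z' => mul_le_mul' le_rfl (ih _ _ _ h)

theorem opn_mono_b (hb : b' ≤ b) (n : ℕ) : ∀ (S : ℕ → Step) {F : ℝ → Ph → ℝ≥0∞} (s : ℝ) (l : Ph),
    opn ε b t' n S F s l ≤ opn ε b' t' n S F s l := by
  induction n with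
  | zero => intro S F s l; exact le_rfl
  | succ n ih =>
    intro S F s l
    exact lintegral_mono fun z' => mul_le_mul' (mul_le_mul' le_rfl (gw_anti hb z'.2)) (ih _ _ _)

theorem opn_congr (n : ℕ) : ∀ (S S' : ℕ → Step) {F : ℝ → Ph → ℝ≥0∞} (s : ℝ) (l : Ph),
    (∀ k < n, S k = S' k) → opn ε b t' n S F s l = opn ε b t' n S' F s l := by
  induction n with
  | zero => intro S S' F s l _; rfl
  | succ n ih =>
    intro S S' F s l h
    rw [opn_succ, opn_succ, h 0 (Nat.succ_pos n)]
    refine lintegral_congr fun z' => ?_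
    rw [ih (fun k => S (k + 1)) (fun k => S' (k + 1)) _ _ fun k hk => h (k + 1) (by omega)]

/-- The composition of two chains. -/
def catS (n : ℕ) (S S' : ℕ → Step) : ℕ → Step := fun k => if k < n then S k else S' (k - n)

theorem opn_cat (n : ℕ) : ∀ (S S' : ℕ → Step) (j : ℕ) {F : ℝ → Ph → ℝ≥0∞} (s : ℝ) (l : Ph),
    opn ε b t' (n + j) (catS n S S') F s l = opn ε b t' n S (opn ε b t' j S' F) s l := by
  induction n with
  | zero =>
    intro S S' j F s l
    have e : ∀ m, m = j → opn ε b t' m (catS 0 S S') F s l = opn ε b t' j S' F s l := by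
      rintro m rfl
      refine opn_congr m _ _ s l fun k _ => ?_
      unfold catS
      rw [if_neg (Nat.not_lt_zero k), Nat.sub_zero]
    exact e _ (Nat.zero_add j)
  | succ n ih =>
    intro S S' j F s l
    have e : ∀ m, m = (n + j) + 1 → opn ε b t' m (catS (n + 1) S S') F s l =
        opn ε b t' (n + 1) S (opn ε b t' j S' F) s l := by
      rintro m rfl
      rw [opn_succ, opn_succ]
      have h0 : catS (n + 1) S S' 0 = S 0 := by unfold catS; rw [if_pos (Nat.succ_pos n)]
      have h1 : (fun k => catS (n + 1) S S' (k + 1)) = catS n (fun k => S (k + 1)) S' := by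
        funext k
        unfold catS
        by_cases hk : k < n
        · rw [if_pos (by omega : k + 1 < n + 1), if_pos hk]
        · rw [if_neg (by omega : ¬k + 1 < n + 1), if_neg hk]
          congr 1
          omega
      rw [h0, h1]
      refine lintegral_congr fun z' => ?_
      rw [ih]
    exact e _ (by omega)

/-- The integrand of the unrolled form. -/
noncomputable def opI (ε b t' : ℝ) (n : ℕ) (S : ℕ → Step) (F : ℝ → Ph → ℝ≥0∞)
    (q : ℝ × Ph × (Fin n → Ph)) : ℝ≥0∞ :=
  {q : ℝ × Ph × (Fin n → Ph) | Chain ε t' S n q.1 q.2.1 q.2.2}.indicator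
    (fun q => FL.wt b ε n q.2.2 * F (time ε S n q.1 q.2.1 q.2.2) (line S n q.2.1 q.2.2)) q

theorem measurable_opI (n : ℕ) (S : ℕ → Step) {F : ℝ → Ph → ℝ≥0∞}
    (hF : Measurable fun q : ℝ × Ph => F q.1 q.2) : Measurable (opI ε b t' n S F) := by
  unfold opI
  refine Measurable.indicator ?_ (measurableSet_chain n _)
  refine ((FL.measurable_wt b ε n).comp (measurable_snd.comp measurable_snd)).mul ?_
  exact hF.comp ((measurable_time n _).prodMk ((measurable_line n _).comp measurable_snd))

theorem measurable_opI_p (n : ℕ) (S : ℕ → Step) {F : ℝ → Ph → ℝ≥0∞}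
    (hF : Measurable fun q : ℝ × Ph => F q.1 q.2) (s : ℝ) (l : Ph) :
    Measurable fun p : Fin n → Ph => opI ε b t' n S F (s, l, p) :=
  (measurable_opI n S hF).comp (measurable_const.prodMk (measurable_const.prodMk measurable_id))

theorem opI_of {n : ℕ} {S : ℕ → Step} {F : ℝ → Ph → ℝ≥0∞} {s : ℝ} {l : Ph} {p : Fin n → Ph}
    (h : Chain ε t' S n s l p) : opI ε b t' n S F (s, l, p) =
      FL.wt b ε n p * F (time ε S n s l p) (line S n l p) := by
  unfold opI
  rw [indicator_of_mem (show (s, l, p) ∈ {q : ℝ × Ph × (Fin n → Ph) |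
    Chain ε t' S n q.1 q.2.1 q.2.2} from h)]

theorem opI_of_not {n : ℕ} {S : ℕ → Step} {F : ℝ → Ph → ℝ≥0∞} {s : ℝ} {l : Ph} {p : Fin n → Ph}
    (h : ¬Chain ε t' S n s l p) : opI ε b t' n S F (s, l, p) = 0 := by
  unfold opI
  rw [indicator_of_notMem (show (s, l, p) ∉ {q : ℝ × Ph × (Fin n → Ph) |
    Chain ε t' S n q.1 q.2.1 q.2.2} from h)]

/-- The unrolled form of the chain operator. -/
theorem opn_eq (n : ℕ) : ∀ (S : ℕ → Step) {F : ℝ → Ph → ℝ≥0∞},
    (Measurable fun q : ℝ × Ph => F q.1 q.2) → ∀ (s : ℝ) (l : Ph),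
    opn ε b t' n S F s l = ∫⁻ p, opI ε b t' n S F (s, l, p) := by
  induction n with
  | zero =>
    intro S F hF s l
    have h2 : ∀ p : Fin 0 → Ph, opI ε b t' 0 S F (s, l, p) = F s l := by
      intro p
      rw [opI_of (show Chain ε t' S 0 s l p from trivial), wt_zero, one_mul]
      rfl
    simp only [h2, lintegral_fin0]
    rfl
  | succ n ih =>
    intro S F hF s l
    rw [opn_succ, lintegral_cons (measurable_opI_p (n + 1) S hF s l),
      ← lintegral_indicator (measurableSet_hitO t' s l)]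
    refine lintegral_congr fun z' => ?_
    by_cases hz : z' ∈ hitO ε t' s l
    · rw [indicator_of_mem hz, ih (fun k => S (k + 1)) hF,
        ← lintegral_const_mul _ (measurable_opI_p n (fun k => S (k + 1)) hF _ _)]
      refine lintegral_congr fun q => ?_
      by_cases hq : Chain ε t' (fun k => S (k + 1)) n (hitT ε (l, z')) ((S 0).f (l, z')) q
      · rw [opI_of hq, opI_of (show Chain ε t' S (n + 1) s l (Fin.cons z' q) from
          ⟨hz.1, hz.2.1, hz.2.2, hq⟩), wt_cons]
        unfold gw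
        have e1 : time ε S (n + 1) s l (Fin.cons z' q) =
            time ε (fun k => S (k + 1)) n (hitT ε (l, z')) ((S 0).f (l, z')) q := rfl
        have e2 : line S (n + 1) l (Fin.cons z' q) =
            line (fun k => S (k + 1)) n ((S 0).f (l, z')) q := rfl
        rw [e1, e2]
        ring
      · rw [opI_of_not hq, opI_of_not (show ¬Chain ε t' S (n + 1) s l (Fin.cons z' q) from
          fun h => hq h.2.2.2), mul_zero]
    · rw [indicator_of_notMem hz]
      have : ∀ q : Fin n → Ph, opI ε b t' (n + 1) S F (s, l, Fin.cons z' q) = 0 := fun q =>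
        opI_of_not (show ¬Chain ε t' S (n + 1) s l (Fin.cons z' q) from
          fun h => hz ⟨h.1, h.2.1, h.2.2.1⟩)
      simp only [this, lintegral_zero]

/-- 178's iterates as sums of chain operators. -/
theorem Gc_eq_opn (hΦ : IsPotential Φ) (hε : ε ≠ 0) (b t' : ℝ) (j : ℕ)
    {F : ℝ → Ph → ℝ≥0∞} (hF : Measurable fun q : ℝ × Ph => F q.1 q.2) (s : ℝ) (l : Ph) :
    Gc hΦ hε b t' j F s l = ∑ o : Fin j → Fin 3, opn ε b t' j (stps hΦ hε o) F s l := by
  rw [Gc_eq hΦ hε b t' j hF]
  refine Finset.sum_congr rfl fun o _ => ?_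
  rw [opn_eq j _ hF]
  refine lintegral_congr fun p => ?_
  unfold chI
  by_cases h : Chain ε t' (stps hΦ hε o) j s l p
  · rw [opI_of h, indicator_of_mem (show p ∈ {p | Chain ε t' (stps hΦ hε o) j s l p} from h)]
  · rw [opI_of_not h,
      indicator_of_notMem (show p ∉ {p | Chain ε t' (stps hΦ hε o) j s l p} from h)]

theorem line_lastPair (m : ℕ) : ∀ (S : ℕ → Step) (l : Ph) (p : Fin (m + 1) → Ph),
    line S (m + 1) l p = (S m).f (lastPair S m l p) := by
  induction m with
  | zero => intro S l p; rfl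
  | succ m ih =>
    intro S l p
    exact ih (fun n => S (n + 1)) ((S 0).f (l, p 0)) (fun i => p i.succ)

/-- A chain followed by a function of the last pair. -/
theorem inner_eq_opn (n : ℕ) (S : ℕ → Step) {H : ℝ → Ph → ℝ≥0∞}
    (hH : Measurable fun q : ℝ × Ph => H q.1 q.2) (s : ℝ) (l : Ph) :
    inner' ε b t' S n (fun q => H (hitT ε q) ((S n).f q)) s l = opn ε b t' (n + 1) S H s l := by
  rw [opn_eq (n + 1) S hH]
  unfold inner'
  refine lintegral_congr fun p => ?_
  by_cases h : Chain ε t' S (n + 1) s l p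
  · rw [opI_of h, indicator_of_mem (show p ∈ {p | Chain ε t' S (n + 1) s l p} from h),
      time_lastPair, line_lastPair]
  · rw [opI_of_not h, indicator_of_notMem (show p ∉ {p | Chain ε t' S (n + 1) s l p} from h)]

end Vale.Agent.P119.PB
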