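import Vale.Agent.P119.PB.SE11

/-!
# P119: second events, the law A as a measure (`helper778`)

`lawA N S`: the line `e`, its sister `β` (exit time in `[0, t]`) and the chain of `N` hits of `β`.
`srcA`, `endA`: the source `(exit time, e)` and the end `(time of the last hit, last line)`.
-/

open MeasureTheory Set Filter Topology Metric ProbabilityTheory
open scoped ENNReal

namespace Vale.Agent.P119.PB

open KU FL

variable {Φ : E3 → ℝ} {ε bE b t t₂ h t₁ δ c₁ : ℝ}

/-! ### Chain operators with parameters -/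

theorem measurable_opn_param {P : Type*} [MeasurableSpace P] (n : ℕ) (S : ℕ → Step)
    {F : P → ℝ → Ph → ℝ≥0∞} (hF : Measurable fun q : P × ℝ × Ph => F q.1 q.2.1 q.2.2) :
    Measurable fun q : P × ℝ × Ph => opn ε b t₂ n S (F q.1) q.2.1 q.2.2 := by
  have hFq : ∀ a : P, Measurable fun q : ℝ × Ph => F a q.1 q.2 := fun a =>
    hF.comp (measurable_const.prodMk measurable_id : Measurable fun q : ℝ × Ph => (a, q))
  have e : (fun q : P × ℝ × Ph => opn ε b t₂ n S (F q.1) q.2.1 q.2.2) =
      fun q : P × ℝ × Ph => ∫⁻ p : Fin n → Ph, opI ε b t₂ n S (F q.1) (q.2.1, q.2.2, p) := by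
    funext q
    exact opn_eq n S (hFq q.1) _ _
  rw [e]
  have hc : MeasurableSet {x : (P × ℝ × Ph) × (Fin n → Ph) |
      Chain ε t₂ S n x.1.2.1 x.1.2.2 x.2} :=
    (measurable_fst.snd.fst.prodMk (measurable_fst.snd.snd.prodMk measurable_snd) :
      Measurable fun x : (P × ℝ × Ph) × (Fin n → Ph) => (x.1.2.1, x.1.2.2, x.2))
      (measurableSet_chain n S)
  have hx : Measurable fun x : (P × ℝ × Ph) × (Fin n → Ph) =>
      (x.1.2.1, x.1.2.2, x.2) := by fun_prop
  have hx2 : Measurable fun x : (P × ℝ × Ph) × (Fin n → Ph) => (x.1.2.2, x.2) := by fun_prop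
  have ht := (measurable_time (ε := ε) n S).comp hx
  have hl := (measurable_line n S).comp hx2
  have hFm : Measurable fun x : (P × ℝ × Ph) × (Fin n → Ph) =>
      F x.1.1 (time ε S n x.1.2.1 x.1.2.2 x.2) (line S n x.1.2.2 x.2) :=
    hF.comp (measurable_fst.fst.prodMk (ht.prodMk hl))
  have h2 : Measurable fun x : (P × ℝ × Ph) × (Fin n → Ph) =>
      opI ε b t₂ n S (F x.1.1) (x.1.2.1, x.1.2.2, x.2) := by
    have := (((FL.measurable_wt b ε n).comp measurable_snd).mul hFm).indicator hc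
    exact this
  exact h2.lintegral_prod_right'

/-! ### The law A -/

/-- The space of the law A: `(e, β, p)`. -/
abbrev XA (N : ℕ) : Type := Ph × Ph × (Fin N → Ph)

/-- The source of the exhaust: exit time and line. -/
noncomputable def srcA (ε : ℝ) {N : ℕ} (x : XA N) : ℝ × Ph := (exT ε (x.1, x.2.1), x.1)

/-- The end of the chain: the time of the last hit, and the last line. -/
noncomputable def endA (ε : ℝ) {N : ℕ} (S : ℕ → Step) (x : XA N) : ℝ × Ph :=
  (time ε S N (exT ε (x.1, x.2.1)) x.2.1 x.2.2, line S N x.2.1 x.2.2)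

/-- The event of the law A. -/
def evA (ε t t₂ : ℝ) {N : ℕ} (S : ℕ → Step) : Set (XA N) :=
  {x | Meets ε (x.1, x.2.1) ∧ exT ε (x.1, x.2.1) ∈ Icc 0 t ∧
    Chain ε t₂ S N (exT ε (x.1, x.2.1)) x.2.1 x.2.2}

/-- The density of the law A. -/
noncomputable def wA (ε bE b t t₂ : ℝ) {N : ℕ} (S : ℕ → Step) : XA N → ℝ≥0∞ :=
  (evA ε t t₂ S).indicator fun x => gw bE x.1.2 * (muE ε * gw b x.2.1.2 * FL.wt b ε N x.2.2)

/-- The reference measure. -/
noncomputable def volA (N : ℕ) : Measure (XA N) :=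
  (volume : Measure Ph).prod ((volume : Measure Ph).prod (volume : Measure (Fin N → Ph)))

instance (N : ℕ) : SigmaFinite (volA N) := by unfold volA; infer_instance

/-- The law A. -/
noncomputable def lawA (ε bE b t t₂ : ℝ) (N : ℕ) (S : ℕ → Step) : Measure (XA N) :=
  (volA N).withDensity (wA ε bE b t t₂ S)

theorem measurable_pairA {N : ℕ} : Measurable fun x : XA N => ((x.1, x.2.1) : Ph × Ph) := by
  fun_prop

theorem measurable_exA {N : ℕ} : Measurable fun x : XA N => exT ε (x.1, x.2.1) :=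
  measurable_exT.comp measurable_pairA

theorem measurable_srcA {N : ℕ} : Measurable (srcA ε : XA N → ℝ × Ph) :=
  measurable_exA.prodMk measurable_fst

theorem measurable_endA {N : ℕ} (S : ℕ → Step) : Measurable (endA ε S : XA N → ℝ × Ph) := by
  refine Measurable.prodMk ?_ ?_
  · exact (measurable_time N S).comp (measurable_exA.prodMk (measurable_snd.fst.prodMk
      measurable_snd.snd))
  · exact (measurable_line N S).comp (measurable_snd.fst.prodMk measurable_snd.snd)

theorem measurableSet_evA {N : ℕ} (S : ℕ → Step) :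
    MeasurableSet (evA ε t t₂ S : Set (XA N)) := by
  have h1 : MeasurableSet {x : XA N | Meets ε (x.1, x.2.1)} := measurable_pairA measurableSet_meets
  have h2 : MeasurableSet {x : XA N | exT ε (x.1, x.2.1) ∈ Icc 0 t} :=
    measurable_exA measurableSet_Icc
  have h3 : MeasurableSet {x : XA N | Chain ε t₂ S N (exT ε (x.1, x.2.1)) x.2.1 x.2.2} :=
    (measurable_exA.prodMk (measurable_snd.fst.prodMk measurable_snd.snd) :
      Measurable fun x : XA N => (exT ε (x.1, x.2.1), x.2.1, x.2.2)) (measurableSet_chain N S)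
  exact h1.inter (h2.inter h3)

theorem measurable_wA {N : ℕ} (S : ℕ → Step) :
    Measurable (wA ε bE b t t₂ S : XA N → ℝ≥0∞) := by
  unfold wA
  refine Measurable.indicator ?_ (measurableSet_evA S)
  have h1 : Measurable fun x : XA N => gw bE x.1.2 :=
    (measurable_gw bE).comp measurable_fst.snd
  have h2 : Measurable fun x : XA N => gw b x.2.1.2 :=
    (measurable_gw b).comp measurable_snd.fst.snd
  have h3 : Measurable fun x : XA N => FL.wt b ε N x.2.2 :=
    (FL.measurable_wt b ε N).comp measurable_snd.snd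
  exact h1.mul ((h2.const_mul _).mul h3)

theorem wA_of {N : ℕ} {S : ℕ → Step} {x : XA N} (hx : x ∈ evA ε t t₂ S) :
    wA ε bE b t t₂ S x = gw bE x.1.2 * (muE ε * gw b x.2.1.2 * FL.wt b ε N x.2.2) :=
  indicator_of_mem hx _

theorem wA_of_not {N : ℕ} {S : ℕ → Step} {x : XA N} (hx : x ∉ evA ε t t₂ S) :
    wA ε bE b t t₂ S x = 0 := indicator_of_notMem hx _

theorem wt_ne_top {n : ℕ} {p : Fin n → Ph} : FL.wt b ε n p ≠ ∞ := by
  unfold FL.wt
  exact ENNReal.prod_ne_top fun i _ => ENNReal.mul_ne_top muE_ne_top ENNReal.ofReal_ne_top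

theorem wA_ne_top {N : ℕ} {S : ℕ → Step} {x : XA N} : wA ε bE b t t₂ S x ≠ ∞ := by
  by_cases hx : x ∈ evA ε t t₂ S
  · rw [wA_of hx]
    exact ENNReal.mul_ne_top ENNReal.ofReal_ne_top (ENNReal.mul_ne_top (ENNReal.mul_ne_top
      muE_ne_top ENNReal.ofReal_ne_top) wt_ne_top)
  · rw [wA_of_not hx]; exact ENNReal.zero_ne_top

instance {N : ℕ} {S : ℕ → Step} : SigmaFinite (lawA ε bE b t t₂ N S) := by
  unfold lawA
  exact SigmaFinite.withDensity_of_ne_top (ae_of_all _ fun _ => wA_ne_top)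

theorem lintegral_lawA {N : ℕ} (S : ℕ → Step) {F : XA N → ℝ≥0∞} (hF : Measurable F) :
    ∫⁻ x, F x ∂(lawA ε bE b t t₂ N S) =
      ∫⁻ e : Ph, ∫⁻ β : Ph, ∫⁻ p : Fin N → Ph,
        wA ε bE b t t₂ S (e, β, p) * F (e, β, p) := by
  unfold lawA
  have hw := measurable_wA (ε := ε) (bE := bE) (b := b) (t := t) (t₂ := t₂) (N := N) S
  rw [lintegral_withDensity_eq_lintegral_mul _ hw hF]
  have hm : Measurable fun x : XA N => wA ε bE b t t₂ S x * F x := hw.mul hF
  change ∫⁻ x : XA N, wA ε bE b t t₂ S x * F x ∂(volA N) = _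
  unfold volA
  rw [lintegral_prod _ hm.aemeasurable]
  refine lintegral_congr fun e => ?_
  have hm2 : Measurable fun y : Ph × (Fin N → Ph) =>
      wA ε bE b t t₂ S (e, y) * F (e, y) :=
    hm.comp (measurable_const.prodMk measurable_id)
  rw [lintegral_prod _ hm2.aemeasurable]

/-- **Composition**: a chain operator after the law A. -/
theorem lawA_opn {N j : ℕ} (S S' : ℕ → Step) {F : ℝ × Ph → ℝ → Ph → ℝ≥0∞}
    (hF : Measurable fun q : (ℝ × Ph) × ℝ × Ph => F q.1 q.2.1 q.2.2) :
    ∫⁻ x, opn ε b t₂ j S' (F (srcA ε x)) (endA ε S x).1 (endA ε S x).2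
        ∂(lawA ε bE b t t₂ N S) =
      ∫⁻ x, F (srcA ε x) (endA ε (catS N S S') x).1 (endA ε (catS N S S') x).2
        ∂(lawA ε bE b t t₂ (N + j) (catS N S S')) := by
  have hFq : ∀ a : ℝ × Ph, Measurable fun q : ℝ × Ph => F a q.1 q.2 := fun a =>
    hF.comp (measurable_const.prodMk measurable_id : Measurable fun q : ℝ × Ph => (a, q))
  have hop : ∀ n (R : ℕ → Step), Measurable fun q : (ℝ × Ph) × ℝ × Ph =>
      opn ε b t₂ n R (F q.1) q.2.1 q.2.2 := fun n R => measurable_opn_param n R hF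
  -- general reduction to `opn`
  have key : ∀ (n : ℕ) (R : ℕ → Step) (G : ℝ × Ph → ℝ → Ph → ℝ≥0∞),
      (Measurable fun q : (ℝ × Ph) × ℝ × Ph => G q.1 q.2.1 q.2.2) →
      ∫⁻ x, G (srcA ε x) (endA ε R x).1 (endA ε R x).2 ∂(lawA ε bE b t t₂ n R) =
      ∫⁻ e : Ph, ∫⁻ β : Ph, {β : Ph | Meets ε (e, β) ∧ exT ε (e, β) ∈ Icc 0 t}.indicator
        (fun β => gw bE e.2 * (muE ε * gw b β.2) *
          opn ε b t₂ n R (G (exT ε (e, β), e)) (exT ε (e, β)) β) β := by
    intro n R G hG
    have hGm : Measurable fun x : XA n => G (srcA ε x) (endA ε R x).1 (endA ε R x).2 :=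
      hG.comp (measurable_srcA.prodMk (measurable_endA R))
    rw [lintegral_lawA R hGm]
    refine lintegral_congr fun e => lintegral_congr fun β => ?_
    by_cases hβ : β ∈ {β : Ph | Meets ε (e, β) ∧ exT ε (e, β) ∈ Icc 0 t}
    · have hGq : Measurable fun q : ℝ × Ph => G (exT ε (e, β), e) q.1 q.2 :=
        hG.comp (measurable_const.prodMk measurable_id : Measurable fun q : ℝ × Ph =>
          ((exT ε (e, β), e), q))
      rw [indicator_of_mem hβ, opn_eq n R hGq,
        ← lintegral_const_mul _ (measurable_opI_p n R hGq _ _)]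
      refine lintegral_congr fun p => ?_
      by_cases hc : Chain ε t₂ R n (exT ε (e, β)) β p
      · rw [wA_of (show (e, β, p) ∈ evA ε t t₂ R from ⟨hβ.1, hβ.2, hc⟩), opI_of hc]
        simp only [srcA, endA]
        ring
      · rw [wA_of_not (show (e, β, p) ∉ evA ε t t₂ R from fun h => hc h.2.2), opI_of_not hc,
          zero_mul, mul_zero]
    · rw [indicator_of_notMem hβ]
      refine (lintegral_congr fun p => ?_).trans lintegral_zero
      rw [wA_of_not (show (e, β, p) ∉ evA ε t t₂ R from fun h => hβ ⟨h.1, h.2.1⟩), zero_mul]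
  rw [key N S (fun a s l => opn ε b t₂ j S' (F a) s l) (hop j S'), key (N + j) (catS N S S') F hF]
  refine lintegral_congr fun e => lintegral_congr fun β => ?_
  simp only [opn_cat]

end Vale.Agent.P119.PB
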