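import Vale.Agent.P119.PB.SE12

/-!
# P119: second events, bounds of the law A (`helper778`)

For a fixed world: mass, mass with a short last hit, long lag, short lag, fixed targets.
-/

open MeasureTheory Set Filter Topology Metric ProbabilityTheory
open scoped ENNReal

namespace Vale.Agent.P119.PB

open KU FL

variable {Φ : E3 → ℝ} {ε bE b t t₂ h t₁ δ c₁ : ℝ} {N : ℕ} {S : ℕ → Step}

/-- The integrand of the law A. -/
noncomputable def inA (ε bE b t t₂ : ℝ) (S : ℕ → Step) (F : XA N → ℝ≥0∞) (e β : Ph)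
    (p : Fin N → Ph) : ℝ≥0∞ := wA ε bE b t t₂ S (e, β, p) * F (e, β, p)

theorem inA_ne {F : XA N → ℝ≥0∞} {e β : Ph} {p : Fin N → Ph}
    (h : inA ε bE b t t₂ S F e β p ≠ 0) : (e, β, p) ∈ evA ε t t₂ S ∧ F (e, β, p) ≠ 0 := by
  constructor
  · by_contra hcon
    exact h (by unfold inA; rw [wA_of_not hcon, zero_mul])
  · intro hcon
    exact h (by unfold inA; rw [hcon, mul_zero])

theorem inA_le {F : XA N → ℝ≥0∞} {e β : Ph} {p : Fin N → Ph} {g : ℝ≥0∞}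
    (h : inA ε bE b t t₂ S F e β p ≠ 0) (hF : F (e, β, p) ≤ g) :
    inA ε bE b t t₂ S F e β p ≤ (gw bE e.2 * g) * (muE ε * gw b β.2 * FL.wt b ε N p) := by
  unfold inA
  rw [wA_of (inA_ne h).1]
  calc gw bE e.2 * (muE ε * gw b β.2 * FL.wt b ε N p) * F (e, β, p)
      ≤ gw bE e.2 * (muE ε * gw b β.2 * FL.wt b ε N p) * g := by gcongr
    _ = _ := by ring

/-- **Mass.** -/
theorem lawA_mass (hε : 0 < ε) (hb : 0 < b) (ht₂ : t ≤ t₂) {F : XA N → ℝ≥0∞} (hF : Measurable F)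
    {g : ℝ × Ph → ℝ≥0∞} (hg : ∀ x ∈ evA ε t t₂ S, F x ≤ g (srcA ε x)) :
    ∫⁻ x, F x ∂(lawA ε bE b t t₂ N S) ≤ K1.sig univ * ∫⁻ e : Ph, ∫⁻ σ in Icc (0 : ℝ) t,
      gw bE e.2 * g (σ, e) * (ENNReal.ofReal (1 + ‖e.2‖) * cM b t₂ N) := by
  rw [lintegral_lawA S hF]
  refine caseA_mass (g := fun e σ => gw bE e.2 * g (σ, e)) (S := S)
    (Ψ := inA ε bE b t t₂ S F) hε hb ht₂ fun e β p hne => ?_
  obtain ⟨h1, -⟩ := inA_ne hne
  exact ⟨h1.1, h1.2.1, h1.2.2, inA_le hne (hg _ h1)⟩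

/-- The mass of the sister of `e` with its chain whose hits are before `t'`, for a fixed exit time and
impact parameter. -/
theorem sis_mass_d (hε : 0 < ε) (hb : 0 < b) {m : ℕ} {S : ℕ → Step} (e : Ph) {σ : ℝ} {ξ : E3}
    (hξ : ξ ∈ K1.disc K1.e0) (hδ : 0 ≤ δ) {g : ℝ≥0∞}
    {Ψ : Ph → (Fin m → Ph) → ℝ≥0∞}
    (hΨ : ∀ β p, exT ε (e, β) = σ → Ψ β p ≠ 0 → Chain ε (σ + δ) S m σ β p ∧
      Ψ β p ≤ g * (muE ε * ENNReal.ofReal (Real.exp (-b * ‖β.2‖ ^ 2)) * FL.wt b ε m p)) :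
    ∫⁻ u : E3, ∫⁻ p, (ENNReal.ofReal (ε ^ 2) * ‖e.2 - u‖ₑ) * Ψ (sis ε e u σ ξ) p ≤
      g * (ENNReal.ofReal (1 + ‖e.2‖) * cM b δ m) := by
  set C : ℝ≥0∞ := ENNReal.ofReal ((Kc b * δ) ^ m / √(m.factorial : ℝ)) with hC
  have h1 : ∀ u : E3, ∫⁻ p, (ENNReal.ofReal (ε ^ 2) * ‖e.2 - u‖ₑ) * Ψ (sis ε e u σ ξ) p ≤
      (g * C) * (‖e.2 - u‖ₑ * ENNReal.ofReal (Real.exp (-(b / 2) * ‖u‖ ^ 2))) := by
    intro u
    by_cases hV : e.2 - u = 0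
    · simp [hV]
    set β := sis ε e u σ ξ with hβ
    have hex : exT ε (e, β) = σ := exT_sis hε.ne' e hV σ hξ
    have hβ2 : β.2 = u := sis_snd e u σ ξ
    rw [lintegral_const_mul' _ _ (ENNReal.mul_ne_top ENNReal.ofReal_ne_top enorm_ne_top)]
    have h2 : ∫⁻ p, Ψ β p ≤ (g * (muE ε * ENNReal.ofReal (Real.exp (-b * ‖u‖ ^ 2)))) *
        ∫⁻ p : Fin m → Ph, {p | Chain ε (σ + δ) S m σ β p}.indicator (FL.wt b ε m) p := by
      rw [← lintegral_const_mul _ ((FL.measurable_wt b ε m).indicator (measurableSet_chain_p σ β))]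
      refine lintegral_mono fun p => ?_
      by_cases h0 : Ψ β p = 0
      · rw [h0]; exact zero_le
      obtain ⟨h3, h4⟩ := hΨ β p hex h0
      rw [indicator_of_mem (show p ∈ {p | Chain ε (σ + δ) S m σ β p} from h3)]
      refine h4.trans (le_of_eq ?_)
      rw [hβ2]; ring
    have h5 : ENNReal.ofReal (Real.exp (-b * ‖u‖ ^ 2)) *
        ENNReal.ofReal (Real.exp (b / 2 * ‖u‖ ^ 2)) =
        ENNReal.ofReal (Real.exp (-(b / 2) * ‖u‖ ^ 2)) := by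
      rw [← ENNReal.ofReal_mul (Real.exp_nonneg _), ← Real.exp_add]
      congr 2; ring
    have hch : ∫⁻ p : Fin m → Ph, {p | Chain ε (σ + δ) S m σ β p}.indicator (FL.wt b ε m) p ≤
        C * ENNReal.ofReal (Real.exp (b / 2 * ‖u‖ ^ 2)) := by
      refine (chain_mass hε hb m S σ β (by linarith)).trans (le_of_eq ?_)
      rw [hβ2, add_sub_cancel_left, ENNReal.ofReal_mul]
      exact div_nonneg (pow_nonneg (mul_nonneg (Kc_nonneg _) hδ) m) (Real.sqrt_nonneg _)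
    calc (ENNReal.ofReal (ε ^ 2) * ‖e.2 - u‖ₑ) * ∫⁻ p, Ψ β p
        ≤ (ENNReal.ofReal (ε ^ 2) * ‖e.2 - u‖ₑ) *
          ((g * (muE ε * ENNReal.ofReal (Real.exp (-b * ‖u‖ ^ 2)))) *
            (C * ENNReal.ofReal (Real.exp (b / 2 * ‖u‖ ^ 2)))) :=
          mul_le_mul' le_rfl (h2.trans (mul_le_mul' le_rfl hch))
      _ = (muE ε * ENNReal.ofReal (ε ^ 2)) * ((g * C) * (‖e.2 - u‖ₑ *
          (ENNReal.ofReal (Real.exp (-b * ‖u‖ ^ 2)) *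
            ENNReal.ofReal (Real.exp (b / 2 * ‖u‖ ^ 2))))) := by ring
      _ = _ := by rw [muE_mul hε, one_mul, h5]
  refine (lintegral_mono h1).trans ?_
  rw [lintegral_const_mul _ (by fun_prop)]
  have h6 := lintegral_vel_le' (b := b / 2) (β := b / 2) (by positivity) le_rfl e.2
  calc (g * C) * ∫⁻ u : E3, ‖e.2 - u‖ₑ * ENNReal.ofReal (Real.exp (-(b / 2) * ‖u‖ ^ 2))
      ≤ (g * C) * (ENNReal.ofReal (1 + ‖e.2‖) * I0 (b / 2)) := by gcongr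
    _ = _ := by unfold cM; ring

/-- **Mass, with all the hits before `σ + δ`.** -/
theorem lawA_short (hε : 0 < ε) (hb : 0 < b) (hδ : 0 ≤ δ) {F : XA N → ℝ≥0∞} (hF : Measurable F)
    {g : ℝ × Ph → ℝ≥0∞} (hg : ∀ x ∈ evA ε t t₂ S, F x ≠ 0 →
      (endA ε S x).1 < (srcA ε x).1 + δ ∧ F x ≤ g (srcA ε x)) :
    ∫⁻ x, F x ∂(lawA ε bE b t t₂ N S) ≤ K1.sig univ * ∫⁻ e : Ph, ∫⁻ σ in Icc (0 : ℝ) t,
      gw bE e.2 * g (σ, e) * (ENNReal.ofReal (1 + ‖e.2‖) * cM b δ N) := by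
  rw [lintegral_lawA S hF]
  refine caseA' (t := t) hε (F := fun e β => ∫⁻ p, inA ε bE b t t₂ S F e β p) ?_ ?_
  · intro e β hne
    obtain ⟨p, hp⟩ : ∃ p, inA ε bE b t t₂ S F e β p ≠ 0 := by
      by_contra hcon
      push Not at hcon
      exact hne (by simp [hcon])
    exact ⟨(inA_ne hp).1.1, (inA_ne hp).1.2.1⟩
  · intro e σ hσ ξ hξ
    have h1 := sis_mass_d (b := b) (S := S) hε hb e hξ hδ (σ := σ) (g := gw bE e.2 * g (σ, e))
      (Ψ := fun β p => inA ε bE b t t₂ S F e β p) (by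
        intro β p hβ hne
        obtain ⟨h2, h3⟩ := inA_ne hne
        obtain ⟨h4, h5⟩ := hg _ h2 h3
        have h6 := inA_le hne h5
        have h7 := h2.2.2
        simp only [srcA, endA, hβ] at h4 h6 h7
        exact ⟨chain_of_time_lt N S _ _ _ h7 h4, h6⟩)
    refine le_trans (le_of_eq ?_) h1
    refine lintegral_congr fun u => ?_
    rw [lintegral_const_mul' _ _ (ENNReal.mul_ne_top ENNReal.ofReal_ne_top enorm_ne_top)]

/-- **Long lag.** -/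
theorem lawA_long (hε : 0 < ε) (hb : 0 < b) (hδ : 0 < δ) (hc₁ : 0 ≤ c₁)
    (X : PathFam ε S N c₁) {ι : Type*} {h : Ph → ℝ → ℝ} (ht₁ : t ≤ t₁)
    (hh : ∀ e, ∀ σ ∈ Icc 0 t, h e σ < t₁) (I : Ph → ℝ → Finset ι)
    (T : ∀ (e : Ph) (σ : ℝ), ι → Target (h e σ)) {F : XA N → ℝ≥0∞} (hF : Measurable F)
    {g : ℝ × Ph → ℝ≥0∞} (hgt : ∀ y, g y ≠ ∞) (hg : ∀ x ∈ evA ε t t₂ S, F x ≠ 0 →
      (∃ i ∈ I x.1 (srcA ε x).1, ∃ τ ∈ Icc (max (max (T x.1 (srcA ε x).1 i).a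
        ((srcA ε x).1 + δ)) (endA ε S x).1) (h x.1 (srcA ε x).1),
        ‖X.X x.2.1 x.2.2 τ - (T x.1 (srcA ε x).1 i).Y τ‖ ≤ ε) ∧ F x ≤ g (srcA ε x)) :
    ∫⁻ x, F x ∂(lawA ε bE b t t₂ N S) ≤ K1.sig univ * ∫⁻ e : Ph, ∫⁻ σ in Icc (0 : ℝ) t,
      gw bE e.2 * g (σ, e) * ENNReal.ofReal (Ke b e) *
        (ENNReal.ofReal (ε ^ 2) * cH b c₁ δ t₁ N) * ∑ i ∈ I e σ, (T e σ i).w ε := by
  rw [lintegral_lawA S hF]
  refine caseA_long (g := fun e σ => gw bE e.2 * g (σ, e)) (S := S) (t₂ := t₂)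
    (Ψ := inA ε bE b t t₂ S F) hε hb hδ hc₁ X ht₁ hh I T
    (fun e σ => ENNReal.mul_ne_top ENNReal.ofReal_ne_top (hgt _)) fun e β p hne => ?_
  obtain ⟨h1, h2⟩ := inA_ne hne
  obtain ⟨h3, h4⟩ := hg _ h1 h2
  exact ⟨h1.1, h1.2.1, h1.2.2, h3, inA_le hne h4⟩

/-! ### Fixed targets -/

/-- The law A with the roles of `e` and `β` exchanged. -/
theorem lintegral_lawA' (S : ℕ → Step) {F : XA N → ℝ≥0∞} (hF : Measurable F) :
    ∫⁻ x, F x ∂(lawA ε bE b t t₂ N S) =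
      ∫⁻ β : Ph, ∫⁻ p : Fin N → Ph, ∫⁻ e : Ph, inA ε bE b t t₂ S F e β p := by
  unfold lawA
  have hw := measurable_wA (ε := ε) (bE := bE) (b := b) (t := t) (t₂ := t₂) (N := N) S
  rw [lintegral_withDensity_eq_lintegral_mul _ hw hF]
  have hm : Measurable fun x : XA N => wA ε bE b t t₂ S x * F x := hw.mul hF
  change ∫⁻ x : XA N, wA ε bE b t t₂ S x * F x ∂(volA N) = _
  unfold volA
  rw [lintegral_prod_symm _ hm.aemeasurable]
  have hm2 : Measurable fun y : Ph × (Fin N → Ph) => ∫⁻ e : Ph, wA ε bE b t t₂ S (e, y) * F (e, y) :=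
    (hm.comp measurable_swap).lintegral_prod_right'
  rw [lintegral_prod _ hm2.aemeasurable]
  rfl

theorem FL_wt_zero {p : Fin 0 → Ph} : FL.wt b ε 0 p = 1 := by unfold FL.wt; simp

/-- **Short lag**: contact of the chain of `β` with a fixed family of targets, at most `δ` after the
exit time. -/
theorem lawA_young_aux (hε : 0 < ε) (hb : 0 < b) (hbE : b ≤ bE) (X : PathFam ε S N c₁)
    {ι : Type*} (I : Finset ι) (T : ι → Target h) {F : XA N → ℝ≥0∞} (hF : Measurable F)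
    (hg : ∀ x ∈ evA ε t t₂ S, F x ≠ 0 →
      (∃ i ∈ I, ∃ τ ∈ Icc (max (T i).a (endA ε S x).1) h, τ ≤ (srcA ε x).1 + δ ∧
        ‖X.X x.2.1 x.2.2 τ - (T i).Y τ‖ ≤ ε) ∧ F x ≤ 1) :
    ∫⁻ x, F x ∂(lawA ε bE b t t₂ N S) ≤
      (K1.sig univ * cM b t 0 * ENNReal.ofReal (1 + 1 / √b)) *
        ∫⁻ l : Ph, ∫⁻ q, (gw (b / 2) l.2 * FL.wt (b / 2) ε N q) * yI X t t₂ δ I T l q := by
  rw [lintegral_lawA' S hF]
  have h1 := short_lag (t := t) (t₂ := t₂) (t₃ := t) (h := h) (δ := δ) (S := S) (n := 0) hε hb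
    le_rfl X I T
    (Ψ := fun l q β _ => inA ε bE b t t₂ S F β l q) (by
      intro l q β p hne
      obtain ⟨h2, h3⟩ := inA_ne hne
      have e1 : exT ε (l, β) = exT ε (β, l) := exT_swap (β, l)
      obtain ⟨⟨i, hi, τ, h4, h5, h6⟩, h7⟩ := hg _ h2 h3
      refine ⟨(meets_swap (β, l)).2 h2.1, ?_, trivial, ?_, ?_⟩
      · rw [e1]; exact h2.2.1
      · rw [e1]; exact ⟨h2.2.2, i, hi, τ, h4, h5, h6⟩
      · refine (inA_le hne h7).trans ?_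
        rw [FL_wt_zero]
        calc gw bE β.2 * 1 * (muE ε * gw b l.2 * FL.wt b ε N q)
            ≤ gw b β.2 * 1 * (muE ε * gw b l.2 * FL.wt b ε N q) := by
              gcongr
              exact gw_anti hbE β.2
          _ = _ := by ring)
  refine le_trans (le_of_eq ?_) h1
  refine lintegral_congr fun β => lintegral_congr fun p => lintegral_congr fun e => ?_
  exact (lintegral_fin0 _).symm

/-- **Short lag of a line.** -/
theorem lawA_young (hε : 0 < ε) (hb : 0 < b) (hbE : b ≤ bE) (hδ : 0 < δ) (ht : 0 ≤ t)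
    (ht₁ : h < t₁) {ι : Type*} (I : Finset ι) (T : ι → Target h) {F : XA N → ℝ≥0∞}
    (hF : Measurable F) (hg : ∀ x ∈ evA ε t t₂ S, F x ≠ 0 →
      (∃ i ∈ I, ∃ τ ∈ Icc (max (T i).a (endA ε S x).1) h, τ ≤ (srcA ε x).1 + δ ∧
        ‖(endA ε S x).2.1 + τ • (endA ε S x).2.2 - (T i).Y τ‖ ≤ ε) ∧ F x ≤ 1) :
    ∫⁻ x, F x ∂(lawA ε bE b t t₂ N S) ≤
      (K1.sig univ * cM b t 0 * ENNReal.ofReal (1 + 1 / √b)) *
        (ENNReal.ofReal (ε ^ 2) * cF1 (b / 2) 1 t₁ N * yW ε t δ I T) :=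
  (lawA_young_aux hε hb hbE (lineFam ε S N) I T hF hg).trans
    (mul_le_mul' le_rfl (young_line hε (by positivity) hδ ht ht₁ S N I T))

/-- **Short lag of a pair.** -/
theorem lawA_young_pair (hε : 0 < ε) (hb : 0 < b) (hbE : b ≤ bE) (hc₁ : 0 ≤ c₁)
    (ht₁ : h < t₁) (X : PathFam ε S (N + 1) c₁) {ι : Type*} (I : Finset ι) (T : ι → Target h)
    {F : XA (N + 1) → ℝ≥0∞} (hF : Measurable F) (hg : ∀ x ∈ evA ε t t₂ S, F x ≠ 0 →
      (∃ i ∈ I, ∃ τ ∈ Icc (max (T i).a (endA ε S x).1) h, τ ≤ (srcA ε x).1 + δ ∧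
        ‖X.X x.2.1 x.2.2 τ - (T i).Y τ‖ ≤ ε) ∧ F x ≤ 1) :
    ∫⁻ x, F x ∂(lawA ε bE b t t₂ (N + 1) S) ≤
      (K1.sig univ * cM b t 0 * ENNReal.ofReal (1 + 1 / √b)) *
        (ENNReal.ofReal (ε ^ 2) * cF1 (b / 2) c₁ t₁ (N + 1) * yW ε t δ I T) :=
  (lawA_young_aux hε hb hbE X I T hF hg).trans
    (mul_le_mul' le_rfl (young_pair hε (by positivity) hc₁ ht₁ X I T))

end Vale.Agent.P119.PB
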