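import Vale.Agent.P119.PB.SE1
import Vale.Agent.P119.PB.Op1

/-!
# P119: second events, line level: the cases A and B (`helper778`)
-/

open MeasureTheory Set Filter Topology Metric ProbabilityTheory
open scoped ENNReal

namespace Vale.Agent.P119.PB

open KU FL

variable {Φ : E3 → ℝ} {ε b t δ : ℝ} {k : ℕ}

/-- **Case A**: `e` and its sister `β`, everything else being a function of `(e, β)`. -/
theorem caseA (hε : 0 < ε) {F : Ph → Ph → ℝ≥0∞} (hF : ∀ e, Measurable (F e))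
    (h0 : ∀ e β, F e β ≠ 0 → Meets ε (e, β) ∧ exT ε (e, β) ∈ Icc 0 t) {h : Ph → ℝ → ℝ≥0∞}
    (H : ∀ e, ∀ σ ∈ Icc (0 : ℝ) t, ∀ ξ ∈ K1.disc K1.e0,
      ∫⁻ u : E3, (ENNReal.ofReal (ε ^ 2) * ‖e.2 - u‖ₑ) * F e (sis ε e u σ ξ) ≤ h e σ) :
    ∫⁻ e, ∫⁻ β, F e β ≤ K1.sig univ * ∫⁻ e, ∫⁻ σ in Icc (0 : ℝ) t, h e σ := by
  rw [← lintegral_const_mul' _ _ (measure_ne_top K1.sig univ)]
  refine lintegral_mono fun e => ?_
  simp only
  rw [sister_param (t := t) hε e (hF e) (h0 e)]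
  exact param_le (H e)

theorem pairG_mono_left {β s s' t : ℝ} (h : s ≤ s') (G : Ph × Ph → ℝ≥0∞) :
    pairG ε β s' t G ≤ pairG ε β s t G := by
  unfold pairG
  refine mul_le_mul' le_rfl (lintegral_mono fun q => mul_le_mul' le_rfl ?_)
  exact indicator_le_indicator_of_subset (Ioo_subset_Ioo h le_rfl) (fun _ => zero_le) _

/-- The weight `Ke` against a Gaussian. -/
theorem Ke_gauss (hb : 0 < b) (e : Ph) :
    ENNReal.ofReal (Ke b e) * ENNReal.ofReal (Real.exp (-b * ‖e.2‖ ^ 2)) ≤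
      ENNReal.ofReal (√2 * (1 + 1 / √b) ^ 2) * ENNReal.ofReal (Real.exp (-(b / 2) * ‖e.2‖ ^ 2)) := by
  rw [← ENNReal.ofReal_mul (Ke_pos b e).le, ← ENNReal.ofReal_mul (by positivity)]
  apply ENNReal.ofReal_le_ofReal
  have h8 := one_add_le (b := b) (x := ‖e.2‖) (M := 1) hb le_rfl
  rw [Real.sqrt_one, one_mul, mul_one] at h8
  unfold Ke
  have h1 : Real.exp (-(b / 2) * ‖e.2‖ ^ 2) =
      Real.exp (b / 2 * ‖e.2‖ ^ 2) * Real.exp (-b * ‖e.2‖ ^ 2) := by
    rw [← Real.exp_add]; congr 1; ring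
  rw [h1]
  calc (1 + ‖e.2‖) * (√2 * (1 + 1 / √b)) * Real.exp (-b * ‖e.2‖ ^ 2)
      ≤ ((1 + 1 / √b) * Real.exp (b / 2 * ‖e.2‖ ^ 2)) * (√2 * (1 + 1 / √b)) *
        Real.exp (-b * ‖e.2‖ ^ 2) := by gcongr
    _ = _ := by ring

/-- The constant of case B. -/
noncomputable def KB (b t : ℝ) (n : ℕ) : ℝ :=
  √2 * (1 + 1 / √b) ^ 2 * ((Kc (b / 2) * t) ^ n / √(n.factorial : ℝ))

theorem inner_mono {b b' : ℝ} (h : b' ≤ b) (S : ℕ → Step) (m : ℕ) (G : Ph × Ph → ℝ≥0∞) (s : ℝ)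
    (l : Ph) : inner' ε b t S m G s l ≤ inner' ε b' t S m G s l := by
  unfold inner'
  refine lintegral_mono fun p => ?_
  refine indicator_le_indicator ?_
  gcongr
  exact wt_mono h _ _

theorem measurable_chain_ind (S : ℕ → Step) (n : ℕ) {W : (Fin (n + 1) → Ph) → ℝ≥0∞}
    (hW : Measurable W) {h : Ph × Ph → ℝ≥0∞} (hh : Measurable h) :
    Measurable fun q : (ℝ × Ph) × (Fin (n + 1) → Ph) =>
      {p | Chain ε t S (n + 1) q.1.1 q.1.2 p}.indicator
        (fun p => W p * h (lastPair S n q.1.2 p)) q.2 := by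
  have h1 : Measurable fun q : (ℝ × Ph) × (Fin (n + 1) → Ph) =>
      W q.2 * h (lastPair S n q.1.2 q.2) :=
    (hW.comp measurable_snd).mul (hh.comp
      ((measurable_lastPair n S).comp (measurable_fst.snd.prodMk measurable_snd)))
  have h2 : MeasurableSet {q : (ℝ × Ph) × (Fin (n + 1) → Ph) |
      Chain ε t S (n + 1) q.1.1 q.1.2 q.2} :=
    (measurable_fst.fst.prodMk (measurable_fst.snd.prodMk measurable_snd) :
      Measurable fun q : (ℝ × Ph) × (Fin (n + 1) → Ph) => (q.1.1, q.1.2, q.2))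
      (measurableSet_chain (n + 1) S)
  exact h1.indicator h2

/-- The integrand of case B. -/
noncomputable def jB (ε b t : ℝ) (S : ℕ → Step) (n : ℕ) (h : Ph × Ph → ℝ≥0∞) (σ : ℝ) (β : Ph)
    (p : Fin (n + 1) → Ph) : ℝ≥0∞ :=
  {p | Chain ε t S (n + 1) σ β p}.indicator
    (fun p => FL.wt b ε (n + 1) p * h (lastPair S n β p)) p

theorem measurable_jB (S : ℕ → Step) (n : ℕ) {h : Ph × Ph → ℝ≥0∞} (hh : Measurable h) :
    Measurable fun q : (ℝ × Ph) × (Fin (n + 1) → Ph) => jB ε b t S n h q.1.1 q.1.2 q.2 :=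
  measurable_chain_ind S n (FL.measurable_wt b ε (n + 1)) hh

theorem lintegral_jB (S : ℕ → Step) (n : ℕ) (h : Ph × Ph → ℝ≥0∞) (σ : ℝ) (β : Ph) :
    ∫⁻ p, jB ε b t S n h σ β p = inner' ε b t S n h σ β := rfl

/-- Tonelli for case B. -/
theorem swapB {A : Ph → ℝ≥0∞} (hA : Measurable A) {J : ℝ → Ph → (Fin k → Ph) → ℝ≥0∞}
    (hJ : Measurable fun q : (ℝ × Ph) × (Fin k → Ph) => J q.1.1 q.1.2 q.2) :
    ∫⁻ β : Ph, ∫⁻ p, ∫⁻ σ in Icc (0 : ℝ) t, A β * J σ β p =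
      ∫⁻ σ in Icc (0 : ℝ) t, ∫⁻ β : Ph, A β * ∫⁻ p, J σ β p := by
  have hm2 : Measurable fun q : (Ph × (Fin k → Ph)) × ℝ => A q.1.1 * J q.2 q.1.1 q.1.2 :=
    (hA.comp measurable_fst.fst).mul
      (hJ.comp ((measurable_snd.prodMk measurable_fst.fst).prodMk measurable_fst.snd))
  have h1 : ∀ β : Ph, ∫⁻ p, ∫⁻ σ in Icc (0 : ℝ) t, A β * J σ β p =
      ∫⁻ σ in Icc (0 : ℝ) t, ∫⁻ p, A β * J σ β p := by
    intro β
    refine lintegral_lintegral_swap (f := fun p σ => A β * J σ β p) ?_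
    exact (hm2.comp ((measurable_const.prodMk measurable_fst).prodMk measurable_snd :
      Measurable fun q : (Fin k → Ph) × ℝ => ((β, q.1), q.2))).aemeasurable
  simp_rw [h1]
  have hm3 : Measurable fun q : (Ph × ℝ) × (Fin k → Ph) => A q.1.1 * J q.1.2 q.1.1 q.2 :=
    (hA.comp measurable_fst.fst).mul
      (hJ.comp ((measurable_fst.snd.prodMk measurable_fst.fst).prodMk measurable_snd))
  have hm4 : Measurable fun q : Ph × ℝ => ∫⁻ p, A q.1 * J q.2 q.1 p := hm3.lintegral_prod_right'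
  rw [lintegral_lintegral_swap (f := fun β σ => ∫⁻ p, A β * J σ β p) hm4.aemeasurable]
  refine lintegral_congr fun σ => lintegral_congr fun β => ?_
  rw [lintegral_const_mul]
  exact hJ.comp (measurable_const.prodMk measurable_id : Measurable
    fun p : Fin k → Ph => (((σ, β) : ℝ × Ph), p))

/-- The sister of `β` for a given chain of `β`. -/
theorem caseB_one (hε : 0 < ε) {k : ℕ} {S : ℕ → Step} {F : Ph → ℝ≥0∞} (hF : Measurable F)
    (β : Ph) (p : Fin k → Ph)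
    (h0 : ∀ m, F m ≠ 0 → Meets ε (β, m) ∧ exT ε (β, m) ∈ Icc 0 t ∧
      Chain ε t S k (exT ε (β, m)) β p) {w : ℝ≥0∞}
    (H : ∀ σ ∈ Icc (0 : ℝ) t, ∀ ξ ∈ K1.disc K1.e0, Chain ε t S k σ β p →
      ∫⁻ u : E3, (ENNReal.ofReal (ε ^ 2) * ‖β.2 - u‖ₑ) * F (sis ε β u σ ξ) ≤ w) :
    ∫⁻ m, F m ≤ K1.sig univ * ∫⁻ σ in Icc (0 : ℝ) t,
      {p | Chain ε t S k σ β p}.indicator (fun _ => w) p := by
  rw [sister_param (t := t) hε β hF fun m hm => ⟨(h0 m hm).1, (h0 m hm).2.1⟩]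
  refine param_le fun σ hσ ξ hξ => ?_
  by_cases hch : Chain ε t S k σ β p
  · rw [indicator_of_mem (show p ∈ {p | Chain ε t S k σ β p} from hch)]
    exact H σ hσ ξ hξ hch
  · rw [indicator_of_notMem (show p ∉ {p | Chain ε t S k σ β p} from hch)]
    refine le_of_eq ?_
    rw [← lintegral_zero (μ := (volume : Measure E3))]
    refine lintegral_congr fun u => ?_
    by_cases hV : β.2 - u = 0
    · simp [hV]
    · by_cases hz : F (sis ε β u σ ξ) = 0
      · rw [hz, mul_zero]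
      · have h2 := (h0 _ hz).2.2
        rw [exT_sis hε.ne' β hV σ hξ] at h2
        exact absurd h2 hch

/-- The mass of the chains of case B. -/
theorem caseB_mass (hε : 0 < ε) (hb : 0 < b) {n : ℕ} {S : ℕ → Step}
    (hS : ∀ n, RevStep ε (S n)) {h : Ph × Ph → ℝ≥0∞} (hh : Measurable h) {σ : ℝ}
    (hσ : σ ∈ Icc (0 : ℝ) t) :
    ∫⁻ β : Ph, (ENNReal.ofReal (Ke b β) * ENNReal.ofReal (Real.exp (-b * ‖β.2‖ ^ 2))) *
      inner' ε b t S n h σ β ≤ ENNReal.ofReal (KB b t n) * pairG ε (b / 4) 0 t h := by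
  have h3 : ∫⁻ β : Ph, (ENNReal.ofReal (Ke b β) *
      ENNReal.ofReal (Real.exp (-b * ‖β.2‖ ^ 2))) * inner' ε b t S n h σ β ≤
      ENNReal.ofReal (√2 * (1 + 1 / √b) ^ 2) * ∫⁻ β : Ph,
      ENNReal.ofReal (Real.exp (-(b / 2) * ‖β.2‖ ^ 2)) * inner' ε (b / 2) t S n h σ β := by
    rw [← lintegral_const_mul' _ _ ENNReal.ofReal_ne_top]
    refine lintegral_mono fun β => ?_
    simp only
    rw [← mul_assoc]
    exact mul_le_mul' (Ke_gauss hb β) (inner_mono (by linarith) S n h σ β)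
  refine h3.trans ?_
  have h4 := chain_mass_rev (t := t) (s := σ) hε (by positivity : 0 < b / 2) n hS hh
  have h5 : b / 2 / 2 = b / 4 := by ring
  rw [h5] at h4
  have hK : 0 ≤ Kc (b / 2) * (t - σ) := mul_nonneg (Kc_nonneg _) (sub_nonneg.2 hσ.2)
  calc ENNReal.ofReal (√2 * (1 + 1 / √b) ^ 2) * ∫⁻ β : Ph,
      ENNReal.ofReal (Real.exp (-(b / 2) * ‖β.2‖ ^ 2)) * inner' ε (b / 2) t S n h σ β
      ≤ ENNReal.ofReal (√2 * (1 + 1 / √b) ^ 2) *
        (ENNReal.ofReal ((Kc (b / 2) * (t - σ)) ^ n / √(n.factorial : ℝ)) *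
          pairG ε (b / 4) σ t h) := by gcongr
    _ ≤ ENNReal.ofReal (√2 * (1 + 1 / √b) ^ 2) *
        (ENNReal.ofReal ((Kc (b / 2) * t) ^ n / √(n.factorial : ℝ)) *
          pairG ε (b / 4) 0 t h) := by
        have hle : (Kc (b / 2) * (t - σ)) ^ n ≤ (Kc (b / 2) * t) ^ n :=
          pow_le_pow_left₀ hK (mul_le_mul_of_nonneg_left (by linarith [hσ.1])
            (Kc_nonneg _)) n
        refine mul_le_mul' le_rfl (mul_le_mul' (ENNReal.ofReal_le_ofReal ?_)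
          (pairG_mono_left hσ.1 h))
        gcongr
    _ = _ := by
        rw [← mul_assoc, ← ENNReal.ofReal_mul (by positivity)]
        rfl

/-- **Case B**: the line `m` is the sister of `β`, whose chain `p` ends in the node of `e`
(`e` is a function of the last pair of the chain). -/
theorem caseB (hε : 0 < ε) (hb : 0 < b) {n : ℕ} {S : ℕ → Step}
    (hS : ∀ n, RevStep ε (S n)) {h : Ph × Ph → ℝ≥0∞} (hh : Measurable h)
    {F : Ph → Ph → (Fin (n + 1) → Ph) → ℝ≥0∞} (hF : ∀ β p, Measurable fun m => F β m p)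
    (h0 : ∀ β m p, F β m p ≠ 0 → Meets ε (β, m) ∧ exT ε (β, m) ∈ Icc 0 t ∧
      Chain ε t S (n + 1) (exT ε (β, m)) β p)
    (H : ∀ σ ∈ Icc (0 : ℝ) t, ∀ ξ ∈ K1.disc K1.e0, ∀ β p, Chain ε t S (n + 1) σ β p →
      ∫⁻ u : E3, (ENNReal.ofReal (ε ^ 2) * ‖β.2 - u‖ₑ) * F β (sis ε β u σ ξ) p ≤
        (ENNReal.ofReal (Ke b β) * ENNReal.ofReal (Real.exp (-b * ‖β.2‖ ^ 2))) *
          (FL.wt b ε (n + 1) p * h (lastPair S n β p))) :
    ∫⁻ β, ∫⁻ p, ∫⁻ m, F β m p ≤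
      K1.sig univ * (ENNReal.ofReal t * (ENNReal.ofReal (KB b t n) * pairG ε (b / 4) 0 t h)) := by
  have hKe : Measurable fun β : Ph => ENNReal.ofReal (Ke b β) *
      ENNReal.ofReal (Real.exp (-b * ‖β.2‖ ^ 2)) := by
    unfold Ke; fun_prop
  have hJ := measurable_jB (ε := ε) (b := b) (t := t) S n hh
  calc ∫⁻ β, ∫⁻ p, ∫⁻ m, F β m p
      ≤ ∫⁻ β, ∫⁻ p, K1.sig univ * ∫⁻ σ in Icc (0 : ℝ) t, (ENNReal.ofReal (Ke b β) *
        ENNReal.ofReal (Real.exp (-b * ‖β.2‖ ^ 2))) * jB ε b t S n h σ β p := by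
        refine lintegral_mono fun β => lintegral_mono fun p => ?_
        refine (caseB_one (t := t) hε (hF β p) β p (fun m hm => h0 β m p hm)
          (fun σ hσ ξ hξ hch => H σ hσ ξ hξ β p hch)).trans (le_of_eq ?_)
        congr 1
        refine lintegral_congr fun σ => ?_
        unfold jB
        by_cases hch : Chain ε t S (n + 1) σ β p
        · rw [indicator_of_mem (show p ∈ {p | Chain ε t S (n + 1) σ β p} from hch),
            indicator_of_mem (show p ∈ {p | Chain ε t S (n + 1) σ β p} from hch)]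
        · rw [indicator_of_notMem (show p ∉ {p | Chain ε t S (n + 1) σ β p} from hch),
            indicator_of_notMem (show p ∉ {p | Chain ε t S (n + 1) σ β p} from hch), mul_zero]
    _ = K1.sig univ * ∫⁻ σ in Icc (0 : ℝ) t, ∫⁻ β, (ENNReal.ofReal (Ke b β) *
        ENNReal.ofReal (Real.exp (-b * ‖β.2‖ ^ 2))) * inner' ε b t S n h σ β := by
        have h1 : ∀ β : Ph, ∫⁻ p, K1.sig univ * ∫⁻ σ in Icc (0 : ℝ) t, (ENNReal.ofReal (Ke b β) *
            ENNReal.ofReal (Real.exp (-b * ‖β.2‖ ^ 2))) * jB ε b t S n h σ β p =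
            K1.sig univ * ∫⁻ p, ∫⁻ σ in Icc (0 : ℝ) t, (ENNReal.ofReal (Ke b β) *
            ENNReal.ofReal (Real.exp (-b * ‖β.2‖ ^ 2))) * jB ε b t S n h σ β p := fun β =>
          lintegral_const_mul' _ _ (measure_ne_top K1.sig univ)
        simp_rw [h1]
        rw [lintegral_const_mul' _ _ (measure_ne_top K1.sig univ), swapB (t := t) hKe hJ]
        rfl
    _ ≤ K1.sig univ * ∫⁻ _ in Icc (0 : ℝ) t, (ENNReal.ofReal (KB b t n) *
          pairG ε (b / 4) 0 t h) := by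
        refine mul_le_mul' le_rfl (setLIntegral_mono' measurableSet_Icc fun σ hσ => ?_)
        exact caseB_mass hε hb hS hh hσ
    _ = _ := by
        rw [lintegral_const, Measure.restrict_apply_univ, Real.volume_Icc, sub_zero]
        ring

end Vale.Agent.P119.PB
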