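import Vale.Agent.P119.PB.SE2

/-!
# P119: second events, line level: from the last pair to the exhaust line (`helper778`)
-/

open MeasureTheory Set Filter Topology Metric ProbabilityTheory
open scoped ENNReal

namespace Vale.Agent.P119.PB

open KU FL

variable {Φ : E3 → ℝ} {ε b t δ : ℝ} {k : ℕ}

/-- Integral over sources `(birth, line)` with births in `(0, t]` and Gaussian velocities. -/
noncomputable def srcI (β t : ℝ) (θ : ℝ × Ph → ℝ≥0∞) : ℝ≥0∞ :=
  ∫⁻ τ in Ioc 0 t, ∫⁻ z : Ph, gw β z.2 * θ (τ, z)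

theorem gw_one_add (hb : 0 < b) (v : E3) :
    gw b v * ENNReal.ofReal (1 + ‖v‖) ≤ ENNReal.ofReal (1 + 1 / √b) * gw (b / 2) v := by
  unfold gw
  rw [← ENNReal.ofReal_mul (by positivity), ← ENNReal.ofReal_mul (by positivity)]
  apply ENNReal.ofReal_le_ofReal
  have h8 := one_add_le (b := b) (x := ‖v‖) (M := 1) hb le_rfl
  rw [Real.sqrt_one, one_mul, mul_one] at h8
  have h1 : Real.exp (-(b / 2) * ‖v‖ ^ 2) =
      Real.exp (b / 2 * ‖v‖ ^ 2) * Real.exp (-b * ‖v‖ ^ 2) := by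
    rw [← Real.exp_add]; congr 1; ring
  rw [h1]
  calc Real.exp (-b * ‖v‖ ^ 2) * (1 + ‖v‖)
      ≤ Real.exp (-b * ‖v‖ ^ 2) * ((1 + 1 / √b) * Real.exp (b / 2 * ‖v‖ ^ 2)) := by gcongr
    _ = _ := by ring

/-- The constant of `pairG_out`. -/
noncomputable def KG (b : ℝ) : ℝ := Real.pi * (I0 b).toReal * (1 + 1 / √b)

theorem flux_const (hε : 0 < ε) (hb : 0 < b) {β s t : ℝ} {θ : ℝ × Ph → ℝ≥0∞} (hs : 0 ≤ s)
    (hβ : b ≤ β) :
    muE ε * (ENNReal.ofReal (ε ^ 2) * (ENNReal.ofReal Real.pi * I0 b) *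
        ∫⁻ τ in Ioc s t, ∫⁻ z : Ph, gw β z.2 * ENNReal.ofReal (1 + ‖z.2‖) * θ (τ, z)) ≤
      ENNReal.ofReal (KG b) * srcI (β - b / 2) t θ := by
  have hI : I0 b = ENNReal.ofReal (I0 b).toReal := (ENNReal.ofReal_toReal (I0_ne_top hb)).symm
  have h1 : ∀ z : Ph, gw β z.2 * ENNReal.ofReal (1 + ‖z.2‖) ≤
      ENNReal.ofReal (1 + 1 / √b) * gw (β - b / 2) z.2 := by
    intro z
    have h2 : gw β z.2 = gw (β - b) z.2 * gw b z.2 := by
      unfold gw
      rw [← ENNReal.ofReal_mul (Real.exp_nonneg _), ← Real.exp_add]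
      congr 2; ring
    have h3 : gw (β - b / 2) z.2 = gw (β - b) z.2 * gw (b / 2) z.2 := by
      unfold gw
      rw [← ENNReal.ofReal_mul (Real.exp_nonneg _), ← Real.exp_add]
      congr 2; ring
    rw [h2, h3, mul_assoc, mul_left_comm (ENNReal.ofReal (1 + 1 / √b))]
    exact mul_le_mul' le_rfl (gw_one_add hb z.2)
  have h2 : ∫⁻ τ in Ioc s t, ∫⁻ z : Ph, gw β z.2 * ENNReal.ofReal (1 + ‖z.2‖) * θ (τ, z) ≤
      ENNReal.ofReal (1 + 1 / √b) * srcI (β - b / 2) t θ := by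
    unfold srcI
    rw [← lintegral_const_mul' _ _ ENNReal.ofReal_ne_top]
    refine (lintegral_mono_set (Ioc_subset_Ioc_left hs)).trans (lintegral_mono fun τ => ?_)
    rw [← lintegral_const_mul' _ _ ENNReal.ofReal_ne_top]
    refine lintegral_mono fun z => ?_
    simp only
    rw [← mul_assoc]
    exact mul_le_mul' (h1 z) le_rfl
  calc _ ≤ muE ε * (ENNReal.ofReal (ε ^ 2) * (ENNReal.ofReal Real.pi * I0 b) *
        (ENNReal.ofReal (1 + 1 / √b) * srcI (β - b / 2) t θ)) := by gcongr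
    _ = (muE ε * ENNReal.ofReal (ε ^ 2)) * (ENNReal.ofReal Real.pi *
        ENNReal.ofReal (I0 b).toReal * ENNReal.ofReal (1 + 1 / √b)) *
          srcI (β - b / 2) t θ := by rw [← hI]; ring
    _ = _ := by
        rw [muE_mul hε, one_mul, ← ENNReal.ofReal_mul Real.pi_pos.le,
          ← ENNReal.ofReal_mul (by positivity)]
        rfl

theorem pairG_le {β s t : ℝ} (G : Ph × Ph → ℝ≥0∞) {H : Ph × Ph → ℝ≥0∞}
    (hG : ∀ q, Meets ε q → s < hitT ε q → hitT ε q < t → G q ≤ H q) :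
    pairG ε β s t G ≤ muE ε * ∫⁻ q in {q : Ph × Ph | Meets ε q ∧ s < hitT ε q},
      gw β q.1.2 * gw β q.2.2 * H q := by
  unfold pairG
  refine mul_le_mul' le_rfl ?_
  have hMs : MeasurableSet {q : Ph × Ph | Meets ε q} := measurableSet_meets
  have hS : MeasurableSet {q : Ph × Ph | Meets ε q ∧ s < hitT ε q} :=
    hMs.inter (measurableSet_lt measurable_const measurable_hitT)
  rw [← lintegral_indicator hS, ← lintegral_indicator hMs]
  refine lintegral_mono fun q => ?_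
  by_cases h : Meets ε q
  swap
  · rw [indicator_of_notMem (show q ∉ {q : Ph × Ph | Meets ε q} from h)]
    exact zero_le
  rw [indicator_of_mem (show q ∈ {q : Ph × Ph | Meets ε q} from h)]
  by_cases h2 : hitT ε q ∈ Ioo s t
  · rw [indicator_of_mem h2, indicator_of_mem
      (show q ∈ {q : Ph × Ph | Meets ε q ∧ s < hitT ε q} from ⟨h, h2.1⟩)]
    have h3 : ENNReal.ofReal (Real.exp (-β * (‖q.1.2‖ ^ 2 + ‖q.2.2‖ ^ 2))) =
        gw β q.1.2 * gw β q.2.2 := by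
      unfold gw
      rw [← ENNReal.ofReal_mul (Real.exp_nonneg _), ← Real.exp_add]
      congr 2; ring
    rw [h3]
    exact mul_le_mul' le_rfl (hG q h h2.1 h2.2)
  · rw [indicator_of_notMem h2, mul_zero]
    exact zero_le

/-- The last pair produces the exhaust `e = (sepT, out1)`. -/
theorem pairG_out1 (hΦ : IsPotential Φ) (hε : 0 < ε) (hb : 0 < b) {β s t : ℝ} (hs : 0 ≤ s)
    (hβ : b ≤ β) {G : Ph × Ph → ℝ≥0∞} {θ : ℝ × Ph → ℝ≥0∞} (hθ : Measurable θ)
    (hG : ∀ q, G q ≤ (Iic t).indicator (fun τ => θ (τ, (sc2 Φ ε q).1)) (sepT Φ ε q)) :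
    pairG ε β s t G ≤ ENNReal.ofReal (KG b) * srcI (β - b / 2) t θ := by
  refine (pairG_le G (H := fun q => (Iic t).indicator (fun τ => θ (τ, (sc2 Φ ε q).1))
    (sepT Φ ε q)) fun q _ _ _ => hG q).trans ?_
  exact (mul_le_mul' le_rfl (flux_out1 hΦ hε hb hβ le_rfl hθ)).trans (flux_const hε hb hs hβ)

/-- The last pair produces the exhaust `e = (sepT, out2)`. -/
theorem pairG_out2 (hΦ : IsPotential Φ) (hε : 0 < ε) (hb : 0 < b) {β s t : ℝ} (hs : 0 ≤ s)
    (hβ : b ≤ β) {G : Ph × Ph → ℝ≥0∞} {θ : ℝ × Ph → ℝ≥0∞} (hθ : Measurable θ)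
    (hG : ∀ q, G q ≤ (Iic t).indicator (fun τ => θ (τ, (sc2 Φ ε q).2)) (sepT Φ ε q)) :
    pairG ε β s t G ≤ ENNReal.ofReal (KG b) * srcI (β - b / 2) t θ := by
  refine (pairG_le G (H := fun q => (Iic t).indicator (fun τ => θ (τ, (sc2 Φ ε q).2))
    (sepT Φ ε q)) fun q _ _ _ => hG q).trans ?_
  exact (mul_le_mul' le_rfl (flux_out2 hΦ hε hb hβ le_rfl hθ)).trans (flux_const hε hb hs hβ)

end Vale.Agent.P119.PB
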