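import Vale.Agent.P119.PB.SE3
import Vale.Agent.P119.FL.Front

/-!
# P119: second events, line level: families of targets (`helper778`)

For a fixed exit time `σ` and impact parameter `ξ` the contact events are measurable, so no
measurability of the integrand is needed.
-/

open MeasureTheory Set Filter Topology Metric ProbabilityTheory
open scoped ENNReal

namespace Vale.Agent.P119.PB

open KU FL

variable {Φ : E3 → ℝ} {ε b t δ : ℝ} {k : ℕ}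

/-- `sister_param` as an upper bound, without measurability. -/
theorem sister_param_le (hε : 0 < ε) (e : Ph) {F : Ph → ℝ≥0∞}
    (h0 : ∀ β, F β ≠ 0 → Meets ε (e, β) ∧ exT ε (e, β) ∈ Icc 0 t) :
    ∫⁻ β, F β ≤ ∫⁻ σ in Icc (0 : ℝ) t, ∫⁻ ξ, (∫⁻ u : E3, (ENNReal.ofReal (ε ^ 2) * ‖e.2 - u‖ₑ) *
      F (sis ε e u σ ξ)) ∂K1.sig := by
  obtain ⟨g, hg, hgF, hgi⟩ := exists_measurable_le_lintegral_eq (volume : Measure Ph) F
  rw [hgi, sister_param (t := t) hε e hg fun β hβ => h0 β fun h => hβ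
    (nonpos_iff_eq_zero.1 (h ▸ hgF β))]
  gcongr with σ ξ u
  exact hgF _

/-- **Case A** without measurability. -/
theorem caseA' (hε : 0 < ε) {F : Ph → Ph → ℝ≥0∞}
    (h0 : ∀ e β, F e β ≠ 0 → Meets ε (e, β) ∧ exT ε (e, β) ∈ Icc 0 t) {h : Ph → ℝ → ℝ≥0∞}
    (H : ∀ e, ∀ σ ∈ Icc (0 : ℝ) t, ∀ ξ ∈ K1.disc K1.e0,
      ∫⁻ u : E3, (ENNReal.ofReal (ε ^ 2) * ‖e.2 - u‖ₑ) * F e (sis ε e u σ ξ) ≤ h e σ) :
    ∫⁻ e, ∫⁻ β, F e β ≤ K1.sig univ * ∫⁻ e, ∫⁻ σ in Icc (0 : ℝ) t, h e σ := by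
  rw [← lintegral_const_mul' _ _ (measure_ne_top K1.sig univ)]
  refine lintegral_mono fun e => ?_
  exact (sister_param_le (t := t) hε e (h0 e)).trans (param_le (H e))

/-- The constant of the flux at lag `≥ δ`. -/
noncomputable def cL (b c₁ δ t : ℝ) (m : ℕ) : ℝ≥0∞ :=
  (ENNReal.ofReal ((4 * √(m + 1) / δ) ^ 3) * cF (b / 2) c₁) *
    ENNReal.ofReal (D1 (b / 2) * ((Kc (b / 2 / 4) * t) ^ m / √(m.factorial : ℝ)))

theorem cL_ne_top (b c₁ δ t : ℝ) (m : ℕ) : cL b c₁ δ t m ≠ ∞ :=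
  ENNReal.mul_ne_top (ENNReal.mul_ne_top ENNReal.ofReal_ne_top cF_ne_top) ENNReal.ofReal_ne_top

theorem B1_le_cL {s c₁ : ℝ} (hε : 0 < ε) (hδ : 0 < δ) (hs : 0 ≤ s) (hst : s ≤ t) {m : ℕ}
    (T : Target t) : FL.B1 ε (b / 2) s T.a t δ 1 c₁ m T.y' ≤
      ENNReal.ofReal (ε ^ 2) * cL b c₁ δ t m * T.w ε := by
  refine (B1_le (b := b / 2) (s := s) (c₁ := c₁) hε hδ (m := m) T).trans ?_
  unfold cL
  have h0 : 0 ≤ Kc (b / 2 / 4) * (t - s) := mul_nonneg (Kc_nonneg _) (by linarith)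
  have h1 : (Kc (b / 2 / 4) * (t - s)) ^ m ≤ (Kc (b / 2 / 4) * t) ^ m :=
    pow_le_pow_left₀ h0 (mul_le_mul_of_nonneg_left (by linarith) (Kc_nonneg _)) m
  have h2 := D1_nonneg (b / 2)
  calc _ ≤ ENNReal.ofReal (ε ^ 2) *
      (ENNReal.ofReal ((4 * √(m + 1) / δ) ^ 3) * cF (b / 2) c₁) *
      ENNReal.ofReal (D1 (b / 2) * ((Kc (b / 2 / 4) * t) ^ m / √(m.factorial : ℝ))) * T.w ε := by
        gcongr
    _ = _ := by ring

/-- The flux of the sister of `e` into one target, for a fixed exit time and impact parameter. -/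
theorem sis_target {c₁ : ℝ} (hε : 0 < ε) (hb : 0 < b) (hδ : 0 < δ) (hc₁ : 0 ≤ c₁) {m : ℕ}
    {S : ℕ → Step} {P : ChainPath ε t S m c₁} (hP : P.Good) (e : Ph) {σ : ℝ} {ξ : E3}
    (hσ : σ ∈ Icc 0 t) (hξ : ξ ∈ K1.disc K1.e0) (T : Target t) {g : ℝ≥0∞} (hg : g ≠ ∞) :
    ∫⁻ u : E3, ∫⁻ p, (ENNReal.ofReal (ε ^ 2) * ‖e.2 - u‖ₑ) *
      (ctc P σ (max T.a (σ + δ)) T.Y).indicator (fun q => g * (muE ε *
        ENNReal.ofReal (Real.exp (-b * ‖q.1.2‖ ^ 2)) * FL.wt b ε m q.2)) (sis ε e u σ ξ, p) ≤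
      g * (ENNReal.ofReal (Ke b e) * (ENNReal.ofReal (ε ^ 2) * cL b c₁ δ t m * T.w ε)) := by
  have hm : MeasurableSet (ctc P σ (max T.a (σ + δ)) T.Y) :=
    measurableSet_ctc hP (T.cont.mono (Icc_subset_Icc_left (le_max_left _ _)))
  have hΨm : Measurable fun q : Ph × (Fin m → Ph) =>
      (ctc P σ (max T.a (σ + δ)) T.Y).indicator (fun q => g * (muE ε *
        ENNReal.ofReal (Real.exp (-b * ‖q.1.2‖ ^ 2)) * FL.wt b ε m q.2)) (q.1, q.2) :=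
    ((measurable_sw b ε m).const_mul g).indicator hm
  have h1 := sister_aux hε hb hδ hc₁ P e hσ hξ T.cont T.speed T.meas hg
    (Ψ := fun β p => (ctc P σ (max T.a (σ + δ)) T.Y).indicator (fun q => g * (muE ε *
        ENNReal.ofReal (Real.exp (-b * ‖q.1.2‖ ^ 2)) * FL.wt b ε m q.2)) (β, p)) hΨm
    (by
      intro β p _ hne
      have hq : (β, p) ∈ ctc P σ (max T.a (σ + δ)) T.Y := by
        by_contra h
        exact hne (indicator_of_notMem h _)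
      refine ⟨hq.1, hq.2, ?_⟩
      simp only [indicator_of_mem hq]
      exact le_rfl)
  refine h1.trans ?_
  gcongr
  exact B1_le_cL hε hδ hσ.1 hσ.2 T

/-- The flux of the sister of `e` into a family of targets, for a fixed exit time and impact
parameter.  No measurability of `Ψ`. -/
theorem sis_family {c₁ : ℝ} (hε : 0 < ε) (hb : 0 < b) (hδ : 0 < δ) (hc₁ : 0 ≤ c₁) {m : ℕ}
    {S : ℕ → Step} {P : ChainPath ε t S m c₁} (hP : P.Good) (e : Ph) {σ : ℝ} {ξ : E3}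
    (hσ : σ ∈ Icc 0 t) (hξ : ξ ∈ K1.disc K1.e0) {ι : Type*} (I : Finset ι) (T : ι → Target t)
    {g : ℝ≥0∞} (hg : g ≠ ∞) {Ψ : Ph → (Fin m → Ph) → ℝ≥0∞}
    (hΨ : ∀ β p, exT ε (e, β) = σ → Ψ β p ≠ 0 →
      (∃ i ∈ I, (β, p) ∈ ctc P σ (max (T i).a (σ + δ)) (T i).Y) ∧
      Ψ β p ≤ g * (muE ε * ENNReal.ofReal (Real.exp (-b * ‖β.2‖ ^ 2)) * FL.wt b ε m p)) :
    ∫⁻ u : E3, ∫⁻ p, (ENNReal.ofReal (ε ^ 2) * ‖e.2 - u‖ₑ) * Ψ (sis ε e u σ ξ) p ≤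
      g * (ENNReal.ofReal (Ke b e) * (ENNReal.ofReal (ε ^ 2) * cL b c₁ δ t m *
        ∑ i ∈ I, (T i).w ε)) := by
  set G : Ph × (Fin m → Ph) → ℝ≥0∞ := fun q => g * (muE ε *
        ENNReal.ofReal (Real.exp (-b * ‖q.1.2‖ ^ 2)) * FL.wt b ε m q.2) with hG
  have hGm : Measurable G := (measurable_sw b ε m).const_mul g
  set A : ι → Set (Ph × (Fin m → Ph)) := fun i => ctc P σ (max (T i).a (σ + δ)) (T i).Y with hA
  have hAm : ∀ i, MeasurableSet (A i) := fun i =>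
    measurableSet_ctc hP ((T i).cont.mono (Icc_subset_Icc_left (le_max_left _ _)))
  have h1 : ∀ (u : E3) (p : Fin m → Ph),
      (ENNReal.ofReal (ε ^ 2) * ‖e.2 - u‖ₑ) * Ψ (sis ε e u σ ξ) p ≤
      ∑ i ∈ I, (ENNReal.ofReal (ε ^ 2) * ‖e.2 - u‖ₑ) *
        (A i).indicator G (sis ε e u σ ξ, p) := by
    intro u p
    by_cases hV : e.2 - u = 0
    · simp [hV]
    by_cases h0 : Ψ (sis ε e u σ ξ) p = 0
    · rw [h0, mul_zero]; exact zero_le
    obtain ⟨⟨i, hi, h2⟩, h3⟩ := hΨ _ p (exT_sis hε.ne' e hV σ hξ) h0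
    rw [← Finset.mul_sum]
    refine mul_le_mul' le_rfl (h3.trans ?_)
    calc G (sis ε e u σ ξ, p) = (A i).indicator G (sis ε e u σ ξ, p) :=
          (indicator_of_mem h2 _).symm
      _ ≤ _ := Finset.single_le_sum (f := fun i => (A i).indicator G (sis ε e u σ ξ, p))
        (fun _ _ => zero_le) hi
  have hsu : Measurable fun u : E3 => sis ε e u σ ξ := measurable_sis_u e σ ξ
  have hm : ∀ i, Measurable fun q : E3 × (Fin m → Ph) =>
      (ENNReal.ofReal (ε ^ 2) * ‖e.2 - q.1‖ₑ) * (A i).indicator G (sis ε e q.1 σ ξ, q.2) := by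
    intro i
    refine Measurable.mul (by fun_prop) ?_
    exact (hGm.indicator (hAm i)).comp ((hsu.comp measurable_fst).prodMk measurable_snd)
  calc ∫⁻ u : E3, ∫⁻ p, (ENNReal.ofReal (ε ^ 2) * ‖e.2 - u‖ₑ) * Ψ (sis ε e u σ ξ) p
      ≤ ∫⁻ u : E3, ∫⁻ p, ∑ i ∈ I, (ENNReal.ofReal (ε ^ 2) * ‖e.2 - u‖ₑ) *
        (A i).indicator G (sis ε e u σ ξ, p) :=
        lintegral_mono fun u => lintegral_mono fun p => h1 u p
    _ = ∫⁻ u : E3, ∑ i ∈ I, ∫⁻ p, (ENNReal.ofReal (ε ^ 2) * ‖e.2 - u‖ₑ) *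
        (A i).indicator G (sis ε e u σ ξ, p) := by
        refine lintegral_congr fun u => ?_
        exact lintegral_finsetSum' _ fun i hi =>
          ((hm i).comp (measurable_const.prodMk measurable_id)).aemeasurable
    _ = ∑ i ∈ I, ∫⁻ u : E3, ∫⁻ p, (ENNReal.ofReal (ε ^ 2) * ‖e.2 - u‖ₑ) *
        (A i).indicator G (sis ε e u σ ξ, p) :=
        lintegral_finsetSum' _ fun i hi => ((hm i).lintegral_prod_right').aemeasurable
    _ ≤ ∑ i ∈ I, g * (ENNReal.ofReal (Ke b e) *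
        (ENNReal.ofReal (ε ^ 2) * cL b c₁ δ t m * (T i).w ε)) :=
        Finset.sum_le_sum fun i _ => sis_target hε hb hδ hc₁ hP e hσ hξ (T i) hg
    _ = _ := by
        rw [← Finset.mul_sum, ← Finset.mul_sum, ← Finset.mul_sum]

end Vale.Agent.P119.PB
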