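import Vale.Agent.P119.PB.SE4

/-!
# P119: second events, line level: masses and case C (`helper778`)
-/

open MeasureTheory Set Filter Topology Metric ProbabilityTheory
open scoped ENNReal

namespace Vale.Agent.P119.PB

open KU FL

variable {Φ : E3 → ℝ} {ε b t δ : ℝ} {k : ℕ}

/-- The velocity weight of the last line of a chain. -/
theorem weight_line (hb : 0 < b) (S : ℕ → Step) (m : ℕ) (l : Ph) (p : Fin m → Ph) :
    ENNReal.ofReal (1 + ‖(line S m l p).2‖) *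
      (ENNReal.ofReal (Real.exp (-b * ‖l.2‖ ^ 2)) * FL.wt b ε m p) ≤
    ENNReal.ofReal (1 + 1 / √b) *
      (ENNReal.ofReal (Real.exp (-(b / 2) * ‖l.2‖ ^ 2)) * FL.wt (b / 2) ε m p) := by
  rw [wt_eq_exp, wt_eq_exp, mul_left_comm, mul_left_comm (ENNReal.ofReal (1 + 1 / √b))]
  refine mul_le_mul' le_rfl ?_
  rw [← ENNReal.ofReal_mul (by positivity), ← ENNReal.ofReal_mul (by positivity)]
  apply ENNReal.ofReal_le_ofReal
  have h0 := E0_nonneg l.2 p
  have h1 : ‖(line S m l p).2‖ ≤ √(E0 l.2 p) := Real.le_sqrt_of_sq_le (line_energy m S l p)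
  have h8 := one_add_le (b := b) (x := √(E0 l.2 p)) (M := 1) hb le_rfl
  rw [Real.sqrt_one, one_mul, mul_one, Real.sq_sqrt h0] at h8
  have h2 : Real.exp (-(b / 2) * E0 l.2 p) =
      Real.exp (b / 2 * E0 l.2 p) * Real.exp (-b * E0 l.2 p) := by
    rw [← Real.exp_add]; congr 1; ring
  rw [h2]
  calc (1 + ‖(line S m l p).2‖) * Real.exp (-b * E0 l.2 p)
      ≤ ((1 + 1 / √b) * Real.exp (b / 2 * E0 l.2 p)) * Real.exp (-b * E0 l.2 p) := by
        gcongr
        linarith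
    _ = _ := by ring

/-- The mass of chains started by a given line. -/
noncomputable def cM (b t : ℝ) (m : ℕ) : ℝ≥0∞ :=
  I0 (b / 2) * ENNReal.ofReal ((Kc b * t) ^ m / √(m.factorial : ℝ))

theorem cM_ne_top (hb : 0 < b) (m : ℕ) : cM b t m ≠ ∞ :=
  ENNReal.mul_ne_top (I0_ne_top (by positivity)) ENNReal.ofReal_ne_top

/-- `chain_mass` with the horizon in the constant. -/
theorem chain_mass' (hε : 0 < ε) (hb : 0 < b) (m : ℕ) (S : ℕ → Step) {s : ℝ} (hs : s ∈ Icc 0 t)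
    (l : Ph) : ∫⁻ p : Fin m → Ph, {p | Chain ε t S m s l p}.indicator (FL.wt b ε m) p ≤
      ENNReal.ofReal ((Kc b * t) ^ m / √(m.factorial : ℝ)) *
        ENNReal.ofReal (Real.exp (b / 2 * ‖l.2‖ ^ 2)) := by
  refine (chain_mass hε hb m S s l hs.2).trans ?_
  have h0 : 0 ≤ Kc b * (t - s) := mul_nonneg (Kc_nonneg _) (by linarith [hs.2])
  have h1 : (Kc b * (t - s)) ^ m ≤ (Kc b * t) ^ m :=
    pow_le_pow_left₀ h0 (mul_le_mul_of_nonneg_left (by linarith [hs.1]) (Kc_nonneg _)) m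
  have h2 : 0 ≤ (Kc b * t) ^ m / √(m.factorial : ℝ) :=
    div_nonneg ((pow_nonneg h0 m).trans h1) (Real.sqrt_nonneg _)
  rw [← ENNReal.ofReal_mul h2]
  gcongr

theorem measurableSet_chain_p {ε t : ℝ} {S : ℕ → Step} {m : ℕ} (s : ℝ) (l : Ph) :
    MeasurableSet {p : Fin m → Ph | Chain ε t S m s l p} := by
  have h0 : Measurable fun p : Fin m → Ph => (s, l, p) := by fun_prop
  exact h0 (measurableSet_chain m S)

/-- The mass of the sister of `e` with its chain, for a fixed exit time and impact parameter. -/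
theorem sis_mass (hε : 0 < ε) (hb : 0 < b) {m : ℕ} {S : ℕ → Step} (e : Ph) {σ : ℝ} {ξ : E3}
    (hσ : σ ∈ Icc 0 t) (hξ : ξ ∈ K1.disc K1.e0) {g : ℝ≥0∞}
    {Ψ : Ph → (Fin m → Ph) → ℝ≥0∞}
    (hΨ : ∀ β p, exT ε (e, β) = σ → Ψ β p ≠ 0 → Chain ε t S m σ β p ∧
      Ψ β p ≤ g * (muE ε * ENNReal.ofReal (Real.exp (-b * ‖β.2‖ ^ 2)) * FL.wt b ε m p)) :
    ∫⁻ u : E3, ∫⁻ p, (ENNReal.ofReal (ε ^ 2) * ‖e.2 - u‖ₑ) * Ψ (sis ε e u σ ξ) p ≤
      g * (ENNReal.ofReal (1 + ‖e.2‖) * cM b t m) := by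
  set C : ℝ≥0∞ := ENNReal.ofReal ((Kc b * t) ^ m / √(m.factorial : ℝ)) with hC
  have h1 : ∀ u : E3, ∫⁻ p, (ENNReal.ofReal (ε ^ 2) * ‖e.2 - u‖ₑ) * Ψ (sis ε e u σ ξ) p ≤
      (g * C) * (‖e.2 - u‖ₑ * ENNReal.ofReal (Real.exp (-(b / 2) * ‖u‖ ^ 2))) := by
    intro u
    by_cases hV : e.2 - u = 0
    · simp [hV]
    set β := sis ε e u σ ξ with hβ
    have hex : exT ε (e, β) = σ := exT_sis hε.ne' e hV σ hξ
    have hβ2 : β.2 = u := sis_snd e u σ ξ
    rw [lintegral_const_mul' _ _ (ENNReal.mul_ne_top ENNReal.ofReal_ne_top enorm_ne_top)]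
    have h2 : ∫⁻ p, Ψ β p ≤ (g * (muE ε * ENNReal.ofReal (Real.exp (-b * ‖u‖ ^ 2)))) *
        ∫⁻ p : Fin m → Ph, {p | Chain ε t S m σ β p}.indicator (FL.wt b ε m) p := by
      rw [← lintegral_const_mul _ ((FL.measurable_wt b ε m).indicator (measurableSet_chain_p σ β))]
      refine lintegral_mono fun p => ?_
      by_cases h0 : Ψ β p = 0
      · rw [h0]; exact zero_le
      obtain ⟨h3, h4⟩ := hΨ β p hex h0
      rw [indicator_of_mem (show p ∈ {p | Chain ε t S m σ β p} from h3)]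
      refine h4.trans (le_of_eq ?_)
      rw [hβ2]; ring
    have h5 : ENNReal.ofReal (Real.exp (-b * ‖u‖ ^ 2)) *
        ENNReal.ofReal (Real.exp (b / 2 * ‖u‖ ^ 2)) =
        ENNReal.ofReal (Real.exp (-(b / 2) * ‖u‖ ^ 2)) := by
      rw [← ENNReal.ofReal_mul (Real.exp_nonneg _), ← Real.exp_add]
      congr 2; ring
    calc (ENNReal.ofReal (ε ^ 2) * ‖e.2 - u‖ₑ) * ∫⁻ p, Ψ β p
        ≤ (ENNReal.ofReal (ε ^ 2) * ‖e.2 - u‖ₑ) *
          ((g * (muE ε * ENNReal.ofReal (Real.exp (-b * ‖u‖ ^ 2)))) *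
            (C * ENNReal.ofReal (Real.exp (b / 2 * ‖u‖ ^ 2)))) := by
          refine mul_le_mul' le_rfl (h2.trans (mul_le_mul' le_rfl ?_))
          have := chain_mass' (t := t) hε hb m S hσ β
          rw [hβ2] at this
          exact this
      _ = (muE ε * ENNReal.ofReal (ε ^ 2)) * ((g * C) * (‖e.2 - u‖ₑ *
          (ENNReal.ofReal (Real.exp (-b * ‖u‖ ^ 2)) *
            ENNReal.ofReal (Real.exp (b / 2 * ‖u‖ ^ 2))))) := by ring
      _ = _ := by rw [muE_mul hε, one_mul, h5]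
  refine (lintegral_mono h1).trans ?_
  rw [lintegral_const_mul _ (by fun_prop)]
  have h6 := lintegral_vel_le' (b := b / 2) (β := b / 2) (by positivity) le_rfl e.2
  calc (g * C) * ∫⁻ u : E3, ‖e.2 - u‖ₑ * ENNReal.ofReal (Real.exp (-(b / 2) * ‖u‖ ^ 2))
      ≤ (g * C) * (ENNReal.ofReal (1 + ‖e.2‖) * I0 (b / 2)) := by gcongr
    _ = _ := by unfold cM; ring

/-! ### Joint measurability of the contact events in the starting time -/

theorem measurableSet_ctc_s {ε t : ℝ} {S : ℕ → Step} {m : ℕ} {c₁ : ℝ} {P : ChainPath ε t S m c₁}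
    (hP : P.Good) {a : ℝ} {Y : ℝ → E3} (hY : ContinuousOn Y (Icc a t)) :
    MeasurableSet {z : ℝ × (Ph × (Fin m → Ph)) | z.2 ∈ ctc P z.1 a Y} := by
  rcases lt_or_ge t a with hta | hat
  · have : {z : ℝ × (Ph × (Fin m → Ph)) | z.2 ∈ ctc P z.1 a Y} = ∅ := by
      ext z
      simp only [ctc, mem_ofPred_eq, mem_empty_iff_false, iff_false, not_and]
      rintro - ⟨τ, h1, -⟩
      have := (le_max_left a _).trans (h1.1.trans h1.2)
      linarith
    rw [this]
    exact MeasurableSet.empty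
  have hYc : Continuous fun τ : ℝ => Y (max a (min t τ)) := by
    have h1 : Continuous fun τ : ℝ => max a (min t τ) := by fun_prop
    refine hY.comp_continuous h1 fun τ => ⟨le_max_left _ _, max_le hat (min_le_left _ _)⟩
  have htm : Measurable fun z : ℝ × (Ph × (Fin m → Ph)) => time ε S m z.1 z.2.1 z.2.2 :=
    measurable_time m S
  have hcm : MeasurableSet {z : ℝ × (Ph × (Fin m → Ph)) | Chain ε t S m z.1 z.2.1 z.2.2} :=
    measurableSet_chain m S
  have h1 : MeasurableSet {z : ℝ × (Ph × (Fin m → Ph)) |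
      ∃ τ, max a (time ε S m z.1 z.2.1 z.2.2) ≤ τ ∧ τ ≤ t ∧
      ‖P.X z.2.1 z.2.2 τ - Y (max a (min t τ))‖ - ε ≤ 0} := by
    refine MM.measurableSet_meet_closed (F := fun (z : ℝ × (Ph × (Fin m → Ph))) τ =>
      ‖P.X z.2.1 z.2.2 τ - Y (max a (min t τ))‖ - ε) ?_ ?_ ?_ measurable_const
    · intro τ
      have h2 := (hP.meas τ).comp (measurable_snd :
        Measurable fun z : ℝ × (Ph × (Fin m → Ph)) => z.2)
      exact (h2.sub measurable_const).norm.sub measurable_const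
    · intro z
      exact ((hP.cont z.2).sub hYc).norm.sub continuous_const
    · exact measurable_const.max htm
  refine (hcm.inter h1).congr ?_
  ext z
  simp only [ctc, mem_inter_iff, mem_ofPred_eq]
  refine and_congr_right fun _ => ⟨?_, ?_⟩
  · rintro ⟨τ, b1, b2, b3⟩
    refine ⟨τ, ⟨b1, b2⟩, ?_⟩
    rw [min_eq_right b2, max_eq_right ((le_max_left a _).trans b1)] at b3
    linarith
  · rintro ⟨τ, ⟨b1, b2⟩, b3⟩
    refine ⟨τ, b1, b2, ?_⟩
    rw [min_eq_right b2, max_eq_right ((le_max_left a _).trans b1)]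
    linarith

/-- The mass of the chains of `m` in contact with one of the targets. -/
noncomputable def rr {c₁ : ℝ} {S : ℕ → Step} {j : ℕ} (b : ℝ) (P : ChainPath ε t S j c₁)
    {ι : Type*} (I : Finset ι) (T : ι → Target t) (σ : ℝ) (m : Ph) : ℝ≥0∞ :=
  ∑ i ∈ I, ∫⁻ p, (ctc P σ (T i).a (T i).Y).indicator (fun q => FL.wt b ε j q.2) (m, p)

theorem measurable_rr {c₁ : ℝ} {S : ℕ → Step} {j : ℕ} {P : ChainPath ε t S j c₁} (hP : P.Good)
    {ι : Type*} (I : Finset ι) (T : ι → Target t) :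
    Measurable fun z : ℝ × Ph => rr b P I T z.1 z.2 := by
  unfold rr
  refine Finset.measurable_sum _ fun i _ => ?_
  have h1 := measurableSet_ctc_s hP (T i).cont
  have h2 : Measurable fun z : ℝ × (Ph × (Fin j → Ph)) => FL.wt b ε j z.2.2 :=
    (FL.measurable_wt b ε j).comp measurable_snd.snd
  have h3 := h2.indicator h1
  have h4 : Measurable fun z : (ℝ × Ph) × (Fin j → Ph) =>
      (ctc P z.1.1 (T i).a (T i).Y).indicator (fun q => FL.wt b ε j q.2) (z.1.2, z.2) :=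
    h3.comp (measurable_fst.fst.prodMk (measurable_fst.snd.prodMk measurable_snd))
  exact h4.lintegral_prod_right'

theorem rr_ne_top {c₁ : ℝ} {S : ℕ → Step} {j : ℕ} {P : ChainPath ε t S j c₁} (hε : 0 < ε)
    (hb : 0 < b) {ι : Type*} (I : Finset ι) (T : ι → Target t) {σ : ℝ} (hσ : σ ∈ Icc 0 t)
    (m : Ph) : rr b P I T σ m ≠ ∞ := by
  unfold rr
  rw [ENNReal.sum_ne_top]
  intro i _
  have h1 : ∫⁻ p, (ctc P σ (T i).a (T i).Y).indicator (fun q => FL.wt b ε j q.2) (m, p) ≤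
      ∫⁻ p : Fin j → Ph, {p | Chain ε t S j σ m p}.indicator (FL.wt b ε j) p := by
    refine lintegral_mono fun p => ?_
    by_cases h : (m, p) ∈ ctc P σ (T i).a (T i).Y
    · rw [indicator_of_mem h, indicator_of_mem (show p ∈ {p | Chain ε t S j σ m p} from h.1)]
    · rw [indicator_of_notMem h]; exact zero_le
  exact ((h1.trans (chain_mass' hε hb j S hσ m)).trans_lt
    (ENNReal.mul_lt_top ENNReal.ofReal_lt_top ENNReal.ofReal_lt_top)).ne

/-- The constant of the first-order flux. -/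
noncomputable def cF1 (b c₁ t : ℝ) (j : ℕ) : ℝ≥0∞ :=
  (8 * bv * cF b c₁) * ENNReal.ofReal (D2 b * ((Kc (b / 2) * t) ^ j / √(j.factorial : ℝ)))

theorem rr_flux {c₁ : ℝ} {S : ℕ → Step} {j : ℕ} {P : ChainPath ε t S j c₁} (hε : 0 < ε)
    (hb : 0 < b) (hc₁ : 0 ≤ c₁) (hP : P.Good) {ι : Type*} (I : Finset ι) (T : ι → Target t)
    {σ : ℝ} (hσ : σ ∈ Icc 0 t) :
    ∫⁻ m : Ph, ENNReal.ofReal (Real.exp (-b * ‖m.2‖ ^ 2)) * rr b P I T σ m ≤
      ENNReal.ofReal (ε ^ 2) * cF1 b c₁ t j * ∑ i ∈ I, (T i).w ε := by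
  unfold rr
  have hm : ∀ i, Measurable fun q : Ph × (Fin j → Ph) =>
      (ctc P σ (T i).a (T i).Y).indicator (fun q => FL.wt b ε j q.2) q := fun i =>
    ((FL.measurable_wt b ε j).comp measurable_snd).indicator (measurableSet_ctc hP (T i).cont)
  have h1 : ∀ m : Ph, ENNReal.ofReal (Real.exp (-b * ‖m.2‖ ^ 2)) *
      ∑ i ∈ I, ∫⁻ p, (ctc P σ (T i).a (T i).Y).indicator (fun q => FL.wt b ε j q.2) (m, p) =
      ∑ i ∈ I, ∫⁻ p, (ctc P σ (T i).a (T i).Y).indicator (fun q =>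
        ENNReal.ofReal (Real.exp (-b * ‖q.1.2‖ ^ 2)) * FL.wt b ε j q.2) (m, p) := by
    intro m
    rw [Finset.mul_sum]
    refine Finset.sum_congr rfl fun i _ => ?_
    rw [← lintegral_const_mul' _ _ ENNReal.ofReal_ne_top]
    refine lintegral_congr fun p => ?_
    by_cases h : (m, p) ∈ ctc P σ (T i).a (T i).Y
    · rw [indicator_of_mem h, indicator_of_mem h]
    · rw [indicator_of_notMem h, indicator_of_notMem h, mul_zero]
  simp_rw [h1]
  have hm2 : ∀ i, Measurable fun q : Ph × (Fin j → Ph) =>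
      (ctc P σ (T i).a (T i).Y).indicator (fun q =>
        ENNReal.ofReal (Real.exp (-b * ‖q.1.2‖ ^ 2)) * FL.wt b ε j q.2) (q.1, q.2) := fun i =>
    (measurable_ew b ε j).indicator (measurableSet_ctc hP (T i).cont)
  rw [lintegral_finsetSum' _ fun i _ => ((hm2 i).lintegral_prod_right').aemeasurable,
    Finset.mul_sum]
  refine Finset.sum_le_sum fun i _ => ?_
  refine (first_flux_set hε hb hc₁ hσ.2 hP (T i)).trans ?_
  unfold cF1
  have h0 : 0 ≤ Kc (b / 2) * (t - σ) := mul_nonneg (Kc_nonneg _) (by linarith [hσ.2])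
  have h2 : (Kc (b / 2) * (t - σ)) ^ j ≤ (Kc (b / 2) * t) ^ j :=
    pow_le_pow_left₀ h0 (mul_le_mul_of_nonneg_left (by linarith [hσ.1]) (Kc_nonneg _)) j
  have h3 := D2_nonneg b
  rw [mul_assoc (ENNReal.ofReal (ε ^ 2))]
  gcongr

end Vale.Agent.P119.PB
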