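import Vale.Agent.P119.PB.SE5

/-!
# P119: second events, line level: case C (`helper778`)

`x` is a given line (or target path); the line `m` is free, its sister `β` starts a chain whose last
line meets `x`.
-/

open MeasureTheory Set Filter Topology Metric ProbabilityTheory
open scoped ENNReal

namespace Vale.Agent.P119.PB

open KU FL

variable {Φ : E3 → ℝ} {ε b t δ : ℝ} {k : ℕ}

/-- Tonelli for `(m, σ)`. -/
theorem swap_ms {A : Ph → ℝ≥0∞} (hA : Measurable A) {r : ℝ → Ph → ℝ≥0∞}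
    (hr : Measurable fun z : ℝ × Ph => r z.1 z.2) :
    ∫⁻ m : Ph, ∫⁻ σ in Icc (0 : ℝ) t, A m * r σ m =
      ∫⁻ σ in Icc (0 : ℝ) t, ∫⁻ m : Ph, A m * r σ m := by
  have h1 : Measurable fun z : Ph × ℝ => A z.1 * r z.2 z.1 :=
    (hA.comp measurable_fst).mul (hr.comp measurable_swap)
  exact lintegral_lintegral_swap (f := fun m σ => A m * r σ m) h1.aemeasurable

/-- The constant of case C2. -/
noncomputable def cC2 (b c₁ δ t : ℝ) (n j : ℕ) : ℝ≥0∞ :=
  K1.sig univ * (ENNReal.ofReal t * (ENNReal.ofReal (√2 * (1 + 1 / √b) ^ 2) *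
    (cF1 (b / 2) c₁ t j * cL b 1 δ t n)))

/-- **Case C2**: the chain of the sister `β` of the free line `m` meets the path `X` at lag `≥ δ`,
and the chain of `m` meets one of the targets `T i`. -/
theorem caseC2 {c₁ : ℝ} (hε : 0 < ε) (hb : 0 < b) (hδ : 0 < δ) (hc₁ : 0 ≤ c₁) {n j : ℕ}
    {S S' : ℕ → Step} {P : ChainPath ε t S' j c₁} (hP : P.Good) {ι : Type*} (I : Finset ι)
    (T : ι → Target t) (X : Target t) {F : Ph → Ph → (Fin n → Ph) → (Fin j → Ph) → ℝ≥0∞}
    (hF : ∀ m β p q, F m β p q ≠ 0 → Meets ε (m, β) ∧ exT ε (m, β) ∈ Icc 0 t ∧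
      (β, p) ∈ ctc (linePath ε t S n) (exT ε (m, β)) (max X.a (exT ε (m, β) + δ)) X.Y ∧
      (∃ i ∈ I, (m, q) ∈ ctc P (exT ε (m, β)) (T i).a (T i).Y) ∧
      F m β p q ≤ (muE ε * ENNReal.ofReal (Real.exp (-b * ‖m.2‖ ^ 2)) * FL.wt b ε j q) *
        (muE ε * ENNReal.ofReal (Real.exp (-b * ‖β.2‖ ^ 2)) * FL.wt b ε n p)) :
    ∫⁻ m, ∫⁻ β, ∫⁻ p, ∫⁻ q, F m β p q ≤
      ENNReal.ofReal (ε ^ 2) * cC2 b c₁ δ t n j * (X.w ε * ∑ i ∈ I, (T i).w ε) := by
  have hrm := measurable_rr (b := b) hP I T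
  -- the integral over the chain of `m`
  have h1 : ∀ m β p, ∫⁻ q, F m β p q ≤
      (muE ε * ENNReal.ofReal (Real.exp (-b * ‖m.2‖ ^ 2)) * rr b P I T (exT ε (m, β)) m) *
        (muE ε * ENNReal.ofReal (Real.exp (-b * ‖β.2‖ ^ 2)) * FL.wt b ε n p) := by
    intro m β p
    set σ := exT ε (m, β) with hσ
    set A : ℝ≥0∞ := muE ε * ENNReal.ofReal (Real.exp (-b * ‖m.2‖ ^ 2)) with hA
    set B : ℝ≥0∞ := muE ε * ENNReal.ofReal (Real.exp (-b * ‖β.2‖ ^ 2)) * FL.wt b ε n p with hB
    have hm : ∀ i, Measurable fun q : Fin j → Ph =>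
        (ctc P σ (T i).a (T i).Y).indicator (fun q => FL.wt b ε j q.2) (m, q) := fun i =>
      (((FL.measurable_wt b ε j).comp measurable_snd).indicator
        (measurableSet_ctc hP (T i).cont)).comp (measurable_const.prodMk measurable_id)
    have h2 : ∀ q, F m β p q ≤ (A * B) * ∑ i ∈ I,
        (ctc P σ (T i).a (T i).Y).indicator (fun q => FL.wt b ε j q.2) (m, q) := by
      intro q
      by_cases h0 : F m β p q = 0
      · rw [h0]; exact zero_le
      obtain ⟨-, -, -, ⟨i, hi, h3⟩, h4⟩ := hF m β p q h0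
      refine h4.trans ?_
      calc (A * FL.wt b ε j q) * B = (A * B) * FL.wt b ε j q := by ring
        _ ≤ _ := by
            refine mul_le_mul' le_rfl ?_
            have h6 : FL.wt b ε j q = (ctc P σ (T i).a (T i).Y).indicator
                (fun q : Ph × (Fin j → Ph) => FL.wt b ε j q.2) (m, q) := by
              rw [indicator_of_mem h3]
            rw [h6]
            exact Finset.single_le_sum (f := fun i => (ctc P σ (T i).a (T i).Y).indicator
                (fun q : Ph × (Fin j → Ph) => FL.wt b ε j q.2) (m, q)) (fun _ _ => zero_le) hi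
    refine (lintegral_mono h2).trans (le_of_eq ?_)
    rw [lintegral_const_mul _ (Finset.measurable_sum _ fun i _ => hm i),
      lintegral_finsetSum' _ fun i _ => (hm i).aemeasurable]
    unfold rr
    ring
  -- for fixed `m`
  have h2 : ∀ m : Ph, ∫⁻ β, ∫⁻ p, ∫⁻ q, F m β p q ≤ K1.sig univ * ∫⁻ σ in Icc (0 : ℝ) t,
      (muE ε * ENNReal.ofReal (Real.exp (-b * ‖m.2‖ ^ 2)) * rr b P I T σ m) *
        (ENNReal.ofReal (Ke b m) * (ENNReal.ofReal (ε ^ 2) * cL b 1 δ t n * X.w ε)) := by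
    intro m
    have hex : ∀ β, (∫⁻ p, ∫⁻ q, F m β p q) ≠ 0 → ∃ p q, F m β p q ≠ 0 := by
      intro β h
      by_contra hcon
      push Not at hcon
      exact h (by simp [hcon])
    refine (sister_param_le (t := t) hε m fun β h => ?_).trans (param_le fun σ hσ ξ hξ => ?_)
    · obtain ⟨p, q, h3⟩ := hex β h
      exact ⟨(hF m β p q h3).1, (hF m β p q h3).2.1⟩
    · have hg : muE ε * ENNReal.ofReal (Real.exp (-b * ‖m.2‖ ^ 2)) * rr b P I T σ m ≠ ∞ :=
        ENNReal.mul_ne_top (ENNReal.mul_ne_top muE_ne_top ENNReal.ofReal_ne_top)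
          (rr_ne_top hε hb I T hσ m)
      have h3 := sis_family hε hb hδ zero_le_one (good_linePath ε t S n) m hσ hξ
        (Finset.univ : Finset Unit) (fun _ => X) hg (Ψ := fun β p => ∫⁻ q, F m β p q)
        (by
          intro β p hβ hne
          obtain ⟨q, hq⟩ : ∃ q, F m β p q ≠ 0 := by
            by_contra hcon
            push Not at hcon
            exact hne (by simp [hcon])
          have h4 := hF m β p q hq
          rw [hβ] at h4
          refine ⟨⟨(), Finset.mem_univ _, h4.2.2.1⟩, ?_⟩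
          have h5 := h1 m β p
          rw [hβ] at h5
          exact h5)
      refine le_trans (le_of_eq ?_) (h3.trans (le_of_eq ?_))
      · refine lintegral_congr fun u => ?_
        rw [lintegral_const_mul' _ _ (ENNReal.mul_ne_top ENNReal.ofReal_ne_top enorm_ne_top)]
      · simp
  -- integrate over `m`
  have hAm : Measurable fun m : Ph => muE ε * ENNReal.ofReal (Real.exp (-b * ‖m.2‖ ^ 2)) *
      ENNReal.ofReal (Ke b m) := by
    unfold Ke; fun_prop
  set D : ℝ≥0∞ := ENNReal.ofReal (ε ^ 2) * cL b 1 δ t n * X.w ε with hD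
  calc ∫⁻ m, ∫⁻ β, ∫⁻ p, ∫⁻ q, F m β p q
      ≤ ∫⁻ m : Ph, K1.sig univ * ∫⁻ σ in Icc (0 : ℝ) t,
        (muE ε * ENNReal.ofReal (Real.exp (-b * ‖m.2‖ ^ 2)) * rr b P I T σ m) *
        (ENNReal.ofReal (Ke b m) * D) := lintegral_mono h2
    _ = K1.sig univ * ∫⁻ σ in Icc (0 : ℝ) t, ∫⁻ m : Ph, (muE ε *
        ENNReal.ofReal (Real.exp (-b * ‖m.2‖ ^ 2)) * ENNReal.ofReal (Ke b m)) *
          (rr b P I T σ m * D) := by
        rw [lintegral_const_mul' _ _ (measure_ne_top K1.sig univ),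
          ← swap_ms hAm (r := fun σ m => rr b P I T σ m * D) (hrm.mul_const D)]
        congr 1
        refine lintegral_congr fun m => lintegral_congr fun σ => ?_
        ring
    _ ≤ K1.sig univ * ∫⁻ _ in Icc (0 : ℝ) t, (muE ε * (ENNReal.ofReal (√2 * (1 + 1 / √b) ^ 2) *
        (ENNReal.ofReal (ε ^ 2) * cF1 (b / 2) c₁ t j * ∑ i ∈ I, (T i).w ε)) * D) := by
        refine mul_le_mul' le_rfl (setLIntegral_mono' measurableSet_Icc fun σ hσ => ?_)
        have h4 : ∀ m : Ph, (muE ε * ENNReal.ofReal (Real.exp (-b * ‖m.2‖ ^ 2)) *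
            ENNReal.ofReal (Ke b m)) * (rr b P I T σ m * D) ≤
            (muE ε * ENNReal.ofReal (√2 * (1 + 1 / √b) ^ 2) * D) *
              (ENNReal.ofReal (Real.exp (-(b / 2) * ‖m.2‖ ^ 2)) * rr (b / 2) P I T σ m) := by
          intro m
          have h5 := Ke_gauss hb m
          have h6 : rr b P I T σ m ≤ rr (b / 2) P I T σ m := by
            unfold rr
            gcongr with i hi p
            exact wt_mono (by linarith) _ _
          calc _ = (muE ε * D) * ((ENNReal.ofReal (Ke b m) *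
                ENNReal.ofReal (Real.exp (-b * ‖m.2‖ ^ 2))) * rr b P I T σ m) := by ring
            _ ≤ (muE ε * D) * ((ENNReal.ofReal (√2 * (1 + 1 / √b) ^ 2) *
                ENNReal.ofReal (Real.exp (-(b / 2) * ‖m.2‖ ^ 2))) * rr (b / 2) P I T σ m) := by
                gcongr
            _ = _ := by ring
        refine (lintegral_mono h4).trans ?_
        have hm7 : Measurable fun m : Ph => ENNReal.ofReal (Real.exp (-(b / 2) * ‖m.2‖ ^ 2)) *
            rr (b / 2) P I T σ m := by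
          refine Measurable.mul (by fun_prop) ?_
          exact (measurable_rr (b := b / 2) hP I T).comp (measurable_const.prodMk measurable_id)
        rw [lintegral_const_mul _ hm7]
        have h7 := rr_flux hε (by positivity : 0 < b / 2) hc₁ hP I T hσ
        calc _ ≤ (muE ε * ENNReal.ofReal (√2 * (1 + 1 / √b) ^ 2) * D) *
              (ENNReal.ofReal (ε ^ 2) * cF1 (b / 2) c₁ t j * ∑ i ∈ I, (T i).w ε) := by gcongr
          _ = _ := by ring
    _ = _ := by
        rw [lintegral_const, Measure.restrict_apply_univ, Real.volume_Icc, sub_zero, hD]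
        unfold cC2
        calc K1.sig univ * (muE ε * (ENNReal.ofReal (√2 * (1 + 1 / √b) ^ 2) *
              (ENNReal.ofReal (ε ^ 2) * cF1 (b / 2) c₁ t j * ∑ i ∈ I, (T i).w ε)) *
              (ENNReal.ofReal (ε ^ 2) * cL b 1 δ t n * X.w ε) * ENNReal.ofReal t)
            = (muE ε * ENNReal.ofReal (ε ^ 2)) * (K1.sig univ *
              (ENNReal.ofReal (√2 * (1 + 1 / √b) ^ 2) *
              (cF1 (b / 2) c₁ t j * ∑ i ∈ I, (T i).w ε)) *
              (ENNReal.ofReal (ε ^ 2) * cL b 1 δ t n * X.w ε) * ENNReal.ofReal t) := by ring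
          _ = _ := by rw [muE_mul hε, one_mul]; ring

end Vale.Agent.P119.PB
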