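import Vale.Agent.P119.PB.SE6
import Vale.Agent.P119.FL.Horizon

/-!
# P119: second events with short lag, line level (`helper778`)

The integral over the time `σ` at which a line starts, of the event that its chain is in contact with
a fixed family of targets before the time `σ + δ`.
-/

open MeasureTheory Set Filter Topology Metric ProbabilityTheory
open scoped ENNReal

namespace Vale.Agent.P119.PB

open KU FL

variable {Φ : E3 → ℝ} {ε b t t₂ h t₁ δ c₁ : ℝ} {k : ℕ}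

theorem chain_anti {m : ℕ} {S : ℕ → Step} {s s' : ℝ} {l : Ph} {p : Fin m → Ph} (hs : s' ≤ s)
    (hc : Chain ε t S m s l p) : Chain ε t S m s' l p := by
  cases m with
  | zero => trivial
  | succ m => exact ⟨hc.1, hs.trans_lt hc.2.1, hc.2.2.1, hc.2.2.2⟩

/-- The chain which starts at the time `σ` is in contact with one of the targets, before `σ + δ`. -/
def Yg {S : ℕ → Step} {n : ℕ} (F : PathFam ε S n c₁) (t δ : ℝ) {ι : Type*} (I : Finset ι)
    (T : ι → Target h) (σ : ℝ) (l : Ph) (p : Fin n → Ph) : Prop :=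
  Chain ε t S n σ l p ∧ ∃ i ∈ I, ∃ τ ∈ Icc (max (T i).a (time ε S n σ l p)) h,
    τ ≤ σ + δ ∧ ‖F.X l p τ - (T i).Y τ‖ ≤ ε

/-- The chain which starts at the time `0` is in contact with one of the targets. -/
def Yz {S : ℕ → Step} {n : ℕ} (F : PathFam ε S n c₁) (t : ℝ) {ι : Type*} (I : Finset ι)
    (T : ι → Target h) (l : Ph) (p : Fin n → Ph) : Prop :=
  Chain ε t S n 0 l p ∧ ∃ i ∈ I, ∃ τ ∈ Icc (max (T i).a (time ε S n 0 l p)) h,
    ‖F.X l p τ - (T i).Y τ‖ ≤ ε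

theorem young_sigma {S : ℕ → Step} {n : ℕ} (F : PathFam ε S (n + 1) c₁) {ι : Type*}
    (I : Finset ι) (T : ι → Target h) (l : Ph) (p : Fin (n + 1) → Ph) :
    ∫⁻ σ in Icc (0 : ℝ) t, {σ | Yg F t₂ δ I T σ l p}.indicator (fun _ => (1 : ℝ≥0∞)) σ ≤
      {p | Yz F t₂ I T l p}.indicator (fun _ => ENNReal.ofReal δ) p := by
  by_cases hne : ∃ σ ∈ Icc 0 t, Yg F t₂ δ I T σ l p
  swap
  · refine le_trans (le_of_eq ?_) zero_le
    rw [← lintegral_zero (μ := volume.restrict (Icc (0 : ℝ) t))]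
    refine setLIntegral_congr_fun measurableSet_Icc fun σ hσ => ?_
    exact indicator_of_notMem (s := {σ | Yg F t₂ δ I T σ l p}) (fun h => hne ⟨σ, hσ, h⟩)
      (fun _ => (1 : ℝ≥0∞))
  obtain ⟨σ₀, hσ₀, h1, i, hi, τ, h2, -, h4⟩ := hne
  have hz : p ∈ {p | Yz F t₂ I T l p} := ⟨chain_anti hσ₀.1 h1, i, hi, τ, h2, h4⟩
  rw [indicator_of_mem hz]
  set R : Set ℝ := {τ | ∃ i ∈ I, τ ∈ Icc (max (T i).a (time ε S (n + 1) 0 l p)) h ∧
    ‖F.X l p τ - (T i).Y τ‖ ≤ ε} with hR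
  have hRne : R.Nonempty := ⟨τ, i, hi, h2, h4⟩
  have hRb : ∀ τ ∈ R, time ε S (n + 1) 0 l p ≤ τ := fun τ ⟨i, _, h5, _⟩ =>
    (le_max_right _ _).trans h5.1
  have key : ∀ σ, Yg F t₂ δ I T σ l p → σ ∈ Icc (sInf R - δ) (sInf R) := by
    rintro σ ⟨h5, j, hj, τ', h6, h7, h8⟩
    have h9 : sInf R ≤ τ' := csInf_le ⟨_, hRb⟩ ⟨j, hj, h6, h8⟩
    refine ⟨by linarith, le_csInf hRne fun τ hτ => ?_⟩
    exact (h5.2.1.le.trans (le_time n _ _ _ _ h5.2.2.2)).trans (hRb τ hτ)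
  calc ∫⁻ σ in Icc (0 : ℝ) t, {σ | Yg F t₂ δ I T σ l p}.indicator (fun _ => (1 : ℝ≥0∞)) σ
      ≤ ∫⁻ σ, {σ | Yg F t₂ δ I T σ l p}.indicator (fun _ => (1 : ℝ≥0∞)) σ :=
        setLIntegral_le_lintegral _ _
    _ ≤ ∫⁻ σ, (Icc (sInf R - δ) (sInf R)).indicator (fun _ => (1 : ℝ≥0∞)) σ :=
        lintegral_mono (indicator_le_indicator_of_subset key fun _ => zero_le)
    _ = ENNReal.ofReal δ := by
        rw [lintegral_indicator measurableSet_Icc, setLIntegral_const, Real.volume_Icc, one_mul]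
        congr 1; ring

/-- **Short lag, at least one hit.** -/
theorem young_pos (hε : 0 < ε) (hb : 0 < b) (hc₁ : 0 ≤ c₁) (ht₁ : h < t₁) {S : ℕ → Step} {n : ℕ}
    (F : PathFam ε S (n + 1) c₁) {ι : Type*} (I : Finset ι) (T : ι → Target h) :
    ∫⁻ l : Ph, ∫⁻ p, (ENNReal.ofReal (Real.exp (-b * ‖l.2‖ ^ 2)) * FL.wt b ε (n + 1) p) *
      ∫⁻ σ in Icc (0 : ℝ) t, {σ | Yg F t₂ δ I T σ l p}.indicator (fun _ => (1 : ℝ≥0∞)) σ ≤
      ENNReal.ofReal (ε ^ 2) * cF1 b c₁ t₁ (n + 1) *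
        (ENNReal.ofReal δ * ∑ i ∈ I, (T i).w ε) := by
  have h1 := first_flux_H (b := b) (s := 0) (t := t₂) hε hb hc₁ ht₁ F I T
    (Ψ := fun l p => {p | Yz F t₂ I T l p}.indicator
      (fun p => ENNReal.ofReal (Real.exp (-b * ‖l.2‖ ^ 2)) * FL.wt b ε (n + 1) p) p) (by
      intro l p hne
      have hm : p ∈ {p | Yz F t₂ I T l p} := by
        by_contra hcon
        exact hne (indicator_of_notMem hcon _)
      refine ⟨hm.1, hm.2, ?_⟩
      rw [indicator_of_mem hm])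
  set G : Ph → (Fin (n + 1) → Ph) → ℝ≥0∞ := fun l p => {p | Yz F t₂ I T l p}.indicator
      (fun p => ENNReal.ofReal (Real.exp (-b * ‖l.2‖ ^ 2)) * FL.wt b ε (n + 1) p) p with hG
  calc _ ≤ ∫⁻ l : Ph, ∫⁻ p, (ENNReal.ofReal δ * G l p) := by
        refine lintegral_mono fun l => lintegral_mono fun p => ?_
        refine (mul_le_mul' le_rfl (young_sigma F I T l p)).trans ?_
        by_cases hm : p ∈ {p | Yz F t₂ I T l p}
        · rw [hG]
          simp only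
          rw [indicator_of_mem hm, indicator_of_mem hm, mul_comm]
        · rw [indicator_of_notMem hm, mul_zero]; exact zero_le
    _ = ENNReal.ofReal δ * ∫⁻ l : Ph, ∫⁻ p, G l p := by
        rw [← lintegral_const_mul' _ _ ENNReal.ofReal_ne_top]
        refine lintegral_congr fun l => ?_
        rw [lintegral_const_mul' _ _ ENNReal.ofReal_ne_top]
    _ ≤ _ := by
        refine (mul_le_mul' le_rfl h1).trans (le_of_eq ?_)
        unfold cF1
        rw [sub_zero]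
        ring

end Vale.Agent.P119.PB
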