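import Vale.Agent.P119.PB.SE7
import Vale.Agent.P119.PB.Op6

/-!
# P119: second events with short lag, line level: no hit (`helper778`)
-/

open MeasureTheory Set Filter Topology Metric ProbabilityTheory
open scoped ENNReal

namespace Vale.Agent.P119.PB

open KU FL

variable {Φ : E3 → ℝ} {ε b t h t₁ δ c₁ : ℝ} {k : ℕ}

/-- At most three of the windows contain a given point. -/
theorem windows_le (hδ : 0 < δ) (N : ℕ) (τ : ℝ) :
    ∑ k ∈ Finset.range N, (Icc ((k : ℝ) * δ) (((k : ℝ) + 2) * δ)).indicator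
      (fun _ => (1 : ℝ≥0∞)) τ ≤ 3 := by
  classical
  have h1 : ∑ k ∈ Finset.range N, (Icc ((k : ℝ) * δ) (((k : ℝ) + 2) * δ)).indicator
      (fun _ => (1 : ℝ≥0∞)) τ =
      ((Finset.range N).filter fun k : ℕ => τ ∈ Icc ((k : ℝ) * δ) (((k : ℝ) + 2) * δ)).card := by
    rw [Finset.card_filter]
    push_cast
    refine Finset.sum_congr rfl fun k _ => ?_
    by_cases h : τ ∈ Icc ((k : ℝ) * δ) (((k : ℝ) + 2) * δ)
    · rw [indicator_of_mem h, if_pos h]
    · rw [indicator_of_notMem h, if_neg h]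
  rw [h1]
  set n₀ : ℕ := ⌊τ / δ⌋₊ with hn₀
  have h2 : ((Finset.range N).filter fun k : ℕ => τ ∈ Icc ((k : ℝ) * δ) (((k : ℝ) + 2) * δ)) ⊆
      Finset.Icc (n₀ - 2) n₀ := by
    intro k hk
    rw [Finset.mem_filter] at hk
    obtain ⟨-, h3, h4⟩ := hk
    have h5 : (k : ℝ) ≤ τ / δ := by rw [le_div_iff₀ hδ]; exact h3
    have h6 : τ / δ ≤ (k : ℝ) + 2 := by rw [div_le_iff₀ hδ]; exact h4
    have h7 : (0 : ℝ) ≤ τ / δ := (Nat.cast_nonneg k).trans h5
    rw [Finset.mem_Icc]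
    constructor
    · have h8 : (n₀ : ℝ) ≤ k + 2 := (Nat.floor_le h7).trans h6
      have h9 : n₀ ≤ k + 2 := by exact_mod_cast h8
      omega
    · exact Nat.le_floor h5
  have h3 := Finset.card_le_card h2
  rw [Nat.card_Icc] at h3
  have h4 : ((Finset.range N).filter fun k : ℕ =>
      τ ∈ Icc ((k : ℝ) * δ) (((k : ℝ) + 2) * δ)).card ≤ 3 := by omega
  exact_mod_cast h4

/-- The total size of the cut targets. -/
theorem sum_cut_le (hδ : 0 < δ) (N : ℕ) (T : Target h) (H : ℕ → ℝ) (hH : ∀ k, H k ≤ h)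
    (hH2 : ∀ k, H k ≤ ((k : ℝ) + 2) * δ) :
    ∑ k ∈ Finset.range N, (T.cut ((k : ℝ) * δ) (H k) (hH k)).w ε ≤
      N * ENNReal.ofReal ε + 3 * ∫⁻ τ in Icc T.a h, (1 + T.y' τ) := by
  have h1 : ∀ k : ℕ, (T.cut ((k : ℝ) * δ) (H k) (hH k)).w ε ≤ ENNReal.ofReal ε +
      ∫⁻ τ in Icc T.a h, (Icc ((k : ℝ) * δ) (((k : ℝ) + 2) * δ)).indicator
        (fun _ => (1 : ℝ≥0∞)) τ * (1 + T.y' τ) := by
    intro k
    unfold Target.w
    refine add_le_add le_rfl ?_
    change ∫⁻ τ in Icc (max T.a ((k : ℝ) * δ)) (H k), (1 + T.y' τ) ≤ _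
    rw [← lintegral_indicator measurableSet_Icc, ← lintegral_indicator measurableSet_Icc]
    refine lintegral_mono fun τ => ?_
    by_cases hτ : τ ∈ Icc (max T.a ((k : ℝ) * δ)) (H k)
    · have h3 : τ ∈ Icc T.a h := ⟨(le_max_left _ _).trans hτ.1, hτ.2.trans (hH k)⟩
      have h4 : τ ∈ Icc ((k : ℝ) * δ) (((k : ℝ) + 2) * δ) :=
        ⟨(le_max_right _ _).trans hτ.1, hτ.2.trans (hH2 k)⟩
      rw [indicator_of_mem hτ, indicator_of_mem h3, indicator_of_mem h4, one_mul]
    · rw [indicator_of_notMem hτ]; exact zero_le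
  have hm : ∀ k : ℕ, AEMeasurable (fun τ => (Icc ((k : ℝ) * δ) (((k : ℝ) + 2) * δ)).indicator
      (fun _ => (1 : ℝ≥0∞)) τ * (1 + T.y' τ)) (volume.restrict (Icc T.a h)) := fun k =>
    ((measurable_const.indicator measurableSet_Icc).aemeasurable).mul
      (aemeasurable_const.add T.meas)
  refine (Finset.sum_le_sum fun k _ => h1 k).trans ?_
  rw [Finset.sum_add_distrib, Finset.sum_const, Finset.card_range, nsmul_eq_mul,
    ← lintegral_finsetSum' _ fun k _ => hm k]
  refine add_le_add le_rfl ?_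
  rw [← lintegral_const_mul' _ _ (by norm_num : (3 : ℝ≥0∞) ≠ ∞)]
  refine lintegral_mono fun τ => ?_
  simp only
  rw [← Finset.sum_mul]
  exact mul_le_mul' (windows_le hδ N τ) le_rfl

/-- The line which starts at the time `σ` is in contact with one of the targets before `σ + δ`. -/
def Y0 (δ : ℝ) (ε : ℝ) {ι : Type*} (I : Finset ι) (T : ι → Target h) (σ : ℝ) (l : Ph) : Prop :=
  ∃ i ∈ I, ∃ τ ∈ Icc (max (T i).a σ) h, τ ≤ σ + δ ∧ ‖l.1 + τ • l.2 - (T i).Y τ‖ ≤ ε

/-- **Short lag, no hit.** -/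
theorem young_zero (hε : 0 < ε) (hb : 0 < b) (hδ : 0 < δ) (ht : 0 ≤ t) {ι : Type*}
    (I : Finset ι) (T : ι → Target h) :
    ∫⁻ l : Ph, gw b l.2 *
      ∫⁻ σ in Icc (0 : ℝ) t, {σ | Y0 δ ε I T σ l}.indicator (fun _ => (1 : ℝ≥0∞)) σ ≤
      ENNReal.ofReal (ε ^ 2) * Cd b *
        ∑ i ∈ I, (ENNReal.ofReal (t + δ) * ENNReal.ofReal ε + 3 * (ENNReal.ofReal δ * (T i).w ε)) := by
  set N : ℕ := ⌊t / δ⌋₊ + 1 with hN
  set H : ℕ → ℝ := fun k => min h (((k : ℝ) + 2) * δ) with hH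
  have hHh : ∀ k, H k ≤ h := fun k => min_le_left _ _
  set χ : ℕ → Set Ph := fun k => {z : Ph | ∃ i ∈ I,
    z ∈ lctc ε ((k : ℝ) * δ) (H k) ((T i).cut ((k : ℝ) * δ) (H k) (hHh k)).a
      ((T i).cut ((k : ℝ) * δ) (H k) (hHh k)).Y} with hχ
  have hχm : ∀ k, MeasurableSet (χ k) := by
    intro k
    have : χ k = ⋃ i ∈ I, lctc ε ((k : ℝ) * δ) (H k) ((T i).cut ((k : ℝ) * δ) (H k) (hHh k)).a
      ((T i).cut ((k : ℝ) * δ) (H k) (hHh k)).Y := by
      ext z
      simp only [hχ, mem_ofPred_eq, mem_iUnion, exists_prop]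
    rw [this]
    exact Finset.measurableSet_biUnion _ fun i _ =>
      measurableSet_lctc ((T i).cut ((k : ℝ) * δ) (H k) (hHh k)).cont
  -- for a fixed line
  have h1 : ∀ l : Ph, ∫⁻ σ in Icc (0 : ℝ) t, {σ | Y0 δ ε I T σ l}.indicator
      (fun _ => (1 : ℝ≥0∞)) σ ≤ ∑ k ∈ Finset.range N, ENNReal.ofReal δ * (χ k).indicator 1 l := by
    intro l
    have h2 : ∀ σ ∈ Icc (0 : ℝ) t, {σ | Y0 δ ε I T σ l}.indicator (fun _ => (1 : ℝ≥0∞)) σ ≤
        ∑ k ∈ Finset.range N, (Icc ((k : ℝ) * δ) (((k : ℝ) + 1) * δ)).indicator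
          (fun _ => (χ k).indicator 1 l) σ := by
      intro σ hσ
      by_cases hY : σ ∈ {σ | Y0 δ ε I T σ l}
      swap
      · rw [indicator_of_notMem hY]; exact zero_le
      rw [indicator_of_mem hY]
      obtain ⟨i, hi, τ, h3, h4, h5⟩ := hY
      set k : ℕ := ⌊σ / δ⌋₊ with hk
      have hσ0 : 0 ≤ σ / δ := div_nonneg hσ.1 hδ.le
      have k1 : (k : ℝ) * δ ≤ σ := by
        rw [← le_div_iff₀ hδ]; exact Nat.floor_le hσ0
      have k2 : σ < ((k : ℝ) + 1) * δ := by
        rw [← div_lt_iff₀ hδ]; exact Nat.lt_floor_add_one _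
      have hkN : k ∈ Finset.range N := by
        rw [Finset.mem_range, hN]
        exact Nat.lt_succ_of_le (Nat.floor_le_floor (div_le_div_of_nonneg_right hσ.2 hδ.le))
      have hl : l ∈ χ k := by
        refine ⟨i, hi, τ, ⟨?_, ?_⟩, h5⟩
        · refine max_le (max_le ((le_max_left _ _).trans h3.1) ?_) ?_ <;>
          exact k1.trans ((le_max_right _ _).trans h3.1)
        · refine le_min h3.2 ?_
          nlinarith
      calc (1 : ℝ≥0∞) = (Icc ((k : ℝ) * δ) (((k : ℝ) + 1) * δ)).indicator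
            (fun _ => (χ k).indicator (1 : Ph → ℝ≥0∞) l) σ := by
            rw [indicator_of_mem (show σ ∈ Icc ((k : ℝ) * δ) (((k : ℝ) + 1) * δ) from ⟨k1, k2.le⟩),
              indicator_of_mem hl]
            rfl
        _ ≤ _ := Finset.single_le_sum (f := fun k : ℕ =>
            (Icc ((k : ℝ) * δ) (((k : ℝ) + 1) * δ)).indicator
            (fun _ => (χ k).indicator (1 : Ph → ℝ≥0∞) l) σ) (fun _ _ => zero_le) hkN
    refine (setLIntegral_mono' measurableSet_Icc h2).trans ?_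
    rw [lintegral_finsetSum' _ fun k _ => (measurable_const.indicator measurableSet_Icc).aemeasurable]
    refine Finset.sum_le_sum fun k _ => ?_
    refine (setLIntegral_le_lintegral _ _).trans ?_
    rw [lintegral_indicator measurableSet_Icc, setLIntegral_const, Real.volume_Icc, mul_comm]
    refine mul_le_mul' (le_of_eq ?_) le_rfl
    congr 1
    ring
  -- integrate over the lines
  have hg : Measurable fun l : Ph => gw b l.2 := (measurable_gw b).comp measurable_snd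
  calc ∫⁻ l : Ph, gw b l.2 * ∫⁻ σ in Icc (0 : ℝ) t, {σ | Y0 δ ε I T σ l}.indicator
        (fun _ => (1 : ℝ≥0∞)) σ
      ≤ ∫⁻ l : Ph, ∑ k ∈ Finset.range N, ENNReal.ofReal δ *
        (gw b l.2 * (χ k).indicator 1 l) := by
        refine lintegral_mono fun l => (mul_le_mul' le_rfl (h1 l)).trans (le_of_eq ?_)
        rw [Finset.mul_sum]
        exact Finset.sum_congr rfl fun k _ => mul_left_comm _ _ _
    _ = ∑ k ∈ Finset.range N, ENNReal.ofReal δ * ∫⁻ l : Ph, gw b l.2 * (χ k).indicator 1 l := by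
        have hm2 : ∀ k ∈ Finset.range N, AEMeasurable (fun l : Ph => ENNReal.ofReal δ *
            (gw b l.2 * (χ k).indicator (1 : Ph → ℝ≥0∞) l)) := fun k _ =>
          ((hg.mul (measurable_one.indicator (hχm k))).const_mul _).aemeasurable
        rw [lintegral_finsetSum' _ hm2]
        refine Finset.sum_congr rfl fun k _ => ?_
        rw [lintegral_const_mul' _ _ ENNReal.ofReal_ne_top]
    _ ≤ ∑ k ∈ Finset.range N, ENNReal.ofReal δ * (ENNReal.ofReal (ε ^ 2) * Cd b *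
        ∑ i ∈ I, ((T i).cut ((k : ℝ) * δ) (H k) (hHh k)).w ε) := by
        refine Finset.sum_le_sum fun k _ => mul_le_mul' le_rfl ?_
        refine (lctc_family hε hb I fun i => (T i).cut ((k : ℝ) * δ) (H k) (hHh k)).trans ?_
        refine mul_le_mul' le_rfl (Finset.sum_le_sum fun i _ => ?_)
        unfold Target.w
        refine add_le_add le_rfl ?_
        change ∫⁻ τ in Icc (max (max (T i).a ((k : ℝ) * δ)) ((k : ℝ) * δ)) (H k),
          (1 + (T i).y' τ) ≤ ∫⁻ τ in Icc (max (T i).a ((k : ℝ) * δ)) (H k), (1 + (T i).y' τ)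
        rw [max_eq_left (le_max_right _ _)]
    _ = ENNReal.ofReal (ε ^ 2) * Cd b * ∑ i ∈ I, ENNReal.ofReal δ *
        ∑ k ∈ Finset.range N, ((T i).cut ((k : ℝ) * δ) (H k) (hHh k)).w ε := by
        rw [← Finset.mul_sum (s := I), Finset.sum_comm (s := I), ← Finset.mul_sum,
          ← Finset.mul_sum]
        ring
    _ ≤ _ := by
        refine mul_le_mul' le_rfl (Finset.sum_le_sum fun i _ => ?_)
        refine (mul_le_mul' le_rfl (sum_cut_le hδ N (T i) H hHh fun k => min_le_right _ _)).trans ?_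
        rw [mul_add]
        refine add_le_add ?_ ?_
        · rw [← mul_assoc]
          refine mul_le_mul' ?_ le_rfl
          have h3 : (N : ℝ≥0∞) = ENNReal.ofReal (N : ℝ) := by simp
          rw [h3, ← ENNReal.ofReal_mul hδ.le]
          apply ENNReal.ofReal_le_ofReal
          have h4 : (⌊t / δ⌋₊ : ℝ) ≤ t / δ := Nat.floor_le (div_nonneg ht hδ.le)
          have h5 : (N : ℝ) ≤ t / δ + 1 := by rw [hN]; push_cast; linarith
          calc δ * N ≤ δ * (t / δ + 1) := by gcongr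
            _ = t + δ := by field_simp
        · rw [mul_left_comm]
          unfold Target.w
          gcongr
          exact le_add_self

end Vale.Agent.P119.PB
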