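import Vale.Agent.P119.PB.SE8

/-!
# P119: second events, line level: the laws A and B with horizons, masses, short lags (`helper778`)
-/

open MeasureTheory Set Filter Topology Metric ProbabilityTheory
open scoped ENNReal

namespace Vale.Agent.P119.PB

open KU FL

variable {Φ : E3 → ℝ} {ε b t t₂ h t₁ δ c₁ : ℝ} {k : ℕ}

/-! ### Law A: `e` is given, the chain starts with its sister -/

theorem cH_mono {r r' : ℝ} (h0 : 0 ≤ r) (h : r ≤ r') (m : ℕ) : cH b c₁ δ r m ≤ cH b c₁ δ r' m := by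
  unfold cH
  have hD := D1_nonneg (b / 2)
  have h1 := pow_mono_time (b := b / 2 / 4) (s := 0) h0 h m
  rw [sub_zero, sub_zero] at h1
  gcongr

/-- **Law A, long lag**: the targets, the horizon and the guard `g` are functions of `e` and of its
exit time. -/
theorem caseA_long (hε : 0 < ε) (hb : 0 < b) (hδ : 0 < δ) (hc₁ : 0 ≤ c₁) {n : ℕ}
    {S : ℕ → Step} (F : PathFam ε S n c₁) {ι : Type*} {h : Ph → ℝ → ℝ} (ht₁ : t ≤ t₁)
    (hh : ∀ e, ∀ σ ∈ Icc 0 t, h e σ < t₁) (I : Ph → ℝ → Finset ι)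
    (T : ∀ (e : Ph) (σ : ℝ), ι → Target (h e σ)) {g : Ph → ℝ → ℝ≥0∞} (hg : ∀ e σ, g e σ ≠ ∞)
    {Ψ : Ph → Ph → (Fin n → Ph) → ℝ≥0∞}
    (hΨ : ∀ e β p, Ψ e β p ≠ 0 → Meets ε (e, β) ∧ exT ε (e, β) ∈ Icc 0 t ∧
      Chain ε t₂ S n (exT ε (e, β)) β p ∧
      (∃ i ∈ I e (exT ε (e, β)), ∃ τ ∈ Icc (max (max (T e (exT ε (e, β)) i).a
        (exT ε (e, β) + δ)) (time ε S n (exT ε (e, β)) β p)) (h e (exT ε (e, β))),
        ‖F.X β p τ - (T e (exT ε (e, β)) i).Y τ‖ ≤ ε) ∧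
      Ψ e β p ≤ g e (exT ε (e, β)) * (muE ε * gw b β.2 * FL.wt b ε n p)) :
    ∫⁻ e, ∫⁻ β, ∫⁻ p, Ψ e β p ≤ K1.sig univ * ∫⁻ e : Ph, ∫⁻ σ in Icc (0 : ℝ) t,
      g e σ * ENNReal.ofReal (Ke b e) * (ENNReal.ofReal (ε ^ 2) * cH b c₁ δ t₁ n) *
        ∑ i ∈ I e σ, (T e σ i).w ε := by
  refine caseA' (t := t) hε (F := fun e β => ∫⁻ p, Ψ e β p) ?_ ?_
  · intro e β hne
    obtain ⟨p, hp⟩ : ∃ p, Ψ e β p ≠ 0 := by
      by_contra hcon
      push Not at hcon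
      exact hne (by simp [hcon])
    exact ⟨(hΨ e β p hp).1, (hΨ e β p hp).2.1⟩
  · intro e σ hσ ξ hξ
    have h1 := sister_aux_H (b := b) (t := t₂) hε hb hδ hc₁ (hh e σ hσ) F e hσ.1 hξ (I e σ) (T e σ)
      (hg e σ) (Ψ := fun β p => Ψ e β p) (by
        intro β p hβ hne
        have h2 := hΨ e β p hne
        rw [hβ] at h2
        exact ⟨h2.2.2.1, h2.2.2.2.1, h2.2.2.2.2⟩)
    refine le_trans (le_of_eq ?_) (h1.trans ?_)
    · refine lintegral_congr fun u => ?_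
      rw [lintegral_const_mul' _ _ (ENNReal.mul_ne_top ENNReal.ofReal_ne_top enorm_ne_top)]
    · gcongr
      exact cH_mono (by linarith [hσ.2]) (by linarith [hσ.1]) n

/-- **Law A, mass.** -/
theorem caseA_mass (hε : 0 < ε) (hb : 0 < b) (ht₂ : t ≤ t₂) {n : ℕ} {S : ℕ → Step} {g : Ph → ℝ → ℝ≥0∞}
    {Ψ : Ph → Ph → (Fin n → Ph) → ℝ≥0∞}
    (hΨ : ∀ e β p, Ψ e β p ≠ 0 → Meets ε (e, β) ∧ exT ε (e, β) ∈ Icc 0 t ∧
      Chain ε t₂ S n (exT ε (e, β)) β p ∧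
      Ψ e β p ≤ g e (exT ε (e, β)) * (muE ε * gw b β.2 * FL.wt b ε n p)) :
    ∫⁻ e, ∫⁻ β, ∫⁻ p, Ψ e β p ≤ K1.sig univ * ∫⁻ e : Ph, ∫⁻ σ in Icc (0 : ℝ) t,
      g e σ * (ENNReal.ofReal (1 + ‖e.2‖) * cM b t₂ n) := by
  refine caseA' (t := t) hε (F := fun e β => ∫⁻ p, Ψ e β p) ?_ ?_
  · intro e β hne
    obtain ⟨p, hp⟩ : ∃ p, Ψ e β p ≠ 0 := by
      by_contra hcon
      push Not at hcon
      exact hne (by simp [hcon])
    exact ⟨(hΨ e β p hp).1, (hΨ e β p hp).2.1⟩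
  · intro e σ hσ ξ hξ
    have h1 := sis_mass (b := b) (t := t₂) hε hb e ⟨hσ.1, hσ.2.trans ht₂⟩ hξ (g := g e σ)
      (Ψ := fun β p => Ψ e β p) (by
        intro β p hβ hne
        have h2 := hΨ e β p hne
        rw [hβ] at h2
        exact ⟨h2.2.2.1, h2.2.2.2⟩)
    refine le_trans (le_of_eq ?_) h1
    refine lintegral_congr fun u => ?_
    rw [lintegral_const_mul' _ _ (ENNReal.mul_ne_top ENNReal.ofReal_ne_top enorm_ne_top)]

/-! ### Law B: `m` is the sister of `β`, the chain of `β` ends in the node of `e` -/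

theorem caseB_one' (hε : 0 < ε) {k : ℕ} {S : ℕ → Step} {F : Ph → ℝ≥0∞}
    (β : Ph) (p : Fin k → Ph)
    (h0 : ∀ m, F m ≠ 0 → Meets ε (β, m) ∧ exT ε (β, m) ∈ Icc 0 t ∧
      Chain ε t S k (exT ε (β, m)) β p) {w : ℝ≥0∞}
    (H : ∀ σ ∈ Icc (0 : ℝ) t, ∀ ξ ∈ K1.disc K1.e0, Chain ε t S k σ β p →
      ∫⁻ u : E3, (ENNReal.ofReal (ε ^ 2) * ‖β.2 - u‖ₑ) * F (sis ε β u σ ξ) ≤ w) :
    ∫⁻ m, F m ≤ K1.sig univ * ∫⁻ σ in Icc (0 : ℝ) t,
      {p | Chain ε t S k σ β p}.indicator (fun _ => w) p := by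
  refine (sister_param_le (t := t) hε β fun m hm => ⟨(h0 m hm).1, (h0 m hm).2.1⟩).trans ?_
  refine param_le fun σ hσ ξ hξ => ?_
  by_cases hch : Chain ε t S k σ β p
  · rw [indicator_of_mem (show p ∈ {p | Chain ε t S k σ β p} from hch)]
    exact H σ hσ ξ hξ hch
  · rw [indicator_of_notMem (show p ∉ {p | Chain ε t S k σ β p} from hch)]
    refine le_of_eq ?_
    rw [← lintegral_zero (μ := (volume : Measure E3))]
    refine lintegral_congr fun u => ?_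
    by_cases hV : β.2 - u = 0
    · simp [hV]
    · have h1 : F (sis ε β u σ ξ) = 0 := by
        by_contra hcon
        have h2 := (h0 _ hcon).2.2
        rw [exT_sis hε.ne' β hV σ hξ] at h2
        exact hch h2
      rw [h1, mul_zero]

/-- **Case B** without measurability. -/
theorem caseB' (hε : 0 < ε) (hb : 0 < b) {n : ℕ} {S : ℕ → Step}
    (hS : ∀ n, RevStep ε (S n)) {h : Ph × Ph → ℝ≥0∞} (hh : Measurable h)
    {F : Ph → Ph → (Fin (n + 1) → Ph) → ℝ≥0∞}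
    (h0 : ∀ β m p, F β m p ≠ 0 → Meets ε (β, m) ∧ exT ε (β, m) ∈ Icc 0 t ∧
      Chain ε t S (n + 1) (exT ε (β, m)) β p)
    (H : ∀ σ ∈ Icc (0 : ℝ) t, ∀ ξ ∈ K1.disc K1.e0, ∀ β p, Chain ε t S (n + 1) σ β p →
      ∫⁻ u : E3, (ENNReal.ofReal (ε ^ 2) * ‖β.2 - u‖ₑ) * F β (sis ε β u σ ξ) p ≤
        (ENNReal.ofReal (Ke b β) * ENNReal.ofReal (Real.exp (-b * ‖β.2‖ ^ 2))) *
          (FL.wt b ε (n + 1) p * h (lastPair S n β p))) :
    ∫⁻ β, ∫⁻ p, ∫⁻ m, F β m p ≤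
      K1.sig univ * (ENNReal.ofReal t * (ENNReal.ofReal (KB b t n) * pairG ε (b / 4) 0 t h)) := by
  have hKe : Measurable fun β : Ph => ENNReal.ofReal (Ke b β) *
      ENNReal.ofReal (Real.exp (-b * ‖β.2‖ ^ 2)) := by
    unfold Ke; fun_prop
  have hJ := measurable_jB (ε := ε) (b := b) (t := t) S n hh
  calc ∫⁻ β, ∫⁻ p, ∫⁻ m, F β m p
      ≤ ∫⁻ β, ∫⁻ p, K1.sig univ * ∫⁻ σ in Icc (0 : ℝ) t, (ENNReal.ofReal (Ke b β) *
        ENNReal.ofReal (Real.exp (-b * ‖β.2‖ ^ 2))) * jB ε b t S n h σ β p := by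
        refine lintegral_mono fun β => lintegral_mono fun p => ?_
        refine (caseB_one' (t := t) hε β p (fun m hm => h0 β m p hm)
          (fun σ hσ ξ hξ hch => H σ hσ ξ hξ β p hch)).trans (le_of_eq ?_)
        congr 1
        refine lintegral_congr fun σ => ?_
        unfold jB
        by_cases hch : Chain ε t S (n + 1) σ β p
        · rw [indicator_of_mem (show p ∈ {p | Chain ε t S (n + 1) σ β p} from hch),
            indicator_of_mem (show p ∈ {p | Chain ε t S (n + 1) σ β p} from hch)]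
        · rw [indicator_of_notMem (show p ∉ {p | Chain ε t S (n + 1) σ β p} from hch),
            indicator_of_notMem (show p ∉ {p | Chain ε t S (n + 1) σ β p} from hch), mul_zero]
    _ = K1.sig univ * ∫⁻ σ in Icc (0 : ℝ) t, ∫⁻ β, (ENNReal.ofReal (Ke b β) *
        ENNReal.ofReal (Real.exp (-b * ‖β.2‖ ^ 2))) * inner' ε b t S n h σ β := by
        have h1 : ∀ β : Ph, ∫⁻ p, K1.sig univ * ∫⁻ σ in Icc (0 : ℝ) t, (ENNReal.ofReal (Ke b β) *
            ENNReal.ofReal (Real.exp (-b * ‖β.2‖ ^ 2))) * jB ε b t S n h σ β p =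
            K1.sig univ * ∫⁻ p, ∫⁻ σ in Icc (0 : ℝ) t, (ENNReal.ofReal (Ke b β) *
            ENNReal.ofReal (Real.exp (-b * ‖β.2‖ ^ 2))) * jB ε b t S n h σ β p := fun β =>
          lintegral_const_mul' _ _ (measure_ne_top K1.sig univ)
        simp_rw [h1]
        rw [lintegral_const_mul' _ _ (measure_ne_top K1.sig univ), swapB (t := t) hKe hJ]
        rfl
    _ ≤ K1.sig univ * ∫⁻ _ in Icc (0 : ℝ) t, (ENNReal.ofReal (KB b t n) *
          pairG ε (b / 4) 0 t h) := by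
        refine mul_le_mul' le_rfl (setLIntegral_mono' measurableSet_Icc fun σ hσ => ?_)
        exact caseB_mass hε hb hS hh hσ
    _ = _ := by
        rw [lintegral_const, Measure.restrict_apply_univ, Real.volume_Icc, sub_zero]
        ring

/-- **Law B, long lag**: the targets, the horizon and the guard are functions of the last pair `q` of
the chain of `β`. -/
theorem caseB_long (hε : 0 < ε) (hb : 0 < b) (hδ : 0 < δ) (hc₁ : 0 ≤ c₁) {n j : ℕ}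
    {S S' : ℕ → Step} (hS : ∀ n, RevStep ε (S n)) (F : PathFam ε S' j c₁) {ι : Type*}
    {h : Ph × Ph → ℝ} (ht₁ : t ≤ t₁) (hh : ∀ q, h q < t₁) (I : Ph × Ph → Finset ι)
    (T : ∀ q : Ph × Ph, ι → Target (h q)) {g G : Ph × Ph → ℝ≥0∞} (hg : ∀ q, g q ≠ ∞)
    (hG : Measurable G) (hgG : ∀ q, g q * ∑ i ∈ I q, (T q i).w ε ≤ G q)
    {Ψ : Ph → (Fin (n + 1) → Ph) → Ph → (Fin j → Ph) → ℝ≥0∞}
    (hΨ : ∀ β p m p', Ψ β p m p' ≠ 0 → Meets ε (β, m) ∧ exT ε (β, m) ∈ Icc 0 t ∧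
      Chain ε t S (n + 1) (exT ε (β, m)) β p ∧ Chain ε t₂ S' j (exT ε (β, m)) m p' ∧
      (∃ i ∈ I (lastPair S n β p), ∃ τ ∈ Icc (max (max (T (lastPair S n β p) i).a
        (exT ε (β, m) + δ)) (time ε S' j (exT ε (β, m)) m p')) (h (lastPair S n β p)),
        ‖F.X m p' τ - (T (lastPair S n β p) i).Y τ‖ ≤ ε) ∧
      Ψ β p m p' ≤ g (lastPair S n β p) * (gw b β.2 * FL.wt b ε (n + 1) p) *
        (muE ε * gw b m.2 * FL.wt b ε j p')) :
    ∫⁻ β, ∫⁻ p, ∫⁻ m, ∫⁻ p', Ψ β p m p' ≤ K1.sig univ * (ENNReal.ofReal t *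
      (ENNReal.ofReal (KB b t n) * pairG ε (b / 4) 0 t
        (fun q => (ENNReal.ofReal (ε ^ 2) * cH b c₁ δ t₁ j) * G q))) := by
  refine caseB' (t := t) hε hb hS (hG.const_mul _) (F := fun β m p => ∫⁻ p', Ψ β p m p') ?_ ?_
  · intro β m p hne
    obtain ⟨p', hp⟩ : ∃ p', Ψ β p m p' ≠ 0 := by
      by_contra hcon
      push Not at hcon
      exact hne (by simp [hcon])
    have h1 := hΨ β p m p' hp
    exact ⟨h1.1, h1.2.1, h1.2.2.1⟩
  · intro σ hσ ξ hξ β p hch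
    set q := lastPair S n β p with hq
    have hgt : g q * (gw b β.2 * FL.wt b ε (n + 1) p) ≠ ∞ := by
      refine ENNReal.mul_ne_top (hg q) (ENNReal.mul_ne_top ENNReal.ofReal_ne_top ?_)
      unfold FL.wt
      exact ENNReal.prod_ne_top fun i _ => ENNReal.mul_ne_top muE_ne_top ENNReal.ofReal_ne_top
    have h1 := sister_aux_H (b := b) (t := t₂) hε hb hδ hc₁ (hh q) F β hσ.1 hξ (I q) (T q)
      hgt (Ψ := fun m p' => Ψ β p m p') (by
        intro m p' hm hne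
        have h2 := hΨ β p m p' hne
        rw [hm] at h2
        exact ⟨h2.2.2.2.1, h2.2.2.2.2.1, h2.2.2.2.2.2⟩)
    refine le_trans (le_of_eq ?_) (h1.trans ?_)
    · refine lintegral_congr fun u => ?_
      rw [lintegral_const_mul' _ _ (ENNReal.mul_ne_top ENNReal.ofReal_ne_top enorm_ne_top)]
    · have h3 : cH b c₁ δ (t₁ - σ) j ≤ cH b c₁ δ t₁ j :=
        cH_mono (by linarith [hσ.2]) (by linarith [hσ.1]) j
      calc g q * (gw b β.2 * FL.wt b ε (n + 1) p) * ENNReal.ofReal (Ke b β) *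
            (ENNReal.ofReal (ε ^ 2) * cH b c₁ δ (t₁ - σ) j) * ∑ i ∈ I q, (T q i).w ε
          ≤ g q * (gw b β.2 * FL.wt b ε (n + 1) p) * ENNReal.ofReal (Ke b β) *
            (ENNReal.ofReal (ε ^ 2) * cH b c₁ δ t₁ j) * ∑ i ∈ I q, (T q i).w ε := by gcongr
        _ = (ENNReal.ofReal (Ke b β) * gw b β.2) * (FL.wt b ε (n + 1) p *
            ((ENNReal.ofReal (ε ^ 2) * cH b c₁ δ t₁ j) * (g q * ∑ i ∈ I q, (T q i).w ε))) := by
            ring
        _ ≤ (ENNReal.ofReal (Ke b β) * gw b β.2) * (FL.wt b ε (n + 1) p *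
            ((ENNReal.ofReal (ε ^ 2) * cH b c₁ δ t₁ j) * G q)) := by
            gcongr
            exact hgG q
        _ = _ := rfl

/-- **Law B, mass.** -/
theorem caseB_massT (hε : 0 < ε) (hb : 0 < b) (ht₂ : t ≤ t₂) {n j : ℕ}
    {S S' : ℕ → Step} (hS : ∀ n, RevStep ε (S n)) {G : Ph × Ph → ℝ≥0∞} (hG : Measurable G)
    {Ψ : Ph → (Fin (n + 1) → Ph) → Ph → (Fin j → Ph) → ℝ≥0∞}
    (hΨ : ∀ β p m p', Ψ β p m p' ≠ 0 → Meets ε (β, m) ∧ exT ε (β, m) ∈ Icc 0 t ∧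
      Chain ε t S (n + 1) (exT ε (β, m)) β p ∧ Chain ε t₂ S' j (exT ε (β, m)) m p' ∧
      Ψ β p m p' ≤ G (lastPair S n β p) * (gw b β.2 * FL.wt b ε (n + 1) p) *
        (muE ε * gw b m.2 * FL.wt b ε j p')) :
    ∫⁻ β, ∫⁻ p, ∫⁻ m, ∫⁻ p', Ψ β p m p' ≤ K1.sig univ * (ENNReal.ofReal t *
      (ENNReal.ofReal (KB b t n) * pairG ε (b / 4) 0 t (fun q => cM b t₂ j * G q))) := by
  refine caseB' (t := t) hε hb hS (hG.const_mul _) (F := fun β m p => ∫⁻ p', Ψ β p m p') ?_ ?_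
  · intro β m p hne
    obtain ⟨p', hp⟩ : ∃ p', Ψ β p m p' ≠ 0 := by
      by_contra hcon
      push Not at hcon
      exact hne (by simp [hcon])
    have h1 := hΨ β p m p' hp
    exact ⟨h1.1, h1.2.1, h1.2.2.1⟩
  · intro σ hσ ξ hξ β p hch
    set q := lastPair S n β p with hq
    have h1 := sis_mass (b := b) (t := t₂) hε hb β ⟨hσ.1, hσ.2.trans ht₂⟩ hξ
      (g := G q * (gw b β.2 * FL.wt b ε (n + 1) p)) (Ψ := fun m p' => Ψ β p m p') (by
        intro m p' hm hne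
        have h2 := hΨ β p m p' hne
        rw [hm] at h2
        exact ⟨h2.2.2.2.1, h2.2.2.2.2⟩)
    refine le_trans (le_of_eq ?_) (h1.trans ?_)
    · refine lintegral_congr fun u => ?_
      rw [lintegral_const_mul' _ _ (ENNReal.mul_ne_top ENNReal.ofReal_ne_top enorm_ne_top)]
    · have h3 : ENNReal.ofReal (1 + ‖β.2‖) ≤ ENNReal.ofReal (Ke b β) := by
        apply ENNReal.ofReal_le_ofReal
        unfold Ke
        have h4 : 1 ≤ √2 * (1 + 1 / √b) := by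
          have h5 : 1 ≤ √2 := by rw [Real.one_le_sqrt]; norm_num
          have h6 : (0 : ℝ) ≤ 1 / √b := by positivity
          nlinarith
        have h7 : 0 ≤ 1 + ‖β.2‖ := by positivity
        nlinarith
      calc G q * (gw b β.2 * FL.wt b ε (n + 1) p) * (ENNReal.ofReal (1 + ‖β.2‖) * cM b t₂ j)
          ≤ G q * (gw b β.2 * FL.wt b ε (n + 1) p) * (ENNReal.ofReal (Ke b β) * cM b t₂ j) := by
            gcongr
        _ = (ENNReal.ofReal (Ke b β) * gw b β.2) * (FL.wt b ε (n + 1) p *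
            (cM b t₂ j * G q)) := by ring
        _ = _ := rfl

end Vale.Agent.P119.PB
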