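import Vale.Agent.P119.PB.Pieces

/-!
# P119, block PROB: pairs of nodes of alive trees (`helper298`)

* `marks_le_const`: the number of nodes is at most `2 ^ depth`;
* `treeA`, `treeC`: the trees with two marked nodes;
* `splitA_le`, `splitC_le`: sums over pairs of nodes of the trees of `Al` are bounded by the
  integral against the product of the typical laws, plus an error.
-/

open MeasureTheory Filter Topology Set
open scoped ENNReal NNReal

noncomputable section

namespace Vale.Agent.P119.M

open KU CTree FL PB Cap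

variable {Φ : E3 → ℝ} {ε b t : ℝ}

/-! ### Numbers of nodes -/

theorem marks_add_le {T : CTree} {c : ℝ≥0∞} :
    ∀ {F : (m : ℕ) → CTree → CTree → (Fin m → Bool × CTree) → ℝ≥0∞},
    (∀ m a b r, plug m (node a b) r = T → F m a b r ≤ c) → marks T F + c ≤ 2 ^ T.depth * c := by
  induction T with
  | leaf σ =>
    intro F _
    change 0 + c ≤ 2 ^ σ.2.2 * c
    rw [zero_add]
    exact le_mul_of_one_le_left' (one_le_pow₀ (by norm_num))
  | node a b iha ihb =>
    intro F h
    have h1 := iha (F := fun m x y r => F (m + 1) x y (snoc r (true, b)))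
      fun m x y r hr => h _ _ _ _ (by rw [plug_snoc, hr]; rfl)
    have h2 := ihb (F := fun m x y r => F (m + 1) x y (snoc r (false, a)))
      fun m x y r hr => h _ _ _ _ (by rw [plug_snoc, hr]; rfl)
    have h3 : (2 : ℝ≥0∞) ^ a.depth ≤ 2 ^ max a.depth b.depth :=
      pow_le_pow_right₀ (by norm_num) (le_max_left _ _)
    have h4 : (2 : ℝ≥0∞) ^ b.depth ≤ 2 ^ max a.depth b.depth :=
      pow_le_pow_right₀ (by norm_num) (le_max_right _ _)
    change F 0 a b Fin.elim0 + (marks a _ + marks b _) + c ≤ 2 ^ (max a.depth b.depth + 1) * c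
    calc F 0 a b Fin.elim0 + (marks a (fun m x y r => F (m + 1) x y (snoc r (true, b))) +
          marks b (fun m x y r => F (m + 1) x y (snoc r (false, a)))) + c
        ≤ c + (marks a (fun m x y r => F (m + 1) x y (snoc r (true, b))) +
          marks b (fun m x y r => F (m + 1) x y (snoc r (false, a)))) + c := by
          gcongr
          exact h 0 _ _ _ rfl
      _ = (marks a (fun m x y r => F (m + 1) x y (snoc r (true, b))) + c) +
          (marks b (fun m x y r => F (m + 1) x y (snoc r (false, a))) + c) := by ring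
      _ ≤ 2 ^ a.depth * c + 2 ^ b.depth * c := add_le_add h1 h2
      _ ≤ 2 ^ max a.depth b.depth * c + 2 ^ max a.depth b.depth * c := by gcongr
      _ = _ := by rw [pow_succ]; ring

/-- The number of nodes. -/
theorem marks_le_const {T : CTree} {c : ℝ≥0∞}
    {F : (m : ℕ) → CTree → CTree → (Fin m → Bool × CTree) → ℝ≥0∞}
    (h : ∀ m a b r, plug m (node a b) r = T → F m a b r ≤ c) : marks T F ≤ 2 ^ T.depth * c :=
  le_self_add.trans (marks_add_le h)

/-! ### Trees with two marked nodes -/

/-- A node in the past of another one. -/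
def treeA (k i : ℕ) (q : Mk CTree i) (o : Bool) (S : CTree) (r : Fin k → Bool × CTree) : CTree :=
  plug k (stepT (plug i (node q.1 q.2.1) q.2.2) (o, S)) r

/-- Two nodes in different branches. -/
def treeC (k i i' : ℕ) (q : Mk CTree i) (q' : Mk CTree i') (r : Fin k → Bool × CTree) : CTree :=
  plug k (node (plug i (node q.1 q.2.1) q.2.2) (plug i' (node q'.1 q'.2.1) q'.2.2)) r

theorem measurable_treeA (k i : ℕ) :
    Measurable fun p : Mk CTree i × (Bool × CTree) × (Fin k → Bool × CTree) =>
      treeA k i p.1 p.2.1.1 p.2.1.2 p.2.2 := by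
  have h1 : Measurable fun q : Mk CTree i => plug i (node q.1 q.2.1) q.2.2 :=
    (measurable_plug i).comp ((measurable_node.comp (measurable_fst.prodMk
      (measurable_fst.comp measurable_snd))).prodMk (measurable_snd.comp measurable_snd))
  exact (measurable_plug k).comp ((measurable_stepT.comp ((h1.comp measurable_fst).prodMk
    (measurable_fst.comp measurable_snd))).prodMk (measurable_snd.comp measurable_snd))

theorem measurable_treeC (k i i' : ℕ) :
    Measurable fun p : Mk CTree i × Mk CTree i' × (Fin k → Bool × CTree) =>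
      treeC k i i' p.1 p.2.1 p.2.2 := by
  have h1 : ∀ i, Measurable fun q : Mk CTree i => plug i (node q.1 q.2.1) q.2.2 := fun i =>
    (measurable_plug i).comp ((measurable_node.comp (measurable_fst.prodMk
      (measurable_fst.comp measurable_snd))).prodMk (measurable_snd.comp measurable_snd))
  exact (measurable_plug k).comp ((measurable_node.comp (((h1 i).comp measurable_fst).prodMk
    ((h1 i').comp (measurable_fst.comp measurable_snd)))).prodMk
      (measurable_snd.comp measurable_snd))

theorem marksA_mono {T : CTree}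
    {F G : (k i : ℕ) → Mk CTree i → Bool → CTree → (Fin k → Bool × CTree) → ℝ≥0∞}
    (h : ∀ k i q o S r, treeA k i q o S r = T → F k i q o S r ≤ G k i q o S r) :
    marksA T F ≤ marksA T G := by
  refine marks_mono fun k A B r hr => add_le_add (marks_mono fun i a b r₁ h₁ => ?_)
    (marks_mono fun i a b r₁ h₁ => ?_)
  · refine h _ _ _ _ _ _ ?_
    change plug k (stepT (plug i (node a b) r₁) (true, B)) r = T
    rw [h₁]
    exact hr
  · refine h _ _ _ _ _ _ ?_
    change plug k (stepT (plug i (node a b) r₁) (false, A)) r = T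
    rw [h₁]
    exact hr

theorem marksA_add {T : CTree}
    (F G : (k i : ℕ) → Mk CTree i → Bool → CTree → (Fin k → Bool × CTree) → ℝ≥0∞) :
    marksA T (fun k i q o S r => F k i q o S r + G k i q o S r) = marksA T F + marksA T G := by
  unfold marksA
  rw [← marks_add]
  refine marks_congr fun k A B r _ => ?_
  rw [marks_add, marks_add]
  ring

theorem marksA_mul {T : CTree} (c : ℝ≥0∞)
    (F : (k i : ℕ) → Mk CTree i → Bool → CTree → (Fin k → Bool × CTree) → ℝ≥0∞) :
    marksA T (fun k i q o S r => c * F k i q o S r) = c * marksA T F := by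
  unfold marksA
  rw [← marks_mul]
  refine marks_congr fun k A B r _ => ?_
  rw [marks_mul, marks_mul]
  ring

theorem marksC_mono {T : CTree}
    {F G : (k i i' : ℕ) → Mk CTree i → Mk CTree i' → (Fin k → Bool × CTree) → ℝ≥0∞}
    (h : ∀ k i i' q q' r, treeC k i i' q q' r = T → F k i i' q q' r ≤ G k i i' q q' r) :
    marksC T F ≤ marksC T G := by
  refine marks_mono fun k A B r hr => marks_mono fun i a b r₁ h₁ => marks_mono
    fun i' a' b' r₂ h₂ => ?_
  refine h _ _ _ _ _ _ ?_
  change plug k (node (plug i (node a b) r₁) (plug i' (node a' b') r₂)) r = T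
  rw [h₁, h₂]
  exact hr

theorem marksC_add {T : CTree}
    (F G : (k i i' : ℕ) → Mk CTree i → Mk CTree i' → (Fin k → Bool × CTree) → ℝ≥0∞) :
    marksC T (fun k i i' q q' r => F k i i' q q' r + G k i i' q q' r) =
      marksC T F + marksC T G := by
  unfold marksC
  rw [← marks_add]
  refine marks_congr fun k A B r _ => ?_
  rw [← marks_add]
  refine marks_congr fun i a b r₁ _ => ?_
  rw [marks_add]

theorem marksC_mul {T : CTree} (c : ℝ≥0∞)
    (F : (k i i' : ℕ) → Mk CTree i → Mk CTree i' → (Fin k → Bool × CTree) → ℝ≥0∞) :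
    marksC T (fun k i i' q q' r => c * F k i i' q q' r) = c * marksC T F := by
  unfold marksC
  rw [← marks_mul]
  refine marks_congr fun k A B r _ => ?_
  rw [← marks_mul]
  refine marks_congr fun i a b r₁ _ => ?_
  rw [marks_mul]

theorem marksA_le_const {T : CTree} {L : ℕ} (hT : T.depth ≤ L) {c : ℝ≥0∞}
    {F : (k i : ℕ) → Mk CTree i → Bool → CTree → (Fin k → Bool × CTree) → ℝ≥0∞}
    (h : ∀ k i q o S r, treeA k i q o S r = T → F k i q o S r ≤ c) :
    marksA T F ≤ 2 ^ L * (2 * 2 ^ L) * c := by
  refine (marksA_mono (G := fun _ _ _ _ _ _ => c) h).trans ?_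
  have h1 : ∀ k A B r, plug k (node A B) r = T →
      marks A (fun _ _ _ _ => c) + marks B (fun _ _ _ _ => c) ≤ 2 * 2 ^ L * c := by
    intro k A B r hr
    have h2 := (sub_plug k (node A B) r).1
    rw [hr] at h2
    have hA : A.depth ≤ L := ((TL.Sub.left B (TL.Sub.refl A)).trans h2).depth_le.trans hT
    have hB : B.depth ≤ L := ((TL.Sub.right A (TL.Sub.refl B)).trans h2).depth_le.trans hT
    calc marks A (fun _ _ _ _ => c) + marks B (fun _ _ _ _ => c)
        ≤ 2 ^ A.depth * c + 2 ^ B.depth * c :=
          add_le_add (marks_le_const fun _ _ _ _ _ => le_rfl) (marks_le_const fun _ _ _ _ _ => le_rfl)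
      _ ≤ 2 ^ L * c + 2 ^ L * c := by
          gcongr <;> norm_num
      _ = _ := by ring
  refine (marks_le_const h1).trans ?_
  rw [mul_assoc (2 ^ L) (2 * 2 ^ L) c]
  exact mul_le_mul_left (pow_le_pow_right₀ (by norm_num) hT) _

theorem marksC_le_const {T : CTree} {L : ℕ} (hT : T.depth ≤ L) {c : ℝ≥0∞}
    {F : (k i i' : ℕ) → Mk CTree i → Mk CTree i' → (Fin k → Bool × CTree) → ℝ≥0∞}
    (h : ∀ k i i' q q' r, treeC k i i' q q' r = T → F k i i' q q' r ≤ c) :
    marksC T F ≤ 2 ^ L * (2 ^ L * 2 ^ L) * c := by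
  refine (marksC_mono (G := fun _ _ _ _ _ _ => c) h).trans ?_
  have h1 : ∀ k A B r, plug k (node A B) r = T →
      marks A (fun _ _ _ _ => marks B (fun _ _ _ _ => c)) ≤ 2 ^ L * 2 ^ L * c := by
    intro k A B r hr
    have h2 := (sub_plug k (node A B) r).1
    rw [hr] at h2
    have hA : A.depth ≤ L := ((TL.Sub.left B (TL.Sub.refl A)).trans h2).depth_le.trans hT
    have hB : B.depth ≤ L := ((TL.Sub.right A (TL.Sub.refl B)).trans h2).depth_le.trans hT
    calc marks A (fun _ _ _ _ => marks B (fun _ _ _ _ => c))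
        ≤ 2 ^ A.depth * (2 ^ B.depth * c) :=
          marks_le_const fun _ _ _ _ _ => marks_le_const fun _ _ _ _ _ => le_rfl
      _ ≤ 2 ^ L * (2 ^ L * c) := by
          gcongr <;> norm_num
      _ = _ := by ring
  refine (marks_le_const h1).trans ?_
  rw [mul_assoc (2 ^ L) (2 ^ L * 2 ^ L) c]
  exact mul_le_mul_left (pow_le_pow_right₀ (by norm_num) hT) _

/-! ### The pieces -/

theorem subA {k i : ℕ} {q : Mk CTree i} {o : Bool} {S : CTree} {r : Fin k → Bool × CTree} :
    TL.Sub q.1 (treeA k i q o S r) ∧ TL.Sub q.2.1 (treeA k i q o S r) ∧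
    (∀ j, TL.Sub (q.2.2 j).2 (treeA k i q o S r)) ∧ TL.Sub S (treeA k i q o S r) ∧
    ∀ j, TL.Sub (r j).2 (treeA k i q o S r) := by
  have h1 := sub_plug k (stepT (plug i (node q.1 q.2.1) q.2.2) (o, S)) r
  have h2 := sub_stepT (plug i (node q.1 q.2.1) q.2.2) (o, S)
  have h3 := sub_plug i (node q.1 q.2.1) q.2.2
  have h4 := h3.1.trans (h2.1.trans h1.1)
  exact ⟨(TL.Sub.left _ (TL.Sub.refl _)).trans h4, (TL.Sub.right _ (TL.Sub.refl _)).trans h4,
    fun j => (h3.2 j).trans (h2.1.trans h1.1), h2.2.trans h1.1, h1.2⟩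

theorem subC {k i i' : ℕ} {q : Mk CTree i} {q' : Mk CTree i'} {r : Fin k → Bool × CTree} :
    (TL.Sub q.1 (treeC k i i' q q' r) ∧ TL.Sub q.2.1 (treeC k i i' q q' r) ∧
      ∀ j, TL.Sub (q.2.2 j).2 (treeC k i i' q q' r)) ∧
    (TL.Sub q'.1 (treeC k i i' q q' r) ∧ TL.Sub q'.2.1 (treeC k i i' q q' r) ∧
      ∀ j, TL.Sub (q'.2.2 j).2 (treeC k i i' q q' r)) ∧
    ∀ j, TL.Sub (r j).2 (treeC k i i' q q' r) := by
  have h1 := sub_plug k (node (plug i (node q.1 q.2.1) q.2.2)
    (plug i' (node q'.1 q'.2.1) q'.2.2)) r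
  have h2 : TL.Sub (plug i (node q.1 q.2.1) q.2.2) (treeC k i i' q q' r) :=
    (TL.Sub.left _ (TL.Sub.refl _)).trans h1.1
  have h2' : TL.Sub (plug i' (node q'.1 q'.2.1) q'.2.2) (treeC k i i' q q' r) :=
    (TL.Sub.right _ (TL.Sub.refl _)).trans h1.1
  have h3 := sub_plug i (node q.1 q.2.1) q.2.2
  have h3' := sub_plug i' (node q'.1 q'.2.1) q'.2.2
  exact ⟨⟨(TL.Sub.left _ (TL.Sub.refl _)).trans (h3.1.trans h2),
    (TL.Sub.right _ (TL.Sub.refl _)).trans (h3.1.trans h2), fun j => (h3.2 j).trans h2⟩,
    ⟨(TL.Sub.left _ (TL.Sub.refl _)).trans (h3'.1.trans h2'),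
    (TL.Sub.right _ (TL.Sub.refl _)).trans (h3'.1.trans h2'), fun j => (h3'.2 j).trans h2'⟩, h1.2⟩

theorem depth_treeA {k i : ℕ} {q : Mk CTree i} {o : Bool} {S : CTree}
    {r : Fin k → Bool × CTree} : k + i + 2 ≤ (treeA k i q o S r).depth := by
  have h1 := (depth_plug (m := k) (X := stepT (plug i (node q.1 q.2.1) q.2.2) (o, S)) (r := r)).1
  have h2 := (depth_plug (m := i) (X := node q.1 q.2.1) (r := q.2.2)).1
  have h3 : 1 ≤ (node q.1 q.2.1).depth := Nat.le_add_left 1 _
  have h4 := depth_stepT (plug i (node q.1 q.2.1) q.2.2) (o, S)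
  have h5 := le_max_left (plug i (node q.1 q.2.1) q.2.2).depth S.depth
  unfold treeA
  omega

theorem depth_treeC {k i i' : ℕ} {q : Mk CTree i} {q' : Mk CTree i'}
    {r : Fin k → Bool × CTree} : k + i + 2 ≤ (treeC k i i' q q' r).depth ∧
      k + i' + 2 ≤ (treeC k i i' q q' r).depth := by
  have h1 := (depth_plug (m := k) (X := node (plug i (node q.1 q.2.1) q.2.2)
    (plug i' (node q'.1 q'.2.1) q'.2.2)) (r := r)).1
  have h2 := (depth_plug (m := i) (X := node q.1 q.2.1) (r := q.2.2)).1
  have h2' := (depth_plug (m := i') (X := node q'.1 q'.2.1) (r := q'.2.2)).1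
  have h3 : 1 ≤ (node q.1 q.2.1).depth := Nat.le_add_left 1 _
  have h3' : 1 ≤ (node q'.1 q'.2.1).depth := Nat.le_add_left 1 _
  have h4 : (node (plug i (node q.1 q.2.1) q.2.2) (plug i' (node q'.1 q'.2.1) q'.2.2)).depth =
      max (plug i (node q.1 q.2.1) q.2.2).depth (plug i' (node q'.1 q'.2.1) q'.2.2).depth + 1 := rfl
  have h5 := le_max_left (plug i (node q.1 q.2.1) q.2.2).depth
    (plug i' (node q'.1 q'.2.1) q'.2.2).depth
  have h6 := le_max_right (plug i (node q.1 q.2.1) q.2.2).depth
    (plug i' (node q'.1 q'.2.1) q'.2.2).depth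
  unfold treeC
  omega

/-- The product of the typical weights of a marked node. -/
def GM (Al : Set CTree) (g : CTree → ℝ≥0∞) {i : ℕ} (q : Mk CTree i) : ℝ≥0∞ :=
  Gp Al g q.1 * (Gp Al g q.2.1 * ∏ j, Gp Al g (q.2.2 j).2)

/-- The product of the typical weights of a spine. -/
def GS (Al : Set CTree) (g : CTree → ℝ≥0∞) {k : ℕ}
    (r : Fin k → Bool × CTree) : ℝ≥0∞ := ∏ j, Gp Al g (r j).2

theorem pieces_A {Al : Set CTree} {g : CTree → ℝ≥0∞} (hg : ∀ z, g z ≤ 1) {L k i : ℕ}
    {q : Mk CTree i} {o : Bool} {S : CTree} {r : Fin k → Bool × CTree}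
    (hT : treeA k i q o S r ∈ Al) (hL : (treeA k i q o S r).depth ≤ L) :
    1 ≤ GM Al g q * (Gp Al g S * GS Al g r) +
      (L + 1 : ℕ) * msub (treeA k i q o S r) fun _ X _ => chi Al g X := by
  obtain ⟨h1, h2, h3, h4, h5⟩ := subA (k := k) (i := i) (q := q) (o := o) (S := S) (r := r)
  have h := pieces_le hg hT (Finset.univ : Finset ((Bool ⊕ Fin i) ⊕ (Unit ⊕ Fin k)))
    (P := Sum.elim (Sum.elim (fun c => bif c then q.1 else q.2.1) fun j => (q.2.2 j).2)
      (Sum.elim (fun _ => S) fun j => (r j).2)) (by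
      rintro ((c | j) | (c | j)) -
      · cases c
        · exact h2
        · exact h1
      · exact h3 j
      · exact h4
      · exact h5 j)
  refine h.trans (add_le_add (le_of_eq ?_) ?_)
  · rw [Fintype.prod_sum_type, Fintype.prod_sum_type, Fintype.prod_sum_type, Fintype.prod_bool]
    simp only [Sum.elim_inl, Sum.elim_inr, cond_true, cond_false, Finset.univ_unique,
      Finset.prod_singleton]
    unfold GM GS
    ring
  · refine mul_le_mul_left ?_ _
    have h6 := depth_treeA (k := k) (i := i) (q := q) (o := o) (S := S) (r := r)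
    have h7 : (Finset.univ : Finset ((Bool ⊕ Fin i) ⊕ (Unit ⊕ Fin k))).card ≤ L + 1 := by
      rw [Finset.card_univ]
      simp only [Fintype.card_sum, Fintype.card_bool, Fintype.card_fin, Fintype.card_unit]
      omega
    exact_mod_cast h7

theorem pieces_C {Al : Set CTree} {g : CTree → ℝ≥0∞} (hg : ∀ z, g z ≤ 1) {L k i i' : ℕ}
    {q : Mk CTree i} {q' : Mk CTree i'} {r : Fin k → Bool × CTree}
    (hT : treeC k i i' q q' r ∈ Al) (hL : (treeC k i i' q q' r).depth ≤ L) :
    1 ≤ GM Al g q * (GM Al g q' * GS Al g r) +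
      (2 * L + 1 : ℕ) * msub (treeC k i i' q q' r) fun _ X _ => chi Al g X := by
  obtain ⟨⟨h1, h2, h3⟩, ⟨h1', h2', h3'⟩, h5⟩ := subC (k := k) (i := i) (i' := i') (q := q)
    (q' := q') (r := r)
  have h := pieces_le hg hT
    (Finset.univ : Finset ((Bool ⊕ Fin i) ⊕ ((Bool ⊕ Fin i') ⊕ Fin k)))
    (P := Sum.elim (Sum.elim (fun c => bif c then q.1 else q.2.1) fun j => (q.2.2 j).2)
      (Sum.elim (Sum.elim (fun c => bif c then q'.1 else q'.2.1) fun j => (q'.2.2 j).2)
        fun j => (r j).2)) (by
      rintro ((c | j) | ((c | j) | j)) -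
      · cases c
        · exact h2
        · exact h1
      · exact h3 j
      · cases c
        · exact h2'
        · exact h1'
      · exact h3' j
      · exact h5 j)
  refine h.trans (add_le_add (le_of_eq ?_) ?_)
  · rw [Fintype.prod_sum_type, Fintype.prod_sum_type, Fintype.prod_sum_type,
      Fintype.prod_sum_type, Fintype.prod_bool, Fintype.prod_bool]
    simp only [Sum.elim_inl, Sum.elim_inr, cond_true, cond_false]
    unfold GM GS
    ring
  · refine mul_le_mul_left ?_ _
    have h6 := depth_treeC (k := k) (i := i) (i' := i') (q := q) (q' := q') (r := r)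
    have h7 : (Finset.univ : Finset ((Bool ⊕ Fin i) ⊕ ((Bool ⊕ Fin i') ⊕ Fin k))).card ≤
        2 * L + 1 := by
      rw [Finset.card_univ]
      simp only [Fintype.card_sum, Fintype.card_bool, Fintype.card_fin]
      omega
    exact_mod_cast h7

/-! ### Integrated form -/

theorem indicator_pre {X Y : Type*} (D : Set Y) (w : X → Y) (f : X → ℝ≥0∞) (p : X) :
    D.indicator (fun _ => f p) (w p) = (w ⁻¹' D).indicator f p := by
  classical
  by_cases h : w p ∈ D
  · rw [indicator_of_mem h, indicator_of_mem (s := w ⁻¹' D) h f]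
  · rw [indicator_of_notMem h, indicator_of_notMem (s := w ⁻¹' D) h f]

theorem chi_le_pieces {Al : Set CTree} {g : CTree → ℝ≥0∞} (hg : ∀ z, g z ≤ 1) (S : CTree) :
    Gp Al g S ≤ 1 := by
  unfold Gp
  by_cases h : S ∈ Al
  · rw [indicator_of_mem h]; exact hg _
  · rw [indicator_of_notMem h]; exact zero_le

variable {ν : Measure Ph}

/-- The data of the splitting: a measurable set `Al` of ok trees, the typical part `g`. -/
structure SplitData (Φ : E3 → ℝ) (ε t : ℝ) (L : ℕ) (Al : Set CTree) (g : CTree → ℝ≥0∞) : Prop where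
  pot : IsPotential Φ
  eps : 0 < ε
  meas : MeasurableSet Al
  sub : Al ⊆ okT Φ ε t L
  gm : Measurable g
  g1 : ∀ z, g z ≤ 1
  bm : MeasurableSet (bad1 Al)

variable {L : ℕ} {Al : Set CTree} {g : CTree → ℝ≥0∞}

theorem SplitData.measurable_Gp (h : SplitData Φ ε t L Al g) : Measurable (Gp Al g) :=
  h.gm.indicator h.meas

theorem SplitData.Gp_le (h : SplitData Φ ε t L Al g) (S : CTree) : Gp Al g S ≤ 1 :=
  chi_le_pieces h.g1 S

theorem SplitData.measurable_chi (h : SplitData Φ ε t L Al g) : Measurable (chi Al g) := by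
  unfold chi
  exact (measurable_const.indicator h.bm).add
    ((measurable_const.sub h.gm).indicator h.meas)

theorem SplitData.measurable_GM (h : SplitData Φ ε t L Al g) (i : ℕ) :
    Measurable fun q : Mk CTree i => GM Al g q :=
  (h.measurable_Gp.comp measurable_fst).mul ((h.measurable_Gp.comp
    (measurable_fst.comp measurable_snd)).mul (Finset.measurable_fun_prod _ fun j _ =>
      h.measurable_Gp.comp (measurable_snd.comp ((measurable_pi_apply j).comp
        (measurable_snd.comp measurable_snd)))))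

theorem SplitData.measurable_GS (h : SplitData Φ ε t L Al g) (k : ℕ) :
    Measurable fun r : Fin k → Bool × CTree => GS Al g r :=
  Finset.measurable_fun_prod _ fun j _ => h.measurable_Gp.comp (measurable_pi_apply j).snd

/-- The typical law of the pieces. -/
def typT (Al : Set CTree) (g : CTree → ℝ≥0∞) (Θ : Measure CTree) : Measure CTree :=
  Θ.withDensity (Gp Al g)

theorem SplitData.isFiniteMeasure (h : SplitData Φ ε t L Al g) (Θ : Measure CTree)
    [IsFiniteMeasure Θ] : IsFiniteMeasure (typT Al g Θ) :=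
  isFiniteMeasure_withDensity
    ((lintegral_mono h.Gp_le).trans_lt (by rw [lintegral_one]; exact measure_lt_top _ _)).ne

/-- **Pairs (node, node in its past) of alive trees.** -/
theorem splitA_le [IsFiniteMeasure ν] (h : SplitData Φ ε t L Al g) (L' : ℕ)
    {F : (k i : ℕ) → Mk CTree i → Bool → CTree → (Fin k → Bool × CTree) → ℝ≥0∞}
    (hF : ∀ k i, Measurable fun p : Mk CTree i × (Bool × CTree) × (Fin k → Bool × CTree) =>
      F k i p.1 p.2.1.1 p.2.1.2 p.2.2) :
    ∫⁻ T in Al, marksA T F ∂(tree ν L') ≤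
      (∑' k, ∑' i, ∫⁻ q : Mk CTree i, ∫⁻ s : Bool × CTree, ∫⁻ r,
        (okT Φ ε t L).indicator (fun _ => F k i q s.1 s.2 r) (treeA k i q s.1 s.2 r)
          ∂(spM (typT Al g (tree ν L')) k) ∂(stM (typT Al g (tree ν L')))
          ∂(mkM (typT Al g (tree ν L')) i)) +
      (L + 1 : ℕ) * ∫⁻ T in Al, msub T (fun _ X _ => chi Al g X) * marksA T F
        ∂(tree ν L') := by
  set Θ := tree ν L' with hΘ
  have hfin := h.isFiniteMeasure Θ
  have hokm : MeasurableSet (okT Φ ε t L) := measurableSet_okT h.pot h.eps.ne' L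
  set F' : (k i : ℕ) → Mk CTree i → Bool → CTree → (Fin k → Bool × CTree) → ℝ≥0∞ :=
    fun k i q o S r => (okT Φ ε t L).indicator (fun _ => F k i q o S r) (treeA k i q o S r) with hF'
  set F'' : (k i : ℕ) → Mk CTree i → Bool → CTree → (Fin k → Bool × CTree) → ℝ≥0∞ :=
    fun k i q o S r => GM Al g q * (Gp Al g S * (GS Al g r * F' k i q o S r)) with hF''
  have hFm' : ∀ k i, Measurable fun p : Mk CTree i × (Bool × CTree) × (Fin k → Bool × CTree) =>
      F' k i p.1 p.2.1.1 p.2.1.2 p.2.2 := fun k i => by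
    have e : (fun p : Mk CTree i × (Bool × CTree) × (Fin k → Bool × CTree) =>
        F' k i p.1 p.2.1.1 p.2.1.2 p.2.2) =
        ((fun p : Mk CTree i × (Bool × CTree) × (Fin k → Bool × CTree) =>
          treeA k i p.1 p.2.1.1 p.2.1.2 p.2.2) ⁻¹' okT Φ ε t L).indicator
          (fun p => F k i p.1 p.2.1.1 p.2.1.2 p.2.2) :=
      funext fun p => indicator_pre (okT Φ ε t L) (fun p : Mk CTree i × (Bool × CTree) ×
        (Fin k → Bool × CTree) => treeA k i p.1 p.2.1.1 p.2.1.2 p.2.2)
        (fun p => F k i p.1 p.2.1.1 p.2.1.2 p.2.2) p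
    rw [e]
    exact (hF k i).indicator (measurable_treeA k i hokm)
  have hFm'' : ∀ k i, Measurable fun p : Mk CTree i × (Bool × CTree) × (Fin k → Bool × CTree) =>
      F'' k i p.1 p.2.1.1 p.2.1.2 p.2.2 := fun k i =>
    ((h.measurable_GM i).comp measurable_fst).mul ((h.measurable_Gp.comp
      (measurable_snd.comp (measurable_fst.comp measurable_snd))).mul
      (((h.measurable_GS k).comp (measurable_snd.comp measurable_snd)).mul (hFm' k i)))
  -- the pointwise bound
  have hpt : ∀ T ∈ Al, marksA T F ≤ marksA T F'' +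
      (L + 1 : ℕ) * (msub T (fun _ X _ => chi Al g X) * marksA T F) := by
    intro T hT
    have hT' := h.sub hT
    rw [← mul_assoc, ← marksA_mul, ← marksA_add]
    refine marksA_mono fun k i q o S r hr => ?_
    have h1 := pieces_A (L := L) (k := k) (i := i) (q := q) (o := o) (S := S)
      (r := r) h.g1 (by rw [hr]; exact hT) (by rw [hr]; exact hT'.2.2)
    rw [hr] at h1
    calc F k i q o S r = 1 * F k i q o S r := (one_mul _).symm
      _ ≤ (GM Al g q * (Gp Al g S * GS Al g r) + (L + 1 : ℕ) *
          msub T fun _ X _ => chi Al g X) * F k i q o S r := mul_le_mul_left h1 _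
      _ = F'' k i q o S r + _ := by
          rw [add_mul, hF'', hF']
          simp only
          rw [hr, indicator_of_mem hT']
          ring
  have hmA : Measurable fun T => marksA T F'' := by
    unfold marksA
    have hb : ∀ (o : Bool) (k : ℕ), Measurable fun p : CTree × CTree × (Fin k → Bool × CTree) =>
        marks p.1 (fun i a b r₁ => F'' k i (a, b, r₁) o p.2.1 p.2.2) := fun o k =>
      measurable_marks (F := fun i a b r₁ (x : CTree × (Fin k → Bool × CTree)) =>
        F'' k i (a, b, r₁) o x.1 x.2) fun i => (hFm'' k i).comp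
          (measurable_fst.prodMk ((measurable_const.prodMk
          (measurable_fst.comp measurable_snd)).prodMk (measurable_snd.comp measurable_snd)))
    have h2 := measurable_marks (X := Unit) (F := fun k A B r _ =>
      marks A (fun i a b r₁ => F'' k i (a, b, r₁) true B r) +
      marks B (fun i a b r₁ => F'' k i (a, b, r₁) false A r)) (fun k => by
        refine Measurable.add ?_ ?_
        · exact ((hb true k).comp measurable_fst)
        · exact ((hb false k).comp (((measurable_fst.comp measurable_snd).prodMk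
            (measurable_fst.prodMk (measurable_snd.comp measurable_snd))).comp measurable_fst)))
    exact h2.comp (measurable_id.prodMk (measurable_const (a := ())))
  calc ∫⁻ T in Al, marksA T F ∂Θ
      ≤ ∫⁻ T in Al, (marksA T F'' +
        (L + 1 : ℕ) * (msub T (fun _ X _ => chi Al g X) * marksA T F)) ∂Θ :=
        setLIntegral_mono' h.meas hpt
    _ = ∫⁻ T in Al, marksA T F'' ∂Θ +
        (L + 1 : ℕ) * ∫⁻ T in Al, msub T (fun _ X _ => chi Al g X) * marksA T F ∂Θ := by
        rw [lintegral_add_left hmA, lintegral_const_mul' _ _ (ENNReal.natCast_ne_top _)]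
    _ ≤ _ := by
        refine add_le_add ?_ le_rfl
        refine (setLIntegral_le_lintegral _ _).trans ((lintegral_marksA_le L' hFm'').trans
          (le_of_eq ?_))
        refine tsum_congr fun k => tsum_congr fun i => ?_
        -- the densities
        have m3 : ∀ q : Mk CTree i, Measurable fun p : (Bool × CTree) × (Fin k → Bool × CTree) =>
            F' k i q p.1.1 p.1.2 p.2 := fun q => (hFm' k i).comp measurable_prodMk_left
        have e3 : ∀ (q : Mk CTree i) (s : Bool × CTree),
            ∫⁻ r, F' k i q s.1 s.2 r ∂(spM (typT Al g Θ) k) =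
            ∫⁻ r, GS Al g r * F' k i q s.1 s.2 r ∂(spM Θ k) := fun q s =>
          lintegral_spM_withDensity Θ h.measurable_Gp h.Gp_le k
            ((m3 q).comp measurable_prodMk_left)
        have hj3 : Measurable fun p : (Mk CTree i × (Bool × CTree)) × (Fin k → Bool × CTree) =>
            GS Al g p.2 * F' k i p.1.1 p.1.2.1 p.1.2.2 p.2 :=
          ((h.measurable_GS k).comp measurable_snd).mul ((hFm' k i).comp
            ((measurable_fst.comp measurable_fst).prodMk
              ((measurable_snd.comp measurable_fst).prodMk measurable_snd)))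
        have m2 : Measurable fun p : Mk CTree i × (Bool × CTree) =>
            ∫⁻ r, GS Al g r * F' k i p.1 p.2.1 p.2.2 r ∂(spM Θ k) := hj3.lintegral_prod_right'
        have e2 : ∀ q : Mk CTree i, ∫⁻ s : Bool × CTree,
            ∫⁻ r, F' k i q s.1 s.2 r ∂(spM (typT Al g Θ) k) ∂(stM (typT Al g Θ)) =
            ∫⁻ s : Bool × CTree, Gp Al g s.2 *
              ∫⁻ r, GS Al g r * F' k i q s.1 s.2 r ∂(spM Θ k) ∂(stM Θ) := fun q => by
          simp only [e3]
          exact lintegral_stM_withDensity Θ h.measurable_Gp h.Gp_le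
            (m2.comp measurable_prodMk_left)
        have hj2 : Measurable fun p : Mk CTree i × (Bool × CTree) => Gp Al g p.2.2 *
              ∫⁻ r, GS Al g r * F' k i p.1 p.2.1 p.2.2 r ∂(spM Θ k) :=
          (h.measurable_Gp.comp (measurable_snd.comp measurable_snd)).mul m2
        have m1 : Measurable fun q : Mk CTree i => ∫⁻ s : Bool × CTree, Gp Al g s.2 *
              ∫⁻ r, GS Al g r * F' k i q s.1 s.2 r ∂(spM Θ k) ∂(stM Θ) :=
          hj2.lintegral_prod_right'
        have e1 : ∫⁻ q : Mk CTree i, ∫⁻ s : Bool × CTree,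
            ∫⁻ r, F' k i q s.1 s.2 r ∂(spM (typT Al g Θ) k) ∂(stM (typT Al g Θ))
              ∂(mkM (typT Al g Θ) i) =
            ∫⁻ q : Mk CTree i, GM Al g q * ∫⁻ s : Bool × CTree, Gp Al g s.2 *
              ∫⁻ r, GS Al g r * F' k i q s.1 s.2 r ∂(spM Θ k) ∂(stM Θ) ∂(mkM Θ i) := by
          simp only [e2]
          exact lintegral_mkM_withDensity Θ h.measurable_Gp h.Gp_le i m1
        rw [e1]
        refine lintegral_congr fun q => ?_
        have hs1 : Measurable fun s : Bool × CTree => Gp Al g s.2 *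
              ∫⁻ r, GS Al g r * F' k i q s.1 s.2 r ∂(spM Θ k) :=
          hj2.comp measurable_prodMk_left
        rw [← lintegral_const_mul _ hs1]
        refine lintegral_congr fun s => ?_
        have hr1 : Measurable fun r : Fin k → Bool × CTree =>
            GS Al g r * F' k i q s.1 s.2 r :=
          (h.measurable_GS k).mul ((m3 q).comp measurable_prodMk_left)
        rw [← mul_assoc, ← lintegral_const_mul _ hr1]
        refine lintegral_congr fun r => ?_
        rw [hF'']
        simp only
        ring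

/-- **Pairs of nodes in different branches of alive trees.** -/
theorem splitC_le [IsFiniteMeasure ν] (h : SplitData Φ ε t L Al g) (L' : ℕ)
    {F : (k i i' : ℕ) → Mk CTree i → Mk CTree i' → (Fin k → Bool × CTree) → ℝ≥0∞}
    (hF : ∀ k i i', Measurable fun p : Mk CTree i × Mk CTree i' × (Fin k → Bool × CTree) =>
      F k i i' p.1 p.2.1 p.2.2) :
    ∫⁻ T in Al, marksC T F ∂(tree ν L') ≤
      (∑' k, ∑' i, ∑' i', ∫⁻ q : Mk CTree i, ∫⁻ q' : Mk CTree i', ∫⁻ r,
        (okT Φ ε t L).indicator (fun _ => F k i i' q q' r) (treeC k i i' q q' r)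
          ∂(spM (typT Al g (tree ν L')) k) ∂(mkM (typT Al g (tree ν L')) i')
          ∂(mkM (typT Al g (tree ν L')) i)) +
      (2 * L + 1 : ℕ) * ∫⁻ T in Al, msub T (fun _ X _ => chi Al g X) * marksC T F
        ∂(tree ν L') := by
  set Θ := tree ν L' with hΘ
  have hfin := h.isFiniteMeasure Θ
  have hokm : MeasurableSet (okT Φ ε t L) := measurableSet_okT h.pot h.eps.ne' L
  set F' : (k i i' : ℕ) → Mk CTree i → Mk CTree i' → (Fin k → Bool × CTree) → ℝ≥0∞ :=
    fun k i i' q q' r => (okT Φ ε t L).indicator (fun _ => F k i i' q q' r)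
      (treeC k i i' q q' r) with hF'
  set F'' : (k i i' : ℕ) → Mk CTree i → Mk CTree i' → (Fin k → Bool × CTree) → ℝ≥0∞ :=
    fun k i i' q q' r => GM Al g q * (GM Al g q' * (GS Al g r *
      F' k i i' q q' r)) with hF''
  have hFm' : ∀ k i i', Measurable fun p : Mk CTree i × Mk CTree i' × (Fin k → Bool × CTree) =>
      F' k i i' p.1 p.2.1 p.2.2 := fun k i i' => by
    have e : (fun p : Mk CTree i × Mk CTree i' × (Fin k → Bool × CTree) =>
        F' k i i' p.1 p.2.1 p.2.2) =
        ((fun p : Mk CTree i × Mk CTree i' × (Fin k → Bool × CTree) =>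
          treeC k i i' p.1 p.2.1 p.2.2) ⁻¹' okT Φ ε t L).indicator
          (fun p => F k i i' p.1 p.2.1 p.2.2) :=
      funext fun p => indicator_pre (okT Φ ε t L) (fun p : Mk CTree i × Mk CTree i' ×
        (Fin k → Bool × CTree) => treeC k i i' p.1 p.2.1 p.2.2)
        (fun p => F k i i' p.1 p.2.1 p.2.2) p
    rw [e]
    exact (hF k i i').indicator (measurable_treeC k i i' hokm)
  have hFm'' : ∀ k i i', Measurable fun p : Mk CTree i × Mk CTree i' × (Fin k → Bool × CTree) =>
      F'' k i i' p.1 p.2.1 p.2.2 := fun k i i' =>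
    ((h.measurable_GM i).comp measurable_fst).mul (((h.measurable_GM i').comp
      (measurable_fst.comp measurable_snd)).mul
      (((h.measurable_GS k).comp (measurable_snd.comp measurable_snd)).mul (hFm' k i i')))
  have hpt : ∀ T ∈ Al, marksC T F ≤ marksC T F'' +
      (2 * L + 1 : ℕ) * (msub T (fun _ X _ => chi Al g X) * marksC T F) := by
    intro T hT
    have hT' := h.sub hT
    rw [← mul_assoc, ← marksC_mul, ← marksC_add]
    refine marksC_mono fun k i i' q q' r hr => ?_
    have h1 := pieces_C (L := L) (k := k) (i := i) (i' := i') (q := q)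
      (q' := q') (r := r) h.g1 (by rw [hr]; exact hT) (by rw [hr]; exact hT'.2.2)
    rw [hr] at h1
    calc F k i i' q q' r = 1 * F k i i' q q' r := (one_mul _).symm
      _ ≤ (GM Al g q * (GM Al g q' * GS Al g r) + (2 * L + 1 : ℕ) *
          msub T fun _ X _ => chi Al g X) * F k i i' q q' r := mul_le_mul_left h1 _
      _ = F'' k i i' q q' r + _ := by
          rw [add_mul, hF'', hF']
          simp only
          rw [hr, indicator_of_mem hT']
          ring
  have hmA : Measurable fun T => marksC T F'' := by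
    unfold marksC
    have hB : ∀ k i, Measurable fun p : CTree × Mk CTree i × (Fin k → Bool × CTree) =>
        marks p.1 (fun i' a' b' r₂ => F'' k i i' p.2.1 (a', b', r₂) p.2.2) := fun k i =>
      measurable_marks (F := fun i' a' b' r₂ (x : Mk CTree i × (Fin k → Bool × CTree)) =>
        F'' k i i' x.1 (a', b', r₂) x.2) fun i' => (hFm'' k i i').comp
          ((measurable_fst.comp measurable_snd).prodMk (measurable_fst.prodMk
            (measurable_snd.comp measurable_snd)))
    have hA : ∀ k, Measurable fun p : CTree × CTree × (Fin k → Bool × CTree) =>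
        marks p.1 (fun i a b r₁ => marks p.2.1 fun i' a' b' r₂ =>
          F'' k i i' (a, b, r₁) (a', b', r₂) p.2.2) := fun k =>
      measurable_marks (F := fun i a b r₁ (x : CTree × (Fin k → Bool × CTree)) =>
        marks x.1 fun i' a' b' r₂ => F'' k i i' (a, b, r₁) (a', b', r₂) x.2) fun i =>
          (hB k i).comp ((measurable_fst.comp measurable_snd).prodMk (measurable_fst.prodMk
            (measurable_snd.comp measurable_snd)))
    have h2 := measurable_marks (X := Unit) (F := fun k A B r _ =>
      marks A fun i a b r₁ => marks B fun i' a' b' r₂ =>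
        F'' k i i' (a, b, r₁) (a', b', r₂) r) (fun k => (hA k).comp measurable_fst)
    exact h2.comp (measurable_id.prodMk (measurable_const (a := ())))
  calc ∫⁻ T in Al, marksC T F ∂Θ
      ≤ ∫⁻ T in Al, (marksC T F'' +
        (2 * L + 1 : ℕ) * (msub T (fun _ X _ => chi Al g X) * marksC T F)) ∂Θ :=
        setLIntegral_mono' h.meas hpt
    _ = ∫⁻ T in Al, marksC T F'' ∂Θ +
        (2 * L + 1 : ℕ) * ∫⁻ T in Al, msub T (fun _ X _ => chi Al g X) * marksC T F ∂Θ := by
        rw [lintegral_add_left hmA, lintegral_const_mul' _ _ (ENNReal.natCast_ne_top _)]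
    _ ≤ _ := by
        refine add_le_add ?_ le_rfl
        refine (setLIntegral_le_lintegral _ _).trans ((lintegral_marksC_le L' hFm'').trans
          (le_of_eq ?_))
        refine tsum_congr fun k => tsum_congr fun i => tsum_congr fun i' => ?_
        have m3 : ∀ q : Mk CTree i, Measurable fun p : Mk CTree i' × (Fin k → Bool × CTree) =>
            F' k i i' q p.1 p.2 := fun q => (hFm' k i i').comp measurable_prodMk_left
        have e3 : ∀ (q : Mk CTree i) (q' : Mk CTree i'),
            ∫⁻ r, F' k i i' q q' r ∂(spM (typT Al g Θ) k) =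
            ∫⁻ r, GS Al g r * F' k i i' q q' r ∂(spM Θ k) := fun q q' =>
          lintegral_spM_withDensity Θ h.measurable_Gp h.Gp_le k
            ((m3 q).comp measurable_prodMk_left)
        have hj3 : Measurable fun p : (Mk CTree i × Mk CTree i') × (Fin k → Bool × CTree) =>
            GS Al g p.2 * F' k i i' p.1.1 p.1.2 p.2 :=
          ((h.measurable_GS k).comp measurable_snd).mul ((hFm' k i i').comp
            ((measurable_fst.comp measurable_fst).prodMk
              ((measurable_snd.comp measurable_fst).prodMk measurable_snd)))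
        have m2 : Measurable fun p : Mk CTree i × Mk CTree i' =>
            ∫⁻ r, GS Al g r * F' k i i' p.1 p.2 r ∂(spM Θ k) := hj3.lintegral_prod_right'
        have e2 : ∀ q : Mk CTree i, ∫⁻ q' : Mk CTree i',
            ∫⁻ r, F' k i i' q q' r ∂(spM (typT Al g Θ) k) ∂(mkM (typT Al g Θ) i') =
            ∫⁻ q' : Mk CTree i', GM Al g q' *
              ∫⁻ r, GS Al g r * F' k i i' q q' r ∂(spM Θ k) ∂(mkM Θ i') := fun q => by
          simp only [e3]
          exact lintegral_mkM_withDensity Θ h.measurable_Gp h.Gp_le i'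
            (m2.comp measurable_prodMk_left)
        have hj2 : Measurable fun p : Mk CTree i × Mk CTree i' => GM Al g p.2 *
              ∫⁻ r, GS Al g r * F' k i i' p.1 p.2 r ∂(spM Θ k) :=
          ((h.measurable_GM i').comp measurable_snd).mul m2
        have m1 : Measurable fun q : Mk CTree i => ∫⁻ q' : Mk CTree i', GM Al g q' *
              ∫⁻ r, GS Al g r * F' k i i' q q' r ∂(spM Θ k) ∂(mkM Θ i') :=
          hj2.lintegral_prod_right'
        have e1 : ∫⁻ q : Mk CTree i, ∫⁻ q' : Mk CTree i',
            ∫⁻ r, F' k i i' q q' r ∂(spM (typT Al g Θ) k) ∂(mkM (typT Al g Θ) i')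
              ∂(mkM (typT Al g Θ) i) =
            ∫⁻ q : Mk CTree i, GM Al g q * ∫⁻ q' : Mk CTree i', GM Al g q' *
              ∫⁻ r, GS Al g r * F' k i i' q q' r ∂(spM Θ k) ∂(mkM Θ i') ∂(mkM Θ i) := by
          simp only [e2]
          exact lintegral_mkM_withDensity Θ h.measurable_Gp h.Gp_le i m1
        rw [e1]
        refine lintegral_congr fun q => ?_
        have hs1 : Measurable fun q' : Mk CTree i' => GM Al g q' *
              ∫⁻ r, GS Al g r * F' k i i' q q' r ∂(spM Θ k) :=
          hj2.comp measurable_prodMk_left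
        rw [← lintegral_const_mul _ hs1]
        refine lintegral_congr fun q' => ?_
        have hr1 : Measurable fun r : Fin k → Bool × CTree =>
            GS Al g r * F' k i i' q q' r :=
          (h.measurable_GS k).mul ((m3 q).comp measurable_prodMk_left)
        rw [← mul_assoc, ← lintegral_const_mul _ hr1]
        refine lintegral_congr fun r => ?_
        rw [hF'']
        simp only
        ring

/-! ### The error -/

/-- **The error terms**: `Ψ T` is at most a polynomial of the root velocity. -/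
theorem error_le [IsFiniteMeasure ν] (h : SplitData Φ ε t L Al g) (hb : 0 < b) {K : ℝ≥0∞}
    {L' : ℕ} (hK : LineLaw Φ ε b K ((tree ν L').restrict (okT Φ ε t L))) (q : ℕ) {c : ℝ≥0∞}
    {Ψ : CTree → ℝ≥0∞} (hΨ : ∀ T ∈ Al, Ψ T ≤ c * pw q (ln Φ ε T).2) {α : Measure Ph}
    (hα : ∀ F : Ph → ℝ≥0∞, Measurable F →
      ∫⁻ T in Al, (1 - g T) * F (ln Φ ε T) ∂(tree ν L') ≤ ∫⁻ z, F z ∂α) :
    ∫⁻ T in Al, msub T (fun _ X _ => chi Al g X) * Ψ T ∂(tree ν L') ≤
      c * (errC b t K q L * (∫⁻ T in bad1 Al, pw (q + L) (ln Φ ε T).2 ∂(tree ν L') +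
        ∫⁻ z, pw (q + L) z.2 ∂α)) := by
  set Θ := tree ν L' with hΘ
  have hpw : ∀ q, Measurable fun T : CTree => pw q (ln Φ ε T).2 := fun q =>
    (measurable_pw' q).comp (measurable_snd.comp (measurable_ln h.pot h.eps.ne'))
  have hms : Measurable fun T => msub T fun _ X _ => chi Al g X :=
    measurable_msub' fun m => h.measurable_chi.comp measurable_fst
  have hm1 : Measurable fun T => pw q (ln Φ ε T).2 * msub T fun _ X _ => chi Al g X :=
    (hpw q).mul hms
  have h1 : ∫⁻ T in Al, msub T (fun _ X _ => chi Al g X) * Ψ T ∂Θ ≤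
      c * ∫⁻ T in okT Φ ε t L, pw q (ln Φ ε T).2 * msub T (fun _ X _ => chi Al g X) ∂Θ := by
    rw [← lintegral_const_mul _ hm1]
    refine (setLIntegral_mono' h.meas fun T hT => ?_).trans (lintegral_mono_set h.sub)
    calc msub T (fun _ X _ => chi Al g X) * Ψ T
        ≤ msub T (fun _ X _ => chi Al g X) * (c * pw q (ln Φ ε T).2) := by
          gcongr
          exact hΨ T hT
      _ = _ := by ring
  refine h1.trans (mul_le_mul_right ?_ c)
  refine (err_le h.pot h.eps hb hK q h.measurable_chi).trans (mul_le_mul_right ?_ _)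
  have h2 : ∀ X, pw (q + L) (ln Φ ε X).2 * chi Al g X =
      (bad1 Al).indicator (fun T => pw (q + L) (ln Φ ε T).2) X +
      Al.indicator (fun T => (1 - g T) * pw (q + L) (ln Φ ε T).2) X := by
    intro X
    unfold chi
    by_cases h3 : X ∈ bad1 Al
    · by_cases h4 : X ∈ Al
      · rw [indicator_of_mem h3, indicator_of_mem h3, indicator_of_mem h4, indicator_of_mem h4]
        ring
      · rw [indicator_of_mem h3, indicator_of_mem h3, indicator_of_notMem h4,
          indicator_of_notMem h4]
        ring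
    · by_cases h4 : X ∈ Al
      · rw [indicator_of_notMem h3, indicator_of_notMem h3, indicator_of_mem h4,
          indicator_of_mem h4]
        ring
      · rw [indicator_of_notMem h3, indicator_of_notMem h3, indicator_of_notMem h4,
          indicator_of_notMem h4]
        ring
  simp only [h2]
  rw [lintegral_add_left ((hpw _).indicator h.bm), lintegral_indicator h.bm,
    lintegral_indicator h.meas]
  refine add_le_add le_rfl ?_
  exact hα _ ((measurable_pw' (q + L)).comp measurable_snd)

end Vale.Agent.P119.M
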