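import Vale.Agent.P119.PB.Split

/-!
# P119, block PROB: the typical law of the pieces, one marked node (`helper298`)

* `exists_typ`: if the law of a key `ky` (the root line, the root line and the depth) of the trees
  of `Al` is at most `τ + α`, there is a splitting `g` for which the key of `typT` has law at most
  `τ` and the rest has law at most `α`;
* `splitM_le`: sums over the nodes of the trees of `Al`.
-/

open MeasureTheory Filter Topology Set
open scoped ENNReal NNReal

noncomputable section

namespace Vale.Agent.P119.M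

open KU CTree FL PB Cap

variable {Φ : E3 → ℝ} {ε b t : ℝ} {ν : Measure Ph} {L : ℕ} {Al : Set CTree}

/-- The law of the key of the typical pieces. -/
theorem lintegral_typT {Θ : Measure CTree} {g : CTree → ℝ≥0∞} (hAl : MeasurableSet Al)
    (hg : Measurable g) {F : CTree → ℝ≥0∞} (hF : Measurable F) :
    ∫⁻ T, F T ∂(typT Al g Θ) = ∫⁻ T in Al, g T * F T ∂Θ := by
  have hG : Measurable (Gp Al g) := hg.indicator hAl
  unfold typT
  rw [lintegral_withDensity_eq_lintegral_mul _ hG hF, ← lintegral_indicator hAl]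
  refine lintegral_congr fun T => ?_
  rw [Pi.mul_apply]
  unfold Gp
  by_cases h : T ∈ Al
  · rw [indicator_of_mem h, indicator_of_mem h]
  · rw [indicator_of_notMem h, indicator_of_notMem h, zero_mul]

/-- **The splitting of the law of the trees of `Al`.** -/
theorem exists_typ {X : Type*} [MeasurableSpace X] {ky : CTree → X} (hky : Measurable ky)
    {Θ : Measure CTree} (hAl : MeasurableSet Al) {τ α : Measure X} [SigmaFinite τ] [SigmaFinite α]
    (h : ∀ F : X → ℝ≥0∞, Measurable F →
      ∫⁻ T in Al, F (ky T) ∂Θ ≤ ∫⁻ x, F x ∂τ + ∫⁻ x, F x ∂α) :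
    ∃ g : CTree → ℝ≥0∞, Measurable g ∧ (∀ T, g T ≤ 1) ∧
      (∀ F : X → ℝ≥0∞, Measurable F → ∫⁻ T, F (ky T) ∂(typT Al g Θ) ≤ ∫⁻ x, F x ∂τ) ∧
      ∀ F : X → ℝ≥0∞, Measurable F →
        ∫⁻ T in Al, (1 - g T) * F (ky T) ∂Θ ≤ ∫⁻ x, F x ∂α := by
  have h1 : (Θ.restrict Al).map ky ≤ τ + α := by
    refine Measure.le_intro fun s hs _ => ?_
    have h2 := h (s.indicator fun _ => 1) (measurable_const.indicator hs)
    rw [Measure.map_apply hky hs, Measure.add_apply]
    rw [lintegral_indicator hs, lintegral_indicator hs, setLIntegral_one, setLIntegral_one] at h2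
    refine le_trans (le_of_eq ?_) h2
    have h3 : ∀ T, s.indicator (fun _ => (1 : ℝ≥0∞)) (ky T) =
        (ky ⁻¹' s).indicator (fun _ => 1) T := fun T =>
      indicator_pre s ky (fun _ => 1) T
    simp only [h3]
    rw [lintegral_indicator (hky hs), setLIntegral_one]
  obtain ⟨g, hgm, hg1, hgτ, hgα⟩ := exists_split h1
  refine ⟨fun T => g (ky T), hgm.comp hky, fun T => hg1 _, fun F hF => ?_, fun F hF => ?_⟩
  · refine (le_of_eq (lintegral_typT (F := fun T => F (ky T)) (g := fun T => g (ky T)) hAl
      (hgm.comp hky) (hF.comp hky))).trans ?_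
    refine le_trans (le_of_eq ?_) (hgτ F hF)
    have hm : Measurable fun x => g x * F x := hgm.mul hF
    rw [lintegral_map hm hky]
  · refine le_trans (le_of_eq ?_) (hgα F hF)
    have hm : Measurable fun x => (1 - g x) * F x := (measurable_const.sub hgm).mul hF
    rw [lintegral_map hm hky]

/-! ### One marked node -/

theorem pieces_M {g : CTree → ℝ≥0∞} (hg : ∀ z, g z ≤ 1) {L i : ℕ}
    {q : Mk CTree i} (hT : plug i (node q.1 q.2.1) q.2.2 ∈ Al)
    (hL : (plug i (node q.1 q.2.1) q.2.2).depth ≤ L) :
    1 ≤ GM Al g q + (L + 1 : ℕ) * msub (plug i (node q.1 q.2.1) q.2.2) fun _ X _ => chi Al g X := by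
  have h0 := sub_plug i (node q.1 q.2.1) q.2.2
  have h := pieces_le hg hT (Finset.univ : Finset (Bool ⊕ Fin i))
    (P := Sum.elim (fun c => bif c then q.1 else q.2.1) fun j => (q.2.2 j).2) (by
      rintro (c | j) -
      · cases c
        · exact (TL.Sub.right _ (TL.Sub.refl _)).trans h0.1
        · exact (TL.Sub.left _ (TL.Sub.refl _)).trans h0.1
      · exact h0.2 j)
  refine h.trans (add_le_add (le_of_eq ?_) ?_)
  · rw [Fintype.prod_sum_type, Fintype.prod_bool]
    simp only [Sum.elim_inl, Sum.elim_inr, cond_true, cond_false]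
    unfold GM
    ring
  · refine mul_le_mul_left ?_ _
    have h6 := (depth_plug (m := i) (X := node q.1 q.2.1) (r := q.2.2)).1
    have h3 : 1 ≤ (node q.1 q.2.1).depth := Nat.le_add_left 1 _
    have h7 : (Finset.univ : Finset (Bool ⊕ Fin i)).card ≤ L + 1 := by
      rw [Finset.card_univ]
      simp only [Fintype.card_sum, Fintype.card_bool, Fintype.card_fin]
      omega
    exact_mod_cast h7

variable {g : CTree → ℝ≥0∞}

/-- **The nodes of the alive trees.** -/
theorem splitM_le [IsFiniteMeasure ν] (h : SplitData Φ ε t L Al g) (L' : ℕ)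
    {F : (i : ℕ) → Mk CTree i → ℝ≥0∞} (hF : ∀ i, Measurable (F i)) :
    ∫⁻ T in Al, marks T (fun i a b r => F i (a, b, r)) ∂(tree ν L') ≤
      (∑' i, ∫⁻ q : Mk CTree i, (okT Φ ε t L).indicator (fun _ => F i q)
        (plug i (node q.1 q.2.1) q.2.2) ∂(mkM (typT Al g (tree ν L')) i)) +
      (L + 1 : ℕ) * ∫⁻ T in Al, msub T (fun _ X _ => chi Al g X) *
        marks T (fun i a b r => F i (a, b, r)) ∂(tree ν L') := by
  set Θ := tree ν L' with hΘ
  have hfin := h.isFiniteMeasure Θ
  have hokm : MeasurableSet (okT Φ ε t L) := measurableSet_okT h.pot h.eps.ne' L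
  have hpl : ∀ i, Measurable fun q : Mk CTree i => plug i (node q.1 q.2.1) q.2.2 := fun i =>
    (measurable_plug i).comp ((measurable_node.comp (measurable_fst.prodMk
      (measurable_fst.comp measurable_snd))).prodMk (measurable_snd.comp measurable_snd))
  set F' : (i : ℕ) → Mk CTree i → ℝ≥0∞ := fun i q => (okT Φ ε t L).indicator (fun _ => F i q)
    (plug i (node q.1 q.2.1) q.2.2) with hF'
  have hFm' : ∀ i, Measurable (F' i) := fun i => by
    have e : F' i = ((fun q : Mk CTree i => plug i (node q.1 q.2.1) q.2.2) ⁻¹'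
        okT Φ ε t L).indicator (F i) :=
      funext fun q => indicator_pre (okT Φ ε t L) (fun q : Mk CTree i =>
        plug i (node q.1 q.2.1) q.2.2) (F i) q
    rw [e]
    exact (hF i).indicator (hpl i hokm)
  set F'' : (i : ℕ) → Mk CTree i → ℝ≥0∞ := fun i q => GM Al g q * F' i q with hF''
  have hFm'' : ∀ i, Measurable (F'' i) := fun i => (h.measurable_GM i).mul (hFm' i)
  have hpt : ∀ T ∈ Al, marks T (fun i a b r => F i (a, b, r)) ≤
      marks T (fun i a b r => F'' i (a, b, r)) + (L + 1 : ℕ) *
        (msub T (fun _ X _ => chi Al g X) * marks T (fun i a b r => F i (a, b, r))) := by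
    intro T hT
    have hT' := h.sub hT
    rw [← mul_assoc, ← marks_mul, ← marks_add]
    refine marks_mono fun i a b r hr => ?_
    have h1 := pieces_M (Al := Al) (L := L) (i := i) (q := (a, b, r)) h.g1
      (by change plug i (node a b) r ∈ Al; rw [hr]; exact hT)
      (by change (plug i (node a b) r).depth ≤ L; rw [hr]; exact hT'.2.2)
    change 1 ≤ GM Al g (a, b, r) + (L + 1 : ℕ) *
      msub (plug i (node a b) r) (fun _ X _ => chi Al g X) at h1
    rw [hr] at h1
    calc F i (a, b, r) = 1 * F i (a, b, r) := (one_mul _).symm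
      _ ≤ (GM Al g (a, b, r) + (L + 1 : ℕ) *
          msub T fun _ X _ => chi Al g X) * F i (a, b, r) := mul_le_mul_left h1 _
      _ = F'' i (a, b, r) + _ := by
          rw [add_mul, hF'', hF']
          simp only
          rw [hr, indicator_of_mem hT']
  have hmA : Measurable fun T => marks T (fun i a b r => F'' i (a, b, r)) := by
    have h2 := measurable_marks (X := Unit) (F := fun i a b r _ => F'' i (a, b, r))
      (fun i => (hFm'' i).comp measurable_fst)
    exact h2.comp (measurable_id.prodMk (measurable_const (a := ())))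
  calc ∫⁻ T in Al, marks T (fun i a b r => F i (a, b, r)) ∂Θ
      ≤ ∫⁻ T in Al, (marks T (fun i a b r => F'' i (a, b, r)) + (L + 1 : ℕ) *
        (msub T (fun _ X _ => chi Al g X) * marks T (fun i a b r => F i (a, b, r)))) ∂Θ :=
        setLIntegral_mono' h.meas hpt
    _ = ∫⁻ T in Al, marks T (fun i a b r => F'' i (a, b, r)) ∂Θ + (L + 1 : ℕ) *
        ∫⁻ T in Al, msub T (fun _ X _ => chi Al g X) *
          marks T (fun i a b r => F i (a, b, r)) ∂Θ := by
        rw [lintegral_add_left hmA, lintegral_const_mul' _ _ (ENNReal.natCast_ne_top _)]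
    _ ≤ _ := by
        refine add_le_add ?_ le_rfl
        refine (setLIntegral_le_lintegral _ _).trans ((lintegral_marks_le' L' hFm'').trans
          (le_of_eq ?_))
        refine tsum_congr fun i => ?_
        exact (lintegral_mkM_withDensity Θ h.measurable_Gp h.Gp_le i (hFm' i)).symm

end Vale.Agent.P119.M
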