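import Vale.Agent.P119.PB.Lines

/-!
# P119, block PROB: sums over the subtrees, errors (`helper298`)

* `msub T F`: the sum over all the subtrees `X` of `T`, with their spines;
* `lintegral_msub_le`: its integral;
* `err_le`: **the error terms**: if the root lines of the ok trees have a Gaussian density, then
  `∫ (1 + |v_T|)^q ∑_{X ⊂ T} χ(X) dT ≤ C ∫ χ(X) (1 + |v_X|)^{q+L} dX`.
-/

open MeasureTheory Filter Topology Set
open scoped ENNReal NNReal

noncomputable section

namespace Vale.Agent.P119.M

open KU CTree FL PB Cap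

variable {Φ : E3 → ℝ} {ε b t : ℝ}

/-- The sum over the subtrees `X` of `T` of `F m X r`, where `r` is the spine from `X` to the root. -/
def msub : CTree → ((m : ℕ) → CTree → (Fin m → Bool × CTree) → ℝ≥0∞) → ℝ≥0∞
  | leaf σ, F => F 0 (leaf σ) Fin.elim0
  | node a b, F => F 0 (node a b) Fin.elim0 +
      (msub a (fun m x r => F (m + 1) x (snoc r (true, b))) +
      msub b (fun m x r => F (m + 1) x (snoc r (false, a))))

theorem msub_mono {T : CTree} : ∀ {F G : (m : ℕ) → CTree → (Fin m → Bool × CTree) → ℝ≥0∞},
    (∀ m X r, plug m X r = T → F m X r ≤ G m X r) → msub T F ≤ msub T G := by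
  induction T with
  | leaf σ => intro F G h; exact h 0 _ _ rfl
  | node a b iha ihb =>
    intro F G h
    refine add_le_add (h 0 _ _ rfl) (add_le_add (iha fun m X r hr => ?_)
      (ihb fun m X r hr => ?_))
    · exact h _ _ _ (by rw [plug_snoc, hr]; rfl)
    · exact h _ _ _ (by rw [plug_snoc, hr]; rfl)

theorem msub_congr {T : CTree} {F G : (m : ℕ) → CTree → (Fin m → Bool × CTree) → ℝ≥0∞}
    (h : ∀ m X r, plug m X r = T → F m X r = G m X r) : msub T F = msub T G :=
  le_antisymm (msub_mono fun m X r hr => (h m X r hr).le)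
    (msub_mono fun m X r hr => (h m X r hr).ge)

theorem msub_mul {T : CTree} (c : ℝ≥0∞) :
    ∀ F : (m : ℕ) → CTree → (Fin m → Bool × CTree) → ℝ≥0∞,
    msub T (fun m X r => c * F m X r) = c * msub T F := by
  induction T with
  | leaf σ => intro F; rfl
  | node a b iha ihb =>
    intro F
    simp only [msub]
    rw [iha, ihb]
    ring

/-- Every subtree is counted. -/
theorem le_msub {X T : CTree} (h : TL.Sub X T) : ∀ {F : (m : ℕ) → CTree → (Fin m → Bool × CTree) → ℝ≥0∞}
    {c : ℝ≥0∞}, (∀ m r, plug m X r = T → c ≤ F m X r) → c ≤ msub T F := by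
  induction h with
  | refl =>
    intro F c h
    refine (h 0 Fin.elim0 rfl).trans ?_
    cases X with
    | leaf σ => exact le_rfl
    | node a b => exact le_self_add
  | @left a b _ ih =>
    intro F c h
    refine (ih (F := fun m x r => F (m + 1) x (snoc r (true, b))) fun m r hr =>
      h _ _ (by rw [plug_snoc, hr]; rfl)).trans ?_
    exact le_trans le_self_add le_add_self
  | @right b a _ ih =>
    intro F c h
    refine (ih (F := fun m x r => F (m + 1) x (snoc r (false, a))) fun m r hr =>
      h _ _ (by rw [plug_snoc, hr]; rfl)).trans ?_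
    exact le_trans le_add_self le_add_self

/-- Joint measurability of sums over subtrees. -/
theorem measurable_msub {X : Type} [MeasurableSpace X]
    {F : (m : ℕ) → CTree → (Fin m → Bool × CTree) → X → ℝ≥0∞}
    (hF : ∀ m, Measurable fun p : (CTree × (Fin m → Bool × CTree)) × X => F m p.1.1 p.1.2 p.2) :
    Measurable fun p : CTree × X => msub p.1 fun m x r => F m x r p.2 := by
  rw [measurable_ctree_prod]
  intro τ
  induction τ generalizing X with
  | leaf =>
    have h : Measurable fun p : (Fin Shape.leaf.card → Src) × X =>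
        ((Shape.mk Shape.leaf p.1, (Fin.elim0 : Fin 0 → Bool × CTree)), p.2) :=
      (((measurable_smk Shape.leaf).comp measurable_fst).prodMk measurable_const).prodMk
        measurable_snd
    exact (hF 0).comp h
  | node a b iha ihb =>
    have ma : Measurable fun p : (Fin (Shape.node a b).card → Src) × X =>
        fun i : Fin a.card => p.1 (Fin.castAdd b.card i) :=
      measurable_pi_iff.2 fun i => (measurable_pi_apply _).comp measurable_fst
    have mb : Measurable fun p : (Fin (Shape.node a b).card → Src) × X =>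
        fun i : Fin b.card => p.1 (Fin.natAdd a.card i) :=
      measurable_pi_iff.2 fun i => (measurable_pi_apply _).comp measurable_fst
    have ta := (measurable_smk a).comp ma
    have tb := (measurable_smk b).comp mb
    have e : (fun p : (Fin (Shape.node a b).card → Src) × X =>
        msub (Shape.mk (Shape.node a b) p.1) fun m x r => F m x r p.2) =
        fun p => F 0 (Shape.mk (Shape.node a b) p.1) Fin.elim0 p.2 +
        (msub (Shape.mk a fun i => p.1 (Fin.castAdd b.card i)) (fun m x r =>
          F (m + 1) x (snoc r (true, Shape.mk b fun i => p.1 (Fin.natAdd a.card i))) p.2) +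
        msub (Shape.mk b fun i => p.1 (Fin.natAdd a.card i)) (fun m x r =>
          F (m + 1) x (snoc r (false, Shape.mk a fun i => p.1 (Fin.castAdd b.card i))) p.2)) := rfl
    rw [e]
    refine Measurable.add ?_ (Measurable.add ?_ ?_)
    · have h : Measurable fun p : (Fin (Shape.node a b).card → Src) × X =>
          ((Shape.mk (Shape.node a b) p.1, (Fin.elim0 : Fin 0 → Bool × CTree)), p.2) :=
        (((measurable_smk _).comp measurable_fst).prodMk measurable_const).prodMk measurable_snd
      exact (hF 0).comp h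
    · have h := iha (X := CTree × X)
        (F := fun m x r q => F (m + 1) x (snoc r (true, q.1)) q.2) (fun m => by
          refine (hF (m + 1)).comp (Measurable.prodMk (Measurable.prodMk ?_ ?_) ?_)
          · exact measurable_fst.comp measurable_fst
          · exact measurable_snoc.comp ((measurable_snd.comp measurable_fst).prodMk
              (measurable_const.prodMk (measurable_fst.comp measurable_snd)))
          · exact measurable_snd.comp measurable_snd)
      exact h.comp (ma.prodMk (tb.prodMk measurable_snd))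
    · have h := ihb (X := CTree × X)
        (F := fun m x r q => F (m + 1) x (snoc r (false, q.1)) q.2) (fun m => by
          refine (hF (m + 1)).comp (Measurable.prodMk (Measurable.prodMk ?_ ?_) ?_)
          · exact measurable_fst.comp measurable_fst
          · exact measurable_snoc.comp ((measurable_snd.comp measurable_fst).prodMk
              (measurable_const.prodMk (measurable_fst.comp measurable_snd)))
          · exact measurable_snd.comp measurable_snd)
      exact h.comp (mb.prodMk (ta.prodMk measurable_snd))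

theorem measurable_msub' {F : (m : ℕ) → CTree → (Fin m → Bool × CTree) → ℝ≥0∞}
    (hF : ∀ m, Measurable fun p : CTree × (Fin m → Bool × CTree) => F m p.1 p.2) :
    Measurable fun T => msub T F := by
  have h := measurable_msub (X := Unit) (F := fun m x r _ => F m x r)
    (fun m => (hF m).comp measurable_fst)
  exact h.comp (measurable_id.prodMk (measurable_const (a := ())))

variable {ν : Measure Ph}

/-- **The integral of a sum over subtrees.** -/
theorem lintegral_msub_le [IsFiniteMeasure ν] (L : ℕ) :
    ∀ {F : (m : ℕ) → CTree → (Fin m → Bool × CTree) → ℝ≥0∞},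
    (∀ m, Measurable fun p : CTree × (Fin m → Bool × CTree) => F m p.1 p.2) →
    ∫⁻ T, msub T F ∂(tree ν L) ≤ ∑' m, ∫⁻ X, SpI (tree ν L) m (F m X) ∂(tree ν L) := by
  induction L with
  | zero =>
    intro F hF
    rw [lintegral_tree_zero (measurable_msub' hF)]
    have h0 : Measurable fun X : CTree => F 0 X Fin.elim0 :=
      (hF 0).comp (f := fun X => (X, Fin.elim0)) (measurable_id.prodMk measurable_const)
    have h1 : ∫⁻ z, msub (leaf (src z)) F ∂ν = ∫⁻ X, SpI (tree ν 0) 0 (F 0 X) ∂(tree ν 0) :=
      (lintegral_tree_zero (F := fun X => F 0 X Fin.elim0) h0).symm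
    rw [h1]
    exact ENNReal.le_tsum (f := fun m => ∫⁻ X, SpI (tree ν 0) m (F m X) ∂(tree ν 0)) 0
  | succ L ih =>
    intro F hF
    set Θ := tree ν L with hΘ
    have h0 : Measurable fun X : CTree => F 0 X Fin.elim0 :=
      (hF 0).comp (f := fun X => (X, Fin.elim0)) (measurable_id.prodMk measurable_const)
    have mo : ∀ (o : Bool) (m : ℕ), Measurable
        fun p : (CTree × (Fin m → Bool × CTree)) × CTree =>
        F (m + 1) p.1.1 (snoc p.1.2 (o, p.2)) := fun o m =>
      (hF (m + 1)).comp (Measurable.prodMk (measurable_fst.comp measurable_fst)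
        (measurable_snoc.comp ((measurable_snd.comp
        measurable_fst).prodMk (measurable_const.prodMk measurable_snd))))
    have mk : ∀ o : Bool, Measurable fun p : CTree × CTree =>
        msub p.1 (fun m x r => F (m + 1) x (snoc r (o, p.2))) := fun o =>
      measurable_msub (F := fun m x r S => F (m + 1) x (snoc r (o, S))) (mo o)
    have key : ∀ o : Bool, ∫⁻ S, ∫⁻ A, msub A (fun m x r => F (m + 1) x (snoc r (o, S))) ∂Θ ∂Θ ≤
        ∑' m, ∫⁻ A, ∫⁻ S, SpI Θ m (fun r => F (m + 1) A (snoc r (o, S))) ∂Θ ∂Θ := by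
      intro o
      have h1 : ∀ S, ∫⁻ A, msub A (fun m x r => F (m + 1) x (snoc r (o, S))) ∂Θ ≤
          ∑' m, ∫⁻ A, SpI Θ m (fun r => F (m + 1) A (snoc r (o, S))) ∂Θ := fun S =>
        ih (F := fun m x r => F (m + 1) x (snoc r (o, S)))
          (fun m => (mo o m).comp (measurable_id.prodMk measurable_const))
      refine (lintegral_mono h1).trans (le_of_eq ?_)
      have hB : ∀ m, Measurable fun p : CTree × CTree =>
          SpI Θ m (fun r => F (m + 1) p.2 (snoc r (o, p.1))) := fun m => by
        refine measurable_SpI (X := CTree × CTree) m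
          (G := fun r p => F (m + 1) p.2 (snoc r (o, p.1))) ?_
        exact (mo o m).comp (Measurable.prodMk (Measurable.prodMk
          (measurable_snd.comp measurable_snd) measurable_fst)
          (measurable_fst.comp measurable_snd))
      rw [lintegral_tsum fun m => ((hB m).lintegral_prod_right').aemeasurable]
      refine tsum_congr fun m => ?_
      rw [lintegral_lintegral_swap (hB m).aemeasurable]
    -- the recursion
    have hrec : ∫⁻ T, msub T F ∂(tree ν (L + 1)) = ∫⁻ T, F 0 T Fin.elim0 ∂(tree ν (L + 1)) +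
        (∫⁻ A, ∫⁻ B, msub A (fun m x r => F (m + 1) x (snoc r (true, B))) ∂Θ ∂Θ +
          ∫⁻ A, ∫⁻ B, msub B (fun m x r => F (m + 1) x (snoc r (false, A))) ∂Θ ∂Θ) := by
      rw [lintegral_tree_succ L (measurable_msub' hF), lintegral_tree_succ L h0, add_assoc]
      refine congrArg₂ (· + ·) rfl ?_
      have hN : Measurable fun p : CTree × CTree => F 0 (node p.1 p.2) Fin.elim0 :=
        h0.comp measurable_node
      have ha : ∀ A, Measurable fun B => F 0 (node A B) Fin.elim0 := fun A =>
        hN.comp (measurable_const.prodMk measurable_id)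
      have hb : ∀ A, Measurable fun B => msub A (fun m x r => F (m + 1) x (snoc r (true, B))) :=
        fun A => (mk true).comp (measurable_const.prodMk measurable_id)
      have hc : ∀ A, ∫⁻ B, msub (node A B) F ∂Θ =
          ∫⁻ B, F 0 (node A B) Fin.elim0 ∂Θ +
          (∫⁻ B, msub A (fun m x r => F (m + 1) x (snoc r (true, B))) ∂Θ +
            ∫⁻ B, msub B (fun m x r => F (m + 1) x (snoc r (false, A))) ∂Θ) := fun A => by
        rw [← lintegral_add_left (hb A), ← lintegral_add_left (ha A)]
        rfl
      change ∫⁻ A, ∫⁻ B, msub (node A B) F ∂Θ ∂Θ = _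
      simp only [hc]
      rw [lintegral_add_left (hN.lintegral_prod_right'),
        lintegral_add_left ((mk true).lintegral_prod_right')]
    rw [hrec]
    have h3 : ∫⁻ A, ∫⁻ B, msub A (fun m x r => F (m + 1) x (snoc r (true, B))) ∂Θ ∂Θ ≤
        ∑' m, ∫⁻ A, ∫⁻ S, SpI Θ m (fun r => F (m + 1) A (snoc r (true, S))) ∂Θ ∂Θ := by
      rw [lintegral_lintegral_swap (mk true).aemeasurable]
      exact key true
    have h4 : ∫⁻ A, ∫⁻ B, msub B (fun m x r => F (m + 1) x (snoc r (false, A))) ∂Θ ∂Θ ≤
        ∑' m, ∫⁻ A, ∫⁻ S, SpI Θ m (fun r => F (m + 1) A (snoc r (false, S))) ∂Θ ∂Θ := key false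
    refine (add_le_add le_rfl (add_le_add h3 h4)).trans ?_
    have hΘ' : Θ ≤ tree ν (L + 1) := tree_mono (Nat.le_succ L)
    rw [tsum_eq_zero_add' (f := fun m => ∫⁻ X, SpI (tree ν (L + 1)) m (F m X) ∂(tree ν (L + 1)))
      ENNReal.summable]
    refine add_le_add le_rfl ?_
    rw [← ENNReal.tsum_add]
    refine ENNReal.tsum_le_tsum fun m => ?_
    have hB : ∀ o : Bool, Measurable fun p : CTree × CTree =>
        SpI Θ m (fun r => F (m + 1) p.1 (snoc r (o, p.2))) := fun o => by
      refine measurable_SpI (X := CTree × CTree) m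
        (G := fun r p => F (m + 1) p.1 (snoc r (o, p.2))) ?_
      exact (mo o m).comp (Measurable.prodMk (Measurable.prodMk
        (measurable_fst.comp measurable_snd) measurable_fst)
        (measurable_snd.comp measurable_snd))
    rw [← lintegral_add_left ((hB true).lintegral_prod_right')]
    have h5 : ∀ A, (∫⁻ S, SpI Θ m (fun r => F (m + 1) A (snoc r (true, S))) ∂Θ +
        ∫⁻ S, SpI Θ m (fun r => F (m + 1) A (snoc r (false, S))) ∂Θ) = SpI Θ (m + 1) (F (m + 1) A) := by
      intro A
      have hG : Measurable (F (m + 1) A) := (hF (m + 1)).comp (measurable_const.prodMk measurable_id)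
      rw [SpI_snoc m hG, Fintype.sum_bool]
    simp only [h5]
    exact lintegral_mono' hΘ' fun A => SpI_mono_measure hΘ' (m + 1) _

/-! ### Error terms -/

theorem meas_bits {β γ : Type} [MeasurableSpace β] [MeasurableSpace γ] {m : ℕ}
    {f : (Fin m → Bool) → (Fin m → β) → γ} (hf : ∀ o, Measurable (f o)) :
    Measurable fun ρ : Fin m → Bool × β => f (fun i => (ρ i).1) fun i => (ρ i).2 := by
  have h : Measurable fun q : (Fin m → Bool) × (Fin m → β) => f q.1 q.2 :=
    measurable_from_prod_countable_right hf
  exact h.comp ((measurable_pi_iff.2 fun i => (measurable_pi_apply i).fst).prodMk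
    (measurable_pi_iff.2 fun i => (measurable_pi_apply i).snd))

theorem spM_restrict {β : Type} [MeasurableSpace β] (Θ : Measure β) [SigmaFinite Θ] (D : Set β)
    (m : ℕ) : (spM Θ m).restrict {r | ∀ i, (r i).2 ∈ D} = spM (Θ.restrict D) m := by
  have h1 : stM (Θ.restrict D) = (stM Θ).restrict (univ ×ˢ D) := by
    unfold stM
    rw [← Measure.prod_restrict, Measure.restrict_univ]
  have h2 : {r : Fin m → Bool × β | ∀ i, (r i).2 ∈ D} =
      Set.pi univ fun _ : Fin m => (univ : Set Bool) ×ˢ D := by
    ext r
    simp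
  unfold spM
  rw [h1, h2, Measure.restrict_pi_pi]

theorem measurable_stepT : Measurable fun p : CTree × (Bool × CTree) => stepT p.1 p.2 := by
  have h : Measurable fun p : (CTree × CTree) × Bool => stepT p.1.1 (p.2, p.1.2) := by
    refine measurable_from_prod_countable_left fun o => ?_
    cases o
    · exact measurable_node.comp measurable_swap
    · exact measurable_node
  exact h.comp ((measurable_fst.prodMk (measurable_snd.comp measurable_snd)).prodMk
    (measurable_fst.comp measurable_snd))

theorem measurable_plug (m : ℕ) :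
    Measurable fun p : CTree × (Fin m → Bool × CTree) => plug m p.1 p.2 := by
  induction m with
  | zero => exact measurable_fst
  | succ m ih =>
    have h : Measurable fun p : CTree × (Fin (m + 1) → Bool × CTree) =>
        (stepT p.1 (p.2 0), fun i : Fin m => p.2 i.succ) := by
      refine Measurable.prodMk ?_ ?_
      · exact measurable_stepT.comp (measurable_fst.prodMk
          ((measurable_pi_apply 0).comp measurable_snd))
      · exact measurable_pi_iff.2 fun i => (measurable_pi_apply _).comp measurable_snd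
    exact ih.comp h

/-- The ok trees of depth at most `L` which are over at the time `t`. -/
def okT (Φ : E3 → ℝ) (ε t : ℝ) (L : ℕ) : Set CTree := {T | ok Φ ε T ∧ ext Φ ε T ≤ t ∧ T.depth ≤ L}

theorem measurableSet_okT (hΦ : IsPotential Φ) (hε : ε ≠ 0) (L : ℕ) :
    MeasurableSet (okT Φ ε t L) :=
  (measurableSet_ok hΦ hε).inter ((measurableSet_le (measurable_ext hΦ hε) measurable_const).inter
    (measurableSet_le measurable_depth measurable_const))

theorem okT_plug (hΦ : IsPotential Φ) (hε : 0 < ε) {L m : ℕ} {X : CTree}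
    {r : Fin m → Bool × CTree} (h : plug m X r ∈ okT Φ ε t L) :
    X ∈ okT Φ ε t L ∧ (∀ i, (r i).2 ∈ okT Φ ε t L) ∧ m ≤ L := by
  have h1 := ok_plug h.1
  have h2 := ext_plug hΦ hε h.1
  have h3 := depth_plug (m := m) (X := X) (r := r)
  have h4 : (plug m X r).depth ≤ L := h.2.2
  exact ⟨⟨h1.1, h2.1.trans h.2.1, by omega⟩, fun i => ⟨h1.2 i, (h2.2 i).trans h.2.1,
    (h3.2 i).trans h4⟩, by omega⟩

/-- The mass of the spines over a subtree, with a polynomial weight on the root line. -/
theorem spine_mass (hΦ : IsPotential Φ) (hε : 0 < ε) (hb : 0 < b) {K : ℝ≥0∞}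
    {Θ : Measure CTree} [SigmaFinite Θ] {L : ℕ}
    (hK : LineLaw Φ ε b K (Θ.restrict (okT Φ ε t L))) (q m : ℕ) (X : CTree) :
    ∫⁻ r, (okT Φ ε t L).indicator (fun T => pw q (ln Φ ε T).2) (plug m X r) ∂(spM Θ m) ≤
      K ^ m * (2 ^ m * polyC b t m q) * pw (q + m) (ln Φ ε X).2 := by
  by_cases hX : X ∈ okT Φ ε t L
  swap
  · have : ∀ r, (okT Φ ε t L).indicator (fun T => pw q (ln Φ ε T).2) (plug m X r) = 0 := fun r =>
      indicator_of_notMem (fun h => hX (okT_plug hΦ hε h).1) _
    simp only [this, lintegral_zero]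
    exact zero_le
  set D := okT Φ ε t L with hD
  set G : (Fin m → Bool × Ph) → ℝ≥0∞ := fun ρ =>
    {p | Chain ε t (outS hΦ hε.ne' m fun i => (ρ i).1) m (ext Φ ε X) (ln Φ ε X) p}.indicator
      (fun p => pw q (line (outS hΦ hε.ne' m fun i => (ρ i).1) m (ln Φ ε X) p).2)
      (fun i => (ρ i).2) with hG
  have hGm : Measurable G := by
    refine meas_bits (f := fun o p => {p | Chain ε t (outS hΦ hε.ne' m o) m (ext Φ ε X)
      (ln Φ ε X) p}.indicator (fun p => pw q (line (outS hΦ hε.ne' m o) m (ln Φ ε X) p).2) p)
      fun o => Measurable.indicator ?_ ?_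
    · exact (measurable_pw' q).comp (measurable_snd.comp
        ((measurable_line m _).comp (measurable_const.prodMk measurable_id)))
    · exact (measurable_const.prodMk (measurable_const.prodMk measurable_id) :
        Measurable fun p : Fin m → Ph => (ext Φ ε X, ln Φ ε X, p)) (measurableSet_chain m _)
  have h1 : ∀ r, (okT Φ ε t L).indicator (fun T => pw q (ln Φ ε T).2) (plug m X r) ≤
      {r | ∀ i, (r i).2 ∈ D}.indicator (fun r : Fin m → Bool × CTree =>
        G fun i => ((r i).1, ln Φ ε (r i).2)) r := by
    intro r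
    by_cases h : plug m X r ∈ okT Φ ε t L
    · rw [indicator_of_mem h, indicator_of_mem
        (show r ∈ {r | ∀ i, (r i).2 ∈ D} from (okT_plug hΦ hε h).2.1), hG]
      simp only
      have h2 := chain_plug hΦ hε m (ext Φ ε X) X r h.1 h.2.1 le_rfl
      rw [indicator_of_mem (show _ ∈ {p | _} from h2), ln_plug hΦ hε.ne']
    · rw [indicator_of_notMem h]
      exact zero_le
  have hDm : MeasurableSet {r : Fin m → Bool × CTree | ∀ i, (r i).2 ∈ D} := by
    rw [Set.ofPred_forall]
    exact MeasurableSet.iInter fun i => (measurable_pi_apply i).snd (measurableSet_okT hΦ hε.ne' L)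
  refine (lintegral_mono h1).trans ?_
  rw [lintegral_indicator hDm, spM_restrict]
  refine (spM_lines hΦ hε.ne' hK m hGm).trans ?_
  rw [mul_assoc]
  refine mul_le_mul_right ?_ _
  have h3 : ∀ o : Fin m → Bool, ∫⁻ p : Fin m → Ph, FL.wt b ε m p * G (fun i => (o i, p i)) ≤
      polyC b t m q * pw (q + m) (ln Φ ε X).2 := by
    intro o
    have h4 := poly_mass (t := t) (T₀ := t) hε hb q m (outS hΦ hε.ne' m o) (ext Φ ε X)
      (ln Φ ε X) (by have := ext_nonneg hΦ hε hX.1; linarith)
    refine le_trans (le_of_eq (lintegral_congr fun p => ?_)) h4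
    rw [hG]
    simp only
    by_cases hp : Chain ε t (outS hΦ hε.ne' m o) m (ext Φ ε X) (ln Φ ε X) p
    · rw [indicator_of_mem (show p ∈ {p | _} from hp), indicator_of_mem (show p ∈ {p | _} from hp)]
    · rw [indicator_of_notMem (show p ∉ {p | _} from hp),
        indicator_of_notMem (show p ∉ {p | _} from hp), mul_zero]
  refine (Finset.sum_le_sum fun o _ => h3 o).trans (le_of_eq ?_)
  rw [Finset.sum_const, Finset.card_univ, Fintype.card_fun, Fintype.card_bool, Fintype.card_fin,
    nsmul_eq_mul]
  push_cast
  ring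

/-- The constant of `err_le`. -/
def errC (b t : ℝ) (K : ℝ≥0∞) (q L : ℕ) : ℝ≥0∞ :=
  ∑ m ∈ Finset.range (L + 1), K ^ m * (2 ^ m * polyC b t m q)

theorem errC_ne_top {K : ℝ≥0∞} (hb : 0 < b) (hK : K ≠ ∞) (q L : ℕ) : errC b t K q L ≠ ∞ := by
  refine (ENNReal.sum_lt_top.2 fun m _ => lt_top_iff_ne_top.2 ?_).ne
  exact ENNReal.mul_ne_top (ENNReal.pow_ne_top hK) (ENNReal.mul_ne_top
    (ENNReal.pow_ne_top (by norm_num)) (polyC_ne_top hb _ _))

/-- **The error terms.** -/
theorem err_le [IsFiniteMeasure ν] (hΦ : IsPotential Φ) (hε : 0 < ε) (hb : 0 < b) {K : ℝ≥0∞}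
    {L L' : ℕ} (hK : LineLaw Φ ε b K ((tree ν L').restrict (okT Φ ε t L))) (q : ℕ)
    {χ : CTree → ℝ≥0∞} (hχ : Measurable χ) :
    ∫⁻ T in okT Φ ε t L, pw q (ln Φ ε T).2 * msub T (fun _ X _ => χ X) ∂(tree ν L') ≤
      errC b t K q L * ∫⁻ X, pw (q + L) (ln Φ ε X).2 * χ X ∂(tree ν L') := by
  set Θ := tree ν L' with hΘ
  set D := okT Φ ε t L with hD
  have hDm : MeasurableSet D := measurableSet_okT hΦ hε.ne' L
  have hpw : ∀ q, Measurable fun T : CTree => pw q (ln Φ ε T).2 := fun q =>
    (measurable_pw' q).comp (measurable_snd.comp (measurable_ln hΦ hε.ne'))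
  set F : (m : ℕ) → CTree → (Fin m → Bool × CTree) → ℝ≥0∞ := fun m X r =>
    χ X * D.indicator (fun T => pw q (ln Φ ε T).2) (plug m X r) with hF
  have hFm : ∀ m, Measurable fun p : CTree × (Fin m → Bool × CTree) => F m p.1 p.2 := fun m =>
    (hχ.comp measurable_fst).mul (((hpw q).indicator hDm).comp (measurable_plug m))
  have e1 : ∀ T, D.indicator (fun T => pw q (ln Φ ε T).2 * msub T (fun _ X _ => χ X)) T =
      msub T F := by
    intro T
    by_cases hT : T ∈ D
    · rw [indicator_of_mem hT, ← msub_mul]
      refine msub_congr fun m X r h => ?_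
      rw [hF]
      simp only
      rw [h, indicator_of_mem hT, mul_comm]
    · rw [indicator_of_notMem hT]
      have : msub T F = msub T fun _ _ _ => 0 * 0 := msub_congr fun m X r h => by
        rw [hF]
        simp only
        rw [h, indicator_of_notMem hT, mul_zero, mul_zero]
      rw [this, msub_mul, zero_mul]
  rw [← lintegral_indicator hDm]
  simp only [e1]
  refine (lintegral_msub_le L' hFm).trans ?_
  have h1 : ∀ m, ∫⁻ X, SpI Θ m (F m X) ∂Θ ≤ if m ∈ Finset.range (L + 1) then
      K ^ m * (2 ^ m * polyC b t m q) * ∫⁻ X, pw (q + L) (ln Φ ε X).2 * χ X ∂Θ else 0 := by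
    intro m
    have hFX : ∀ X, Measurable (F m X) := fun X => (hFm m).comp measurable_prodMk_left
    have hI : ∀ X, Measurable fun r : Fin m → Bool × CTree =>
        D.indicator (fun T => pw q (ln Φ ε T).2) (plug m X r) := fun X =>
      ((hpw q).indicator hDm).comp ((measurable_plug m).comp measurable_prodMk_left)
    have h2 : ∀ X, SpI Θ m (F m X) = χ X *
        ∫⁻ r, D.indicator (fun T => pw q (ln Φ ε T).2) (plug m X r) ∂(spM Θ m) := fun X => by
      rw [SpI_eq Θ m (hFX X), hF]
      exact lintegral_const_mul _ (hI X)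
    simp only [h2]
    split_ifs with hm
    · have hpχ : Measurable fun X => pw (q + L) (ln Φ ε X).2 * χ X := (hpw _).mul hχ
      rw [← lintegral_const_mul _ hpχ]
      refine lintegral_mono fun X => ?_
      have h3 := spine_mass hΦ hε hb hK q m X
      have h4 : m ≤ L := by
        have := Finset.mem_range.1 hm
        omega
      calc χ X * _ ≤ χ X * (K ^ m * (2 ^ m * polyC b t m q) * pw (q + m) (ln Φ ε X).2) := by
            gcongr
        _ ≤ χ X * (K ^ m * (2 ^ m * polyC b t m q) * pw (q + L) (ln Φ ε X).2) := by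
            gcongr
            exact pw_mono (by omega) _
        _ = _ := by ring
    · have h3 : ∀ X, ∫⁻ r, D.indicator (fun T => pw q (ln Φ ε T).2) (plug m X r) ∂(spM Θ m) = 0 := by
        intro X
        have : ∀ r, D.indicator (fun T => pw q (ln Φ ε T).2) (plug m X r) = 0 := fun r =>
          indicator_of_notMem (fun h => hm (Finset.mem_range.2
            (Nat.lt_succ_of_le (okT_plug hΦ hε h).2.2))) _
        simp only [this, lintegral_zero]
      simp only [h3, mul_zero, lintegral_zero]
      exact le_rfl
  refine (ENNReal.tsum_le_tsum h1).trans (le_of_eq ?_)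
  rw [tsum_eq_sum (s := Finset.range (L + 1)) fun m hm => if_neg hm, errC, Finset.sum_mul]
  exact Finset.sum_congr rfl fun m hm => if_pos hm

end Vale.Agent.P119.M
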