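import Vale.Agent.P119.PB.ThrTL2
import Vale.Agent.P119.TL.Touch

/-!
# P119, block PROB: threshold transfer for any replacement `Rep` (`helper384`)

`Rep Φ ε L hΦ hε W V f t`: the sources of the world `V` stand for histories of the world `W`
(one tree, a forest, compositions).

* `Rep.sbs_inj`: the substitution of the histories is injective;
* `Rep.eW`: the exposed energies of `W` and `V` are equal;
* `Rep.touch_conv`: a touch of the worlds of lines comes from a touch of the worlds with the trees;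
* `relI`, `Rep.nW_le`, `Rep.hz`: the stopping times.
-/

open MeasureTheory Filter Topology Set
open scoped ENNReal NNReal

noncomputable section

namespace Vale.Agent.P119.TL

open M CTree KU RB PB

variable {Φ : E3 → ℝ} {ε : ℝ} {L : ℕ} {hΦ : IsPotential Φ} {hε : 0 < ε}
  {W V W₁ W₂ V₁ V₂ : Finset Src} {f f₁ f₂ : Src → CTree} {t u ρ η η' : ℝ} {S : CTree}

/-! ### The substitution is injective -/

theorem ne_node_of_inj {V : Set Src} (hf : InjOn (fun a => (f a).root) V) {σ : Src} (hσ : σ ∈ V)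
    {a b : CTree} (ha : a.leaves ⊆ V) : f σ ≠ node (sbs f a) (sbs f b) := by
  intro he
  have h1 : (f σ).root = (f a.root).root := by
    rw [he]
    exact sbs_root a
  have h2 : σ = a.root := hf hσ (ha a.root_mem_leaves) h1
  have h3 : Sub (f a.root) (sbs f a) := sub_sbs a.root_mem_leaves
  rw [← h2] at h3
  have h4 := h3.card_le
  have h5 : (f σ).card = (sbs f a).card + (sbs f b).card := by
    conv_lhs => rw [he]
    rfl
  have h6 := (sbs f b).card_pos
  omega

theorem sbs_inj_of {V : Set Src} (hf : InjOn (fun a => (f a).root) V) {y y' : CTree}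
    (hy : y.leaves ⊆ V) (hy' : y'.leaves ⊆ V) (he : sbs f y = sbs f y') : y = y' := by
  induction y generalizing y' with
  | leaf σ =>
    cases y' with
    | leaf σ' =>
      have h1 : f σ = f σ' := he
      rw [hf (hy (mem_singleton _)) (hy' (mem_singleton _)) (by simp only [h1])]
    | node a' b' =>
      exact absurd he (ne_node_of_inj hf (hy (mem_singleton _)) fun x hx => hy' (Or.inl hx))
  | node a b iha ihb =>
    cases y' with
    | leaf σ' =>
      exact absurd he.symm (ne_node_of_inj hf (hy' (mem_singleton _)) fun x hx => hy (Or.inl hx))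
    | node a' b' =>
      have he' : node (sbs f a) (sbs f b) = node (sbs f a') (sbs f b') := he
      injection he' with h1 h2
      rw [iha (fun x hx => hy (Or.inl hx)) (fun x hx => hy' (Or.inl hx)) h1,
        ihb (fun x hx => hy (Or.inr hx)) (fun x hx => hy' (Or.inr hx)) h2]

/-! ### Exposed energies -/

/-- The tree just before the birth is the leaf. -/
theorem ptree_birth (hΦ : IsPotential Φ) (hε : 0 < ε) {X : Set Src} (c : Src) :
    EN.ptree Φ ε L X c c.1 = leaf c := by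
  unfold EN.ptree
  by_cases h : ∃ T, EN.PS Φ ε L X c c.1 T
  · rw [dif_pos h]
    exact PS_birth_eq hΦ hε h.choose_spec
  · rw [dif_neg h]

theorem Rep.ln_leaves (h : Rep Φ ε L hΦ hε W V f t) (hS : S.leaves ⊆ (V : Set Src)) :
    ∀ σ ∈ S.leaves, CTree.ln Φ ε (f σ) = σ.2.1 := fun σ hσ => h.ln σ (Finset.mem_coe.1 (hS hσ))

/-- The weights of the trees correspond. -/
theorem Rep.cw (h : Rep Φ ε L hΦ hε W V f t) (hS : S.leaves ⊆ (V : Set Src)) {τ : ℝ}
    (hτ : S.root.1 ≤ τ) : EN.cw Φ ε (sbs f S) τ = EN.cw Φ ε S τ := by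
  have hln := h.ln_leaves hS
  cases S with
  | leaf σ =>
    have h1 : ext Φ ε (f σ) ≤ τ := (h.ext_le σ (Finset.mem_coe.1 (hS (mem_singleton _)))).trans hτ
    change EN.cw Φ ε (f σ) τ = _
    rw [EN.cw_of_ext_le h1, hln σ (mem_singleton _)]
    rfl
  | node a b =>
    have h1 := ext_sbs hln
    have h2 := sbs_ln hln
    change EN.cw Φ ε (node (sbs f a) (sbs f b)) τ = _
    rw [EN.cw_node, EN.cw_node]
    change (if τ < ext Φ ε (sbs f (node a b)) then _ else
      ‖(CTree.ln Φ ε (sbs f (node a b))).2‖ ^ 2) = _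
    rw [h1, h2, sbs_ln fun σ hσ => hln σ (Or.inl hσ), sbs_ln fun σ hσ => hln σ (Or.inr hσ)]

/-- A live tree from its statuses. -/
theorem live_of_stat_before (hΦ : IsPotential Φ) (hε : 0 < ε) {X : Finset Src} {T : CTree} {a : Src}
    {τ : ℝ} (hsig : sig Φ ε T < τ)
    (h : ∀ r, sig Φ ε T ≤ r → r < τ → ∃ q, r ≤ q ∧ q < τ ∧ stat Φ ε L (X : Set Src) a q = some T) :
    live Φ ε L (X : Set Src) T τ := by
  refine live_of_lives_before hsig fun r hr hrt => ?_
  obtain ⟨q, h1, -, h2⟩ := h r hr hrt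
  exact (((stat_eq_some_iff hΦ hε X.finite_toSet).1 h2).2).anti h1 hr

/-- The weights at the exposure correspond. -/
theorem Rep.cw_ptree (h : Rep Φ ε L hΦ hε W V f t) (h0 : ∀ a ∈ V, 0 ≤ a.1) {c : Src}
    (hc : c ∈ V) {τ : ℝ} (hτ : τ ≤ t) (hcτ : c.1 ≤ τ)
    (hn : ∀ q < τ, ¬(Y Φ ε L hΦ hε).Exp V c q) :
    EN.cw Φ ε (EN.ptree Φ ε L (W : Set Src) (f c).root τ) τ =
      EN.cw Φ ε (EN.ptree Φ ε L (V : Set Src) c τ) τ := by
  have hf := W.finite_toSet
  have hf' := V.finite_toSet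
  have hroot : c ∈ (V : Set Src) := Finset.mem_coe.2 hc
  rcases hcτ.lt_or_eq with hlt | rfl
  · obtain ⟨S, hS, hev⟩ := EN.stat_left hΦ hε hf' (L := L) hlt fun q h3 h4 hnone =>
      hn q h4 (exp_of_badi ⟨hroot, (h0 c hc).trans h3, h3, Or.inl hnone⟩ le_rfl)
    have hSV : S.leaves ⊆ (V : Set Src) := hS.2.1.sub
    have hex : ∀ r < τ, ∃ q, max r c.1 ≤ q ∧ q < τ ∧
        stat Φ ε L (W : Set Src) (f c).root q = some (sbs f S) ∧ sig Φ ε (sbs f S) ≤ q := by
      intro r hr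
      have h1 : ∀ᶠ q in 𝓝[<] τ, max r c.1 ≤ q ∧ q < τ := by
        filter_upwards [Ioo_mem_nhdsLT (max_lt hr hlt)] with q hq using ⟨hq.1.le, hq.2⟩
      obtain ⟨q, ⟨h2, h3⟩, h4⟩ := (h1.and hev).exists
      have h5 : stat Φ ε L (W : Set Src) (f c).root q = some (sbs f S) := by
        have := h.lines.stat c hc q (h3.le.trans hτ) ((le_max_right _ _).trans h2)
        rw [this, h4]
        rfl
      exact ⟨q, h2, h3, h5, ((stat_eq_some_iff hΦ hε hf).1 h5).2.sig_le⟩
    have hsig : sig Φ ε (sbs f S) < τ := by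
      obtain ⟨q, -, h2, -, h3⟩ := hex c.1 hlt
      exact h3.trans_lt h2
    have hPS : EN.PS Φ ε L (W : Set Src) (f c).root τ (sbs f S) := by
      refine ⟨?_, live_of_stat_before (a := (f c).root) hΦ hε hsig fun r _ hr => ?_, Or.inr hsig⟩
      · obtain ⟨q, -, -, h2, -⟩ := hex c.1 hlt
        exact ((stat_eq_some_iff hΦ hε hf).1 h2).1
      · obtain ⟨q, h1, h2, h3, -⟩ := hex r hr
        exact ⟨q, (le_max_left _ _).trans h1, h2, h3⟩
    rw [EN.ptree_eq hΦ hε hf hPS, EN.ptree_eq hΦ hε hf' hS]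
    refine h.cw hSV ?_
    rw [hS.1]
    exact hcτ
  · have hR : EN.cw Φ ε (EN.ptree Φ ε L (V : Set Src) c c.1) c.1 = ‖(CTree.ln Φ ε (f c)).2‖ ^ 2 := by
      rw [ptree_birth hΦ hε, h.ln c hc]
      rfl
    rw [hR]
    have hext := h.ext_le c hc
    have hok := h.ok c hc
    rcases hfc : f c with b | ⟨x, y⟩
    · rw [hfc] at hext hok
      have hb : b.1 ≤ c.1 := hext
      rcases hb.lt_or_eq with hb | hb
      · have hPS : EN.PS Φ ε L (W : Set Src) b c.1 (leaf b) := by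
          refine ⟨rfl, live_of_stat_before (a := b) hΦ hε hb fun r hr hrt => ⟨r, le_rfl, hrt, ?_⟩,
            Or.inl rfl⟩
          have h1 := h.leg c hc r (hrt.le.trans hτ) hrt (by rw [hfc]; exact hr)
          rw [hfc] at h1
          exact h1
        change EN.cw Φ ε (EN.ptree Φ ε L (W : Set Src) b c.1) c.1 = _
        rw [EN.ptree_eq hΦ hε hf hPS]
        rfl
      · change EN.cw Φ ε (EN.ptree Φ ε L (W : Set Src) b c.1) c.1 = _
        rw [← hb, ptree_birth hΦ hε]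
        rfl
    · rw [hfc] at hext hok
      have h1 := sig_lt_ext hΦ hε hok
      have h2 : sig Φ ε (node x y) < c.1 := h1.trans_le hext
      have hPS : EN.PS Φ ε L (W : Set Src) (node x y).root c.1 (node x y) := by
        refine ⟨rfl, live_of_stat_before (a := (node x y).root) hΦ hε h2
          fun r hr hrt => ⟨r, le_rfl, hrt, ?_⟩, Or.inr h2⟩
        have h3 := h.leg c hc r (hrt.le.trans hτ) hrt
          (by rw [hfc]; exact (root_birth_le_sig hΦ hε hok).trans hr)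
        rw [hfc, cur_of_sig_le hr] at h3
        exact h3
      rw [EN.ptree_eq hΦ hε hf hPS, EN.cw_of_ext_le hext]

/-- **The exposed energies are the same.** -/
theorem Rep.eW (h : Rep Φ ε L hΦ hε W V f t) (h0 : ∀ a ∈ V, 0 ≤ a.1) (hu : u ≤ t) :
    eW L hΦ hε V u = PB.eW L hΦ hε W u := by
  have hl := h.lines
  have hexp : ∀ c ∈ V, ∀ q ≤ t, (c ∈ ex L hΦ hε V q ↔ (f c).root ∈ ex L hΦ hε W q) :=
    fun c hc q hq => by
      rw [mem_ex, mem_ex]
      exact hl.exp c hc q hq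
  unfold PB.eW
  refine Finset.sum_nbij (fun c => (f c).root) (fun c hc => ?_) (fun c hc c' hc' he => ?_)
    (fun c hc => ?_) fun c hc => ?_
  · exact (hexp c (ex_subset hc) u hu).1 hc
  · exact hl.bij.injOn (Finset.mem_coe.2 (ex_subset (Finset.mem_coe.1 hc)))
      (Finset.mem_coe.2 (ex_subset (Finset.mem_coe.1 hc'))) he
  · have hc := Finset.mem_coe.1 hc
    obtain ⟨c', hc', rfl⟩ := hl.bij.surjOn (Finset.mem_coe.2 (ex_subset hc))
    exact ⟨c', Finset.mem_coe.2 ((hexp c' (Finset.mem_coe.1 hc') u hu).2 hc), rfl⟩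
  · have hcW := ex_subset hc
    obtain ⟨h1, h2, h3⟩ := tau_first hc
    obtain ⟨h1', h2', h3'⟩ := tau_first ((hexp c hcW u hu).1 hc)
    have he : EN.tau (ex L hΦ hε V) c = EN.tau (ex L hΦ hε W) (f c).root := by
      refine le_antisymm (not_lt.1 fun h4 => ?_) (not_lt.1 fun h4 => ?_)
      · exact h3 _ h4 ((hexp c hcW _ (h2'.trans hu)).2 h1')
      · exact h3' _ h4 ((hexp c hcW _ (h2.trans hu)).1 h1)
    unfold EN.wt
    rw [← he, h.cw_ptree h0 hcW (h2.trans hu) (exp_birth_le (mem_ex.1 h1))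
      fun q hq hcq => h3 q hq (mem_ex.2 hcq)]

/-! ### Touches -/

/-- Full statuses which correspond to the same full statuses are the same. -/
theorem Rep.sta_conv (h₁ : Rep Φ ε L hΦ hε W₁ V₁ f₁ u) (h₂ : Rep Φ ε L hΦ hε W₂ V₂ f₂ u)
    (hV : V₁ ⊆ V₂) (hf : ∀ a ∈ V₁, f₁ a = f₂ a) {a : Src} (ha : a ∈ V₁) {s : ℝ} (hs : s ≤ u)
    (h : sta Φ ε L (W₁ : Set Src) (f₁ a).root s = sta Φ ε L (W₂ : Set Src) (f₁ a).root s) :
    sta Φ ε L (V₁ : Set Src) a s = sta Φ ε L (V₂ : Set Src) a s := by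
  have ha₂ := hV ha
  have m₁ : (a ∈ (V₁ : Set Src)) = True := eq_true (Finset.mem_coe.2 ha)
  have m₂ : (a ∈ (V₂ : Set Src)) = True := eq_true (Finset.mem_coe.2 ha₂)
  have b₂ := h₂.lines.badc a ha₂ s hs
  rw [← hf a ha] at b₂
  have hb : badc Φ ε L (V₁ : Set Src) a s = badc Φ ε L (V₂ : Set Src) a s :=
    propext ((h₁.lines.badc a ha s hs).trans ((badc_of_sta h).trans b₂.symm))
  have hst : stat Φ ε L (V₁ : Set Src) a s = stat Φ ε L (V₂ : Set Src) a s := by
    rcases le_or_gt a.1 s with h3 | h3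
    · have h4 := stat_of_sta h
      have s₂ := h₂.lines.stat a ha₂ s hs h3
      rw [← hf a ha] at s₂
      rw [h₁.lines.stat a ha s hs h3, s₂] at h4
      rcases h5 : stat Φ ε L (V₁ : Set Src) a s with _ | Z
      · rw [h5, Option.map_none] at h4
        exact (Option.map_eq_none_iff.1 h4.symm).symm
      · rcases h6 : stat Φ ε L (V₂ : Set Src) a s with _ | Z'
        · rw [h5, h6, Option.map_none, Option.map_some] at h4
          exact absurd h4 (by simp)
        · rw [h5, h6, Option.map_some, Option.map_some, Option.some_inj] at h4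
          have h7 := ((stat_eq_some_iff hΦ hε V₁.finite_toSet).1 h5).2.sub
          have h8 := ((stat_eq_some_iff hΦ hε V₂.finite_toSet).1 h6).2.sub
          have h9 : sbs f₁ Z = sbs f₂ Z := sbs_congr fun σ hσ => hf σ (Finset.mem_coe.1 (h7 hσ))
          rw [h9] at h4
          rw [sbs_inj_of h₂.lines.bij.injOn (h7.trans (Finset.coe_subset.2 hV)) h8 h4]
    · rw [stat_unborn hΦ hε h3, stat_unborn hΦ hε h3]
  simp only [sta]
  rw [m₁, m₂, hb, hst]

/-- Touches of the worlds of lines come from touches of the worlds with the trees. -/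
theorem Rep.touch_conv (h₁ : Rep Φ ε L hΦ hε W₁ V₁ f₁ u) (h₂ : Rep Φ ε L hΦ hε W₂ V₂ f₂ u)
    (hV : V₁ ⊆ V₂) (hf : ∀ a ∈ V₁, f₁ a = f₂ a) (hm : ∀ a ∈ V₂, (f₂ a).root ∈ W₁ → a ∈ V₁)
    (h : (Y Φ ε L hΦ hε).Touch V₁ V₂ u) : (Y Φ ε L hΦ hε).Touch W₁ W₂ u := by
  obtain ⟨a, hD, he⟩ := h
  have ha₂ : a ∈ V₂ := he.elim (fun he => hV he.mem) fun he => he.mem
  by_cases ha₁ : a ∈ V₁
  · refine ⟨(f₁ a).root, ?_, he.imp (fun he => (h₁.lines.exp a ha₁ u le_rfl).1 he) fun he => ?_⟩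
    · by_contra hcon
      refine (FB.Sys.not_mem_D.2 fun s hs => ?_ : a ∉ (Y Φ ε L hΦ hε).D V₁ V₂ u) hD
      exact h₁.sta_conv h₂ hV hf ha₁ hs (sta_eq_of_not_mem_D hcon hs)
    · rw [hf a ha₁]
      exact (h₂.lines.exp a ha₂ u le_rfl).1 he
  · have he₂ : (Y Φ ε L hΦ hε).Exp V₂ a u := he.elim (fun he => absurd he.mem ha₁) id
    have h3 := (h₂.lines.exp a ha₂ u le_rfl).1 he₂
    exact ⟨(f₂ a).root, mem_D_of_not_mem fun h4 => ha₁ (hm a ha₂ (h4.2 h3.mem)), Or.inr h3⟩

/-! ### Felt trees -/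

theorem sbs_of_leaf (hS : ∀ σ ∈ S.leaves, f σ = leaf σ) : sbs f S = S := by
  have h1 : sbs f S = sbs leaf S := sbs_congr hS
  rw [h1, sbs_leaf]

/-- The trees of the base which are over are alive in both worlds. -/
theorem Rep.alive_ext (h : Rep Φ ε L hΦ hε W V f t) (hSV : S.leaves ⊆ (V : Set Src))
    (hfS : ∀ σ ∈ S.leaves, f σ = leaf σ) (hext : ext Φ ε S ≤ t)
    (hS : alive Φ ε L (V : Set Src) S (ext Φ ε S)) :
    alive Φ ε L (W : Set Src) S (ext Φ ε S) := by
  rw [alive_iff_live hΦ hε W.finite_toSet]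
  obtain ⟨h1, -⟩ := (alive_iff_live hΦ hε V.finite_toSet).1 hS
  refine ⟨?_, le_rfl⟩
  have hrV : S.root ∈ V := Finset.mem_coe.1 (hSV S.root_mem_leaves)
  have hr := hfS S.root S.root_mem_leaves
  cases S with
  | leaf σ =>
    have h2 := h.sub σ hrV
    rw [show f σ = leaf σ from hr] at h2
    exact ⟨h2, h1.ok, h1.depth, h1.sig_le, fun T' s hs hh => absurd hs (not_lt.2 hh.1)⟩
  | node a b =>
    have hok := h1.ok
    refine live_of_stat_before (a := (node a b).root) hΦ hε (sig_lt_ext hΦ hε hok)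
      fun q hq hqe => ⟨q, le_rfl, hqe, ?_⟩
    have h2 : stat Φ ε L (V : Set Src) (node a b).root q = some (node a b) :=
      (stat_eq_some_iff hΦ hε V.finite_toSet).2 ⟨rfl, h1.lives_of_lt hqe hq⟩
    have h3 := h.lines.stat _ hrV q (hqe.le.trans hext) ((root_birth_le_sig hΦ hε hok).trans hq)
    rw [h2] at h3
    change stat Φ ε L (W : Set Src) (f (node a b).root).root q = some (sbs f (node a b)) at h3
    rw [hr, sbs_of_leaf hfS] at h3
    exact h3

/-- A felt tree of the world of lines which is independent is felt in the world with the trees. -/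
theorem Rep.fl (h : Rep Φ ε L hΦ hε W V f t) (hu : u ≤ t)
    (hfS : ∀ σ ∈ S.leaves, f σ = leaf σ)
    (hI : ¬(Y Φ ε L hΦ hε).Touch (rm W S) W u → Rep Φ ε L hΦ hε (rm W S) (rm V S) f u)
    (h' : Rep Φ ε L hΦ hε W V f u)
    (hS : PB.fl L hΦ hε V u S) : PB.fl L hΦ hε W u S := by
  have hrV : S.root ∈ V := Finset.mem_coe.1 (hS.sub S.root_mem_leaves)
  have hr := hfS S.root S.root_mem_leaves
  have hal := h.alive_ext hS.sub hfS (hS.ext_le.trans hu) hS.alive
  refine ⟨(alive_pre hal).sub, hS.depth, hS.ext_le, hal, fun q hq he => ?_, ?_⟩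
  · refine hS.root q hq ((h.lines.exp _ hrV q (hq.le.trans (hS.ext_le.trans hu))).2 ?_)
    rw [hr]
    exact he
  · by_contra hn
    refine hn ((hI hn).touch_conv h' (fun a ha => (mem_rm.1 ha).1) (fun _ _ => rfl) ?_ hS.touch)
    intro a ha har
    refine mem_rm.2 ⟨ha, fun haS => ?_⟩
    rw [hfS a haS] at har
    exact (mem_rm.1 har).2 haS

variable (Φ ε L) in
open Classical in
/-- The weighted number of the trees of `V` which are over at the time `t`, whose root was not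
exposed before their end, and which are not independent (`I` is the condition of independence). -/
def relI (V : Finset Src) (t : ℝ) (I : CTree → Prop) : ℝ≥0∞ :=
  ∑' S : CTree, if S.leaves ⊆ (V : Set Src) ∧ S.depth ≤ L ∧ ext Φ ε S ≤ t ∧
      alive Φ ε L (V : Set Src) S (ext Φ ε S) ∧ (∀ (hΦ : IsPotential Φ) (hε : 0 < ε),
        ∀ s < ext Φ ε S, ¬(Y Φ ε L hΦ hε).Exp V S.root s) ∧ ¬I S then
    ENNReal.ofReal (1 + ‖(ln Φ ε S).2‖) else 0

variable (Φ ε L hΦ hε) in
/-- Conditions of independence of the tree `S`: it does not contain any of the lines, and the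
replacement holds in the worlds without `S`. -/
def IndR (W V : Finset Src) (f : Src → CTree) (ρ t : ℝ) (S : CTree) : Prop :=
  (∀ σ ∈ S.leaves, f σ = leaf σ) ∧ ∀ u ≤ t, ρ ≤ u → ¬(Y Φ ε L hΦ hε).Touch (rm W S) W u →
    Rep Φ ε L hΦ hε (rm W S) (rm V S) f u

variable {I : CTree → Prop}

theorem Rep.fW_le (h : Rep Φ ε L hΦ hε W V f t)
    (hI : ∀ S, S.leaves ⊆ (V : Set Src) → I S → IndR Φ ε L hΦ hε W V f ρ t S) (hρ : ρ ≤ u)
    (hu : u ≤ t) (h' : Rep Φ ε L hΦ hε W V f u) :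
    fW L hΦ hε V u ≤ fW L hΦ hε W u + relI Φ ε L V t I := by
  unfold fW relI
  rw [← ENNReal.tsum_add]
  refine ENNReal.tsum_le_tsum fun S => ?_
  by_cases hS : PB.fl L hΦ hε V u S
  · rw [if_pos hS]
    by_cases hi : I S
    · obtain ⟨h1, h2⟩ := hI S hS.sub hi
      rw [if_pos (h.fl hu h1 (h2 u hu hρ) h' hS)]
      exact le_self_add
    · rw [if_pos (⟨hS.sub, hS.depth, hS.ext_le.trans hu, hS.alive, fun _ _ => hS.root, hi⟩ :
        S.leaves ⊆ (V : Set Src) ∧ S.depth ≤ L ∧ ext Φ ε S ≤ t ∧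
        alive Φ ε L (V : Set Src) S (ext Φ ε S) ∧ (∀ (hΦ : IsPotential Φ) (hε : 0 < ε),
        ∀ s < ext Φ ε S, ¬(Y Φ ε L hΦ hε).Exp V S.root s) ∧ ¬I S)]
      exact le_add_self
  · rw [if_neg hS]
    exact zero_le

/-- **The watched numbers** of the world of lines and of the world with the trees. -/
theorem Rep.nW_le (h : Rep Φ ε L hΦ hε W V f t) (h0 : ∀ a ∈ V, 0 ≤ a.1)
    (hI : ∀ S, S.leaves ⊆ (V : Set Src) → I S → IndR Φ ε L hΦ hε W V f ρ t S) (hρ : ρ ≤ u)
    (hu : u ≤ t) (h' : Rep Φ ε L hΦ hε W V f u) :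
    nW L hΦ hε V u ≤ nW L hΦ hε W u + relI Φ ε L V t I := by
  unfold nW
  rw [h.eW h0 hu, add_assoc]
  exact add_le_add le_rfl (h.fW_le hI hρ hu h')

/-- **P2, from the world with the trees to the world of lines.** -/
theorem Rep.hz (h : Rep Φ ε L hΦ hε W V f t) (h0 : ∀ a ∈ V, 0 ≤ a.1) (hη : 0 < η) (ht : 0 ≤ t)
    (hI : ∀ S, S.leaves ⊆ (V : Set Src) → I S → IndR Φ ε L hΦ hε W V f ρ t S)
    (h' : ∀ u ≤ t, ρ ≤ u → Rep Φ ε L hΦ hε W V f u) {σ : ℝ} (hρσ : ρ < σ)
    (hR : relI Φ ε L V t I ≤ ENNReal.ofReal ((η' - η) * mu ε)) (hηη : η ≤ η')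
    (hσ : σ ≤ PB.hz L hΦ hε η t W) : σ ≤ PB.hz L hΦ hε η' t V := by
  have hσt : σ ≤ t := hσ.trans (hz_le hη ht)
  refine le_hz hσt fun r hr => ?_
  have hm : max r ρ < σ := max_lt hr hρσ
  have h3 : nW L hΦ hε W (max r ρ) < ENNReal.ofReal (η * mu ε) :=
    nW_lt_of_lt_hz hη ht (hm.trans_le hσ)
  have h4 := h.nW_le h0 hI (le_max_right r ρ) (hm.le.trans hσt)
    (h' _ (hm.le.trans hσt) (le_max_right r ρ))
  have hμ := (GC.mu_pos hε).le
  calc nW L hΦ hε V r ≤ nW L hΦ hε V (max r ρ) := nW_mono (le_max_left _ _)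
    _ ≤ nW L hΦ hε W (max r ρ) + ENNReal.ofReal ((η' - η) * mu ε) :=
        h4.trans (add_le_add le_rfl hR)
    _ < ENNReal.ofReal (η * mu ε) + ENNReal.ofReal ((η' - η) * mu ε) :=
        ENNReal.add_lt_add_right ENNReal.ofReal_ne_top h3
    _ = ENNReal.ofReal (η' * mu ε) := by
        rw [← ENNReal.ofReal_add (mul_nonneg hη.le hμ) (mul_nonneg (by linarith) hμ)]
        congr 1
        ring

end Vale.Agent.P119.TL
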