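import Vale.Agent.P119.PB.Op8
import Vale.Agent.P119.PB.CrudeTheta

/-!
# P119, block PROB, P9: flux of a Gaussian pair into all the paths of a fixed world (`helper909`)

* `SA W s h`: the pairs `(z, z')` which hit each other after `s` and are in contact, before `h`, with
  a path of `W` (a measurable superset);
* `mem_SA`, `measurableSet_SA`, **`pa_flux`**: its Gaussian flux is at most `C ε² (ε + (h - s)) EW W`.
-/

open MeasureTheory Set Filter Topology Metric ProbabilityTheory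
open scoped ENNReal

namespace Vale.Agent.P119.PB

open M CTree KU FB RB AU FL EN

variable {Φ : E3 → ℝ} {ε : ℝ} {L : ℕ}

namespace TriP1

/-- The pieces of the event. -/
noncomputable def pcs (L : ℕ) (hΦ : IsPotential Φ) (hε : 0 < ε) (W : Finset Src) (s h : ℝ) :
    Option (Bool × (Bool × Src)) → Set (Ph × (Fin 1 → Ph))
  | none => {q | Meets ε (q.1, q.2 0) ∧ hitT ε (q.1, q.2 0) = h}
  | some (true, i) => ctc (pairPath1 hΦ hε.ne' h (fun _ => Step.keep) 0) s
      ((allT Φ ε L hΦ hε W h i).cut s h le_rfl).a ((allT Φ ε L hΦ hε W h i).cut s h le_rfl).Y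
  | some (false, i) => ctc (pairPath2 hΦ hε.ne' h (fun _ => Step.keep) 0) s
      ((allT Φ ε L hΦ hε W h i).cut s h le_rfl).a ((allT Φ ε L hΦ hε W h i).cut s h le_rfl).Y

open Classical in
/-- The indices. -/
noncomputable def idxs (W : Finset Src) : Finset (Option (Bool × (Bool × Src))) :=
  Finset.insertNone (Finset.univ ×ˢ ((Finset.univ : Finset Bool) ×ˢ W))

theorem measurableSet_pcs (hΦ : IsPotential Φ) (hε : 0 < ε) (W : Finset Src) (s h : ℝ) :
    ∀ o ∈ idxs W, MeasurableSet (pcs L hΦ hε W s h o) := by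
  have hq0 : Measurable fun q : Ph × (Fin 1 → Ph) => ((q.1, q.2 0) : Ph × Ph) :=
    measurable_fst.prodMk ((measurable_pi_apply 0).comp measurable_snd)
  rintro (_ | ⟨_ | _, i⟩) _
  · exact (hq0 measurableSet_meets).inter ((measurable_hitT.comp hq0) (measurableSet_singleton h))
  · exact measurableSet_ctc (good_pairPath2 hΦ hε.ne' h (fun _ => Step.keep) 0)
      ((allT Φ ε L hΦ hε W h i).cut s h le_rfl).cont
  · exact measurableSet_ctc (good_pairPath1 hΦ hε.ne' h (fun _ => Step.keep) 0)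
      ((allT Φ ε L hΦ hε W h i).cut s h le_rfl).cont

end TriP1

open TriP1

/-- The pairs which are in contact with a path of `W`. -/
def SA (L : ℕ) (hΦ : IsPotential Φ) (hε : 0 < ε) (W : Finset Src) (s h : ℝ) : Set (Ph × Ph) :=
  {q | ∃ o ∈ idxs W, ((q.1, fun _ => q.2) : Ph × (Fin 1 → Ph)) ∈ pcs L hΦ hε W s h o}

theorem measurableSet_SA (hΦ : IsPotential Φ) (hε : 0 < ε) (W : Finset Src) (s h : ℝ) :
    MeasurableSet (SA L hΦ hε W s h) := by
  have e : SA L hΦ hε W s h = ⋃ o ∈ idxs W,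
      (fun q : Ph × Ph => ((q.1, fun _ => q.2) : Ph × (Fin 1 → Ph))) ⁻¹' pcs L hΦ hε W s h o := by
    ext q
    simp only [SA, mem_setOf_eq, mem_iUnion, mem_preimage, exists_prop]
  rw [e]
  have hm : Measurable fun q : Ph × Ph => ((q.1, fun _ => q.2) : Ph × (Fin 1 → Ph)) :=
    measurable_fst.prodMk (measurable_pi_lambda _ fun _ => measurable_snd)
  exact Finset.measurableSet_biUnion _ fun o ho => hm (measurableSet_pcs hΦ hε W s h o ho)

/-- A pair in contact with a path. -/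
theorem mem_SA {hΦ : IsPotential Φ} {hε : 0 < ε} {W : Finset Src} (h0 : ∀ a ∈ W, a.1 = 0)
    {s h r : ℝ} {z z' : Ph} (hm : Meets ε (z, z')) (hs : s < hitT ε (z, z'))
    (hr : hitT ε (z, z') ≤ r) (hrh : r ≤ h)
    (hc : ∃ c ∈ W, Hits Φ ε L W c r (pairLine Φ ε (z, z') r).1 ∨
      Hits Φ ε L W c r (pairLine Φ ε (z, z') r).2) : (z, z') ∈ SA L hΦ hε W s h := by
  classical
  rcases (hr.trans hrh).lt_or_eq with hlt | heq
  · obtain ⟨c, hcW, h5 | h5⟩ := hc
    · obtain ⟨i, hi, a6, a7⟩ := exists_allT h0 (hΦ := hΦ) (hε := hε) hrh hcW h5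
      refine ⟨some (true, i), ?_, ⟨hm, hs, hlt, trivial⟩, r, ⟨?_, hrh⟩, a7⟩
      · exact Finset.some_mem_insertNone.2 (Finset.mem_product.2 ⟨Finset.mem_univ _, hi⟩)
      · exact max_le (max_le a6 (hs.le.trans hr)) hr
    · obtain ⟨i, hi, a6, a7⟩ := exists_allT h0 (hΦ := hΦ) (hε := hε) hrh hcW h5
      refine ⟨some (false, i), ?_, ⟨hm, hs, hlt, trivial⟩, r, ⟨?_, hrh⟩, a7⟩
      · exact Finset.some_mem_insertNone.2 (Finset.mem_product.2 ⟨Finset.mem_univ _, hi⟩)
      · exact max_le (max_le a6 (hs.le.trans hr)) hr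
  · exact ⟨none, Finset.none_mem_insertNone, hm, heq⟩

open Classical in
/-- **Flux of a Gaussian pair into all the paths of a fixed world.** -/
theorem pa_flux (hΦ : IsPotential Φ) {B : ℝ} (hB : RW.StableWith Φ B) (hε : 0 < ε)
    {W : Finset Src} (h0 : ∀ a ∈ W, a.1 = 0)
    (hexcl : ∀ a ∈ W, ∀ a' ∈ W, a ≠ a' → ε ≤ ‖a.2.1.1 - a'.2.1.1‖)
    {b : ℝ} (hb : 0 < b) {s h T₀ : ℝ} (hs : 0 ≤ s) (hT₀ : h - s ≤ T₀) :
    ∫⁻ z : Ph, ∫⁻ z' : Ph, gw b z.2 * (muE ε * gw b z'.2) * ind ((z, z') ∈ SA L hΦ hε W s h) ≤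
      ENNReal.ofReal (ε ^ 2) * (2 * Cp b (cS hΦ) T₀) *
        (2 * (ENNReal.ofReal ε + ENNReal.ofReal (h - s)) *
          ENNReal.ofReal ((2 + 2 * B) * EW W)) := by
  set A := pcs L hΦ hε W s h with hA
  set J := idxs W with hJ
  set I : Finset (Bool × Src) := (Finset.univ : Finset Bool) ×ˢ W with hI
  set Tg := allT Φ ε L hΦ hε W h with hTg
  have h2 := sum_allT_cut (L := L) hΦ hB hε h0 hexcl (h := h) hs
  rw [← hI, ← hTg] at h2
  have hAm : ∀ o ∈ J, MeasurableSet (A o) := measurableSet_pcs hΦ hε W s h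
  set P1 := pairPath1 hΦ hε.ne' h (fun _ => Step.keep) 0 with hP1
  set P2 := pairPath2 hΦ hε.ne' h (fun _ => Step.keep) 0 with hP2
  have g1 : P1.Good := good_pairPath1 hΦ hε.ne' h (fun _ => Step.keep) 0
  have g2 : P2.Good := good_pairPath2 hΦ hε.ne' h (fun _ => Step.keep) 0
  have key := lintegral_family_le J hAm (measurable_ew b ε 1)
    (Ψ := fun l p => gw b l.2 * (muE ε * gw b (p 0).2) * ind ((l, p 0) ∈ SA L hΦ hε W s h)) (by
      intro l p hne
      have hp : p = fun _ => p 0 := by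
        funext i
        rw [Subsingleton.elim i 0]
      by_cases hl : (l, p 0) ∈ SA L hΦ hε W s h
      · refine ⟨?_, ?_⟩
        · obtain ⟨o, ho, h3⟩ := hl
          refine ⟨o, ho, ?_⟩
          rw [hp]
          exact h3
        · refine le_of_eq ?_
          have h9 := ew_one (ε := ε) b (l, p)
          simp only at h9
          rw [h9]
          unfold ind
          rw [if_pos hl, mul_one]
      · refine absurd ?_ hne
        unfold ind
        simp only [if_neg hl, mul_zero])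
  have h3 : ∀ l : Ph, ∫⁻ p : Fin 1 → Ph, gw b l.2 * (muE ε * gw b (p 0).2) *
      ind ((l, p 0) ∈ SA L hΦ hε W s h) =
      ∫⁻ z' : Ph, gw b l.2 * (muE ε * gw b z'.2) * ind ((l, z') ∈ SA L hΦ hε W s h) := fun l =>
    lintegral_fin_one fun z' => gw b l.2 * (muE ε * gw b z'.2) *
      ind ((l, z') ∈ SA L hΦ hε W s h)
  simp only [h3] at key
  refine key.trans ?_
  have e0 : ∫⁻ l, ∫⁻ p, (A none).indicator (fun q => ENNReal.ofReal (Real.exp (-b * ‖q.1.2‖ ^ 2)) *
      FL.wt b ε 1 q.2) (l, p) = 0 := by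
    have : ∀ l : Ph, ∫⁻ p : Fin 1 → Ph, (A none).indicator (fun q =>
        ENNReal.ofReal (Real.exp (-b * ‖q.1.2‖ ^ 2)) * FL.wt b ε 1 q.2) (l, p) = 0 := by
      intro l
      have h4 : ∀ p : Fin 1 → Ph, (A none).indicator (fun q =>
          ENNReal.ofReal (Real.exp (-b * ‖q.1.2‖ ^ 2)) * FL.wt b ε 1 q.2) (l, p) =
          (fun z' : Ph => (gw b l.2 * muE ε) * (gw b z'.2 *
            ind (Meets ε (l, z') ∧ hitT ε (l, z') = h))) (p 0) := by
        intro p
        simp only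
        unfold ind
        by_cases hp : Meets ε (l, p 0) ∧ hitT ε (l, p 0) = h
        · rw [if_pos hp, indicator_of_mem (show (l, p) ∈ A none from hp), ew_one]
          ring
        · rw [if_neg hp, indicator_of_notMem (show (l, p) ∉ A none from hp)]
          ring
      rw [lintegral_congr h4, lintegral_fin_one (fun z' : Ph => (gw b l.2 * muE ε) * (gw b z'.2 *
            ind (Meets ε (l, z') ∧ hitT ε (l, z') = h))), lintegral_const_mul', hit_null hε hb,
        mul_zero]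
      exact ENNReal.mul_ne_top ENNReal.ofReal_ne_top muE_ne_top
    simp only [this, lintegral_zero]
  rw [hJ]
  unfold idxs
  rw [Finset.sum_insertNone, Finset.sum_product, Fintype.sum_bool, e0, zero_add]
  rcases lt_or_ge h s with hts | hst
  · -- empty window
    have hz : ∀ i, ∫⁻ l, ∫⁻ p, (A (some i)).indicator (fun q =>
        ENNReal.ofReal (Real.exp (-b * ‖q.1.2‖ ^ 2)) * FL.wt b ε 1 q.2) (l, p) = 0 := by
      intro i
      have hem : A (some i) = ∅ := by
        rcases i with ⟨_ | _, i⟩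
        · refine eq_empty_iff_forall_notMem.2 ?_
          rintro q ⟨⟨-, h4, h5, -⟩, -⟩
          linarith
        · refine eq_empty_iff_forall_notMem.2 ?_
          rintro q ⟨⟨-, h4, h5, -⟩, -⟩
          linarith
      rw [hem]
      simp
    simp only [hz, Finset.sum_const_zero, add_zero]
    exact zero_le
  have e1 : ∑ i ∈ I, ∫⁻ l, ∫⁻ p, (A (some (true, i))).indicator (fun q =>
      ENNReal.ofReal (Real.exp (-b * ‖q.1.2‖ ^ 2)) * FL.wt b ε 1 q.2) (l, p) ≤
      ENNReal.ofReal (ε ^ 2) * Cp b (cS hΦ) T₀ * ∑ i ∈ I, ((Tg i).cut s h le_rfl).w ε := by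
    rw [Finset.mul_sum]
    exact Finset.sum_le_sum fun i _ => pctc_family hε hb (cS_nonneg hΦ) hst hT₀ g1 (Tg i)
  have e2 : ∑ i ∈ I, ∫⁻ l, ∫⁻ p, (A (some (false, i))).indicator (fun q =>
      ENNReal.ofReal (Real.exp (-b * ‖q.1.2‖ ^ 2)) * FL.wt b ε 1 q.2) (l, p) ≤
      ENNReal.ofReal (ε ^ 2) * Cp b (cS hΦ) T₀ * ∑ i ∈ I, ((Tg i).cut s h le_rfl).w ε := by
    rw [Finset.mul_sum]
    exact Finset.sum_le_sum fun i _ => pctc_family hε hb (cS_nonneg hΦ) hst hT₀ g2 (Tg i)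
  calc _ ≤ ENNReal.ofReal (ε ^ 2) * Cp b (cS hΦ) T₀ * ∑ i ∈ I, ((Tg i).cut s h le_rfl).w ε +
        ENNReal.ofReal (ε ^ 2) * Cp b (cS hΦ) T₀ * ∑ i ∈ I, ((Tg i).cut s h le_rfl).w ε :=
        add_le_add e1 e2
    _ ≤ ENNReal.ofReal (ε ^ 2) * Cp b (cS hΦ) T₀ *
          (2 * (ENNReal.ofReal ε + ENNReal.ofReal (h - s)) *
            ENNReal.ofReal ((2 + 2 * B) * EW W)) +
        ENNReal.ofReal (ε ^ 2) * Cp b (cS hΦ) T₀ *
          (2 * (ENNReal.ofReal ε + ENNReal.ofReal (h - s)) *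
            ENNReal.ofReal ((2 + 2 * B) * EW W)) := by gcongr
    _ = _ := by ring

end Vale.Agent.P119.PB
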