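import Vale.Agent.P119.PB.RE6
import Vale.Agent.P119.PB.LawLim
import Vale.Agent.P119.IND.KNeg

/-!
# P119, block PROB: trees related to the first marked line (`helper185`)

**`kneg_relW`** (X6c): the probability that the weight of the trees which are related to the marked
line `e` is larger than `θ μ` is negligible, under the laws of the marked pairs.
-/

open MeasureTheory Filter Topology Set
open scoped ENNReal NNReal

noncomputable section

namespace Vale.Agent.P119.PB.RE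

open M CTree KU FL FB RB AU TL GC IND XT MM PB.CT RelX RLn

variable {Φ : E3 → ℝ} {ε t T₀ θ b c : ℝ} {m q L N : ℕ} {f₀ : Ph → ℝ} {κ₀ M₀ M₁ : ℝ}

open Classical in
/-- **Trees related to the first marked line** (X6c). -/
theorem kneg_relW (h : GoodDatum f₀ κ₀) (hΦ : IsPotential Φ) (hb : 0 < b)
    (hc : 0 ≤ c) (hcb : c ≤ b / 2) (hM₀ : 0 ≤ M₀)
    (hf : ∀ z, f₀ z ≤ M₀ * Real.exp (-b * ‖z.2‖ ^ 2)) (hM₁ : 0 ≤ M₁)
    (hmarg : ∀ v, ∫⁻ x, ENNReal.ofReal (f₀ (x, v)) ≤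
      ENNReal.ofReal (M₁ * Real.exp (-b * ‖v‖ ^ 2)))
    (hm : 0 < m) (hT₀ : 0 ≤ T₀) (hθ : 0 < θ) :
    KNeg Φ f₀ b c m q L N T₀ fun ε hε t e _ => ∫⁻ w, ind (ENNReal.ofReal (θ * mu ε) <
      relW L hΦ hε (insert e (wS (pts w))) (wS (pts w)) t) ∂(PP f₀ ε) := by
  obtain ⟨Dl, hDl, h1⟩ := lines_lim h hΦ hb hc hcb hM₀ hf hM₁ hmarg m q L 2 1 N hT₀
    (X := fun J => irrs hΦ T₀ J 2) (irrFam_irrs hΦ h.meas hM₁ hmarg (by linarith) hT₀ 2)
  have hθi : (ENNReal.ofReal θ)⁻¹ ≠ ∞ := ENNReal.inv_ne_top.2 (ENNReal.ofReal_pos.2 hθ).ne'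
  refine ⟨fun ε => (ENNReal.ofReal θ)⁻¹ * Dl ε, ?_, fun ε hε hε1 t ht s dl W e k CW hCW hW => ?_⟩
  · have h2 := ENNReal.Tendsto.const_mul hDl (Or.inr hθi)
    rwa [mul_zero] at h2
  have hk : (ENNReal.ofReal (θ * mu ε))⁻¹ ≠ ∞ :=
    ENNReal.inv_ne_top.2 (ENNReal.ofReal_pos.2 (mul_pos hθ (GC.mu_pos hε))).ne'
  have h2 := h1 ε hε hε1 t ht.1 ht.2 s hW.nonneg dl W hW.meas CW hCW hW.le hW.base
    (fun T l => K2 (e T l) (k T l)) (fun T l => {e T l}) (fun _ _ => ∅)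
    (rs_K2 hW.meas_e hW.meas_k) (fun T l hne => hW.hasBase hm ht.2 hΦ hε hne)
    (fun T l hne => ⟨card_K2 _ _, fun a ha => (hW.K2_le ht.2 hΦ hε hne a ha).2.2⟩)
    (fun T l _ => ⟨Finset.singleton_subset_iff.2 (mem_K2.2 (Or.inl rfl)),
      Finset.empty_subset _⟩)
  have hmk : ∀ a : Src, ∫⁻ w, ind (ENNReal.ofReal (θ * mu ε) <
      relW L hΦ hε (insert a (wS (pts w))) (wS (pts w)) t) ∂(PP f₀ ε) ≤
      (ENNReal.ofReal (θ * mu ε))⁻¹ * RW L hΦ hε f₀ t a := fun a => by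
    unfold RW RWs
    rw [← lintegral_const_mul' _ _ hk]
    refine lintegral_mono fun w => ?_
    rw [wF_empty', ← ins_eq]
    by_cases h3 : ENNReal.ofReal (θ * mu ε) <
        relW L hΦ hε (insert a (wS (pts w))) (wS (pts w)) t
    · refine (ind_le_one _).trans ?_
      calc (1 : ℝ≥0∞) = (ENNReal.ofReal (θ * mu ε))⁻¹ * ENNReal.ofReal (θ * mu ε) :=
            (ENNReal.inv_mul_cancel (ENNReal.ofReal_pos.2
              (mul_pos hθ (GC.mu_pos hε))).ne' ENNReal.ofReal_ne_top).symm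
        _ ≤ _ := mul_le_mul_right h3.le _
    · rw [ind_of_not h3]
      exact zero_le
  calc _ ≤ muE ε ^ q * ∫⁻ T, ∫⁻ l : Fin q → Ph, (∏ j, g1 b (l j).2) * (W T l *
        ((ENNReal.ofReal (θ * mu ε))⁻¹ * RW L hΦ hε f₀ t (e T l))) ∂volume
        ∂(Measure.pi fun _ : Fin m => tree (inten f₀ ε) L) :=
        mul_le_mul_right (lintegral_mono fun T => lintegral_mono fun l =>
          mul_le_mul_right (mul_le_mul_right (hmk _) _) _) _
    _ = (ENNReal.ofReal (θ * mu ε))⁻¹ * (muE ε ^ q * ∫⁻ T, ∫⁻ l : Fin q → Ph,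
        (∏ j, g1 b (l j).2) * (W T l * RW L hΦ hε f₀ t (e T l)) ∂volume
        ∂(Measure.pi fun _ : Fin m => tree (inten f₀ ε) L)) := by
        rw [mul_left_comm, ← lintegral_const_mul' _ _ hk]
        congr 1
        refine lintegral_congr fun T => ?_
        rw [← lintegral_const_mul' _ _ hk]
        exact lintegral_congr fun l => by ring
    _ ≤ (ENNReal.ofReal (θ * mu ε))⁻¹ * (CW * (muE ε ^ (1 + 1) * Dl ε)) :=
        mul_le_mul_right h2 _
    _ = CW * (muE ε * ((ENNReal.ofReal (θ * mu ε))⁻¹ * (muE ε * Dl ε))) := by ring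
    _ = _ := by rw [inv_mul_mu hθ hε]

end Vale.Agent.P119.PB.RE
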