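import Vale.Agent.P119.PB.Mecke6
import Vale.Agent.P119.PB.MkHit
import Vale.Agent.P119.PB.ExcNE2
import Vale.Agent.P119.IND.HitNoExc
import Vale.Agent.P119.IND.KNeg

/-!
# P119, block PROB: the exceptional event of a hit by the second line (`helper119`)

* `A6`: the lines which are seen by the gas;
* `law_Be`: a failure of `NoExc` for the tree which is hit by the second marked line, over the gas
  and the first marked line, gives the alternatives of the laws (from `HB.law_noExc` of `helper810`);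
* **`lim_Be`**: the limit of these exceptional events; **`kneg_Be`**: they are negligible under the
  laws of marked pairs.
-/

open MeasureTheory Filter Topology Set
open scoped ENNReal NNReal

noncomputable section

namespace Vale.Agent.P119.PB.X6e

open M CTree KU FL FB RB AU TL GC IND XT PB.CT M6 MH

variable {Φ : E3 → ℝ} {ε t T₀ : ℝ} {L m q N : ℕ} {f₀ : Ph → ℝ} {κ₀ b c M₀ M₁ : ℝ}

/-! ### The lines -/

/-- The lines which are seen by the gas. -/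
def A6 (Φ : E3 → ℝ) (ε t : ℝ) (e k : Src) (R : CTree) : Finset Src := by
  classical
  exact (insert e (kA Φ ε R k ∪ kB Φ ε R k)).filter fun a => a.1 ≤ t

theorem mem_A6 {e k a : Src} {R : CTree} :
    a ∈ A6 Φ ε t e k R ↔ (a = e ∨ a ∈ kA Φ ε R k ∨ a ∈ kB Φ ε R k) ∧ a.1 ≤ t := by
  classical
  unfold A6
  rw [Finset.mem_filter, Finset.mem_insert, Finset.mem_union]

theorem card_A6_le {e k : Src} {R : CTree} (hd : R.depth ≤ L) :
    (A6 Φ ε t e k R).card ≤ 2 * 2 ^ (L + 2) + 4 := by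
  classical
  have h1 := NE.card_exl_le (Φ := Φ) (ε := ε) hd
  have h2 : (kA Φ ε R k).card ≤ 2 ^ (L + 2) + 1 := by
    unfold kA
    exact (Finset.card_insert_le _ _).trans (by omega)
  have h3 : (kB Φ ε R k).card ≤ 2 ^ (L + 2) + 2 := by
    unfold kB
    refine (Finset.card_insert_le _ _).trans ?_
    have := Finset.card_insert_le (rsrc Φ ε (node (leaf k) R)) (exl Φ ε R)
    omega
  unfold A6
  refine (Finset.card_filter_le _ _).trans ((Finset.card_insert_le _ _).trans ?_)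
  have := Finset.card_union_le (kA Φ ε R k) (kB Φ ε R k)
  omega

/-- The collision of the tree and the line. -/
theorem ok_hit (hΦ : IsPotential Φ) {k : Src} {R : CTree} (h : Ht Φ ε L t k R) (hk : 0 ≤ k.1) :
    CTree.ok Φ ε (node R (leaf k)) := by
  have e1 : hitT ε (ln Φ ε R, k.2.1) = hitT ε (k.2.1, ln Φ ε R) := hitT_swap (k.2.1, ln Φ ε R)
  refine ⟨h.ok, hk, Set.disjoint_singleton_right.2 h.notMem,
    (meets_swap (k.2.1, ln Φ ε R)).2 h.meets, h.exits' hΦ, ?_, ?_⟩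
  · change CTree.ext Φ ε R < hitT ε (ln Φ ε R, k.2.1)
    rw [e1]
    exact h.ext_lt
  · change k.1 < hitT ε (ln Φ ε R, k.2.1)
    rw [e1]
    exact h.lt

theorem sig_hit {k : Src} {R : CTree} :
    sig Φ ε (node R (leaf k)) = hitT ε (k.2.1, ln Φ ε R) := hitT_swap (k.2.1, ln Φ ε R)

variable {s : Fin q → ℝ} {dl : Fin q → ℕ} {e k : (Fin m → CTree) → (Fin q → Ph) → Src}
  {T : Fin (m + 1) → CTree} {l : Fin q → Ph}

/-- The births and the energies of the lines. -/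
theorem A6_ok (hΦ : IsPotential Φ) (hε : 0 < ε) (h : Str6 Φ ε t L N s dl e k T l) {a : Src}
    (ha : a ∈ A6 Φ ε t (e (Fin.init T) l) (k (Fin.init T) l) (T (Fin.last m))) :
    0 ≤ a.1 ∧ a.1 ≤ t ∧ ‖a.2.1.2‖ ^ 2 ≤ enB T l := by
  obtain ⟨h1, h2⟩ := mem_A6.1 ha
  have hb := h.mrk.births hΦ hε
  have he := h.mrk.energy hΦ hε h.base'
  have hen := enB_init T l
  rcases h1 with rfl | h1
  · refine ⟨hb.1.1, h2, he.1.trans ?_⟩
    rw [hen]
    exact le_add_of_nonneg_right (enT_nonneg _)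
  · have hok := ok_hit hΦ h.hit hb.2.1
    have h3 := NE.AN_ok (T := t) hΦ hε hok (NE.mem_AN.2 ⟨a, ⟨h1, h2⟩, rfl⟩)
    refine ⟨h3.1, h2, h3.2.2.trans ?_⟩
    rw [hen, add_comm]
    exact add_le_add_left he.2 _

/-! ### The alternatives of the laws -/

open Classical in
/-- **A failure of `NoExc`** for the tree which is hit by the second marked line. -/
theorem law_Be (h₀ : GoodDatum f₀ κ₀) (hΦ : IsPotential Φ) (hε : 0 < ε) (ht : 0 ≤ t)
    (hm : 0 < m) (h : Str6 Φ ε t L N s dl e k T l) (J : ℕ) :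
    ∀ᵐ w ∂(PP f₀ ε), Be L hΦ hε t (e (Fin.init T) l) (k (Fin.init T) l) (wS (pts w))
      (T (Fin.last m)) →
      LawC hΦ hε L t J 0 (N + 4 * 2 ^ (L + 2) + 3 + 2 * Nb0 L J) T (lns s dl l) (pts w)
        (A6 Φ ε t (e (Fin.init T) l) (k (Fin.init T) l) (T (Fin.last m)) : Set Src) := by
  obtain ⟨F, G, D₀, X, τe, τk, R₀, h1, h2, h3, h4, h5, h6, h7, h8, h9, h10, h11, -⟩ :=
    h.mrk.kbase hm h.base'
  set e' := e (Fin.init T) l with he'
  set k' := k (Fin.init T) l with hk'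
  set R := T (Fin.last m) with hR
  have hb := h.mrk.births hΦ hε
  obtain ⟨S, hS, hSr, -, -⟩ := h1.lst τk h7 h8
  subst hSr
  have hbi := base_init h.base
  have hdisj : ∀ σ ∈ lab F, σ ∉ R.leaves := by
    intro σ hσ hσR
    rcases h2.mem σ hσ with ⟨j, hj⟩ | ⟨j, rfl⟩
    · exact Set.disjoint_left.1 (hbi.2.1 j) hj hσR
    · exact hbi.2.2 j hσR
  have hok := ok_hit hΦ h.hit hb.2.1
  have e1 : sig Φ ε (node R (leaf (X S.root))) = hitT ε (k'.2.1, ln Φ ε R) := by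
    rw [h9]
    exact sig_hit
  have hHB : HB Φ ε t F G D₀ X S R := by
    refine ⟨h1, hS, h8, h.hit.ok, hdisj, ?_, ?_, ?_, ?_, ?_⟩
    · rw [h9]
      exact hok.2.2.2.1
    · rw [h9]
      exact h.hit.exits' hΦ
    · rw [e1, h9]
      exact h.hit.lt
    · rw [e1]
      exact h.hit.ext_lt
    · rw [e1]
      exact h.hit.le
  have hX : ∀ σ ∈ lab F, σ ∉ D₀ → X σ = e' ∨ X σ = k' := by
    intro σ hσ hσD
    rcases h11 σ hσ hσD with rfl | rfl
    · exact Or.inl h6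
    · exact Or.inr h9
  have eT : (Fin.snoc (Fin.init T : Fin m → CTree) R : Fin (m + 1) → CTree) = T :=
    Fin.snoc_init_self T
  filter_upwards [ae_forall_notMem_wS h₀ hε.le (lab F).finite_toSet,
    ae_forall_notMem_wS h₀ hε.le R.leaves_finite, ae_notMem_wS h₀ hε.le e',
    ae_notMem_wS h₀ hε.le k', ae_forall_notMem_wS h₀ hε.le (kA Φ ε R k').finite_toSet,
    ae_forall_notMem_wS h₀ hε.le (kB Φ ε R k').finite_toSet] with w w1 w2 w3 w4 w5 w6 hbad
  obtain ⟨hH, hno⟩ := hbad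
  have hal : alive Φ ε L (addT (insert e' (wS (pts w))) R : Set Src) R
      (sig Φ ε (node R (leaf (X S.root)))) := by
    rw [e1]
    exact hH.hit.alive
  have hno' : ¬NoExc Φ ε L t (X S.root) (insert e' (wS (pts w))) R := by
    rw [h9]
    exact hno
  have h12 := hHB.law_noExc (A := {e'}) (V := insert e' (wS (pts w))) (l := lns s dl l)
    (w := pts w) hΦ hε ht h2 (by rw [eT]; exact h.base) h.hit.depth
    (by rw [h9]; exact h.dep_k) (fun σ hσ => w1 σ (Finset.mem_coe.2 hσ)) w2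
    (fun σ hσ hσD => by
      rcases hX σ hσ hσD with h' | h'
      · rw [h']; exact w3
      · rw [h']; exact w4)
    (fun σ hσ => by
      rw [h9] at hσ
      exact w5 σ (Finset.mem_coe.2 hσ))
    (fun σ hσ => by
      rw [h9] at hσ
      exact w6 σ (Finset.mem_coe.2 hσ))
    (fun σ hσ => by
      rw [Finset.mem_singleton.1 hσ]
      exact ⟨⟨hb.1.1, h.dep_e⟩, τe, h4, h5, h10, h6⟩)
    (fun a => by rw [Finset.mem_insert, Finset.mem_singleton, or_comm])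
    (fun σ hσ hσD => by
      rcases hX σ hσ hσD with h' | h'
      · rw [h']; exact hH.notMem
      · rw [h']; exact h.hit.notMem) hal le_rfl hno' J
  rw [eT, h9] at h12
  refine NE.LawC.mono_set ?_ ?_ h12
  · rintro σ ⟨g1, g2⟩
    rw [Finset.mem_coe, mem_A6]
    exact ⟨g1.imp (fun g => Finset.mem_singleton.1 g) id, g2⟩
  · omega

/-! ### The limit -/

/-- **The exceptional events of the hits by the second marked line are negligible.** -/
theorem lim_Be (h : GoodDatum f₀ κ₀) (hΦ : IsPotential Φ) (hb : 0 < b) (hc : 0 ≤ c)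
    (hcb : c + b / 4 < b) (hM₀ : 0 ≤ M₀) (hf : ∀ z, f₀ z ≤ M₀ * Real.exp (-b * ‖z.2‖ ^ 2))
    (hM₁ : 0 ≤ M₁)
    (hmarg : ∀ v, ∫⁻ x, ENNReal.ofReal (f₀ (x, v)) ≤ ENNReal.ofReal (M₁ * Real.exp (-b * ‖v‖ ^ 2)))
    (m q L N : ℕ) (hm : 0 < m) (hT₀ : 0 ≤ T₀) :
    ∃ Dl : ℝ → ℝ≥0∞, Tendsto Dl (𝓝[>] 0) (𝓝 0) ∧ ∀ (ε : ℝ) (hε : 0 < ε), ε ≤ 1 →
      ∀ t ∈ Icc 0 T₀, ∀ (s : Fin q → ℝ) (dl : Fin q → ℕ)
      (W : (Fin m → CTree) → (Fin q → Ph) → ℝ≥0∞) (e k : (Fin m → CTree) → (Fin q → Ph) → Src)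
      (CW : ℝ≥0∞), CW ≠ ∞ → MLaw Φ ε t c L N s dl W e k CW →
      muE ε ^ q * ∫⁻ T, ∫⁻ l : Fin q → Ph, (∏ j, g1 b (l j).2) * (W6 Φ ε L t s dl W k T l *
        (PP f₀ ε) {w | Be L hΦ hε t (e (Fin.init T) l) (k (Fin.init T) l) (wS (pts w))
          (T (Fin.last m))}) ∂volume
        ∂(Measure.pi fun _ : Fin (m + 1) => tree (inten f₀ ε) L) ≤ CW * (muE ε * Dl ε) := by
  obtain ⟨Dl, hDl, h1⟩ := mlaw_hit_lim h hΦ hb hc hcb hM₀ hf hM₁ hmarg m q L N
    (2 * 2 ^ (L + 2) + 4) (fun J => N + 4 * 2 ^ (L + 2) + 3 + 2 * Nb0 L J) hT₀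
  refine ⟨Dl, hDl, fun ε hε hε1 t ht s dl W e k CW hCW hM => ?_⟩
  refine h1 ε hε hε1 t ht s dl W e k CW hCW hM (W6 Φ ε L t s dl W k)
    (measurable_W6 hΦ hε hM.meas hM.meas_k) (fun T l => ?_) (fun T l hTl => ?_)
    (fun T l => A6 Φ ε t (e (Fin.init T) l) (k (Fin.init T) l) (T (Fin.last m)))
    (fun T l hTl => ?_) (fun T l w => Be L hΦ hε t (e (Fin.init T) l) (k (Fin.init T) l)
      (wS (pts w)) (T (Fin.last m))) fun J T l hTl => ?_
  · unfold W6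
    exact mul_le_of_le_one_right' (ind_le_one _)
  · have h2 := str6 hM hTl
    exact ⟨h2.base, h2.hit.ok, h2.hit.depth, h2.hit.meets, h2.hit.lt, h2.hit.ext_lt, h2.hit.le⟩
  · have h2 := str6 hM hTl
    refine ⟨card_A6_le h2.hit.depth, fun σ hσ => ?_⟩
    obtain ⟨h3, h4, h5⟩ := A6_ok hΦ hε h2 hσ
    exact ⟨h3, by linarith, h5⟩
  · exact law_Be h hΦ hε ht.1 hm (str6 hM hTl) J

open Classical in
/-- **(X6e)** The exceptional hits of a tree by the second marked line are negligible. -/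
theorem kneg_Be (h : GoodDatum f₀ κ₀) (hΦ : IsPotential Φ) (hb : 0 < b) (hc : 0 ≤ c)
    (hcb : c ≤ b / 2) (hM₀ : 0 ≤ M₀) (hf : ∀ z, f₀ z ≤ M₀ * Real.exp (-b * ‖z.2‖ ^ 2))
    (hM₁ : 0 ≤ M₁)
    (hmarg : ∀ v, ∫⁻ x, ENNReal.ofReal (f₀ (x, v)) ≤ ENNReal.ofReal (M₁ * Real.exp (-b * ‖v‖ ^ 2)))
    (m q L N : ℕ) (hm : 0 < m) (hT₀ : 0 ≤ T₀) :
    KNeg Φ f₀ b c m q L N T₀ fun ε hε t e k => ∫⁻ w,
      sumHit Φ ε L t k (fun V R => PB.ind (Be L hΦ hε t e k V R)) (wS (pts w)) ∂(PP f₀ ε) := by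
  obtain ⟨Dl, hDl, h1⟩ := lim_Be h hΦ hb hc (by linarith) hM₀ hf hM₁ hmarg m q L N hm hT₀
  refine ⟨Dl, hDl, fun ε hε hε1 t ht s dl W e k CW hCW hM => le_trans (mul_le_mul_right ?_ _)
    (h1 ε hε hε1 t ht s dl W e k CW hCW hM)⟩
  exact mecke_Be h hΦ hε hb hM₀ hf hM hCW

end Vale.Agent.P119.PB.X6e
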