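import Vale.Agent.P119.PB.X6fS
import Vale.Agent.P119.PB.Mecke6
import Vale.Agent.P119.IND.KNeg

/-!
# P119, block PROB: trees related to the tree which is hit in a second event, kernel (`helper384`)

* **`kneg_relW6`** (X6f): the kernel
  `(θμ)⁻¹ ∫ ∑_{R hit by k} 1{Hit6, NoExc} relW (V + e + R) (V + e)` is negligible.
-/

open MeasureTheory Filter Topology Set
open scoped ENNReal NNReal

set_option linter.unusedSectionVars false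

noncomputable section

namespace Vale.Agent.P119.PB

open M CTree KU FB RB AU FL GC MM IND PB.CT TL RelX

namespace X6f

variable {Φ : E3 → ℝ} {ε T t : ℝ} {L : ℕ} {f₀ : Ph → ℝ} {κ₀ b c : ℝ} {m q : ℕ}

/-- **Trees related to the tree which is hit in a second event** (X6f). -/
theorem kneg_relW6 {M₀ M₁ : ℝ} (h : GoodDatum f₀ κ₀) (hΦ : IsPotential Φ) (hb : 0 < b)
    (hc : 0 ≤ c) (hcb : c ≤ b / 2) (hM₀ : 0 ≤ M₀)
    (hf : ∀ z, f₀ z ≤ M₀ * Real.exp (-b * ‖z.2‖ ^ 2)) (hM₁ : 0 ≤ M₁)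
    (hmarg : ∀ v, ∫⁻ x, ENNReal.ofReal (f₀ (x, v)) ≤
      ENNReal.ofReal (M₁ * Real.exp (-b * ‖v‖ ^ 2)))
    {m q L N : ℕ} {T₀ : ℝ} (hT₀ : 0 ≤ T₀) {θ : ℝ} (hθ : 0 < θ) :
    KNeg Φ f₀ b c m q L N T₀ fun ε hε t e k => (ENNReal.ofReal (θ * mu ε))⁻¹ *
      ∫⁻ w, sumHit Φ ε L t k (M6.Nf L hΦ hε t e k) (wS (pts w)) ∂(PP f₀ ε) := by
  obtain ⟨Dl, hDl, h1⟩ := x6f_struct h hΦ hb hc hcb hM₀ hf hM₁ hmarg m q L N hT₀
  have hθ0 : ENNReal.ofReal θ ≠ 0 := (ENNReal.ofReal_pos.2 hθ).ne'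
  refine ⟨fun ε => (ENNReal.ofReal θ)⁻¹ * Dl ε, ?_, fun ε hε hε1 t ht s dl W e k CW hCW hM => ?_⟩
  · have h2 := ENNReal.Tendsto.const_mul (a := (ENNReal.ofReal θ)⁻¹) hDl
      (Or.inr (ENNReal.inv_ne_top.2 hθ0))
    rwa [mul_zero] at h2
  have hmu : 0 < mu ε := GC.mu_pos hε
  have hμ0 : muE ε ≠ 0 := (ENNReal.ofReal_pos.2 hmu).ne'
  have hμt : muE ε ≠ ∞ := muE_ne_top
  obtain ⟨a, ha⟩ : ∃ a, a = (ENNReal.ofReal (θ * mu ε))⁻¹ := ⟨_, rfl⟩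
  have ha1 : a = (ENNReal.ofReal θ)⁻¹ * (muE ε)⁻¹ := by
    rw [ha, ENNReal.ofReal_mul hθ.le, ENNReal.mul_inv (Or.inl hθ0) (Or.inl ENNReal.ofReal_ne_top)]
    rfl
  have ha0 : a ≠ ∞ := by
    rw [ha]
    exact ENNReal.inv_ne_top.2 (ENNReal.ofReal_pos.2 (mul_pos hθ hmu)).ne'
  have h2 := h1 ε hε hε1 t ht s dl W e k CW hCW hM (M6.W6 Φ ε L t s dl W k)
    (M6.measurable_W6 hΦ hε hM.meas hM.meas_k)
    (fun T l => by
      unfold M6.W6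
      calc _ ≤ W (Fin.init T) l * 1 := mul_le_mul_right (ind_le_one _) _
        _ = _ := mul_one _)
    (fun T l hTl => by
      obtain ⟨-, h3, h4⟩ := M6.W6_ne_zero hTl
      exact ⟨h3, h4.ok, h4.depth, h4.meets, h4.lt, h4.ext_lt, h4.le⟩)
  have h3 := M6.mecke_Nf (L := L) h hΦ hε hb hM₀ hf hM hCW
  beta_reduce
  rw [← ha]
  calc muE ε ^ q * ∫⁻ T, ∫⁻ l : Fin q → Ph, (∏ j, g1 b (l j).2) * (W T l *
        (a * ∫⁻ w, sumHit Φ ε L t (k T l) (M6.Nf L hΦ hε t (e T l) (k T l)) (wS (pts w))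
          ∂(PP f₀ ε))) ∂volume ∂(Measure.pi fun _ : Fin m => tree (inten f₀ ε) L)
      = a * (muE ε ^ q * ∫⁻ T, ∫⁻ l : Fin q → Ph, (∏ j, g1 b (l j).2) * (W T l *
          ∫⁻ w, sumHit Φ ε L t (k T l) (M6.Nf L hΦ hε t (e T l) (k T l)) (wS (pts w))
          ∂(PP f₀ ε)) ∂volume ∂(Measure.pi fun _ : Fin m => tree (inten f₀ ε) L)) := by
        rw [mul_left_comm, ← lintegral_const_mul' _ _ ha0]
        congr 1
        refine lintegral_congr fun T => ?_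
        rw [← lintegral_const_mul' _ _ ha0]
        exact lintegral_congr fun l => by ring
    _ ≤ a * (muE ε ^ q * ∫⁻ T, ∫⁻ l : Fin q → Ph, (∏ j, g1 b (l j).2) *
          (M6.W6 Φ ε L t s dl W k T l * ∫⁻ w, M6.Nf L hΦ hε t (e (Fin.init T) l)
            (k (Fin.init T) l) (wS (pts w)) (T (Fin.last m)) ∂(PP f₀ ε)) ∂volume
            ∂(Measure.pi fun _ : Fin (m + 1) => tree (inten f₀ ε) L)) :=
        mul_le_mul_right (mul_le_mul_right h3 _) _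
    _ ≤ a * (CW * (muE ε ^ 2 * Dl ε)) := mul_le_mul_right h2 _
    _ = CW * (((muE ε)⁻¹ * muE ε) * (muE ε * ((ENNReal.ofReal θ)⁻¹ * Dl ε))) := by
        rw [ha1]
        ring
    _ = CW * (muE ε * ((ENNReal.ofReal θ)⁻¹ * Dl ε)) := by
        rw [ENNReal.inv_mul_cancel hμ0 hμt, one_mul]

end X6f

end Vale.Agent.P119.PB
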