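import Vale.Agent.P119.PB.X6a
import Vale.Agent.P119.IND.X6bU
import Vale.Agent.P119.PB.Mecke6

/-!
# P119, block PROB: the exceptional terms of the second events, assembly (`helper228`)

* `kA6` .. `kF6`: the parts of `exc6` as kernels; **`exc6_le6`**;
* `kneg_irrU` (X6b);
* **`x1_of`**: the statement `X1` from the parts (c), (d), (e), (f).
-/

open MeasureTheory Filter Topology Set
open scoped ENNReal NNReal

set_option linter.unusedSectionVars false

noncomputable section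

namespace Vale.Agent.P119.PB

open M CTree KU FB RB AU FL GC MM IND PB.CT TL RelX

variable {Φ : E3 → ℝ} {ε T t η θ : ℝ} {L : ℕ} {hΦ : IsPotential Φ} {hε : 0 < ε} {f₀ : Ph → ℝ}
  {κ₀ b c : ℝ} {m q c₀ NB : ℕ} {e k : Src}

/-! ### The parts -/

variable (Φ L f₀) in
/-- The marked lines interact over the gas. -/
def kA6 : Ker := fun ε _ t e k =>
  ∫⁻ w, ind (¬M.Good Φ ε L (wS (pts w)) PB.sgl (K2 e k) t) ∂(PP f₀ ε)

variable (Φ L f₀) in
/-- Irregular contacts of the second line with the gas. -/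
def kB6 : Ker := fun ε _ t _ k =>
  ∫⁻ w, ind (FB.IrrU Φ ε L (wS (pts w)) k t) ∂(PP f₀ ε)

variable (L f₀) in
open Classical in
/-- Many trees are related to the insertion of the first line. -/
def kC6 (hΦ : IsPotential Φ) (θ : ℝ) : Ker := fun ε hε t e _ =>
  ∫⁻ w, ind (ENNReal.ofReal (θ * mu ε) < relW L hΦ hε (insert e (wS (pts w))) (wS (pts w)) t)
    ∂(PP f₀ ε)

variable (L f₀) in
/-- The second line hits a tree which is not independent of the first line. -/
def kD6 (hΦ : IsPotential Φ) : Ker := fun ε hε t e k =>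
  ∫⁻ w, relHit L hΦ hε t (fun V T => ¬NoExc Φ ε L t k V T) (wS (pts w)) e k ∂(PP f₀ ε)

variable (L f₀) in
/-- The hit of the second line is exceptional. -/
def kE6 (hΦ : IsPotential Φ) : Ker := fun ε hε t e k =>
  ∫⁻ w, sumHit Φ ε L t k (fun V R => ind (M6.Be L hΦ hε t e k V R)) (wS (pts w)) ∂(PP f₀ ε)

variable (L f₀) in
/-- Many trees are related to the tree which is hit by the second line. -/
def kF6 (hΦ : IsPotential Φ) (θ : ℝ) : Ker := fun ε hε t e k =>
  (ENNReal.ofReal (θ * mu ε))⁻¹ * ∫⁻ w, sumHit Φ ε L t k (M6.Nf L hΦ hε t e k) (wS (pts w))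
    ∂(PP f₀ ε)

open Classical in
theorem I6_le (U : Finset Src) : ind (TE L hΦ hε η t U e ∧ I6 L hΦ hε θ t
    (IrrU Φ ε L U k t) U e k) ≤
    ind (¬M.Good Φ ε L U PB.sgl (K2 e k) t) + (ind (FB.IrrU Φ ε L U k t) +
      ind (ENNReal.ofReal (θ * mu ε) < relW L hΦ hε (insert e U) U t)) := by
  by_cases h : TE L hΦ hε η t U e ∧ I6 L hΦ hε θ t (IrrU Φ ε L U k t) U e k
  swap
  · rw [ind_of_not h]; exact zero_le
  rw [ind_of h]
  obtain ⟨-, h1 | h1 | h1⟩ := h
  · rw [ind_of h1]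
    exact le_add_left (le_add_right le_rfl)
  · have h2 : ¬M.Good Φ ε L U PB.sgl (K2 e k) t := h1
    rw [ind_of h2]
    exact le_add_right le_rfl
  · rw [ind_of h1]
    exact le_add_left (le_add_left le_rfl)

/-! ### Measurability -/

section meas

variable {X : Type} [MeasurableSpace X] {V : X → Finset Src} {e' k' : X → Src}

theorem measurableSet_notGood (hΦ : IsPotential Φ) (hε : 0 < ε)
    (hV : MM.RS fun x => (V x : Set Src)) (he : Measurable e')
    (hk : Measurable k') :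
    MeasurableSet {x | ¬M.Good Φ ε L (V x) PB.sgl (K2 (e' x) (k' x)) t} :=
  (RM.measurableSet_MGood_sgl (L := L) hΦ hε hV (K := fun x => K2 (e' x) (k' x)) (rs_K2 he hk)
    measurable_const).compl

open Classical in
theorem measurableSet_relWlt (hV : MM.RS fun x => (V x : Set Src)) (he : Measurable e') :
    MeasurableSet {x | ENNReal.ofReal (θ * mu ε) <
      relW L hΦ hε (insert (e' x) (V x)) (V x) t} := by
  exact measurableSet_lt measurable_const
    (RM.measurable_relW (RM.rs_ins hV he) hV measurable_const)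

end meas

variable (f₀ ε) in
/-- The product with the space of the gas. -/
theorem rs_gas : MM.RS fun q : (Src × Src) × Conf Ph => (wS (pts q.2) : Set Src) :=
  RM.rs_wS measurable_snd

theorem measurable_kA6 (h : GoodDatum f₀ κ₀) (hΦ : IsPotential Φ) (hε : 0 < ε) (t : ℝ) :
    Measurable fun p : Src × Src => kA6 Φ L f₀ ε hε t p.1 p.2 := by
  have hprob := isProbability_PP (ε := ε) h
  have h1 : Measurable fun q : (Src × Src) × Conf Ph =>
      ind (¬M.Good Φ ε L (wS (pts q.2)) PB.sgl (K2 q.1.1 q.1.2) t) :=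
    measurable_ind (measurableSet_notGood hΦ hε (RM.rs_wS measurable_snd) measurable_fst.fst
      measurable_fst.snd)
  exact h1.lintegral_prod_right'

theorem measurable_kB6 (h : GoodDatum f₀ κ₀) (hΦ : IsPotential Φ) (hε : 0 < ε) (t : ℝ) :
    Measurable fun p : Src × Src => kB6 Φ L f₀ ε hε t p.1 p.2 := by
  have hprob := isProbability_PP (ε := ε) h
  have h1 : Measurable fun q : (Src × Src) × Conf Ph =>
      ind (FB.IrrU Φ ε L (wS (pts q.2)) q.1.2 t) :=
    measurable_ind (RM.measurableSet_IrrU hΦ hε (RM.rs_wS measurable_snd)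
      measurable_fst.snd measurable_const)
  exact h1.lintegral_prod_right'

open Classical in
theorem measurable_kC6 (h : GoodDatum f₀ κ₀) (hΦ : IsPotential Φ) (hε : 0 < ε) (θ t : ℝ) :
    Measurable fun p : Src × Src => kC6 L f₀ hΦ θ ε hε t p.1 p.2 := by
  have hprob := isProbability_PP (ε := ε) h
  have h1 : Measurable fun q : (Src × Src) × Conf Ph =>
      ind (ENNReal.ofReal (θ * mu ε) < relW L hΦ hε (insert q.1.1 (wS (pts q.2)))
        (wS (pts q.2)) t) :=
    measurable_ind (measurableSet_relWlt (RM.rs_wS measurable_snd) measurable_fst.fst)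
  exact h1.lintegral_prod_right'

open Classical in
theorem measurable_kD6 (h : GoodDatum f₀ κ₀) (hΦ : IsPotential Φ) (hε : 0 < ε) (t : ℝ) :
    Measurable fun p : Src × Src => kD6 L f₀ hΦ ε hε t p.1 p.2 := by
  have hprob := isProbability_PP (ε := ε) h
  have h1 : Measurable fun q : (Src × Src) × Conf Ph =>
      relHit L hΦ hε t (fun V T => ¬NoExc Φ ε L t q.1.2 V T) (wS (pts q.2)) q.1.1 q.1.2 := by
    have hV : MM.RS fun q : (Src × Src) × Conf Ph => (wS (pts q.2) : Set Src) :=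
      RM.rs_wS measurable_snd
    have hV1 : MM.RS fun p : ((Src × Src) × Conf Ph) × CTree =>
        (rm (wS (pts p.1.2)) p.2 : Set Src) := RM.rs_rm (hV.comp measurable_fst) measurable_snd
    have he1 : Measurable fun p : ((Src × Src) × Conf Ph) × CTree => p.1.1.1 :=
      measurable_fst.fst.fst
    have hm1 : Measurable fun p : ((Src × Src) × Conf Ph) × CTree => p.1.1.2 :=
      measurable_fst.fst.snd
    have hE : MeasurableSet {p : ((Src × Src) × Conf Ph) × CTree |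
        ¬NoExc Φ ε L t p.1.1.2 (insert p.1.1.1 (rm (wS (pts p.1.2)) p.2)) p.2} :=
      (M6.measurableSet_NoExc' hΦ hε hV1 he1 hm1 measurable_snd).compl
    exact RM.measurable_relHit hV measurable_fst.fst measurable_fst.snd
      (E := fun q V T => ¬NoExc Φ ε L t q.1.2 V T) hE
  exact h1.lintegral_prod_right'

theorem measurable_kE6 (h : GoodDatum f₀ κ₀) (hΦ : IsPotential Φ) (hε : 0 < ε) (t : ℝ) :
    Measurable fun p : Src × Src => kE6 L f₀ hΦ ε hε t p.1 p.2 := by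
  have hprob := isProbability_PP (ε := ε) h
  have h1 : Measurable fun q : (Src × Src) × Conf Ph =>
      sumHit Φ ε L t q.1.2 (fun V R => ind (M6.Be L hΦ hε t q.1.1 q.1.2 V R)) (wS (pts q.2)) := by
    have hV : MM.RS fun q : (Src × Src) × Conf Ph => (wS (pts q.2) : Set Src) :=
      RM.rs_wS measurable_snd
    have hV1 : MM.RS fun p : ((Src × Src) × Conf Ph) × CTree =>
        (rm (wS (pts p.1.2)) p.2 : Set Src) := RM.rs_rm (hV.comp measurable_fst) measurable_snd
    have he1 : Measurable fun p : ((Src × Src) × Conf Ph) × CTree => p.1.1.1 :=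
      measurable_fst.fst.fst
    have hm1 : Measurable fun p : ((Src × Src) × Conf Ph) × CTree => p.1.1.2 :=
      measurable_fst.fst.snd
    exact RM.measurable_sumHit' hΦ hε hV measurable_fst.snd
      (G := fun q V R => ind (M6.Be L hΦ hε t q.1.1 q.1.2 V R))
      (measurable_ind (M6.measurableSet_Be hV1 he1 hm1 measurable_snd))
  exact h1.lintegral_prod_right'

/-! ### The splitting -/

variable (η) in
/-- **The parts of the exceptional terms.** -/
theorem exc6_le6 (h : GoodDatum f₀ κ₀) (hΦ : IsPotential Φ) (hε : 0 < ε) (hθ : 0 < θ)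
    (e k : Src) : exc6 L hΦ hε f₀ η θ t e k ≤
      kA6 Φ L f₀ ε hε t e k + (kB6 Φ L f₀ ε hε t e k + (kC6 L f₀ hΦ θ ε hε t e k +
        (kD6 L f₀ hΦ ε hε t e k + (kE6 L f₀ hΦ ε hε t e k + kF6 L f₀ hΦ θ ε hε t e k)))) := by
  classical
  have h1 : ∫⁻ w, ind (TE L hΦ hε η t (wS (pts w)) e ∧
        I6 L hΦ hε θ t (IrrU Φ ε L (wS (pts w)) k t) (wS (pts w)) e k) ∂(PP f₀ ε) ≤
      kA6 Φ L f₀ ε hε t e k + (kB6 Φ L f₀ ε hε t e k + kC6 L f₀ hΦ θ ε hε t e k) := by
    refine (lintegral_mono fun w => I6_le (wS (pts w))).trans (le_of_eq ?_)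
    have m1 : Measurable fun w : Conf Ph => ind (¬M.Good Φ ε L (wS (pts w)) PB.sgl (K2 e k) t) :=
      measurable_ind (measurableSet_notGood hΦ hε (RM.rs_wS measurable_id) measurable_const
        measurable_const)
    have m2 : Measurable fun w : Conf Ph => ind (FB.IrrU Φ ε L (wS (pts w)) k t) :=
      measurable_ind (RM.measurableSet_IrrU hΦ hε (RM.rs_wS measurable_id)
        measurable_const measurable_const)
    rw [lintegral_add_left m1, lintegral_add_left m2]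
    unfold kA6 kB6 kC6
    congr 3
  refine (M6.exc6_le_parts h hΦ hε hθ e k).trans ?_
  refine (add_le_add (add_le_add h1 le_rfl) le_rfl).trans (le_of_eq ?_)
  unfold kD6 kE6 kF6
  simp only [add_assoc]

/-! ### The assembly -/

section main

variable {M₀ M₁ : ℝ}

/-- (X6b) as a negligible kernel. -/
theorem kneg_irrU (h : GoodDatum f₀ κ₀) (hΦ : IsPotential Φ) (hb : 0 < b) (hc : 0 ≤ c)
    (hcb : c < b) (hM₀ : 0 ≤ M₀) (hf : ∀ z, f₀ z ≤ M₀ * Real.exp (-b * ‖z.2‖ ^ 2))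
    (hM₁ : 0 ≤ M₁) (hmarg : ∀ v, ∫⁻ x, ENNReal.ofReal (f₀ (x, v)) ≤
      ENNReal.ofReal (M₁ * Real.exp (-b * ‖v‖ ^ 2)))
    {m q L N : ℕ} (hm : 0 < m) {T₀ : ℝ} (hT₀ : 0 ≤ T₀) :
    KNeg Φ f₀ b c m q L N T₀ (kB6 Φ L f₀) := by
  obtain ⟨Dl, h1, h2⟩ := x6b h hΦ hb hc hcb hM₀ hf hM₁ hmarg hm q L N hT₀
  exact ⟨Dl, h1, fun ε hε hε1 t ht s dl W e k CW _ hW => h2 ε hε hε1 t ht s dl W e k CW hW⟩

/-- **The statement `X1` from its parts.** -/
theorem x1_of (h : GoodDatum f₀ κ₀) (hΦ : IsPotential Φ) (hb : 0 < b) (hc : 0 ≤ c)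
    (hcb : c ≤ b / 2) (hM₀ : 0 ≤ M₀) (hf : ∀ z, f₀ z ≤ M₀ * Real.exp (-b * ‖z.2‖ ^ 2))
    (hM₁ : 0 ≤ M₁) (hmarg : ∀ v, ∫⁻ x, ENNReal.ofReal (f₀ (x, v)) ≤
      ENNReal.ofReal (M₁ * Real.exp (-b * ‖v‖ ^ 2)))
    (hC : ∀ (m q L N : ℕ) (T₀ θ : ℝ), 0 < m → 0 ≤ T₀ → 0 < θ →
      KNeg Φ f₀ b c m q L N T₀ (kC6 L f₀ hΦ θ))
    (hD : ∀ (m q L N : ℕ) (T₀ : ℝ), 0 < m → 0 ≤ T₀ → KNeg Φ f₀ b c m q L N T₀ (kD6 L f₀ hΦ))
    (hE : ∀ (m q L N : ℕ) (T₀ : ℝ), 0 < m → 0 ≤ T₀ → KNeg Φ f₀ b c m q L N T₀ (kE6 L f₀ hΦ))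
    (hF : ∀ (m q L N : ℕ) (T₀ θ : ℝ), 0 < m → 0 ≤ T₀ → 0 < θ →
      KNeg Φ f₀ b c m q L N T₀ (kF6 L f₀ hΦ θ)) : X1 hΦ f₀ b c := by
  intro m q L N T₀ η θ hm hT₀ _ hθ
  have h1 := kneg_good (q := q) (L := L) (N := N) h hΦ hb hc (by linarith) hM₀ hf hM₁ hmarg hm hT₀
  have h2 := kneg_irrU (q := q) (L := L) (N := N) h hΦ hb hc (by linarith) hM₀ hf hM₁ hmarg hm hT₀
  have h3 := hC m q L N T₀ θ hm hT₀ hθ
  have h4 := hD m q L N T₀ hm hT₀
  have h5 := hE m q L N T₀ hm hT₀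
  have h6 := hF m q L N T₀ θ hm hT₀ hθ
  have h7 := h5.add h6 h fun ε hε t => measurable_kE6 h hΦ hε t
  have h8 := h4.add h7 h fun ε hε t => measurable_kD6 h hΦ hε t
  have h9 := h3.add h8 h fun ε hε t => measurable_kC6 h hΦ hε θ t
  have h10 := h2.add h9 h fun ε hε t => measurable_kB6 h hΦ hε t
  have h11 := KNeg.add (K := kA6 Φ L f₀) h1 h10 h fun ε hε t => measurable_kA6 h hΦ hε t
  exact h11.mono fun ε hε t e k => exc6_le6 η h hΦ hε hθ e k

end main

end Vale.Agent.P119.PB
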