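import Vale.Agent.P119.PB.LawLim
import Vale.Agent.P119.IND.KNeg

/-!
# P119, block PROB: the marked lines interact over the gas (`helper228`)

* `lintegral_ind_le`;
* **`kneg_good`** (X6a): the kernel `∫ ind (¬Good U {e, k} t)` is negligible.
-/

open MeasureTheory Filter Topology Set
open scoped ENNReal NNReal

set_option linter.unusedSectionVars false

noncomputable section

namespace Vale.Agent.P119.PB

open M CTree KU FB RB AU FL GC MM IND PB.CT TL RelX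

variable {Φ : E3 → ℝ} {ε T t : ℝ} {L : ℕ} {f₀ : Ph → ℝ} {κ₀ b c : ℝ} {m q c₀ NB : ℕ}

theorem lintegral_ind_le {Ω : Type*} [MeasurableSpace Ω] (P : Measure Ω) (p : Ω → Prop) :
    ∫⁻ w, ind (p w) ∂P ≤ P {w | p w} := by
  classical
  refine le_trans (lintegral_mono fun w => ?_) (lintegral_indicator_one_le {w | p w})
  by_cases h : p w
  · rw [Set.indicator_of_mem (show w ∈ {w | p w} from h)]
    unfold ind
    rw [if_pos h]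
    exact le_rfl
  · unfold ind
    rw [if_neg h]
    exact zero_le

/-- Kernels which are probabilities of events which give `LawC`. -/
theorem kneg_of_lawC {M₀ M₁ : ℝ} (h : GoodDatum f₀ κ₀) (hΦ : IsPotential Φ) (hb : 0 < b)
    (hc : 0 ≤ c) (hcb : c + b / 4 < b) (hM₀ : 0 ≤ M₀)
    (hf : ∀ z, f₀ z ≤ M₀ * Real.exp (-b * ‖z.2‖ ^ 2)) (hM₁ : 0 ≤ M₁)
    (hmarg : ∀ v, ∫⁻ x, ENNReal.ofReal (f₀ (x, v)) ≤
      ENNReal.ofReal (M₁ * Real.exp (-b * ‖v‖ ^ 2)))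
    {m q L N : ℕ} (NJ : ℕ → ℕ) (hm : 0 < m) {T₀ : ℝ} (hT₀ : 0 ≤ T₀)
    (bad : ∀ ε : ℝ, 0 < ε → ℝ → Src → Src → Conf Ph → Prop)
    (hbad : ∀ (ε : ℝ) (hε : 0 < ε), ∀ t ∈ Icc 0 T₀, ∀ (T : Fin m → CTree) (l : Fin q → Src)
      (e k : Src), Base Φ ε T l → Mk Φ ε t N T l e k → e.2.2 ≤ L → k.2.2 ≤ L → ∀ J,
      ∀ᵐ w ∂(PP f₀ ε), bad ε hε t e k w →
        LawC hΦ hε L T₀ J 0 (NJ J) T l (pts w) (K2 e k)) :
    KNeg Φ f₀ b c m q L N T₀ fun ε hε t e k => ∫⁻ w, ind (bad ε hε t e k w) ∂(PP f₀ ε) := by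
  obtain ⟨Dl, hDl, h1⟩ := mlaw_lawC_lim h hΦ hb hc hcb hM₀ hf hM₁ hmarg m q L N NJ hm hT₀
  refine ⟨Dl, hDl, fun ε hε hε1 t ht s dl W e k CW hCW hW => ?_⟩
  refine le_trans ?_ (h1 ε hε hε1 t ht s dl W e k CW hCW hW
    (fun T l w => bad ε hε t (e T l) (k T l) w) fun J T l hne => ?_)
  · refine mul_le_mul' le_rfl (lintegral_mono fun T => lintegral_mono fun l =>
      mul_le_mul' le_rfl (mul_le_mul' le_rfl (lintegral_ind_le _ _)))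
  · exact hbad ε hε t ht T _ _ _ (hW.base T l hne) (hW.mrk T l hne) (hW.dep T l hne).1
      (hW.dep T l hne).2 J

/-- **The marked lines interact over the gas** (X6a). -/
theorem kneg_good {M₀ M₁ : ℝ} (h : GoodDatum f₀ κ₀) (hΦ : IsPotential Φ) (hb : 0 < b)
    (hc : 0 ≤ c) (hcb : c + b / 4 < b) (hM₀ : 0 ≤ M₀)
    (hf : ∀ z, f₀ z ≤ M₀ * Real.exp (-b * ‖z.2‖ ^ 2)) (hM₁ : 0 ≤ M₁)
    (hmarg : ∀ v, ∫⁻ x, ENNReal.ofReal (f₀ (x, v)) ≤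
      ENNReal.ofReal (M₁ * Real.exp (-b * ‖v‖ ^ 2)))
    {m q L N : ℕ} (hm : 0 < m) {T₀ : ℝ} (hT₀ : 0 ≤ T₀) :
    KNeg Φ f₀ b c m q L N T₀ fun ε _ t e k =>
      ∫⁻ w, ind (¬M.Good Φ ε L (wS (pts w)) PB.sgl (K2 e k) t) ∂(PP f₀ ε) :=
  kneg_of_lawC h hΦ hb hc hcb hM₀ hf hM₁ hmarg (fun J => N + 2 * Nb0 L J + 1) hm hT₀
    (fun ε _ t e k w => ¬M.Good Φ ε L (wS (pts w)) PB.sgl (K2 e k) t)
    fun _ hε _ ht _ _ _ _ hB hMk he hk J =>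
      (hasBase_of_mk hm hB ht.2 hMk hΦ hε he hk).not_good h hΦ hε hT₀ ht.2 J

end Vale.Agent.P119.PB
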