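import Vale.Agent.P119.IND.HitK
import Vale.Agent.P119.PB.MkHit
import Vale.Agent.P119.PB.RelCases2
import Vale.Agent.P119.PB.ExcE2
import Vale.Agent.P119.PB.ExcRL
import Vale.Agent.P119.RM.Exc6

/-!
# P119, block PROB: trees related to the tree which is hit in a second event (`helper384`)

* `P6`: the trees `R` which are counted in `relW (V + e + S) (V + e)`, where the tree `S` is hit by the
  line `k` in the world `V + e + S`; `A6`: the altered particles; `B6d`: the bad event, in the world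
  `V + R`;
* **`x6f_struct`**: the expected number of these trees over the laws of the marked pairs with one more
  tree which is hit by the second line is `o(μ²)`.
-/

open MeasureTheory Filter Topology Set
open scoped ENNReal NNReal

set_option linter.unusedSectionVars false

noncomputable section

namespace Vale.Agent.P119.PB

open M CTree KU FB RB AU FL GC MM IND PB.CT TL RelX

namespace X6f

variable {Φ : E3 → ℝ} {ε T t : ℝ} {L : ℕ} {f₀ : Ph → ℝ} {κ₀ b c : ℝ} {m q : ℕ} {e k : Src}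
  {S R : CTree} {U V : Finset Src}

/-- The time of the hit. -/
def hk (Φ : E3 → ℝ) (ε : ℝ) (k : Src) (S : CTree) : ℝ := hitT ε (k.2.1, ln Φ ε S)

/-- The lines. -/
def K6 (Φ : E3 → ℝ) (ε : ℝ) (e k : Src) (S : CTree) : Finset Src := by
  classical
  exact insert e (krs Φ ε S (hk Φ ε k S))

variable (L) in
open Classical in
/-- The tree `R` is counted in `relW`. -/
def P6 (hΦ : IsPotential Φ) (hε : 0 < ε) (t : ℝ) (e k : Src) (S : CTree) (V : Finset Src)
    (R : CTree) : Prop :=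
  Hit6 L hΦ hε t V e k S ∧ NoExc Φ ε L t k (insert e V) S ∧
    Rel L hΦ hε (addT (insert e V) S) (insert e V) t R

variable (L) in
open Classical in
/-- The particle `a` is altered by the lines of `S` in the world `V + e`. -/
def A6 (hΦ : IsPotential Φ) (hε : 0 < ε) (t : ℝ) (e k : Src) (S : CTree) (V : Finset Src)
    (a : Src) : Prop :=
  a ∈ (RB.Y Φ ε L hΦ hε).D (insert e V) (lnw Φ ε (insert e V) S (hk Φ ε k S)) t

variable (L) in
/-- The bad event of a tree `R`, over `V`. -/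
def Bd6 (hΦ : IsPotential Φ) (hε : 0 < ε) (t : ℝ) (e k : Src) (S : CTree) (V : Finset Src)
    (R : CTree) : Prop :=
  ¬GoodK Φ ε L V R (K6 Φ ε e k S) t ∨
    (P6 L hΦ hε t e k S (addT V R) R ∧ e ∉ R.leaves ∧
      ∀ a ∈ R.leaves, ¬A6 L hΦ hε t e k S (addT V R) a)

/-! ### Measurability -/

section meas

variable {X : Type} [MeasurableSpace X] {Vx : X → Finset Src} {ex kx : X → Src}
  {Sx Rx : X → CTree}

theorem measurable_hk (hΦ : IsPotential Φ) (hε : 0 < ε) (hkx : Measurable kx) (hS : Measurable Sx) :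
    Measurable fun x => hk Φ ε (kx x) (Sx x) :=
  measurable_hitT.comp ((measurable_fst.comp (measurable_snd.comp hkx)).prodMk
    ((M.measurable_ln hΦ hε.ne').comp hS))

theorem rs_K6 (hΦ : IsPotential Φ) (hε : 0 < ε) (he : Measurable ex) (hkx : Measurable kx)
    (hS : Measurable Sx) : MM.RS fun x => (K6 Φ ε (ex x) (kx x) (Sx x) : Set Src) := by
  classical
  refine ((MM.RS.singleton he).union (RLn.rs_krs hΦ hε hS (measurable_hk hΦ hε hkx hS))).congr
    fun x => ?_
  unfold K6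
  rw [Finset.coe_insert, Set.insert_eq]

theorem measurableSet_Bd6 (hΦ : IsPotential Φ) (hε : 0 < ε)
    (hV : MM.RS fun x => (Vx x : Set Src)) (he : Measurable ex) (hkx : Measurable kx)
    (hS : Measurable Sx) (hR : Measurable Rx) (t : ℝ) :
    MeasurableSet {x | Bd6 L hΦ hε t (ex x) (kx x) (Sx x) (Vx x) (Rx x)} := by
  classical
  have hU := rs_addT hV hR
  have hUe := RM.rs_ins hU he
  have h1 := (measurableSet_GoodK (L := L) hΦ hε hV hR (rs_K6 hΦ hε he hkx hS) t).compl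
  have h2 := RM.measurableSet_Hit6 (L := L) (hΦ := hΦ) (hε := hε) (t := t) hU he hkx hS
  have h3 := RM.measurableSet_NoExc (L := L) hΦ hε hUe hS hkx (measurable_const (a := t))
  have h4 := RM.measurableSet_Rel (hΦ := hΦ) (hε := hε) (L := L) (rs_addT hUe hS) hUe
    (measurable_const (a := t)) hR
  have h5 : MeasurableSet {x | ex x ∉ (Rx x).leaves} :=
    ((MM.RS.leaves hR).measurableSet_mem_of he).compl
  have h6 : MeasurableSet {p : X × Src | p.2 ∈ (RB.Y Φ ε L hΦ hε).D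
      (insert (ex p.1) (addT (Vx p.1) (Rx p.1)))
      (lnw Φ ε (insert (ex p.1) (addT (Vx p.1) (Rx p.1))) (Sx p.1)
        (X6f.hk Φ ε (kx p.1) (Sx p.1))) t} :=
    RM.measurableSet_mem_DY (hUe.comp measurable_fst)
      ((RM.rs_lnw hΦ hε hUe hS (measurable_hk hΦ hε hkx hS)).comp measurable_fst) measurable_snd
      measurable_const
  have h7 := (MM.RS.leaves hR).measurableSet_forall h6.compl
  exact h1.union ((h2.inter (h3.inter h4)).inter (h5.inter h7))

end meas

/-! ### The cases -/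

/-- **The cases of the bad event.** -/
theorem Bd6.cases (hΦ : IsPotential Φ) (hε : 0 < ε) (hV : ∀ a ∈ V, 0 ≤ a.1) (he0 : 0 ≤ e.1)
    (hR : CTree.ok Φ ε R) (hd : Disjoint (V : Set Src) R.leaves)
    (hdS : Disjoint (V : Set Src) S.leaves) (hRS : Disjoint S.leaves R.leaves)
    (hm : Meets ε (k.2.1, ln Φ ε S)) (hle : hk Φ ε k S ≤ t)
    (h : Bd6 L hΦ hε t e k S V R) :
    ¬GoodK Φ ε L V R (K6 Φ ε e k S) t ∨
      Drp Φ ε L V R (outs S) (rho Φ ε S (hk Φ ε k S)) t := by
  classical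
  rcases h with h | ⟨⟨h1, h2, h3⟩, h4, h5⟩
  · exact Or.inl h
  have hb := addT_birth (Φ := Φ) (ε := ε) hV hR
  have hdU : Disjoint (addT V R : Set Src) S.leaves := by
    rw [coe_addT, Set.disjoint_union_left]
    exact ⟨hdS, hRS.symm⟩
  rcases rel_hit6 (hΦ := hΦ) (hε := hε) hb he0 hdU h1 h2 hm hle h3 h4 with ⟨a, ha, h6⟩ | h6 | h6
  · exact absurd h6 (h5 a ha)
  · rw [rm_addT hd] at h6
    left
    unfold K6
    exact h6
  · rw [rm_addT hd] at h6
    exact Or.inr h6

theorem bd6_of_A6 (hΦ : IsPotential Φ) (hε : 0 < ε) {a : Src} (haV : a ∈ V) (hae : a ≠ e)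
    (h : A6 L hΦ hε t e k S V a) : Bd6 L hΦ hε t e k S (rm V (leaf a)) (leaf a) := by
  classical
  left
  unfold K6
  exact alt_hit6 haV hae h

/-! ### The law -/

theorem K6_card (hd : S.depth ≤ L) : (K6 Φ ε e k S).card ≤ 2 ^ (L + 2) + 2 := by
  classical
  unfold K6
  have h1 := RLn.card_krs_le (Φ := Φ) (ε := ε) hd (hk Φ ε k S)
  have h2 := Finset.card_insert_le e (krs Φ ε S (hk Φ ε k S))
  omega

open Classical in
/-- **Trees related to the tree which is hit in a second event**, over the laws of the marked pairs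
with one more tree. -/
theorem x6f_struct {M₀ M₁ : ℝ} (h : GoodDatum f₀ κ₀) (hΦ : IsPotential Φ) (hb : 0 < b)
    (hc : 0 ≤ c) (hcb : c ≤ b / 2) (hM₀ : 0 ≤ M₀)
    (hf : ∀ z, f₀ z ≤ M₀ * Real.exp (-b * ‖z.2‖ ^ 2)) (hM₁ : 0 ≤ M₁)
    (hmarg : ∀ v, ∫⁻ x, ENNReal.ofReal (f₀ (x, v)) ≤
      ENNReal.ofReal (M₁ * Real.exp (-b * ‖v‖ ^ 2)))
    (m q L N : ℕ) {T₀ : ℝ} (hT₀ : 0 ≤ T₀) :
    ∃ Dl : ℝ → ℝ≥0∞, Tendsto Dl (𝓝[>] 0) (𝓝 0) ∧ ∀ (ε : ℝ) (hε : 0 < ε), ε ≤ 1 →
      ∀ t ∈ Icc 0 T₀, ∀ (s : Fin q → ℝ) (dl : Fin q → ℕ)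
      (W : (Fin m → CTree) → (Fin q → Ph) → ℝ≥0∞) (e k : (Fin m → CTree) → (Fin q → Ph) → Src)
      (CW : ℝ≥0∞), CW ≠ ∞ → MLaw Φ ε t c L N s dl W e k CW →
      ∀ W' : (Fin (m + 1) → CTree) → (Fin q → Ph) → ℝ≥0∞,
      (Measurable fun p : (Fin (m + 1) → CTree) × (Fin q → Ph) => W' p.1 p.2) →
      (∀ T l, W' T l ≤ W (Fin.init T) l) →
      (∀ T l, W' T l ≠ 0 → Base Φ ε T (lns s dl l) ∧
        MH.HK Φ ε L t (k (Fin.init T) l) (T (Fin.last m))) →
      muE ε ^ q * ∫⁻ T, ∫⁻ l : Fin q → Ph, (∏ j, g1 b (l j).2) * (W' T l *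
        ∫⁻ w, ind (Hit6 L hΦ hε t (wS (pts w)) (e (Fin.init T) l) (k (Fin.init T) l)
            (T (Fin.last m)) ∧ NoExc Φ ε L t (k (Fin.init T) l)
              (insert (e (Fin.init T) l) (wS (pts w))) (T (Fin.last m))) *
          relW L hΦ hε (addT (insert (e (Fin.init T) l) (wS (pts w))) (T (Fin.last m)))
            (insert (e (Fin.init T) l) (wS (pts w))) t ∂(PP f₀ ε)) ∂volume
          ∂(Measure.pi fun _ : Fin (m + 1) => tree (inten f₀ ε) L) ≤
      CW * (muE ε ^ 2 * Dl ε) := by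
  obtain ⟨Dl, hDl, h1⟩ := real_lim h hΦ hb hc hcb hM₀ hf hM₁ hmarg (m + 1) q L (2 ^ (L + 2) + 2)
    1 1 (N + 2 * 2 ^ (L + 2) + 2) hT₀
  refine ⟨Dl, hDl, fun ε hε hε1 t ht s dl W e k CW hCW hM W' hW' hle hsup => ?_⟩
  have hinit : Measurable fun p : (Fin (m + 1) → CTree) × (Fin q → Ph) =>
      ((Fin.init p.1 : Fin m → CTree), p.2) :=
    (measurable_pi_lambda _ fun j => (measurable_pi_apply _).comp measurable_fst).prodMk
      measurable_snd
  have hW0 : ∀ {T l}, W' T l ≠ 0 → W (Fin.init T) l ≠ 0 := fun {T l} hTl h0 =>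
    hTl (le_antisymm ((hle T l).trans h0.le) zero_le)
  have hen : ∀ {T l}, W' T l ≠ 0 → enB (Fin.init T : Fin m → CTree) l ≤ enB T l := fun {T l} _ => by
    rw [MH.enB_init]
    exact le_add_of_nonneg_right (enT_nonneg _)
  have hE : ∀ {T l}, W' T l ≠ 0 → ‖(e (Fin.init T) l).2.1.2‖ ^ 2 ≤ enB T l := fun {T l} hTl =>
    ((Mk.energy hΦ hε (hM.base _ _ (hW0 hTl)) (hM.mrk _ _ (hW0 hTl))).1).trans (hen hTl)
  have h2 := h1 ε hε hε1 t ht.1 ht.2 s hM.nonneg dl W' hW' CW hCW
    (fun T l => (hle T l).trans ((hM.le _ _).trans (mul_le_mul_right (ENNReal.ofReal_le_ofReal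
      (Real.exp_le_exp.2 (mul_le_mul_of_nonneg_left (by
        rw [MH.enB_init]
        exact le_add_of_nonneg_right (enT_nonneg _)) hc))) _)))
    (fun T l hTl => (hsup T l hTl).1)
    (fun T l => K6 Φ ε (e (Fin.init T) l) (k (Fin.init T) l) (T (Fin.last m)))
    (fun T _ => outs (T (Fin.last m)))
    (fun T l => rho Φ ε (T (Fin.last m)) (hk Φ ε (k (Fin.init T) l) (T (Fin.last m))))
    (fun T l hTl => ?_) (fun T l hTl => ?_)
    (fun T l V R => Bd6 L hΦ hε t (e (Fin.init T) l) (k (Fin.init T) l) (T (Fin.last m)) V R)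
    ?_ (fun T l hTl w R hfr hR hB hRw _ hbd => ?_)
    (fun T l => {e (Fin.init T) l}) (fun T l hTl => ?_)
    (fun T l w => insert (e (Fin.init T) l) (wS (pts w)))
    (fun T l w R => P6 L hΦ hε t (e (Fin.init T) l) (k (Fin.init T) l) (T (Fin.last m))
      (wS (pts w)) R) (fun T l hTl w R _ hP => ⟨hP.2.2.alive, hP.2.2.ext_le⟩)
    (fun T l hTl w a ha => ?_)
    (fun T l w a => A6 L hΦ hε t (e (Fin.init T) l) (k (Fin.init T) l) (T (Fin.last m))
      (wS (pts w)) a) (fun T l hTl w R hfr hP hR => ?_) (fun T l hTl w hfr a ha hA => ?_)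
  · -- the result
    refine le_trans (le_of_eq ?_) h2
    congr 1
    refine lintegral_congr fun T => lintegral_congr fun l => ?_
    congr 2
    refine lintegral_congr fun w => ?_
    by_cases h3 : Hit6 L hΦ hε t (wS (pts w)) (e (Fin.init T) l) (k (Fin.init T) l)
            (T (Fin.last m)) ∧ NoExc Φ ε L t (k (Fin.init T) l)
              (insert (e (Fin.init T) l) (wS (pts w))) (T (Fin.last m))
    · rw [ind_of h3, one_mul, relW_eq]
      refine tsum_congr fun R => ?_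
      by_cases h4 : Rel L hΦ hε (addT (insert (e (Fin.init T) l) (wS (pts w))) (T (Fin.last m)))
            (insert (e (Fin.init T) l) (wS (pts w))) t R
      · rw [if_pos h4, if_pos ⟨h3.1, h3.2, h4⟩]
      · rw [if_neg h4, if_neg fun h5 => h4 h5.2.2]
    · rw [ind_of_not h3, zero_mul]
      exact (ENNReal.tsum_eq_zero.2 fun R => if_neg fun h5 => h3 ⟨h5.1, h5.2.1⟩).symm
  · -- the base
    obtain ⟨h3, h4⟩ := hsup T l hTl
    have h5 : (Fin.snoc (Fin.init T : Fin m → CTree) (T (Fin.last m)) : Fin (m + 1) → CTree) = T :=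
      Fin.snoc_init_self T
    have h6 := (hM.mrk _ _ (hW0 hTl)).hasBaseK (L := L) (R := T (Fin.last m)) hΦ hε
      (by rw [h5]; exact h3) (hM.dep _ _ (hW0 hTl)).1 h4.depth h4.meets h4.birth h4.ext h4.le ht.2
    rw [h5] at h6
    unfold K6
    exact h6
  · -- the lines
    obtain ⟨h3, h4⟩ := hsup T l hTl
    refine ⟨K6_card h4.depth, fun a ha => ?_⟩
    unfold K6 at ha
    rcases Finset.mem_insert.1 ha with rfl | ha
    · exact hE hTl
    · refine (RLn.krs_energy hΦ hε h4.ok ha).trans ?_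
      rw [MH.enB_init]
      exact le_add_of_nonneg_left (enB_nonneg _ _)
  · -- measurability
    have g1 : Measurable fun p : (((Fin (m + 1) → CTree) × (Fin q → Ph)) × CTree) × Conf Ph =>
        p.1.1 := measurable_fst.comp measurable_fst
    exact measurableSet_Bd6 hΦ hε (RM.rs_wS measurable_snd) (hM.meas_e.comp (hinit.comp g1))
      (hM.meas_k.comp (hinit.comp g1))
      ((measurable_pi_apply _).comp (measurable_fst.comp g1))
      (measurable_snd.comp measurable_fst) t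
  · -- the cases
    obtain ⟨h3, h4⟩ := hsup T l hTl
    refine Bd6.cases hΦ hε (fun a ha => wS_nonneg _ a ha)
      ((Mk.births hΦ hε (hM.mrk _ _ (hW0 hTl))).1.1) hR.1 hRw.symm (hfr.1 (Fin.last m)).symm ?_
      h4.meets h4.le hbd
    have h5 := hB.disj (Fin.castSucc (Fin.last m)) (Fin.last (m + 1))
      (Fin.castSucc_lt_last _).ne
    rwa [Fin.snoc_castSucc, Fin.snoc_last] at h5
  · -- the particle `e`
    refine ⟨(Finset.card_singleton _).le, ?_⟩
    unfold EW
    rw [Finset.sum_singleton, Nat.cast_one, one_mul]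
    linarith [hE hTl]
  · rcases Finset.mem_insert.1 ha with rfl | ha
    · exact Or.inr (Finset.mem_singleton_self _)
    · exact Or.inl ha
  · by_cases h3 : ∃ a ∈ R.leaves, A6 L hΦ hε t (e (Fin.init T) l) (k (Fin.init T) l)
        (T (Fin.last m)) (wS (pts w)) a
    · exact Or.inl h3
    · push Not at h3
      refine Or.inr (Or.inr ?_)
      rw [addT_rm hR]
      refine ⟨hP, fun h4 => ?_, h3⟩
      refine hfr.2.2 _ ?_ (Finset.mem_coe.1 (hR h4))
      unfold K6
      exact Finset.mem_insert_self _ _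
  · refine bd6_of_A6 hΦ hε ha (fun hae => hfr.2.2 _ ?_ (hae ▸ ha)) hA
    unfold K6
    exact Finset.mem_insert_self _ _

end X6f

end Vale.Agent.P119.PB
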